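import Claimed.Agent.R300.DomWalk

/-!
# R300 / Dom: (W2) no nonempty reduced closed walk implies forest (chain sense)
-/

namespace Claimed.Agent.R300

open Finsupp
open scoped Classical

variable {V E : Type*}

/-- Every dart in the support of a cycle has a successor in the support which is not its reverse. -/
theorem dom_cycle_succ (src tgt : E → V) (z : E →₀ ℤ) (hz : domBd src tgt z = 0)
    (d : E × Bool) (hd : d.1 ∈ z.support) :
    ∃ d' : E × Bool, d'.1 ∈ z.support ∧ domDs src tgt d' = domDt src tgt d ∧
      ¬ (d'.1 = d.1 ∧ d'.2 = !d.2) := by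
  by_cases hloop : src d.1 = tgt d.1
  · refine ⟨d, hd, ?_, ?_⟩
    · simp [domDs, domDt, hloop]
    · rintro ⟨-, h2⟩
      cases hb : d.2 <;> simp [hb] at h2
  · set y := domDt src tgt d with hy
    have h0 : domBd src tgt z y = 0 := by rw [hz]; rfl
    rw [domBd_apply, Finsupp.sum] at h0
    by_contra hcon
    push Not at hcon
    have hterm : ∀ e' ∈ z.support, e' ≠ d.1 →
        z e' * ((if tgt e' = y then 1 else 0) - (if src e' = y then 1 else 0)) = 0 := by
      intro e' he' hne
      have h1 : src e' ≠ y := by
        intro h1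
        exact hne (hcon (e', true) he' (by simp [domDs, h1])).1
      have h2 : tgt e' ≠ y := by
        intro h2
        exact hne (hcon (e', false) he' (by simp [domDs, h2])).1
      simp [h1, h2]
    rw [Finset.sum_eq_single_of_mem d.1 hd hterm] at h0
    have hzd : z d.1 ≠ 0 := Finsupp.mem_support_iff.1 hd
    rcases mul_eq_zero.1 h0 with h | h
    · exact hzd h
    · obtain ⟨e, b⟩ := d
      cases b
      · have h1 : y = src e := by simp [hy, domDt]
        have h2 : tgt e ≠ src e := fun h => hloop h.symm
        simp [h1, h2] at h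
      · have h1 : y = tgt e := by simp [hy, domDt]
        simp [h1, hloop] at h

/-- the list of darts obtained by iterating a successor map -/
def domIterWalk {D : Type*} (nx : D → D) : D → ℕ → List D
  | _, 0 => []
  | d, n + 1 => d :: domIterWalk nx (nx d) n

theorem domIterWalk_ne_nil {D : Type*} (nx : D → D) (d : D) {n : ℕ} (hn : n ≠ 0) :
    domIterWalk nx d n ≠ [] := by
  cases n with
  | zero => exact absurd rfl hn
  | succ n => simp [domIterWalk]

theorem domIterWalk_mem {D : Type*} (nx : D → D) (P : D → Prop) (hP : ∀ d, P d → P (nx d))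
    (n : ℕ) : ∀ d, P d → ∀ d' ∈ domIterWalk nx d n, P d' := by
  induction n with
  | zero => intro d _ d' hd'; simp [domIterWalk] at hd'
  | succ n ih =>
    intro d hd d' hd'
    rcases List.mem_cons.1 hd' with h | h
    · rw [h]; exact hd
    · exact ih (nx d) (hP d hd) d' h

theorem domIterWalk_isChain {D : Type*} (nx : D → D) (P : D → Prop) (R : D → D → Prop)
    (hP : ∀ d, P d → P (nx d)) (hR : ∀ d, P d → R d (nx d)) (n : ℕ) :
    ∀ d, P d → (domIterWalk nx d n).IsChain R := by
  induction n with
  | zero => intro d _; exact List.IsChain.nil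
  | succ n ih =>
    intro d hd
    have h1 := ih (nx d) (hP d hd)
    cases n with
    | zero => exact List.IsChain.singleton _
    | succ n => exact List.IsChain.cons_cons (hR d hd) h1

theorem domIterWalk_isWalk (src tgt : E → V) (nx : E × Bool → E × Bool) (P : E × Bool → Prop)
    (hP : ∀ d, P d → P (nx d))
    (hw : ∀ d, P d → domDs src tgt (nx d) = domDt src tgt d) (n : ℕ) :
    ∀ d, P d → DomIsWalk src tgt (domDs src tgt d) (domIterWalk nx d n)
      (domDs src tgt (nx^[n] d)) := by
  induction n with
  | zero => intro d _; exact rfl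
  | succ n ih =>
    intro d hd
    refine ⟨rfl, ?_⟩
    rw [← hw d hd, Function.iterate_succ_apply]
    exact ih (nx d) (hP d hd)

/-- (W2) A set of edges without nonempty reduced closed walks is a forest. -/
theorem dom_forest_of_no_reduced_closed_walk (src tgt : E → V) {F : Set E}
    (h : ∀ x l, l ≠ [] → DomIsWalk src tgt x l x → DomReduced l → (∀ d ∈ l, d.1 ∈ F) → False) :
    DomForest src tgt F := by
  intro z hzF hz
  by_contra hne
  obtain ⟨e0, he0⟩ : ∃ e, e ∈ z.support := by
    have : z.support.Nonempty := Finsupp.support_nonempty_iff.2 hne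
    exact this
  have hsucc := dom_cycle_succ src tgt z hz
  choose! nx hnx1 hnx2 hnx3 using hsucc
  set P : E × Bool → Prop := fun d => d.1 ∈ z.support with hPdef
  have hP : ∀ d, P d → P (nx d) := fun d hd => hnx1 d hd
  have hPit : ∀ n, P (nx^[n] (e0, true)) := by
    intro n
    induction n with
    | zero => exact he0
    | succ n ih => rw [Function.iterate_succ_apply']; exact hP _ ih
  have hfinset : {d : E × Bool | P d}.Finite := by
    have h1 := (z.support.finite_toSet.prod (Set.finite_univ : (Set.univ : Set Bool).Finite))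
    exact h1.subset (fun d hd => ⟨hd, trivial⟩)
  have : Finite {d : E × Bool // P d} := hfinset.to_subtype
  obtain ⟨i, j, hij, hfij⟩ := Finite.exists_ne_map_eq_of_infinite
    (fun n : ℕ => (⟨nx^[n] (e0, true), hPit n⟩ : {d : E × Bool // P d}))
  have hfij' : nx^[i] (e0, true) = nx^[j] (e0, true) := congrArg Subtype.val hfij
  -- without loss of generality `i < j`
  have key : ∀ i j : ℕ, i < j → nx^[i] (e0, true) = nx^[j] (e0, true) → False := by
    intro i j hlt heq
    set d := nx^[i] (e0, true) with hd
    have hPd : P d := hPit i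
    have hn : j - i ≠ 0 := by omega
    have hclose : nx^[j - i] d = d := by
      rw [hd, ← Function.iterate_add_apply, Nat.sub_add_cancel hlt.le, ← heq]
    have hwalk := domIterWalk_isWalk src tgt nx P hP (fun d hd => hnx2 d hd) (j - i) d hPd
    rw [hclose] at hwalk
    refine h _ _ (domIterWalk_ne_nil nx d hn) hwalk ?_ ?_
    · exact domIterWalk_isChain nx P _ hP (fun d hd => hnx3 d hd) (j - i) d hPd
    · intro d' hd'
      exact hzF (domIterWalk_mem nx P hP (j - i) d hPd d' hd')
  rcases lt_or_gt_of_ne hij with hlt | hlt
  · exact key i j hlt hfij'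
  · exact key j i hlt hfij'.symm

end Claimed.Agent.R300
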