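import Claimed.Agent.R300.DomWalk

/-!
# R300 / Dom: (B) cardinality of balls in a multigraph of bounded degree
-/

namespace Claimed.Agent.R300

open Finsupp
open scoped Classical

variable {V E : Type*}

/-- Finset version of the ball bound. -/
theorem dom_ball_finset (src tgt : E → V) (Δ : ℕ)
    (hΔ : ∀ x, {d : E × Bool | domDs src tgt d = x}.encard ≤ Δ) (R : ℕ) :
    ∀ x : V, ∃ s : Finset V,
      (∀ y, (∃ l, DomIsWalk src tgt x l y ∧ l.length ≤ R) → y ∈ s) ∧ s.card ≤ (Δ + 1) ^ R := by
  induction R with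
  | zero =>
    intro x
    refine ⟨{x}, ?_, by simp⟩
    rintro y ⟨l, hl, hlen⟩
    have : l = [] := List.eq_nil_of_length_eq_zero (Nat.le_zero.1 hlen)
    subst this
    have hxy : x = y := hl
    simp [hxy]
  | succ R ih =>
    intro x
    choose S hS hcard using ih
    have hfin : {d : E × Bool | domDs src tgt d = x}.Finite :=
      Set.finite_of_encard_le_coe (hΔ x)
    have hDcard : hfin.toFinset.card ≤ Δ := by
      have h1 := hΔ x
      rw [hfin.encard_eq_coe_toFinset_card] at h1
      exact_mod_cast h1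
    refine ⟨{x} ∪ hfin.toFinset.biUnion (fun d => S (domDt src tgt d)), ?_, ?_⟩
    · rintro y ⟨l, hl, hlen⟩
      cases l with
      | nil =>
        have hxy : x = y := hl
        simp [hxy]
      | cons d l =>
        obtain ⟨h1, h2⟩ := hl
        refine Finset.mem_union_right _ (Finset.mem_biUnion.2 ⟨d, ?_, ?_⟩)
        · simpa using h1
        · exact hS _ y ⟨l, h2, by simpa using hlen⟩
    · calc ({x} ∪ hfin.toFinset.biUnion (fun d => S (domDt src tgt d))).card
          ≤ ({x} : Finset V).card + (hfin.toFinset.biUnion (fun d => S (domDt src tgt d))).card :=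
            Finset.card_union_le _ _
        _ ≤ 1 + hfin.toFinset.card * (Δ + 1) ^ R := by
            refine Nat.add_le_add (by simp) ?_
            exact Finset.card_biUnion_le_card_mul _ _ _ (fun d _ => hcard _)
        _ ≤ 1 + Δ * (Δ + 1) ^ R := by
            exact Nat.add_le_add_left (Nat.mul_le_mul_right _ hDcard) _
        _ ≤ (Δ + 1) ^ (R + 1) := by
            have h1 : 1 ≤ (Δ + 1) ^ R := Nat.one_le_pow _ _ (Nat.succ_pos _)
            rw [pow_succ]
            nlinarith

/-- (B) Balls in a multigraph of bounded degree. -/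
theorem dom_ball_card_le (src tgt : E → V) (Δ : ℕ)
    (hΔ : ∀ x, {d : E × Bool | domDs src tgt d = x}.encard ≤ Δ) (x : V) (R : ℕ) :
    {y | ∃ l, DomIsWalk src tgt x l y ∧ l.length ≤ R}.encard ≤ ((Δ + 1) ^ R : ℕ) := by
  obtain ⟨s, hs, hcard⟩ := dom_ball_finset src tgt Δ hΔ R x
  calc {y | ∃ l, DomIsWalk src tgt x l y ∧ l.length ≤ R}.encard
      ≤ (↑s : Set V).encard := Set.encard_le_encard (fun y hy => hs y hy)
    _ = (s.card : ℕ∞) := Set.encard_coe_eq_coe_finsetCard s
    _ ≤ ((Δ + 1) ^ R : ℕ) := by exact_mod_cast hcard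

/-- Balls in a multigraph of bounded degree are finite. -/
theorem dom_ball_finite (src tgt : E → V) (Δ : ℕ)
    (hΔ : ∀ x, {d : E × Bool | domDs src tgt d = x}.encard ≤ Δ) (x : V) (R : ℕ) :
    {y | ∃ l, DomIsWalk src tgt x l y ∧ l.length ≤ R}.Finite :=
  Set.finite_of_encard_le_coe (dom_ball_card_le src tgt Δ hΔ x R)

/-- `ncard` version of the ball bound. -/
theorem dom_ball_ncard_le (src tgt : E → V) (Δ : ℕ)
    (hΔ : ∀ x, {d : E × Bool | domDs src tgt d = x}.encard ≤ Δ) (x : V) (R : ℕ) :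
    {y | ∃ l, DomIsWalk src tgt x l y ∧ l.length ≤ R}.ncard ≤ (Δ + 1) ^ R := by
  have h1 := dom_ball_card_le src tgt Δ hΔ x R
  rw [← (dom_ball_finite src tgt Δ hΔ x R).cast_ncard_eq] at h1
  exact_mod_cast h1

end Claimed.Agent.R300
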