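import Claimed.Agent.R300.DomWalk

/-!
# R300 / Dom: operations on walks, uniqueness of reduced walks, and the ball forest theorem

* `DomIsWalk.append`, `DomIsWalk.rev`, `dom_exists_reduced`: concatenation, reversal, reduction.
* `dom_closed_of_two_reduced`: two different reduced walks `y ⟶ a` give a nonempty reduced closed
  walk based at `a`, not longer than the two walks together.
* `dom_forest_of_child`: a set of edges with a rank function and an injective choice of the higher
  endpoint is a forest (chain sense).
* `dom_ball_star_forest`: if there is no nonempty reduced closed walk of length `≤ 2 R + 2` based at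
  `a`, then the edges with an endpoint in the ball of radius `R` about `a` form a forest.
-/

namespace Claimed.Agent.R300

open Finsupp
open scoped Classical

variable {V E : Type*}

/-- the reverse of a dart -/
def domDrev (d : E × Bool) : E × Bool := (d.1, !d.2)

@[simp] theorem domDrev_domDrev (d : E × Bool) : domDrev (domDrev d) = d := by
  obtain ⟨e, b⟩ := d
  simp [domDrev]

@[simp] theorem domDs_domDrev (src tgt : E → V) (d : E × Bool) :
    domDs src tgt (domDrev d) = domDt src tgt d := by
  obtain ⟨e, b⟩ := d
  cases b <;> simp [domDs, domDt, domDrev]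

@[simp] theorem domDt_domDrev (src tgt : E → V) (d : E × Bool) :
    domDt src tgt (domDrev d) = domDs src tgt d := by
  obtain ⟨e, b⟩ := d
  cases b <;> simp [domDs, domDt, domDrev]

theorem dom_red_iff (d d' : E × Bool) : ¬ (d'.1 = d.1 ∧ d'.2 = !d.2) ↔ d' ≠ domDrev d := by
  obtain ⟨e, b⟩ := d
  obtain ⟨e', b'⟩ := d'
  simp [domDrev, Prod.ext_iff]

/-- the reverse of a list of darts -/
def domWrev (l : List (E × Bool)) : List (E × Bool) := (l.map domDrev).reverse

@[simp] theorem domWrev_nil : domWrev ([] : List (E × Bool)) = [] := rfl

theorem domWrev_cons (d : E × Bool) (l : List (E × Bool)) :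
    domWrev (d :: l) = domWrev l ++ [domDrev d] := by
  simp [domWrev]

@[simp] theorem domWrev_length (l : List (E × Bool)) : (domWrev l).length = l.length := by
  simp [domWrev]

theorem domWrev_mem {l : List (E × Bool)} {d : E × Bool} (h : d ∈ domWrev l) :
    domDrev d ∈ l := by
  simp only [domWrev, List.mem_reverse, List.mem_map] at h
  obtain ⟨d', h1, h2⟩ := h
  rw [← h2, domDrev_domDrev]
  exact h1

theorem DomIsWalk.append {src tgt : E → V} {x y z : V} {l₁ l₂ : List (E × Bool)}
    (h₁ : DomIsWalk src tgt x l₁ y) (h₂ : DomIsWalk src tgt y l₂ z) :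
    DomIsWalk src tgt x (l₁ ++ l₂) z := by
  induction l₁ generalizing x with
  | nil =>
    have : x = y := h₁
    rw [this]; exact h₂
  | cons d l ih => exact ⟨h₁.1, ih h₁.2⟩

theorem DomIsWalk.rev {src tgt : E → V} {x y : V} {l : List (E × Bool)}
    (h : DomIsWalk src tgt x l y) : DomIsWalk src tgt y (domWrev l) x := by
  induction l generalizing x with
  | nil => exact (show x = y from h).symm
  | cons d l ih =>
    rw [domWrev_cons]
    refine (ih h.2).append ⟨by simp, ?_⟩
    show domDt src tgt (domDrev d) = x
    rw [domDt_domDrev]; exact h.1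

theorem DomReduced.rev {l : List (E × Bool)} (h : DomReduced l) : DomReduced (domWrev l) := by
  unfold DomReduced domWrev at *
  rw [List.isChain_reverse, List.isChain_map]
  refine h.imp ?_
  rintro ⟨e, b⟩ ⟨e', b'⟩ h1 ⟨h2, h3⟩
  apply h1
  simp only [domDrev] at h2 h3
  refine ⟨h2.symm, ?_⟩
  show b' = !b
  revert h3
  cases b <;> cases b' <;> decide

theorem DomReduced.tail {d : E × Bool} {l : List (E × Bool)} (h : DomReduced (d :: l)) :
    DomReduced l :=
  (List.isChain_cons.1 h).2

/-- Every walk can be reduced. -/
theorem dom_exists_reduced (src tgt : E → V) {x y : V} {l : List (E × Bool)}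
    (h : DomIsWalk src tgt x l y) :
    ∃ l', DomIsWalk src tgt x l' y ∧ DomReduced l' ∧ l'.length ≤ l.length ∧ ∀ d ∈ l', d ∈ l := by
  induction l generalizing x with
  | nil => exact ⟨[], h, List.IsChain.nil, le_rfl, fun d hd => hd⟩
  | cons d l ih =>
    obtain ⟨l', h1, h2, h3, h4⟩ := ih h.2
    cases l' with
    | nil =>
      exact ⟨[d], ⟨h.1, h1⟩, List.IsChain.singleton _, by simp, by simp⟩
    | cons d' l'' =>
      by_cases hd : d' = domDrev d
      · refine ⟨l'', ?_, h2.tail, ?_, ?_⟩
        · have h5 := h1.2
          rw [hd, domDt_domDrev, h.1] at h5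
          exact h5
        · simp only [List.length_cons] at h3 ⊢
          omega
        · intro d₁ hd₁
          exact List.mem_cons_of_mem _ (h4 d₁ (List.mem_cons_of_mem _ hd₁))
      · refine ⟨d :: d' :: l'', ⟨h.1, h1⟩, List.IsChain.cons_cons ((dom_red_iff d d').2 hd) h2,
          ?_, ?_⟩
        · simp only [List.length_cons] at h3 ⊢
          omega
        · intro d₁ hd₁
          rcases List.mem_cons.1 hd₁ with h5 | h5
          · rw [h5]; exact List.mem_cons_self
          · exact List.mem_cons_of_mem _ (h4 d₁ h5)

/-- Two different reduced walks from `y` to `a` give a nonempty reduced closed walk at `a`. -/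
theorem dom_closed_of_two_reduced (src tgt : E → V) {a : V} (l₁ : List (E × Bool)) :
    ∀ (l₂ : List (E × Bool)) (y : V), DomIsWalk src tgt y l₁ a → DomIsWalk src tgt y l₂ a →
      DomReduced l₁ → DomReduced l₂ → l₁ ≠ l₂ →
      ∃ l, l ≠ [] ∧ DomIsWalk src tgt a l a ∧ DomReduced l ∧ l.length ≤ l₁.length + l₂.length ∧
        ∀ d ∈ l, d.1 ∈ (l₁ ++ l₂).map Prod.fst := by
  induction l₁ with
  | nil =>
    intro l₂ y h1 h2 _ h4 hne
    have hy : y = a := h1
    rw [hy] at h2
    refine ⟨l₂, fun h => hne h.symm, h2, h4, by simp, ?_⟩
    intro d hd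
    rw [List.nil_append]
    exact List.mem_map_of_mem hd
  | cons d₁ l₁ ih =>
    intro l₂ y h1 h2 h3 h4 hne
    cases l₂ with
    | nil =>
      have hy : y = a := h2
      rw [hy] at h1
      refine ⟨d₁ :: l₁, by simp, h1, h3, by simp, ?_⟩
      intro d hd
      rw [List.append_nil]
      exact List.mem_map_of_mem hd
    | cons d₂ l₂ =>
      by_cases hd : d₁ = d₂
      · subst hd
        obtain ⟨l, g1, g2, g3, g4, g5⟩ := ih l₂ _ h1.2 h2.2 h3.tail h4.tail
          (fun h => hne (by rw [h]))
        refine ⟨l, g1, g2, g3, ?_, ?_⟩
        · simp only [List.length_cons]; omega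
        · intro d hd
          have := g5 d hd
          simp only [List.map_append, List.mem_append, List.map_cons, List.mem_cons] at this ⊢
          tauto
      · refine ⟨domWrev (d₁ :: l₁) ++ d₂ :: l₂, by simp, h1.rev.append h2, ?_, by simp, ?_⟩
        · refine List.IsChain.append h3.rev h4 ?_
          intro x hx z hz
          rw [domWrev_cons] at hx
          simp only [List.getLast?_append, List.getLast?_singleton, Option.some_or,
            Option.mem_def, Option.some.injEq] at hx
          simp only [List.head?_cons, Option.mem_def, Option.some.injEq] at hz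
          rw [dom_red_iff, ← hx, ← hz, domDrev_domDrev]
          exact fun h => hd h.symm
        · intro d hd'
          rcases List.mem_append.1 hd' with h5 | h5
          · have h6 := domWrev_mem h5
            have h7 : (domDrev d).1 ∈ (d₁ :: l₁).map Prod.fst := List.mem_map_of_mem h6
            rw [List.map_append]
            exact List.mem_append_left _ h7
          · rw [List.map_append]
            exact List.mem_append_right _ (List.mem_map_of_mem h5)

/-- A rank function together with an injective choice of the higher endpoint of every edge: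
the set of edges is a forest. `ch e = true` means that the higher endpoint of `e` is `tgt e`. -/
theorem dom_forest_of_child (src tgt : E → V) (F : Set E) (n : V → ℕ) (ch : E → Bool)
    (h1 : ∀ e ∈ F, n (domDs src tgt (e, ch e)) < n (domDt src tgt (e, ch e)))
    (h2 : ∀ e ∈ F, ∀ e' ∈ F, domDt src tgt (e, ch e) = domDt src tgt (e', ch e') → e = e') :
    DomForest src tgt F := by
  intro c hcF hc
  by_contra hne
  have hne' : c.support.Nonempty := Finsupp.support_nonempty_iff.2 hne
  obtain ⟨e0, he0, hmax⟩ := Finset.exists_max_image c.support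
    (fun e => n (domDt src tgt (e, ch e))) hne'
  set w := domDt src tgt (e0, ch e0) with hw
  have h0 : domBd src tgt c w = 0 := by rw [hc]; rfl
  rw [domBd_apply, Finsupp.sum] at h0
  have hterm : ∀ e ∈ c.support, e ≠ e0 →
      c e * ((if tgt e = w then 1 else 0) - (if src e = w then 1 else 0)) = 0 := by
    intro e he hee
    have ha : domDt src tgt (e, ch e) ≠ w := fun h => hee (h2 e (hcF he) e0 (hcF he0) h)
    have hb : domDs src tgt (e, ch e) ≠ w := by
      intro h
      have h3 := h1 e (hcF he)
      have h4 := hmax e he
      rw [h] at h3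
      exact absurd h4 (not_le.2 h3)
    cases hch : ch e
    · rw [hch] at ha hb
      simp only [domDs, domDt] at ha hb
      simp at ha hb
      simp [ha, hb]
    · rw [hch] at ha hb
      simp only [domDs, domDt] at ha hb
      simp at ha hb
      simp [ha, hb]
  rw [Finset.sum_eq_single_of_mem e0 he0 hterm] at h0
  have hc0 : c e0 ≠ 0 := Finsupp.mem_support_iff.1 he0
  have hlt := h1 e0 (hcF he0)
  have hne2 : domDs src tgt (e0, ch e0) ≠ w := fun h => by rw [h] at hlt; exact lt_irrefl _ hlt
  rcases mul_eq_zero.1 h0 with h | h
  · exact hc0 h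
  · cases hch : ch e0
    · rw [hch] at hne2 hw
      simp only [domDs, domDt] at hne2 hw
      simp at hne2 hw
      simp [← hw, hne2] at h
    · rw [hch] at hne2 hw
      simp only [domDs, domDt] at hne2 hw
      simp at hne2 hw
      simp [← hw, hne2] at h

/-- **Ball forest theorem.** If there is no nonempty reduced closed walk of length `≤ 2 R + 2`
based at `a`, then the edges with an endpoint in the ball of radius `R` about `a` form a forest. -/
theorem dom_ball_star_forest (src tgt : E → V) (a : V) (R : ℕ)
    (hG : ∀ l, l ≠ [] → DomIsWalk src tgt a l a → DomReduced l → l.length ≤ 2 * R + 2 → False) :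
    DomForest src tgt {e | (∃ l, DomIsWalk src tgt a l (src e) ∧ l.length ≤ R) ∨
      (∃ l, DomIsWalk src tgt a l (tgt e) ∧ l.length ≤ R)} := by
  set P : V → List (E × Bool) → Prop :=
    fun y l => DomIsWalk src tgt y l a ∧ DomReduced l ∧ l.length ≤ R + 1 with hP
  have huniq : ∀ y l l', P y l → P y l' → l = l' := by
    intro y l l' h h'
    by_contra hne
    obtain ⟨l0, g1, g2, g3, g4, -⟩ :=
      dom_closed_of_two_reduced src tgt l l' y h.1 h'.1 h.2.1 h'.2.1 hne
    exact hG l0 g1 g2 g3 (by have := h.2.2; have := h'.2.2; omega)
  set γ : V → List (E × Bool) := fun y => if h : ∃ l, P y l then h.choose else [] with hγdef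
  have hγ : ∀ y l, P y l → γ y = l := by
    intro y l h
    have hex : ∃ l, P y l := ⟨l, h⟩
    have h1 : γ y = hex.choose := by simp only [hγdef, dif_pos hex]
    rw [h1]
    exact huniq y _ _ hex.choose_spec h
  have hstep : ∀ d : E × Bool,
      (∃ l, DomIsWalk src tgt a l (domDs src tgt d) ∧ l.length ≤ R) →
      γ (domDt src tgt d) = domDrev d :: γ (domDs src tgt d) ∨
        γ (domDs src tgt d) = d :: γ (domDt src tgt d) := by
    rintro d ⟨l, hl, hlen⟩
    obtain ⟨l0, g1, g2, g3, -⟩ := dom_exists_reduced src tgt hl.rev
    rw [domWrev_length] at g3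
    have hl0 : P (domDs src tgt d) l0 := ⟨g1, g2, by omega⟩
    have e0 := hγ _ _ hl0
    cases l0 with
    | nil =>
      left
      rw [e0]
      apply hγ
      exact ⟨⟨by simp, by rw [domDt_domDrev]; exact g1⟩, List.IsChain.singleton _, by simp⟩
    | cons d' l'' =>
      simp only [List.length_cons] at g3
      by_cases hd : d' = d
      · right
        subst hd
        rw [e0]
        congr 1
        symm
        apply hγ
        exact ⟨g1.2, g2.tail, by omega⟩
      · left
        rw [e0]
        apply hγ
        refine ⟨⟨by simp, by rw [domDt_domDrev]; exact g1⟩,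
          List.IsChain.cons_cons ((dom_red_iff _ _).2 (by rw [domDrev_domDrev]; exact hd)) g2, ?_⟩
        simp only [List.length_cons]
        omega
  set ch : E → Bool := fun e => decide (γ (tgt e) = (e, false) :: γ (src e)) with hch
  have hkey : ∀ e, ((∃ l, DomIsWalk src tgt a l (src e) ∧ l.length ≤ R) ∨
      (∃ l, DomIsWalk src tgt a l (tgt e) ∧ l.length ≤ R)) →
      γ (domDt src tgt (e, ch e)) = domDrev (e, ch e) :: γ (domDs src tgt (e, ch e)) := by
    intro e he
    have halt : γ (tgt e) = (e, false) :: γ (src e) ∨ γ (src e) = (e, true) :: γ (tgt e) := by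
      rcases he with he | he
      · have := hstep (e, true) (by simpa [domDs] using he)
        simpa [domDs, domDt, domDrev] using this
      · have := hstep (e, false) (by simpa [domDs] using he)
        simpa [domDs, domDt, domDrev] using this.symm
    by_cases h : γ (tgt e) = (e, false) :: γ (src e)
    · have h1 : ch e = true := by simp only [hch, decide_eq_true_eq]; exact h
      rw [h1]
      simpa [domDs, domDt, domDrev] using h
    · have h1 : ch e = false := by simp only [hch, decide_eq_false_iff_not]; exact h
      rw [h1]
      simpa [domDs, domDt, domDrev] using halt.resolve_left h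
  refine dom_forest_of_child src tgt _ (fun y => (γ y).length) ch ?_ ?_
  · intro e he
    show (γ _).length < (γ _).length
    rw [hkey e he]
    simp
  · intro e he e' he' heq
    have h1 := hkey e he
    have h2 := hkey e' he'
    rw [heq, h2] at h1
    have h3 := (List.cons.inj h1).1
    exact (congrArg Prod.fst h3).symm

end Claimed.Agent.R300
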