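import Claimed.Agent.R300.ShellIface

/-!
# R300 / Dom: walk chains in the Cayley multigraph and lifting of cycles to the sheets

Main result `DomSys.exists_lift`: if `Γ` is generated by the letters and every null word lies in
the normal closure of the labels of closed walks of the sheets, then every integral cycle of the
Cayley graph is the image of a cycle of the disjoint union of the sheets.
-/

namespace Claimed.Agent.R300

open Finsupp
open scoped Classical

section walk
variable {Γ S : Type*} [Group Γ] (sig : S → Γ)

/-- The chain of the walk starting at `g` and reading the word `L`. -/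
noncomputable def domWalk : Γ → List (S × Bool) → (Γ × S →₀ ℤ)
  | _, [] => 0
  | g, (a, true) :: L => single (g, a) 1 + domWalk (g * sig a) L
  | g, (a, false) :: L => - single (g * (sig a)⁻¹, a) 1 + domWalk (g * (sig a)⁻¹) L

/-- The value of a word. -/
def domVal (L : List (S × Bool)) : Γ := FreeGroup.lift sig (FreeGroup.mk L)

@[simp] theorem domVal_nil : domVal sig [] = 1 := by
  simp [domVal, ← FreeGroup.one_eq_mk]

theorem domVal_cons (x : S × Bool) (L : List (S × Bool)) :
    domVal sig (x :: L) = (bif x.2 then sig x.1 else (sig x.1)⁻¹) * domVal sig L := by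
  simp [domVal, FreeGroup.lift_mk]

theorem domVal_append (L L' : List (S × Bool)) :
    domVal sig (L ++ L') = domVal sig L * domVal sig L' := by
  simp [domVal, ← FreeGroup.mul_mk]

theorem domWalk_append (g : Γ) (L L' : List (S × Bool)) :
    domWalk sig g (L ++ L') = domWalk sig g L + domWalk sig (g * domVal sig L) L' := by
  induction L generalizing g with
  | nil => simp [domWalk]
  | cons x L ih =>
    obtain ⟨a, b⟩ := x
    cases b
    · simp only [List.cons_append, domWalk, ih, domVal_cons, cond_false, mul_assoc, add_assoc]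
    · simp only [List.cons_append, domWalk, ih, domVal_cons, cond_true, mul_assoc, add_assoc]

theorem domWalk_step (g : Γ) {L L' : List (S × Bool)} (h : FreeGroup.Red.Step L L') :
    domWalk sig g L = domWalk sig g L' := by
  cases h with
  | @not L₁ L₂ a b =>
    rw [domWalk_append, domWalk_append]
    congr 1
    cases b
    · simp [domWalk]
    · simp [domWalk]

theorem domBd_domWalk (g : Γ) (L : List (S × Bool)) :
    domBd domCs (domCt sig) (domWalk sig g L) =
      single (g * domVal sig L) (1 : ℤ) - single g 1 := by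
  induction L generalizing g with
  | nil => simp [domWalk]
  | cons x L ih =>
    obtain ⟨a, b⟩ := x
    cases b
    · simp only [domWalk, map_add, map_neg, ih, domBd_single_one, domVal_cons, cond_false,
        domCs, domCt, mul_assoc, inv_mul_cancel, mul_one]
      abel
    · simp only [domWalk, map_add, ih, domBd_single_one, domVal_cons, cond_true,
        domCs, domCt, mul_assoc]
      abel

/-- The walk chain as a function on the free group. -/
noncomputable def domCh (g : Γ) : FreeGroup S → (Γ × S →₀ ℤ) :=
  Quot.lift (domWalk sig g) (fun _ _ h => domWalk_step sig g h)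

theorem domCh_mk (g : Γ) (L : List (S × Bool)) : domCh sig g (FreeGroup.mk L) = domWalk sig g L :=
  rfl

theorem domCh_one (g : Γ) : domCh sig g 1 = 0 := by
  rw [FreeGroup.one_eq_mk, domCh_mk]; rfl

theorem domCh_mul (g : Γ) (w w' : FreeGroup S) :
    domCh sig g (w * w') = domCh sig g w + domCh sig (g * FreeGroup.lift sig w) w' := by
  induction w using Quot.inductionOn with
  | _ L =>
    induction w' using Quot.inductionOn with
    | _ L' =>
      exact domWalk_append sig g L L'

theorem domCh_inv (g : Γ) (w : FreeGroup S) :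
    domCh sig (g * FreeGroup.lift sig w) w⁻¹ = - domCh sig g w := by
  have := domCh_mul sig g w w⁻¹
  rw [mul_inv_cancel, domCh_one] at this
  exact (neg_eq_of_add_eq_zero_right this.symm).symm

theorem domCh_of (g : Γ) (a : S) : domCh sig g (FreeGroup.of a) = single (g, a) 1 := by
  change domWalk sig g [(a, true)] = _
  simp [domWalk]

theorem domBd_domCh (g : Γ) (w : FreeGroup S) :
    domBd domCs (domCt sig) (domCh sig g w) =
      single (g * FreeGroup.lift sig w) (1 : ℤ) - single g 1 := by
  induction w using Quot.inductionOn with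
  | _ L => exact domBd_domWalk sig g L

end walk

namespace DomSys

variable {Γ S VB EB Sh : Type*} [Group Γ] [MulAction Γ Sh] (C : DomSys Γ S VB EB Sh)

/-- Walks in the base graph: `BWalk v L w` means that the word `L` is read on a walk from `v` to
`w`. -/
inductive BWalk : VB → List (S × Bool) → VB → Prop
  | nil (v : VB) : BWalk v [] v
  | pos (e : EB) {L : List (S × Bool)} {w : VB} :
      BWalk (C.tgt e) L w → BWalk (C.src e) ((C.lab e, true) :: L) w
  | neg (e : EB) {L : List (S × Bool)} {w : VB} :
      BWalk (C.src e) L w → BWalk (C.tgt e) ((C.lab e, false) :: L) w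

/-- The relators: labels of closed walks of the sheets. -/
def relators : Set (FreeGroup S) :=
  {r | ∃ v L, C.BWalk v L v ∧ domVal C.sig L = 1 ∧ r = FreeGroup.mk L}

/-- The lift of a base walk to the sheets, starting at the physical vertex `g`. -/
theorem BWalk.exists_lift {C : DomSys Γ S VB EB Sh} {v w : VB} {L : List (S × Bool)}
    (hw : C.BWalk v L w) (g : Γ) :
    ∃ ζ : Γ × EB →₀ ℤ, domBd C.xs C.xt ζ =
        single (g * domVal C.sig L, w) (1 : ℤ) - single (g, v) 1 ∧
      ζ.mapDomain C.pE = domWalk C.sig g L := by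
  induction hw generalizing g with
  | nil v => exact ⟨0, by simp, by simp [domWalk]⟩
  | pos e _ ih =>
    obtain ⟨ζ, h1, h2⟩ := ih (g * C.sig (C.lab e))
    refine ⟨single (g, e) 1 + ζ, ?_, ?_⟩
    · rw [map_add, h1, domBd_single_one, domVal_cons, cond_true]
      simp only [xs, xt, mul_assoc]
      abel
    · rw [Finsupp.mapDomain_add, h2, Finsupp.mapDomain_single]
      rfl
  | neg e _ ih =>
    obtain ⟨ζ, h1, h2⟩ := ih (g * (C.sig (C.lab e))⁻¹)
    refine ⟨- single (g * (C.sig (C.lab e))⁻¹, e) 1 + ζ, ?_, ?_⟩
    · rw [map_add, map_neg, h1, domBd_single_one, domVal_cons, cond_false]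
      simp only [xs, xt, mul_assoc, inv_mul_cancel, mul_one]
      abel
    · rw [Finsupp.mapDomain_add, h2, ← Finsupp.single_neg, Finsupp.mapDomain_single,
        Finsupp.single_neg]
      rfl

/-- The chains of the Cayley graph which are images of cycles of the sheets. -/
def liftable : AddSubgroup (Γ × S →₀ ℤ) where
  carrier := {z | ∃ ζ : Γ × EB →₀ ℤ, domBd C.xs C.xt ζ = 0 ∧ ζ.mapDomain C.pE = z}
  zero_mem' := ⟨0, by simp, by simp⟩
  add_mem' := by
    rintro _ _ ⟨ζ, h1, rfl⟩ ⟨ζ', h1', rfl⟩
    exact ⟨ζ + ζ', by rw [map_add, h1, h1', add_zero], Finsupp.mapDomain_add⟩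
  neg_mem' := by
    rintro _ ⟨ζ, h1, rfl⟩
    refine ⟨-ζ, by rw [map_neg, h1, neg_zero], ?_⟩
    exact map_neg (Finsupp.mapDomain.addMonoidHom C.pE) ζ

/-- The subgroup of the free group of null words all of whose walk chains are liftable. -/
def goodWords : Subgroup (FreeGroup S) where
  carrier := {w | FreeGroup.lift C.sig w = 1 ∧ ∀ g, domCh C.sig g w ∈ C.liftable}
  one_mem' := ⟨map_one _, fun g => by rw [domCh_one]; exact C.liftable.zero_mem⟩
  mul_mem' := by
    rintro a b ⟨ha1, ha2⟩ ⟨hb1, hb2⟩
    refine ⟨by rw [map_mul, ha1, hb1, one_mul], fun g => ?_⟩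
    rw [domCh_mul]
    exact C.liftable.add_mem (ha2 g) (hb2 _)
  inv_mem' := by
    rintro a ⟨ha1, ha2⟩
    refine ⟨by rw [map_inv, ha1, inv_one], fun g => ?_⟩
    have := domCh_inv C.sig g a
    rw [ha1, mul_one] at this
    rw [this]
    exact C.liftable.neg_mem (ha2 g)

instance goodWords_normal : C.goodWords.Normal where
  conj_mem := by
    rintro n ⟨hn1, hn2⟩ u
    refine ⟨by rw [map_mul, map_mul, hn1, mul_one, map_inv, mul_inv_cancel], fun g => ?_⟩
    rw [domCh_mul, domCh_mul, map_mul, hn1, mul_one, domCh_inv]
    have : domCh C.sig g u + domCh C.sig (g * FreeGroup.lift C.sig u) n + -domCh C.sig g u =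
        domCh C.sig (g * FreeGroup.lift C.sig u) n := by abel
    rw [this]
    exact hn2 _

theorem relators_subset : C.relators ⊆ C.goodWords := by
  rintro _ ⟨v, L, hw, hval, rfl⟩
  refine ⟨hval, fun g => ?_⟩
  obtain ⟨ζ, h1, h2⟩ := hw.exists_lift g
  refine ⟨ζ, ?_, h2⟩
  rw [h1, hval, mul_one, sub_self]

/-- `Γ` is generated by the letters and presented by the labels of closed walks of the sheets. -/
structure Presented : Prop where
  gen : Function.Surjective (FreeGroup.lift C.sig)
  ker : ∀ w : FreeGroup S, FreeGroup.lift C.sig w = 1 → w ∈ Subgroup.normalClosure C.relators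

/-- Every integral cycle of the Cayley graph is the image of a cycle of the sheets. -/
theorem exists_lift (hP : C.Presented) (z : Γ × S →₀ ℤ)
    (hz : domBd domCs (domCt C.sig) z = 0) :
    ∃ ζ : Γ × EB →₀ ℤ, domBd C.xs C.xt ζ = 0 ∧ ζ.mapDomain C.pE = z := by
  choose wd hwd using hP.gen
  have hgood : ∀ w : FreeGroup S, FreeGroup.lift C.sig w = 1 → w ∈ C.goodWords := fun w hw =>
    (Subgroup.normalClosure_le_normal C.relators_subset) (hP.ker w hw)
  -- path chains
  let π : Γ → (Γ × S →₀ ℤ) := fun g => domCh C.sig 1 (wd g)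
  let Pi0 : (Γ →₀ ℤ) →ₗ[ℤ] (Γ × S →₀ ℤ) := Finsupp.linearCombination ℤ π
  have hedge : ∀ ε : Γ × S, single ε (1 : ℤ) - Pi0 (domBd domCs (domCt C.sig) (single ε 1)) ∈
      C.liftable := by
    rintro ⟨g, a⟩
    have h1 : FreeGroup.lift C.sig (wd g * FreeGroup.of a * (wd (g * C.sig a))⁻¹) = 1 := by
      rw [map_mul, map_mul, map_inv, hwd, hwd, FreeGroup.lift_apply_of, mul_inv_cancel]
    have h2 := (hgood _ h1).2 1
    rw [domCh_mul, domCh_mul, map_mul, hwd, FreeGroup.lift_apply_of, one_mul, one_mul,
      domCh_of] at h2
    have h3 := domCh_inv C.sig 1 (wd (g * C.sig a))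
    rw [hwd, one_mul] at h3
    rw [h3] at h2
    have h4 : Pi0 (domBd domCs (domCt C.sig) (single (g, a) 1)) = π (g * C.sig a) - π g := by
      rw [domBd_single_one, map_sub]
      simp [Pi0, domCs, domCt, Finsupp.linearCombination_single]
    rw [h4]
    have h5 : single (g, a) (1 : ℤ) - (π (g * C.sig a) - π g) =
        domCh C.sig 1 (wd g) + single (g, a) 1 + -domCh C.sig 1 (wd (g * C.sig a)) := by
      simp only [π]; abel
    rw [h5]; exact h2
  have hall : ∀ c : Γ × S →₀ ℤ, c - Pi0 (domBd domCs (domCt C.sig) c) ∈ C.liftable := by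
    intro c
    induction c using Finsupp.induction_linear with
    | zero => simp only [map_zero, sub_zero]; exact C.liftable.zero_mem
    | add f g hf hg =>
      have : f + g - Pi0 (domBd domCs (domCt C.sig) (f + g)) =
          (f - Pi0 (domBd domCs (domCt C.sig) f)) + (g - Pi0 (domBd domCs (domCt C.sig) g)) := by
        rw [map_add, map_add]; abel
      rw [this]; exact C.liftable.add_mem hf hg
    | single ε a =>
      have : single ε a - Pi0 (domBd domCs (domCt C.sig) (single ε a)) =
          a • (single ε (1 : ℤ) - Pi0 (domBd domCs (domCt C.sig) (single ε 1))) := by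
        have h1 : single ε a = a • single ε (1 : ℤ) := by simp
        rw [h1, map_smul, map_smul, smul_sub]
      rw [this]; exact C.liftable.zsmul_mem (hedge ε) a
  have := hall z
  rw [hz, map_zero, sub_zero] at this
  exact this

end DomSys

end Claimed.Agent.R300
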