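import Claimed.Agent.R300.ShellRel
import Claimed.Agent.R300.DomCay

/-!
# R300 / bridge Shell → Dom, part 1: the system of sheets of a relator system

From a relator system `Θ : Shell.RelSys S T Q` with surjective position map whose sheets embed we
build `DomBr.toSys : DomSys (Gam Θ) S Q (DomBr.EB Θ) (DomBr.Sheets Θ)` and prove that it is
`Presented`.

* positions `VB := Q`;
* base edges `EB Θ := {(q, a) | ∃ x z, pos x = q ∧ E x (a, true) z}`;
* a sheet is the set of its incidences `(g, q)`, the group acts by left translation.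
-/

namespace Claimed.Agent.R300

namespace DomBr

open Shell

universe u v w

variable {S : Type u} {T : Type v} {Q : Type w} (Θ : RelSys S T Q)

/-! ### words in the group -/

theorem gw_nil : gw Θ [] = 1 := by
  simp [gw, ← FreeGroup.one_eq_mk]

theorem gw_append (a b : List (S × Bool)) : gw Θ (a ++ b) = gw Θ a * gw Θ b := by
  simp [gw, ← FreeGroup.mul_mk]

theorem gw_cons (l : S × Bool) (b : List (S × Bool)) : gw Θ (l :: b) = gw Θ [l] * gw Θ b :=
  gw_append Θ [l] b

theorem gw_invRev (a : List (S × Bool)) : gw Θ (FreeGroup.invRev a) = (gw Θ a)⁻¹ := by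
  simp [gw, ← FreeGroup.inv_mk]

theorem gw_linv (l : S × Bool) : gw Θ [linv l] = (gw Θ [l])⁻¹ := by
  rw [← invRev_singleton, gw_invRev]

variable {Θ}

theorem gw_closed {x : T} {a : List (S × Bool)} (h : Shell.Path Θ.E x a x) : gw Θ a = 1 :=
  PresentedGroup.one_of_mem ⟨x, a, h, rfl⟩

theorem gw_same_end {x z : T} {a b : List (S × Bool)} (h1 : Shell.Path Θ.E x a z)
    (h2 : Shell.Path Θ.E x b z) : gw Θ a = gw Θ b := by
  have := gw_closed (h1.append (h2.inv Θ.sym))
  rw [gw_append, gw_invRev] at this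
  exact mul_inv_eq_one.1 this

variable (Θ)

/-- the letters in the group -/
def sig (a : S) : Gam Θ := gw Θ [(a, true)]

theorem lift_sig : FreeGroup.lift (sig Θ) = PresentedGroup.mk (rels Θ) := by
  ext a
  simp [sig, gw, FreeGroup.of]

theorem domVal_sig (L : List (S × Bool)) : domVal (sig Θ) L = gw Θ L := by
  rw [domVal, lift_sig]; rfl

theorem gw_false (a : S) : gw Θ [(a, false)] = (sig Θ a)⁻¹ := by
  have := gw_linv Θ (a, true)
  simpa [linv, sig] using this

/-! ### sheets -/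

/-- A sheet is the set of its incidences. -/
def Sheets : Type (max u w) := Set (Gam Θ × Q)

instance : MulAction (Gam Θ) (Sheets Θ) where
  smul γ A := {p : Gam Θ × Q | (γ⁻¹ * p.1, p.2) ∈ (show Set (Gam Θ × Q) from A)}
  one_smul A := by
    apply Set.ext
    intro p
    change (1⁻¹ * p.1, p.2) ∈ (show Set (Gam Θ × Q) from A) ↔ _
    simp
  mul_smul a b A := by
    apply Set.ext
    intro p
    change ((a * b)⁻¹ * p.1, p.2) ∈ (show Set (Gam Θ × Q) from A) ↔
      (b⁻¹ * (a⁻¹ * p.1), p.2) ∈ (show Set (Gam Θ × Q) from A)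
    rw [mul_inv_rev, mul_assoc]

/-- the sheet through `1` at the position `q` -/
def shAt (q : Q) : Sheets Θ :=
  {p : Gam Θ × Q | ∃ x a z, Θ.pos x = q ∧ Shell.Path Θ.E x a z ∧ Θ.pos z = p.2 ∧ p.1 = gw Θ a}

/-- membership of an incidence in a sheet -/
def Sheets.Mem {Θ : RelSys S T Q} (A : Sheets Θ) (p : Gam Θ × Q) : Prop :=
  p ∈ (show Set (Gam Θ × Q) from A)

theorem Sheets.ext' {Θ : RelSys S T Q} {A B : Sheets Θ} (h : ∀ p, A.Mem p ↔ B.Mem p) : A = B :=
  Set.ext h

theorem mem_smul_shAt (g : Gam Θ) (q : Q) (p : Gam Θ × Q) :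
    (g • shAt Θ q).Mem p ↔
      ∃ x a z, Θ.pos x = q ∧ Shell.Path Θ.E x a z ∧ Θ.pos z = p.2 ∧ p.1 = g * gw Θ a := by
  change (∃ x a z, Θ.pos x = q ∧ Shell.Path Θ.E x a z ∧ Θ.pos z = p.2 ∧ g⁻¹ * p.1 = gw Θ a) ↔ _
  simp only [inv_mul_eq_iff_eq_mul]

variable {Θ}

/-- the sheet through `g` at `x` also passes through the end of every path -/
theorem smul_shAt_path (g : Gam Θ) {x z : T} {a : List (S × Bool)}
    (h : Shell.Path Θ.E x a z) :
    (g * gw Θ a) • shAt Θ (Θ.pos z) = g • shAt Θ (Θ.pos x) := by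
  apply Sheets.ext'
  intro p
  rw [mem_smul_shAt, mem_smul_shAt]
  constructor
  · rintro ⟨x', b, z', h1, h2, h3, h4⟩
    obtain ⟨z'', h5, h6⟩ := pos_path h1 h2
    exact ⟨x, a ++ b, z'', rfl, h.append h5, h6.trans h3, by rw [h4, gw_append, mul_assoc]⟩
  · rintro ⟨x', b, z', h1, h2, h3, h4⟩
    obtain ⟨z'', h5, h6⟩ := pos_path h1 h2
    refine ⟨z, FreeGroup.invRev a ++ b, z'', rfl, (h.inv Θ.sym).append h5, h6.trans h3, ?_⟩
    rw [h4, gw_append, gw_invRev]; group

/-! ### base edges -/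

variable (Θ)

/-- positive base edges -/
def EB : Type (max u w) := {p : Q × S // ∃ x z, Θ.pos x = p.1 ∧ Θ.E x (p.2, true) z}

variable {Θ}

/-- source of a base edge -/
def EB.src (e : EB Θ) : Q := e.1.1
/-- label of a base edge -/
def EB.lab (e : EB Θ) : S := e.1.2
/-- target of a base edge -/
noncomputable def EB.tgt (e : EB Θ) : Q := Θ.pos (Classical.choose (Classical.choose_spec e.2))

theorem EB.step (e : EB Θ) {x : T} (hx : Θ.pos x = e.src) :
    ∃ z, Θ.E x (e.lab, true) z ∧ Θ.pos z = e.tgt := by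
  have h := Classical.choose_spec (Classical.choose_spec e.2)
  obtain ⟨z, h1, h2⟩ := Θ.pos_step (h.1.trans hx.symm) h.2
  exact ⟨z, h1, h2⟩

theorem EB.step_back (e : EB Θ) {z : T} (hz : Θ.pos z = e.tgt) :
    ∃ x, Θ.E x (e.lab, true) z ∧ Θ.pos x = e.src := by
  have h := Classical.choose_spec (Classical.choose_spec e.2)
  have h3 := Θ.sym h.2
  obtain ⟨x, h1, h2⟩ := Θ.pos_step (x' := z) hz.symm h3
  refine ⟨x, ?_, h2.trans h.1⟩
  have := Θ.sym h1
  simpa [linv, EB.lab] using this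

/-- the base edge of an edge of the relator graph -/
def EB.of {x z : T} {a : S} (h : Θ.E x (a, true) z) : EB Θ := ⟨(Θ.pos x, a), x, z, rfl, h⟩

theorem EB.of_src {x z : T} {a : S} (h : Θ.E x (a, true) z) : (EB.of h).src = Θ.pos x := rfl
theorem EB.of_lab {x z : T} {a : S} (h : Θ.E x (a, true) z) : (EB.of h).lab = a := rfl
theorem EB.of_tgt {x z : T} {a : S} (h : Θ.E x (a, true) z) : (EB.of h).tgt = Θ.pos z := by
  obtain ⟨z', h1, h2⟩ := (EB.of h).step (x := x) rfl
  have : z' = z := Θ.det h1 h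
  rw [← h2, this]

theorem EB.ext' {e e' : EB Θ} (h1 : e.src = e'.src) (h2 : e.lab = e'.lab) : e = e' :=
  Subtype.ext (Prod.ext h1 h2)

/-- The sheets embed. -/
def Embeds (Θ : RelSys S T Q) : Prop :=
  ∀ ⦃x z : T⦄ ⦃a : List (S × Bool)⦄, Shell.Path Θ.E x a z → gw Θ a = 1 → z = x

/-- The system of sheets of a relator system. -/
noncomputable def toSys (hemb : Embeds Θ) (hpos : Function.Surjective Θ.pos) :
    DomSys (Gam Θ) S Q (EB Θ) (Sheets Θ) where
  sig := sig Θ
  src := EB.src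
  tgt := EB.tgt
  lab := EB.lab
  sh := shAt Θ
  sh_edge := by
    intro e
    obtain ⟨x, hx⟩ := hpos e.src
    obtain ⟨z, h1, h2⟩ := e.step hx
    have := smul_shAt_path (1 : Gam Θ) (path_single_iff.2 h1)
    rw [one_mul, one_smul, h2, hx] at this
    exact this
  sh_inj := by
    intro q q' h
    obtain ⟨x, hx⟩ := hpos q
    have h1 : ((1 : Gam Θ) • shAt Θ q).Mem (1, q) :=
      (mem_smul_shAt Θ 1 q (1, q)).2 ⟨x, [], x, hx, Shell.Path.nil x, hx, by simp [gw_nil]⟩
    rw [h] at h1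
    obtain ⟨x', a, z, h2, h3, h4, h5⟩ := (mem_smul_shAt Θ 1 q' (1, q)).1 h1
    have h6 : gw Θ a = 1 := by simpa using h5.symm
    have := hemb h3 h6
    have h4' : Θ.pos z = q := h4
    rw [← h4', this, h2]
  fold_src := fun e e' h1 h2 => EB.ext' h1 h2

section
variable (hemb : Embeds Θ) (hpos : Function.Surjective Θ.pos)

@[simp] theorem toSys_sig : (toSys hemb hpos).sig = sig Θ := rfl
@[simp] theorem toSys_src (e : EB Θ) : (toSys hemb hpos).src e = e.src := rfl
@[simp] theorem toSys_tgt (e : EB Θ) : (toSys hemb hpos).tgt e = e.tgt := rfl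
@[simp] theorem toSys_lab (e : EB Θ) : (toSys hemb hpos).lab e = e.lab := rfl

theorem toSys_sheet (g : Gam Θ) (q : Q) : (toSys hemb hpos).sheet (g, q) = g • shAt Θ q := rfl

/-- two incidences lie on the same sheet iff they are joined by a path -/
theorem sheet_eq_iff (g g' : Gam Θ) (x : T) (q' : Q) :
    (toSys hemb hpos).sheet (g', q') = (toSys hemb hpos).sheet (g, Θ.pos x) ↔
      ∃ a z, Shell.Path Θ.E x a z ∧ Θ.pos z = q' ∧ g' = g * gw Θ a := by
  rw [toSys_sheet, toSys_sheet]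
  constructor
  · intro h
    obtain ⟨x', hx'⟩ := hpos q'
    have h1 : (g' • shAt Θ q').Mem (g', q') :=
      (mem_smul_shAt Θ g' q' (g', q')).2 ⟨x', [], x', hx', Shell.Path.nil x', hx', by simp [gw_nil]⟩
    rw [h] at h1
    obtain ⟨x'', a, z, h2, h3, h4, h5⟩ := (mem_smul_shAt Θ g (Θ.pos x) (g', q')).1 h1
    obtain ⟨z', h6, h7⟩ := pos_path h2 h3
    exact ⟨a, z', h6, h7.trans h4, h5⟩
  · rintro ⟨a, z, h1, rfl, rfl⟩
    exact smul_shAt_path g h1

/-- paths give base walks -/
theorem bwalk_of_path {x z : T} {a : List (S × Bool)} (h : Shell.Path Θ.E x a z) :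
    (toSys hemb hpos).BWalk (Θ.pos x) a (Θ.pos z) := by
  induction h with
  | nil x => exact DomSys.BWalk.nil _
  | @cons x y z l a e _ ih =>
    obtain ⟨s, b⟩ := l
    cases b
    · have e' : Θ.E y (s, true) x := by simpa [linv] using Θ.sym e
      have := DomSys.BWalk.neg (C := toSys hemb hpos) (EB.of e') (L := a) (w := Θ.pos z)
        (by simpa [EB.of_src] using ih)
      simpa [EB.of_tgt, EB.of_lab] using this
    · have := DomSys.BWalk.pos (C := toSys hemb hpos) (EB.of e) (L := a) (w := Θ.pos z)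
        (by simpa [EB.of_tgt] using ih)
      simpa [EB.of_src, EB.of_lab] using this

/-- base walks lift to paths -/
theorem path_of_bwalk {q q' : Q} {a : List (S × Bool)} (h : (toSys hemb hpos).BWalk q a q') :
    ∀ x, Θ.pos x = q → ∃ z, Shell.Path Θ.E x a z ∧ Θ.pos z = q' := by
  induction h with
  | nil q => intro x hx; exact ⟨x, Shell.Path.nil x, hx⟩
  | pos e _ ih =>
    intro x hx
    obtain ⟨y, h1, h2⟩ := e.step (x := x) hx
    obtain ⟨z, h3, h4⟩ := ih y h2
    exact ⟨z, Shell.Path.cons h1 h3, h4⟩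
  | neg e _ ih =>
    intro x hx
    obtain ⟨y, h1, h2⟩ := e.step_back (z := x) hx
    obtain ⟨z, h3, h4⟩ := ih y h2
    refine ⟨z, Shell.Path.cons (b := y) ?_ h3, h4⟩
    simpa [linv] using Θ.sym h1

theorem toSys_presented : (toSys hemb hpos).Presented where
  gen := by
    rw [toSys_sig, lift_sig]
    exact PresentedGroup.mk_surjective _
  ker := by
    intro r hr
    rw [toSys_sig, lift_sig] at hr
    have h1 := PresentedGroup.mk_eq_one_iff.1 hr
    refine Subgroup.normalClosure_mono ?_ h1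
    rintro _ ⟨x, a, h2, rfl⟩
    exact ⟨Θ.pos x, a, bwalk_of_path hemb hpos h2, by
      rw [toSys_sig, domVal_sig]; exact gw_closed h2, rfl⟩

theorem toSys_cover (hL : AllLetters Θ) (a : S) : ∃ e, (toSys hemb hpos).lab e = a := by
  obtain ⟨x, z, h⟩ := hL (a, true)
  exact ⟨EB.of h, rfl⟩

end

end DomBr

end Claimed.Agent.R300
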