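import Claimed.Agent.R300.ShellSpec
import Claimed.Agent.R300.DomBrSys

/-!
# R300 / bridge Shell → Dom, part 2: geometry of the shared part of a sheet (language of `Shell`)

* `DomBr.reach3`: every point of a sheet through which another sheet of at most the same level
  passes is reached from any attaching point of the sheet by at most three pieces;
* `DomBr.C62`: six pieces and two edges do not close up (non metric hypothesis);
* `DomBr.star_closed`: closed paths all of whose edges have a marked end are freely trivial.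
-/

namespace Claimed.Agent.R300

namespace DomBr

open Shell

universe u v w

variable {S : Type u} {T : Type v} {Q : Type w} {Θ : RelSys S T Q}

theorem pchain_cons_or {k : ℕ} {x y z : T} {p c : List (S × Bool)}
    (hp : Shell.Path Θ.E x p y) (hred : FreeGroup.IsReduced p)
    (h : p = [] ∨ ∃ x₁ e, Θ.pos x₁ ≠ Θ.pos x ∧ Shell.Path Θ.E x₁ p e)
    (hc : PChain Θ k y c z) : PChain Θ (k + 1) x (p ++ c) z := by
  rcases h with rfl | ⟨x₁, e, h1, h2⟩
  · have : x = y := path_nil_iff.1 hp
    subst this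
    exact PChain.skip hc
  · exact PChain.cons ⟨hp, hred, x₁, e, h1, h2⟩ hc

variable {vlev : Gam Θ → ℕ} {slev : Gam Θ → T → ℕ}

theorem pos_ne_of_slev_lt (hS : ShellSpec Θ vlev slev) {g : Gam Θ} {x x' : T}
    (h : slev g x' < slev g x) : Θ.pos x' ≠ Θ.pos x :=
  fun h1 => h.ne (hS.slev_pos g h1)

/-- two attaching points are joined by two pieces -/
theorem reach2 (hS : ShellSpec Θ vlev slev) {g : Gam Θ} {x z : T} {a : List (S × Bool)}
    (h0 : vlev g = slev g x) (hp : Shell.Path Θ.E x a z) (h1 : vlev (g * gw Θ a) = slev g x)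
    {k : ℕ} {c : List (S × Bool)} {y : T} (hc : PChain Θ k z c y) :
    ∃ c', PChain Θ (k + 2) x c' y := by
  obtain ⟨p₁, p₂, z₁, hred, hp1, hp2, ha, hb⟩ := hS.att_conn g h0 hp h1
  refine ⟨p₁ ++ (p₂ ++ c), ?_⟩
  refine pchain_cons_or hp1 (List.IsChain.left_of_append hred) ?_
    (pchain_cons_or hp2 (List.IsChain.right_of_append hred) ?_ hc)
  · rcases ha with h | ⟨x₁, h2, e, h3⟩
    · exact Or.inl h
    · exact Or.inr ⟨x₁, e, pos_ne_of_slev_lt hS h2, h3⟩
  · rcases hb with h | ⟨x₂, h2, e, h3⟩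
    · exact Or.inl h
    · refine Or.inr ⟨x₂, e, ?_, h3⟩
      rw [← hS.slev_path g hp1] at h2
      exact pos_ne_of_slev_lt hS h2

/-- Every point of the sheet through which another sheet of at most the same level passes is
reached from the attaching point `x` by at most three pieces. -/
theorem reach3 (hS : ShellSpec Θ vlev slev) {g : Gam Θ} {x z : T} {a : List (S × Bool)}
    (h0 : vlev g = slev g x) (hp : Shell.Path Θ.E x a z) {x' : T} (hne : Θ.pos x' ≠ Θ.pos z)
    (hle : slev (g * gw Θ a) x' ≤ slev g x) : ∃ c, PChain Θ 3 x c z := by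
  have hz : slev (g * gw Θ a) z = slev g x := hS.slev_path g hp
  have h1 : slev g x ≤ vlev (g * gw Θ a) := hz ▸ hS.slev_le _ z
  have h2 : vlev (g * gw Θ a) ≤ slev g x + 1 := hz ▸ hS.vlev_le _ z
  rcases Nat.lt_or_ge (slev g x) (vlev (g * gw Θ a)) with h3 | h3
  · have h4 : vlev (g * gw Θ a) = slev g x + 1 := le_antisymm h2 h3
    have h5 : slev (g * gw Θ a) x' = slev g x := by
      have := hS.vlev_le (g * gw Θ a) x'
      omega
    obtain ⟨b, y, y', -, hbred, hb1, hb2, hb3, -⟩ :=
      hS.branch (g * gw Θ a) (x := z) (x' := x') hne.symm (by rw [hz, h5]) (by rw [hz, h4])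
    have hy : Shell.Path Θ.E x (a ++ FreeGroup.invRev b) y := hp.append (hb1.inv Θ.sym)
    have hyl : vlev (g * gw Θ (a ++ FreeGroup.invRev b)) = slev g x := by
      rw [gw_append, gw_invRev, ← mul_assoc, hb3, hz]
    have hpiece : Piece Θ y b z := by
      refine ⟨hb1, hbred, y', x', ?_, hb2⟩
      intro h
      exact hne (pos_eq_of_path h hb2 hb1)
    have hc : PChain Θ 1 y (b ++ []) z := PChain.cons hpiece (PChain.nil z)
    exact reach2 hS h0 hy hyl hc
  · have h4 : vlev (g * gw Θ a) = slev g x := le_antisymm h3 h1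
    obtain ⟨c, hc⟩ := reach2 hS h0 hp h4 (PChain.nil z)
    exact ⟨c, PChain.skip hc⟩

/-- Six pieces and two edges do not close up. -/
def C62 (Θ : RelSys S T Q) : Prop :=
  ∀ ⦃a y y' : T⦄ ⦃c s c' : List (S × Bool)⦄, PChain Θ 3 a c y → Shell.Path Θ.E y s y' →
    s.length ≤ 2 → PChain Θ 3 a c' y' → FreeGroup.mk (c ++ s) = FreeGroup.mk c'

section star

variable (Θ) (a : T) (Mk : T → Prop)

/-- the edges with a marked end -/
def starE : T → S × Bool → T → Prop := fun y l y' => Θ.E y l y' ∧ (Mk y ∨ Mk y')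

variable {Θ a Mk}

theorem mk_linv_mul (l : S × Bool) :
    (FreeGroup.mk [linv l] : FreeGroup S) * FreeGroup.mk [l] = 1 := by
  rw [← invRev_singleton, ← FreeGroup.inv_mk, inv_mul_cancel]

open Classical in
/-- There is a potential for the labels of the edges with a marked end. -/
theorem exists_potential (hC : C62 Θ) (hM : ∀ z, Mk z → ∃ c, PChain Θ 3 a c z) :
    ∃ F : T → FreeGroup S, ∀ y l y', starE Θ Mk y l y' → F y * FreeGroup.mk [l] = F y' := by
  choose! cw hcw using hM
  let nb : T → Prop := fun z => ∃ p : T × (S × Bool), Mk p.1 ∧ Θ.E p.1 p.2 z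
  let F : T → FreeGroup S := fun z =>
    if Mk z then FreeGroup.mk (cw z)
    else if h : nb z then FreeGroup.mk (cw (Classical.choose h).1 ++ [(Classical.choose h).2])
    else 1
  have hF1 : ∀ z, Mk z → F z = FreeGroup.mk (cw z) := fun z hz => by simp only [F, if_pos hz]
  have hF2 : ∀ z, ¬ Mk z → nb z → ∃ y l, Mk y ∧ Θ.E y l z ∧ F z = FreeGroup.mk (cw y ++ [l]) := by
    intro z hz h
    refine ⟨(Classical.choose h).1, (Classical.choose h).2, (Classical.choose_spec h).1,
      (Classical.choose_spec h).2, ?_⟩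
    simp only [F, if_neg hz, dif_pos h]
  refine ⟨F, ?_⟩
  rintro y l y' ⟨hE, hm⟩
  by_cases hy : Mk y
  · by_cases hy' : Mk y'
    · rw [hF1 y hy, hF1 y' hy', FreeGroup.mul_mk]
      exact hC (hcw y hy) (path_single_iff.2 hE) (by simp) (hcw y' hy')
    · obtain ⟨y₂, l₂, h1, h2, h3⟩ := hF2 y' hy' ⟨(y, l), hy, hE⟩
      rw [hF1 y hy, h3]
      have h4 : Shell.Path Θ.E y [l, linv l₂] y₂ :=
        Shell.Path.cons hE (path_single_iff.2 (Θ.sym h2))
      have h5 := hC (hcw y hy) h4 (by simp) (hcw y₂ h1)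
      rw [← FreeGroup.mul_mk, ← h5, ← FreeGroup.mul_mk]
      have h6 : (FreeGroup.mk [l, linv l₂] : FreeGroup S) =
          FreeGroup.mk [l] * FreeGroup.mk [linv l₂] := by
        rw [FreeGroup.mul_mk]; rfl
      rw [h6, mul_assoc, mul_assoc, mk_linv_mul, mul_one]
  · have hy' : Mk y' := hm.resolve_left hy
    have hE' : Θ.E y' (linv l) y := Θ.sym hE
    obtain ⟨y₂, l₂, h1, h2, h3⟩ := hF2 y hy ⟨(y', linv l), hy', hE'⟩
    rw [h3, hF1 y' hy', FreeGroup.mul_mk]
    have h4 : Shell.Path Θ.E y₂ [l₂, l] y' := Shell.Path.cons h2 (path_single_iff.2 hE)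
    have h5 := hC (hcw y₂ h1) h4 (by simp) (hcw y' hy')
    rw [← h5]
    simp

/-- Closed paths all of whose edges have a marked end are freely trivial. -/
theorem star_closed (hC : C62 Θ) (hM : ∀ z, Mk z → ∃ c, PChain Θ 3 a c z) {y : T}
    {L : List (S × Bool)} (h : Shell.Path (starE Θ Mk) y L y) : FreeGroup.mk L = 1 := by
  obtain ⟨F, hF⟩ := exists_potential hC hM
  have key : ∀ {y y' : T} {L : List (S × Bool)}, Shell.Path (starE Θ Mk) y L y' →
      F y * FreeGroup.mk L = F y' := by
    intro y y' L h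
    induction h with
    | nil y => rw [← FreeGroup.one_eq_mk, mul_one]
    | @cons y y₁ y₂ l L e _ ih =>
      have : (FreeGroup.mk (l :: L) : FreeGroup S) = FreeGroup.mk [l] * FreeGroup.mk L := by
        rw [FreeGroup.mul_mk]; rfl
      rw [this, ← mul_assoc, hF _ _ _ e, ih]
  exact mul_eq_left.1 (key h)

end star

end DomBr

end Claimed.Agent.R300
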