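import Claimed.Agent.R300.DomChain

/-!
# R300 / Dom: a forest has an orientation with in-degree at most one

`DomForest.exists_orientation`: if the edge set `F` carries no nonzero integral cycle, one can
choose for every edge of `F` one of its endpoints (its "child"), injectively.  This is the form in
which the residual forest is used for operator norm bounds (every child has a unique parent edge).
The proof is Hall's marriage theorem; Hall's condition follows from the rank inequality for the
injective boundary map.
-/

namespace Claimed.Agent.R300

open Finsupp
open scoped Classical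

variable {V E : Type*}

theorem DomForest.card_le {src tgt : E → V} {F : Set E} (h : DomForest src tgt F)
    (A : Finset F) :
    A.card ≤ (A.biUnion (fun ε : F => ({src ε, tgt ε} : Finset V))).card := by
  set W : Finset V := A.biUnion (fun ε : F => ({src ε, tgt ε} : Finset V)) with hW
  let f : (↥A →₀ ℤ) →ₗ[ℤ] (↥(↑W : Set V) →₀ ℤ) :=
    (Finsupp.lsubtypeDomain (↑W : Set V)).comp
      ((domBd src tgt).comp (Finsupp.lmapDomain ℤ ℤ (fun a : ↥A => ((a : F) : E))))
  have hinj : Function.Injective (fun a : ↥A => ((a : F) : E)) := by
    intro a b hab
    exact Subtype.ext (Subtype.ext hab)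
  have hf : Function.Injective f := by
    rw [injective_iff_map_eq_zero]
    intro c hc
    set c' : E →₀ ℤ := c.mapDomain (fun a : ↥A => ((a : F) : E)) with hc'
    have hsupp : ∀ e ∈ c'.support, ∃ a : ↥A, ((a : F) : E) = e := by
      intro e he
      have := Finsupp.mapDomain_support he
      obtain ⟨a, _, ha⟩ := Finset.mem_image.1 this
      exact ⟨a, ha⟩
    have hb : domBd src tgt c' = 0 := by
      ext y
      by_cases hy : y ∈ W
      · have := DFunLike.congr_fun hc (⟨y, hy⟩ : ↥(↑W : Set V))
        simpa [f, hc', Finsupp.lsubtypeDomain, Finsupp.subtypeDomain_apply] using this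
      · rw [domBd_apply, Finsupp.sum]
        refine Finset.sum_eq_zero (fun e he => ?_)
        obtain ⟨a, ha⟩ := hsupp e he
        have h1 : src e ∈ W := by
          rw [hW, Finset.mem_biUnion]
          exact ⟨a, a.2, by rw [ha]; simp⟩
        have h2 : tgt e ∈ W := by
          rw [hW, Finset.mem_biUnion]
          exact ⟨a, a.2, by rw [ha]; simp⟩
        have h1' : ¬ src e = y := fun h => hy (h ▸ h1)
        have h2' : ¬ tgt e = y := fun h => hy (h ▸ h2)
        rw [if_neg h1', if_neg h2']; simp
    have hz : c' = 0 := by
      apply h c' _ hb
      intro e he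
      obtain ⟨a, ha⟩ := hsupp e he
      rw [← ha]; exact (a : F).2
    exact Finsupp.mapDomain_injective hinj (by rw [← hc', hz, Finsupp.mapDomain_zero])
  have := card_le_of_injective' ℤ f hf
  simpa using this

/-- A forest has an orientation in which every vertex is the child of at most one edge. -/
theorem DomForest.exists_orientation {src tgt : E → V} {F : Set E} (h : DomForest src tgt F) :
    ∃ child : F → V, Function.Injective child ∧ ∀ ε : F, child ε = src ε ∨ child ε = tgt ε := by
  obtain ⟨f, hf1, hf2⟩ :=
    (Finset.all_card_le_biUnion_card_iff_exists_injective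
      (fun ε : F => ({src ε, tgt ε} : Finset V))).1 (fun A => h.card_le A)
  refine ⟨f, hf1, fun ε => ?_⟩
  have := hf2 ε
  simpa using this

end Claimed.Agent.R300
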