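import Claimed.Agent.R300.DomBrVolt
import Claimed.Agent.R300.DomHall

/-!
# R300 / bridge Shell → Dom, part 6: the developing map of the base sheet of a connected voltage
cover, and the orientation of the residual forest
-/

namespace Claimed.Agent.R300

open scoped Classical

namespace DomSys

variable {Γ S VB EB Sh : Type*} [Group Γ] [MulAction Γ Sh] {Y : DomSys Γ S VB EB Sh}
  {I : Type*} [LinearOrder I] [WellFoundedLT I]

/-- Every residual Cayley edge has its own child endpoint. -/
theorem Shelled.exists_child (h : Y.Shelled I) :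
    ∃ child : Γ × S → Γ, (∀ ε ∈ (h.Internal)ᶜ, child ε = ε.1 ∨ child ε = ε.1 * Y.sig ε.2) ∧
      Set.InjOn child (h.Internal)ᶜ := by
  obtain ⟨c, hc1, hc2⟩ := h.residual_forest.exists_orientation
  refine ⟨fun ε => if hε : ε ∈ (h.Internal)ᶜ then c ⟨ε, hε⟩ else ε.1, ?_, ?_⟩
  · intro ε hε
    simp only [dif_pos hε]
    exact hc2 ⟨ε, hε⟩
  · intro ε hε ε' hε' heq
    simp only [dif_pos hε, dif_pos hε'] at heq
    exact congrArg Subtype.val (hc1 heq)

end DomSys

namespace DomBr

open Shell

universe u v w

variable {S : Type u} {V : Type v} {F : Type w} [Group F] {Y : VGraph S V F}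
variable (v₀ : V) (hconn : ∀ x : V × F, ∃ c, Shell.Path Y.cE (v₀, 1) c x)

/-- the developing map of the sheet through `1` at `(v₀, 1)` -/
noncomputable def vloc (x : V × F) : Gam Y.rel := gw Y.rel (Classical.choose (hconn x))

theorem vloc_eq {x : V × F} {c : List (S × Bool)} (h : Shell.Path Y.cE (v₀, 1) c x) :
    vloc v₀ hconn x = gw Y.rel c :=
  gw_same_end (Θ := Y.rel) (Classical.choose_spec (hconn x)) h

theorem vloc_base : vloc v₀ hconn (v₀, 1) = 1 := by
  rw [vloc_eq v₀ hconn (Shell.Path.nil _), gw_nil]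

theorem vloc_path {x z : V × F} {c : List (S × Bool)} (h : Shell.Path Y.cE x c z) :
    vloc v₀ hconn z = vloc v₀ hconn x * gw Y.rel c := by
  have h1 := Classical.choose_spec (hconn x)
  rw [vloc_eq v₀ hconn (h1.append h), gw_append]
  rfl

/-- the holonomy homomorphism of a connected cover -/
noncomputable def holo' : F →* Gam Y.rel := holo v₀ (fun f => hconn (v₀, f))

theorem holo'_eq (f : F) : holo' v₀ hconn f = vloc v₀ hconn (v₀, f) := rfl

theorem vloc_holo (a : V) (f : F) :
    vloc v₀ hconn (a, f) = holo' v₀ hconn f * vloc v₀ hconn (a, 1) := by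
  have h1 := Classical.choose_spec (hconn (a, 1))
  have h2 := VGraph.cpath_translate f h1
  simp only [mul_one] at h2
  rw [vloc_path v₀ hconn h2, holo'_eq]
  rfl

/-- `t_a σ = φ(vol) t_b` for an edge `a ⟶ b` with the signed letter `σ` -/
theorem vloc_edge {a b : V} {l : S × Bool} (h : Y.E a l b) :
    vloc v₀ hconn (a, 1) * gw Y.rel [l] = holo' v₀ hconn (Y.vol a l) * vloc v₀ hconn (b, 1) := by
  have h1 : Y.cE (a, 1) l (b, Y.vol a l) := ⟨h, by simp⟩
  rw [← vloc_holo, vloc_path v₀ hconn (path_single_iff.2 h1)]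

theorem vloc_injective (hemb : Embeds Y.rel) : Function.Injective (vloc v₀ hconn) := by
  intro x z h
  have h1 := Classical.choose_spec (hconn x)
  have h2 := Classical.choose_spec (hconn z)
  have h3 : Shell.Path Y.rel.E x
      (FreeGroup.invRev (Classical.choose (hconn x)) ++ Classical.choose (hconn z)) z :=
    (Shell.Path.inv Y.rel.sym h1).append h2
  have h4 : gw Y.rel (Classical.choose (hconn x)) = gw Y.rel (Classical.choose (hconn z)) := h
  exact (hemb h3 (by rw [gw_append, gw_invRev, h4, inv_mul_cancel])).symm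

/-- the translate by `γ` of the base sheet passes through `γ * vloc x` at the position `x.1` -/
theorem sheet_vloc (γ : Gam Y.rel) (x : V × F) :
    (γ * vloc v₀ hconn x) • shAt Y.rel x.1 = γ • shAt Y.rel v₀ :=
  smul_shAt_path (Θ := Y.rel) γ (Classical.choose_spec (hconn x))

end DomBr

end Claimed.Agent.R300
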