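import Claimed.Agent.R300.DomCay

/-!
# R300 / Dom: torsion-freeness from cycle coordinates

If every integral cycle of the Cayley graph has unique cycle coordinates in the sheets and no
nontrivial element of finite order fixes a sheet, then the group is torsion-free.
-/

namespace Claimed.Agent.R300

open Finsupp
open scoped Classical

/-- A free action of a cyclic group of order `n` admits a "logarithm" with values in `ZMod n`. -/
theorem dom_kappa {G Y : Type*} [Group G] [MulAction G Y] (u : G) (n : ℕ) (P : Y → Prop)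
    (hfree : ∀ y : Y, P y → ∀ k : ℤ, u ^ k • y = y → (n : ℤ) ∣ k) :
    ∃ κ : Y → ZMod n, ∀ y, P y → κ (u • y) = κ y + 1 := by
  let s : Setoid Y :=
    { r := fun a b => ∃ k : ℤ, u ^ k • a = b
      iseqv :=
        { refl := fun a => ⟨0, by simp⟩
          symm := by
            rintro a b ⟨k, rfl⟩
            exact ⟨-k, by rw [← mul_smul, ← zpow_add]; simp⟩
          trans := by
            rintro a b c ⟨k, rfl⟩ ⟨k', rfl⟩
            exact ⟨k' + k, by rw [zpow_add, mul_smul]⟩ } }
  let r : Y → Y := fun y => (Quotient.mk s y).out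
  have hr : ∀ y, ∃ k : ℤ, u ^ k • y = r y := fun y =>
    s.symm (Quotient.mk_out (s := s) y)
  choose k hk using hr
  have hru : ∀ y, r (u • y) = r y := by
    intro y
    have : Quotient.mk s (u • y) = Quotient.mk s y :=
      Quotient.sound (s := s) (s.symm ⟨1, by simp⟩)
    simp only [r, this]
  refine ⟨fun y => - (k y : ZMod n), fun y hy => ?_⟩
  have h1 : u ^ (k (u • y) + 1 - k y) • y = y := by
    have h2 : u ^ (k (u • y)) • u • y = u ^ (k y) • y := by rw [hk, hk, hru]
    rw [sub_eq_neg_add, zpow_add, zpow_add, zpow_one, mul_smul, mul_smul, h2, ← mul_smul,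
      ← zpow_add]
    simp
  have h3 := hfree y hy _ h1
  have h4 : ((k (u • y) + 1 - k y : ℤ) : ZMod n) = 0 := (ZMod.intCast_zmod_eq_zero_iff_dvd _ _).2 h3
  push_cast at h4
  linear_combination - h4

/-- left translation on the first component -/
def domTr {Γ : Type*} [Mul Γ] (A : Type*) (γ : Γ) : Γ × A → Γ × A := fun p => (γ * p.1, p.2)

section
variable {Γ S : Type*} [Group Γ] (sig : S → Γ)

theorem domWalk_tr (γ g : Γ) (L : List (S × Bool)) :
    domWalk sig (γ * g) L = (domWalk sig g L).mapDomain (domTr S γ) := by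
  induction L generalizing g with
  | nil => simp [domWalk]
  | cons x L ih =>
    obtain ⟨a, b⟩ := x
    cases b
    · simp only [domWalk, Finsupp.mapDomain_add, ← Finsupp.single_neg, Finsupp.mapDomain_single,
        mul_assoc, ih, domTr]
    · simp only [domWalk, Finsupp.mapDomain_add, Finsupp.mapDomain_single,
        mul_assoc, ih, domTr]

theorem domCh_tr (γ g : Γ) (w : FreeGroup S) :
    domCh sig (γ * g) w = (domCh sig g w).mapDomain (domTr S γ) := by
  induction w using Quot.inductionOn with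
  | _ L => exact domWalk_tr sig γ g L

end

namespace DomSys

variable {Γ S VB EB Sh : Type*} [Group Γ] [MulAction Γ Sh] (Y : DomSys Γ S VB EB Sh)

/-- Torsion-freeness from existence and uniqueness of cycle coordinates. -/
theorem torsion_free_of_coordinates
    (hgen : Function.Surjective (FreeGroup.lift Y.sig))
    (hlift : ∀ z : Γ × S →₀ ℤ, domBd domCs (domCt Y.sig) z = 0 →
      ∃ ζ : Γ × EB →₀ ℤ, domBd Y.xs Y.xt ζ = 0 ∧ ζ.mapDomain Y.pE = z)
    (hinj : ∀ ζ : Γ × EB →₀ ℤ, domBd Y.xs Y.xt ζ = 0 → ζ.mapDomain Y.pE = 0 → ζ = 0)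
    (hfree : ∀ (u : Γ) (v : VB), IsOfFinOrder u → u • Y.sh v = Y.sh v → u = 1)
    (u : Γ) (hu : IsOfFinOrder u) : u = 1 := by
  by_contra hne
  set n := orderOf u with hn
  have hn0 : 0 < n := hu.orderOf_pos
  have hn1 : n ≠ 1 := fun h => hne (orderOf_eq_one_iff.1 h)
  have : NeZero n := ⟨hn0.ne'⟩
  have : Fact (1 < n) := ⟨by omega⟩
  -- logarithms
  obtain ⟨κ, hκ⟩ : ∃ κ : Γ → ZMod n, ∀ g, True → κ (u • g) = κ g + 1 := by
    apply dom_kappa
    intro g _ k hk
    have : u ^ k = 1 := by simpa using hk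
    exact orderOf_dvd_iff_zpow_eq_one.2 this
  replace hκ : ∀ g, κ (u * g) = κ g + 1 := fun g => hκ g trivial
  obtain ⟨κS, hκS⟩ : ∃ κ : Sh → ZMod n, ∀ Q, (∃ x, Y.sheet x = Q) → κ (u • Q) = κ Q + 1 := by
    apply dom_kappa
    rintro _ ⟨⟨g, v⟩, rfl⟩ k hk
    have h1 : (g⁻¹ * u ^ k * g) • Y.sh v = Y.sh v := by
      have h2 : u ^ k • g • Y.sh v = g • Y.sh v := hk
      rw [mul_smul, mul_smul, h2, inv_smul_smul]
    have h3 : IsOfFinOrder (g⁻¹ * u ^ k * g) := by
      have := (isOfFinOrder_iff_pow_eq_one.1 (hu.zpow (i := k)))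
      obtain ⟨m, hm, hm1⟩ := this
      refine isOfFinOrder_iff_pow_eq_one.2 ⟨m, hm, ?_⟩
      have h4 : g⁻¹ * u ^ k * g = g⁻¹ * u ^ k * g⁻¹⁻¹ := by rw [inv_inv]
      rw [h4, conj_pow, hm1]; simp
    have h5 := hfree _ v h3 h1
    have h6 : u ^ k = 1 := by
      have : u ^ k = g * (g⁻¹ * u ^ k * g) * g⁻¹ := by group
      rw [this, h5]; simp
    exact orderOf_dvd_iff_zpow_eq_one.2 h6
  -- weights
  let wt : Γ × S → ℤ := fun ε => ((κ (domCt Y.sig ε) - κ (domCs ε)).val : ℤ)
  have hwt : ∀ ε, ((wt ε : ℤ) : ZMod n) = κ (domCt Y.sig ε) - κ (domCs ε) := by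
    intro ε
    change (((κ (domCt Y.sig ε) - κ (domCs ε)).val : ℤ) : ZMod n) = _
    rw [Int.cast_natCast, ZMod.natCast_zmod_val]
  have hwtT : wt ∘ domTr S u = wt := by
    funext ε
    simp only [wt, Function.comp, domTr, domCt, domCs, mul_assoc, hκ, add_sub_add_right_eq_sub]
  let μ : (Γ × S →₀ ℤ) →ₗ[ℤ] ℤ := Finsupp.linearCombination ℤ wt
  have hμT : ∀ c, μ (c.mapDomain (domTr S u)) = μ c := by
    intro c
    simp only [μ, Finsupp.linearCombination_mapDomain, hwtT]
  let lam : (Γ →₀ ℤ) →ₗ[ℤ] ZMod n := Finsupp.linearCombination ℤ κ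
  have hμlam : ∀ c, ((μ c : ℤ) : ZMod n) = lam (domBd domCs (domCt Y.sig) c) := by
    intro c
    induction c using Finsupp.induction_linear with
    | zero => simp
    | add f g hf hg => rw [map_add, map_add, map_add, Int.cast_add, hf, hg]
    | single ε a =>
      rw [domBd_single, map_smul, map_sub]
      simp only [μ, lam, Finsupp.linearCombination_single, one_smul, smul_eq_mul, Int.cast_mul, hwt,
        zsmul_eq_mul]
  -- the path from `1` to `u`
  obtain ⟨w, hw⟩ := hgen u
  let c1 : ℕ → (Γ × S →₀ ℤ) := fun k => domCh Y.sig (u ^ k) w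
  have hc1T : ∀ k, c1 (k + 1) = (c1 k).mapDomain (domTr S u) := by
    intro k
    simp only [c1]
    rw [pow_succ', domCh_tr]
  have hμc1 : ∀ k, μ (c1 k) = μ (c1 0) := by
    intro k
    induction k with
    | zero => rfl
    | succ k ih => rw [hc1T, hμT, ih]
  have hμ1 : ((μ (c1 0) : ℤ) : ZMod n) = 1 := by
    rw [hμlam]
    simp only [c1, pow_zero, domBd_domCh, hw, one_mul, map_sub, lam,
      Finsupp.linearCombination_single, one_smul]
    have := hκ 1
    rw [mul_one] at this
    rw [this]; ring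
  let N : Γ × S →₀ ℤ := ∑ k ∈ Finset.range n, c1 k
  have hc1n : c1 n = c1 0 := by
    simp only [c1, hn, pow_orderOf_eq_one, pow_zero]
  have hNb : domBd domCs (domCt Y.sig) N = 0 := by
    simp only [N, map_sum, c1, domBd_domCh, hw, ← pow_succ]
    rw [Finset.sum_range_sub (fun k => single (u ^ k) (1 : ℤ))]
    rw [hn, pow_orderOf_eq_one, pow_zero, sub_self]
  have hNT : N.mapDomain (domTr S u) = N := by
    simp only [N]
    rw [Finsupp.mapDomain_finsetSum]
    simp only [← hc1T]
    have h1 := Finset.sum_range_succ c1 n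
    rw [Finset.sum_range_succ' c1 n, hc1n] at h1
    exact add_right_cancel h1
  have hμN : μ N = n * μ (c1 0) := by
    simp only [N, map_sum, hμc1, Finset.sum_const, Finset.card_range, nsmul_eq_mul]
  -- cycle coordinates of `N`
  obtain ⟨ζ, hζb, hζp⟩ := hlift N hNb
  have hζT : ζ.mapDomain (domTr EB u) = ζ := by
    have h1 : domBd Y.xs Y.xt (ζ.mapDomain (domTr EB u)) = 0 := by
      rw [domBd_mapDomain Y.xs Y.xt Y.xs Y.xt (domTr VB u) (domTr EB u) (fun e => rfl)
        (fun e => by simp only [xt, domTr, mul_assoc]), hζb, Finsupp.mapDomain_zero]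
    have h2 : (ζ.mapDomain (domTr EB u)).mapDomain Y.pE = N := by
      rw [← Finsupp.mapDomain_comp]
      have : Y.pE ∘ domTr EB u = domTr S u ∘ Y.pE := rfl
      rw [this, Finsupp.mapDomain_comp, hζp, hNT]
    have h3 := hinj (ζ.mapDomain (domTr EB u) - ζ) (by rw [map_sub, h1, hζb, sub_zero]) (by
      rw [sub_eq_add_neg, Finsupp.mapDomain_add, h2]
      have : (-ζ).mapDomain Y.pE = - ζ.mapDomain Y.pE :=
        map_neg (Finsupp.mapDomain.addMonoidHom Y.pE) ζ
      rw [this, hζp, add_neg_cancel])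
    exact sub_eq_zero.1 h3
  -- splitting according to the logarithm of the sheet
  let W : ZMod n → Γ × EB → ℤ := fun j ε => if κS (Y.sheet (Y.xs ε)) = j then wt (Y.pE ε) else 0
  let a : ZMod n → ℤ := fun j => Finsupp.linearCombination ℤ (W j) ζ
  have hWT : ∀ j, W (j + 1) ∘ domTr EB u = W j := by
    intro j
    funext ε
    have h1 : Y.sheet (Y.xs (domTr EB u ε)) = u • Y.sheet (Y.xs ε) := Y.sheet_smul u ε.1 _
    have h2 : wt (Y.pE (domTr EB u ε)) = wt (Y.pE ε) := congrFun hwtT (Y.pE ε)
    simp only [W, Function.comp, h1, h2, hκS _ ⟨_, rfl⟩, add_left_inj]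
  have ha1 : ∀ j, a (j + 1) = a j := by
    intro j
    simp only [a]
    conv_lhs => rw [← hζT]
    rw [Finsupp.linearCombination_mapDomain, hWT]
  have ha0 : ∀ j, a j = a 0 := by
    intro j
    have : ∀ k : ℕ, a (k : ZMod n) = a 0 := by
      intro k
      induction k with
      | zero => simp
      | succ k ih => rw [Nat.cast_succ, ha1, ih]
    rw [← this j.val, ZMod.natCast_zmod_val]
  have hsum : ∑ j, a j = μ N := by
    rw [← hζp]
    have h1 : μ (ζ.mapDomain Y.pE) = Finsupp.linearCombination ℤ (wt ∘ Y.pE) ζ :=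
      Finsupp.linearCombination_mapDomain ..
    rw [h1]
    simp only [a, Finsupp.linearCombination_apply, Finsupp.sum]
    rw [Finset.sum_comm]
    refine Finset.sum_congr rfl (fun ε _ => ?_)
    rw [← Finset.smul_sum]
    simp only [W, Finset.sum_ite_eq, Finset.mem_univ, if_true, Function.comp]
  have hamod : ((a 0 : ℤ) : ZMod n) = 0 := by
    let lamS : (Γ × VB →₀ ℤ) →ₗ[ℤ] ZMod n :=
      Finsupp.linearCombination ℤ (fun x => if κS (Y.sheet x) = 0 then κ x.1 else 0)
    have : ∀ c : Γ × EB →₀ ℤ, ((Finsupp.linearCombination ℤ (W 0) c : ℤ) : ZMod n) =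
        lamS (domBd Y.xs Y.xt c) := by
      intro c
      induction c using Finsupp.induction_linear with
      | zero => simp
      | add f g hf hg => rw [map_add, map_add, map_add, Int.cast_add, hf, hg]
      | single ε m =>
        rw [domBd_single, map_smul, map_sub]
        simp only [lamS, Finsupp.linearCombination_single, one_smul, smul_eq_mul, Int.cast_mul,
          zsmul_eq_mul, Y.sheet_xt, W]
        by_cases h : κS (Y.sheet (Y.xs ε)) = 0
        · simp only [h, if_true, hwt]
          rfl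
        · simp only [h, if_false, Int.cast_zero, sub_zero]
    simp only [a]
    rw [this, hζb, map_zero]
  have hfin : (n : ℤ) * μ (c1 0) = n * a 0 := by
    rw [← hμN, ← hsum]
    simp only [ha0, Finset.sum_const, Finset.card_univ, ZMod.card, nsmul_eq_mul]
  have h5 : μ (c1 0) = a 0 := mul_left_cancel₀ (by exact_mod_cast hn0.ne') hfin
  rw [h5, hamod] at hμ1
  exact zero_ne_one hμ1

/-- A shelled, presented system in which no nontrivial element of finite order fixes a sheet has
a torsion-free group. -/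
theorem Shelled.torsion_free {I : Type*} [LinearOrder I] {Y : DomSys Γ S VB EB Sh}
    (h : Y.Shelled I) (hP : Y.Presented)
    (hfree : ∀ (u : Γ) (v : VB), IsOfFinOrder u → u • Y.sh v = Y.sh v → u = 1)
    (u : Γ) (hu : IsOfFinOrder u) : u = 1 :=
  Y.torsion_free_of_coordinates hP.gen (Y.exists_lift hP) h.cycle_injective hfree u hu

end DomSys

end Claimed.Agent.R300
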