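import Claimed.Agent.R300.DomBrOrd
import Claimed.Agent.R300.DomAcyc
import Claimed.Agent.R300.DomTors

/-!
# R300 / bridge Shell → Dom, part 4: the star of the shared part is a forest; exported statements

`DomBr.shelled : ShellSpec Θ vlev slev → Surjective Θ.pos → C62 Θ → AllLetters Θ →
  (DomBr.sys ..).Shelled (ℕ ×ₗ Ordinal)`, and restatements in the language of `Shell`.
-/

namespace Claimed.Agent.R300

open Finsupp
open scoped Classical

namespace DomSys

variable {Γ S VB EB Sh : Type*} [Group Γ] [MulAction Γ Sh] (Y : DomSys Γ S VB EB Sh)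

theorem fold_tgt {e e' : EB} (h1 : Y.tgt e = Y.tgt e') (h2 : Y.lab e = Y.lab e') : e = e' := by
  have : Y.sh (Y.src e) = Y.sh (Y.src e') := by rw [← Y.sh_edge, ← Y.sh_edge, h1, h2]
  exact Y.fold_src e e' (Y.sh_inj this) h2

/-- the label word of a list of darts of the union of the sheets -/
def dword (l : List ((Γ × EB) × Bool)) : List (S × Bool) := l.map (fun d => (Y.lab d.1.2, d.2))

theorem isReduced_dword {l : List ((Γ × EB) × Bool)} :
    ∀ {p p' : Γ × VB}, DomIsWalk Y.xs Y.xt p l p' → DomReduced l →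
      FreeGroup.IsReduced (Y.dword l) := by
  induction l with
  | nil => intro _ _ _ _; exact FreeGroup.IsReduced.nil
  | cons d l ih =>
    intro p p' hw hr
    cases l with
    | nil => exact FreeGroup.IsReduced.singleton
    | cons d' l' =>
      obtain ⟨-, hw'⟩ := hw
      have hr' := List.isChain_cons_cons.1 hr
      have h1 := ih hw' hr'.2
      refine List.isChain_cons_cons.2 ⟨?_, h1⟩
      intro hlab
      by_contra hb
      apply hr'.1
      have hd : domDs Y.xs Y.xt d' = domDt Y.xs Y.xt d := hw'.1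
      obtain ⟨⟨h, e⟩, b⟩ := d
      obtain ⟨⟨h', e'⟩, b'⟩ := d'
      simp only at hlab hb
      cases b <;> cases b' <;> simp only [not_true_eq_false, reduceCtorEq, not_false_eq_true] at hb
      · simp only [domDs, domDt, xs, if_true, Bool.false_eq_true, if_false, Prod.mk.injEq] at hd
        obtain ⟨hd1, hd2⟩ := hd
        subst hd1
        have := Y.fold_src e' e hd2 hlab.symm
        subst this
        simp
      · simp only [domDs, domDt, xt, if_true, Bool.false_eq_true, if_false, Prod.mk.injEq] at hd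
        obtain ⟨hd1, hd2⟩ := hd
        rw [hlab] at hd1
        have hd1' := mul_right_cancel hd1
        subst hd1'
        have := Y.fold_tgt hd2 hlab.symm
        subst this
        simp

end DomSys

namespace DomBr

open Shell

universe u v w

variable {S : Type u} {T : Type v} {Q : Type w} {Θ : RelSys S T Q}
variable {vlev : Gam Θ → ℕ} {slev : Gam Θ → T → ℕ}
variable (hS : ShellSpec Θ vlev slev) (hpos : Function.Surjective Θ.pos)

/-- the marked points of the sheet through `g` at `a` -/
def Mk (_hS : ShellSpec Θ vlev slev) (g : Gam Θ) (a : T) (z : T) : Prop :=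
  ∃ c, Shell.Path Θ.E a c z ∧ ∃ x', Θ.pos x' ≠ Θ.pos z ∧ slev (g * gw Θ c) x' ≤ slev g a

theorem tv_mk {g : Gam Θ} {a z : T} {c : List (S × Bool)} (hc : Shell.Path Θ.E a c z)
    (h : (shell hS hpos).TV (g * gw Θ c, Θ.pos z)) : Mk hS g a z := by
  obtain ⟨x', hlt⟩ := (tv_iff hS hpos _ z).1 h
  obtain ⟨h1, h2⟩ := slev_le_of_idx_lt hS hlt
  exact ⟨c, hc, x', h2, by rw [← hS.slev_path g hc]; exact h1⟩

/-- walks in the star of the shared part are paths in the star of the marked points -/
theorem walk_to_path (g : Gam Θ) (a : T) (i : ℕ ×ₗ Ordinal.{max u w})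
    (l : List ((Gam Θ × EB Θ) × Bool)) :
    ∀ (y : T) (c : List (S × Bool)) (p' : Gam Θ × Q), Shell.Path Θ.E a c y →
      DomIsWalk (sys hS hpos).xs (sys hS hpos).xt (g * gw Θ c, Θ.pos y) l p' →
      (∀ d ∈ l, d.1 ∈ (shell hS hpos).Star i) →
      ∃ z, Shell.Path (starE Θ (Mk hS g a)) y ((sys hS hpos).dword l) z ∧
        p' = (g * gw Θ c * gw Θ ((sys hS hpos).dword l), Θ.pos z) := by
  induction l with
  | nil =>
    intro y c p' _ hw _
    have : (g * gw Θ c, Θ.pos y) = p' := hw
    exact ⟨y, Shell.Path.nil y, by rw [← this]; simp [DomSys.dword, gw_nil]⟩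
  | cons d l ih =>
    intro y c p' hc hw hF
    obtain ⟨hd, hw'⟩ := hw
    have hst := (hF d (by simp)).2
    obtain ⟨⟨h, e⟩, b⟩ := d
    cases b
    · -- a negative dart
      have hd' : (h * sig Θ e.lab, e.tgt) = (g * gw Θ c, Θ.pos y) := hd
      obtain ⟨hd1, hd2⟩ := Prod.mk.inj hd'
      obtain ⟨y₁, h1, h2⟩ := e.step_back (z := y) hd2.symm
      have h1' : Θ.E y (e.lab, false) y₁ := by simpa [linv] using Θ.sym h1
      have hc' : Shell.Path Θ.E a (c ++ [(e.lab, false)]) y₁ := hc.concat h1'
      have hh : h = g * gw Θ (c ++ [(e.lab, false)]) := by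
        rw [gw_append, gw_false, ← mul_assoc, ← hd1, mul_inv_cancel_right]
      have hw'' : DomIsWalk (sys hS hpos).xs (sys hS hpos).xt
          (g * gw Θ (c ++ [(e.lab, false)]), Θ.pos y₁) l p' := by
        have : domDt (sys hS hpos).xs (sys hS hpos).xt ((h, e), false) =
            (g * gw Θ (c ++ [(e.lab, false)]), Θ.pos y₁) := by
          change (h, e.src) = _
          rw [hh, h2]
        rwa [this] at hw'
      obtain ⟨z, hz1, hz2⟩ := ih y₁ _ p' hc' hw'' (fun d hd => hF d (by simp [hd]))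
      refine ⟨z, Shell.Path.cons (b := y₁) ⟨h1', ?_⟩ hz1, ?_⟩
      · rcases hst with hst | hst
        · right
          have : (shell hS hpos).sX (h, e) = (g * gw Θ (c ++ [(e.lab, false)]), Θ.pos y₁) := by
            change (h, e.src) = _
            rw [hh, h2]
          rw [this] at hst
          exact tv_mk hS hpos hc' hst
        · left
          have : (shell hS hpos).tX (h, e) = (g * gw Θ c, Θ.pos y) := hd'
          rw [this] at hst
          exact tv_mk hS hpos hc hst
      · rw [hz2]
        change _ = (g * gw Θ c * gw Θ ((e.lab, false) :: (sys hS hpos).dword l), Θ.pos z)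
        rw [gw_append, gw_cons Θ (e.lab, false) ((sys hS hpos).dword l)]
        simp only [mul_assoc]
    · -- a positive dart
      have hd' : (h, e.src) = (g * gw Θ c, Θ.pos y) := hd
      obtain ⟨hd1, hd2⟩ := Prod.mk.inj hd'
      obtain ⟨y₁, h1, h2⟩ := e.step (x := y) hd2.symm
      have hc' : Shell.Path Θ.E a (c ++ [(e.lab, true)]) y₁ := hc.concat h1
      have hxt : (h * sig Θ e.lab, e.tgt) = (g * gw Θ (c ++ [(e.lab, true)]), Θ.pos y₁) := by
        rw [gw_append, ← mul_assoc, ← hd1, h2]; rfl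
      have hw'' : DomIsWalk (sys hS hpos).xs (sys hS hpos).xt
          (g * gw Θ (c ++ [(e.lab, true)]), Θ.pos y₁) l p' := by
        have : domDt (sys hS hpos).xs (sys hS hpos).xt ((h, e), true) =
            (g * gw Θ (c ++ [(e.lab, true)]), Θ.pos y₁) := hxt
        rwa [this] at hw'
      obtain ⟨z, hz1, hz2⟩ := ih y₁ _ p' hc' hw'' (fun d hd => hF d (by simp [hd]))
      refine ⟨z, Shell.Path.cons (b := y₁) ⟨h1, ?_⟩ hz1, ?_⟩
      · rcases hst with hst | hst
        · left
          have : (shell hS hpos).sX (h, e) = (g * gw Θ c, Θ.pos y) := hd'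
          rw [this] at hst
          exact tv_mk hS hpos hc hst
        · right
          have : (shell hS hpos).tX (h, e) = (g * gw Θ (c ++ [(e.lab, true)]), Θ.pos y₁) := hxt
          rw [this] at hst
          exact tv_mk hS hpos hc' hst
      · rw [hz2]
        change _ = (g * gw Θ c * gw Θ ((e.lab, true) :: (sys hS hpos).dword l), Θ.pos z)
        rw [gw_append, gw_cons Θ (e.lab, true) ((sys hS hpos).dword l)]
        simp only [mul_assoc]

/-- The star of the shared part of every sheet is a forest. -/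
theorem shell_SF (hC : C62 Θ) : (shell hS hpos).SF := by
  intro i
  apply dom_forest_of_no_reduced_closed_walk
  rintro ⟨g, q⟩ l hne hw hred hF
  obtain ⟨x, rfl⟩ := hpos q
  obtain ⟨wa, a, hpa, hva⟩ := hS.att_nonempty g x
  have h0 : vlev (g * gw Θ wa) = slev (g * gw Θ wa) a := by rw [hva, hS.slev_path g hpa]
  have hx : Shell.Path Θ.E a (FreeGroup.invRev wa) x := hpa.inv Θ.sym
  have hgx : g * gw Θ wa * gw Θ (FreeGroup.invRev wa) = g := by rw [gw_invRev]; group
  have hw' : DomIsWalk (sys hS hpos).xs (sys hS hpos).xt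
      (g * gw Θ wa * gw Θ (FreeGroup.invRev wa), Θ.pos x) l (g, Θ.pos x) := by
    rw [hgx]; exact hw
  obtain ⟨z, hz1, hz2⟩ := walk_to_path hS hpos (g * gw Θ wa) a i l x _ _ hx hw' hF
  rw [hgx] at hz2
  obtain ⟨hz3, hz4⟩ := Prod.mk.inj hz2
  have hg1 : gw Θ ((sys hS hpos).dword l) = 1 := by
    have := hz3.symm
    rwa [mul_eq_left] at this
  have hz5 : z = x := hS.embed (hz1.mono (fun _ _ _ h => h.1)) hg1
  subst hz5
  have hM : ∀ y, Mk hS (g * gw Θ wa) a y → ∃ c, PChain Θ 3 a c y := by
    rintro y ⟨c, hc, x', h1, h2⟩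
    exact reach3 hS h0 hc h1 h2
  have h1 := star_closed hC hM hz1
  have h2 := eq_nil_of_isReduced_of_mk_eq_one ((sys hS hpos).isReduced_dword hw hred) h1
  exact hne (List.map_eq_nil_iff.1 h2)

/-- **The bridge.** The system of sheets of a shelled relator system is `Shelled`. -/
noncomputable def shelled (hC : C62 Θ) (hL : AllLetters Θ) :
    (sys hS hpos).Shelled (ℕ ×ₗ Ordinal.{max u w}) where
  ord := ord slev
  ord_inj := ord_inj slev
  SC := shell_SC hS hpos
  SF := shell_SF hS hpos hC
  cover := toSys_cover hS.embed hpos hL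

theorem sys_presented : (sys hS hpos).Presented := toSys_presented hS.embed hpos

/-! ### restatements in the language of `Shell` -/

section
variable (hC : C62 Θ) (hL : AllLetters Θ)

theorem removed_iff (g : Gam Θ) (x : T) :
    (shelled hS hpos hC hL).Removed (g, Θ.pos x) ↔ ∃ x', idx hS g x' < idx hS g x :=
  tv_iff hS hpos g x

/-- The removed points of a sheet are reached from any attaching point by three pieces. -/
theorem removed_reach {g : Gam Θ} {a z : T} {c : List (S × Bool)} (h0 : vlev g = slev g a)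
    (hc : Shell.Path Θ.E a c z) (h : (shelled hS hpos hC hL).Removed (g * gw Θ c, Θ.pos z)) :
    ∃ c', PChain Θ 3 a c' z := by
  obtain ⟨c₁, hc₁, x', h1, h2⟩ := tv_mk hS hpos hc h
  exact reach3 hS h0 hc₁ h1 h2

/-- Every group element is retained on exactly one sheet (existence). -/
theorem exists_retained (g : Gam Θ) (x₀ : T) :
    ∃ x, ¬ (shelled hS hpos hC hL).Removed (g, Θ.pos x) := by
  obtain ⟨⟨g', q⟩, h1, h2⟩ := (shell hS hpos).exists_retained g ⟨(g, Θ.pos x₀), rfl⟩
  have h1' : g' = g := h1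
  subst h1'
  obtain ⟨x, rfl⟩ := hpos q
  exact ⟨x, h2⟩

theorem retained_unique {g : Gam Θ} {x x' : T}
    (h : ¬ (shelled hS hpos hC hL).Removed (g, Θ.pos x))
    (h' : ¬ (shelled hS hpos hC hL).Removed (g, Θ.pos x')) : Θ.pos x = Θ.pos x' :=
  (shelled hS hpos hC hL).retained_unique h h'

theorem internal_iff (g : Gam Θ) (s : S) :
    (g, s) ∈ (shelled hS hpos hC hL).Internal ↔
      ∃ x z, Θ.E x (s, true) z ∧ ¬ (shelled hS hpos hC hL).Removed (g, Θ.pos x) ∧
        ¬ (shelled hS hpos hC hL).Removed (g * sig Θ s, Θ.pos z) := by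
  constructor
  · rintro ⟨e, h1, h2, h3⟩
    obtain ⟨x, hx⟩ := hpos e.src
    obtain ⟨z, h4, h5⟩ := e.step hx
    have h1' : e.lab = s := h1
    refine ⟨x, z, h1' ▸ h4, ?_, ?_⟩
    · rw [hx]; exact h2
    · rw [h5]; exact h3
  · rintro ⟨x, z, h1, h2, h3⟩
    refine ⟨EB.of h1, rfl, h2, ?_⟩
    change ¬ (shelled hS hpos hC hL).Removed (g * sig Θ s, (EB.of h1).tgt)
    rw [EB.of_tgt]; exact h3

/-- The Cayley edges which are not internal to a domain form a forest. -/
theorem residual_forest :
    DomForest domCs (domCt (sig Θ)) ((shelled hS hpos hC hL).Internal)ᶜ :=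
  (shelled hS hpos hC hL).residual_forest

include hS hpos hC hL in
/-- Torsion-freeness: it suffices that the deck transformations of the sheets have infinite
order. -/
theorem torsion_free
    (hfree : ∀ ⦃x z : T⦄ ⦃c : List (S × Bool)⦄, Shell.Path Θ.E x c z → Θ.pos z = Θ.pos x →
      IsOfFinOrder (gw Θ c) → gw Θ c = 1)
    (γ : Gam Θ) (hγ : IsOfFinOrder γ) : γ = 1 := by
  refine (shelled hS hpos hC hL).torsion_free (sys_presented hS hpos) ?_ γ hγ
  intro γ q hγ hfix
  obtain ⟨x, rfl⟩ := hpos q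
  have h1 : (sys hS hpos).sheet (γ, Θ.pos x) = (sys hS hpos).sheet (1, Θ.pos x) := by
    change γ • shAt Θ (Θ.pos x) = (1 : Gam Θ) • shAt Θ (Θ.pos x)
    rw [one_smul]; exact hfix
  obtain ⟨c, z, h2, h3, h4⟩ := (sheet_eq_iff hS.embed hpos 1 γ x (Θ.pos x)).1 h1
  rw [one_mul] at h4
  rw [h4]
  exact hfree h2 h3 (h4 ▸ hγ)

end

end DomBr

end Claimed.Agent.R300
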