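import Claimed.Agent.R300.ShellIface

/-!
# R300 / GeoKK: from a shelled system of sheets to copies, domains and types

The geometric fields of `SpecCopyData` (Theorem B of KK Section 10) for a `DomSys` with a shelling:
`gkV q` (vertex set of the sheet `q`), `gkTy q g` (position of `g` in `q`), `gkD q` (assigned domain:
the vertices of `q` through which no earlier sheet passes).
-/

namespace Claimed.Agent.R300

namespace DomSys

variable {Γ S VB EB Sh : Type*} [Group Γ] [MulAction Γ Sh] (Y : DomSys Γ S VB EB Sh)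

/-- the vertex set of a sheet -/
def gkV (q : Sh) : Set Γ := {g | ∃ v, Y.sheet (g, v) = q}

/-- the position of the vertex `g` in the sheet `q` (junk value outside `gkV q`) -/
noncomputable def gkTy [Nonempty VB] (q : Sh) (g : Γ) : VB :=
  Classical.epsilon (fun v => Y.sheet (g, v) = q)

variable {Y}

theorem gkTy_spec [Nonempty VB] {q : Sh} {g : Γ} (h : g ∈ Y.gkV q) :
    Y.sheet (g, Y.gkTy q g) = q :=
  Classical.epsilon_spec h

theorem gk_mem_sheet (g : Γ) (v : VB) : g ∈ Y.gkV (Y.sheet (g, v)) := ⟨v, rfl⟩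

theorem gkTy_sheet [Nonempty VB] (g : Γ) (v : VB) : Y.gkTy (Y.sheet (g, v)) g = v :=
  Y.sheet_inj (gkTy_spec (gk_mem_sheet g v))

theorem gkTy_eq_iff [Nonempty VB] {q : Sh} {g : Γ} (h : g ∈ Y.gkV q) (v : VB) :
    Y.gkTy q g = v ↔ Y.sheet (g, v) = q := by
  constructor
  · rintro rfl; exact gkTy_spec h
  · rintro rfl; exact gkTy_sheet g v

/-- incidences `(q, g)` correspond bijectively to pairs `(g, v)` -/
theorem gk_inc [Nonempty VB] (g : Γ) (v : VB) : ∃! q, g ∈ Y.gkV q ∧ Y.gkTy q g = v := by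
  refine ⟨Y.sheet (g, v), ⟨gk_mem_sheet g v, gkTy_sheet g v⟩, ?_⟩
  rintro q ⟨h1, h2⟩
  exact ((gkTy_eq_iff h1 v).1 h2).symm

theorem gkV_smul (γ g : Γ) (q : Sh) : γ * g ∈ Y.gkV (γ • q) ↔ g ∈ Y.gkV q := by
  constructor
  · rintro ⟨v, hv⟩
    rw [Y.sheet_smul] at hv
    exact ⟨v, MulAction.injective γ hv⟩
  · rintro ⟨v, hv⟩
    exact ⟨v, by rw [Y.sheet_smul, hv]⟩

theorem gkTy_smul [Nonempty VB] (γ : Γ) {g : Γ} {q : Sh} (h : g ∈ Y.gkV q) :
    Y.gkTy (γ • q) (γ * g) = Y.gkTy q g := by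
  rw [gkTy_eq_iff ((gkV_smul γ g q).2 h), Y.sheet_smul, gkTy_spec h]

/-- sheets are closed under the base edges (forward) -/
theorem gk_edge_fwd [Nonempty VB] {q : Sh} {g : Γ} (h : g ∈ Y.gkV q) (e : EB)
    (he : Y.src e = Y.gkTy q g) :
    g * Y.sig (Y.lab e) ∈ Y.gkV q ∧ Y.gkTy q (g * Y.sig (Y.lab e)) = Y.tgt e := by
  have h1 : Y.sheet (g * Y.sig (Y.lab e), Y.tgt e) = q := by
    have := Y.sheet_xt (g, e)
    simp only [xt, xs] at this
    rw [this, he, gkTy_spec h]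
  exact ⟨⟨_, h1⟩, (gkTy_eq_iff ⟨_, h1⟩ _).2 h1⟩

/-- sheets are closed under the base edges (backward) -/
theorem gk_edge_bwd [Nonempty VB] {q : Sh} {g : Γ} (h : g ∈ Y.gkV q) (e : EB)
    (he : Y.tgt e = Y.gkTy q g) :
    g * (Y.sig (Y.lab e))⁻¹ ∈ Y.gkV q ∧ Y.gkTy q (g * (Y.sig (Y.lab e))⁻¹) = Y.src e := by
  have h1 : Y.sheet (g * (Y.sig (Y.lab e))⁻¹, Y.src e) = q := by
    have := Y.sheet_xt (g * (Y.sig (Y.lab e))⁻¹, e)
    simp only [xt, xs, inv_mul_cancel_right] at this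
    rw [← this, he, gkTy_spec h]
  exact ⟨⟨_, h1⟩, (gkTy_eq_iff ⟨_, h1⟩ _).2 h1⟩

variable {I : Type*} [LinearOrder I]

/-- the assigned domain of a sheet: its vertices through which no earlier sheet passes -/
def Shelled.gkD (h : Y.Shelled I) (q : Sh) : Set Γ :=
  {g | ∃ v, Y.sheet (g, v) = q ∧ ¬ h.Removed (g, v)}

theorem Shelled.gkD_subset (h : Y.Shelled I) (q : Sh) : h.gkD q ⊆ Y.gkV q := by
  rintro g ⟨v, hv, _⟩
  exact ⟨v, hv⟩

theorem Shelled.gkD_disjoint (h : Y.Shelled I) {q q' : Sh} (hne : q ≠ q') :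
    Disjoint (h.gkD q) (h.gkD q') := by
  rw [Set.disjoint_left]
  rintro g ⟨v, hv, hr⟩ ⟨v', hv', hr'⟩
  apply hne
  rw [← hv, ← hv', h.retained_unique hr hr']

theorem Shelled.mem_gkV_diff_gkD (h : Y.Shelled I) (q : Sh) (g : Γ) :
    g ∈ Y.gkV q \ h.gkD q ↔ ∃ v, Y.sheet (g, v) = q ∧ h.Removed (g, v) := by
  constructor
  · rintro ⟨⟨v, hv⟩, h2⟩
    refine ⟨v, hv, ?_⟩
    by_contra hr
    exact h2 ⟨v, hv, hr⟩
  · rintro ⟨v, hv, hr⟩
    refine ⟨⟨v, hv⟩, ?_⟩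
    rintro ⟨v', hv', hr'⟩
    have : v = v' := Y.sheet_inj (hv.trans hv'.symm)
    subst this
    exact hr' hr

/-- a Cayley edge is internal iff it is an edge of a sheet with both ends in its domain -/
theorem Shelled.mem_internal_iff (h : Y.Shelled I) (ε : Γ × S) :
    ε ∈ h.Internal ↔ ∃ q e, Y.lab e = ε.2 ∧ Y.sheet (ε.1, Y.src e) = q ∧
      ε.1 ∈ h.gkD q ∧ ε.1 * Y.sig ε.2 ∈ h.gkD q := by
  constructor
  · rintro ⟨e, h1, h2, h3⟩
    refine ⟨Y.sheet (ε.1, Y.src e), e, h1, rfl, ⟨_, rfl, h2⟩, ⟨Y.tgt e, ?_, h3⟩⟩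
    have := Y.sheet_xt (ε.1, e)
    simp only [xt, xs, h1] at this
    exact this
  · rintro ⟨q, e, h1, h2, ⟨v, hv, hr⟩, ⟨v', hv', hr'⟩⟩
    have e1 : v = Y.src e := Y.sheet_inj (hv.trans h2.symm)
    have e2 : v' = Y.tgt e := by
      apply Y.sheet_inj (g := ε.1 * Y.sig ε.2)
      rw [hv', ← h2]
      have := Y.sheet_xt (ε.1, e)
      simp only [xt, xs, h1] at this
      exact this.symm
    subst e1 e2
    exact ⟨e, h1, hr, hr'⟩

end DomSys

end Claimed.Agent.R300
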