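import Claimed.Agent.R300.ShellRel

/-!
# Shelling library: the metric criterion for `C6` (leaf SHELL-18)

`Θ : RelSys S T Q`, a scale function `m : T → ℝ`, `a`-Lipschitz along edges.
* `pchain_length_le`: if every piece issued from `x` is shorter than `L * m x`, a concatenation of at
  most `k` pieces issued from `x` has length at most `L * (∑ t < k, (1 + L a)^t) * m x`.
* `c6_of_metric`: if moreover every nonempty reduced closed walk at `x` is longer than `c * m x` and
  `L * ∑ t < 5, (1 + L a)^t ≤ c`, then `C6 Θ`.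
* `girth_of_cyclic`: it is enough to know the girth hypothesis for cyclically reduced closed walks,
  if `c * a ≤ 2`.
-/

namespace Claimed.Agent.R300.Shell

universe u v w

variable {S : Type u} {T : Type v} {Q : Type w} {Θ : RelSys S T Q}

/-- `m` is `a`-Lipschitz along the edges. -/
def MLip (Θ : RelSys S T Q) (m : T → ℝ) (a : ℝ) : Prop :=
  ∀ ⦃x : T⦄ ⦃l : S × Bool⦄ ⦃z : T⦄, Θ.E x l z → m z ≤ m x + a

/-- pieces issued from `x` are shorter than `L * m x` -/
def MPiece (Θ : RelSys S T Q) (m : T → ℝ) (L : ℝ) : Prop :=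
  ∀ ⦃x : T⦄ ⦃p : List (S × Bool)⦄ ⦃z : T⦄, Piece Θ x p z → (p.length : ℝ) < L * m x

/-- nonempty reduced closed walks at `x` are longer than `c * m x` -/
def MGirth (Θ : RelSys S T Q) (m : T → ℝ) (c : ℝ) : Prop :=
  ∀ ⦃x : T⦄ ⦃w : List (S × Bool)⦄, w ≠ [] → FreeGroup.IsReduced w → Path Θ.E x w x →
    c * m x < (w.length : ℝ)

/-- nonempty cyclically reduced closed walks at `x` are longer than `c * m x` -/
def MCGirth (Θ : RelSys S T Q) (m : T → ℝ) (c : ℝ) : Prop :=
  ∀ ⦃x : T⦄ ⦃w : List (S × Bool)⦄, w ≠ [] → FreeGroup.IsCyclicallyReduced w → Path Θ.E x w x →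
    c * m x < (w.length : ℝ)

theorem MLip.path {m : T → ℝ} {a : ℝ} (h : MLip Θ m a) {x z : T} {w : List (S × Bool)}
    (hp : Path Θ.E x w z) : m z ≤ m x + a * w.length := by
  induction hp with
  | nil => simp
  | cons e _ ih =>
    have := h e
    simp only [List.length_cons, Nat.cast_add, Nat.cast_one]
    linarith

theorem MLip.path' {m : T → ℝ} {a : ℝ} (h : MLip Θ m a) {x z : T} {w : List (S × Bool)}
    (hp : Path Θ.E x w z) : m x ≤ m z + a * w.length := by
  have := h.path (hp.inv Θ.sym)
  simpa using this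

/-- the geometric sum which bounds the length of `k` consecutive pieces -/
noncomputable def msum (q : ℝ) (k : ℕ) : ℝ := ∑ t ∈ Finset.range k, q ^ t

theorem msum_succ (q : ℝ) (k : ℕ) : msum q (k + 1) = 1 + q * msum q k := by
  unfold msum
  rw [Finset.sum_range_succ', Finset.mul_sum, add_comm]
  simp [pow_succ, mul_comm]

theorem msum_nonneg {q : ℝ} (hq : 0 ≤ q) (k : ℕ) : 0 ≤ msum q k :=
  Finset.sum_nonneg (fun _ _ => pow_nonneg hq _)

theorem msum_mono {q : ℝ} (hq : 0 ≤ q) {k k' : ℕ} (h : k ≤ k') : msum q k ≤ msum q k' :=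
  Finset.sum_le_sum_of_subset_of_nonneg (Finset.range_mono h) (fun _ _ _ => pow_nonneg hq _)

theorem msum_le_msum {q q' : ℝ} (hq : 0 ≤ q) (h : q ≤ q') (k : ℕ) : msum q k ≤ msum q' k :=
  Finset.sum_le_sum (fun t _ => pow_le_pow_left₀ hq h t)

/-- A concatenation of at most `k` pieces issued from `x` is short. -/
theorem pchain_length_le {m : T → ℝ} {a L : ℝ} (hm : ∀ x, 0 ≤ m x) (ha : 0 ≤ a) (hL : 0 ≤ L)
    (hlip : MLip Θ m a) (hpc : MPiece Θ m L) {k : ℕ} {x z : T} {w : List (S × Bool)}
    (h : PChain Θ k x w z) : (w.length : ℝ) ≤ L * msum (1 + L * a) k * m x := by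
  have hq : 0 ≤ 1 + L * a := by positivity
  induction h with
  | nil x => simp [msum]
  | @cons k x y z p w hp _ ih =>
    have h1 : (p.length : ℝ) < L * m x := hpc hp
    have h2 : m y ≤ m x + a * p.length := hlip.path hp.1
    have h3 : m y ≤ (1 + L * a) * m x := by nlinarith
    have h4 : 0 ≤ L * msum (1 + L * a) k := mul_nonneg hL (msum_nonneg hq k)
    have h5 : L * msum (1 + L * a) k * m y ≤ L * msum (1 + L * a) k * ((1 + L * a) * m x) :=
      mul_le_mul_of_nonneg_left h3 h4
    rw [msum_succ, List.length_append, Nat.cast_add]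
    nlinarith
  | @skip k x z w _ ih =>
    refine ih.trans ?_
    have h1 : msum (1 + L * a) k ≤ msum (1 + L * a) (k + 1) := msum_mono hq (Nat.le_succ k)
    exact mul_le_mul_of_nonneg_right (mul_le_mul_of_nonneg_left h1 hL) (hm x)

/-- **Metric criterion for `C6`.** -/
theorem c6_of_metric {m : T → ℝ} {a L c : ℝ} (hm : ∀ x, 0 ≤ m x) (ha : 0 ≤ a) (hL : 0 ≤ L)
    (hlip : MLip Θ m a) (hpc : MPiece Θ m L) (hg : MGirth Θ m c)
    (hnum : L * msum (1 + L * a) 5 ≤ c) : C6 Θ := by
  classical
  intro x w h
  by_contra hne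
  have hpath : Path Θ.E x w x := by
    have : ∀ {k : ℕ} {x z : T} {w : List (S × Bool)}, PChain Θ k x w z → Path Θ.E x w z := by
      intro k x z w h
      induction h with
      | nil x => exact Path.nil _
      | cons hp _ ih => exact hp.1.append ih
      | skip _ ih => exact ih
    exact this h
  have hred : FreeGroup.IsReduced (FreeGroup.reduce w) :=
    FreeGroup.IsReduced.of_reduce_eq FreeGroup.reduce.idem
  have hpath' : Path Θ.E x (FreeGroup.reduce w) x :=
    hpath.of_red Θ.sym Θ.det FreeGroup.reduce.red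
  have hnil : FreeGroup.reduce w ≠ [] := by
    intro h0
    apply hne
    rw [← FreeGroup.reduce.self, h0]
    rfl
  have h1 := hg hnil hred hpath'
  have h2 := pchain_length_le hm ha hL hlip hpc h
  have h3 : ((FreeGroup.reduce w).length : ℝ) ≤ w.length := by
    exact_mod_cast (FreeGroup.reduce.red (L := w)).length_le
  have h4 : L * msum (1 + L * a) 5 * m x ≤ c * m x := mul_le_mul_of_nonneg_right hnum (hm x)
  linarith

/-- The girth hypothesis for cyclically reduced closed walks implies the one for reduced closed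
walks. -/
theorem girth_of_cyclic {m : T → ℝ} {a c : ℝ} (hc : 0 ≤ c) (hca : c * a ≤ 2)
    (hlip : MLip Θ m a) (hg : MCGirth Θ m c) : MGirth Θ m c := by
  classical
  intro x w hne hred hp
  set u := FreeGroup.reduceCyclically.conjugator w with hu
  set r := FreeGroup.reduceCyclically w with hr
  have hw : u ++ r ++ FreeGroup.invRev u = w :=
    FreeGroup.reduceCyclically.conj_conjugator_reduceCyclically w
  have hrne : r ≠ [] := by
    intro h0
    apply hne
    apply eq_nil_of_isReduced_of_mk_eq_one hred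
    rw [← hw, h0, List.append_nil, ← FreeGroup.mul_mk, ← FreeGroup.inv_mk, mul_inv_cancel]
  have hrc : FreeGroup.IsCyclicallyReduced r := FreeGroup.reduceCyclically.isCyclicallyReduced hred
  rw [← hw, path_append_iff] at hp
  obtain ⟨y', hp1, hp2⟩ := hp
  obtain ⟨y, hp3, hp4⟩ := path_append_iff.1 hp1
  have hp5 : Path Θ.E x u y' := by simpa using hp2.inv Θ.sym
  have hyy : y = y' := hp3.det Θ.det hp5
  subst hyy
  have h1 := hg hrne hrc hp4
  have h2 := hlip.path' hp3
  have h3 : (w.length : ℝ) = 2 * u.length + r.length := by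
    rw [← hw]
    simp only [List.length_append, FreeGroup.invRev_length, Nat.cast_add]
    ring
  have h4 : c * m x ≤ c * (m y + a * u.length) := mul_le_mul_of_nonneg_left h2 hc
  have h5 : (0 : ℝ) ≤ u.length := Nat.cast_nonneg _
  rw [h3]
  nlinarith

/-- Two paths with the same ends which are together shorter than the girth read the same element
of the free group. -/
theorem mk_eq_of_short {m : T → ℝ} {c : ℝ} (hg : MGirth Θ m c) {x z : T}
    {u w : List (S × Bool)} (hu : Path Θ.E x u z) (hw : Path Θ.E x w z)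
    (hlen : (u.length : ℝ) + w.length ≤ c * m x) : FreeGroup.mk u = FreeGroup.mk w := by
  classical
  have hpath : Path Θ.E x (u ++ FreeGroup.invRev w) x := hu.append (hw.inv Θ.sym)
  have hred : FreeGroup.IsReduced (FreeGroup.reduce (u ++ FreeGroup.invRev w)) :=
    FreeGroup.IsReduced.of_reduce_eq FreeGroup.reduce.idem
  have hpath' := hpath.of_red Θ.sym Θ.det FreeGroup.reduce.red
  by_cases hnil : FreeGroup.reduce (u ++ FreeGroup.invRev w) = []
  · have h1 : FreeGroup.mk (u ++ FreeGroup.invRev w) = 1 := by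
      rw [← FreeGroup.reduce.self, hnil]
      rfl
    rw [← FreeGroup.mul_mk, ← FreeGroup.inv_mk] at h1
    exact mul_inv_eq_one.1 h1
  · exfalso
    have h1 := hg hnil hred hpath'
    have h3 : ((FreeGroup.reduce (u ++ FreeGroup.invRev w)).length : ℝ) ≤
        (u ++ FreeGroup.invRev w).length := by
      exact_mod_cast (FreeGroup.reduce.red (L := u ++ FreeGroup.invRev w)).length_le
    simp only [List.length_append, FreeGroup.invRev_length, Nat.cast_add] at h3
    linarith

/-- Metric criterion for the hypothesis `C62` of the bridge to `Dom`: two chains of at most `k`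
pieces issued from one point whose ends are joined by a path of length at most `n`. -/
theorem c62_of_metric {m : T → ℝ} {a L c : ℝ} (hm : ∀ x, 0 ≤ m x) (ha : 0 ≤ a) (hL : 0 ≤ L)
    (hlip : MLip Θ m a) (hpc : MPiece Θ m L) (hg : MGirth Θ m c) (k n : ℕ)
    (hnum : ∀ x, 2 * (L * msum (1 + L * a) k * m x) + n ≤ c * m x)
    ⦃x y y' : T⦄ ⦃u s u' : List (S × Bool)⦄ (hu : PChain Θ k x u y) (hs : Path Θ.E y s y')
    (hlen : s.length ≤ n) (hu' : PChain Θ k x u' y') :
    FreeGroup.mk (u ++ s) = FreeGroup.mk u' := by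
  have hpath : ∀ {k : ℕ} {x z : T} {w : List (S × Bool)}, PChain Θ k x w z → Path Θ.E x w z := by
    intro k x z w h
    induction h with
    | nil x => exact Path.nil _
    | cons hp _ ih => exact hp.1.append ih
    | skip _ ih => exact ih
  refine mk_eq_of_short hg ((hpath hu).append hs) (hpath hu') ?_
  have h1 := pchain_length_le hm ha hL hlip hpc hu
  have h2 := pchain_length_le hm ha hL hlip hpc hu'
  have h3 : (s.length : ℝ) ≤ n := by exact_mod_cast hlen
  have h4 := hnum x
  simp only [List.length_append, Nat.cast_add]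
  linarith

end Claimed.Agent.R300.Shell
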