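import Claimed.Agent.R300.ShellRel

/-!
# Shelling library, part 1b: lemmas on reduced words, greedy prefixes, chains of pieces
-/

namespace Claimed.Agent.R300.Shell

universe u v w

variable {S : Type u} {T : Type v} {Q : Type w}

theorem isReduced_invRev {w : List (S × Bool)} (h : FreeGroup.IsReduced w) :
    FreeGroup.IsReduced (FreeGroup.invRev w) := by
  unfold FreeGroup.IsReduced FreeGroup.invRev at *
  rw [List.isChain_reverse, List.isChain_map]
  refine h.imp ?_
  intro a b hab h1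
  have := hab h1.symm
  simp [this]

theorem isReduced_append {u v : List (S × Bool)} (hu : FreeGroup.IsReduced u)
    (hv : FreeGroup.IsReduced v) (h : ∀ a ∈ u.getLast?, ∀ b ∈ v.head?, b ≠ linv a) :
    FreeGroup.IsReduced (u ++ v) := by
  refine List.IsChain.append hu hv ?_
  intro a ha b hb hab
  by_contra hne
  apply h a ha b hb
  cases a; cases b
  simp only [linv] at *
  subst hab
  congr 1
  rename_i a2 b2
  cases a2 <;> cases b2 <;> simp_all

theorem isReduced_left {u v : List (S × Bool)} (h : FreeGroup.IsReduced (u ++ v)) :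
    FreeGroup.IsReduced u := List.IsChain.left_of_append h

theorem isReduced_right {u v : List (S × Bool)} (h : FreeGroup.IsReduced (u ++ v)) :
    FreeGroup.IsReduced v := List.IsChain.right_of_append h

theorem isReduced_junction {u v : List (S × Bool)} (h : FreeGroup.IsReduced (u ++ v)) :
    ∀ a ∈ u.getLast?, ∀ b ∈ v.head?, b ≠ linv a := by
  intro a ha b hb hab
  have := (List.isChain_append.1 h).2.2 a ha b hb
  subst hab
  simp [linv] at this

theorem exists_common_prefix (b₁ b₂ : List (S × Bool)) :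
    ∃ c d₁ d₂, b₁ = c ++ d₁ ∧ b₂ = c ++ d₂ ∧ ∀ l₁ ∈ d₁.head?, ∀ l₂ ∈ d₂.head?, l₁ ≠ l₂ := by
  induction b₁ generalizing b₂ with
  | nil => exact ⟨[], [], b₂, rfl, rfl, by simp⟩
  | cons l b₁ ih =>
    cases b₂ with
    | nil => exact ⟨[], l :: b₁, [], rfl, rfl, by simp⟩
    | cons l' b₂ =>
      by_cases hl : l = l'
      · subst hl
        obtain ⟨c, d₁, d₂, e1, e2, hd⟩ := ih b₂
        exact ⟨l :: c, d₁, d₂, by simp [e1], by simp [e2], hd⟩
      · exact ⟨[], l :: b₁, l' :: b₂, rfl, rfl, by simpa using hl⟩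

theorem mk_invRev_append_cancel (c d₁ d₂ : List (S × Bool)) :
    FreeGroup.mk (FreeGroup.invRev (c ++ d₁) ++ (c ++ d₂)) =
      FreeGroup.mk (FreeGroup.invRev d₁ ++ d₂) := by
  simp only [← FreeGroup.mul_mk, ← FreeGroup.inv_mk]
  group

theorem isReduced_invRev_append {d₁ d₂ : List (S × Bool)} (h₁ : FreeGroup.IsReduced d₁)
    (h₂ : FreeGroup.IsReduced d₂) (h : ∀ l₁ ∈ d₁.head?, ∀ l₂ ∈ d₂.head?, l₁ ≠ l₂) :
    FreeGroup.IsReduced (FreeGroup.invRev d₁ ++ d₂) := by
  refine isReduced_append (isReduced_invRev h₁) h₂ ?_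
  intro a ha b hb hab
  cases d₁ with
  | nil => simp at ha
  | cons l d =>
    rw [invRev_cons'] at ha
    simp at ha
    subst ha
    rw [linv_linv] at hab
    exact h l (by simp) b hb hab.symm

theorem exists_longest_prefix (P : List (S × Bool) → Prop) (w : List (S × Bool)) (h0 : P []) :
    ∃ w₁ r, w = w₁ ++ r ∧ P w₁ ∧ ∀ r₁ r₂, r = r₁ ++ r₂ → r₁ ≠ [] → ¬ P (w₁ ++ r₁) := by
  classical
  -- induction on the length of the remaining word
  suffices H : ∀ (n : ℕ) (w₁ r : List (S × Bool)), r.length = n → w = w₁ ++ r → P w₁ →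
      ∃ w₁ r, w = w₁ ++ r ∧ P w₁ ∧ ∀ r₁ r₂, r = r₁ ++ r₂ → r₁ ≠ [] → ¬ P (w₁ ++ r₁) from
    H w.length [] w rfl rfl h0
  intro n
  induction n using Nat.strong_induction_on with
  | _ n ih =>
    intro w₁ r hr hw hP
    by_cases hex : ∃ r₁ r₂, r = r₁ ++ r₂ ∧ r₁ ≠ [] ∧ P (w₁ ++ r₁)
    · obtain ⟨r₁, r₂, e, hne, hP'⟩ := hex
      refine ih r₂.length ?_ (w₁ ++ r₁) r₂ rfl (by rw [hw, e, List.append_assoc]) hP'
      have : 0 < r₁.length := List.length_pos_iff.2 hne
      rw [← hr, e, List.length_append]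
      omega
    · refine ⟨w₁, r, hw, hP, ?_⟩
      intro r₁ r₂ e hne hP'
      exact hex ⟨r₁, r₂, e, hne, hP'⟩

variable {Θ : RelSys S T Q}

theorem Piece.path {x z : T} {p : List (S × Bool)} (h : Piece Θ x p z) : Path Θ.E x p z := h.1

/-- a piece from two readings at different positions -/
theorem Piece.mk' {x x' z z' : T} {p : List (S × Bool)} (hp : FreeGroup.IsReduced p)
    (h : Path Θ.E x p z) (h' : Path Θ.E x' p z') (hne : Θ.pos x' ≠ Θ.pos x) : Piece Θ x p z :=
  ⟨h, hp, x', z', hne, h'⟩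

theorem Piece.inv {x z : T} {p : List (S × Bool)} (h : Piece Θ x p z) :
    Piece Θ z (FreeGroup.invRev p) x := by
  obtain ⟨h1, h2, x', z', hne, h3⟩ := h
  refine ⟨h1.inv Θ.sym, isReduced_invRev h2, z', x', ?_, h3.inv Θ.sym⟩
  intro he
  exact hne (pos_eq_of_path_left he h3 h1)

theorem PChain.path {k : ℕ} {x z : T} {w : List (S × Bool)} (h : PChain Θ k x w z) :
    Path Θ.E x w z := by
  induction h with
  | nil => exact Path.nil _
  | cons hp _ ih => exact hp.1.append ih
  | skip _ ih => exact ih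

theorem PChain.mono {k k' : ℕ} {x z : T} {w : List (S × Bool)} (h : PChain Θ k x w z)
    (hk : k ≤ k') : PChain Θ k' x w z := by
  induction hk with
  | refl => exact h
  | step _ ih => exact PChain.skip ih

theorem PChain.append {j k : ℕ} {x y z : T} {u w : List (S × Bool)} (h1 : PChain Θ j x u y)
    (h2 : PChain Θ k y w z) : PChain Θ (j + k) x (u ++ w) z := by
  induction h1 with
  | nil => simpa using h2
  | @cons j' x' y' z' p w' hp _ ih =>
    have := PChain.cons hp (ih h2)
    rw [List.append_assoc]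
    have e : j' + 1 + k = j' + k + 1 := by omega
    rw [e]
    exact this
  | @skip j' x' z' w' _ ih =>
    have e : j' + 1 + k = j' + k + 1 := by omega
    rw [e]
    exact PChain.skip (ih h2)

theorem PChain.of_piece {x z : T} {p : List (S × Bool)} (h : Piece Θ x p z) :
    PChain Θ 1 x p z := by
  simpa using PChain.cons h (PChain.nil z)

theorem PChain.inv {k : ℕ} {x z : T} {w : List (S × Bool)} (h : PChain Θ k x w z) :
    PChain Θ k z (FreeGroup.invRev w) x := by
  induction h with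
  | nil => simpa using PChain.nil _
  | cons hp _ ih =>
    rw [FreeGroup.invRev_append]
    exact ih.append (PChain.of_piece hp.inv)
  | skip _ ih => exact PChain.skip ih

theorem PChain.transport {k : ℕ} {x x' z : T} {w : List (S × Bool)} (h : PChain Θ k x w z)
    (hx : Θ.pos x = Θ.pos x') : ∃ z', PChain Θ k x' w z' ∧ Θ.pos z' = Θ.pos z := by
  induction h generalizing x' with
  | nil a => exact ⟨x', PChain.nil _, hx.symm⟩
  | cons hp _ ih =>
    obtain ⟨h1, h2, x'', z'', hne, h3⟩ := hp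
    obtain ⟨y', hy, hy'⟩ := pos_path hx h1
    obtain ⟨z', hz, hz'⟩ := ih hy'.symm
    exact ⟨z', PChain.cons ⟨hy, h2, x'', z'', by rw [← hx]; exact hne, h3⟩ hz, hz'⟩
  | skip _ ih =>
    obtain ⟨z', hz, hz'⟩ := ih hx
    exact ⟨z', PChain.skip hz, hz'⟩

end Claimed.Agent.R300.Shell
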