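import Claimed.Agent.R300.DomBrSys
import Claimed.Agent.R300.DomBallForest
import Claimed.Agent.R300.DomBallCard
import Claimed.Agent.R300.ShellMetric
import Claimed.Agent.R300.ShellWord
import Claimed.Agent.R300.GeoKKSets

/-!
# R300 / bridge Shell → Dom: metric consequences

For the system of sheets `DomBr.toSys` of a relator system `Θ`:
* walks in the union of the sheets correspond to paths of `Θ` (`path_of_walk`, `walk_of_path`,
  `isReduced_of_walk`);
* `sf_of_fewPieces`: if any two shared incidences of a sheet are joined by at most `k` pieces, pieces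
  are short and the girth is large, then the star of the shared part of every sheet is a forest;
* `removed_finite`, `removed_ncard_le`: the shared part of a sheet is finite, with a bound which
  only depends on the position of any of its points;
* `free_sheet`: no nontrivial element of finite order fixes a sheet.
-/

namespace Claimed.Agent.R300

namespace DomBr

open Shell

universe u v w

variable {S : Type u} {T : Type v} {Q : Type w} {Θ : RelSys S T Q}

theorem EB.ext_tgt (hpos : Function.Surjective Θ.pos) {e e' : EB Θ} (h1 : e.tgt = e'.tgt)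
    (h2 : e.lab = e'.lab) : e = e' := by
  obtain ⟨z, hz⟩ := hpos e.tgt
  obtain ⟨x, hx1, hx2⟩ := e.step_back hz
  obtain ⟨x', hx1', hx2'⟩ := e'.step_back (hz.trans h1)
  rw [← h2] at hx1'
  have : x = x' := Θ.det (Θ.sym hx1) (Θ.sym hx1')
  subst this
  exact EB.ext' (hx2.symm.trans hx2') h2

/-- the label of a dart of the union of the sheets -/
def dlab (d : (Gam Θ × EB Θ) × Bool) : S × Bool := (d.1.2.lab, d.2)

/-- the word of a list of darts -/
def wlab (l : List ((Gam Θ × EB Θ) × Bool)) : List (S × Bool) := l.map dlab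

@[simp] theorem wlab_length (l : List ((Gam Θ × EB Θ) × Bool)) : (wlab l).length = l.length := by
  simp [wlab]

section
variable (hemb : Embeds Θ) (hpos : Function.Surjective Θ.pos)

/-- walks in the union of the sheets are paths of the relator system -/
theorem path_of_walk {l : List ((Gam Θ × EB Θ) × Bool)} :
    ∀ {p p' : Gam Θ × Q}, DomIsWalk (toSys hemb hpos).xs (toSys hemb hpos).xt p l p' →
      ∀ x, Θ.pos x = p.2 →
        ∃ z, Shell.Path Θ.E x (wlab l) z ∧ Θ.pos z = p'.2 ∧ p'.1 = p.1 * gw Θ (wlab l) := by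
  induction l with
  | nil =>
    intro p p' h x hx
    have : p = p' := h
    subst this
    exact ⟨x, Shell.Path.nil x, hx, by simp [wlab, gw_nil]⟩
  | cons d l ih =>
    intro p p' h x hx
    obtain ⟨h1, h2⟩ := h
    obtain ⟨⟨g, e⟩, b⟩ := d
    cases b
    · -- backward dart
      have hp : p = (g * sig Θ e.lab, e.tgt) := by
        rw [← h1]; simp [domDs, DomSys.xt]
      have h2' : DomIsWalk (toSys hemb hpos).xs (toSys hemb hpos).xt (g, e.src) l p' := by
        simpa [domDt, DomSys.xs] using h2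
      subst hp
      obtain ⟨x1, hx1, hx2⟩ := e.step_back (z := x) hx
      obtain ⟨z, hz1, hz2, hz3⟩ := ih h2' x1 hx2
      refine ⟨z, Shell.Path.cons (b := x1) ?_ hz1, hz2, ?_⟩
      · simpa [linv, dlab] using Θ.sym hx1
      · rw [hz3]
        show g * gw Θ (wlab l) = g * sig Θ e.lab * gw Θ ((e.lab, false) :: wlab l)
        rw [gw_cons, gw_false]
        group
    · -- forward dart
      have hp : p = (g, e.src) := by
        rw [← h1]; simp [domDs, DomSys.xs]
      have h2' : DomIsWalk (toSys hemb hpos).xs (toSys hemb hpos).xt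
          (g * sig Θ e.lab, e.tgt) l p' := by
        simpa [domDt, DomSys.xt] using h2
      subst hp
      obtain ⟨x1, hx1, hx2⟩ := e.step (x := x) hx
      obtain ⟨z, hz1, hz2, hz3⟩ := ih h2' x1 hx2
      refine ⟨z, Shell.Path.cons (b := x1) hx1 hz1, hz2, ?_⟩
      rw [hz3]
      show g * sig Θ e.lab * gw Θ (wlab l) = g * gw Θ ((e.lab, true) :: wlab l)
      rw [gw_cons, mul_assoc]
      rfl

/-- paths of the relator system give walks in the union of the sheets -/
theorem walk_of_path {x z : T} {a : List (S × Bool)} (h : Shell.Path Θ.E x a z) :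
    ∀ g : Gam Θ, ∃ l, DomIsWalk (toSys hemb hpos).xs (toSys hemb hpos).xt (g, Θ.pos x) l
      (g * gw Θ a, Θ.pos z) ∧ wlab l = a := by
  induction h with
  | nil x => intro g; exact ⟨[], by simp [gw_nil, DomIsWalk], rfl⟩
  | @cons x y z l a e _ ih =>
    intro g
    obtain ⟨s, b⟩ := l
    cases b
    · have e' : Θ.E y (s, true) x := by simpa [linv] using Θ.sym e
      obtain ⟨l, hl1, hl2⟩ := ih (g * (sig Θ s)⁻¹)
      refine ⟨((g * (sig Θ s)⁻¹, EB.of e'), false) :: l, ⟨?_, ?_⟩, ?_⟩
      · simp [domDs, DomSys.xt, EB.of_lab, EB.of_tgt]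
      · have h3 : g * gw Θ ((s, false) :: a) = g * (sig Θ s)⁻¹ * gw Θ a := by
          rw [gw_cons, gw_false, mul_assoc]
        rw [h3]
        simpa [domDt, DomSys.xs, EB.of_src] using hl1
      · simp [wlab, dlab, EB.of_lab] at hl2 ⊢
        exact hl2
    · obtain ⟨l, hl1, hl2⟩ := ih (g * sig Θ s)
      refine ⟨((g, EB.of e), true) :: l, ⟨?_, ?_⟩, ?_⟩
      · simp [domDs, DomSys.xs, EB.of_src]
      · have h3 : g * gw Θ ((s, true) :: a) = g * sig Θ s * gw Θ a := by
          rw [gw_cons, mul_assoc]; rfl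
        rw [h3]
        simpa [domDt, DomSys.xt, EB.of_lab, EB.of_tgt] using hl1
      · simp [wlab, dlab, EB.of_lab] at hl2 ⊢
        exact hl2

/-- reduced walks read reduced words -/
theorem isReduced_of_walk {l : List ((Gam Θ × EB Θ) × Bool)} :
    ∀ {p p' : Gam Θ × Q}, DomIsWalk (toSys hemb hpos).xs (toSys hemb hpos).xt p l p' →
      DomReduced l → FreeGroup.IsReduced (wlab l) := by
  induction l with
  | nil => intro p p' _ _; exact FreeGroup.IsReduced.nil
  | cons d l ih =>
    intro p p' h hr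
    have ih' := ih h.2 hr.tail
    cases l with
    | nil => exact FreeGroup.IsReduced.singleton
    | cons d' l' =>
      refine List.IsChain.cons_cons ?_ ih'
      intro hlab
      have hjoin : domDs (toSys hemb hpos).xs (toSys hemb hpos).xt d' =
          domDt (toSys hemb hpos).xs (toSys hemb hpos).xt d := h.2.1
      have hne : ¬ (d'.1 = d.1 ∧ d'.2 = !d.2) := (List.isChain_cons_cons.1 hr).1
      obtain ⟨⟨g, e⟩, b⟩ := d
      obtain ⟨⟨g', e'⟩, b'⟩ := d'
      have hlab' : e.lab = e'.lab := hlab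
      show b = b'
      cases b <;> cases b'
      · rfl
      · exfalso
        apply hne
        have h3 : (g', e'.src) = (g, e.src) := by
          simpa [domDs, domDt, DomSys.xs] using hjoin
        have h4 : g' = g := congrArg Prod.fst h3
        have h5 : e'.src = e.src := congrArg Prod.snd h3
        exact ⟨by rw [h4, EB.ext' h5 hlab'.symm], rfl⟩
      · exfalso
        apply hne
        have h3 : (g' * sig Θ e'.lab, e'.tgt) = (g * sig Θ e.lab, e.tgt) := by
          simpa [domDs, domDt, DomSys.xt] using hjoin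
        have h4 : g' * sig Θ e'.lab = g * sig Θ e.lab := congrArg Prod.fst h3
        have h5 : e'.tgt = e.tgt := congrArg Prod.snd h3
        rw [← hlab'] at h4
        exact ⟨by rw [mul_right_cancel h4, EB.ext_tgt hpos h5 hlab'.symm], rfl⟩
      · rfl

/-- nonempty reduced closed walks in the union of the sheets are long -/
theorem closed_walk_long {m : T → ℝ} {c : ℝ} (hg : MGirth Θ m c) {g : Gam Θ} {x : T}
    {l : List ((Gam Θ × EB Θ) × Bool)} (hne : l ≠ [])
    (hw : DomIsWalk (toSys hemb hpos).xs (toSys hemb hpos).xt (g, Θ.pos x) l (g, Θ.pos x))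
    (hr : DomReduced l) : c * m x < (l.length : ℝ) := by
  obtain ⟨z, h1, h2, h3⟩ := path_of_walk hemb hpos hw x rfl
  have h4 : gw Θ (wlab l) = 1 := by simpa using h3.symm
  have h5 : z = x := hemb h1 h4
  subst h5
  have h6 : wlab l ≠ [] := by
    intro h0
    apply hne
    simpa [wlab] using h0
  have := hg h6 (isReduced_of_walk hemb hpos hw hr) h1
  simpa using this

/-- the number of darts issued from an incidence -/
theorem darts_encard_le {Δ : ℕ} (hΔ : ∀ x : T, {l | ∃ z, Θ.E x l z}.encard ≤ Δ)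
    (p : Gam Θ × Q) :
    {d : (Gam Θ × EB Θ) × Bool |
      domDs (toSys hemb hpos).xs (toSys hemb hpos).xt d = p}.encard ≤ Δ := by
  obtain ⟨x, hx⟩ := hpos p.2
  refine le_trans (Set.encard_le_encard_of_injOn (f := dlab) (t := {l | ∃ z, Θ.E x l z}) ?_ ?_)
    (hΔ x)
  · rintro ⟨⟨g, e⟩, b⟩ hd
    have hd' : domDs (toSys hemb hpos).xs (toSys hemb hpos).xt ((g, e), b) = p := hd
    cases b
    · have h1 : (g * sig Θ e.lab, e.tgt) = p := by simpa [domDs, DomSys.xt] using hd'
      have h2 : Θ.pos x = e.tgt := by rw [hx, ← h1]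
      obtain ⟨x1, hx1, _⟩ := e.step_back (z := x) h2
      exact ⟨x1, by simpa [linv, dlab] using Θ.sym hx1⟩
    · have h1 : (g, e.src) = p := by simpa [domDs, DomSys.xs] using hd'
      have h2 : Θ.pos x = e.src := by rw [hx, ← h1]
      obtain ⟨x1, hx1, _⟩ := e.step (x := x) h2
      exact ⟨x1, hx1⟩
  · rintro ⟨⟨g, e⟩, b⟩ hd ⟨⟨g', e'⟩, b'⟩ hd' hlab
    have hd1 : domDs (toSys hemb hpos).xs (toSys hemb hpos).xt ((g, e), b) = p := hd
    have hd2 : domDs (toSys hemb hpos).xs (toSys hemb hpos).xt ((g', e'), b') = p := hd'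
    have hl1 : e.lab = e'.lab := congrArg Prod.fst hlab
    have hl2 : b = b' := congrArg Prod.snd hlab
    subst hl2
    cases b
    · have h1 : (g * sig Θ e.lab, e.tgt) = (g' * sig Θ e'.lab, e'.tgt) := by
        have := hd1.trans hd2.symm
        simpa [domDs, DomSys.xt] using this
      have h4 : g * sig Θ e.lab = g' * sig Θ e'.lab := congrArg Prod.fst h1
      have h5 : e.tgt = e'.tgt := congrArg Prod.snd h1
      rw [← hl1] at h4
      rw [mul_right_cancel h4, EB.ext_tgt hpos h5 hl1]
    · have h1 : (g, e.src) = (g', e'.src) := by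
        have := hd1.trans hd2.symm
        simpa [domDs, DomSys.xs] using this
      have h4 : g = g' := congrArg Prod.fst h1
      have h5 : e.src = e'.src := congrArg Prod.snd h1
      rw [h4, EB.ext' h5 hl1]


variable {I : Type*} [LinearOrder I]

/-- Any two shared incidences of one sheet are joined, inside the sheet, by at most `k` pieces. -/
def FewPieces (k : ℕ) (ord : Sheets Θ → I) (hord : Function.Injective ord) : Prop :=
  ∀ p p' : Gam Θ × Q, (toSys hemb hpos).sheet p = (toSys hemb hpos).sheet p' →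
    ((toSys hemb hpos).toShell ord hord).TV p → ((toSys hemb hpos).toShell ord hord).TV p' →
    ∀ x, Θ.pos x = p.2 → ∃ a z, PChain Θ k x a z ∧ Θ.pos z = p'.2 ∧ p'.1 = p.1 * gw Θ a

variable {hemb hpos}

/-- the shared incidences of a sheet lie in a ball about any of them -/
theorem FewPieces.mem_ball {k : ℕ} {ord : Sheets Θ → I} {hord : Function.Injective ord}
    (hk : FewPieces hemb hpos k ord hord) {m : T → ℝ} {a L : ℝ} (hm : ∀ x, 0 ≤ m x) (ha : 0 ≤ a)
    (hL : 0 ≤ L) (hlip : MLip Θ m a) (hpc : MPiece Θ m L) {p p' : Gam Θ × Q}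
    (hs : (toSys hemb hpos).sheet p = (toSys hemb hpos).sheet p')
    (hp : ((toSys hemb hpos).toShell ord hord).TV p)
    (hp' : ((toSys hemb hpos).toShell ord hord).TV p') {x : T} (hx : Θ.pos x = p.2) :
    ∃ l, DomIsWalk (toSys hemb hpos).xs (toSys hemb hpos).xt p l p' ∧
      l.length ≤ ⌊L * msum (1 + L * a) k * m x⌋₊ := by
  obtain ⟨w, z, h1, h2, h3⟩ := hk p p' hs hp hp' x hx
  obtain ⟨l, hl1, hl2⟩ := walk_of_path hemb hpos h1.path p.1
  refine ⟨l, ?_, ?_⟩
  · have e1 : (p.1, Θ.pos x) = p := by rw [hx]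
    have e2 : (p.1 * gw Θ w, Θ.pos z) = p' := by rw [h2, ← h3]
    rw [e1, e2] at hl1
    exact hl1
  · apply Nat.le_floor
    have := pchain_length_le hm ha hL hlip hpc h1
    rw [← hl2, wlab_length] at this
    exact this

/-- **The star of the shared part of every sheet is a forest** (metric form). -/
theorem FewPieces.sf {k : ℕ} {ord : Sheets Θ → I} {hord : Function.Injective ord}
    (hk : FewPieces hemb hpos k ord hord) {m : T → ℝ} {a L c : ℝ} (hm : ∀ x, 0 ≤ m x)
    (ha : 0 ≤ a) (hL : 0 ≤ L) (hlip : MLip Θ m a) (hpc : MPiece Θ m L) (hg : MGirth Θ m c)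
    (hnum : ∀ x, 2 * (L * msum (1 + L * a) k * m x) + 2 ≤ c * m x) :
    ((toSys hemb hpos).toShell ord hord).SF := by
  intro Qi
  set D := (toSys hemb hpos).toShell ord hord with hD
  by_cases hex : ∃ p, D.comp p = Qi ∧ D.TV p
  · obtain ⟨p, hp1, hp2⟩ := hex
    obtain ⟨x, hx⟩ := hpos p.2
    set R := ⌊L * msum (1 + L * a) k * m x⌋₊ with hR
    have hb : 0 ≤ L * msum (1 + L * a) k * m x :=
      mul_nonneg (mul_nonneg hL (msum_nonneg (by positivity) k)) (hm x)
    have hG : ∀ l, l ≠ [] → DomIsWalk (toSys hemb hpos).xs (toSys hemb hpos).xt p l p →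
        DomReduced l → l.length ≤ 2 * R + 2 → False := by
      intro l hne hw hr hlen
      have e1 : (p.1, Θ.pos x) = p := by rw [hx]
      rw [← e1] at hw
      have h1 := closed_walk_long hemb hpos hg hne hw hr
      have h2 : (R : ℝ) ≤ L * msum (1 + L * a) k * m x := Nat.floor_le hb
      have h3 : (l.length : ℝ) ≤ 2 * R + 2 := by exact_mod_cast hlen
      have h4 := hnum x
      linarith
    refine (dom_ball_star_forest (toSys hemb hpos).xs (toSys hemb hpos).xt p R hG).mono ?_
    rintro e ⟨he1, he2⟩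
    have hsame : ∀ p', D.comp p' = Qi →
        (toSys hemb hpos).sheet p = (toSys hemb hpos).sheet p' := by
      intro p' hp'
      exact hord (hp1.trans hp'.symm)
    rcases he2 with he2 | he2
    · exact Or.inl (hk.mem_ball hm ha hL hlip hpc (hsame _ he1) hp2 he2 hx)
    · exact Or.inr (hk.mem_ball hm ha hL hlip hpc (hsame _ ((D.hcomp e).trans he1)) hp2 he2 hx)
  · intro c hc _
    by_contra hne
    obtain ⟨e, he⟩ := Finsupp.support_nonempty_iff.2 hne
    obtain ⟨he1, he2⟩ := hc he
    rcases he2 with he2 | he2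
    · exact hex ⟨_, he1, he2⟩
    · exact hex ⟨_, (D.hcomp e).trans he1, he2⟩

/-- The shared part of a sheet is contained in the image of a ball. -/
theorem FewPieces.removed_subset {k : ℕ} {ord : Sheets Θ → I} {hord : Function.Injective ord}
    (hk : FewPieces hemb hpos k ord hord) {m : T → ℝ} {a L : ℝ} (hm : ∀ x, 0 ≤ m x) (ha : 0 ≤ a)
    (hL : 0 ≤ L) (hlip : MLip Θ m a) (hpc : MPiece Θ m L) {p : Gam Θ × Q}
    (hp : ((toSys hemb hpos).toShell ord hord).TV p) {x : T} (hx : Θ.pos x = p.2) :
    {g | ∃ v, (toSys hemb hpos).sheet (g, v) = (toSys hemb hpos).sheet p ∧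
      ((toSys hemb hpos).toShell ord hord).TV (g, v)} ⊆
    Prod.fst '' {y | ∃ l, DomIsWalk (toSys hemb hpos).xs (toSys hemb hpos).xt p l y ∧
      l.length ≤ ⌊L * msum (1 + L * a) k * m x⌋₊} := by
  rintro g ⟨v, hv1, hv2⟩
  exact ⟨(g, v), hk.mem_ball hm ha hL hlip hpc hv1.symm hp hv2 hx, rfl⟩

theorem FewPieces.removed_finite {k : ℕ} {ord : Sheets Θ → I} {hord : Function.Injective ord}
    (hk : FewPieces hemb hpos k ord hord) {m : T → ℝ} {a L : ℝ} (hm : ∀ x, 0 ≤ m x) (ha : 0 ≤ a)
    (hL : 0 ≤ L) (hlip : MLip Θ m a) (hpc : MPiece Θ m L) {Δ : ℕ}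
    (hΔ : ∀ x : T, {l | ∃ z, Θ.E x l z}.encard ≤ Δ) {p : Gam Θ × Q}
    (hp : ((toSys hemb hpos).toShell ord hord).TV p) :
    {g | ∃ v, (toSys hemb hpos).sheet (g, v) = (toSys hemb hpos).sheet p ∧
      ((toSys hemb hpos).toShell ord hord).TV (g, v)}.Finite := by
  obtain ⟨x, hx⟩ := hpos p.2
  exact ((dom_ball_finite _ _ Δ (darts_encard_le hemb hpos hΔ) p _).image _).subset
    (hk.removed_subset hm ha hL hlip hpc hp hx)

/-- **Size of the shared part of a sheet**, in terms of the position of any of its points. -/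
theorem FewPieces.removed_ncard_le {k : ℕ} {ord : Sheets Θ → I} {hord : Function.Injective ord}
    (hk : FewPieces hemb hpos k ord hord) {m : T → ℝ} {a L : ℝ} (hm : ∀ x, 0 ≤ m x) (ha : 0 ≤ a)
    (hL : 0 ≤ L) (hlip : MLip Θ m a) (hpc : MPiece Θ m L) {Δ : ℕ}
    (hΔ : ∀ x : T, {l | ∃ z, Θ.E x l z}.encard ≤ Δ) {p : Gam Θ × Q}
    (hp : ((toSys hemb hpos).toShell ord hord).TV p) {x : T} (hx : Θ.pos x = p.2) :
    {g | ∃ v, (toSys hemb hpos).sheet (g, v) = (toSys hemb hpos).sheet p ∧
      ((toSys hemb hpos).toShell ord hord).TV (g, v)}.ncard ≤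
      (Δ + 1) ^ ⌊L * msum (1 + L * a) k * m x⌋₊ := by
  have hfin := dom_ball_finite _ _ Δ (darts_encard_le hemb hpos hΔ) p
    ⌊L * msum (1 + L * a) k * m x⌋₊
  calc _ ≤ (Prod.fst '' {y | ∃ l, DomIsWalk (toSys hemb hpos).xs (toSys hemb hpos).xt p l y ∧
        l.length ≤ ⌊L * msum (1 + L * a) k * m x⌋₊}).ncard :=
        Set.ncard_le_ncard (hk.removed_subset hm ha hL hlip hpc hp hx) (hfin.image _)
    _ ≤ _ := Set.ncard_image_le hfin
    _ ≤ _ := dom_ball_ncard_le _ _ Δ (darts_encard_le hemb hpos hΔ) p _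

end

/-! ### no element of finite order fixes a sheet -/

theorem gw_replicate (a : List (S × Bool)) (n : ℕ) :
    gw Θ (List.replicate n a).flatten = gw Θ a ^ n := by
  induction n with
  | zero => simp [gw_nil]
  | succ n ih => rw [List.replicate_succ, List.flatten_cons, gw_append, ih, pow_succ']

theorem path_replicate {x z : T} {a : List (S × Bool)} (h : Shell.Path Θ.E x a z)
    (hz : Θ.pos z = Θ.pos x) (n : ℕ) :
    ∃ zn, Shell.Path Θ.E x (List.replicate n a).flatten zn ∧ Θ.pos zn = Θ.pos x := by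
  induction n with
  | zero => exact ⟨x, by simp, rfl⟩
  | succ n ih =>
    obtain ⟨zn, h1, h2⟩ := ih
    obtain ⟨z', h3, h4⟩ := pos_path h2.symm h
    refine ⟨z', ?_, h4.trans hz⟩
    rw [List.replicate_succ', List.flatten_concat]
    exact h1.append h3

/-- The relator system has no torsion in its deck transformations: a path between two points with
the same position, some positive power of which closes up, is closed. -/
def NoDeckTorsion (Θ : RelSys S T Q) : Prop :=
  ∀ ⦃x z : T⦄ ⦃a : List (S × Bool)⦄ ⦃n : ℕ⦄, 0 < n → Shell.Path Θ.E x a z → Θ.pos z = Θ.pos x →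
    Shell.Path Θ.E x (List.replicate n a).flatten x → z = x

/-- **No nontrivial element of finite order fixes a sheet.** -/
theorem free_sheet (hemb : Embeds Θ) (hpos : Function.Surjective Θ.pos) (htf : NoDeckTorsion Θ)
    (u : Gam Θ) (p : Gam Θ × Q) (hu : IsOfFinOrder u)
    (h : u • (toSys hemb hpos).sheet p = (toSys hemb hpos).sheet p) : u = 1 := by
  obtain ⟨g, q⟩ := p
  obtain ⟨x, rfl⟩ := hpos q
  rw [← (toSys hemb hpos).sheet_smul] at h
  obtain ⟨a, z, h1, h2, h3⟩ := (sheet_eq_iff hemb hpos g (u * g) x (Θ.pos x)).1 h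
  have h4 : gw Θ a = g⁻¹ * u * g := by rw [mul_assoc, h3]; group
  obtain ⟨n, hn, hun⟩ := isOfFinOrder_iff_pow_eq_one.1 hu
  have h5 : gw Θ a ^ n = 1 := by
    rw [h4]
    have : g⁻¹ * u * g = g⁻¹ * u * g⁻¹⁻¹ := by rw [inv_inv]
    rw [this, conj_pow, hun]
    group
  obtain ⟨zn, h6, _⟩ := path_replicate h1 h2 n
  have h7 : zn = x := hemb h6 (by rw [gw_replicate, h5])
  subst h7
  have h8 : z = zn := htf hn h1 h2 h6
  subst h8
  have h9 : gw Θ a = 1 := gw_closed h1
  rw [h9, mul_one] at h3
  exact mul_right_cancel (h3.trans (one_mul g).symm)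

end DomBr

end Claimed.Agent.R300
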