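import Claimed.Agent.R300.DomBrGeo

/-!
# R300 / bridge Shell → Dom, part 3: the order on the sheets and the connectedness of the shared part
-/

namespace Claimed.Agent.R300

open Finsupp
open scoped Classical

section join
variable {V E : Type*}

/-- `y` and `y'` are joined by a chain supported in `F`. -/
def DomJoin (src tgt : E → V) (F : Set E) (y y' : V) : Prop :=
  ∃ p : E →₀ ℤ, (↑p.support : Set E) ⊆ F ∧ domBd src tgt p = single y' (1 : ℤ) - single y 1

theorem DomJoin.refl (src tgt : E → V) (F : Set E) (y : V) : DomJoin src tgt F y y :=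
  ⟨0, by simp, by simp⟩

theorem DomJoin.symm {src tgt : E → V} {F : Set E} {y y' : V} (h : DomJoin src tgt F y y') :
    DomJoin src tgt F y' y := by
  obtain ⟨p, h1, h2⟩ := h
  exact ⟨-p, by rwa [Finsupp.support_neg], by rw [map_neg, h2, neg_sub]⟩

theorem DomJoin.trans {src tgt : E → V} {F : Set E} {y y' y'' : V}
    (h : DomJoin src tgt F y y') (h' : DomJoin src tgt F y' y'') : DomJoin src tgt F y y'' := by
  obtain ⟨p, h1, h2⟩ := h
  obtain ⟨p', h1', h2'⟩ := h'
  refine ⟨p + p', ?_, by rw [map_add, h2, h2']; abel⟩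
  intro e he
  rcases Finset.mem_union.1 (Finsupp.support_add he) with h | h
  · exact h1 h
  · exact h1' h

theorem DomJoin.edge (src tgt : E → V) {F : Set E} {e : E} (he : e ∈ F) :
    DomJoin src tgt F (src e) (tgt e) := by
  refine ⟨single e 1, ?_, domBd_single_one src tgt e⟩
  intro e' he'
  have : e' = e := by simpa using Finsupp.support_single_subset he'
  rw [this]; exact he

end join

namespace DomBr

open Shell

universe u v w

variable {S : Type u} {T : Type v} {Q : Type w} {Θ : RelSys S T Q}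
variable {vlev : Gam Θ → ℕ} (slev : Gam Θ → T → ℕ)

/-- the level of a sheet -/
noncomputable def lev (A : Sheets Θ) : ℕ :=
  if h : ∃ p : Gam Θ × T, A.Mem (p.1, Θ.pos p.2) then
    slev (Classical.choose h).1 (Classical.choose h).2 else 0

/-- the order on the sheets: first the level, then any well-order -/
noncomputable def ord (A : Sheets Θ) : ℕ ×ₗ Ordinal.{max u w} :=
  toLex (lev slev A, Ordinal.typein WellOrderingRel A)

theorem ord_inj : Function.Injective (ord (Θ := Θ) slev) := by
  intro A B h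
  have h1 : (ofLex (ord slev A)).2 = (ofLex (ord slev B)).2 := by rw [h]
  exact Ordinal.typein_injective _ h1

variable {slev}

theorem lev_sheet (hS : ShellSpec Θ vlev slev) (g : Gam Θ) (x : T) :
    lev slev (g • shAt Θ (Θ.pos x)) = slev g x := by
  have h : ∃ p : Gam Θ × T, (g • shAt Θ (Θ.pos x)).Mem (p.1, Θ.pos p.2) :=
    ⟨(g, x), (mem_smul_shAt Θ g _ _).2 ⟨x, [], x, rfl, Shell.Path.nil x, rfl, by simp [gw_nil]⟩⟩
  rw [lev, dif_pos h]
  obtain ⟨x'', a, z, h1, h2, h3, h4⟩ := (mem_smul_shAt Θ g _ _).1 (Classical.choose_spec h)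
  simp only at h3 h4
  rw [← hS.slev_pos _ h3, h4, hS.slev_path g h2, hS.slev_pos g h1]

section
variable (hS : ShellSpec Θ vlev slev) (hpos : Function.Surjective Θ.pos)

/-- the system of sheets -/
noncomputable def sys : DomSys (Gam Θ) S Q (EB Θ) (Sheets Θ) := toSys hS.embed hpos

/-- the shelling data -/
noncomputable def shell :
    DomShell (Gam Θ × Q) (Gam Θ × EB Θ) (Gam Θ) (Gam Θ × S) (ℕ ×ₗ Ordinal.{max u w}) :=
  (sys hS hpos).toShell (ord slev) (ord_inj slev)

/-- the order index of the sheet through `g` at `x` -/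
noncomputable def idx (_hS : ShellSpec Θ vlev slev) (g : Gam Θ) (x : T) :
    ℕ ×ₗ Ordinal.{max u w} := ord slev (g • shAt Θ (Θ.pos x))

theorem shell_comp (g : Gam Θ) (x : T) : (shell hS hpos).comp (g, Θ.pos x) = idx hS g x := rfl

theorem idx_path (g : Gam Θ) {x z : T} {a : List (S × Bool)} (h : Shell.Path Θ.E x a z) :
    idx hS (g * gw Θ a) z = idx hS g x := by
  rw [idx, idx, smul_shAt_path g h]

theorem idx_lt_of_slev_lt {g : Gam Θ} {x x' : T} (h : slev g x' < slev g x) :
    idx hS g x' < idx hS g x := by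
  rw [idx, idx, ord, ord, Prod.Lex.toLex_lt_toLex]
  left
  simpa only [lev_sheet hS] using h

theorem slev_le_of_idx_lt {g : Gam Θ} {x x' : T} (h : idx hS g x' < idx hS g x) :
    slev g x' ≤ slev g x ∧ Θ.pos x' ≠ Θ.pos x := by
  constructor
  · rw [idx, idx, ord, ord, Prod.Lex.toLex_lt_toLex] at h
    simp only [lev_sheet hS] at h
    rcases h with h | h
    · exact h.le
    · exact h.1.le
  · intro h1
    rw [idx, idx, h1] at h
    exact lt_irrefl _ h

theorem tv_iff (g : Gam Θ) (x : T) :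
    (shell hS hpos).TV (g, Θ.pos x) ↔ ∃ x', idx hS g x' < idx hS g x := by
  constructor
  · rintro ⟨⟨g', q'⟩, h1, h2⟩
    have h2' : g' = g := h2
    subst h2'
    obtain ⟨x', rfl⟩ := hpos q'
    exact ⟨x', h1⟩
  · rintro ⟨x', h⟩
    exact ⟨(g, Θ.pos x'), h, rfl⟩

/-- the shared edges of the sheet with index `i` -/
def shE (i : ℕ ×ₗ Ordinal.{max u w}) : Set (Gam Θ × EB Θ) :=
  {e | (shell hS hpos).comp ((shell hS hpos).sX e) = i ∧ (shell hS hpos).TE e}

/-- a positive edge shared with an earlier sheet -/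
theorem mem_shE {g : Gam Θ} {x x' y y' : T} {s : S} (e : Θ.E x (s, true) y)
    (e' : Θ.E x' (s, true) y') (hlt : idx hS g x' < idx hS g x) :
    (g, EB.of e) ∈ shE hS hpos (idx hS g x) :=
  ⟨rfl, (g, EB.of e'), hlt, rfl⟩

/-- A path which is also read on an earlier sheet consists of shared edges. -/
theorem shared_path {x z : T} {a : List (S × Bool)} (h : Shell.Path Θ.E x a z) :
    ∀ {g : Gam Θ} {x' z' : T}, Shell.Path Θ.E x' a z' → idx hS g x' < idx hS g x →
      DomJoin (sys hS hpos).xs (sys hS hpos).xt (shE hS hpos (idx hS g x)) (g, Θ.pos x)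
        (g * gw Θ a, Θ.pos z) := by
  induction h with
  | nil x =>
    intro g x' z' _ _
    rw [gw_nil, mul_one]
    exact DomJoin.refl _ _ _ _
  | @cons x y z l a e _ ih =>
    intro g x' z' h' hlt
    obtain ⟨y', e', h''⟩ := path_cons_iff.1 h'
    have hi : idx hS (g * gw Θ [l]) y = idx hS g x := idx_path hS g (path_single_iff.2 e)
    have hi' : idx hS (g * gw Θ [l]) y' = idx hS g x' := idx_path hS g (path_single_iff.2 e')
    have h2 := ih (g := g * gw Θ [l]) h'' (by rw [hi, hi']; exact hlt)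
    rw [hi, mul_assoc, ← gw_cons] at h2
    refine DomJoin.trans ?_ h2
    obtain ⟨s, b⟩ := l
    cases b
    · have f : Θ.E y (s, true) x := by simpa [linv] using Θ.sym e
      have f' : Θ.E y' (s, true) x' := by simpa [linv] using Θ.sym e'
      have h3 := mem_shE hS hpos (g := g * gw Θ [(s, false)]) f f' (by rw [hi, hi']; exact hlt)
      rw [hi] at h3
      have h4 := (DomJoin.edge (sys hS hpos).xs (sys hS hpos).xt h3).symm
      have h5 : (sys hS hpos).xt (g * gw Θ [(s, false)], EB.of f) = (g, Θ.pos x) := by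
        change (g * gw Θ [(s, false)] * sig Θ s, (EB.of f).tgt) = _
        rw [EB.of_tgt, gw_false, inv_mul_cancel_right]
      rw [h5] at h4
      exact h4
    · have h3 := mem_shE hS hpos (g := g) e e' hlt
      have h4 := DomJoin.edge (sys hS hpos).xs (sys hS hpos).xt h3
      have h5 : (sys hS hpos).xt (g, EB.of e) = (g * gw Θ [(s, true)], Θ.pos y) := by
        change (g * sig Θ s, (EB.of e).tgt) = _
        rw [EB.of_tgt]; rfl
      rw [h5] at h4
      exact h4

/-- a shared point is joined through shared edges to an attaching point -/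
theorem descend {g : Gam Θ} {x : T} (h : (shell hS hpos).TV (g, Θ.pos x)) :
    ∃ b x₁, Shell.Path Θ.E x b x₁ ∧ vlev (g * gw Θ b) = slev g x ∧
      DomJoin (sys hS hpos).xs (sys hS hpos).xt (shE hS hpos (idx hS g x)) (g, Θ.pos x)
        (g * gw Θ b, Θ.pos x₁) := by
  obtain ⟨x', hlt⟩ := (tv_iff hS hpos g x).1 h
  obtain ⟨h1, h2⟩ := slev_le_of_idx_lt hS hlt
  rcases Nat.lt_or_ge (slev g x) (vlev g) with h3 | h3
  · have h4 : vlev g = slev g x + 1 := le_antisymm (hS.vlev_le g x) h3
    have h5 : slev g x' = slev g x := by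
      have := hS.vlev_le g x'
      omega
    obtain ⟨b, y, y', -, -, hb1, hb2, hb3, -⟩ := hS.branch g (x := x) (x' := x') h2.symm h5.symm h4
    refine ⟨FreeGroup.invRev b, y, hb1.inv Θ.sym, by rw [gw_invRev, hb3], ?_⟩
    exact shared_path hS hpos (hb1.inv Θ.sym) (hb2.inv Θ.sym) hlt
  · refine ⟨[], x, Shell.Path.nil x, by rw [gw_nil, mul_one]; exact le_antisymm h3 (hS.slev_le g x),
      ?_⟩
    rw [gw_nil, mul_one]
    exact DomJoin.refl _ _ _ _

/-- two attaching points are joined through shared edges -/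
theorem att_join {g : Gam Θ} {x z : T} {a : List (S × Bool)} (h0 : vlev g = slev g x)
    (hp : Shell.Path Θ.E x a z) (h1 : vlev (g * gw Θ a) = slev g x) :
    DomJoin (sys hS hpos).xs (sys hS hpos).xt (shE hS hpos (idx hS g x)) (g, Θ.pos x)
      (g * gw Θ a, Θ.pos z) := by
  obtain ⟨p₁, p₂, z₁, -, hp1, hp2, ha, hb⟩ := hS.att_conn g h0 hp h1
  have hw : gw Θ a = gw Θ p₁ * gw Θ p₂ := by
    rw [← gw_append]; exact gw_same_end hp (hp1.append hp2)
  rw [hw, ← mul_assoc]
  have j1 : DomJoin (sys hS hpos).xs (sys hS hpos).xt (shE hS hpos (idx hS g x)) (g, Θ.pos x)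
      (g * gw Θ p₁, Θ.pos z₁) := by
    rcases ha with rfl | ⟨x₁, h2, e, h3⟩
    · have : x = z₁ := path_nil_iff.1 hp1
      subst this
      rw [gw_nil, mul_one]
      exact DomJoin.refl _ _ _ _
    · exact shared_path hS hpos hp1 h3 (idx_lt_of_slev_lt hS h2)
  have j2 : DomJoin (sys hS hpos).xs (sys hS hpos).xt (shE hS hpos (idx hS g x))
      (g * gw Θ p₁, Θ.pos z₁) (g * gw Θ p₁ * gw Θ p₂, Θ.pos z) := by
    rcases hb with rfl | ⟨x₂, h2, e, h3⟩
    · have : z₁ = z := path_nil_iff.1 hp2
      subst this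
      rw [gw_nil, mul_one]
      exact DomJoin.refl _ _ _ _
    · rw [← hS.slev_path g hp1] at h2
      have := shared_path hS hpos hp2 h3 (idx_lt_of_slev_lt hS h2)
      rwa [idx_path hS g hp1] at this
  exact j1.trans j2

/-- The shared part of every sheet is connected. -/
theorem shell_SC : (shell hS hpos).SC := by
  rintro i ⟨g, q⟩ ⟨hy1, hy2⟩ ⟨g', q'⟩ ⟨hy1', hy2'⟩
  obtain ⟨x, rfl⟩ := hpos q
  have hsh : (sys hS hpos).sheet (g', q') = (sys hS hpos).sheet (g, Θ.pos x) :=
    ord_inj slev (hy1'.trans hy1.symm)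
  obtain ⟨a, z, h1, rfl, rfl⟩ := (sheet_eq_iff hS.embed hpos g g' x q').1 hsh
  have hi : idx hS g x = i := hy1
  obtain ⟨b, x₁, hb1, hb2, hb3⟩ := descend hS hpos hy2
  obtain ⟨b', z₁, hb1', hb2', hb3'⟩ := descend hS hpos hy2'
  rw [idx_path hS g h1] at hb3'
  rw [hS.slev_path g h1] at hb2'
  have hp : Shell.Path Θ.E x₁ (FreeGroup.invRev b ++ (a ++ b')) z₁ :=
    (hb1.inv Θ.sym).append (h1.append hb1')
  have hg : g * gw Θ b * gw Θ (FreeGroup.invRev b ++ (a ++ b')) = g * gw Θ a * gw Θ b' := by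
    rw [gw_append, gw_append, gw_invRev]; group
  have j := att_join hS hpos (g := g * gw Θ b) (x := x₁) (by rw [hb2, hS.slev_path g hb1]) hp
    (by rw [hg, hb2', hS.slev_path g hb1])
  rw [hg, idx_path hS g hb1] at j
  have := (hb3.trans j).trans hb3'.symm
  rw [hi] at this
  exact this

end

end DomBr

end Claimed.Agent.R300
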