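import Claimed.Agent.R300.DomTors

/-!
# R300 / Dom: an integral 2-cocycle from cycle coordinates

Let `Y` be a system of sheets with existence and uniqueness of cycle coordinates, and suppose the
sheets carry voltages in a group `H` (`vol`) and deck coordinates (`hc`).  Then every normalised
2-cocycle `ω` on `H` extends, up to a coboundary, to a 2-cocycle on the whole group.
-/

namespace Claimed.Agent.R300

open Finsupp
open scoped Classical

namespace DomSys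

variable {Γ S VB EB Sh : Type*} [Group Γ] [MulAction Γ Sh] (Y : DomSys Γ S VB EB Sh)

theorem exists_cocycle
    (hgen : Function.Surjective (FreeGroup.lift Y.sig))
    (hlift : ∀ z : Γ × S →₀ ℤ, domBd domCs (domCt Y.sig) z = 0 →
      ∃ ζ : Γ × EB →₀ ℤ, domBd Y.xs Y.xt ζ = 0 ∧ ζ.mapDomain Y.pE = z)
    (hinj : ∀ ζ : Γ × EB →₀ ℤ, domBd Y.xs Y.xt ζ = 0 → ζ.mapDomain Y.pE = 0 → ζ = 0)
    {H : Type*} [Group H] (vol : EB → H) (hc : Γ × VB → H)
    (hedge : ∀ ε : Γ × EB, hc (Y.xt ε) = hc (Y.xs ε) * vol ε.2)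
    (ω : H → H → ℤ) (hω : ∀ a b c, ω a b + ω (a * b) c = ω a (b * c) + ω b c)
    (hω1 : ∀ a, ω a 1 = 0)
    (φ : H →* Γ) (v₀ : VB) (hφ : ∀ h, hc (φ h, v₀) = h)
    (hσ : ∀ h, ∃ σ : Γ × EB →₀ ℤ,
      domBd Y.xs Y.xt σ = single (φ h, v₀) (1 : ℤ) - single (1, v₀) 1) :
    ∃ c : Γ → Γ → ℤ, (∀ a b d, c a b + c (a * b) d = c a (b * d) + c b d) ∧
      ∃ k : H → ℤ, ∀ h h', c (φ h) (φ h') = ω h h' + (k h + k h' - k (h * h')) := by
  -- notation
  let bdC := domBd (domCs : Γ × S → Γ) (domCt Y.sig)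
  let bdX := domBd Y.xs Y.xt
  let p : (Γ × EB →₀ ℤ) →ₗ[ℤ] (Γ × S →₀ ℤ) := Finsupp.lmapDomain ℤ ℤ Y.pE
  let TC : Γ → (Γ × S →₀ ℤ) →ₗ[ℤ] (Γ × S →₀ ℤ) := fun γ => Finsupp.lmapDomain ℤ ℤ (domTr S γ)
  let TX : Γ → (Γ × EB →₀ ℤ) →ₗ[ℤ] (Γ × EB →₀ ℤ) := fun γ => Finsupp.lmapDomain ℤ ℤ (domTr EB γ)
  let TV : Γ → (Γ × VB →₀ ℤ) →ₗ[ℤ] (Γ × VB →₀ ℤ) := fun γ => Finsupp.lmapDomain ℤ ℤ (domTr VB γ)
  let T0 : Γ → (Γ →₀ ℤ) →ₗ[ℤ] (Γ →₀ ℤ) := fun γ => Finsupp.lmapDomain ℤ ℤ (fun g => γ * g)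
  have hinj' : ∀ ζ ζ' : Γ × EB →₀ ℤ, bdX ζ = 0 → bdX ζ' = 0 → p ζ = p ζ' → ζ = ζ' := by
    intro ζ ζ' h1 h2 h3
    have := hinj (ζ - ζ') (by rw [map_sub]; change bdX ζ - bdX ζ' = 0; rw [h1, h2, sub_zero])
      (by change p (ζ - ζ') = 0; rw [map_sub, h3, sub_self])
    exact sub_eq_zero.1 this
  have hbdTC : ∀ γ c, bdC (TC γ c) = T0 γ (bdC c) := fun γ c =>
    domBd_mapDomain domCs (domCt Y.sig) domCs (domCt Y.sig) (fun g => γ * g) (domTr S γ)
      (fun _ => rfl) (fun e => by simp only [domCt, domTr, mul_assoc]) c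
  have hbdTX : ∀ γ c, bdX (TX γ c) = TV γ (bdX c) := fun γ c =>
    domBd_mapDomain Y.xs Y.xt Y.xs Y.xt (domTr VB γ) (domTr EB γ)
      (fun _ => rfl) (fun e => by simp only [xt, domTr, mul_assoc]) c
  have hbdp : ∀ c, bdC (p c) = Finsupp.lmapDomain ℤ ℤ Prod.fst (bdX c) := fun c =>
    domBd_mapDomain Y.xs Y.xt domCs (domCt Y.sig) Prod.fst Y.pE (fun _ => rfl) (fun _ => rfl) c
  have hpT : ∀ γ c, p (TX γ c) = TC γ (p c) := by
    intro γ c
    change (c.mapDomain (domTr EB γ)).mapDomain Y.pE = (c.mapDomain Y.pE).mapDomain (domTr S γ)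
    rw [← Finsupp.mapDomain_comp, ← Finsupp.mapDomain_comp]
    rfl
  have hTCmul : ∀ a b c, TC a (TC b c) = TC (a * b) c := by
    intro a b c
    change (c.mapDomain (domTr S b)).mapDomain (domTr S a) = c.mapDomain (domTr S (a * b))
    rw [← Finsupp.mapDomain_comp]
    congr 1
    funext x
    simp only [Function.comp, domTr, mul_assoc]
  -- the cochain
  let θ : Γ × EB → ℤ := fun ε => ω (hc (Y.xs ε)) (vol ε.2)
  let Θ : (Γ × EB →₀ ℤ) →ₗ[ℤ] ℤ := Finsupp.linearCombination ℤ θ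
  let ψ : Γ → Γ × VB → ℤ := fun γ x => ω (hc (domTr VB γ x) * (hc x)⁻¹) (hc x)
  let Ψ : Γ → (Γ × VB →₀ ℤ) →ₗ[ℤ] ℤ := fun γ => Finsupp.linearCombination ℤ (ψ γ)
  have hΘT : ∀ γ ζ, Θ (TX γ ζ) = Θ ζ + Ψ γ (bdX ζ) := by
    intro γ ζ
    induction ζ using Finsupp.induction_linear with
    | zero => simp
    | add f g hf hg => rw [map_add, map_add, map_add, map_add, map_add, hf, hg]; ring
    | single ε m =>
      have h1 : TX γ (single ε m) = single (domTr EB γ ε) m := Finsupp.mapDomain_single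
      have h2 : bdX (single ε m) = m • (single (Y.xt ε) (1 : ℤ) - single (Y.xs ε) 1) :=
        domBd_single _ _ _ _
      rw [h1, h2, map_smul, map_sub]
      simp only [Θ, Ψ, Finsupp.linearCombination_single, smul_eq_mul, one_mul]
      have e1 : Y.xs (domTr EB γ ε) = domTr VB γ (Y.xs ε) := rfl
      have e2 : Y.xt (domTr EB γ ε) = domTr VB γ (Y.xt ε) := by
        simp only [xt, domTr, mul_assoc]
      have e3 : hc (domTr VB γ (Y.xt ε)) = hc (domTr VB γ (Y.xs ε)) * vol ε.2 := by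
        rw [← e2, hedge, e1]; rfl
      have key : θ (domTr EB γ ε) = θ ε + (ψ γ (Y.xt ε) - ψ γ (Y.xs ε)) := by
        simp only [θ, ψ, e1, e3, hedge]
        have := hω (hc (domTr VB γ (Y.xs ε)) * (hc (Y.xs ε))⁻¹) (hc (Y.xs ε)) (vol ε.2)
        rw [inv_mul_cancel_right] at this
        have e4 : hc (domTr VB γ (Y.xs ε)) * vol ε.2 * (hc (Y.xs ε) * vol ε.2)⁻¹ =
            hc (domTr VB γ (Y.xs ε)) * (hc (Y.xs ε))⁻¹ := by group
        rw [e4]
        have e5 : (domTr EB γ ε).2 = ε.2 := rfl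
        rw [e5]
        linarith
      rw [key]; ring
  -- path chains
  choose wd hwd using hgen
  let π : Γ → (Γ × S →₀ ℤ) := fun g => domCh Y.sig 1 (wd g)
  have hbdπ : ∀ g, bdC (π g) = single g (1 : ℤ) - single 1 1 := by
    intro g
    have := domBd_domCh Y.sig 1 (wd g)
    rwa [hwd, one_mul] at this
  let Pi0 : (Γ →₀ ℤ) →ₗ[ℤ] (Γ × S →₀ ℤ) := Finsupp.linearCombination ℤ π
  -- the linear lifting map
  have hex : ∀ ε : Γ × S, ∃ ζ : Γ × EB →₀ ℤ, bdX ζ = 0 ∧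
      p ζ = single ε (1 : ℤ) - Pi0 (bdC (single ε 1)) := by
    intro ε
    apply hlift
    change bdC (single ε (1 : ℤ) - Pi0 (bdC (single ε 1))) = 0
    have h1 : bdC (single ε (1 : ℤ)) = single (domCt Y.sig ε) (1 : ℤ) - single (domCs ε) 1 :=
      domBd_single_one _ _ _
    rw [map_sub, h1, map_sub]
    simp only [Pi0, Finsupp.linearCombination_single, one_smul]
    rw [map_sub, hbdπ, hbdπ]
    abel
  choose lf hlf1 hlf2 using hex
  let Λ : (Γ × S →₀ ℤ) →ₗ[ℤ] (Γ × EB →₀ ℤ) := Finsupp.linearCombination ℤ lf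
  have hΛ1 : ∀ c, bdX (Λ c) = 0 := by
    intro c
    induction c using Finsupp.induction_linear with
    | zero => simp
    | add f g hf hg => rw [map_add, map_add, hf, hg, add_zero]
    | single ε m =>
      simp only [Λ, Finsupp.linearCombination_single, map_smul, hlf1, smul_zero]
  have hΛ2 : ∀ c, p (Λ c) = c - Pi0 (bdC c) := by
    intro c
    induction c using Finsupp.induction_linear with
    | zero => simp
    | add f g hf hg => rw [map_add, map_add, hf, hg, map_add, map_add]; abel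
    | single ε m =>
      have h1 : single ε m = m • single ε (1 : ℤ) := by simp
      rw [h1, map_smul, map_smul, map_smul, map_smul, ← smul_sub]
      congr 1
      simp only [Λ, Finsupp.linearCombination_single, one_smul, hlf2]
  have hΛp : ∀ ζ, bdX ζ = 0 → Λ (p ζ) = ζ := by
    intro ζ hζ
    apply hinj' _ _ (hΛ1 _) hζ
    rw [hΛ2, hbdp, hζ, map_zero, map_zero, sub_zero]
  have hΛT : ∀ γ z, bdC z = 0 → Λ (TC γ z) = TX γ (Λ z) := by
    intro γ z hz
    apply hinj' _ _ (hΛ1 _) (by rw [hbdTX, hΛ1, map_zero])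
    rw [hΛ2, hbdTC, hz, map_zero, map_zero, sub_zero, hpT, hΛ2, hz, map_zero, sub_zero]
  let Θb : (Γ × S →₀ ℤ) →ₗ[ℤ] ℤ := Θ.comp Λ
  have hΘbT : ∀ γ z, bdC z = 0 → Θb (TC γ z) = Θb z := by
    intro γ z hz
    change Θ (Λ (TC γ z)) = Θ (Λ z)
    rw [hΛT γ z hz, hΘT, hΛ1, map_zero, add_zero]
  have hΘbp : ∀ ζ, bdX ζ = 0 → Θb (p ζ) = Θ ζ := by
    intro ζ hζ
    change Θ (Λ (p ζ)) = Θ ζ
    rw [hΛp ζ hζ]
  -- the cocycle
  let z : Γ → Γ → (Γ × S →₀ ℤ) := fun a b => π a + TC a (π b) - π (a * b)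
  have hT0 : ∀ γ g, T0 γ (single g (1 : ℤ)) = single (γ * g) 1 := fun γ g =>
    Finsupp.mapDomain_single
  have hz : ∀ a b, bdC (z a b) = 0 := by
    intro a b
    simp only [z, map_add, map_sub, hbdπ, hbdTC, hT0, mul_one]
    abel
  refine ⟨fun a b => Θb (z a b), ?_, ?_⟩
  · intro a b d
    have h1 : TC a (z b d) + z a (b * d) = z (a * b) d + z a b := by
      simp only [z, map_add, map_sub, hTCmul, mul_assoc]
      abel
    have h2 := congrArg Θb h1
    rw [map_add, map_add, hΘbT a _ (hz b d)] at h2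
    change Θb (z a b) + Θb (z (a * b) d) = Θb (z a (b * d)) + Θb (z b d)
    linarith
  · choose σ hσ' using hσ
    have hσb : ∀ h, bdX (σ h) = single (φ h, v₀) (1 : ℤ) - single (1, v₀) 1 := hσ'
    have hy : ∀ h, bdC (π (φ h) - p (σ h)) = 0 := by
      intro h
      rw [map_sub, hbdπ, hbdp, hσb, map_sub]
      have e1 : Finsupp.lmapDomain ℤ ℤ Prod.fst (single (φ h, v₀) (1 : ℤ)) = single (φ h) 1 :=
        Finsupp.mapDomain_single
      have e2 : Finsupp.lmapDomain ℤ ℤ Prod.fst (single ((1 : Γ), v₀) (1 : ℤ)) = single 1 1 :=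
        Finsupp.mapDomain_single
      rw [e1, e2, sub_self]
    refine ⟨fun h => Θb (π (φ h) - p (σ h)) + Θ (σ h), ?_⟩
    intro h h'
    have hTV : ∀ γ x, TV γ (single x (1 : ℤ)) = single (domTr VB γ x) 1 := fun γ x =>
      Finsupp.mapDomain_single
    have hcyc : bdX (σ h + TX (φ h) (σ h') - σ (h * h')) = 0 := by
      rw [map_sub, map_add, hbdTX, hσb, hσb, hσb, map_sub, hTV, hTV]
      simp only [domTr, mul_one, map_mul]
      abel
    have h1 : z (φ h) (φ h') = (π (φ h) - p (σ h)) + TC (φ h) (π (φ h') - p (σ h')) -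
        (π (φ (h * h')) - p (σ (h * h'))) + p (σ h + TX (φ h) (σ h') - σ (h * h')) := by
      simp only [z, map_add, map_sub, hpT, map_mul]
      abel
    have hA : Θb (z (φ h) (φ h')) = Θb (π (φ h) - p (σ h)) + Θb (π (φ h') - p (σ h')) -
        Θb (π (φ (h * h')) - p (σ (h * h'))) + Θ (σ h + TX (φ h) (σ h') - σ (h * h')) := by
      rw [h1, map_add, map_sub, map_add, hΘbT _ _ (hy h'), hΘbp _ hcyc]
    have hB : Θ (σ h + TX (φ h) (σ h') - σ (h * h')) =
        Θ (σ h) + (Θ (σ h') + Ψ (φ h) (bdX (σ h'))) - Θ (σ (h * h')) := by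
      rw [map_sub, map_add, hΘT]
    have e1 : hc ((1 : Γ), v₀) = 1 := by
      have := hφ 1
      rwa [map_one] at this
    have hC : Ψ (φ h) (bdX (σ h')) = ω h h' := by
      rw [hσb, map_sub]
      simp only [Ψ, Finsupp.linearCombination_single, one_smul, ψ, domTr, mul_one, ← map_mul, hφ]
      rw [e1, hω1, mul_inv_cancel_right, sub_zero]
    change Θb (z (φ h) (φ h')) = _
    rw [hA, hB, hC]
    ring

end DomSys

end Claimed.Agent.R300
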