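import Claimed.Agent.R300.ShellMetric

/-!
# Shelling library: voltage covers as relator systems

`VGraph S V F`: a deterministic symmetric `S`-labelled graph on `V` with voltages in a group `F`.
Its voltage cover (vertices `V × F`) is a relator system `Y.rel` with position map `Prod.fst`
(KK: `F` the nilpotent group of Section 8; INJ: the Heisenberg type group).

* `VGraph.rel`, path lemmas (`cpath_fst`, `cpath_lift`, `cpath_translate`, `cpath_pow`);
* `VGraph.c6_of_base`: `C6` from hypotheses on the base graph (scale function, uniqueness of long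
  words, girth of the cover for cyclically reduced closed walks);
* `VGraph.closes_of_pow`: if `F` has no torsion, a walk of the cover between two points over the
  same base vertex, some power of which closes up, is closed.
-/

namespace Claimed.Agent.R300.Shell

universe u v w

/-- A deterministic symmetric labelled graph with voltages in the group `F`. -/
structure VGraph (S : Type u) (V : Type v) (F : Type w) [Group F] where
  E : V → S × Bool → V → Prop
  sym : GSym E
  det : GDet E
  vol : V → S × Bool → F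
  vol_inv : ∀ ⦃a : V⦄ ⦃l : S × Bool⦄ ⦃b : V⦄, E a l b → vol b (linv l) = (vol a l)⁻¹

namespace VGraph

variable {S : Type u} {V : Type v} {F : Type w} [Group F] (Y : VGraph S V F)

/-- the edges of the voltage cover -/
def cE : V × F → S × Bool → V × F → Prop :=
  fun x l z => Y.E x.1 l z.1 ∧ z.2 = x.2 * Y.vol x.1 l

theorem cE_sym : GSym Y.cE := by
  rintro ⟨a, f⟩ l ⟨b, f'⟩ ⟨h1, h2⟩
  refine ⟨Y.sym h1, ?_⟩
  simp only at h2 ⊢
  rw [Y.vol_inv h1, h2, mul_inv_cancel_right]

theorem cE_det : GDet Y.cE := by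
  rintro ⟨a, f⟩ l ⟨b, f'⟩ ⟨c, f''⟩ ⟨h1, h2⟩ ⟨h3, h4⟩
  have : b = c := Y.det h1 h3
  subst this
  simp only at h2 h4
  rw [h2, h4]

variable {Y}

theorem cpath_fst {x z : V × F} {w : List (S × Bool)} (h : Path Y.cE x w z) :
    Path Y.E x.1 w z.1 := by
  induction h with
  | nil => exact Path.nil _
  | cons e _ ih => exact Path.cons e.1 ih

theorem cpath_translate (g : F) {x z : V × F} {w : List (S × Bool)} (h : Path Y.cE x w z) :
    Path Y.cE (x.1, g * x.2) w (z.1, g * z.2) := by
  induction h with
  | nil => exact Path.nil _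
  | @cons a b c l w e _ ih =>
    have e' : Y.cE (a.1, g * a.2) l (b.1, g * b.2) := by
      refine ⟨e.1, ?_⟩
      show g * b.2 = g * a.2 * Y.vol a.1 l
      rw [e.2, mul_assoc]
    exact Path.cons e' ih

theorem cpath_lift {a b : V} {w : List (S × Bool)} (h : Path Y.E a w b) (f : F) :
    ∃ f', Path Y.cE (a, f) w (b, f') := by
  induction h generalizing f with
  | nil => exact ⟨f, Path.nil _⟩
  | @cons a b c l w e _ ih =>
    obtain ⟨f', hf'⟩ := ih (f * Y.vol a l)
    exact ⟨f', Path.cons ⟨e, rfl⟩ hf'⟩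

/-- moving the base point of a path of the cover to another point of the same fibre -/
theorem cpath_move {a b : V} {f f' : F} {w : List (S × Bool)} (h : Path Y.cE (a, f) w (b, f'))
    (g : F) : Path Y.cE (a, g) w (b, g * (f⁻¹ * f')) := by
  have := cpath_translate (g * f⁻¹) h
  simpa [mul_assoc] using this

/-- powers of a walk of the cover between two points of one fibre -/
theorem cpath_pow {a : V} {f h : F} {w : List (S × Bool)} (hp : Path Y.cE (a, f) w (a, f * h))
    (n : ℕ) : Path Y.cE (a, f) (List.replicate n w).flatten (a, f * h ^ n) := by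
  induction n with
  | zero => simp
  | succ n ih =>
    rw [List.replicate_succ', List.flatten_concat]
    refine ih.append ?_
    have := cpath_move hp (f * h ^ n)
    simpa [pow_succ, mul_assoc] using this

variable (Y)

/-- The voltage cover as a relator system; the position of a vertex is its base vertex. -/
def rel : RelSys S (V × F) V where
  E := Y.cE
  pos := Prod.fst
  sym := Y.cE_sym
  det := Y.cE_det
  pos_step := by
    rintro ⟨a, f⟩ ⟨a', f'⟩ l ⟨b, f''⟩ h ⟨h1, _⟩
    have h' : a = a' := h
    subst h'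
    exact ⟨(b, f' * Y.vol a l), ⟨h1, rfl⟩, rfl⟩
  pos_close := by
    rintro ⟨a, f⟩ ⟨a', f'⟩ w h hp
    have h' : a = a' := h
    subst h'
    have := cpath_move hp f'
    simpa using this

@[simp] theorem rel_E : Y.rel.E = Y.cE := rfl
@[simp] theorem rel_pos (x : V × F) : Y.rel.pos x = x.1 := rfl

variable {Y}

/-- pieces of the cover are words readable from two different base vertices -/
theorem piece_iff {x z : V × F} {p : List (S × Bool)} :
    Piece Y.rel x p z ↔ Path Y.cE x p z ∧ FreeGroup.IsReduced p ∧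
      ∃ a' b', a' ≠ x.1 ∧ Path Y.E a' p b' := by
  constructor
  · rintro ⟨h1, h2, x', z', h3, h4⟩
    exact ⟨h1, h2, x'.1, z'.1, h3, cpath_fst h4⟩
  · rintro ⟨h1, h2, a', b', h3, h4⟩
    obtain ⟨f', hf'⟩ := cpath_lift h4 (1 : F)
    exact ⟨h1, h2, (a', 1), (b', f'), h3, hf'⟩

/-- The hypotheses of the KK geometry on the base graph: `Λ` is a scale function,
`ε`-Lipschitz along the edges; a reduced word of length `≥ Λ a` readable from `a` determines `a`;
nonempty cyclically reduced closed walks at `a` with trivial holonomy are longer than `c * Λ a`. -/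
structure BaseMetric (Y : VGraph S V F) (Λ : V → ℝ) (ε c : ℝ) : Prop where
  nonneg : ∀ a, 0 ≤ Λ a
  lip : ∀ ⦃a : V⦄ ⦃l : S × Bool⦄ ⦃b : V⦄, Y.E a l b → Λ b ≤ Λ a + ε
  uniq : ∀ ⦃a a' b b' : V⦄ ⦃p : List (S × Bool)⦄, FreeGroup.IsReduced p → Path Y.E a p b →
    Path Y.E a' p b' → Λ a ≤ (p.length : ℝ) → a' = a
  girth : ∀ ⦃a : V⦄ ⦃w : List (S × Bool)⦄, w ≠ [] → FreeGroup.IsCyclicallyReduced w →
    Path Y.cE (a, 1) w (a, 1) → c * Λ a < (w.length : ℝ)

namespace BaseMetric

variable {Λ : V → ℝ} {ε c : ℝ}

theorem mlip (h : BaseMetric Y Λ ε c) : MLip Y.rel (fun x => Λ x.1) ε :=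
  fun _ _ _ e => h.lip e.1

theorem mpiece (h : BaseMetric Y Λ ε c) : MPiece Y.rel (fun x => Λ x.1) 1 := by
  intro x p z hp
  obtain ⟨h1, h2, a', b', h3, h4⟩ := piece_iff.1 hp
  rw [one_mul]
  by_contra hcon
  exact h3 (h.uniq h2 (cpath_fst h1) h4 (not_lt.1 hcon))

theorem mcgirth (h : BaseMetric Y Λ ε c) : MCGirth Y.rel (fun x => Λ x.1) c := by
  rintro ⟨a, f⟩ w hne hc hp
  have := cpath_move hp 1
  exact h.girth hne hc (by simpa using this)

theorem mgirth (h : BaseMetric Y Λ ε c) (hc : 0 ≤ c) (hcε : c * ε ≤ 2) :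
    MGirth Y.rel (fun x => Λ x.1) c :=
  girth_of_cyclic hc hcε h.mlip h.mcgirth

/-- **`C6` for the voltage cover, from the base graph.** -/
theorem c6 (h : BaseMetric Y Λ ε c) (hε : 0 ≤ ε) (hc : 0 ≤ c) (hcε : c * ε ≤ 2)
    (hnum : msum (1 + ε) 5 ≤ c) : C6 Y.rel :=
  c6_of_metric (m := fun x => Λ x.1) (a := ε) (L := 1) (c := c) (fun x => h.nonneg x.1) hε
    zero_le_one h.mlip h.mpiece (h.mgirth hc hcε) (by simpa using hnum)

end BaseMetric

/-- If the voltage group has no torsion, a walk of the cover between two points of one fibre, some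
positive power of which closes up, is closed. -/
theorem closes_of_pow (hF : ∀ f : F, IsOfFinOrder f → f = 1) {x z : V × F}
    {w : List (S × Bool)} {n : ℕ} (hn : 0 < n) (hp : Path Y.cE x w z) (hpos : z.1 = x.1)
    (hc : Path Y.cE x (List.replicate n w).flatten x) : z = x := by
  obtain ⟨a, f⟩ := x
  obtain ⟨a', f'⟩ := z
  have h' : a' = a := hpos
  subst h'
  have hp' : Path Y.cE (a', f) w (a', f * (f⁻¹ * f')) := by simpa using hp
  have h1 := cpath_pow hp' n
  have h2 := h1.det Y.cE_det hc
  have h3 : (f⁻¹ * f') ^ n = 1 := by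
    have := congrArg Prod.snd h2
    simpa using this
  have h4 : f⁻¹ * f' = 1 := hF _ (isOfFinOrder_iff_pow_eq_one.2 ⟨n, hn, h3⟩)
  have h5 : f' = f := by
    have := congrArg (fun t => f * t) h4
    simpa using this
  rw [h5]

end VGraph

end Claimed.Agent.R300.Shell
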