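import Claimed.Agent.R300.DomBrMain
import Claimed.Agent.R300.DomCoc
import Claimed.Agent.R300.ShellCover

/-!
# R300 / bridge Shell → Dom, part 5: voltage covers

For a voltage graph `Y : Shell.VGraph S V F` whose cover is shelled:
* `DomBr.holo`: the holonomy homomorphism `F →* Gam Y.rel` (deck group of the sheet through `1`),
  injective (`holo_injective`);
* `DomBr.volt_cocycle`: every normalised integral 2-cocycle on `F` extends, up to a coboundary, to
  a 2-cocycle on `Gam Y.rel`;
* `DomBr.volt_torsion_free`: if `F` is torsion-free then so is `Gam Y.rel`.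
-/

namespace Claimed.Agent.R300

namespace DomBr

open Shell Finsupp
open scoped Classical

universe u v w

variable {S : Type u} {V : Type v} {F : Type w} [Group F] {Y : VGraph S V F}

theorem vpos : Function.Surjective Y.rel.pos := fun a => ⟨(a, 1), rfl⟩

section holo

variable (v₀ : V) (hconn : ∀ f : F, ∃ c, Shell.Path Y.cE (v₀, 1) c (v₀, f))

/-- The holonomy homomorphism of the sheet through `1` at `(v₀, 1)`. -/
noncomputable def holo : F →* Gam Y.rel where
  toFun f := gw Y.rel (Classical.choose (hconn f))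
  map_one' := by
    have h := Classical.choose_spec (hconn 1)
    exact gw_closed (Θ := Y.rel) h
  map_mul' f f' := by
    have h := Classical.choose_spec (hconn f)
    have h' := Classical.choose_spec (hconn f')
    have h'' := Classical.choose_spec (hconn (f * f'))
    have h1 := VGraph.cpath_translate f h'
    simp only [mul_one] at h1
    rw [← gw_append]
    exact gw_same_end (Θ := Y.rel) h'' (h.append h1)

theorem holo_eq {f : F} {c : List (S × Bool)} (h : Shell.Path Y.cE (v₀, 1) c (v₀, f)) :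
    holo v₀ hconn f = gw Y.rel c :=
  gw_same_end (Θ := Y.rel) (Classical.choose_spec (hconn f)) h

theorem holo_injective (hemb : Embeds Y.rel) : Function.Injective (holo v₀ hconn) := by
  rw [injective_iff_map_eq_one]
  intro f hf
  have h := Classical.choose_spec (hconn f)
  have := hemb h hf
  exact congrArg Prod.snd this

end holo

section
variable {vlev : Gam Y.rel → ℕ} {slev : Gam Y.rel → V × F → ℕ}
  (hS : ShellSpec Y.rel vlev slev)

/-- the base incidence of a sheet -/
noncomputable def vbase (v₀ : V) (A : Sheets Y.rel) : Gam Y.rel × V :=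
  if A = shAt Y.rel v₀ then (1, v₀)
  else if h : ∃ p : Gam Y.rel × V, p.1 • shAt Y.rel p.2 = A then Classical.choose h else (1, v₀)

theorem vbase_spec (v₀ : V) (p : Gam Y.rel × V) :
    (vbase v₀ (p.1 • shAt Y.rel p.2)).1 • shAt Y.rel (vbase v₀ (p.1 • shAt Y.rel p.2)).2 =
      p.1 • shAt Y.rel p.2 := by
  unfold vbase
  split_ifs with h1 h2
  · rw [h1, one_smul]
  · exact Classical.choose_spec h2
  · exact absurd ⟨p, rfl⟩ h2

include hS in
theorem exists_coord (v₀ : V) (p : Gam Y.rel × V) :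
    ∃ f c, Shell.Path Y.cE ((vbase v₀ (p.1 • shAt Y.rel p.2)).2, 1) c (p.2, f) ∧
      p.1 = (vbase v₀ (p.1 • shAt Y.rel p.2)).1 * gw Y.rel c := by
  have h := (vbase_spec v₀ p).symm
  obtain ⟨c, z, h1, h2, h3⟩ := (sheet_eq_iff hS.embed vpos (vbase v₀ (p.1 • shAt Y.rel p.2)).1 p.1
    ((vbase v₀ (p.1 • shAt Y.rel p.2)).2, (1 : F)) p.2).1 h
  obtain ⟨a, f⟩ := z
  have h2' : a = p.2 := h2
  subst h2'
  exact ⟨f, c, h1, h3⟩

/-- the deck coordinate of an incidence -/
noncomputable def vhc (v₀ : V) (p : Gam Y.rel × V) : F := Classical.choose (exists_coord hS v₀ p)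

theorem vhc_eq (v₀ : V) {p b : Gam Y.rel × V} {f : F} {c : List (S × Bool)}
    (hb : vbase v₀ (p.1 • shAt Y.rel p.2) = b)
    (h1 : Shell.Path Y.cE (b.2, 1) c (p.2, f)) (h2 : p.1 = b.1 * gw Y.rel c) :
    vhc hS v₀ p = f := by
  subst hb
  obtain ⟨c', h3, h4⟩ := Classical.choose_spec (exists_coord hS v₀ p)
  have h5 : gw Y.rel c' = gw Y.rel c := mul_left_cancel (h4.symm.trans h2)
  have h6 : Shell.Path Y.rel.E (p.2, f) (FreeGroup.invRev c ++ c') (p.2, vhc hS v₀ p) :=
    (Shell.Path.inv Y.rel.sym h1).append h3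
  have h7 := hS.embed h6 (by rw [gw_append, gw_invRev, h5, inv_mul_cancel])
  exact congrArg Prod.snd h7

theorem vhc_spec (v₀ : V) (p : Gam Y.rel × V) :
    ∃ c, Shell.Path Y.cE ((vbase v₀ (p.1 • shAt Y.rel p.2)).2, 1) c (p.2, vhc hS v₀ p) ∧
      p.1 = (vbase v₀ (p.1 • shAt Y.rel p.2)).1 * gw Y.rel c :=
  Classical.choose_spec (exists_coord hS v₀ p)

/-- the voltage of a base edge -/
def vvol (e : EB Y.rel) : F := Y.vol e.src (e.lab, true)

theorem vhc_edge (v₀ : V) (ε : Gam Y.rel × EB Y.rel) :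
    vhc hS v₀ ((sys hS vpos).xt ε) = vhc hS v₀ ((sys hS vpos).xs ε) * vvol ε.2 := by
  obtain ⟨g, e⟩ := ε
  obtain ⟨c, h1, h2⟩ := vhc_spec hS v₀ ((sys hS vpos).xs (g, e))
  set f := vhc hS v₀ ((sys hS vpos).xs (g, e)) with hf
  have hsh : (sys hS vpos).sheet ((sys hS vpos).xt (g, e)) =
      (sys hS vpos).sheet ((sys hS vpos).xs (g, e)) := (sys hS vpos).sheet_xt (g, e)
  obtain ⟨z, h3, h4⟩ := e.step (x := (e.src, f)) rfl
  obtain ⟨a, f'⟩ := z
  have h4' : a = e.tgt := h4
  subst h4'
  have h5 : f' = f * Y.vol e.src (e.lab, true) := h3.2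
  refine vhc_eq hS v₀ (p := (sys hS vpos).xt (g, e)) (c := c ++ [(e.lab, true)])
    (congrArg (vbase v₀) hsh) ?_ ?_
  · have : Shell.Path Y.cE (e.src, f) [(e.lab, true)] (e.tgt, f * vvol e) := by
      rw [path_single_iff]
      rw [h5] at h3
      exact h3
    exact h1.append this
  · change g * sig Y.rel e.lab = _
    have h2' : g = (vbase v₀ ((sys hS vpos).sheet ((sys hS vpos).xs (g, e)))).1 * gw Y.rel c := h2
    rw [gw_append, ← mul_assoc, ← h2']
    rfl

variable (hC : C62 Y.rel) (hL : AllLetters Y.rel)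

include hS hC hL in
/-- **Extension of integral 2-cocycles from the deck group to the whole group.** -/
theorem volt_cocycle (v₀ : V) (hconn : ∀ f : F, ∃ c, Shell.Path Y.cE (v₀, 1) c (v₀, f))
    (ω : F → F → ℤ) (hω : ∀ a b c, ω a b + ω (a * b) c = ω a (b * c) + ω b c)
    (hω1 : ∀ a, ω a 1 = 0) :
    ∃ c : Gam Y.rel → Gam Y.rel → ℤ,
      (∀ a b d, c a b + c (a * b) d = c a (b * d) + c b d) ∧
      ∃ k : F → ℤ, ∀ h h', c (holo v₀ hconn h) (holo v₀ hconn h') =
        ω h h' + (k h + k h' - k (h * h')) := by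
  have hP := sys_presented hS vpos
  refine (sys hS vpos).exists_cocycle hP.gen ((sys hS vpos).exists_lift hP)
    (shelled hS vpos hC hL).cycle_injective vvol (vhc hS v₀) (vhc_edge hS v₀) ω hω hω1
    (holo v₀ hconn) v₀ ?_ ?_
  · intro h
    obtain ⟨c, hc⟩ := hconn h
    have hsh : holo v₀ hconn h • shAt Y.rel v₀ = shAt Y.rel v₀ := by
      have := smul_shAt_path (Θ := Y.rel) (1 : Gam Y.rel) hc
      rw [one_mul, one_smul] at this
      rw [holo_eq v₀ hconn hc]
      exact this
    refine vhc_eq hS v₀ (p := (holo v₀ hconn h, v₀)) (b := (1, v₀)) (c := c) ?_ hc ?_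
    · change vbase v₀ (holo v₀ hconn h • shAt Y.rel v₀) = _
      rw [hsh, vbase, if_pos rfl]
    · rw [one_mul]; exact holo_eq v₀ hconn hc
  · intro h
    obtain ⟨c, hc⟩ := hconn h
    obtain ⟨ζ, h1, -⟩ := (bwalk_of_path hS.embed vpos (Θ := Y.rel) hc).exists_lift 1
    refine ⟨ζ, ?_⟩
    have h2 : (1 : Gam Y.rel) * domVal (toSys hS.embed vpos).sig c = holo v₀ hconn h := by
      rw [one_mul]
      change domVal (sig Y.rel) c = _
      rw [domVal_sig, holo_eq v₀ hconn hc]
    rw [h2] at h1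
    exact h1

include hS hC hL in
/-- If the voltage group is torsion-free then so is the group of the relator system. -/
theorem volt_torsion_free (hF : ∀ f : F, IsOfFinOrder f → f = 1)
    (γ : Gam Y.rel) (hγ : IsOfFinOrder γ) : γ = 1 := by
  refine torsion_free hS vpos hC hL ?_ γ hγ
  intro x z c hp hz hfin
  obtain ⟨n, hn, hn1⟩ := isOfFinOrder_iff_pow_eq_one.1 hfin
  obtain ⟨a, f⟩ := x
  obtain ⟨a', f'⟩ := z
  have hz' : a' = a := hz
  subst hz'
  have hp' : Shell.Path Y.cE (a', f) c (a', f * (f⁻¹ * f')) := by simpa using hp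
  have h1 := VGraph.cpath_pow hp' n
  have h2 : gw Y.rel (List.replicate n c).flatten = 1 := by
    rw [← hn1]
    clear h1 hn1 hn
    induction n with
    | zero => simp [gw_nil]
    | succ n ih => rw [List.replicate_succ, List.flatten_cons, gw_append, ih, pow_succ']
  have h3 := hS.embed (Θ := Y.rel) h1 h2
  have h4 : (f⁻¹ * f') ^ n = 1 := by
    have := congrArg Prod.snd h3
    simpa using this
  have h5 : f⁻¹ * f' = 1 := hF _ (isOfFinOrder_iff_pow_eq_one.2 ⟨n, hn, h4⟩)
  have h6 : f' = f := by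
    have := congrArg (fun t => f * t) h5
    simpa using this
  subst h6
  exact gw_closed (Θ := Y.rel) hp

end

end DomBr

end Claimed.Agent.R300
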