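import Mathlib

/-!
# R300 / Dom: chains on multigraphs

A multigraph is given by two maps `src tgt : E → V`.  All chains have integer coefficients and
finite support.  A set of edges is a *forest* if it carries no nonzero cycle.
-/

namespace Claimed.Agent.R300

open Finsupp
open scoped Classical

section
variable {V E : Type*}

/-- The boundary map of the multigraph `(src, tgt)`. -/
noncomputable def domBd (src tgt : E → V) : (E →₀ ℤ) →ₗ[ℤ] (V →₀ ℤ) :=
  Finsupp.linearCombination ℤ (fun e => Finsupp.single (tgt e) (1 : ℤ) - Finsupp.single (src e) 1)

theorem domBd_single (src tgt : E → V) (e : E) (a : ℤ) :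
    domBd src tgt (single e a) = a • (single (tgt e) (1 : ℤ) - single (src e) 1) := by
  simp [domBd, Finsupp.linearCombination_single]

theorem domBd_single_one (src tgt : E → V) (e : E) :
    domBd src tgt (single e 1) = single (tgt e) (1 : ℤ) - single (src e) 1 := by
  simp [domBd_single]

theorem domBd_apply (src tgt : E → V) (c : E →₀ ℤ) (y : V) :
    domBd src tgt c y =
      c.sum (fun e a => a * ((if tgt e = y then 1 else 0) - (if src e = y then 1 else 0))) := by
  classical
  rw [domBd, Finsupp.linearCombination_apply, Finsupp.sum_apply]
  refine Finsupp.sum_congr (fun e _ => ?_)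
  simp [Finsupp.single_apply]

/-- The augmentation of a boundary vanishes. -/
theorem domBd_sum_eq_zero (src tgt : E → V) (c : E →₀ ℤ) :
    (domBd src tgt c).sum (fun _ a => a) = 0 := by
  classical
  induction c using Finsupp.induction_linear with
  | zero => simp
  | add f g hf hg =>
    rw [map_add, Finsupp.sum_add_index' (by simp) (by simp), hf, hg, add_zero]
  | single e a =>
    rw [domBd_single, smul_sub, Finsupp.smul_single, Finsupp.smul_single, sub_eq_add_neg,
      ← Finsupp.single_neg, Finsupp.sum_add_index' (by simp) (by simp),
      Finsupp.sum_single_index rfl, Finsupp.sum_single_index rfl]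
    simp

/-- A set of edges is a forest if it carries no nonzero integral cycle. -/
def DomForest (src tgt : E → V) (F : Set E) : Prop :=
  ∀ c : E →₀ ℤ, (↑c.support : Set E) ⊆ F → domBd src tgt c = 0 → c = 0

theorem DomForest.mono {src tgt : E → V} {F G : Set E} (h : DomForest src tgt G) (hFG : F ⊆ G) :
    DomForest src tgt F :=
  fun c hc hb => h c (hc.trans hFG) hb

/-- The vertex set `W` is connected through the edge set `F` (chain version). -/
def DomConn (src tgt : E → V) (W : Set V) (F : Set E) : Prop :=
  ∀ y ∈ W, ∀ y' ∈ W, ∃ p : E →₀ ℤ, (↑p.support : Set E) ⊆ F ∧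
    domBd src tgt p = single y' (1 : ℤ) - single y 1

/-- Restriction of chains to a union of components commutes with the boundary. -/
theorem domBd_filter (src tgt : E → V) (q : V → Prop) [DecidablePred q]
    [DecidablePred (fun e => q (src e))] (hq : ∀ e, q (tgt e) ↔ q (src e)) (c : E →₀ ℤ) :
    domBd src tgt (c.filter (fun e => q (src e))) = (domBd src tgt c).filter q := by
  classical
  induction c using Finsupp.induction_linear with
  | zero => simp [Finsupp.filter_zero]
  | add f g hf hg => rw [Finsupp.filter_add, map_add, map_add, Finsupp.filter_add, hf, hg]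
  | single e a =>
    by_cases h : q (src e)
    · have h' : q (tgt e) := (hq e).2 h
      rw [Finsupp.filter_single_of_pos (fun e => q (src e)) h, domBd_single, smul_sub,
        Finsupp.smul_single, Finsupp.smul_single, Finsupp.filter_sub,
        Finsupp.filter_single_of_pos q h, Finsupp.filter_single_of_pos q h']
    · have h' : ¬ q (tgt e) := fun h1 => h ((hq e).1 h1)
      rw [Finsupp.filter_single_of_neg (fun e => q (src e)) h, domBd_single, smul_sub,
        Finsupp.smul_single, Finsupp.smul_single, Finsupp.filter_sub,
        Finsupp.filter_single_of_neg q h, Finsupp.filter_single_of_neg q h']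
      simp

/-- Push-forward of chains along a morphism of multigraphs commutes with the boundary. -/
theorem domBd_mapDomain {V' E' : Type*} (src tgt : E → V) (src' tgt' : E' → V')
    (fV : V → V') (fE : E → E') (hs : ∀ e, src' (fE e) = fV (src e))
    (ht : ∀ e, tgt' (fE e) = fV (tgt e)) (c : E →₀ ℤ) :
    domBd src' tgt' (c.mapDomain fE) = (domBd src tgt c).mapDomain fV := by
  classical
  induction c using Finsupp.induction_linear with
  | zero => simp
  | add f g hf hg => rw [Finsupp.mapDomain_add, map_add, map_add, Finsupp.mapDomain_add, hf, hg]
  | single e a =>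
    rw [Finsupp.mapDomain_single, domBd_single, domBd_single, hs, ht, smul_sub, smul_sub,
      Finsupp.smul_single, Finsupp.smul_single, Finsupp.smul_single, Finsupp.smul_single,
      sub_eq_add_neg, sub_eq_add_neg, Finsupp.mapDomain_add, ← Finsupp.single_neg,
      ← Finsupp.single_neg, Finsupp.mapDomain_single, Finsupp.mapDomain_single]

theorem dom_mapDomain_apply {A B : Type*} (f : A → B) (c : A →₀ ℤ) (b : B) :
    c.mapDomain f b = c.sum (fun a m => if f a = b then m else 0) := by
  classical
  rw [Finsupp.mapDomain, Finsupp.sum_apply]
  refine Finsupp.sum_congr (fun a _ => ?_)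
  simp [Finsupp.single_apply]

end

end Claimed.Agent.R300
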