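import Claimed.Agent.R300.InjDefs

/-!
# R300 / Dom: the explicit integral 2-cocycle on the Heisenberg group
-/

namespace Claimed.Agent.R300

namespace InjHeis

theorem two_mul_choose (a : ℤ) : 2 * (a * (a - 1) / 2) = a * (a - 1) := by
  apply Int.mul_ediv_cancel'
  have h : Even (a * (a - 1)) := by
    rcases Int.even_or_odd a with h | h
    · exact h.mul_right _
    · exact (h.sub_odd odd_one).mul_left _
  exact h.two_dvd

theorem choose_add (a b : ℤ) :
    (a + b) * (a + b - 1) / 2 = a * (a - 1) / 2 + b * (b - 1) / 2 + a * b := by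
  have h1 := two_mul_choose a
  have h2 := two_mul_choose b
  have h3 := two_mul_choose (a + b)
  have : 2 * ((a + b) * (a + b - 1) / 2) = 2 * (a * (a - 1) / 2 + b * (b - 1) / 2 + a * b) := by
    rw [h3, mul_add, mul_add, h1, h2]; ring
  exact mul_left_cancel₀ two_ne_zero this

/-- `om` is a 2-cocycle. -/
theorem om_cocycle (p q r : InjHeis) : om p q + om (p * q) r = om p (q * r) + om q r := by
  simp only [om, mul_a, mul_b, mul_c, choose_add]
  ring

theorem om_one_right (p : InjHeis) : om p 1 = 0 := by simp [om]

theorem om_one_left (p : InjHeis) : om 1 p = 0 := by simp [om]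

/-- The Heisenberg group is torsion-free. -/
theorem torsion_free (p : InjHeis) (h : IsOfFinOrder p) : p = 1 := by
  obtain ⟨n, hn, hp⟩ := isOfFinOrder_iff_pow_eq_one.1 h
  have ha : ∀ k : ℕ, (p ^ k).a = k * p.a := by
    intro k
    induction k with
    | zero => simp
    | succ k ih => rw [pow_succ, mul_a, ih]; push_cast; ring
  have hb : ∀ k : ℕ, (p ^ k).b = k * p.b := by
    intro k
    induction k with
    | zero => simp
    | succ k ih => rw [pow_succ, mul_b, ih]; push_cast; ring
  have hn' : (n : ℤ) ≠ 0 := by exact_mod_cast hn.ne'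
  have h1 : p.a = 0 := by
    have := ha n
    rw [hp, one_a] at this
    exact (mul_eq_zero.1 this.symm).resolve_left hn'
  have h2 : p.b = 0 := by
    have := hb n
    rw [hp, one_b] at this
    exact (mul_eq_zero.1 this.symm).resolve_left hn'
  have hc : ∀ k : ℕ, (p ^ k).c = k * p.c := by
    intro k
    induction k with
    | zero => simp
    | succ k ih => rw [pow_succ, mul_c, ih, h2]; push_cast; ring
  have h3 : p.c = 0 := by
    have := hc n
    rw [hp, one_c] at this
    exact (mul_eq_zero.1 this.symm).resolve_left hn'
  ext <;> simp [h1, h2, h3]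

end InjHeis

end Claimed.Agent.R300
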