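import Claimed.Agent.R300.DomChain

/-!
# R300 / Dom: the abstract shelling theorem (chain level)

`XX` is the disjoint union of all sheets (a multigraph `sX tX : EX → VX`), `comp` sends a vertex of
`XX` to (the index of) its sheet, the index set is well ordered, and `pV, pE` is a morphism to the
ambient multigraph `s t : E → V` which is injective on every sheet.

A vertex (edge) of a sheet is *shared* if an earlier sheet has a vertex (edge) with the same image.
Hypotheses: the shared part of every sheet is connected (`SC`) and the edges of the sheet meeting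
the shared vertices form a forest (`SF`).  Conclusions:
* `DomShell.cycle_injective`: the push-forward is injective on cycles of `XX`;
* `DomShell.retained_injective`: the non shared vertices map injectively;
* `DomShell.residual_forest`: the edges of the ambient graph which are not images of edges with two
  non shared endpoints form a forest.
-/

namespace Claimed.Agent.R300

open Finsupp
open scoped Classical

/-- The data of a family of sheets mapping to an ambient multigraph. -/
structure DomShell (VX EX V E I : Type*) [LinearOrder I] where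
  sX : EX → VX
  tX : EX → VX
  s : E → V
  t : E → V
  pV : VX → V
  pE : EX → E
  comp : VX → I
  hs : ∀ e, s (pE e) = pV (sX e)
  ht : ∀ e, t (pE e) = pV (tX e)
  hcomp : ∀ e, comp (tX e) = comp (sX e)
  injV : ∀ x x', comp x = comp x' → pV x = pV x' → x = x'
  injE : ∀ e e', comp (sX e) = comp (sX e') → pE e = pE e' → e = e'

namespace DomShell

variable {VX EX V E I : Type*} [LinearOrder I] (D : DomShell VX EX V E I)

/-- shared vertices -/
def TV (x : VX) : Prop := ∃ x', D.comp x' < D.comp x ∧ D.pV x' = D.pV x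

/-- shared edges -/
def TE (e : EX) : Prop := ∃ e', D.comp (D.sX e') < D.comp (D.sX e) ∧ D.pE e' = D.pE e

/-- the edges of the sheet `Q` with at least one shared endpoint -/
def Star (Q : I) : Set EX := {e | D.comp (D.sX e) = Q ∧ (D.TV (D.sX e) ∨ D.TV (D.tX e))}

/-- the shared part of every sheet is connected -/
def SC : Prop :=
  ∀ Q, DomConn D.sX D.tX {x | D.comp x = Q ∧ D.TV x} {e | D.comp (D.sX e) = Q ∧ D.TE e}

/-- the star of the shared part of every sheet is a forest -/
def SF : Prop := ∀ Q, DomForest D.sX D.tX (D.Star Q)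

/-- the residual edges of the ambient graph -/
def Res : Set E := {ε | ¬ ∃ e, D.pE e = ε ∧ ¬ D.TV (D.sX e) ∧ ¬ D.TV (D.tX e)}

theorem TE.src {D : DomShell VX EX V E I} {e : EX} (h : D.TE e) : D.TV (D.sX e) := by
  obtain ⟨e', h1, h2⟩ := h
  exact ⟨D.sX e', h1, by rw [← D.hs, ← D.hs, h2]⟩

theorem TE.tgt {D : DomShell VX EX V E I} {e : EX} (h : D.TE e) : D.TV (D.tX e) := by
  obtain ⟨e', h1, h2⟩ := h
  exact ⟨D.tX e', by rw [D.hcomp, D.hcomp]; exact h1, by rw [← D.ht, ← D.ht, h2]⟩

theorem TE_subset_Star (Q : I) : {e | D.comp (D.sX e) = Q ∧ D.TE e} ⊆ D.Star Q :=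
  fun _ he => ⟨he.1, Or.inl he.2.src⟩

/-- The retained (non shared) vertices map injectively. -/
theorem retained_injective {x x' : VX} (hx : ¬ D.TV x) (hx' : ¬ D.TV x')
    (h : D.pV x = D.pV x') : x = x' := by
  rcases lt_trichotomy (D.comp x) (D.comp x') with h1 | h1 | h1
  · exact absurd ⟨x, h1, h⟩ hx'
  · exact D.injV x x' h1 h
  · exact absurd ⟨x', h1, h.symm⟩ hx

/-- The push-forward is injective on cycles. -/
theorem cycle_injective (hSF : D.SF) (ζ : EX →₀ ℤ) (hb : domBd D.sX D.tX ζ = 0)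
    (hp : ζ.mapDomain D.pE = 0) : ζ = 0 := by
  by_contra hne
  have hsne : ζ.support.Nonempty := Finsupp.support_nonempty_iff.2 hne
  obtain ⟨e₀, he₀, hmax⟩ := Finset.exists_max_image ζ.support (fun e => D.comp (D.sX e)) hsne
  set Q := D.comp (D.sX e₀) with hQ
  set ζQ := ζ.filter (fun e => D.comp (D.sX e) = Q) with hζQ
  have hcyc : domBd D.sX D.tX ζQ = 0 := by
    have := domBd_filter D.sX D.tX (fun x => D.comp x = Q) (fun e => by rw [D.hcomp]) ζ
    rw [hζQ, this, hb, Finsupp.filter_zero]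
  have hsupp : (↑ζQ.support : Set EX) ⊆ D.Star Q := by
    intro e he
    have he' : e ∈ ζQ.support := he
    rw [hζQ, Finsupp.support_filter, Finset.mem_filter] at he'
    obtain ⟨hes, heQ⟩ := he'
    refine ⟨heQ, Or.inl (TE.src ?_)⟩
    -- another edge with the same image
    have h0 : ζ.mapDomain D.pE (D.pE e) = 0 := by rw [hp]; rfl
    rw [dom_mapDomain_apply, Finsupp.sum] at h0
    by_contra hTE
    have hsingle : (∑ a ∈ ζ.support, if D.pE a = D.pE e then ζ a else 0) = ζ e := by
      rw [Finset.sum_eq_single e]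
      · simp
      · intro a ha hae
        rw [if_neg]
        intro hpe
        have hle : D.comp (D.sX a) ≤ Q := hmax a ha
        rcases lt_or_eq_of_le hle with hlt | heq
        · exact hTE ⟨a, by rw [heQ]; exact hlt, hpe⟩
        · exact hae (D.injE a e (by rw [heq, heQ]) hpe)
      · intro h; exact absurd hes h
    rw [hsingle] at h0
    exact (Finsupp.mem_support_iff.1 hes) h0
  have hz : ζQ = 0 := hSF Q ζQ hsupp hcyc
  have : ζQ e₀ = ζ e₀ := by
    rw [hζQ, Finsupp.filter_apply_pos (fun e => D.comp (D.sX e) = Q) ζ hQ.symm]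
  rw [hz] at this
  exact (Finsupp.mem_support_iff.1 he₀) this.symm

/-- Every vertex of the ambient graph with a preimage has a retained preimage. -/
theorem exists_retained [WellFoundedLT I] (y : V) (h : ∃ x, D.pV x = y) :
    ∃ x, D.pV x = y ∧ ¬ D.TV x := by
  obtain ⟨x0, hx0⟩ := h
  let P : Set I := {q | ∃ x, D.pV x = y ∧ D.comp x = q}
  have hne : P.Nonempty := ⟨_, x0, hx0, rfl⟩
  obtain ⟨x, hx, hq⟩ := WellFounded.min_mem wellFounded_lt P hne
  refine ⟨x, hx, ?_⟩
  rintro ⟨x', hlt, hpv⟩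
  exact WellFounded.not_lt_min wellFounded_lt P (x := _) ⟨x', hpv.trans hx, rfl⟩ (hq ▸ hlt)

/-- Every edge of the ambient graph with a preimage has a non shared preimage. -/
theorem exists_retained_edge [WellFoundedLT I] (ε : E) (h : ∃ e, D.pE e = ε) :
    ∃ e, D.pE e = ε ∧ ¬ D.TE e := by
  obtain ⟨x0, hx0⟩ := h
  let P : Set I := {q | ∃ e, D.pE e = ε ∧ D.comp (D.sX e) = q}
  have hne : P.Nonempty := ⟨_, x0, hx0, rfl⟩
  obtain ⟨x, hx, hq⟩ := WellFounded.min_mem wellFounded_lt P hne
  refine ⟨x, hx, ?_⟩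
  rintro ⟨x', hlt, hpv⟩
  exact WellFounded.not_lt_min wellFounded_lt P (x := _) ⟨x', hpv.trans hx, rfl⟩ (hq ▸ hlt)

/-- The residual edges form a forest. -/
theorem residual_forest [WellFoundedLT I] (hSC : D.SC) (hSF : D.SF)
    (hcov : Function.Surjective D.pE) : DomForest D.s D.t D.Res := by
  intro z hz hb
  by_contra hne
  have hrs : ∀ ε : E, ∃ x, D.pV x = D.s ε ∧ ¬ D.TV x := fun ε => by
    obtain ⟨e, he⟩ := hcov ε
    exact D.exists_retained _ ⟨D.sX e, by rw [← D.hs, he]⟩
  have hrt : ∀ ε : E, ∃ x, D.pV x = D.t ε ∧ ¬ D.TV x := fun ε => by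
    obtain ⟨e, he⟩ := hcov ε
    exact D.exists_retained _ ⟨D.tX e, by rw [← D.ht, he]⟩
  choose rs hrs1 hrs2 using hrs
  choose rt hrt1 hrt2 using hrt
  let r : E × Bool → VX := fun p => if p.2 then rs p.1 else rt p.1
  have hsne : (z.support ×ˢ (Finset.univ : Finset Bool)).Nonempty :=
    (Finsupp.support_nonempty_iff.2 hne).product ⟨true, Finset.mem_univ _⟩
  obtain ⟨⟨ε0, b0⟩, hmem, hmax⟩ :=
    Finset.exists_max_image (z.support ×ˢ (Finset.univ : Finset Bool)) (fun p => D.comp (r p)) hsne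
  have hε0 : ε0 ∈ z.support := (Finset.mem_product.1 hmem).1
  obtain ⟨xs, hxsdef⟩ : ∃ xs, xs = r (ε0, b0) := ⟨_, rfl⟩
  obtain ⟨Q, hQdef⟩ : ∃ Q, Q = D.comp xs := ⟨_, rfl⟩
  have hxs : ¬ D.TV xs := by
    rw [hxsdef]; cases b0
    · exact hrt2 ε0
    · exact hrs2 ε0
  have hinc0 : D.s ε0 = D.pV xs ∨ D.t ε0 = D.pV xs := by
    rw [hxsdef]; cases b0
    · exact Or.inr (hrt1 ε0).symm
    · exact Or.inl (hrs1 ε0).symm
  have hmaxs : ∀ ε ∈ z.support, D.comp (rs ε) ≤ Q := fun ε hε => by
    have := hmax (ε, true) (Finset.mem_product.2 ⟨hε, Finset.mem_univ _⟩)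
    rw [hQdef, hxsdef]; exact this
  have hmaxt : ∀ ε ∈ z.support, D.comp (rt ε) ≤ Q := fun ε hε => by
    have := hmax (ε, false) (Finset.mem_product.2 ⟨hε, Finset.mem_univ _⟩)
    rw [hQdef, hxsdef]; exact this
  -- lifts in later sheets have two shared endpoints
  have hK : ∀ e, D.pE e ∈ z.support → Q < D.comp (D.sX e) → D.TV (D.sX e) ∧ D.TV (D.tX e) := by
    intro e he hlt
    refine ⟨⟨rs (D.pE e), lt_of_le_of_lt (hmaxs _ he) hlt, by rw [hrs1, D.hs]⟩,
      ⟨rt (D.pE e), ?_, by rw [hrt1, D.ht]⟩⟩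
    rw [D.hcomp]; exact lt_of_le_of_lt (hmaxt _ he) hlt
  -- Claim 1
  have hC1 : ∀ ε ∈ z.support, (D.s ε = D.pV xs ∨ D.t ε = D.pV xs) →
      ∃ e, D.pE e = ε ∧ D.comp (D.sX e) = Q := by
    intro ε hε hinc
    obtain ⟨e, he, hnTE⟩ := D.exists_retained_edge ε (hcov ε)
    refine ⟨e, he, ?_⟩
    have hle : Q ≤ D.comp (D.sX e) := by
      by_contra hlt
      rw [not_le] at hlt
      rcases hinc with h | h
      · exact hxs ⟨D.sX e, by rw [← hQdef]; exact hlt, by rw [← D.hs, he, h]⟩
      · exact hxs ⟨D.tX e, by rw [← hQdef, D.hcomp]; exact hlt, by rw [← D.ht, he, h]⟩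
    rcases lt_or_eq_of_le hle with hlt | heq
    · exfalso
      obtain ⟨h1, h2⟩ := hK e (by rw [he]; exact hε) hlt
      obtain ⟨p, hp1, hp2⟩ := hSC (D.comp (D.sX e)) (D.sX e) ⟨rfl, h1⟩ (D.tX e) ⟨D.hcomp e, h2⟩
      have hpe : p e = 0 := by
        by_contra hpe
        exact hnTE (hp1 (Finsupp.mem_support_iff.2 hpe)).2
      have hc : single e (1 : ℤ) - p = 0 := by
        apply hSF (D.comp (D.sX e))
        · intro a ha
          have ha' := Finsupp.support_sub ha
          rcases Finset.mem_union.1 ha' with h | h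
          · have : a = e := by
              have := Finsupp.support_single_subset h
              simpa using this
            rw [this]; exact ⟨rfl, Or.inl h1⟩
          · exact D.TE_subset_Star _ (hp1 h)
        · rw [map_sub, domBd_single_one, hp2, sub_self]
      have := DFunLike.congr_fun hc e
      simp [hpe] at this
    · exact heq.symm
  -- lifts at the maximal vertex
  have hlift : ∀ ε ∈ z.support, (D.s ε = D.pV xs ∨ D.t ε = D.pV xs) →
      ∃ (e : EX) (σ : ℤ) (x' : VX), D.pE e = ε ∧ e ∈ D.Star Q ∧ σ ≠ 0 ∧ D.TV x' ∧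
        D.comp x' = Q ∧ domBd D.sX D.tX (single e σ) = single xs (1 : ℤ) - single x' 1 ∧
        ¬ D.TE e ∧ ¬ (D.s ε = D.pV xs ∧ D.t ε = D.pV xs) := by
    intro ε hε hinc
    obtain ⟨e, he, heQ⟩ := hC1 ε hε hinc
    have hres : ¬ (¬ D.TV (D.sX e) ∧ ¬ D.TV (D.tX e)) := fun h => hz hε ⟨e, he, h⟩
    have hsx : D.s ε = D.pV xs → D.sX e = xs := fun h =>
      D.injV _ _ (by rw [heQ, hQdef]) (by rw [← D.hs, he, h])
    have htx : D.t ε = D.pV xs → D.tX e = xs := fun h =>
      D.injV _ _ (by rw [D.hcomp, heQ, hQdef]) (by rw [← D.ht, he, h])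
    have hnb : ¬ (D.s ε = D.pV xs ∧ D.t ε = D.pV xs) := by
      rintro ⟨h1, h2⟩
      apply hres
      rw [hsx h1, htx h2]
      exact ⟨hxs, hxs⟩
    rcases hinc with h | h
    · have h1 := hsx h
      have hT : D.TV (D.tX e) := by
        by_contra hT
        exact hres ⟨by rw [h1]; exact hxs, hT⟩
      refine ⟨e, -1, D.tX e, he, ⟨heQ, Or.inr hT⟩, by norm_num, hT, by rw [D.hcomp, heQ], ?_, ?_,
        hnb⟩
      · rw [domBd_single, h1]; simp
      · intro hTE; exact hxs (h1 ▸ hTE.src)
    · have h1 := htx h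
      have hT : D.TV (D.sX e) := by
        by_contra hT
        exact hres ⟨hT, by rw [h1]; exact hxs⟩
      refine ⟨e, 1, D.sX e, he, ⟨heQ, Or.inl hT⟩, by norm_num, hT, heQ, ?_, ?_, hnb⟩
      · rw [domBd_single, h1]; simp
      · intro hTE; exact hxs (h1 ▸ hTE.tgt)
  -- a second edge at the maximal vertex
  have hsecond : ∃ ε1 ∈ z.support, (D.s ε1 = D.pV xs ∨ D.t ε1 = D.pV xs) ∧ ε1 ≠ ε0 := by
    by_contra hcon
    push Not at hcon
    have h0 : domBd D.s D.t z (D.pV xs) = 0 := by rw [hb]; rfl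
    rw [domBd_apply, Finsupp.sum, Finset.sum_eq_single ε0] at h0
    · obtain ⟨_, _, _, _, _, _, _, _, _, _, hnb⟩ := hlift ε0 hε0 hinc0
      have hz0 : z ε0 ≠ 0 := Finsupp.mem_support_iff.1 hε0
      rcases hinc0 with h | h
      · have h' : ¬ D.t ε0 = D.pV xs := fun h' => hnb ⟨h, h'⟩
        rw [if_pos h, if_neg h'] at h0
        simp at h0
        exact hz0 h0
      · have h' : ¬ D.s ε0 = D.pV xs := fun h' => hnb ⟨h', h⟩
        rw [if_pos h, if_neg h'] at h0
        simp at h0
        exact hz0 h0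
    · intro ε hε hεne
      have h1 : ¬ D.s ε = D.pV xs := fun h => hεne (hcon ε hε (Or.inl h))
      have h2 : ¬ D.t ε = D.pV xs := fun h => hεne (hcon ε hε (Or.inr h))
      rw [if_neg h1, if_neg h2]; simp
    · intro h; exact absurd hε0 h
  obtain ⟨ε1, hε1, hinc1, hne01⟩ := hsecond
  obtain ⟨e0, σ0, x0, he0, hS0, hσ0, hT0, hc0, hb0, hnTE0, _⟩ := hlift ε0 hε0 hinc0
  obtain ⟨e1, σ1, x1, he1, hS1, hσ1, hT1, hc1, hb1, hnTE1, _⟩ := hlift ε1 hε1 hinc1
  have hee : e1 ≠ e0 := fun h => hne01 (by rw [← he1, ← he0, h])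
  obtain ⟨p, hp1, hp2⟩ := hSC Q x0 ⟨hc0, hT0⟩ x1 ⟨hc1, hT1⟩
  have hpe : p e0 = 0 := by
    by_contra hpe
    exact hnTE0 (hp1 (Finsupp.mem_support_iff.2 hpe)).2
  have hc : single e0 σ0 - single e1 σ1 - p = 0 := by
    apply hSF Q
    · intro a ha
      rcases Finset.mem_union.1 (Finsupp.support_sub ha) with h | h
      · rcases Finset.mem_union.1 (Finsupp.support_sub h) with h | h
        · have : a = e0 := by simpa using Finsupp.support_single_subset h
          rw [this]; exact hS0
        · have : a = e1 := by simpa using Finsupp.support_single_subset h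
          rw [this]; exact hS1
      · exact D.TE_subset_Star _ (hp1 h)
    · rw [map_sub, map_sub, hb0, hb1, hp2]; abel
  have := DFunLike.congr_fun hc e0
  simp [hpe, hee] at this
  exact hσ0 this

end DomShell

end Claimed.Agent.R300
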