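import Claimed.Agent.R300.DomChain

/-!
# R300 / Dom: walks in multigraphs and their chains

Darts are pairs `(e, b) : E × Bool` (`b = true`: the edge is traversed from `src e` to `tgt e`).
* `dom_walk_chain` (W1): a walk with edges in `F` gives a chain supported in `F` with the expected
  boundary (so walk-connectedness gives `DomConn`).
(W2) is in `DomAcyc.lean`, (B) in `DomBallCard.lean`.
-/

namespace Claimed.Agent.R300

open Finsupp
open scoped Classical

variable {V E : Type*}

/-- the initial vertex of a dart -/
def domDs (src tgt : E → V) (d : E × Bool) : V := if d.2 then src d.1 else tgt d.1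
/-- the terminal vertex of a dart -/
def domDt (src tgt : E → V) (d : E × Bool) : V := if d.2 then tgt d.1 else src d.1

/-- `DomIsWalk src tgt x l y`: the list of darts `l` is a walk from `x` to `y`. -/
def DomIsWalk (src tgt : E → V) : V → List (E × Bool) → V → Prop
  | x, [], y => x = y
  | x, d :: l, y => domDs src tgt d = x ∧ DomIsWalk src tgt (domDt src tgt d) l y

/-- A list of darts is reduced if no dart is followed by its reverse. -/
def DomReduced (l : List (E × Bool)) : Prop :=
  l.IsChain (fun d d' => ¬ (d'.1 = d.1 ∧ d'.2 = !d.2))

/-- the chain of a list of darts -/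
noncomputable def domDartChain (l : List (E × Bool)) : E →₀ ℤ :=
  (l.map (fun d => single d.1 (if d.2 then (1 : ℤ) else -1))).sum

theorem domDartChain_support {F : Set E} (l : List (E × Bool)) (hF : ∀ d ∈ l, d.1 ∈ F) :
    (↑(domDartChain l).support : Set E) ⊆ F := by
  induction l with
  | nil => simp [domDartChain]
  | cons d l ih =>
    intro e he
    have h1 : domDartChain (d :: l) = single d.1 (if d.2 then (1 : ℤ) else -1) + domDartChain l := by
      simp [domDartChain]
    rw [h1] at he
    rcases Finset.mem_union.1 (Finsupp.support_add he) with h | h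
    · have : e = d.1 := by simpa using Finsupp.support_single_subset h
      rw [this]; exact hF d (by simp)
    · exact ih (fun d' hd' => hF d' (by simp [hd'])) h

theorem domBd_domDartChain (src tgt : E → V) {x y : V} {l : List (E × Bool)}
    (h : DomIsWalk src tgt x l y) :
    domBd src tgt (domDartChain l) = single y (1 : ℤ) - single x 1 := by
  induction l generalizing x with
  | nil =>
    have : x = y := h
    simp [domDartChain, this]
  | cons d l ih =>
    obtain ⟨h1, h2⟩ := h
    have h3 : domDartChain (d :: l) = single d.1 (if d.2 then (1 : ℤ) else -1) + domDartChain l := by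
      simp [domDartChain]
    rw [h3, map_add, ih h2, domBd_single, ← h1]
    obtain ⟨e, b⟩ := d
    cases b
    · simp [domDs, domDt]
    · simp [domDs, domDt]

/-- (W1) -/
theorem dom_walk_chain (src tgt : E → V) {F : Set E} {x y : V} {l : List (E × Bool)}
    (h : DomIsWalk src tgt x l y) (hF : ∀ d ∈ l, d.1 ∈ F) :
    ∃ p : E →₀ ℤ, (↑p.support : Set E) ⊆ F ∧ domBd src tgt p = single y (1 : ℤ) - single x 1 :=
  ⟨domDartChain l, domDartChain_support l hF, domBd_domDartChain src tgt h⟩

/-- walk-connectedness gives chain-connectedness -/
theorem dom_conn_of_walks (src tgt : E → V) {W : Set V} {F : Set E}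
    (h : ∀ x ∈ W, ∀ y ∈ W, ∃ l, DomIsWalk src tgt x l y ∧ ∀ d ∈ l, d.1 ∈ F) :
    DomConn src tgt W F := by
  intro x hx y hy
  obtain ⟨l, h1, h2⟩ := h x hx y hy
  exact dom_walk_chain src tgt h1 h2

end Claimed.Agent.R300
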