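/-
R300 shared expansion library, part X2: the band lemma (KK Lemma exp:mean-gap, INJ Lemma
conditional-mean, abstract part).  Owner: helper126.

`exp_bands`: increasing chains of subspaces `W m ≤ E`, `Z m ≤ F`, an adjoint pair `T, T'`,
causality `T (Z m) ≤ W (m+p)`, `T' (W m) ≤ Z (m+p)` (`m ≤ n`), `T' (W 0) ≤ Z 0`, and the variance bounds
`dist (T f) (W m) ≤ c ‖f‖` for `f ∈ Z (m+1)`, `dist (T' g) (Z m) ≤ c ‖g‖` for `g ∈ W (m+1)`, `m < n`.
Then `‖T f‖ ≤ (2p+1) c ‖f‖` for `f ∈ Z n`, `f ⟂ Z 0`.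
`exp_bands_fun`: the same for functions on finite types, subspaces = functions invariant under
relations, all norms written as sums.
-/
import Mathlib

set_option autoImplicit false
set_option linter.unusedSectionVars false

namespace Claimed.Agent.R300

open Finset
open scoped InnerProductSpace

section chain

variable {E : Type*} [NormedAddCommGroup E] [InnerProductSpace ℝ E]
  (W : ℕ → Submodule ℝ E) [∀ m, (W m).HasOrthogonalProjection]

/-- The increments of a vector along a chain of subspaces. -/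
noncomputable def expInc' (g : E) (m : ℕ) : E :=
  (W (m + 1)).starProjection g - (W m).starProjection g

theorem expInc'_mem (hW : Monotone W) (g : E) (m : ℕ) : expInc' W g m ∈ W (m + 1) :=
  Submodule.sub_mem _ (Submodule.starProjection_apply_mem _ _)
    (hW (Nat.le_succ m) (Submodule.starProjection_apply_mem _ _))

theorem expInc'_orth (hW : Monotone W) (g : E) (m : ℕ) (w : E) (hw : w ∈ W m) :
    ⟪expInc' W g m, w⟫_ℝ = 0 := by
  have h1 := Submodule.starProjection_inner_eq_zero (K := W (m + 1)) g w (hW (Nat.le_succ m) hw)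
  have h2 := Submodule.starProjection_inner_eq_zero (K := W m) g w hw
  rw [inner_sub_left] at h1 h2
  rw [expInc', inner_sub_left]
  linarith

theorem expInc'_sum (g : E) (n : ℕ) :
    (W 0).starProjection g + ∑ m ∈ range n, expInc' W g m = (W n).starProjection g := by
  induction n with
  | zero => simp
  | succ n ih =>
    rw [Finset.sum_range_succ, ← add_assoc, ih, expInc']
    abel

theorem expInc'_norm_sq (hW : Monotone W) (g : E) (n : ℕ) :
    ‖(W 0).starProjection g‖ ^ 2 + ∑ m ∈ range n, ‖expInc' W g m‖ ^ 2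
      = ‖(W n).starProjection g‖ ^ 2 := by
  induction n with
  | zero => simp
  | succ n ih =>
    rw [Finset.sum_range_succ, ← add_assoc, ih]
    have h1 : (W (n + 1)).starProjection g = (W n).starProjection g + expInc' W g n := by
      rw [expInc']; abel
    have h2 : ⟪(W n).starProjection g, expInc' W g n⟫_ℝ = 0 := by
      rw [real_inner_comm]
      exact expInc'_orth W hW g n _ (Submodule.starProjection_apply_mem _ _)
    rw [h1, sq, sq, sq]
    exact (norm_add_sq_eq_norm_sq_add_norm_sq_real h2).symm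

end chain

/-- Counting lemma for the band sums. -/
theorem exp_band_count (p N : ℕ) (a : ℕ → ℝ) (ha : ∀ m, 0 ≤ a m) (N' : ℕ) :
    ∑ m' ∈ range N', ∑ m ∈ range N, (if m ≤ m' + p ∧ m' ≤ m + p then a m' else 0)
      ≤ (2 * p + 1) * ∑ m' ∈ range N', a m' := by
  rw [Finset.mul_sum]
  refine Finset.sum_le_sum fun m' _ => ?_
  rw [← Finset.sum_filter, Finset.sum_const, nsmul_eq_mul]
  refine mul_le_mul_of_nonneg_right ?_ (ha m')
  have hsub : (range N).filter (fun m => m ≤ m' + p ∧ m' ≤ m + p) ⊆ Finset.Icc (m' - p) (m' + p) := by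
    intro m hm
    rw [Finset.mem_filter] at hm
    rw [Finset.mem_Icc]
    omega
  have hcard := Finset.card_le_card hsub
  rw [Nat.card_Icc] at hcard
  have : ((range N).filter (fun m => m ≤ m' + p ∧ m' ≤ m + p)).card ≤ 2 * p + 1 := by omega
  exact_mod_cast this

section bands

variable {E F : Type*} [NormedAddCommGroup E] [InnerProductSpace ℝ E]
  [NormedAddCommGroup F] [InnerProductSpace ℝ F]

/-- **Band lemma.** -/
theorem exp_bands (W : ℕ → Submodule ℝ E) (Z : ℕ → Submodule ℝ F)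
    [∀ m, (W m).HasOrthogonalProjection] [∀ m, (Z m).HasOrthogonalProjection]
    (hW : Monotone W) (hZ : Monotone Z) (T : F →ₗ[ℝ] E) (T' : E →ₗ[ℝ] F)
    (hadj : ∀ g f, ⟪g, T f⟫_ℝ = ⟪T' g, f⟫_ℝ) (p n : ℕ) (c : ℝ) (hc : 0 ≤ c)
    (hC1 : ∀ m, m ≤ n → ∀ f ∈ Z m, T f ∈ W (m + p))
    (hC2 : ∀ m, m ≤ n → ∀ g ∈ W m, T' g ∈ Z (m + p))
    (hC0 : ∀ g ∈ W 0, T' g ∈ Z 0)
    (hV1 : ∀ m, m < n → ∀ f ∈ Z (m + 1), ∃ μ ∈ W m, ‖T f - μ‖ ≤ c * ‖f‖)
    (hV2 : ∀ m, m < n → ∀ g ∈ W (m + 1), ∃ ν ∈ Z m, ‖T' g - ν‖ ≤ c * ‖g‖)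
    (f : F) (hf : f ∈ Z n) (hf0 : ∀ z ∈ Z 0, ⟪z, f⟫_ℝ = 0) :
    ‖T f‖ ≤ (2 * p + 1) * c * ‖f‖ := by
  set g : E := T f with hg
  have hgmem : g ∈ W (n + p) := hC1 n le_rfl f hf
  set fm : ℕ → F := expInc' Z f with hfm
  set gm : ℕ → E := expInc' W g with hgm
  -- decompositions
  have hP0f : (Z 0).starProjection f = 0 := by
    have h1 : ⟪(Z 0).starProjection f, f⟫_ℝ = 0 := hf0 _ (Submodule.starProjection_apply_mem _ _)
    have h2 := Submodule.starProjection_inner_eq_zero (K := Z 0) f ((Z 0).starProjection f)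
      (Submodule.starProjection_apply_mem _ _)
    rw [inner_sub_left, real_inner_comm, h1, zero_sub, neg_eq_zero, inner_self_eq_zero] at h2
    exact h2
  have hfsum : f = ∑ m ∈ range n, fm m := by
    have := expInc'_sum Z f n
    rw [hP0f, zero_add, Submodule.starProjection_eq_self_iff.2 hf] at this
    exact this.symm
  have hfnorm : ∑ m ∈ range n, ‖fm m‖ ^ 2 = ‖f‖ ^ 2 := by
    have := expInc'_norm_sq Z hZ f n
    rw [hP0f, Submodule.starProjection_eq_self_iff.2 hf] at this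
    simpa using this
  have hgsum : g = (W 0).starProjection g + ∑ m ∈ range (n + p), gm m := by
    have := expInc'_sum W g (n + p)
    rw [Submodule.starProjection_eq_self_iff.2 hgmem] at this
    exact this.symm
  have hgnorm : ∑ m ∈ range (n + p), ‖gm m‖ ^ 2 ≤ ‖g‖ ^ 2 := by
    have := expInc'_norm_sq W hW g (n + p)
    rw [Submodule.starProjection_eq_self_iff.2 hgmem] at this
    nlinarith [sq_nonneg ‖(W 0).starProjection g‖]
  -- the pair estimates
  have hpair : ∀ m' m, m < n →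
      ⟪gm m', T (fm m)⟫_ℝ ≤ if m ≤ m' + p ∧ m' ≤ m + p then c * (‖gm m'‖ * ‖fm m‖) else 0 := by
    intro m' m hm
    have hfmem : fm m ∈ Z (m + 1) := expInc'_mem Z hZ f m
    have hgmem' : gm m' ∈ W (m' + 1) := expInc'_mem W hW g m'
    by_cases h1 : m' ≤ m + p
    · by_cases h2 : m ≤ m' + p
      · rw [if_pos ⟨h2, h1⟩]
        by_cases h3 : m ≤ m'
        · obtain ⟨μ, hμ, hμn⟩ := hV1 m hm (fm m) hfmem
          have h0 : ⟪gm m', μ⟫_ℝ = 0 := expInc'_orth W hW g m' μ (hW h3 hμ)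
          have : ⟪gm m', T (fm m)⟫_ℝ = ⟪gm m', T (fm m) - μ⟫_ℝ := by
            rw [inner_sub_right, h0, sub_zero]
          rw [this]
          calc ⟪gm m', T (fm m) - μ⟫_ℝ ≤ ‖gm m'‖ * ‖T (fm m) - μ‖ := real_inner_le_norm _ _
            _ ≤ ‖gm m'‖ * (c * ‖fm m‖) := mul_le_mul_of_nonneg_left hμn (norm_nonneg _)
            _ = _ := by ring
        · have h3' : m' < m := not_le.1 h3
          obtain ⟨ν, hν, hνn⟩ := hV2 m' (by omega) (gm m') hgmem'
          have h0 : ⟪ν, fm m⟫_ℝ = 0 := by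
            rw [real_inner_comm]
            exact expInc'_orth Z hZ f m ν (hZ h3'.le hν)
          have : ⟪gm m', T (fm m)⟫_ℝ = ⟪T' (gm m') - ν, fm m⟫_ℝ := by
            rw [hadj, inner_sub_left, h0, sub_zero]
          rw [this]
          calc ⟪T' (gm m') - ν, fm m⟫_ℝ ≤ ‖T' (gm m') - ν‖ * ‖fm m‖ := real_inner_le_norm _ _
            _ ≤ (c * ‖gm m'‖) * ‖fm m‖ := mul_le_mul_of_nonneg_right hνn (norm_nonneg _)
            _ = _ := by ring
      · rw [if_neg (fun h => h2 h.1)]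
        have h4 : T' (gm m') ∈ Z m := hZ (by omega) (hC2 (m' + 1) (by omega) _ hgmem')
        rw [hadj, real_inner_comm]
        exact (expInc'_orth Z hZ f m _ h4).le
    · rw [if_neg (fun h => h1 h.2)]
      have h4 : T (fm m) ∈ W m' := hW (by omega) (hC1 (m + 1) (by omega) _ hfmem)
      exact (expInc'_orth W hW g m' _ h4).le
  -- expansion of the inner product
  have hexp : ‖g‖ ^ 2 = ∑ m' ∈ range (n + p), ∑ m ∈ range n, ⟪gm m', T (fm m)⟫_ℝ := by
    have h0 : ⟪(W 0).starProjection g, T f⟫_ℝ = 0 := by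
      rw [hadj]
      exact hf0 _ (hC0 _ (Submodule.starProjection_apply_mem _ _))
    have h1 : ‖g‖ ^ 2 = ⟪g, T f⟫_ℝ := by rw [← hg, real_inner_self_eq_norm_sq]
    rw [h1]
    conv_lhs => rw [hgsum]
    rw [inner_add_left, h0, zero_add, sum_inner]
    refine Finset.sum_congr rfl fun m' _ => ?_
    conv_lhs => rw [hfsum]
    rw [map_sum, inner_sum]
  -- the case c = 0 or general: use AM-GM with parameter
  set q : ℝ := (2 * p + 1 : ℝ) with hq
  have hqpos : 0 < q := by positivity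
  have hbound : ‖g‖ ^ 2 ≤ ∑ m' ∈ range (n + p), ∑ m ∈ range n,
      (if m ≤ m' + p ∧ m' ≤ m + p then c * (‖gm m'‖ * ‖fm m‖) else 0) := by
    rw [hexp]
    exact Finset.sum_le_sum fun m' _ => Finset.sum_le_sum fun m hm =>
      hpair m' m (Finset.mem_range.1 hm)
  have hamgm : ∀ m' m, c * (‖gm m'‖ * ‖fm m‖)
      ≤ ‖gm m'‖ ^ 2 / (2 * q) + q * c ^ 2 * ‖fm m‖ ^ 2 / 2 := by
    intro m' m
    have h := sq_nonneg (‖gm m'‖ - q * c * ‖fm m‖)
    have e : ‖gm m'‖ ^ 2 / (2 * q) + q * c ^ 2 * ‖fm m‖ ^ 2 / 2 - c * (‖gm m'‖ * ‖fm m‖)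
        = (‖gm m'‖ - q * c * ‖fm m‖) ^ 2 / (2 * q) := by
      field_simp
      ring
    have : 0 ≤ (‖gm m'‖ - q * c * ‖fm m‖) ^ 2 / (2 * q) := by positivity
    linarith
  have hsplit : ∑ m' ∈ range (n + p), ∑ m ∈ range n,
      (if m ≤ m' + p ∧ m' ≤ m + p then c * (‖gm m'‖ * ‖fm m‖) else 0)
      ≤ ∑ m' ∈ range (n + p), ∑ m ∈ range n,
          (if m ≤ m' + p ∧ m' ≤ m + p then ‖gm m'‖ ^ 2 / (2 * q) else 0)
        + ∑ m' ∈ range (n + p), ∑ m ∈ range n,
          (if m ≤ m' + p ∧ m' ≤ m + p then q * c ^ 2 * ‖fm m‖ ^ 2 / 2 else 0) := by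
    rw [← Finset.sum_add_distrib]
    refine Finset.sum_le_sum fun m' _ => ?_
    rw [← Finset.sum_add_distrib]
    refine Finset.sum_le_sum fun m _ => ?_
    split_ifs
    · exact hamgm m' m
    · simp
  have hA := exp_band_count p n (fun m' => ‖gm m'‖ ^ 2 / (2 * q)) (fun m' => by positivity) (n + p)
  have hB : ∑ m' ∈ range (n + p), ∑ m ∈ range n,
      (if m ≤ m' + p ∧ m' ≤ m + p then q * c ^ 2 * ‖fm m‖ ^ 2 / 2 else 0)
      ≤ (2 * (p : ℝ) + 1) * ∑ m ∈ range n, q * c ^ 2 * ‖fm m‖ ^ 2 / 2 := by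
    rw [Finset.sum_comm]
    have := exp_band_count p (n + p) (fun m => q * c ^ 2 * ‖fm m‖ ^ 2 / 2)
      (fun m => by positivity) n
    refine le_trans (le_of_eq ?_) this
    refine Finset.sum_congr rfl fun m _ => Finset.sum_congr rfl fun m' _ => ?_
    by_cases h : m ≤ m' + p ∧ m' ≤ m + p
    · rw [if_pos h, if_pos ⟨h.2, h.1⟩]
    · rw [if_neg h, if_neg (fun h' => h ⟨h'.2, h'.1⟩)]
  have hA' : (2 * (p : ℝ) + 1) * ∑ m' ∈ range (n + p), ‖gm m'‖ ^ 2 / (2 * q) ≤ ‖g‖ ^ 2 / 2 := by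
    rw [← Finset.sum_div, ← hq]
    have : q * ((∑ m' ∈ range (n + p), ‖gm m'‖ ^ 2) / (2 * q))
        = (∑ m' ∈ range (n + p), ‖gm m'‖ ^ 2) / 2 := by
      field_simp
    rw [this]
    linarith
  have hB' : (2 * (p : ℝ) + 1) * ∑ m ∈ range n, q * c ^ 2 * ‖fm m‖ ^ 2 / 2
      = q ^ 2 * c ^ 2 * ‖f‖ ^ 2 / 2 := by
    rw [← hq, ← hfnorm, Finset.mul_sum, Finset.mul_sum, Finset.sum_div]
    exact Finset.sum_congr rfl fun m _ => by ring
  have hfinal : ‖g‖ ^ 2 ≤ (q * c * ‖f‖) ^ 2 := by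
    have := hbound.trans (hsplit.trans (add_le_add (hA.trans hA') (hB.trans hB'.le)))
    nlinarith
  exact abs_le_of_sq_le_sq' hfinal (by positivity) |>.2

end bands

section functions

/-- Functions invariant under a relation. -/
def ExpInv {X : Type*} (r : X → X → Prop) (g : X → ℝ) : Prop := ∀ x x', r x x' → g x = g x'

variable {X Y : Type*} [Fintype X] [Fintype Y]

/-- The subspace of invariant functions. -/
def expInvSub (r : X → X → Prop) : Submodule ℝ (EuclideanSpace ℝ X) where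
  carrier := {g | ExpInv r (fun x => g x)}
  add_mem' := by
    intro a b ha hb x x' h
    have h1 : a x = a x' := ha x x' h
    have h2 : b x = b x' := hb x x' h
    simp only [PiLp.add_apply]
    rw [h1, h2]
  zero_mem' := by
    intro x x' _
    simp
  smul_mem' := by
    intro c a ha x x' h
    have h1 : a x = a x' := ha x x' h
    simp only [PiLp.smul_apply]
    rw [h1]

theorem mem_expInvSub (r : X → X → Prop) (g : EuclideanSpace ℝ X) :
    g ∈ expInvSub r ↔ ExpInv r (fun x => g x) := Iff.rfl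

theorem exp_norm_sq_toLp (g : X → ℝ) : ‖(WithLp.toLp 2 g : EuclideanSpace ℝ X)‖ ^ 2 = ∑ x, g x ^ 2 := by
  rw [EuclideanSpace.norm_sq_eq]
  simp

theorem exp_inner_toLp (g h : X → ℝ) :
    ⟪(WithLp.toLp 2 g : EuclideanSpace ℝ X), WithLp.toLp 2 h⟫_ℝ = ∑ x, g x * h x := by
  rw [PiLp.inner_apply]
  refine Finset.sum_congr rfl fun x _ => ?_
  simp [mul_comm]

theorem exp_norm_toLp_le (a : X → ℝ) (b : ℝ) (hb : 0 ≤ b) (h : ∑ z, a z ^ 2 ≤ b ^ 2) :
    ‖(WithLp.toLp 2 a : EuclideanSpace ℝ X)‖ ≤ b := by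
  rw [← exp_norm_sq_toLp] at h
  exact (abs_le_of_sq_le_sq' h hb).2

/-- **Band lemma for functions on finite types.** -/
theorem exp_bands_fun (rX : ℕ → X → X → Prop) (rY : ℕ → Y → Y → Prop)
    (hrX : ∀ m x x', rX (m + 1) x x' → rX m x x') (hrY : ∀ m y y', rY (m + 1) y y' → rY m y y')
    (T : (Y → ℝ) →ₗ[ℝ] (X → ℝ)) (T' : (X → ℝ) →ₗ[ℝ] (Y → ℝ))
    (hadj : ∀ g f, ∑ x, g x * T f x = ∑ y, T' g y * f y) (p n : ℕ) (c : ℝ) (hc : 0 ≤ c)
    (hC1 : ∀ m, m ≤ n → ∀ f, ExpInv (rY m) f → ExpInv (rX (m + p)) (T f))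
    (hC2 : ∀ m, m ≤ n → ∀ g, ExpInv (rX m) g → ExpInv (rY (m + p)) (T' g))
    (hC0 : ∀ g, ExpInv (rX 0) g → ExpInv (rY 0) (T' g))
    (hV1 : ∀ m, m < n → ∀ f, ExpInv (rY (m + 1)) f →
      ∃ μ, ExpInv (rX m) μ ∧ ∑ x, (T f x - μ x) ^ 2 ≤ c ^ 2 * ∑ y, f y ^ 2)
    (hV2 : ∀ m, m < n → ∀ g, ExpInv (rX (m + 1)) g →
      ∃ ν, ExpInv (rY m) ν ∧ ∑ y, (T' g y - ν y) ^ 2 ≤ c ^ 2 * ∑ x, g x ^ 2)
    (hY0 : ∀ y y', rY 0 y y')
    (f : Y → ℝ) (hf : ExpInv (rY n) f) (hf0 : ∑ y, f y = 0) :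
    ∑ x, (T f x) ^ 2 ≤ ((2 * p + 1) * c) ^ 2 * ∑ y, f y ^ 2 := by
  classical
  set TE : EuclideanSpace ℝ Y →ₗ[ℝ] EuclideanSpace ℝ X :=
    (WithLp.linearEquiv 2 ℝ (X → ℝ)).symm.toLinearMap ∘ₗ T ∘ₗ
      (WithLp.linearEquiv 2 ℝ (Y → ℝ)).toLinearMap with hTE
  set TE' : EuclideanSpace ℝ X →ₗ[ℝ] EuclideanSpace ℝ Y :=
    (WithLp.linearEquiv 2 ℝ (Y → ℝ)).symm.toLinearMap ∘ₗ T' ∘ₗ
      (WithLp.linearEquiv 2 ℝ (X → ℝ)).toLinearMap with hTE'
  have hTEa : ∀ φ : EuclideanSpace ℝ Y, TE φ = WithLp.toLp 2 (T (fun y => φ y)) := fun φ => rfl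
  have hTEa' : ∀ φ : EuclideanSpace ℝ X, TE' φ = WithLp.toLp 2 (T' (fun y => φ y)) := fun φ => rfl
  have hmonoX : Monotone (fun m => expInvSub (rX m)) := by
    refine monotone_nat_of_le_succ fun m g hg x x' h => hg x x' (hrX m x x' h)
  have hmonoY : Monotone (fun m => expInvSub (rY m)) := by
    refine monotone_nat_of_le_succ fun m g hg x x' h => hg x x' (hrY m x x' h)
  have key := exp_bands (fun m => expInvSub (rX m)) (fun m => expInvSub (rY m)) hmonoX hmonoY TE TE'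
    (by
      intro g φ
      rw [hTEa, hTEa']
      have e1 : g = WithLp.toLp 2 (fun x => g x) := rfl
      have e2 : φ = WithLp.toLp 2 (fun x => φ x) := rfl
      conv_lhs => rw [e1]
      conv_rhs => rw [e2]
      rw [exp_inner_toLp, exp_inner_toLp]
      exact hadj _ _)
    p n c hc
    (fun m hm φ hφ => hC1 m hm _ hφ) (fun m hm g hg => hC2 m hm _ hg) (fun g hg => hC0 _ hg)
    (by
      intro m hm φ hφ
      obtain ⟨μ, hμ, hμn⟩ := hV1 m hm _ hφ
      refine ⟨WithLp.toLp 2 μ, hμ, ?_⟩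
      rw [hTEa, ← WithLp.toLp_sub]
      refine exp_norm_toLp_le _ _ (mul_nonneg hc (norm_nonneg _)) ?_
      rw [mul_pow, EuclideanSpace.norm_sq_eq]
      simpa using hμn)
    (by
      intro m hm g hg
      obtain ⟨ν, hν, hνn⟩ := hV2 m hm _ hg
      refine ⟨WithLp.toLp 2 ν, hν, ?_⟩
      rw [hTEa', ← WithLp.toLp_sub]
      refine exp_norm_toLp_le _ _ (mul_nonneg hc (norm_nonneg _)) ?_
      rw [mul_pow, EuclideanSpace.norm_sq_eq]
      simpa using hνn)
    (WithLp.toLp 2 f) hf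
    (by
      intro z hz
      have e1 : z = WithLp.toLp 2 (fun x => z x) := rfl
      rw [e1, exp_inner_toLp]
      rcases isEmpty_or_nonempty Y with hY | ⟨⟨y0⟩⟩
      · simp
      · have : ∀ y, z y = z y0 := fun y => hz y y0 (hY0 y y0)
        simp only [this]
        rw [← Finset.mul_sum, hf0, mul_zero])
  rw [hTEa] at key
  have h2 := pow_le_pow_left₀ (norm_nonneg _) key 2
  rw [exp_norm_sq_toLp, mul_pow, exp_norm_sq_toLp] at h2
  exact h2

end functions

end Claimed.Agent.R300
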