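/-
R300 shared expansion library, part X1: the conditional Fourier estimate (KK Lemma exp:fourier,
INJ Lemma conditional-fourier), for finite vector spaces over `ZMod 2`, real valued functions.
Owner: helper126.

`exp_fourier`: for linear maps `K a : U → V` such that for every nonzero functional `ζ` on `V` every
class of indices with a common `ζ ∘ K a` has at most `M` members,
  `∑_{u,v} (∑_a f_a (v + K_a u) - μ)^2 ≤ M * |U| * ∑_a ∑_z f_a(z)^2`,  `μ = ∑_a mean f_a`.
-/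
import Mathlib

set_option autoImplicit false
set_option linter.unusedSectionVars false

namespace Claimed.Agent.R300

open Finset

/-- The nontrivial character of `ZMod 2`. -/
def expChi (x : ZMod 2) : ℝ := if x = 0 then 1 else -1

theorem expChi_zero : expChi 0 = 1 := by simp [expChi]

theorem expChi_one : expChi 1 = -1 := by
  have : (1 : ZMod 2) ≠ 0 := by decide
  simp [expChi, this]

theorem exp_zmod2_cases (x : ZMod 2) : x = 0 ∨ x = 1 := by
  revert x; decide

theorem expChi_add (x y : ZMod 2) : expChi (x + y) = expChi x * expChi y := by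
  have h11 : (1 : ZMod 2) + 1 = 0 := by decide
  rcases exp_zmod2_cases x with rfl | rfl <;> rcases exp_zmod2_cases y with rfl | rfl <;>
    simp [expChi_zero, expChi_one, h11]

theorem expChi_mul_self (x : ZMod 2) : expChi x * expChi x = 1 := by
  rcases exp_zmod2_cases x with rfl | rfl <;> simp [expChi_zero, expChi_one]

theorem expChi_of_ne (x : ZMod 2) (h : x ≠ 0) : expChi x = -1 := by simp [expChi, h]

section dual

variable {V : Type*} [AddCommGroup V] [Module (ZMod 2) V] [Fintype V]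

theorem exp_dual_finite : Finite (V →ₗ[ZMod 2] ZMod 2) :=
  Finite.of_injective (fun ζ : V →ₗ[ZMod 2] ZMod 2 => (ζ : V → ZMod 2)) DFunLike.coe_injective

/-- Orthogonality: the sum of a nontrivial character vanishes. -/
theorem exp_sum_chi (ζ : V →ₗ[ZMod 2] ZMod 2) [Decidable (ζ = 0)] :
    ∑ z, expChi (ζ z) = if ζ = 0 then (Fintype.card V : ℝ) else 0 := by
  split_ifs with h
  · subst h
    simp [expChi_zero]
  · obtain ⟨z0, hz0⟩ : ∃ z0, ζ z0 ≠ 0 := by
      by_contra hcon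
      push Not at hcon
      exact h (LinearMap.ext hcon)
    have h1 : ∑ z, expChi (ζ z) = ∑ z, expChi (ζ (z + z0)) :=
      (Equiv.sum_comp (Equiv.addRight z0) fun z => expChi (ζ z)).symm
    have h2 : ∑ z, expChi (ζ (z + z0)) = - ∑ z, expChi (ζ z) := by
      rw [← Finset.sum_neg_distrib]
      refine Finset.sum_congr rfl fun z _ => ?_
      rw [map_add, expChi_add, expChi_of_ne _ hz0]
      ring
    linarith

theorem exp_card_dual [Fintype (V →ₗ[ZMod 2] ZMod 2)] :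
    Fintype.card (V →ₗ[ZMod 2] ZMod 2) = Fintype.card V := by
  have h1 := Module.card_eq_pow_finrank (K := ZMod 2) (V := V)
  have h2 := Module.card_eq_pow_finrank (K := ZMod 2) (V := Module.Dual (ZMod 2) V)
  rw [Subspace.dual_finrank_eq] at h2
  rw [h1]
  exact h2

/-- Completeness: the sum over all characters of the value at a nonzero point vanishes. -/
theorem exp_sum_chi_dual [Fintype (V →ₗ[ZMod 2] ZMod 2)] (z : V) [Decidable (z = 0)] :
    ∑ ζ : V →ₗ[ZMod 2] ZMod 2, expChi (ζ z) = if z = 0 then (Fintype.card V : ℝ) else 0 := by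
  split_ifs with h
  · subst h
    simp [expChi_zero, exp_card_dual]
  · obtain ⟨ζ0, hζ0⟩ : ∃ ζ0 : V →ₗ[ZMod 2] ZMod 2, ζ0 z ≠ 0 := by
      by_contra hcon
      push Not at hcon
      exact h ((Module.forall_dual_apply_eq_zero_iff (ZMod 2) z).1 hcon)
    have h1 : ∑ ζ : V →ₗ[ZMod 2] ZMod 2, expChi (ζ z)
        = ∑ ζ : V →ₗ[ZMod 2] ZMod 2, expChi ((ζ + ζ0) z) :=
      (Equiv.sum_comp (Equiv.addRight ζ0) fun ζ : V →ₗ[ZMod 2] ZMod 2 => expChi (ζ z)).symm
    have h2 : ∑ ζ : V →ₗ[ZMod 2] ZMod 2, expChi ((ζ + ζ0) z)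
        = - ∑ ζ : V →ₗ[ZMod 2] ZMod 2, expChi (ζ z) := by
      rw [← Finset.sum_neg_distrib]
      refine Finset.sum_congr rfl fun ζ _ => ?_
      rw [LinearMap.add_apply, expChi_add, expChi_of_ne _ hζ0]
      ring
    linarith

/-- Unnormalised Fourier coefficient. -/
def expHat (f : V → ℝ) (ζ : V →ₗ[ZMod 2] ZMod 2) : ℝ := ∑ z, f z * expChi (ζ z)

/-- Parseval. -/
theorem exp_parseval [Fintype (V →ₗ[ZMod 2] ZMod 2)] (f : V → ℝ) :
    ∑ ζ : V →ₗ[ZMod 2] ZMod 2, expHat f ζ ^ 2 = (Fintype.card V : ℝ) * ∑ z, f z ^ 2 := by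
  classical
  have h1 : ∀ ζ : V →ₗ[ZMod 2] ZMod 2,
      expHat f ζ ^ 2 = ∑ z, ∑ w, f z * f w * expChi (ζ (z + w)) := by
    intro ζ
    rw [expHat, sq, Finset.sum_mul_sum]
    refine Finset.sum_congr rfl fun z _ => Finset.sum_congr rfl fun w _ => ?_
    rw [map_add, expChi_add]; ring
  rw [Finset.sum_congr rfl fun ζ _ => h1 ζ, Finset.sum_comm, Finset.mul_sum]
  refine Finset.sum_congr rfl fun z _ => ?_
  rw [Finset.sum_comm]
  have h2 : ∀ w, ∑ ζ : V →ₗ[ZMod 2] ZMod 2, f z * f w * expChi (ζ (z + w))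
      = if w = z then (Fintype.card V : ℝ) * f z ^ 2 else 0 := by
    intro w
    rw [← Finset.mul_sum, exp_sum_chi_dual]
    have hiff : z + w = 0 ↔ w = z := by
      constructor
      · intro h
        have := ZModModule.add_self z
        exact (add_left_cancel (h.trans this.symm))
      · rintro rfl; exact ZModModule.add_self _
    by_cases hw : w = z
    · rw [if_pos (hiff.2 hw), if_pos hw, hw]; ring
    · rw [if_neg (fun h => hw (hiff.1 h)), if_neg hw, mul_zero]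
  rw [Finset.sum_congr rfl fun w _ => h2 w, Finset.sum_ite_eq' ]
  simp

/-- Fourier coefficients of a translate. -/
theorem expHat_translate (f : V → ℝ) (c : V) (ζ : V →ₗ[ZMod 2] ZMod 2) :
    expHat (fun v => f (v + c)) ζ = expChi (ζ c) * expHat f ζ := by
  rw [expHat, expHat, Finset.mul_sum,
    ← Equiv.sum_comp (Equiv.addRight c) fun z => expChi (ζ c) * (f z * expChi (ζ z))]
  refine Finset.sum_congr rfl fun v _ => ?_
  simp only [Equiv.coe_addRight, map_add, expChi_add]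
  have := expChi_mul_self (ζ c)
  calc f (v + c) * expChi (ζ v) = f (v + c) * expChi (ζ v) * (expChi (ζ c) * expChi (ζ c)) := by
        rw [this, mul_one]
    _ = _ := by ring

theorem expHat_sum {ι : Type*} (s : Finset ι) (f : ι → V → ℝ) (ζ : V →ₗ[ZMod 2] ZMod 2) :
    expHat (fun v => ∑ a ∈ s, f a v) ζ = ∑ a ∈ s, expHat (f a) ζ := by
  simp only [expHat, Finset.sum_mul]
  exact Finset.sum_comm

theorem expHat_zero_of_centred (f : V → ℝ) (hf : ∑ z, f z = 0) : expHat f 0 = 0 := by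
  simp [expHat, expChi_zero, hf]

end dual

section main

variable {U V ι : Type*} [AddCommGroup U] [Module (ZMod 2) U] [Fintype U]
  [AddCommGroup V] [Module (ZMod 2) V] [Fintype V] [Fintype ι]

/-- Orthogonality in `u` plus the multiplicity bound. -/
theorem exp_class_bound (ξ : ι → (U →ₗ[ZMod 2] ZMod 2)) (c : ι → ℝ) (M : ℝ)
    (hM : ∀ a, ((univ.filter fun a' => ξ a' = ξ a).card : ℝ) ≤ M) :
    ∑ u, (∑ a, c a * expChi (ξ a u)) ^ 2 ≤ (Fintype.card U : ℝ) * (M * ∑ a, c a ^ 2) := by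
  classical
  have h1 : ∀ u, (∑ a, c a * expChi (ξ a u)) ^ 2
      = ∑ a, ∑ a', c a * c a' * expChi ((ξ a + ξ a') u) := by
    intro u
    rw [sq, Finset.sum_mul_sum]
    refine Finset.sum_congr rfl fun a _ => Finset.sum_congr rfl fun a' _ => ?_
    rw [LinearMap.add_apply, expChi_add]; ring
  have hiff : ∀ a a', ξ a + ξ a' = 0 ↔ ξ a' = ξ a := by
    intro a a'
    constructor
    · intro h
      have := ZModModule.add_self (ξ a)
      exact add_left_cancel (h.trans this.symm)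
    · intro h; rw [h]; exact ZModModule.add_self _
  have h2 : ∑ u, (∑ a, c a * expChi (ξ a u)) ^ 2
      = (Fintype.card U : ℝ) * ∑ a, ∑ a', if ξ a' = ξ a then c a * c a' else 0 := by
    rw [Finset.sum_congr rfl fun u _ => h1 u, Finset.sum_comm, Finset.mul_sum]
    refine Finset.sum_congr rfl fun a _ => ?_
    rw [Finset.sum_comm, Finset.mul_sum]
    refine Finset.sum_congr rfl fun a' _ => ?_
    rw [← Finset.mul_sum, exp_sum_chi]
    by_cases h : ξ a' = ξ a
    · rw [if_pos ((hiff a a').2 h), if_pos h]; ring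
    · rw [if_neg (fun h' => h ((hiff a a').1 h')), if_neg h]; ring
  rw [h2]
  refine mul_le_mul_of_nonneg_left ?_ (Nat.cast_nonneg _)
  have h3 : ∑ a, ∑ a', (if ξ a' = ξ a then c a * c a' else 0)
      ≤ ∑ a, ∑ a', (if ξ a' = ξ a then (c a ^ 2 + c a' ^ 2) / 2 else 0) := by
    refine Finset.sum_le_sum fun a _ => Finset.sum_le_sum fun a' _ => ?_
    split_ifs
    · nlinarith [sq_nonneg (c a - c a')]
    · exact le_rfl
  have h4 : ∑ a, ∑ a', (if ξ a' = ξ a then (c a ^ 2 + c a' ^ 2) / 2 else 0)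
      = ∑ a, ∑ a', (if ξ a' = ξ a then c a ^ 2 else 0) := by
    have e1 : ∑ a, ∑ a', (if ξ a' = ξ a then (c a ^ 2 + c a' ^ 2) / 2 else 0)
        = ∑ a, ∑ a', (if ξ a' = ξ a then c a ^ 2 / 2 else 0)
          + ∑ a, ∑ a', (if ξ a' = ξ a then c a' ^ 2 / 2 else 0) := by
      rw [← Finset.sum_add_distrib]
      refine Finset.sum_congr rfl fun a _ => ?_
      rw [← Finset.sum_add_distrib]
      refine Finset.sum_congr rfl fun a' _ => ?_
      split_ifs <;> ring
    have e2 : ∑ a, ∑ a', (if ξ a' = ξ a then c a' ^ 2 / 2 else 0)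
        = ∑ a, ∑ a', (if ξ a' = ξ a then c a ^ 2 / 2 else 0) := by
      rw [Finset.sum_comm]
      refine Finset.sum_congr rfl fun a _ => Finset.sum_congr rfl fun a' _ => ?_
      by_cases h : ξ a' = ξ a
      · rw [if_pos h, if_pos h.symm]
      · rw [if_neg h, if_neg (fun h' => h h'.symm)]
    rw [e1, e2, ← Finset.sum_add_distrib]
    refine Finset.sum_congr rfl fun a _ => ?_
    rw [← Finset.sum_add_distrib]
    refine Finset.sum_congr rfl fun a' _ => ?_
    split_ifs <;> ring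
  refine h3.trans (h4.le.trans ?_)
  rw [Finset.mul_sum]
  refine Finset.sum_le_sum fun a _ => ?_
  rw [← Finset.sum_filter, Finset.sum_const, nsmul_eq_mul]
  exact mul_le_mul_of_nonneg_right (hM a) (sq_nonneg _)

/-- The Fourier estimate for centred functions. -/
theorem exp_fourier_centred (K : ι → (U →ₗ[ZMod 2] V)) (f : ι → V → ℝ) (M : ℝ) (_hM0 : 0 ≤ M)
    (hf : ∀ a, ∑ z, f a z = 0)
    (hM : ∀ ζ : V →ₗ[ZMod 2] ZMod 2, ζ ≠ 0 → ∀ a,
      ((univ.filter fun a' => ζ ∘ₗ K a' = ζ ∘ₗ K a).card : ℝ) ≤ M) :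
    ∑ u, ∑ v, (∑ a, f a (v + K a u)) ^ 2 ≤ M * (Fintype.card U : ℝ) * ∑ a, ∑ z, f a z ^ 2 := by
  classical
  have : Finite (V →ₗ[ZMod 2] ZMod 2) := exp_dual_finite
  let _ : Fintype (V →ₗ[ZMod 2] ZMod 2) := Fintype.ofFinite _
  have hN : (0 : ℝ) < (Fintype.card V : ℝ) := by
    exact_mod_cast Fintype.card_pos_iff.2 ⟨(0 : V)⟩
  have hhat : ∀ u (ζ : V →ₗ[ZMod 2] ZMod 2), expHat (fun v => ∑ a, f a (v + K a u)) ζ
      = ∑ a, expHat (f a) ζ * expChi ((ζ ∘ₗ K a) u) := by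
    intro u ζ
    rw [expHat_sum]
    refine Finset.sum_congr rfl fun a _ => ?_
    rw [expHat_translate, LinearMap.comp_apply]; ring
  have h1 : (Fintype.card V : ℝ) * ∑ u, ∑ v, (∑ a, f a (v + K a u)) ^ 2
      = ∑ ζ : V →ₗ[ZMod 2] ZMod 2, ∑ u, (∑ a, expHat (f a) ζ * expChi ((ζ ∘ₗ K a) u)) ^ 2 := by
    rw [Finset.sum_comm (s := (univ : Finset (V →ₗ[ZMod 2] ZMod 2))), Finset.mul_sum]
    refine Finset.sum_congr rfl fun u _ => ?_
    rw [← exp_parseval]
    exact Finset.sum_congr rfl fun ζ _ => by rw [hhat]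
  have h2 : ∀ ζ : V →ₗ[ZMod 2] ZMod 2,
      ∑ u, (∑ a, expHat (f a) ζ * expChi ((ζ ∘ₗ K a) u)) ^ 2
        ≤ (Fintype.card U : ℝ) * (M * ∑ a, expHat (f a) ζ ^ 2) := by
    intro ζ
    by_cases hζ : ζ = 0
    · subst hζ
      have : ∀ a, expHat (f a) 0 = 0 := fun a => expHat_zero_of_centred _ (hf a)
      simp [this]
    · exact exp_class_bound (fun a => ζ ∘ₗ K a) (fun a => expHat (f a) ζ) M (hM ζ hζ)
  have h3 : ∑ ζ : V →ₗ[ZMod 2] ZMod 2, (Fintype.card U : ℝ) * (M * ∑ a, expHat (f a) ζ ^ 2)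
      = (Fintype.card V : ℝ) * (M * (Fintype.card U : ℝ) * ∑ a, ∑ z, f a z ^ 2) := by
    rw [← Finset.mul_sum, ← Finset.mul_sum, Finset.sum_comm,
      Finset.sum_congr rfl fun a _ => exp_parseval (f a), ← Finset.mul_sum]
    ring
  have h4 : (Fintype.card V : ℝ) * ∑ u, ∑ v, (∑ a, f a (v + K a u)) ^ 2
      ≤ (Fintype.card V : ℝ) * (M * (Fintype.card U : ℝ) * ∑ a, ∑ z, f a z ^ 2) := by
    rw [h1, ← h3]
    exact Finset.sum_le_sum fun ζ _ => h2 ζ
  exact le_of_mul_le_mul_left h4 hN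

/-- **Conditional Fourier estimate.** -/
theorem exp_fourier (K : ι → (U →ₗ[ZMod 2] V)) (f : ι → V → ℝ) (M : ℝ) (hM0 : 0 ≤ M)
    (hM : ∀ ζ : V →ₗ[ZMod 2] ZMod 2, ζ ≠ 0 → ∀ a,
      ((univ.filter fun a' => ζ ∘ₗ K a' = ζ ∘ₗ K a).card : ℝ) ≤ M) :
    ∑ u, ∑ v, (∑ a, f a (v + K a u) - (∑ a, ∑ z, f a z) / (Fintype.card V : ℝ)) ^ 2
      ≤ M * (Fintype.card U : ℝ) * ∑ a, ∑ z, f a z ^ 2 := by
  classical
  have hN : (0 : ℝ) < (Fintype.card V : ℝ) := by
    exact_mod_cast Fintype.card_pos_iff.2 ⟨(0 : V)⟩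
  set m : ι → ℝ := fun a => (∑ z, f a z) / (Fintype.card V : ℝ) with hm
  have hc : ∀ a, ∑ z, (f a z - m a) = 0 := by
    intro a
    rw [Finset.sum_sub_distrib, Finset.sum_const, Finset.card_univ, nsmul_eq_mul, hm]
    field_simp
    ring
  have h := exp_fourier_centred K (fun a z => f a z - m a) M hM0 hc hM
  have e1 : ∀ u v, (∑ a, f a (v + K a u) - (∑ a, ∑ z, f a z) / (Fintype.card V : ℝ))
      = ∑ a, (f a (v + K a u) - m a) := by
    intro u v
    rw [Finset.sum_sub_distrib, hm, Finset.sum_div]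
  have e2 : ∀ a, ∑ z, (f a z - m a) ^ 2 ≤ ∑ z, f a z ^ 2 := by
    intro a
    have h1 : ∑ z, (f a z - m a) ^ 2 = ∑ z, f a z ^ 2 - (Fintype.card V : ℝ) * m a ^ 2 := by
      have : ∀ z, (f a z - m a) ^ 2 = f a z ^ 2 - 2 * m a * f a z + m a ^ 2 := fun z => by ring
      rw [Finset.sum_congr rfl fun z _ => this z, Finset.sum_add_distrib, Finset.sum_sub_distrib,
        ← Finset.mul_sum, Finset.sum_const, Finset.card_univ, nsmul_eq_mul]
      have h5 : ∑ z, f a z = (Fintype.card V : ℝ) * m a := by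
        rw [hm]; field_simp
      rw [h5]; ring
    rw [h1]
    nlinarith [sq_nonneg (m a)]
  calc ∑ u, ∑ v, (∑ a, f a (v + K a u) - (∑ a, ∑ z, f a z) / (Fintype.card V : ℝ)) ^ 2
      = ∑ u, ∑ v, (∑ a, (f a (v + K a u) - m a)) ^ 2 :=
        Finset.sum_congr rfl fun u _ => Finset.sum_congr rfl fun v _ => by rw [e1]
    _ ≤ M * (Fintype.card U : ℝ) * ∑ a, ∑ z, (f a z - m a) ^ 2 := h
    _ ≤ M * (Fintype.card U : ℝ) * ∑ a, ∑ z, f a z ^ 2 :=
        mul_le_mul_of_nonneg_left (Finset.sum_le_sum fun a _ => e2 a)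
          (mul_nonneg hM0 (Nat.cast_nonneg _))

end main

end Claimed.Agent.R300
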