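/-
R300 shared expansion library, part X3: one level of the prefix filtration (KK (5.8)-(5.11),
INJ (3.6)-(3.9)): locality of the triangular equations + the Fourier estimate give causality and
the variance bound, in the form consumed by `exp_bands_fun`.  Owner: helper126.

MODEL.  `X`, `Y` the two vertex sides, `S` the slots at a vertex of `X`, `nb σ x` the neighbour of `x`
through the slot `σ`; every `y` is hit by `DY` pairs `(σ, x)`.  `U`, `V` = the input block and the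
evaluation block of the current level, acting on `X` by translations `sh u v`; `Q σ x : V` the
evaluation of the slot `σ` on the current block, `Q σ (sh u v x) = Q σ x + v + K σ u`.
`rlo` = agreement of the earlier blocks of `X`, `rhi` = agreement up to the current block,
`rY` = agreement of the blocks of `Y` known at this level.
LOCALITY: `rlo x x' → Q σ x = Q σ x' → rY (nb σ x) (nb σ x')`.
-/
import Claimed.Agent.R300.ExpFourier
import Claimed.Agent.R300.ExpBands

set_option autoImplicit false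
set_option linter.unusedSectionVars false

namespace Claimed.Agent.R300

open Finset

variable {X Y S U V : Type*} [Fintype X] [Fintype Y] [DecidableEq Y] [Fintype S]
  [AddCommGroup U] [Module (ZMod 2) U] [Fintype U] [AddCommGroup V] [Module (ZMod 2) V] [Fintype V]

/-- Sum of a function over the neighbours. -/
def expNbSum (nb : S → X → Y) (φ : Y → ℝ) (x : X) : ℝ := ∑ σ, φ (nb σ x)

/-- Stationarity: summing over vertices and slots is `DY` times summing over the other side. -/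
theorem exp_nb_stationary (nb : S → X → Y) (DY : ℕ)
    (hDY : ∀ y, (univ.filter fun q : S × X => nb q.1 q.2 = y).card = DY) (ψ : Y → ℝ) :
    ∑ σ, ∑ x, ψ (nb σ x) = DY * ∑ y, ψ y := by
  rw [← Fintype.sum_prod_type' (f := fun σ x => ψ (nb σ x)),
    ← Finset.sum_fiberwise (s := univ) (g := fun q : S × X => nb q.1 q.2)
      (f := fun q : S × X => ψ (nb q.1 q.2)), Finset.mul_sum]
  refine Finset.sum_congr rfl fun y _ => ?_
  rw [← hDY y, ← nsmul_eq_mul, ← Finset.sum_const]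
  exact Finset.sum_congr rfl fun q hq => by rw [(Finset.mem_filter.1 hq).2]

/-- The variance bound of one level, for a fixed function `φ` with the locality property. -/
theorem exp_level_var (nb : S → X → Y) (DY : ℕ)
    (hDY : ∀ y, (univ.filter fun q : S × X => nb q.1 q.2 = y).card = DY)
    (sh : U → V → Equiv.Perm X) (hact : ∀ u v z x, sh 0 z (sh u v x) = sh u (z + v) x)
    (K : S → (U →ₗ[ZMod 2] V)) (M : ℝ) (hM0 : 0 ≤ M)
    (hM : ∀ ζ : V →ₗ[ZMod 2] ZMod 2, ζ ≠ 0 → ∀ σ,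
      ((univ.filter fun σ' => ζ ∘ₗ K σ' = ζ ∘ₗ K σ).card : ℝ) ≤ M)
    (φ : Y → ℝ) (hloc : ∀ σ x u v, φ (nb σ (sh u v x)) = φ (nb σ (sh 0 (v + K σ u) x))) :
    ∑ x, (expNbSum nb φ x - (∑ σ, ∑ z, φ (nb σ (sh 0 z x))) / (Fintype.card V : ℝ)) ^ 2
      ≤ M * DY * ∑ y, φ y ^ 2 := by
  classical
  set μ : X → ℝ := fun x => (∑ σ, ∑ z, φ (nb σ (sh 0 z x))) / (Fintype.card V : ℝ) with hμ
  have hU : (0 : ℝ) < (Fintype.card U : ℝ) := by exact_mod_cast Fintype.card_pos_iff.2 ⟨(0 : U)⟩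
  have hV : (0 : ℝ) < (Fintype.card V : ℝ) := by exact_mod_cast Fintype.card_pos_iff.2 ⟨(0 : V)⟩
  -- invariance of μ under the translations
  have hμinv : ∀ u v x, μ (sh u v x) = μ x := by
    intro u v x
    simp only [hμ]
    congr 1
    refine Finset.sum_congr rfl fun σ _ => ?_
    have h1 : ∀ z, φ (nb σ (sh 0 z (sh u v x))) = φ (nb σ (sh 0 (z + (v + K σ u)) x)) := by
      intro z
      rw [hact, hloc, add_assoc]
    rw [Finset.sum_congr rfl fun z _ => h1 z]
    exact Equiv.sum_comp (Equiv.addRight (v + K σ u)) fun z => φ (nb σ (sh 0 z x))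
  -- Fourier estimate at a fixed base point
  have hF : ∀ x, ∑ u, ∑ v, (expNbSum nb φ (sh u v x) - μ (sh u v x)) ^ 2
      ≤ M * (Fintype.card U : ℝ) * ∑ σ, ∑ z, φ (nb σ (sh 0 z x)) ^ 2 := by
    intro x
    have h := exp_fourier K (fun σ z => φ (nb σ (sh 0 z x))) M hM0 hM
    refine le_trans (le_of_eq ?_) h
    refine Finset.sum_congr rfl fun u _ => Finset.sum_congr rfl fun v _ => ?_
    rw [hμinv, expNbSum]
    congr 2
    exact Finset.sum_congr rfl fun σ _ => hloc σ x u v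
  -- sum over the base points
  have hL : ∑ x, ∑ u, ∑ v, (expNbSum nb φ (sh u v x) - μ (sh u v x)) ^ 2
      = (Fintype.card U : ℝ) * (Fintype.card V : ℝ) * ∑ x, (expNbSum nb φ x - μ x) ^ 2 := by
    rw [Finset.sum_comm]
    have h1 : ∀ u, ∑ x, ∑ v, (expNbSum nb φ (sh u v x) - μ (sh u v x)) ^ 2
        = (Fintype.card V : ℝ) * ∑ x, (expNbSum nb φ x - μ x) ^ 2 := by
      intro u
      rw [Finset.sum_comm]
      have h2 : ∀ v, ∑ x, (expNbSum nb φ (sh u v x) - μ (sh u v x)) ^ 2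
          = ∑ x, (expNbSum nb φ x - μ x) ^ 2 :=
        fun v => Equiv.sum_comp (sh u v) fun x => (expNbSum nb φ x - μ x) ^ 2
      rw [Finset.sum_congr rfl fun v _ => h2 v, Finset.sum_const, Finset.card_univ, nsmul_eq_mul]
    rw [Finset.sum_congr rfl fun u _ => h1 u, Finset.sum_const, Finset.card_univ, nsmul_eq_mul]
    ring
  have hR : ∑ x, ∑ σ, ∑ z, φ (nb σ (sh 0 z x)) ^ 2
      = (Fintype.card V : ℝ) * (DY * ∑ y, φ y ^ 2) := by
    rw [Finset.sum_comm]
    have h1 : ∀ σ, ∑ x, ∑ z, φ (nb σ (sh 0 z x)) ^ 2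
        = (Fintype.card V : ℝ) * ∑ x, φ (nb σ x) ^ 2 := by
      intro σ
      rw [Finset.sum_comm]
      have h2 : ∀ z, ∑ x, φ (nb σ (sh 0 z x)) ^ 2 = ∑ x, φ (nb σ x) ^ 2 :=
        fun z => Equiv.sum_comp (sh 0 z) fun x => φ (nb σ x) ^ 2
      rw [Finset.sum_congr rfl fun z _ => h2 z, Finset.sum_const, Finset.card_univ, nsmul_eq_mul]
    rw [Finset.sum_congr rfl fun σ _ => h1 σ, ← Finset.mul_sum,
      exp_nb_stationary nb DY hDY fun y => φ y ^ 2]
  have hsum : ∑ x, ∑ u, ∑ v, (expNbSum nb φ (sh u v x) - μ (sh u v x)) ^ 2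
      ≤ ∑ x, M * (Fintype.card U : ℝ) * ∑ σ, ∑ z, φ (nb σ (sh 0 z x)) ^ 2 :=
    Finset.sum_le_sum fun x _ => hF x
  rw [hL, ← Finset.mul_sum, hR] at hsum
  have h3 : (Fintype.card U : ℝ) * (Fintype.card V : ℝ) * ∑ x, (expNbSum nb φ x - μ x) ^ 2
      ≤ (Fintype.card U : ℝ) * (Fintype.card V : ℝ) * (M * DY * ∑ y, φ y ^ 2) := by
    refine hsum.trans (le_of_eq ?_)
    ring
  exact le_of_mul_le_mul_left h3 (mul_pos hU hV)

/-- **One level**: causality and variance bound for all functions of the known blocks. -/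
theorem exp_level (rlo rhi : X → X → Prop) (rY : Y → Y → Prop) (nb : S → X → Y) (DY : ℕ)
    (hDY : ∀ y, (univ.filter fun q : S × X => nb q.1 q.2 = y).card = DY)
    (sh : U → V → Equiv.Perm X) (hact : ∀ u v z x, sh 0 z (sh u v x) = sh u (z + v) x)
    (K : S → (U →ₗ[ZMod 2] V)) (M : ℝ) (hM0 : 0 ≤ M)
    (hM : ∀ ζ : V →ₗ[ZMod 2] ZMod 2, ζ ≠ 0 → ∀ σ,
      ((univ.filter fun σ' => ζ ∘ₗ K σ' = ζ ∘ₗ K σ).card : ℝ) ≤ M)
    (Q : S → X → V) (hQ : ∀ σ u v x, Q σ (sh u v x) = Q σ x + v + K σ u)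
    (hrefl : ∀ x, rlo x x)
    (hsh : ∀ u v u' v' x x', rlo x x' → rlo (sh u v x) (sh u' v' x'))
    (hloc : ∀ σ x x', rlo x x' → Q σ x = Q σ x' → rY (nb σ x) (nb σ x'))
    (hhi : ∀ σ x x', rhi x x' → rlo x x' ∧ Q σ x = Q σ x')
    (φ : Y → ℝ) (hφ : ExpInv rY φ) :
    ExpInv rhi (expNbSum nb φ) ∧
      ∃ μ, ExpInv rlo μ ∧ ∑ x, (expNbSum nb φ x - μ x) ^ 2 ≤ M * DY * ∑ y, φ y ^ 2 := by
  classical
  refine ⟨?_, fun x => (∑ σ, ∑ z, φ (nb σ (sh 0 z x))) / (Fintype.card V : ℝ), ?_, ?_⟩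
  · intro x x' h
    refine Finset.sum_congr rfl fun σ _ => hφ _ _ ?_
    exact hloc σ x x' (hhi σ x x' h).1 (hhi σ x x' h).2
  · intro x x' h
    simp only
    congr 1
    refine Finset.sum_congr rfl fun σ _ => ?_
    have h1 : ∀ z, φ (nb σ (sh 0 z x)) = φ (nb σ (sh 0 (z + (Q σ x - Q σ x')) x')) := by
      intro z
      refine hφ _ _ (hloc σ _ _ (hsh _ _ _ _ _ _ h) ?_)
      rw [hQ, hQ, map_zero]
      abel
    rw [Finset.sum_congr rfl fun z _ => h1 z]
    exact Equiv.sum_comp (Equiv.addRight (Q σ x - Q σ x')) fun z => φ (nb σ (sh 0 z x'))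
  · refine exp_level_var nb DY hDY sh hact K M hM0 hM φ ?_
    intro σ x u v
    refine hφ _ _ (hloc σ _ _ (hsh _ _ _ _ _ _ (hrefl x)) ?_)
    rw [hQ, hQ, map_zero]
    abel

end Claimed.Agent.R300
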