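/-
R300 shared expansion library, part X9: the discrete Cheeger inequality for finite multigraphs
(edges given by two endpoint maps), in edge-sum form, and the norm bound for biregular bipartite
incidences.  Owner: helper126.
-/
import Mathlib

set_option autoImplicit false
set_option linter.unusedSectionVars false

namespace Claimed.Agent.R300

open Finset

section general

variable {V Ed : Type*} [Fintype V] [DecidableEq V] [Fintype Ed]

/-- Volume of a vertex set in the multigraph with endpoint maps `x y`. -/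
def chVol (x y : Ed → V) (Z : Finset V) : ℕ :=
  (univ.filter fun e => x e ∈ Z).card + (univ.filter fun e => y e ∈ Z).card

/-- Number of edges crossing from `Z` to its complement. -/
def chCut (x y : Ed → V) (Z : Finset V) : ℕ :=
  (univ.filter fun e => ¬ (x e ∈ Z ↔ y e ∈ Z)).card

theorem chVol_mono (x y : Ed → V) {Z1 Z2 : Finset V} (h : Z1 ⊆ Z2) :
    chVol x y Z1 ≤ chVol x y Z2 := by
  unfold chVol
  refine Nat.add_le_add (Finset.card_le_card ?_) (Finset.card_le_card ?_)
  · intro e he
    simp only [Finset.mem_filter, Finset.mem_univ, true_and] at he ⊢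
    exact h he
  · intro e he
    simp only [Finset.mem_filter, Finset.mem_univ, true_and] at he ⊢
    exact h he

theorem chVol_cast (x y : Ed → V) (Z : Finset V) :
    (chVol x y Z : ℝ) = ∑ e, ((if x e ∈ Z then (1 : ℝ) else 0) + (if y e ∈ Z then (1 : ℝ) else 0)) := by
  rw [chVol, Finset.sum_add_distrib, Finset.sum_boole, Finset.sum_boole]
  push_cast
  rfl

theorem chCut_cast (x y : Ed → V) (Z : Finset V) :
    (chCut x y Z : ℝ) = ∑ e, (if ¬ (x e ∈ Z ↔ y e ∈ Z) then (1 : ℝ) else 0) := by
  rw [chCut, Finset.sum_boole]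

theorem chVol_compl (x y : Ed → V) (Z : Finset V) :
    chVol x y Z + chVol x y Zᶜ = 2 * Fintype.card Ed := by
  have h : ∀ p : Ed → V, (univ.filter fun e => p e ∈ Z).card + (univ.filter fun e => p e ∈ Zᶜ).card
      = Fintype.card Ed := by
    intro p
    have := Finset.card_filter_add_card_filter_not (s := (univ : Finset Ed)) (fun e => p e ∈ Z)
    simp only [Finset.mem_compl]
    rw [this, Finset.card_univ]
  unfold chVol
  have h1 := h x
  have h2 := h y
  omega

/-- Co-area inequality. -/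
theorem ch_coarea (x y : Ed → V) (γ : ℝ)
    (hcut : ∀ Z : Finset V, chVol x y Z ≤ Fintype.card Ed → γ * (chVol x y Z : ℝ) ≤ chCut x y Z)
    (φ : V → ℝ) (hφ : ∀ v, 0 ≤ φ v)
    (hsupp : chVol x y (univ.filter fun v => 0 < φ v) ≤ Fintype.card Ed) :
    γ * ∑ e, (φ (x e) + φ (y e)) ≤ ∑ e, |φ (x e) - φ (y e)| := by
  classical
  induction hn : (univ.filter fun v => 0 < φ v).card using Nat.strong_induction_on
    generalizing φ with
  | _ n ih =>
    set S := univ.filter fun v => 0 < φ v with hS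
    rcases S.eq_empty_or_nonempty with hemp | hne
    · have hz : ∀ v, φ v = 0 := by
        intro v
        have : v ∉ S := by rw [hemp]; simp
        have h1 : ¬ 0 < φ v := by simpa [hS] using this
        exact le_antisymm (not_lt.1 h1) (hφ v)
      simp [hz]
    · obtain ⟨v0, hv0, hmin⟩ := Finset.exists_min_image S φ hne
      set t := φ v0 with ht
      have htpos : 0 < t := by simpa [hS] using hv0
      set φ' : V → ℝ := fun v => if v ∈ S then φ v - t else 0 with hφ'
      have hφ'0 : ∀ v, 0 ≤ φ' v := by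
        intro v
        simp only [hφ']
        split_ifs with h
        · linarith [hmin v h]
        · exact le_rfl
      have hsub : (univ.filter fun v => 0 < φ' v) ⊆ S.erase v0 := by
        intro v hv
        have hv' : 0 < φ' v := by simpa using hv
        simp only [hφ'] at hv'
        by_cases h : v ∈ S
        · rw [if_pos h] at hv'
          refine Finset.mem_erase.2 ⟨fun h0 => ?_, h⟩
          rw [h0] at hv'
          linarith
        · rw [if_neg h] at hv'
          exact absurd hv' (lt_irrefl _)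
      have hcard : (univ.filter fun v => 0 < φ' v).card < n := by
        rw [← hn]
        exact lt_of_le_of_lt (Finset.card_le_card hsub) (Finset.card_erase_lt_of_mem hv0)
      have hsupp' : chVol x y (univ.filter fun v => 0 < φ' v) ≤ Fintype.card Ed :=
        (chVol_mono x y (hsub.trans (Finset.erase_subset _ _))).trans hsupp
      have hrec := ih _ hcard φ' hφ'0 hsupp' rfl
      have hS' := hcut S hsupp
      rw [chVol_cast, chCut_cast] at hS'
      have hout : ∀ v, v ∉ S → φ v = 0 := by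
        intro v hv
        have h1 : ¬ 0 < φ v := by simpa [hS] using hv
        exact le_antisymm (not_lt.1 h1) (hφ v)
      have e1 : ∀ e, φ (x e) + φ (y e) = t * ((if x e ∈ S then (1 : ℝ) else 0) +
          (if y e ∈ S then (1 : ℝ) else 0)) + (φ' (x e) + φ' (y e)) := by
        intro e
        simp only [hφ']
        by_cases h1 : x e ∈ S <;> by_cases h2 : y e ∈ S <;>
          simp [h1, h2, hout] <;> ring
      have e2 : ∀ e, |φ (x e) - φ (y e)| = t * (if ¬ (x e ∈ S ↔ y e ∈ S) then (1 : ℝ) else 0) +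
          |φ' (x e) - φ' (y e)| := by
        intro e
        have a1 := hφ'0 (x e)
        have a2 := hφ'0 (y e)
        simp only [hφ'] at a1 a2 ⊢
        by_cases h1 : x e ∈ S <;> by_cases h2 : y e ∈ S
        · simp [h1, h2]
        · simp only [h1, h2, if_true, if_false] at a1 a2 ⊢
          rw [hout _ h2]
          simp only [sub_zero, iff_false, not_true_eq_false, not_false_eq_true, if_true, mul_one]
          rw [abs_of_nonneg (hφ _), abs_of_nonneg a1]; ring
        · simp only [h1, h2, if_true, if_false] at a1 a2 ⊢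
          rw [hout _ h1]
          simp only [zero_sub, abs_neg, false_iff, not_true_eq_false, not_false_eq_true, if_true,
            mul_one]
          rw [abs_of_nonneg (hφ _), abs_of_nonneg a2]; ring
        · simp [h1, h2, hout]
      have E1 : ∑ e, (φ (x e) + φ (y e)) = t * ∑ e, ((if x e ∈ S then (1 : ℝ) else 0) +
          (if y e ∈ S then (1 : ℝ) else 0)) + ∑ e, (φ' (x e) + φ' (y e)) := by
        rw [Finset.mul_sum, ← Finset.sum_add_distrib]
        exact Finset.sum_congr rfl fun e _ => e1 e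
      have E2 : ∑ e, |φ (x e) - φ (y e)| = t * ∑ e, (if ¬ (x e ∈ S ↔ y e ∈ S) then (1 : ℝ) else 0) +
          ∑ e, |φ' (x e) - φ' (y e)| := by
        rw [Finset.mul_sum, ← Finset.sum_add_distrib]
        exact Finset.sum_congr rfl fun e _ => e2 e
      rw [E1, E2]
      nlinarith

/-- Dirichlet form bound for nonnegative functions with small support. -/
theorem ch_dirichlet_pos (x y : Ed → V) (γ : ℝ) (hγ : 0 ≤ γ)
    (hcut : ∀ Z : Finset V, chVol x y Z ≤ Fintype.card Ed → γ * (chVol x y Z : ℝ) ≤ chCut x y Z)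
    (w : V → ℝ) (hw : ∀ v, 0 ≤ w v)
    (hsupp : chVol x y (univ.filter fun v => 0 < w v) ≤ Fintype.card Ed) :
    γ ^ 2 / 2 * ∑ e, (w (x e) ^ 2 + w (y e) ^ 2) ≤ ∑ e, (w (x e) - w (y e)) ^ 2 := by
  classical
  have hsupp' : chVol x y (univ.filter fun v => 0 < w v ^ 2) ≤ Fintype.card Ed := by
    refine le_trans (chVol_mono x y ?_) hsupp
    intro v hv
    simp only [Finset.mem_filter, Finset.mem_univ, true_and] at hv ⊢
    rcases (hw v).lt_or_eq with h | h
    · exact h
    · rw [← h] at hv; simp at hv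
  have h1 := ch_coarea x y γ hcut (fun v => w v ^ 2) (fun v => sq_nonneg _) hsupp'
  set Nw := ∑ e, (w (x e) ^ 2 + w (y e) ^ 2) with hNw
  set En := ∑ e, (w (x e) - w (y e)) ^ 2 with hEn
  have hNw0 : 0 ≤ Nw := Finset.sum_nonneg fun e _ => by positivity
  have hEn0 : 0 ≤ En := Finset.sum_nonneg fun e _ => by positivity
  have h2 : (∑ e, |w (x e) ^ 2 - w (y e) ^ 2|) ^ 2 ≤ En * (2 * Nw) := by
    have hcs := Finset.sum_mul_sq_le_sq_mul_sq (univ : Finset Ed)
      (fun e => |w (x e) - w (y e)|) (fun e => w (x e) + w (y e))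
    have e1 : ∀ e, |w (x e) ^ 2 - w (y e) ^ 2| = |w (x e) - w (y e)| * (w (x e) + w (y e)) := by
      intro e
      have : w (x e) ^ 2 - w (y e) ^ 2 = (w (x e) - w (y e)) * (w (x e) + w (y e)) := by ring
      rw [this, abs_mul, abs_of_nonneg (add_nonneg (hw _) (hw _))]
    simp_rw [e1]
    refine hcs.trans ?_
    have e2 : ∑ e, |w (x e) - w (y e)| ^ 2 = En := by
      simp_rw [sq_abs]
      rfl
    rw [e2]
    refine mul_le_mul_of_nonneg_left ?_ hEn0
    rw [hNw, Finset.mul_sum]
    refine Finset.sum_le_sum fun e _ => ?_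
    nlinarith [sq_nonneg (w (x e) - w (y e))]
  have h3 : (γ * Nw) ^ 2 ≤ En * (2 * Nw) := by
    refine le_trans ?_ h2
    exact pow_le_pow_left₀ (mul_nonneg hγ hNw0) h1 2
  rcases hNw0.lt_or_eq with hpos | hzero
  · have : γ ^ 2 * Nw ≤ 2 * En := by
      have h4 : Nw * (γ ^ 2 * Nw) ≤ Nw * (2 * En) := by nlinarith
      exact le_of_mul_le_mul_left h4 hpos
    linarith
  · rw [← hzero]; simpa using hEn0

/-- Existence of a weighted median. -/
theorem ch_median (x y : Ed → V) (F : V → ℝ) :
    ∃ m : ℝ, chVol x y (univ.filter fun v => m < F v) ≤ Fintype.card Ed ∧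
      chVol x y (univ.filter fun v => F v < m) ≤ Fintype.card Ed := by
  classical
  rcases isEmpty_or_nonempty V with hV | hV
  · refine ⟨0, ?_, ?_⟩ <;>
    · have : ∀ Z : Finset V, chVol x y Z = 0 := by
        intro Z
        have hE : IsEmpty Ed := ⟨fun e => hV.elim (x e)⟩
        simp [chVol]
      rw [this]; exact Nat.zero_le _
  set vals := (univ : Finset V).image F with hvals
  set M := vals.filter fun m => Fintype.card Ed ≤ chVol x y (univ.filter fun v => F v ≤ m) with hM
  have hMne : M.Nonempty := by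
    obtain ⟨v1, _, hmax⟩ := Finset.exists_max_image (univ : Finset V) F Finset.univ_nonempty
    refine ⟨F v1, Finset.mem_filter.2 ⟨Finset.mem_image_of_mem _ (Finset.mem_univ _), ?_⟩⟩
    have : (univ.filter fun v => F v ≤ F v1) = univ := by
      ext v; simpa using hmax v (Finset.mem_univ _)
    rw [this]
    have h := chVol_compl x y (univ : Finset V)
    have h0 : chVol x y (univᶜ : Finset V) = 0 := by simp [chVol]
    omega
  obtain ⟨m, hmM, hmin⟩ := Finset.exists_min_image M id hMne
  refine ⟨m, ?_, ?_⟩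
  · have h := chVol_compl x y (univ.filter fun v => F v ≤ m)
    have hc : (univ.filter fun v => F v ≤ m)ᶜ = univ.filter fun v => m < F v := by
      ext v; simp
    rw [hc] at h
    have := (Finset.mem_filter.1 hmM).2
    omega
  · by_contra hcon
    push Not at hcon
    have hne : (univ.filter fun v => F v < m).Nonempty := by
      by_contra hemp
      rw [Finset.not_nonempty_iff_eq_empty] at hemp
      rw [hemp] at hcon
      simp [chVol] at hcon
    obtain ⟨v1, hv1, hmax⟩ := Finset.exists_max_image _ F hne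
    have hv1' : F v1 < m := by simpa using hv1
    have heq : (univ.filter fun v => F v ≤ F v1) = univ.filter fun v => F v < m := by
      ext v
      simp only [Finset.mem_filter, Finset.mem_univ, true_and]
      constructor
      · intro h; linarith
      · intro h; exact hmax v (by simpa using h)
    have hmem : F v1 ∈ M := by
      refine Finset.mem_filter.2 ⟨Finset.mem_image_of_mem _ (Finset.mem_univ _), ?_⟩
      rw [heq]; omega
    have := hmin _ hmem
    simp only [id] at this
    linarith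

/-- **Cheeger inequality** for finite multigraphs, edge-sum form. -/
theorem ch_cheeger (x y : Ed → V) (γ : ℝ) (hγ : 0 ≤ γ)
    (hcut : ∀ Z : Finset V, chVol x y Z ≤ Fintype.card Ed → γ * (chVol x y Z : ℝ) ≤ chCut x y Z)
    (F : V → ℝ) (hF : ∑ e, (F (x e) + F (y e)) = 0) :
    γ ^ 2 / 2 * ∑ e, (F (x e) ^ 2 + F (y e) ^ 2) ≤ ∑ e, (F (x e) - F (y e)) ^ 2 := by
  classical
  obtain ⟨m, hm1, hm2⟩ := ch_median x y F
  set wp : V → ℝ := fun v => max (F v - m) 0 with hwp
  set wm : V → ℝ := fun v => max (m - F v) 0 with hwm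
  have sp : (univ.filter fun v => 0 < wp v) = univ.filter fun v => m < F v := by
    ext v; simp [hwp]
  have sm : (univ.filter fun v => 0 < wm v) = univ.filter fun v => F v < m := by
    ext v; simp [hwm]
  have h1 := ch_dirichlet_pos x y γ hγ hcut wp (fun v => le_max_right _ _) (by rw [sp]; exact hm1)
  have h2 := ch_dirichlet_pos x y γ hγ hcut wm (fun v => le_max_right _ _) (by rw [sm]; exact hm2)
  have hv : ∀ v, wp v ^ 2 + wm v ^ 2 = (F v - m) ^ 2 := by
    intro v
    simp only [hwp, hwm]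
    rcases le_total (F v) m with h | h
    · rw [max_eq_right (by linarith), max_eq_left (by linarith)]; ring
    · rw [max_eq_left (by linarith), max_eq_right (by linarith)]; ring
  have he : ∀ e, (wp (x e) - wp (y e)) ^ 2 + (wm (x e) - wm (y e)) ^ 2
      ≤ (F (x e) - F (y e)) ^ 2 := by
    intro e
    simp only [hwp, hwm]
    rcases le_total (F (x e)) m with h | h <;> rcases le_total (F (y e)) m with h' | h'
    · rw [max_eq_right (by linarith), max_eq_right (by linarith), max_eq_left (by linarith),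
        max_eq_left (by linarith)]
      nlinarith
    · rw [max_eq_right (by linarith), max_eq_left (by linarith), max_eq_left (by linarith),
        max_eq_right (by linarith)]
      nlinarith [mul_nonneg (sub_nonneg.2 h) (sub_nonneg.2 h')]
    · rw [max_eq_left (by linarith), max_eq_right (by linarith), max_eq_right (by linarith),
        max_eq_left (by linarith)]
      nlinarith [mul_nonneg (sub_nonneg.2 h) (sub_nonneg.2 h')]
    · rw [max_eq_left (by linarith), max_eq_left (by linarith), max_eq_right (by linarith),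
        max_eq_right (by linarith)]
      nlinarith
  have hsumE : ∑ e, (wp (x e) - wp (y e)) ^ 2 + ∑ e, (wm (x e) - wm (y e)) ^ 2
      ≤ ∑ e, (F (x e) - F (y e)) ^ 2 := by
    rw [← Finset.sum_add_distrib]
    exact Finset.sum_le_sum fun e _ => he e
  have hsumN : ∑ e, (F (x e) ^ 2 + F (y e) ^ 2)
      ≤ ∑ e, (wp (x e) ^ 2 + wp (y e) ^ 2) + ∑ e, (wm (x e) ^ 2 + wm (y e) ^ 2) := by
    rw [← Finset.sum_add_distrib]
    have e1 : ∀ e, (wp (x e) ^ 2 + wp (y e) ^ 2) + (wm (x e) ^ 2 + wm (y e) ^ 2)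
        = (F (x e) ^ 2 + F (y e) ^ 2) - 2 * m * (F (x e) + F (y e)) + 2 * m ^ 2 := by
      intro e
      have a := hv (x e)
      have b := hv (y e)
      nlinarith
    have E1 : ∑ e, ((wp (x e) ^ 2 + wp (y e) ^ 2) + (wm (x e) ^ 2 + wm (y e) ^ 2))
        = ∑ e, (F (x e) ^ 2 + F (y e) ^ 2) - 2 * m * ∑ e, (F (x e) + F (y e))
          + ∑ _e : Ed, 2 * m ^ 2 := by
      rw [Finset.mul_sum, ← Finset.sum_sub_distrib, ← Finset.sum_add_distrib]
      exact Finset.sum_congr rfl fun e _ => e1 e
    rw [E1, hF]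
    have : (0 : ℝ) ≤ ∑ _e : Ed, 2 * m ^ 2 := Finset.sum_nonneg fun _ _ => by positivity
    linarith
  have hg : 0 ≤ γ ^ 2 / 2 := by positivity
  nlinarith

end general

section bipartite

variable {A B Ed : Type*} [Fintype A] [DecidableEq A] [Fintype B] [DecidableEq B] [Fintype Ed]

/-- Unnormalised incidence operator of a bipartite multigraph. -/
def chInc (s : Ed → A) (t : Ed → B) (f : B → ℝ) (a : A) : ℝ :=
  ∑ e ∈ univ.filter (fun e => s e = a), f (t e)

theorem ch_sum_comp {W : Type*} [Fintype W] [DecidableEq W] (p : Ed → W) (n : ℕ)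
    (hp : ∀ a, (univ.filter fun e => p e = a).card = n) (φ : W → ℝ) :
    ∑ e, φ (p e) = n * ∑ a, φ a := by
  rw [← Finset.sum_fiberwise (s := univ) (g := p) (f := fun e => φ (p e)), Finset.mul_sum]
  refine Finset.sum_congr rfl fun a _ => ?_
  rw [← hp a, ← nsmul_eq_mul, ← Finset.sum_const]
  exact Finset.sum_congr rfl fun e he => by rw [(Finset.mem_filter.1 he).2]

theorem ch_sum_inc (s : Ed → A) (t : Ed → B) (g : A → ℝ) (f : B → ℝ) :
    ∑ e, g (s e) * f (t e) = ∑ a, g a * chInc s t f a := by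
  rw [← Finset.sum_fiberwise (s := univ) (g := s) (f := fun e => g (s e) * f (t e))]
  refine Finset.sum_congr rfl fun a _ => ?_
  rw [chInc, Finset.mul_sum]
  exact Finset.sum_congr rfl fun e he => by rw [(Finset.mem_filter.1 he).2]

/-- Bilinear form of the Cheeger bound for a biregular bipartite multigraph. -/
theorem ch_bip_form (s : Ed → A) (t : Ed → B) (d D : ℕ)
    (hd : ∀ a, (univ.filter fun e => s e = a).card = d)
    (hD : ∀ b, (univ.filter fun e => t e = b).card = D) (γ : ℝ) (hγ0 : 0 ≤ γ)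
    (hcut : ∀ Z : Finset (A ⊕ B),
      chVol (fun e => (Sum.inl (s e) : A ⊕ B)) (fun e => Sum.inr (t e)) Z ≤ Fintype.card Ed →
      γ * (chVol (fun e => (Sum.inl (s e) : A ⊕ B)) (fun e => Sum.inr (t e)) Z : ℝ)
        ≤ chCut (fun e => (Sum.inl (s e) : A ⊕ B)) (fun e => Sum.inr (t e)) Z)
    (g : A → ℝ) (f : B → ℝ) (hgf : (d : ℝ) * ∑ a, g a + (D : ℝ) * ∑ b, f b = 0) :
    2 * ∑ e, g (s e) * f (t e)
      ≤ (1 - γ ^ 2 / 2) * ((d : ℝ) * ∑ a, g a ^ 2 + (D : ℝ) * ∑ b, f b ^ 2) := by
  have h := ch_cheeger (fun e => (Sum.inl (s e) : A ⊕ B)) (fun e => Sum.inr (t e)) γ hγ0 hcut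
    (Sum.elim g f) (by
      simp only [Sum.elim_inl, Sum.elim_inr]
      rw [Finset.sum_add_distrib, ch_sum_comp s d hd g, ch_sum_comp t D hD f]
      exact hgf)
  simp only [Sum.elim_inl, Sum.elim_inr] at h
  have e1 : ∑ e, (g (s e) ^ 2 + f (t e) ^ 2) = (d : ℝ) * ∑ a, g a ^ 2 + (D : ℝ) * ∑ b, f b ^ 2 := by
    rw [Finset.sum_add_distrib, ch_sum_comp s d hd (fun a => g a ^ 2),
      ch_sum_comp t D hD (fun b => f b ^ 2)]
  have e2 : ∑ e, (g (s e) - f (t e)) ^ 2
      = ∑ e, (g (s e) ^ 2 + f (t e) ^ 2) - 2 * ∑ e, g (s e) * f (t e) := by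
    rw [Finset.mul_sum, ← Finset.sum_sub_distrib]
    exact Finset.sum_congr rfl fun e _ => by ring
  rw [e2, e1] at h
  linarith

/-- **Norm bound** for the incidence operator on centred functions. -/
theorem ch_bip_norm (s : Ed → A) (t : Ed → B) (d D : ℕ) (hdpos : 0 < d)
    (hd : ∀ a, (univ.filter fun e => s e = a).card = d)
    (hD : ∀ b, (univ.filter fun e => t e = b).card = D) (γ : ℝ) (hγ0 : 0 ≤ γ) (hγ1 : γ ≤ 1)
    (hcut : ∀ Z : Finset (A ⊕ B),
      chVol (fun e => (Sum.inl (s e) : A ⊕ B)) (fun e => Sum.inr (t e)) Z ≤ Fintype.card Ed →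
      γ * (chVol (fun e => (Sum.inl (s e) : A ⊕ B)) (fun e => Sum.inr (t e)) Z : ℝ)
        ≤ chCut (fun e => (Sum.inl (s e) : A ⊕ B)) (fun e => Sum.inr (t e)) Z)
    (f : B → ℝ) (hf : ∑ b, f b = 0) :
    ∑ a, (chInc s t f a) ^ 2 ≤ (1 - γ ^ 2 / 2) ^ 2 * ((d : ℝ) * D) * ∑ b, f b ^ 2 := by
  set c : ℝ := 1 - γ ^ 2 / 2 with hc
  have hcpos : 0 < c := by rw [hc]; nlinarith
  have hdR : (0 : ℝ) < d := by exact_mod_cast hdpos
  set T := chInc s t f with hT
  have hTsum : ∑ a, T a = 0 := by
    have h1 := ch_sum_inc s t (fun _ => (1 : ℝ)) f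
    simp only [one_mul] at h1
    rw [← h1, ch_sum_comp t D hD f, hf, mul_zero]
  have h := ch_bip_form s t d D hd hD γ hγ0 hcut T (fun b => c * d * f b) (by
    rw [hTsum, ← Finset.mul_sum, hf]; ring)
  have e1 : ∑ e, T (s e) * (c * d * f (t e)) = c * d * ∑ a, T a ^ 2 := by
    have h1 := ch_sum_inc s t T f
    rw [Finset.mul_sum]
    have : ∑ e, T (s e) * (c * d * f (t e)) = c * d * ∑ e, T (s e) * f (t e) := by
      rw [Finset.mul_sum]; exact Finset.sum_congr rfl fun e _ => by ring
    rw [this, h1, Finset.mul_sum]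
    exact Finset.sum_congr rfl fun a _ => by ring
  have e2 : ∑ b, (c * d * f b) ^ 2 = (c * d) ^ 2 * ∑ b, f b ^ 2 := by
    rw [Finset.mul_sum]; exact Finset.sum_congr rfl fun b _ => by ring
  rw [e1, e2, ← hc] at h
  set NT := ∑ a, T a ^ 2 with hNT
  set Nf := ∑ b, f b ^ 2 with hNf
  have h2 : (c * d) * NT ≤ (c * d) * (c ^ 2 * ((d : ℝ) * D) * Nf) := by nlinarith
  exact le_of_mul_le_mul_left h2 (mul_pos hcpos hdR)

/-- Norm bound for the adjoint incidence operator on centred functions. -/
theorem ch_bip_norm_adj (s : Ed → A) (t : Ed → B) (d D : ℕ) (hDpos : 0 < D)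
    (hd : ∀ a, (univ.filter fun e => s e = a).card = d)
    (hD : ∀ b, (univ.filter fun e => t e = b).card = D) (γ : ℝ) (hγ0 : 0 ≤ γ) (hγ1 : γ ≤ 1)
    (hcut : ∀ Z : Finset (A ⊕ B),
      chVol (fun e => (Sum.inl (s e) : A ⊕ B)) (fun e => Sum.inr (t e)) Z ≤ Fintype.card Ed →
      γ * (chVol (fun e => (Sum.inl (s e) : A ⊕ B)) (fun e => Sum.inr (t e)) Z : ℝ)
        ≤ chCut (fun e => (Sum.inl (s e) : A ⊕ B)) (fun e => Sum.inr (t e)) Z)
    (g : A → ℝ) (hg : ∑ a, g a = 0) :
    ∑ b, (chInc t s g b) ^ 2 ≤ (1 - γ ^ 2 / 2) ^ 2 * ((d : ℝ) * D) * ∑ a, g a ^ 2 := by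
  set c : ℝ := 1 - γ ^ 2 / 2 with hc
  have hcpos : 0 < c := by rw [hc]; nlinarith
  have hDR : (0 : ℝ) < D := by exact_mod_cast hDpos
  set T := chInc t s g with hT
  have hTsum : ∑ b, T b = 0 := by
    have h1 := ch_sum_inc t s (fun _ => (1 : ℝ)) g
    simp only [one_mul] at h1
    rw [← h1, ch_sum_comp s d hd g, hg, mul_zero]
  have h := ch_bip_form s t d D hd hD γ hγ0 hcut (fun a => c * D * g a) T (by
    rw [hTsum, ← Finset.mul_sum, hg]; ring)
  have e1 : ∑ e, (c * D * g (s e)) * T (t e) = c * D * ∑ b, T b ^ 2 := by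
    have h1 := ch_sum_inc t s T g
    have : ∑ e, (c * D * g (s e)) * T (t e) = c * D * ∑ e, T (t e) * g (s e) := by
      rw [Finset.mul_sum]; exact Finset.sum_congr rfl fun e _ => by ring
    rw [this, h1, Finset.mul_sum, Finset.mul_sum]
    exact Finset.sum_congr rfl fun a _ => by ring
  have e2 : ∑ a, (c * D * g a) ^ 2 = (c * D) ^ 2 * ∑ a, g a ^ 2 := by
    rw [Finset.mul_sum]; exact Finset.sum_congr rfl fun b _ => by ring
  rw [e1, e2, ← hc] at h
  set NT := ∑ b, T b ^ 2 with hNT
  set Ng := ∑ a, g a ^ 2 with hNg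
  have h2 : (c * D) * NT ≤ (c * D) * (c ^ 2 * ((d : ℝ) * D) * Ng) := by nlinarith
  exact le_of_mul_le_mul_left h2 (mul_pos hcpos hDR)

end bipartite

end Claimed.Agent.R300
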