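/-
R300 shared expansion library, part X5: connected vertex sets of a finite graph of bounded degree,
covering walks, and the exponential bound for the number of connected sets through a vertex.
Owner: helper126.
-/
import Mathlib

set_option autoImplicit false

namespace Claimed.Agent.R300

open Finset

variable {V : Type*} [Fintype V] [DecidableEq V]

/-- `Z` is connected for the relation `adj`: it is nonempty and cannot be split. -/
def expConn (adj : V → V → Prop) (Z : Finset V) : Prop :=
  Z.Nonempty ∧ ∀ Z1 : Finset V, Z1 ⊆ Z → Z1.Nonempty → Z1 ≠ Z → ∃ u ∈ Z1, ∃ v ∈ Z \ Z1, adj u v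

open Classical in
/-- Neighbours of a vertex. -/
noncomputable def expNbrs (adj : V → V → Prop) (v : V) : Finset V := univ.filter (adj v)

/-- Walks of length `L` starting at `v`, as lists of `L + 1` vertices. -/
noncomputable def expWalks (adj : V → V → Prop) : ℕ → V → Finset (List V)
  | 0, v => {[v]}
  | (L + 1), v => (expNbrs adj v).biUnion fun u => (expWalks adj L u).image (List.cons v)

theorem expWalks_card_le (adj : V → V → Prop) (Δ : ℕ) (hΔ : ∀ v, (expNbrs adj v).card ≤ Δ)
    (L : ℕ) (v : V) : (expWalks adj L v).card ≤ Δ ^ L := by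
  induction L generalizing v with
  | zero => simp [expWalks]
  | succ L ih =>
    rw [expWalks]
    calc ((expNbrs adj v).biUnion fun u => (expWalks adj L u).image (List.cons v)).card
        ≤ ∑ u ∈ expNbrs adj v, ((expWalks adj L u).image (List.cons v)).card :=
          Finset.card_biUnion_le
      _ ≤ ∑ _u ∈ expNbrs adj v, Δ ^ L :=
          Finset.sum_le_sum fun u _ => (Finset.card_image_le).trans (ih u)
      _ = (expNbrs adj v).card * Δ ^ L := by rw [Finset.sum_const, smul_eq_mul]
      _ ≤ Δ * Δ ^ L := Nat.mul_le_mul_right _ (hΔ v)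
      _ = Δ ^ (L + 1) := by ring

theorem expWalks_head_mem (adj : V → V → Prop) (L : ℕ) (v : V) (l : List V)
    (hl : l ∈ expWalks adj L v) : v ∈ l := by
  cases L with
  | zero =>
    simp only [expWalks, Finset.mem_singleton] at hl
    simp [hl]
  | succ L =>
    simp only [expWalks, Finset.mem_biUnion, Finset.mem_image] at hl
    obtain ⟨u, _, l', _, rfl⟩ := hl
    simp

theorem expWalks_cons (adj : V → V → Prop) (L : ℕ) (v u : V) (l : List V) (h : adj v u)
    (hl : l ∈ expWalks adj L u) : v :: l ∈ expWalks adj (L + 1) v := by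
  simp only [expWalks, Finset.mem_biUnion, Finset.mem_image]
  exact ⟨u, by simp [expNbrs, h], l, hl, rfl⟩

/-- Insert a detour `z → u → z` into a walk. -/
theorem expWalks_insert (adj : V → V → Prop) (hsym : ∀ u v, adj u v → adj v u)
    (L : ℕ) (v : V) (l : List V) (hl : l ∈ expWalks adj L v) (z u : V) (hz : z ∈ l)
    (hzu : adj z u) : ∃ l' ∈ expWalks adj (L + 2) v, l'.toFinset = insert u l.toFinset := by
  induction L generalizing v l with
  | zero =>
    have hl' : l = [v] := by simpa [expWalks] using hl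
    subst hl'
    have hzv : z = v := by simpa using hz
    subst hzv
    refine ⟨z :: u :: [z], expWalks_cons adj 1 z u _ hzu
      (expWalks_cons adj 0 u z _ (hsym _ _ hzu) (by simp [expWalks])), ?_⟩
    ext a
    simp only [List.toFinset_cons, List.toFinset_nil, insert_empty_eq, Finset.mem_insert,
      Finset.mem_singleton]
    tauto
  | succ L ih =>
    have hl0 := hl
    simp only [expWalks, Finset.mem_biUnion, Finset.mem_image] at hl
    obtain ⟨u1, hu1, l1, hl1, rfl⟩ := hl
    have hvu1 : adj v u1 := by simpa [expNbrs] using hu1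
    by_cases hzv : z = v
    · subst hzv
      refine ⟨z :: u :: z :: l1, expWalks_cons adj _ z u _ hzu
        (expWalks_cons adj _ u z _ (hsym _ _ hzu) hl0), ?_⟩
      ext a
      simp only [List.toFinset_cons, Finset.mem_insert]
      tauto
    · have hz1 : z ∈ l1 := by
        rcases List.mem_cons.1 hz with h | h
        · exact absurd h hzv
        · exact h
      obtain ⟨l', hl', hfin⟩ := ih u1 l1 hl1 hz1
      refine ⟨v :: l', expWalks_cons adj _ v u1 _ hvu1 hl', ?_⟩
      rw [List.toFinset_cons, hfin, List.toFinset_cons, Finset.insert_comm]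

/-- A connected set is the support of a walk of length `2 (|Z| - 1)` from any of its points. -/
theorem expConn_cover (adj : V → V → Prop) (hsym : ∀ u v, adj u v → adj v u)
    (Z : Finset V) (hZ : expConn adj Z) (y : V) (hy : y ∈ Z) :
    ∃ l ∈ expWalks adj (2 * (Z.card - 1)) y, l.toFinset = Z := by
  have key : ∀ k : ℕ, k + 1 ≤ Z.card →
      ∃ S : Finset V, S ⊆ Z ∧ S.card = k + 1 ∧ ∃ l ∈ expWalks adj (2 * k) y, l.toFinset = S := by
    intro k
    induction k with
    | zero =>
      intro _
      exact ⟨{y}, by simpa using hy, by simp, [y], by simp [expWalks], by simp⟩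
    | succ k ih =>
      intro hk
      obtain ⟨S, hSZ, hScard, l, hl, hlS⟩ := ih (by omega)
      have hSne : S.Nonempty := Finset.card_pos.1 (by omega)
      have hSZ' : S ≠ Z := fun h => by rw [h] at hScard; omega
      obtain ⟨u, hu, v, hv, huv⟩ := hZ.2 S hSZ hSne hSZ'
      rw [Finset.mem_sdiff] at hv
      obtain ⟨l', hl', hfin⟩ := expWalks_insert adj hsym (2 * k) y l hl u v
        (by rw [← List.mem_toFinset, hlS]; exact hu) huv
      refine ⟨insert v S, ?_, ?_, l', ?_, ?_⟩
      · intro a ha
        rcases Finset.mem_insert.1 ha with rfl | ha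
        · exact hv.1
        · exact hSZ ha
      · rw [Finset.card_insert_of_notMem hv.2, hScard]
      · have : 2 * (k + 1) = 2 * k + 2 := by ring
        rw [this]; exact hl'
      · rw [hfin, hlS]
  have hpos : 0 < Z.card := Finset.card_pos.2 hZ.1
  obtain ⟨S, hSZ, hScard, l, hl, hlS⟩ := key (Z.card - 1) (by omega)
  have : S = Z := Finset.eq_of_subset_of_card_le hSZ (by omega)
  exact ⟨l, hl, by rw [hlS, this]⟩

open Classical in
/-- The number of connected `m`-sets through a given vertex is at most `Δ ^ (2 (m - 1))`. -/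
theorem expConn_card_le (adj : V → V → Prop) (hsym : ∀ u v, adj u v → adj v u)
    (Δ : ℕ) (hΔ : ∀ v, (expNbrs adj v).card ≤ Δ) (y : V) (m : ℕ) :
    (univ.filter fun Z : Finset V => expConn adj Z ∧ y ∈ Z ∧ Z.card = m).card
      ≤ Δ ^ (2 * (m - 1)) := by
  refine le_trans ?_ (expWalks_card_le adj Δ hΔ (2 * (m - 1)) y)
  have hex : ∀ Z : Finset V, expConn adj Z ∧ y ∈ Z ∧ Z.card = m →
      ∃ l ∈ expWalks adj (2 * (m - 1)) y, l.toFinset = Z := by
    rintro Z ⟨h1, h2, rfl⟩
    exact expConn_cover adj hsym Z h1 y h2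
  refine Finset.card_le_card_of_injOn
    (fun Z => if h : expConn adj Z ∧ y ∈ Z ∧ Z.card = m then (hex Z h).choose else []) ?_ ?_
  · intro Z hZ
    have h : expConn adj Z ∧ y ∈ Z ∧ Z.card = m := by simpa using hZ
    simp only [dif_pos h]
    exact (hex Z h).choose_spec.1
  · intro Z1 hZ1 Z2 hZ2 heq
    have h1 : expConn adj Z1 ∧ y ∈ Z1 ∧ Z1.card = m := by simpa using hZ1
    have h2 : expConn adj Z2 ∧ y ∈ Z2 ∧ Z2.card = m := by simpa using hZ2
    simp only [dif_pos h1, dif_pos h2] at heq
    rw [← (hex Z1 h1).choose_spec.2, ← (hex Z2 h2).choose_spec.2, heq]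

open Classical in
/-- Weighted count of the connected sets through a vertex. -/
theorem expConn_sum_le (adj : V → V → Prop) (hsym : ∀ u v, adj u v → adj v u)
    (Δ : ℕ) (hΔ : ∀ v, (expNbrs adj v).card ≤ Δ) (y : V) (a : ℝ)
    (hρ : (Δ : ℝ) ^ 2 * Real.exp (-a) ≤ 1 / 2) :
    ∑ Z ∈ univ.filter (fun Z : Finset V => expConn adj Z ∧ y ∈ Z), Real.exp (-a * Z.card)
      ≤ 2 * Real.exp (-a) := by
  set F := univ.filter (fun Z : Finset V => expConn adj Z ∧ y ∈ Z) with hF
  set N := Fintype.card V with hN
  have hmaps : ∀ Z ∈ F, Z.card ∈ Finset.range (N + 1) := by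
    intro Z _
    rw [Finset.mem_range]
    exact Nat.lt_succ_of_le (Finset.card_le_univ Z)
  rw [← Finset.sum_fiberwise_of_maps_to hmaps]
  have hterm : ∀ m ∈ Finset.range (N + 1),
      ∑ Z ∈ F.filter (fun Z => Z.card = m), Real.exp (-a * Z.card)
        ≤ if m = 0 then 0 else Real.exp (-a) * ((Δ : ℝ) ^ 2 * Real.exp (-a)) ^ (m - 1) := by
    intro m _
    have h1 : ∑ Z ∈ F.filter (fun Z => Z.card = m), Real.exp (-a * Z.card)
        = ((F.filter (fun Z => Z.card = m)).card : ℝ) * Real.exp (-a * m) := by
      rw [← nsmul_eq_mul, ← Finset.sum_const]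
      refine Finset.sum_congr rfl fun Z hZ => ?_
      rw [(Finset.mem_filter.1 hZ).2]
    rw [h1]
    have hfil : F.filter (fun Z => Z.card = m)
        = univ.filter fun Z : Finset V => expConn adj Z ∧ y ∈ Z ∧ Z.card = m := by
      ext Z
      simp only [hF, Finset.mem_filter, Finset.mem_univ, true_and, and_assoc]
    by_cases hm : m = 0
    · subst hm
      rw [if_pos rfl]
      have : F.filter (fun Z => Z.card = 0) = ∅ := by
        rw [Finset.eq_empty_iff_forall_notMem]
        intro Z hZ
        rw [Finset.mem_filter] at hZ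
        have h2 : expConn adj Z ∧ y ∈ Z := by simpa [hF] using hZ.1
        have := Finset.card_pos.2 h2.1.1
        omega
      rw [this]; simp
    · rw [if_neg hm, hfil]
      have hc := expConn_card_le adj hsym Δ hΔ y m
      have hc' : ((univ.filter fun Z : Finset V => expConn adj Z ∧ y ∈ Z ∧ Z.card = m).card : ℝ)
          ≤ (Δ : ℝ) ^ (2 * (m - 1)) := by exact_mod_cast hc
      calc _ ≤ (Δ : ℝ) ^ (2 * (m - 1)) * Real.exp (-a * m) :=
            mul_le_mul_of_nonneg_right hc' (Real.exp_pos _).le
        _ = Real.exp (-a) * ((Δ : ℝ) ^ 2 * Real.exp (-a)) ^ (m - 1) := by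
            obtain ⟨k, rfl⟩ : ∃ k, m = k + 1 := ⟨m - 1, by omega⟩
            simp only [Nat.add_sub_cancel]
            rw [mul_pow, ← pow_mul, ← Real.exp_nat_mul]
            have : Real.exp (-a * ((k + 1 : ℕ) : ℝ)) = Real.exp (-a) * Real.exp ((k : ℝ) * -a) := by
              rw [← Real.exp_add]; congr 1; push_cast; ring
            rw [this]; ring
  refine (Finset.sum_le_sum hterm).trans ?_
  rw [Finset.sum_range_succ']
  simp only [Nat.add_eq_zero_iff, one_ne_zero, and_false, if_false, Nat.add_sub_cancel, if_true,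
    add_zero]
  rw [← Finset.mul_sum, mul_comm]
  refine mul_le_mul_of_nonneg_right ?_ (Real.exp_pos _).le
  have hρ0 : 0 ≤ (Δ : ℝ) ^ 2 * Real.exp (-a) := by positivity
  calc ∑ i ∈ Finset.range N, ((Δ : ℝ) ^ 2 * Real.exp (-a)) ^ i
      ≤ ∑ i ∈ Finset.range N, (1 / (2 : ℝ)) ^ i :=
        Finset.sum_le_sum fun i _ => pow_le_pow_left₀ hρ0 hρ i
    _ ≤ 2 := sum_geometric_two_le N

end Claimed.Agent.R300
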