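/-
R300 shared expansion library, part X3: negative correlation and exponential moments for uniform
permutations (sampling without replacement), and for independent families of permutations.
Owner: helper126.
-/
import Mathlib

set_option autoImplicit false

namespace Claimed.Agent.R300

open Finset

section perm

variable {C : Type*} [Fintype C] [DecidableEq C]

/-- One step of the negative correlation estimate: `n * #{π(I ∪ {w}) ⊆ T} ≤ #T * #{π(I) ⊆ T}`. -/
theorem exp_perm_step (T I : Finset C) (w : C) (hw : w ∉ I) :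
    (univ.filter fun π : Equiv.Perm C => ∀ u ∈ insert w I, π u ∈ T).card * Fintype.card C
      ≤ (univ.filter fun π : Equiv.Perm C => ∀ u ∈ I, π u ∈ T).card * T.card := by
  classical
  rw [← Finset.card_univ (α := C), ← Finset.card_product, ← Finset.card_product]
  refine Finset.card_le_card_of_injOn
    (fun z : Equiv.Perm C × C => (Equiv.swap (z.1 w) z.2 * z.1, z.1 w)) ?_ ?_
  · rintro ⟨π, c⟩ hz
    simp only [Finset.coe_product, Set.mem_prod, Finset.mem_coe, Finset.mem_filter,
      Finset.mem_univ, true_and, and_true] at hz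
    simp only [Finset.coe_product, Set.mem_prod, Finset.mem_coe, Finset.mem_filter,
      Finset.mem_univ, true_and]
    refine ⟨fun u hu => ?_, hz w (Finset.mem_insert_self _ _)⟩
    have hu' : π u ∈ T := hz u (Finset.mem_insert_of_mem hu)
    have hw' : π w ∈ T := hz w (Finset.mem_insert_self _ _)
    simp only [Equiv.Perm.coe_mul, Function.comp_apply]
    have h1 : π u ≠ π w := fun h => hw (π.injective h ▸ hu)
    by_cases h2 : π u = c
    · rw [h2, Equiv.swap_apply_right]; exact hw'
    · rw [Equiv.swap_apply_of_ne_of_ne h1 h2]; exact hu'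
  · rintro ⟨π₁, c₁⟩ _ ⟨π₂, c₂⟩ _ h
    simp only [Prod.mk.injEq] at h
    obtain ⟨h1, h2⟩ := h
    have hc : c₁ = c₂ := by
      have := congrArg (fun ρ : Equiv.Perm C => ρ w) h1
      simpa using this
    subst hc
    rw [h2] at h1
    have : π₁ = π₂ := mul_left_cancel h1
    rw [this]

/-- Negative correlation: `#{π : π(I) ⊆ T} * n^|I| ≤ n! * |T|^|I|`. -/
theorem exp_perm_subset (T I : Finset C) :
    (univ.filter fun π : Equiv.Perm C => ∀ u ∈ I, π u ∈ T).card * Fintype.card C ^ I.card
      ≤ Fintype.card (Equiv.Perm C) * T.card ^ I.card := by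
  classical
  induction I using Finset.induction_on with
  | empty => simp
  | insert w I hw ih =>
    rw [Finset.card_insert_of_notMem hw, pow_succ, pow_succ]
    calc (univ.filter fun π : Equiv.Perm C => ∀ u ∈ insert w I, π u ∈ T).card *
          (Fintype.card C ^ I.card * Fintype.card C)
        = ((univ.filter fun π : Equiv.Perm C => ∀ u ∈ insert w I, π u ∈ T).card * Fintype.card C)
            * Fintype.card C ^ I.card := by ring
      _ ≤ ((univ.filter fun π : Equiv.Perm C => ∀ u ∈ I, π u ∈ T).card * T.card)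
            * Fintype.card C ^ I.card := Nat.mul_le_mul_right _ (exp_perm_step T I w hw)
      _ = ((univ.filter fun π : Equiv.Perm C => ∀ u ∈ I, π u ∈ T).card * Fintype.card C ^ I.card)
            * T.card := by ring
      _ ≤ (Fintype.card (Equiv.Perm C) * T.card ^ I.card) * T.card := Nat.mul_le_mul_right _ ih
      _ = _ := by ring

/-- Real form of the negative correlation estimate. -/
theorem exp_perm_subset_real (T I : Finset C) :
    ((univ.filter fun π : Equiv.Perm C => ∀ u ∈ I, π u ∈ T).card : ℝ)
      ≤ (Fintype.card (Equiv.Perm C) : ℝ) * ((T.card : ℝ) / Fintype.card C) ^ I.card := by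
  classical
  rcases I.eq_empty_or_nonempty with rfl | ⟨u, hu⟩
  · simp [Finset.card_univ]
  · have hC : 0 < (Fintype.card C : ℝ) := by
      exact_mod_cast Fintype.card_pos_iff.2 ⟨u⟩
    have h := exp_perm_subset T I
    have h' : ((univ.filter fun π : Equiv.Perm C => ∀ u ∈ I, π u ∈ T).card : ℝ) *
        (Fintype.card C : ℝ) ^ I.card ≤ (Fintype.card (Equiv.Perm C) : ℝ) * (T.card : ℝ) ^ I.card := by
      exact_mod_cast h
    rw [div_pow, mul_div_assoc', le_div_iff₀ (pow_pos hC _)]
    exact h'

/-- Exponential moment of a hypergeometric count, upper side (`z = e^h - 1 ≥ 0`). -/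
theorem exp_perm_mgf (S T : Finset C) (z : ℝ) (hz : 0 ≤ z) :
    ∑ π : Equiv.Perm C, (1 + z) ^ ((S.filter fun w => π w ∈ T).card)
      ≤ (Fintype.card (Equiv.Perm C) : ℝ) * (1 + z * ((T.card : ℝ) / Fintype.card C)) ^ S.card := by
  classical
  have h1 : ∀ π : Equiv.Perm C, (1 + z) ^ ((S.filter fun w => π w ∈ T).card)
      = ∑ I ∈ S.powerset, z ^ I.card * (if ∀ u ∈ I, π u ∈ T then (1 : ℝ) else 0) := by
    intro π
    have : (1 + z) ^ ((S.filter fun w => π w ∈ T).card)
        = ∏ w ∈ S, (1 + (if π w ∈ T then z else 0)) := by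
      rw [← Finset.prod_const, Finset.prod_filter]
      refine Finset.prod_congr rfl fun w _ => ?_
      by_cases h : π w ∈ T <;> simp [h]
    rw [this, Finset.prod_one_add]
    refine Finset.sum_congr rfl fun I _ => ?_
    by_cases h : ∀ u ∈ I, π u ∈ T
    · rw [if_pos h, mul_one, ← Finset.prod_const]
      exact Finset.prod_congr rfl fun u hu => by simp [h u hu]
    · rw [if_neg h, mul_zero]
      push Not at h
      obtain ⟨u, hu, hu'⟩ := h
      exact Finset.prod_eq_zero hu (by simp [hu'])
  simp_rw [h1]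
  rw [Finset.sum_comm]
  have h2 : ∀ I ∈ S.powerset, ∑ π : Equiv.Perm C,
      z ^ I.card * (if ∀ u ∈ I, π u ∈ T then (1 : ℝ) else 0)
      ≤ (Fintype.card (Equiv.Perm C) : ℝ) * (z * ((T.card : ℝ) / Fintype.card C)) ^ I.card := by
    intro I _
    rw [← Finset.mul_sum, Finset.sum_boole, mul_pow]
    calc z ^ I.card * ((univ.filter fun π : Equiv.Perm C => ∀ u ∈ I, π u ∈ T).card : ℝ)
        ≤ z ^ I.card * ((Fintype.card (Equiv.Perm C) : ℝ) *
            ((T.card : ℝ) / Fintype.card C) ^ I.card) :=
          mul_le_mul_of_nonneg_left (exp_perm_subset_real T I) (pow_nonneg hz _)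
      _ = _ := by ring
  refine (Finset.sum_le_sum h2).trans_eq ?_
  rw [← Finset.mul_sum]
  congr 1
  rw [← Finset.prod_const, Finset.prod_one_add]
  exact Finset.sum_congr rfl fun I _ => by rw [Finset.prod_const]

end perm

section family

variable {K C : Type*} [Fintype K] [DecidableEq K] [Fintype C] [DecidableEq C]

/-- Number of pairs `(κ, w)` with `w ∈ S κ` and `σ κ w ∈ T κ`. -/
def expX (S T : K → Finset C) (σ : K → Equiv.Perm C) : ℕ :=
  ∑ κ, ((S κ).filter fun w => σ κ w ∈ T κ).card

/-- Its mean under independent uniform permutations. -/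
noncomputable def expMu (S T : K → Finset C) : ℝ :=
  ∑ κ, ((S κ).card : ℝ) * ((T κ).card : ℝ) / Fintype.card C

omit [DecidableEq K] [DecidableEq C] in
theorem expMu_nonneg (S T : K → Finset C) : 0 ≤ expMu S T :=
  Finset.sum_nonneg fun _ _ => by positivity

/-- Exponential moment for an independent family of uniform permutations. -/
theorem exp_family_mgf (S T : K → Finset C) (z : ℝ) (hz : 0 ≤ z) :
    ∑ σ : K → Equiv.Perm C, (1 + z) ^ (expX S T σ)
      ≤ (Fintype.card (K → Equiv.Perm C) : ℝ) * Real.exp (z * expMu S T) := by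
  classical
  have h1 : ∑ σ : K → Equiv.Perm C, (1 + z) ^ (expX S T σ)
      = ∏ κ, ∑ π : Equiv.Perm C, (1 + z) ^ (((S κ).filter fun w => π w ∈ T κ).card) := by
    rw [Finset.prod_univ_sum, Fintype.piFinset_univ]
    refine Finset.sum_congr rfl fun σ _ => ?_
    rw [expX, Finset.prod_pow_eq_pow_sum]
  rw [h1]
  have h2 : ∀ κ ∈ (univ : Finset K),
      ∑ π : Equiv.Perm C, (1 + z) ^ (((S κ).filter fun w => π w ∈ T κ).card)
      ≤ (Fintype.card (Equiv.Perm C) : ℝ) *
          Real.exp (z * (((S κ).card : ℝ) * ((T κ).card : ℝ) / Fintype.card C)) := by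
    intro κ _
    refine (exp_perm_mgf (S κ) (T κ) z hz).trans ?_
    refine mul_le_mul_of_nonneg_left ?_ (Nat.cast_nonneg _)
    have hx : 0 ≤ z * (((T κ).card : ℝ) / Fintype.card C) := by positivity
    calc (1 + z * (((T κ).card : ℝ) / Fintype.card C)) ^ (S κ).card
        ≤ (Real.exp (z * (((T κ).card : ℝ) / Fintype.card C))) ^ (S κ).card := by
          refine pow_le_pow_left₀ (by linarith) ?_ _
          linarith [Real.add_one_le_exp (z * (((T κ).card : ℝ) / Fintype.card C))]
      _ = Real.exp (z * (((S κ).card : ℝ) * ((T κ).card : ℝ) / Fintype.card C)) := by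
          rw [← Real.exp_nat_mul]
          congr 1
          ring
  refine (Finset.prod_le_prod (fun κ _ => Finset.sum_nonneg fun π _ => by positivity) h2).trans_eq ?_
  rw [Finset.prod_mul_distrib, ← Real.exp_sum, ← Finset.mul_sum, expMu]
  congr 1
  rw [Finset.prod_const, Finset.card_univ, Fintype.card_fun]
  push_cast
  rfl

/-- Upper tail (Chernoff form) for the number of matched internal pairs. -/
theorem exp_family_tail (S T : K → Finset C) (h : ℝ) (hh0 : 0 ≤ h) (hh1 : h ≤ 1) (lam : ℝ) :
    ((univ.filter fun σ : K → Equiv.Perm C => expMu S T + lam ≤ (expX S T σ : ℝ)).card : ℝ)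
      ≤ (Fintype.card (K → Equiv.Perm C) : ℝ) * Real.exp (-(h * lam) + expMu S T * h ^ 2) := by
  classical
  set z : ℝ := Real.exp h - 1 with hzdef
  have hz : 0 ≤ z := by
    have := Real.add_one_le_exp h
    rw [hzdef]; linarith
  have hmgf := exp_family_mgf S T z hz
  have h1z : 1 + z = Real.exp h := by rw [hzdef]; ring
  rw [h1z] at hmgf
  set F := univ.filter fun σ : K → Equiv.Perm C => expMu S T + lam ≤ (expX S T σ : ℝ) with hF
  have h2 : (F.card : ℝ) * Real.exp (h * (expMu S T + lam))
      ≤ ∑ σ : K → Equiv.Perm C, Real.exp h ^ (expX S T σ) := by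
    calc (F.card : ℝ) * Real.exp (h * (expMu S T + lam))
        = ∑ _σ ∈ F, Real.exp (h * (expMu S T + lam)) := by
          rw [Finset.sum_const, nsmul_eq_mul]
      _ ≤ ∑ σ ∈ F, Real.exp h ^ (expX S T σ) := by
          refine Finset.sum_le_sum fun σ hσ => ?_
          rw [← Real.exp_nat_mul]
          refine Real.exp_le_exp.2 ?_
          have := (Finset.mem_filter.1 hσ).2
          nlinarith
      _ ≤ ∑ σ : K → Equiv.Perm C, Real.exp h ^ (expX S T σ) :=
          Finset.sum_le_sum_of_subset_of_nonneg (Finset.subset_univ _)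
            fun σ _ _ => by positivity
  have h3 : z - h ≤ h ^ 2 := by
    have := Real.abs_exp_sub_one_sub_id_le (x := h) (by rw [abs_of_nonneg hh0]; exact hh1)
    have := (abs_le.1 this).2
    rw [hzdef]; linarith
  have hmu := expMu_nonneg S T
  have h4 : (F.card : ℝ) * Real.exp (h * (expMu S T + lam))
      ≤ (Fintype.card (K → Equiv.Perm C) : ℝ) * Real.exp (z * expMu S T) := h2.trans hmgf
  have hpos : 0 < Real.exp (h * (expMu S T + lam)) := Real.exp_pos _
  have h5 : (F.card : ℝ) ≤ (Fintype.card (K → Equiv.Perm C) : ℝ) *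
      (Real.exp (z * expMu S T) / Real.exp (h * (expMu S T + lam))) := by
    rw [mul_div_assoc', le_div_iff₀ hpos]
    exact h4
  refine h5.trans (mul_le_mul_of_nonneg_left ?_ (Nat.cast_nonneg _))
  rw [← Real.exp_sub]
  refine Real.exp_le_exp.2 ?_
  nlinarith

end family

end Claimed.Agent.R300
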