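/-
R300 shared expansion library, part X4: the cluster matching model, volumes, cuts, the identity
`vol = cut + 2 * internal`, the tail bound for one cut, locality and additivity of cuts.
Owner: helper126.

MODEL.  `V` vertices, `K` keys (complete table keys), `C` the common cluster type.  `pX pY : K × C → V`
are the two families of slot incidences.  A realisation is `σ : K → Equiv.Perm C`; the edge `(κ, w)`
joins `pY (κ, w)` and `pX (κ, σ κ w)`.
-/
import Claimed.Agent.R300.ExpMatch

set_option autoImplicit false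
set_option linter.unusedSectionVars false

namespace Claimed.Agent.R300

open Finset

variable {V K C : Type*} [DecidableEq V] [Fintype K] [Fintype C]

/-- The slots of the key `κ` whose vertex lies in `Z`. -/
def expS (p : K × C → V) (Z : Finset V) (κ : K) : Finset C := univ.filter fun w => p (κ, w) ∈ Z

/-- Degree of a vertex. -/
def expDeg (pX pY : K × C → V) (v : V) : ℕ :=
  (univ.filter fun e : K × C => pX e = v).card + (univ.filter fun e : K × C => pY e = v).card

/-- Volume of a vertex set. -/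
def expVol (pX pY : K × C → V) (Z : Finset V) : ℕ :=
  (univ.filter fun e : K × C => pX e ∈ Z).card + (univ.filter fun e : K × C => pY e ∈ Z).card

/-- Number of edges of the realisation `σ` crossing from `Z` to its complement. -/
def expCut (pX pY : K × C → V) (σ : K → Equiv.Perm C) (Z : Finset V) : ℕ :=
  (univ.filter fun e : K × C => ¬ (pX (e.1, σ e.1 e.2) ∈ Z ↔ pY e ∈ Z)).card

/-- The possible graph. -/
def expAdj (pX pY : K × C → V) (u v : V) : Prop :=
  ∃ (κ : K) (y w : C), (pX (κ, y) = u ∧ pY (κ, w) = v) ∨ (pX (κ, y) = v ∧ pY (κ, w) = u)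

/-- The keys whose support meets `Z`. -/
def expSc (pX pY : K × C → V) (Z : Finset V) : Finset K :=
  univ.filter fun κ => (expS pX Z κ).Nonempty ∨ (expS pY Z κ).Nonempty

omit [DecidableEq V] in
theorem expAdj_symm (pX pY : K × C → V) (u v : V) (h : expAdj pX pY u v) : expAdj pX pY v u := by
  obtain ⟨κ, y, w, h⟩ := h
  exact ⟨κ, y, w, h.symm⟩

omit [DecidableEq V] in
theorem exp_card_prod (P : K × C → Prop) [DecidablePred P] :
    (univ.filter P).card = ∑ κ, (univ.filter fun w => P (κ, w)).card := by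
  simp only [Finset.card_filter]
  rw [Fintype.sum_prod_type]

theorem expVol_eq_sum_key (pX pY : K × C → V) (Z : Finset V) :
    expVol pX pY Z = ∑ κ, ((expS pX Z κ).card + (expS pY Z κ).card) := by
  rw [expVol, exp_card_prod, exp_card_prod, ← Finset.sum_add_distrib]
  rfl

theorem expVol_eq_sum_deg (pX pY : K × C → V) (Z : Finset V) :
    expVol pX pY Z = ∑ v ∈ Z, expDeg pX pY v := by
  have h : ∀ p : K × C → V, (univ.filter fun e : K × C => p e ∈ Z).card
      = ∑ v ∈ Z, (univ.filter fun e : K × C => p e = v).card := by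
    intro p
    rw [Finset.card_eq_sum_card_fiberwise (f := p) (t := Z)
      (fun e he => by simpa using he)]
    refine Finset.sum_congr rfl fun v hv => ?_
    congr 1
    ext e
    simp only [Finset.mem_filter, Finset.mem_univ, true_and]
    constructor
    · exact fun h => h.2
    · exact fun h => ⟨h ▸ hv, h⟩
  rw [expVol, h pX, h pY, ← Finset.sum_add_distrib]
  rfl

theorem expVol_union (pX pY : K × C → V) (Z1 Z2 : Finset V) (h : Disjoint Z1 Z2) :
    expVol pX pY (Z1 ∪ Z2) = expVol pX pY Z1 + expVol pX pY Z2 := by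
  rw [expVol_eq_sum_deg, expVol_eq_sum_deg, expVol_eq_sum_deg, Finset.sum_union h]

theorem expVol_ge (pX pY : K × C → V) (dmin : ℕ) (hd : ∀ v, dmin ≤ expDeg pX pY v)
    (Z : Finset V) : dmin * Z.card ≤ expVol pX pY Z := by
  rw [expVol_eq_sum_deg, mul_comm, ← smul_eq_mul, ← Finset.sum_const]
  exact Finset.sum_le_sum fun v _ => hd v

variable [DecidableEq C]

theorem exp_card_perm_filter (π : Equiv.Perm C) (T : Finset C) :
    (univ.filter fun w => π w ∈ T).card = T.card := by
  refine Finset.card_bij (fun w _ => π w) ?_ ?_ ?_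
  · intro w hw; simpa using hw
  · intro a _ b _ h; exact π.injective h
  · intro b hb; exact ⟨π.symm b, by simpa using hb, by simp⟩

variable [DecidableEq K]

/-- `vol = cut + 2 * internal`. -/
theorem expVol_eq_cut (pX pY : K × C → V) (σ : K → Equiv.Perm C) (Z : Finset V) :
    expVol pX pY Z = expCut pX pY σ Z + 2 * expX (expS pY Z) (expS pX Z) σ := by
  rw [expVol_eq_sum_key, expCut, exp_card_prod, expX, Finset.mul_sum, ← Finset.sum_add_distrib]
  refine Finset.sum_congr rfl fun κ _ => ?_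
  rw [← exp_card_perm_filter (σ κ) (expS pX Z κ)]
  simp only [expS, Finset.card_filter, Finset.mem_filter, Finset.mem_univ, true_and,
    Finset.sum_filter]
  rw [← Finset.sum_add_distrib, Finset.mul_sum, ← Finset.sum_add_distrib]
  refine Finset.sum_congr rfl fun w _ => ?_
  by_cases h1 : pX (κ, σ κ w) ∈ Z <;> by_cases h2 : pY (κ, w) ∈ Z <;> simp [h1, h2]

/-- The cut of `Z` only depends on the tables whose support meets `Z`. -/
theorem expCut_dep (pX pY : K × C → V) (Z : Finset V) (σ σ' : K → Equiv.Perm C)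
    (h : ∀ κ ∈ expSc pX pY Z, σ κ = σ' κ) : expCut pX pY σ Z = expCut pX pY σ' Z := by
  rw [expCut, expCut]
  congr 1
  ext e
  simp only [Finset.mem_filter, Finset.mem_univ, true_and]
  by_cases hκ : e.1 ∈ expSc pX pY Z
  · rw [h _ hκ]
  · have h1 : ∀ c, pX (e.1, c) ∉ Z := by
      intro c hc
      exact hκ (Finset.mem_filter.2 ⟨Finset.mem_univ _, Or.inl ⟨c, by simpa [expS] using hc⟩⟩)
    simp [h1]

/-- Cuts add over unions of sets that are not joined by a possible edge. -/
theorem expCut_union (pX pY : K × C → V) (σ : K → Equiv.Perm C) (Z1 Z2 : Finset V)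
    (hd : Disjoint Z1 Z2) (hadj : ∀ u ∈ Z1, ∀ v ∈ Z2, ¬ expAdj pX pY u v) :
    expCut pX pY σ (Z1 ∪ Z2) = expCut pX pY σ Z1 + expCut pX pY σ Z2 := by
  simp only [expCut, Finset.card_filter]
  rw [← Finset.sum_add_distrib]
  refine Finset.sum_congr rfl fun e _ => ?_
  have hx : ¬ (pX (e.1, σ e.1 e.2) ∈ Z1 ∧ pX (e.1, σ e.1 e.2) ∈ Z2) :=
    fun h => Finset.disjoint_left.1 hd h.1 h.2
  have hy : ¬ (pY e ∈ Z1 ∧ pY e ∈ Z2) := fun h => Finset.disjoint_left.1 hd h.1 h.2
  have h12 : ¬ (pX (e.1, σ e.1 e.2) ∈ Z1 ∧ pY e ∈ Z2) :=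
    fun h => hadj _ h.1 _ h.2 ⟨e.1, σ e.1 e.2, e.2, Or.inl ⟨rfl, rfl⟩⟩
  have h21 : ¬ (pX (e.1, σ e.1 e.2) ∈ Z2 ∧ pY e ∈ Z1) :=
    fun h => hadj _ h.2 _ h.1 ⟨e.1, σ e.1 e.2, e.2, Or.inr ⟨rfl, rfl⟩⟩
  simp only [Finset.mem_union]
  by_cases a1 : pX (e.1, σ e.1 e.2) ∈ Z1 <;> by_cases a2 : pX (e.1, σ e.1 e.2) ∈ Z2 <;>
    by_cases b1 : pY e ∈ Z1 <;> by_cases b2 : pY e ∈ Z2 <;> simp_all

/-- **Tail for one cut.**  `hmean` is the lower bound for the expected cut. -/
theorem exp_cut_tail (pX pY : K × C → V) (Z : Finset V) (c1 γ : ℝ) (h0 : 0 ≤ γ) (hγ : γ ≤ c1)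
    (hc1 : c1 ≤ 1)
    (hmean : c1 * (expVol pX pY Z : ℝ)
      ≤ (expVol pX pY Z : ℝ) - 2 * expMu (expS pY Z) (expS pX Z)) :
    ((univ.filter fun σ : K → Equiv.Perm C =>
        (expCut pX pY σ Z : ℝ) < γ * (expVol pX pY Z : ℝ)).card : ℝ)
      ≤ (Fintype.card (K → Equiv.Perm C) : ℝ) *
          Real.exp (-((c1 - γ) ^ 2 / 8) * (expVol pX pY Z : ℝ)) := by
  classical
  set vol : ℝ := (expVol pX pY Z : ℝ) with hvol
  set μ : ℝ := expMu (expS pY Z) (expS pX Z) with hμ
  have hvol0 : 0 ≤ vol := Nat.cast_nonneg _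
  have hμ0 : 0 ≤ μ := expMu_nonneg _ _
  have hsub : (univ.filter fun σ : K → Equiv.Perm C => (expCut pX pY σ Z : ℝ) < γ * vol)
      ⊆ univ.filter fun σ : K → Equiv.Perm C =>
        μ + (c1 - γ) / 2 * vol ≤ (expX (expS pY Z) (expS pX Z) σ : ℝ) := by
    intro σ hσ
    rw [Finset.mem_filter] at hσ ⊢
    refine ⟨Finset.mem_univ _, ?_⟩
    have hid : vol = (expCut pX pY σ Z : ℝ) + 2 * (expX (expS pY Z) (expS pX Z) σ : ℝ) := by
      rw [hvol, expVol_eq_cut pX pY σ Z]; push_cast; ring
    have := hσ.2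
    nlinarith
  have htail := exp_family_tail (expS pY Z) (expS pX Z) ((c1 - γ) / 2) (by linarith)
    (by linarith) ((c1 - γ) / 2 * vol)
  refine le_trans (by exact_mod_cast Finset.card_le_card hsub) (htail.trans ?_)
  refine mul_le_mul_of_nonneg_left (Real.exp_le_exp.2 ?_) (Nat.cast_nonneg _)
  have hμle : μ ≤ vol / 2 := by nlinarith
  have hsq : 0 ≤ ((c1 - γ) / 2) ^ 2 := sq_nonneg _
  nlinarith

end Claimed.Agent.R300
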