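/-
R300 shared expansion library, part X6: the finite asymmetric (lopsided) local lemma with the
conditional bound for an additional event, and independence on finite product spaces
(counting measure).  Owner: helper126.
-/
import Mathlib

set_option autoImplicit false

namespace Claimed.Agent.R300

open Finset

open Classical in
/-- Mass of an event under a weight function on a finite type. -/
noncomputable def expMass {Ω : Type*} [Fintype Ω] (w : Ω → ℝ) (p : Ω → Prop) : ℝ :=
  ∑ ω, if p ω then w ω else 0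

/-- Avoidance of all events with index in `S`. -/
def expAvoid {Ω ι : Type*} (E : ι → Ω → Prop) (S : Finset ι) (ω : Ω) : Prop := ∀ j ∈ S, ¬ E j ω

section mass

variable {Ω : Type*} [Fintype Ω] (w : Ω → ℝ)

theorem expMass_nonneg (hw : ∀ ω, 0 ≤ w ω) (p : Ω → Prop) : 0 ≤ expMass w p := by
  classical
  unfold expMass
  exact Finset.sum_nonneg fun ω _ => by split_ifs <;> simp [hw]

theorem expMass_mono (hw : ∀ ω, 0 ≤ w ω) {p q : Ω → Prop} (h : ∀ ω, p ω → q ω) :
    expMass w p ≤ expMass w q := by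
  classical
  unfold expMass
  refine Finset.sum_le_sum fun ω _ => ?_
  by_cases hp : p ω
  · simp [hp, h ω hp]
  · by_cases hq : q ω <;> simp [hp, hq, hw]

theorem expMass_congr {p q : Ω → Prop} (h : ∀ ω, p ω ↔ q ω) : expMass w p = expMass w q := by
  have : p = q := funext fun ω => propext (h ω)
  rw [this]

theorem expMass_split (p q : Ω → Prop) :
    expMass w p = expMass w (fun ω => q ω ∧ p ω) + expMass w (fun ω => p ω ∧ ¬ q ω) := by
  classical
  unfold expMass
  rw [← Finset.sum_add_distrib]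
  refine Finset.sum_congr rfl fun ω _ => ?_
  by_cases hp : p ω <;> by_cases hq : q ω <;> simp [hp, hq]

theorem expMass_true : expMass w (fun _ => True) = ∑ ω, w ω := by
  classical
  simp [expMass]

theorem expMass_false_of (p : Ω → Prop) (h : ∀ ω, ¬ p ω) : expMass w p = 0 := by
  classical
  unfold expMass
  exact Finset.sum_eq_zero fun ω _ => by simp [h ω]

end mass

section abstract

variable {Ω ι : Type*}

theorem expAvoid_mono (E : ι → Ω → Prop) {S T : Finset ι} (h : S ⊆ T) (ω : Ω) :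
    expAvoid E T ω → expAvoid E S ω := fun hT j hj => hT j (h hj)

variable [DecidableEq ι]

theorem expAvoid_insert (E : ι → Ω → Prop) (j : ι) (S : Finset ι) (ω : Ω) :
    expAvoid E (insert j S) ω ↔ (expAvoid E S ω ∧ ¬ E j ω) := by
  unfold expAvoid
  constructor
  · intro h
    exact ⟨fun k hk => h k (Finset.mem_insert_of_mem hk), h j (Finset.mem_insert_self _ _)⟩
  · rintro ⟨h1, h2⟩ k hk
    rcases Finset.mem_insert.1 hk with rfl | hk
    · exact h2
    · exact h1 k hk

variable [Fintype Ω]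

/-- One step of the chain rule. -/
theorem exp_lll_step (w : Ω → ℝ) (E : ι → Ω → Prop) (x : ι → ℝ) (j : ι) (S : Finset ι)
    (hb : expMass w (fun ω => E j ω ∧ expAvoid E S ω) ≤ x j * expMass w (expAvoid E S)) :
    (1 - x j) * expMass w (expAvoid E S) ≤ expMass w (expAvoid E (insert j S)) := by
  have h1 := expMass_split w (expAvoid E S) (E j)
  have h2 : expMass w (expAvoid E (insert j S)) = expMass w (fun ω => expAvoid E S ω ∧ ¬ E j ω) :=
    expMass_congr w (expAvoid_insert E j S)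
  rw [h2]
  linarith

/-- Chain rule, given the conditional bound on all strict subsets of `S`. -/
theorem exp_lll_chain (w : Ω → ℝ) (E : ι → Ω → Prop) (x : ι → ℝ)
    (hx1 : ∀ i, x i < 1) (S : Finset ι)
    (ih : ∀ S' : Finset ι, S' ⊂ S → ∀ i,
      expMass w (fun ω => E i ω ∧ expAvoid E S' ω) ≤ x i * expMass w (expAvoid E S'))
    (T : Finset ι) (hT : T ⊆ S) :
    expMass w (expAvoid E (S \ T)) * ∏ j ∈ T, (1 - x j) ≤ expMass w (expAvoid E S) := by
  induction T using Finset.induction_on with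
  | empty => simp
  | insert j T' hj ihT =>
    have hjS : j ∈ S := hT (Finset.mem_insert_self _ _)
    have hT' : T' ⊆ S := fun k hk => hT (Finset.mem_insert_of_mem hk)
    have hss : S \ insert j T' ⊂ S := by
      refine Finset.ssubset_iff_subset_ne.2 ⟨Finset.sdiff_subset, fun h => ?_⟩
      have : j ∈ S \ insert j T' := by rw [h]; exact hjS
      simp at this
    have hins : insert j (S \ insert j T') = S \ T' := by
      ext k
      simp only [Finset.mem_insert, Finset.mem_sdiff, not_or]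
      constructor
      · rintro (rfl | ⟨h1, _, h3⟩)
        · exact ⟨hjS, hj⟩
        · exact ⟨h1, h3⟩
      · rintro ⟨h1, h2⟩
        by_cases hk : k = j
        · exact Or.inl hk
        · exact Or.inr ⟨h1, hk, h2⟩
    have hstep := exp_lll_step w E x j (S \ insert j T') (ih _ hss j)
    rw [hins] at hstep
    have hprod : 0 ≤ ∏ k ∈ T', (1 - x k) :=
      Finset.prod_nonneg fun k _ => by linarith [hx1 k]
    rw [Finset.prod_insert hj]
    calc expMass w (expAvoid E (S \ insert j T')) * ((1 - x j) * ∏ k ∈ T', (1 - x k))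
        = ((1 - x j) * expMass w (expAvoid E (S \ insert j T'))) * ∏ k ∈ T', (1 - x k) := by ring
      _ ≤ expMass w (expAvoid E (S \ T')) * ∏ k ∈ T', (1 - x k) :=
          mul_le_mul_of_nonneg_right hstep hprod
      _ ≤ _ := ihT hT'

/-- **Asymmetric lopsided local lemma**, conditional form. -/
theorem exp_lll_abstract (w : Ω → ℝ) (hw : ∀ ω, 0 ≤ w ω) (hw1 : 0 < ∑ ω, w ω)
    (E : ι → Ω → Prop) (nb : ι → Finset ι) (p x : ι → ℝ)
    (hx0 : ∀ i, 0 ≤ x i) (hx1 : ∀ i, x i < 1)
    (hlop : ∀ (i : ι) (S : Finset ι), i ∉ S → Disjoint S (nb i) →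
      expMass w (fun ω => E i ω ∧ expAvoid E S ω) ≤ p i * expMass w (expAvoid E S))
    (hp : ∀ i, p i ≤ x i * ∏ j ∈ nb i, (1 - x j)) (S : Finset ι) :
    0 < expMass w (expAvoid E S) ∧
      ∀ i, expMass w (fun ω => E i ω ∧ expAvoid E S ω) ≤ x i * expMass w (expAvoid E S) := by
  induction S using Finset.strongInduction with
  | H S ih =>
    have ihb : ∀ S' : Finset ι, S' ⊂ S → ∀ i,
        expMass w (fun ω => E i ω ∧ expAvoid E S' ω) ≤ x i * expMass w (expAvoid E S') :=
      fun S' h => (ih S' h).2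
    have chain := exp_lll_chain w E x hx1 S ihb
    have hpos : 0 < expMass w (expAvoid E S) := by
      have h := chain S (Finset.Subset.refl _)
      rw [Finset.sdiff_self] at h
      have h0 : expMass w (expAvoid E (∅ : Finset ι)) = ∑ ω, w ω := by
        rw [← expMass_true w]
        exact expMass_congr w fun ω => by simp [expAvoid]
      rw [h0] at h
      have hprod : 0 < ∏ j ∈ S, (1 - x j) := Finset.prod_pos fun k _ => by linarith [hx1 k]
      exact lt_of_lt_of_le (mul_pos hw1 hprod) h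
    refine ⟨hpos, fun i => ?_⟩
    by_cases hi : i ∈ S
    · rw [expMass_false_of w _ (fun ω h => h.2 i hi h.1)]
      exact mul_nonneg (hx0 i) hpos.le
    · set T := S.filter (fun j => j ∈ nb i) with hTdef
      have hTS : T ⊆ S := Finset.filter_subset _ _
      have hTnb : T ⊆ nb i := fun j hj => (Finset.mem_filter.1 hj).2
      have hdisj : Disjoint (S \ T) (nb i) := by
        rw [Finset.disjoint_left]
        intro j hj hjn
        rw [Finset.mem_sdiff] at hj
        exact hj.2 (Finset.mem_filter.2 ⟨hj.1, hjn⟩)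
      have hi' : i ∉ S \ T := fun h => hi (Finset.sdiff_subset h)
      have h1 : expMass w (fun ω => E i ω ∧ expAvoid E S ω)
          ≤ expMass w (fun ω => E i ω ∧ expAvoid E (S \ T) ω) :=
        expMass_mono w hw fun ω h => ⟨h.1, expAvoid_mono E Finset.sdiff_subset ω h.2⟩
      have h2 := hlop i (S \ T) hi' hdisj
      have hm : 0 ≤ expMass w (expAvoid E (S \ T)) := expMass_nonneg w hw _
      have h3 : ∏ j ∈ nb i, (1 - x j) ≤ ∏ j ∈ T, (1 - x j) := by
        rw [← Finset.prod_sdiff hTnb]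
        have ha : ∏ j ∈ nb i \ T, (1 - x j) ≤ 1 :=
          Finset.prod_le_one (fun j _ => by linarith [hx1 j]) (fun j _ => by linarith [hx0 j])
        have hb : 0 ≤ ∏ j ∈ T, (1 - x j) := Finset.prod_nonneg fun k _ => by linarith [hx1 k]
        nlinarith
      have h4 := chain T hTS
      calc expMass w (fun ω => E i ω ∧ expAvoid E S ω)
          ≤ p i * expMass w (expAvoid E (S \ T)) := h1.trans h2
        _ ≤ (x i * ∏ j ∈ nb i, (1 - x j)) * expMass w (expAvoid E (S \ T)) :=
            mul_le_mul_of_nonneg_right (hp i) hm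
        _ ≤ (x i * ∏ j ∈ T, (1 - x j)) * expMass w (expAvoid E (S \ T)) :=
            mul_le_mul_of_nonneg_right (mul_le_mul_of_nonneg_left h3 (hx0 i)) hm
        _ = x i * (expMass w (expAvoid E (S \ T)) * ∏ j ∈ T, (1 - x j)) := by ring
        _ ≤ x i * expMass w (expAvoid E S) := mul_le_mul_of_nonneg_left h4 (hx0 i)

/-- Chain rule for all pairs `T ⊆ S`. -/
theorem exp_lll_chain_all (w : Ω → ℝ) (hw : ∀ ω, 0 ≤ w ω) (hw1 : 0 < ∑ ω, w ω)
    (E : ι → Ω → Prop) (nb : ι → Finset ι) (p x : ι → ℝ)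
    (hx0 : ∀ i, 0 ≤ x i) (hx1 : ∀ i, x i < 1)
    (hlop : ∀ (i : ι) (S : Finset ι), i ∉ S → Disjoint S (nb i) →
      expMass w (fun ω => E i ω ∧ expAvoid E S ω) ≤ p i * expMass w (expAvoid E S))
    (hp : ∀ i, p i ≤ x i * ∏ j ∈ nb i, (1 - x j)) (S T : Finset ι) (hT : T ⊆ S) :
    expMass w (expAvoid E (S \ T)) * ∏ j ∈ T, (1 - x j) ≤ expMass w (expAvoid E S) :=
  exp_lll_chain w E x hx1 S
    (fun S' _ => (exp_lll_abstract w hw hw1 E nb p x hx0 hx1 hlop hp S').2) T hT

/-- Conditional bound for an additional event `F` (Haeupler--Saha--Srinivasan). -/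
theorem exp_lll_extra (w : Ω → ℝ) (hw : ∀ ω, 0 ≤ w ω) (hw1 : 0 < ∑ ω, w ω)
    (E : ι → Ω → Prop) (nb : ι → Finset ι) (p x : ι → ℝ)
    (hx0 : ∀ i, 0 ≤ x i) (hx1 : ∀ i, x i < 1)
    (hlop : ∀ (i : ι) (S : Finset ι), i ∉ S → Disjoint S (nb i) →
      expMass w (fun ω => E i ω ∧ expAvoid E S ω) ≤ p i * expMass w (expAvoid E S))
    (hp : ∀ i, p i ≤ x i * ∏ j ∈ nb i, (1 - x j))
    (F : Ω → Prop) (nbF : Finset ι) (pF : ℝ) (hpF : 0 ≤ pF)
    (hF : ∀ S : Finset ι, Disjoint S nbF →
      expMass w (fun ω => F ω ∧ expAvoid E S ω) ≤ pF * expMass w (expAvoid E S)) (S : Finset ι) :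
    expMass w (fun ω => F ω ∧ expAvoid E S ω) * ∏ j ∈ S.filter (fun j => j ∈ nbF), (1 - x j)
      ≤ pF * expMass w (expAvoid E S) := by
  set T := S.filter (fun j => j ∈ nbF) with hTdef
  have hTS : T ⊆ S := Finset.filter_subset _ _
  have hdisj : Disjoint (S \ T) nbF := by
    rw [Finset.disjoint_left]
    intro j hj hjn
    rw [Finset.mem_sdiff] at hj
    exact hj.2 (Finset.mem_filter.2 ⟨hj.1, hjn⟩)
  have h1 : expMass w (fun ω => F ω ∧ expAvoid E S ω)
      ≤ expMass w (fun ω => F ω ∧ expAvoid E (S \ T) ω) :=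
    expMass_mono w hw fun ω h => ⟨h.1, expAvoid_mono E Finset.sdiff_subset ω h.2⟩
  have h2 := hF (S \ T) hdisj
  have h4 := exp_lll_chain_all w hw hw1 E nb p x hx0 hx1 hlop hp S T hTS
  have hprod : 0 ≤ ∏ k ∈ T, (1 - x k) := Finset.prod_nonneg fun k _ => by linarith [hx1 k]
  calc expMass w (fun ω => F ω ∧ expAvoid E S ω) * ∏ j ∈ T, (1 - x j)
      ≤ (pF * expMass w (expAvoid E (S \ T))) * ∏ j ∈ T, (1 - x j) :=
        mul_le_mul_of_nonneg_right (h1.trans h2) hprod
    _ = pF * (expMass w (expAvoid E (S \ T)) * ∏ j ∈ T, (1 - x j)) := by ring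
    _ ≤ pF * expMass w (expAvoid E S) := mul_le_mul_of_nonneg_left h4 hpF

end abstract

section product

variable {K : Type*} [DecidableEq K] {Ωk : K → Type*}

/-- Take the coordinates in `s` from `ω` and the others from `ω'`. -/
def expMix (s : Finset K) (ω ω' : ∀ κ, Ωk κ) : ∀ κ, Ωk κ := fun κ => if κ ∈ s then ω κ else ω' κ

theorem expMix_mix (s : Finset K) (ω ω' : ∀ κ, Ωk κ) :
    expMix s (expMix s ω ω') (expMix s ω' ω) = ω := by
  funext κ
  by_cases h : κ ∈ s <;> simp [expMix, h]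

/-- The swap involution on pairs of configurations. -/
def expSwap (s : Finset K) (z : (∀ κ, Ωk κ) × (∀ κ, Ωk κ)) : (∀ κ, Ωk κ) × (∀ κ, Ωk κ) :=
  (expMix s z.1 z.2, expMix s z.2 z.1)

theorem expSwap_invol (s : Finset K) : Function.Involutive (expSwap (Ωk := Ωk) s) := by
  intro z
  simp only [expSwap, expMix_mix]

variable [Fintype K] [∀ κ, Fintype (Ωk κ)]

/-- Number of configurations satisfying `p`, as a real number. -/
noncomputable def expCnt (p : (∀ κ, Ωk κ) → Prop) : ℝ := expMass (fun _ => (1 : ℝ)) p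

/-- Independence on a finite product space (counting form). -/
theorem expCnt_indep (p q : (∀ κ, Ωk κ) → Prop) (s : Finset K)
    (hp : ∀ ω ω' : ∀ κ, Ωk κ, (∀ κ ∈ s, ω κ = ω' κ) → (p ω ↔ p ω'))
    (hq : ∀ ω ω' : ∀ κ, Ωk κ, (∀ κ, κ ∉ s → ω κ = ω' κ) → (q ω ↔ q ω')) :
    expCnt (fun ω => p ω ∧ q ω) * (Fintype.card (∀ κ, Ωk κ) : ℝ) = expCnt p * expCnt q := by
  classical
  unfold expCnt expMass
  set G : (∀ κ, Ωk κ) → ℝ := fun ω => if (p ω ∧ q ω) then (1 : ℝ) else 0 with hG
  rw [Finset.sum_mul_sum, ← Finset.sum_product', Finset.univ_product_univ]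
  have h1 : ∀ z : (∀ κ, Ωk κ) × (∀ κ, Ωk κ),
      (if p z.1 then (1 : ℝ) else 0) * (if q z.2 then (1 : ℝ) else 0) = G (expSwap s z).1 := by
    intro z
    have hp' : p (expSwap s z).1 ↔ p z.1 := hp _ _ fun κ hκ => by simp [expSwap, expMix, hκ]
    have hq' : q (expSwap s z).1 ↔ q z.2 := hq _ _ fun κ hκ => by simp [expSwap, expMix, hκ]
    simp only [hG, hp', hq']
    by_cases h1 : p z.1 <;> by_cases h2 : q z.2 <;> simp [h1, h2]
  rw [Finset.sum_congr rfl fun z _ => h1 z]
  have h2 := Equiv.sum_comp ((expSwap_invol (Ωk := Ωk) s).toPerm)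
    (fun z : (∀ κ, Ωk κ) × (∀ κ, Ωk κ) => G z.1)
  simp only [Function.Involutive.coe_toPerm] at h2
  rw [h2, ← Finset.univ_product_univ, Finset.sum_product]
  simp only [Finset.sum_const, Finset.card_univ, nsmul_eq_mul]
  rw [← Finset.mul_sum, mul_comm]

variable {ι : Type*} [Fintype ι] [DecidableEq ι]

/-- Neighbours in the product setting: other events whose scopes meet the scope of `i`. -/
def expNb (sc : ι → Finset K) (i : ι) : Finset ι :=
  univ.filter fun j => j ≠ i ∧ ¬ Disjoint (sc j) (sc i)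

/-- Events whose scope meets the coordinate set `s`. -/
def expTouch (sc : ι → Finset K) (s : Finset K) : Finset ι :=
  univ.filter fun j => ¬ Disjoint (sc j) s

omit [DecidableEq K] [Fintype K] [(κ : K) → Fintype (Ωk κ)] [Fintype ι] [DecidableEq ι] in
theorem expAvoid_dep (E : ι → (∀ κ, Ωk κ) → Prop) (sc : ι → Finset K)
    (hdep : ∀ i (ω ω' : ∀ κ, Ωk κ), (∀ κ ∈ sc i, ω κ = ω' κ) → (E i ω ↔ E i ω'))
    (s : Finset K) (S : Finset ι) (hS : ∀ j ∈ S, Disjoint (sc j) s)
    (ω ω' : ∀ κ, Ωk κ) (h : ∀ κ, κ ∉ s → ω κ = ω' κ) :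
    expAvoid E S ω ↔ expAvoid E S ω' := by
  unfold expAvoid
  refine forall₂_congr fun j hj => ?_
  rw [hdep j ω ω' fun κ hκ => h κ (Finset.disjoint_left.1 (hS j hj) hκ)]

/-- Independent coordinates satisfy the lopsided hypothesis. -/
theorem exp_lll_product_hlop (E : ι → (∀ κ, Ωk κ) → Prop) (sc : ι → Finset K)
    (hdep : ∀ i (ω ω' : ∀ κ, Ωk κ), (∀ κ ∈ sc i, ω κ = ω' κ) → (E i ω ↔ E i ω'))
    (F : (∀ κ, Ωk κ) → Prop) (s : Finset K)
    (hF : ∀ (ω ω' : ∀ κ, Ωk κ), (∀ κ ∈ s, ω κ = ω' κ) → (F ω ↔ F ω'))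
    (S : Finset ι) (hS : ∀ j ∈ S, Disjoint (sc j) s) :
    expCnt (fun ω => F ω ∧ expAvoid E S ω) * (Fintype.card (∀ κ, Ωk κ) : ℝ)
      = expCnt F * expCnt (expAvoid E S) :=
  expCnt_indep F (expAvoid E S) s hF (expAvoid_dep E sc hdep s S hS)

/-- **Local lemma on a finite product space** (counting measure), with the conditional bound for
an additional event `F` depending only on the coordinates in `sF`. -/
theorem exp_lll_product [Nonempty (∀ κ, Ωk κ)] (E : ι → (∀ κ, Ωk κ) → Prop) (sc : ι → Finset K)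
    (hdep : ∀ i (ω ω' : ∀ κ, Ωk κ), (∀ κ ∈ sc i, ω κ = ω' κ) → (E i ω ↔ E i ω'))
    (x : ι → ℝ) (hx0 : ∀ i, 0 ≤ x i) (hx1 : ∀ i, x i < 1)
    (hp : ∀ i, expCnt (E i) ≤ (x i * ∏ j ∈ expNb sc i, (1 - x j)) *
      (Fintype.card (∀ κ, Ωk κ) : ℝ)) :
    0 < expCnt (expAvoid E univ) ∧
    ∀ (F : (∀ κ, Ωk κ) → Prop) (sF : Finset K),
      (∀ (ω ω' : ∀ κ, Ωk κ), (∀ κ ∈ sF, ω κ = ω' κ) → (F ω ↔ F ω')) →
      expCnt (fun ω => F ω ∧ expAvoid E univ ω) * (∏ j ∈ expTouch sc sF, (1 - x j)) *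
        (Fintype.card (∀ κ, Ωk κ) : ℝ) ≤ expCnt F * expCnt (expAvoid E univ) := by
  classical
  set N : ℝ := (Fintype.card (∀ κ, Ωk κ) : ℝ) with hN
  have hNpos : 0 < N := by
    rw [hN]; exact_mod_cast Fintype.card_pos
  have hw : ∀ ω : (∀ κ, Ωk κ), (0 : ℝ) ≤ (fun _ => (1 : ℝ)) ω := fun _ => zero_le_one
  have hw1 : (0 : ℝ) < ∑ _ω : (∀ κ, Ωk κ), (1 : ℝ) := by
    simp only [Finset.sum_const, Finset.card_univ, nsmul_eq_mul, mul_one]
    exact hNpos
  have hlop : ∀ (i : ι) (S : Finset ι), i ∉ S → Disjoint S (expNb sc i) →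
      expMass (fun _ => (1 : ℝ)) (fun ω => E i ω ∧ expAvoid E S ω)
        ≤ (expCnt (E i) / N) * expMass (fun _ => (1 : ℝ)) (expAvoid E S) := by
    intro i S hi hS
    have hS' : ∀ j ∈ S, Disjoint (sc j) (sc i) := by
      intro j hj
      by_contra hcon
      have : j ∈ expNb sc i :=
        Finset.mem_filter.2 ⟨Finset.mem_univ _, fun h => hi (h ▸ hj), hcon⟩
      exact Finset.disjoint_left.1 hS hj this
    have h := exp_lll_product_hlop E sc hdep (E i) (sc i) (hdep i) S hS'
    have h' : expCnt (fun ω => E i ω ∧ expAvoid E S ω)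
        = (expCnt (E i) / N) * expCnt (expAvoid E S) := by
      field_simp
      linarith
    exact h'.le
  have hp' : ∀ i, expCnt (E i) / N ≤ x i * ∏ j ∈ expNb sc i, (1 - x j) := by
    intro i
    rw [div_le_iff₀ hNpos]
    exact hp i
  refine ⟨(exp_lll_abstract _ hw hw1 E (expNb sc) _ x hx0 hx1 hlop hp' univ).1, ?_⟩
  intro F sF hF
  have hFF : ∀ S : Finset ι, Disjoint S (expTouch sc sF) →
      expMass (fun _ => (1 : ℝ)) (fun ω => F ω ∧ expAvoid E S ω)
        ≤ (expCnt F / N) * expMass (fun _ => (1 : ℝ)) (expAvoid E S) := by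
    intro S hS
    have hS' : ∀ j ∈ S, Disjoint (sc j) sF := by
      intro j hj
      by_contra hcon
      have : j ∈ expTouch sc sF := Finset.mem_filter.2 ⟨Finset.mem_univ _, hcon⟩
      exact Finset.disjoint_left.1 hS hj this
    have h := exp_lll_product_hlop E sc hdep F sF hF S hS'
    have h' : expCnt (fun ω => F ω ∧ expAvoid E S ω)
        = (expCnt F / N) * expCnt (expAvoid E S) := by
      field_simp
      linarith
    exact h'.le
  have hpF : 0 ≤ expCnt F / N := div_nonneg (expMass_nonneg _ hw _) hNpos.le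
  have h := exp_lll_extra _ hw hw1 E (expNb sc) _ x hx0 hx1 hlop hp' F (expTouch sc sF) _ hpF hFF univ
  have hfil : (univ : Finset ι).filter (fun j => j ∈ expTouch sc sF) = expTouch sc sF := by
    ext j; simp
  rw [hfil] at h
  have h2 : expCnt (fun ω => F ω ∧ expAvoid E univ ω) * (∏ j ∈ expTouch sc sF, (1 - x j))
      ≤ expCnt F / N * expCnt (expAvoid E univ) := h
  calc expCnt (fun ω => F ω ∧ expAvoid E univ ω) * (∏ j ∈ expTouch sc sF, (1 - x j)) * N
      ≤ (expCnt F / N * expCnt (expAvoid E univ)) * N := mul_le_mul_of_nonneg_right h2 hNpos.le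
    _ = expCnt F * expCnt (expAvoid E univ) := by field_simp

end product

end Claimed.Agent.R300
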