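/-
R300 shared expansion library, parts X7, X8: selection of the tables by the local lemma over
connected cuts, and the conditioning (inflation) bound for events depending on few tables.
Owner: helper126.
-/
import Claimed.Agent.R300.ExpCut
import Claimed.Agent.R300.ExpConn
import Claimed.Agent.R300.ExpLLL

set_option autoImplicit false
set_option linter.unusedSectionVars false

namespace Claimed.Agent.R300

open Finset

/-- Sums of nonnegative terms over a `biUnion`. -/
theorem exp_sum_biUnion_le {ι β : Type*} [DecidableEq β] (s : Finset ι) (t : ι → Finset β)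
    (f : β → ℝ) (hf : ∀ b, 0 ≤ f b) :
    ∑ b ∈ s.biUnion t, f b ≤ ∑ i ∈ s, ∑ b ∈ t i, f b := by
  classical
  induction s using Finset.induction_on with
  | empty => simp
  | insert i s hi ih =>
    rw [Finset.biUnion_insert, Finset.sum_insert hi]
    have h1 := Finset.sum_union_inter (s₁ := t i) (s₂ := s.biUnion t) (f := f)
    have h2 : 0 ≤ ∑ b ∈ t i ∩ s.biUnion t, f b := Finset.sum_nonneg fun b _ => hf b
    linarith

theorem exp_one_sub_ge (x : ℝ) (h0 : 0 ≤ x) (h1 : x ≤ 1 / 2) : Real.exp (-(2 * x)) ≤ 1 - x := by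
  have h2 : 1 + 2 * x ≤ Real.exp (2 * x) := by linarith [Real.add_one_le_exp (2 * x)]
  rw [Real.exp_neg]
  have hpos : 0 < 1 + 2 * x := by linarith
  calc (Real.exp (2 * x))⁻¹ ≤ (1 + 2 * x)⁻¹ := inv_anti₀ hpos h2
    _ ≤ 1 - x := by
      rw [inv_le_iff_one_le_mul₀ hpos]
      nlinarith

theorem exp_prod_one_sub_ge {ι : Type*} (S : Finset ι) (x : ι → ℝ) (h0 : ∀ i, 0 ≤ x i)
    (h1 : ∀ i, x i ≤ 1 / 2) : Real.exp (-(2 * ∑ i ∈ S, x i)) ≤ ∏ i ∈ S, (1 - x i) := by
  rw [Finset.mul_sum, ← Finset.sum_neg_distrib, Real.exp_sum]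
  exact Finset.prod_le_prod (fun i _ => (Real.exp_pos _).le)
    fun i _ => exp_one_sub_ge (x i) (h0 i) (h1 i)

variable {V K C : Type*} [Fintype V] [DecidableEq V] [Fintype K] [DecidableEq K]
  [Fintype C] [DecidableEq C]

/-- The exponent used for the weights of the local lemma. -/
noncomputable def expA (c1 γ : ℝ) (dmin : ℕ) : ℝ := (c1 - γ) ^ 2 / 16 * dmin

/-- Hypotheses of the selection theorem. -/
structure ExpHyp (pX pY : K × C → V) (dmin Dmax : ℕ) (c1 γ : ℝ) : Prop where
  hdmin : ∀ v, dmin ≤ expDeg pX pY v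
  hDmax : ∀ v, expDeg pX pY v ≤ Dmax
  h0 : 0 ≤ γ
  hγ : γ ≤ c1
  hc1 : c1 ≤ 1
  hmean : ∀ Z : Finset V, expVol pX pY Z ≤ Fintype.card K * Fintype.card C →
    c1 * (expVol pX pY Z : ℝ) ≤ (expVol pX pY Z : ℝ) - 2 * expMu (expS pY Z) (expS pX Z)
  ha : 4 ≤ expA c1 γ dmin
  hρ : ((Dmax * Fintype.card C : ℕ) : ℝ) ^ 2 * Real.exp (-(expA c1 γ dmin)) ≤ 1 / 2

/-- All cuts of at most half the volume expand. -/
def expGood (pX pY : K × C → V) (γ : ℝ) (σ : K → Equiv.Perm C) : Prop :=
  ∀ Z : Finset V, expVol pX pY Z ≤ Fintype.card K * Fintype.card C →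
    γ * (expVol pX pY Z : ℝ) ≤ (expCut pX pY σ Z : ℝ)

/-- The index sets of the bad events. -/
def expRel (pX pY : K × C → V) (Z : Finset V) : Prop :=
  expConn (expAdj pX pY) Z ∧ expVol pX pY Z ≤ Fintype.card K * Fintype.card C

/-- The bad events. -/
def expBad (pX pY : K × C → V) (γ : ℝ) (Z : Finset V) (σ : K → Equiv.Perm C) : Prop :=
  expRel pX pY Z ∧ (expCut pX pY σ Z : ℝ) < γ * (expVol pX pY Z : ℝ)

/-- Vertices in the support of a key. -/
def expSupp (pX pY : K × C → V) (κ : K) : Finset V :=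
  (univ.image fun c => pX (κ, c)) ∪ (univ.image fun c => pY (κ, c))

theorem expSupp_card_le (pX pY : K × C → V) (κ : K) :
    (expSupp pX pY κ).card ≤ 2 * Fintype.card C := by
  refine (Finset.card_union_le _ _).trans ?_
  have h1 : (univ.image fun c => pX (κ, c)).card ≤ Fintype.card C := Finset.card_image_le
  have h2 : (univ.image fun c => pY (κ, c)).card ≤ Fintype.card C := Finset.card_image_le
  omega

theorem mem_expSc_iff (pX pY : K × C → V) (Z : Finset V) (κ : K) :
    κ ∈ expSc pX pY Z ↔ ∃ z ∈ Z, z ∈ expSupp pX pY κ := by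
  simp only [expSc, expS, expSupp, Finset.mem_filter, Finset.mem_univ, true_and, Finset.mem_union,
    Finset.mem_image, Finset.Nonempty]
  constructor
  · rintro (⟨c, hc⟩ | ⟨c, hc⟩)
    · exact ⟨_, hc, Or.inl ⟨c, rfl⟩⟩
    · exact ⟨_, hc, Or.inr ⟨c, rfl⟩⟩
  · rintro ⟨z, hz, (⟨c, rfl⟩ | ⟨c, rfl⟩)⟩
    · exact Or.inl ⟨c, hz⟩
    · exact Or.inr ⟨c, hz⟩

/-- The number of keys whose support contains a given vertex is at most its degree. -/
theorem exp_keysAt_card_le (pX pY : K × C → V) (z : V) :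
    (univ.filter fun κ => z ∈ expSupp pX pY κ).card ≤ expDeg pX pY z := by
  have hsub : (univ.filter fun κ => z ∈ expSupp pX pY κ)
      ⊆ ((univ.filter fun e : K × C => pX e = z).image Prod.fst) ∪
        ((univ.filter fun e : K × C => pY e = z).image Prod.fst) := by
    intro κ hκ
    simp only [expSupp, Finset.mem_filter, Finset.mem_univ, true_and, Finset.mem_union,
      Finset.mem_image] at hκ
    simp only [Finset.mem_union, Finset.mem_image, Finset.mem_filter, Finset.mem_univ, true_and]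
    rcases hκ with ⟨c, hc⟩ | ⟨c, hc⟩
    · exact Or.inl ⟨(κ, c), hc, rfl⟩
    · exact Or.inr ⟨(κ, c), hc, rfl⟩
  refine (Finset.card_le_card hsub).trans ((Finset.card_union_le _ _).trans ?_)
  exact Nat.add_le_add Finset.card_image_le Finset.card_image_le

theorem expSc_card_le (pX pY : K × C → V) (Dmax : ℕ) (hD : ∀ v, expDeg pX pY v ≤ Dmax)
    (Z : Finset V) : (expSc pX pY Z).card ≤ Z.card * Dmax := by
  have hsub : expSc pX pY Z ⊆ Z.biUnion fun z => univ.filter fun κ => z ∈ expSupp pX pY κ := by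
    intro κ hκ
    obtain ⟨z, hz, hz'⟩ := (mem_expSc_iff pX pY Z κ).1 hκ
    exact Finset.mem_biUnion.2 ⟨z, hz, by simpa using hz'⟩
  refine (Finset.card_le_card hsub).trans ?_
  exact Finset.card_biUnion_le_card_mul _ _ _
    fun z _ => (exp_keysAt_card_le pX pY z).trans (hD z)

/-- Degree bound for the possible graph. -/
theorem expNbrs_card_le (pX pY : K × C → V) (Dmax : ℕ) (hD : ∀ v, expDeg pX pY v ≤ Dmax) (v : V) :
    (expNbrs (expAdj pX pY) v).card ≤ Dmax * Fintype.card C := by
  classical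
  have hsub : expNbrs (expAdj pX pY) v
      ⊆ ((univ.filter fun e : K × C => pX e = v).biUnion fun e => univ.image fun w => pY (e.1, w)) ∪
        ((univ.filter fun e : K × C => pY e = v).biUnion fun e => univ.image fun y => pX (e.1, y)) := by
    intro u hu
    have hu' : expAdj pX pY v u := by simpa [expNbrs] using hu
    obtain ⟨κ, y, w, h | h⟩ := hu'
    · refine Finset.mem_union_left _ (Finset.mem_biUnion.2 ⟨(κ, y), by simpa using h.1, ?_⟩)
      exact Finset.mem_image.2 ⟨w, Finset.mem_univ _, h.2⟩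
    · refine Finset.mem_union_right _ (Finset.mem_biUnion.2 ⟨(κ, w), by simpa using h.2, ?_⟩)
      exact Finset.mem_image.2 ⟨y, Finset.mem_univ _, h.1⟩
  refine (Finset.card_le_card hsub).trans ((Finset.card_union_le _ _).trans ?_)
  have h1 := Finset.card_biUnion_le_card_mul (univ.filter fun e : K × C => pX e = v)
    (fun e => univ.image fun w => pY (e.1, w)) (Fintype.card C) fun e _ => Finset.card_image_le
  have h2 := Finset.card_biUnion_le_card_mul (univ.filter fun e : K × C => pY e = v)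
    (fun e => univ.image fun y => pX (e.1, y)) (Fintype.card C) fun e _ => Finset.card_image_le
  calc _ ≤ (univ.filter fun e : K × C => pX e = v).card * Fintype.card C +
        (univ.filter fun e : K × C => pY e = v).card * Fintype.card C := Nat.add_le_add h1 h2
    _ = expDeg pX pY v * Fintype.card C := by rw [expDeg]; ring
    _ ≤ Dmax * Fintype.card C := Nat.mul_le_mul_right _ (hD v)

/-- Reduction of all cuts to connected cuts. -/
theorem expGood_of_avoid (pX pY : K × C → V) (γ : ℝ) (σ : K → Equiv.Perm C)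
    (h : ∀ Z : Finset V, ¬ expBad pX pY γ Z σ) : expGood pX pY γ σ := by
  classical
  intro Z
  induction Z using Finset.strongInduction with
  | H Z ih =>
    intro hvol
    rcases Z.eq_empty_or_nonempty with rfl | hne
    · simp [expVol, expCut]
    by_cases hconn : expConn (expAdj pX pY) Z
    · have := h Z
      unfold expBad at this
      push Not at this
      exact this ⟨hconn, hvol⟩
    · unfold expConn at hconn
      push Not at hconn
      obtain ⟨Z1, hZ1, hne1, hne2, hno⟩ := hconn hne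
      have hunion : Z1 ∪ (Z \ Z1) = Z := Finset.union_sdiff_of_subset hZ1
      have hdisj : Disjoint Z1 (Z \ Z1) := Finset.disjoint_sdiff
      have hv := expVol_union pX pY Z1 (Z \ Z1) hdisj
      have hc := expCut_union pX pY σ Z1 (Z \ Z1) hdisj hno
      rw [hunion] at hv hc
      have hss1 : Z1 ⊂ Z := Finset.ssubset_iff_subset_ne.2 ⟨hZ1, hne2⟩
      have hss2 : Z \ Z1 ⊂ Z := by
        refine Finset.ssubset_iff_subset_ne.2 ⟨Finset.sdiff_subset, fun heq => ?_⟩
        obtain ⟨u, hu⟩ := hne1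
        have : u ∈ Z \ Z1 := by rw [heq]; exact hZ1 hu
        exact (Finset.mem_sdiff.1 this).2 hu
      have i1 := ih Z1 hss1 (by omega)
      have i2 := ih (Z \ Z1) hss2 (by omega)
      rw [hv, hc]
      push_cast
      linarith

theorem expGood_iff_avoid (pX pY : K × C → V) (γ : ℝ) (σ : K → Equiv.Perm C) :
    expGood pX pY γ σ ↔ expAvoid (expBad pX pY γ) univ σ := by
  constructor
  · intro h Z _ hbad
    exact absurd (h Z hbad.1.2) (not_le.2 hbad.2)
  · intro h
    exact expGood_of_avoid pX pY γ σ fun Z => h Z (Finset.mem_univ _)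

open Classical in
/-- The weights of the local lemma. -/
noncomputable def expWt (pX pY : K × C → V) (a : ℝ) (Z : Finset V) : ℝ :=
  if expRel pX pY Z then Real.exp (-a * Z.card) else 0

theorem expWt_nonneg (pX pY : K × C → V) (a : ℝ) (Z : Finset V) : 0 ≤ expWt pX pY a Z := by
  unfold expWt
  split_ifs
  · exact (Real.exp_pos _).le
  · exact le_rfl

theorem exp_neg_le_fifth (a : ℝ) (ha : 4 ≤ a) : Real.exp (-a) ≤ 1 / 5 := by
  rw [Real.exp_neg, one_div]
  exact inv_anti₀ (by norm_num) (by linarith [Real.add_one_le_exp a])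

theorem expWt_le_half (pX pY : K × C → V) (a : ℝ) (ha : 4 ≤ a) (Z : Finset V) :
    expWt pX pY a Z ≤ 1 / 2 := by
  unfold expWt
  split_ifs with h
  · have hc : (1 : ℝ) ≤ Z.card := by exact_mod_cast Finset.card_pos.2 h.1.1
    have h1 : Real.exp (-a * Z.card) ≤ Real.exp (-a) := Real.exp_le_exp.2 (by nlinarith)
    linarith [exp_neg_le_fifth a ha]
  · norm_num

open Classical in
/-- Total weight of the bad events through a vertex. -/
theorem expWt_sum_vertex (pX pY : K × C → V) (Dmax : ℕ) (hD : ∀ v, expDeg pX pY v ≤ Dmax) (a : ℝ)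
    (hρ : ((Dmax * Fintype.card C : ℕ) : ℝ) ^ 2 * Real.exp (-a) ≤ 1 / 2) (z : V) :
    ∑ Z ∈ univ.filter (fun Z : Finset V => z ∈ Z), expWt pX pY a Z ≤ 2 * Real.exp (-a) := by
  have h := expConn_sum_le (expAdj pX pY) (expAdj_symm pX pY) (Dmax * Fintype.card C)
    (expNbrs_card_le pX pY Dmax hD) z a hρ
  refine le_trans ?_ h
  unfold expWt
  rw [← Finset.sum_filter, Finset.filter_filter]
  refine Finset.sum_le_sum_of_subset_of_nonneg ?_ fun Z _ _ => (Real.exp_pos _).le
  intro Z hZ
  simp only [Finset.mem_filter, Finset.mem_univ, true_and] at hZ ⊢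
  exact ⟨hZ.2.1, hZ.1⟩

/-- Total weight of the bad events touching a set of keys. -/
theorem expWt_sum_touch (pX pY : K × C → V) (Dmax : ℕ) (hD : ∀ v, expDeg pX pY v ≤ Dmax) (a : ℝ)
    (hρ : ((Dmax * Fintype.card C : ℕ) : ℝ) ^ 2 * Real.exp (-a) ≤ 1 / 2) (s : Finset K) :
    ∑ Z ∈ expTouch (expSc pX pY) s, expWt pX pY a Z
      ≤ (s.card : ℝ) * (4 * Fintype.card C * Real.exp (-a)) := by
  classical
  have hsub : expTouch (expSc pX pY) s ⊆ s.biUnion fun κ => (expSupp pX pY κ).biUnion fun z =>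
      univ.filter (fun Z : Finset V => z ∈ Z) := by
    intro Z hZ
    have hZ' : ¬ Disjoint (expSc pX pY Z) s := by simpa [expTouch] using hZ
    rw [Finset.not_disjoint_iff] at hZ'
    obtain ⟨κ, hκ1, hκ2⟩ := hZ'
    obtain ⟨z, hz, hz'⟩ := (mem_expSc_iff pX pY Z κ).1 hκ1
    exact Finset.mem_biUnion.2 ⟨κ, hκ2, Finset.mem_biUnion.2 ⟨z, hz', by simpa using hz⟩⟩
  have hnn := expWt_nonneg pX pY a
  calc ∑ Z ∈ expTouch (expSc pX pY) s, expWt pX pY a Z
      ≤ ∑ Z ∈ s.biUnion fun κ => (expSupp pX pY κ).biUnion fun z =>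
          univ.filter (fun Z : Finset V => z ∈ Z), expWt pX pY a Z :=
        Finset.sum_le_sum_of_subset_of_nonneg hsub fun Z _ _ => hnn Z
    _ ≤ ∑ κ ∈ s, ∑ Z ∈ (expSupp pX pY κ).biUnion fun z =>
          univ.filter (fun Z : Finset V => z ∈ Z), expWt pX pY a Z :=
        exp_sum_biUnion_le _ _ _ hnn
    _ ≤ ∑ κ ∈ s, ∑ z ∈ expSupp pX pY κ, ∑ Z ∈ univ.filter (fun Z : Finset V => z ∈ Z),
          expWt pX pY a Z :=
        Finset.sum_le_sum fun κ _ => exp_sum_biUnion_le _ _ _ hnn
    _ ≤ ∑ κ ∈ s, ∑ _z ∈ expSupp pX pY κ, 2 * Real.exp (-a) :=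
        Finset.sum_le_sum fun κ _ => Finset.sum_le_sum fun z _ =>
          expWt_sum_vertex pX pY Dmax hD a hρ z
    _ = ∑ κ ∈ s, ((expSupp pX pY κ).card : ℝ) * (2 * Real.exp (-a)) := by
        simp only [Finset.sum_const, nsmul_eq_mul]
    _ ≤ ∑ _κ ∈ s, (4 * Fintype.card C * Real.exp (-a)) := by
        refine Finset.sum_le_sum fun κ _ => ?_
        have h1 : ((expSupp pX pY κ).card : ℝ) ≤ 2 * Fintype.card C := by
          exact_mod_cast expSupp_card_le pX pY κ
        have h2 := Real.exp_pos (-a)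
        nlinarith
    _ = _ := by simp only [Finset.sum_const, nsmul_eq_mul]

open Classical in
theorem expCnt_eq_card {Ωk : K → Type*} [∀ κ, Fintype (Ωk κ)] (p : (∀ κ, Ωk κ) → Prop) :
    expCnt p = ((univ.filter p).card : ℝ) := by
  unfold expCnt expMass
  rw [Finset.sum_boole]

theorem expBad_dep (pX pY : K × C → V) (γ : ℝ) (Z : Finset V) (σ σ' : K → Equiv.Perm C)
    (h : ∀ κ ∈ expSc pX pY Z, σ κ = σ' κ) : expBad pX pY γ Z σ ↔ expBad pX pY γ Z σ' := by
  unfold expBad
  rw [expCut_dep pX pY Z σ σ' h]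

/-- The criterion of the local lemma. -/
theorem exp_criterion (pX pY : K × C → V) (dmin Dmax : ℕ) (c1 γ : ℝ)
    (H : ExpHyp pX pY dmin Dmax c1 γ) (Z : Finset V) :
    expCnt (expBad pX pY γ Z) ≤ (expWt pX pY (expA c1 γ dmin) Z *
      ∏ Z' ∈ expNb (expSc pX pY) Z, (1 - expWt pX pY (expA c1 γ dmin) Z')) *
        (Fintype.card (K → Equiv.Perm C) : ℝ) := by
  classical
  set a := expA c1 γ dmin with ha
  by_cases hrel : expRel pX pY Z
  swap
  · have h0 : expCnt (expBad pX pY γ Z) = 0 :=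
      expMass_false_of _ _ fun σ h => hrel h.1
    rw [h0]
    have : expWt pX pY a Z = 0 := by simp [expWt, hrel]
    rw [this]; simp
  · have hN : (0 : ℝ) ≤ (Fintype.card (K → Equiv.Perm C) : ℝ) := Nat.cast_nonneg _
    -- upper bound for the probability
    have h1 : expCnt (expBad pX pY γ Z) ≤ (Fintype.card (K → Equiv.Perm C) : ℝ) *
        Real.exp (-((c1 - γ) ^ 2 / 8) * (expVol pX pY Z : ℝ)) := by
      rw [expCnt_eq_card]
      refine le_trans ?_ (exp_cut_tail pX pY Z c1 γ H.h0 H.hγ H.hc1 (H.hmean Z hrel.2))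
      have : (univ.filter (expBad pX pY γ Z)) ⊆ univ.filter fun σ : K → Equiv.Perm C =>
          (expCut pX pY σ Z : ℝ) < γ * (expVol pX pY Z : ℝ) := by
        intro σ hσ
        simp only [Finset.mem_filter, Finset.mem_univ, true_and] at hσ ⊢
        exact hσ.2
      exact_mod_cast Finset.card_le_card this
    have hvol : (dmin : ℝ) * Z.card ≤ (expVol pX pY Z : ℝ) := by
      exact_mod_cast expVol_ge pX pY dmin H.hdmin Z
    have h2 : Real.exp (-((c1 - γ) ^ 2 / 8) * (expVol pX pY Z : ℝ))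
        ≤ Real.exp (-(2 * a) * Z.card) := by
      refine Real.exp_le_exp.2 ?_
      have hsq : 0 ≤ (c1 - γ) ^ 2 / 8 := by positivity
      have : (c1 - γ) ^ 2 / 8 * ((dmin : ℝ) * Z.card) = 2 * a * Z.card := by
        rw [ha, expA]; ring
      nlinarith
    -- lower bound for the product
    have hsum : ∑ Z' ∈ expNb (expSc pX pY) Z, expWt pX pY a Z'
        ≤ (Z.card : ℝ) * (a / 2) := by
      have hsub : expNb (expSc pX pY) Z ⊆ expTouch (expSc pX pY) (expSc pX pY Z) := by
        intro Z' hZ'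
        simp only [expNb, expTouch, Finset.mem_filter, Finset.mem_univ, true_and] at hZ' ⊢
        exact hZ'.2
      refine (Finset.sum_le_sum_of_subset_of_nonneg hsub
        fun Z' _ _ => expWt_nonneg pX pY a Z').trans ?_
      refine (expWt_sum_touch pX pY Dmax H.hDmax a H.hρ _).trans ?_
      have hsc : ((expSc pX pY Z).card : ℝ) ≤ (Z.card : ℝ) * Dmax := by
        exact_mod_cast expSc_card_le pX pY Dmax H.hDmax Z
      have he := Real.exp_pos (-a)
      have hΔ : (Dmax : ℝ) * Fintype.card C * Real.exp (-a) ≤ 1 / 2 := by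
        have hρ := H.hρ
        push_cast at hρ
        rcases Nat.eq_zero_or_pos (Dmax * Fintype.card C) with h0 | hpos
        · have : (Dmax : ℝ) * Fintype.card C = 0 := by exact_mod_cast h0
          rw [this]; norm_num
        · have h1 : (1 : ℝ) ≤ (Dmax : ℝ) * Fintype.card C := by exact_mod_cast hpos
          have : (Dmax : ℝ) * Fintype.card C ≤ ((Dmax : ℝ) * Fintype.card C) ^ 2 := by nlinarith
          nlinarith
      have hC : (0 : ℝ) ≤ 4 * Fintype.card C * Real.exp (-a) := by positivity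
      have hZc : (0 : ℝ) ≤ Z.card := Nat.cast_nonneg _
      calc ((expSc pX pY Z).card : ℝ) * (4 * Fintype.card C * Real.exp (-a))
          ≤ ((Z.card : ℝ) * Dmax) * (4 * Fintype.card C * Real.exp (-a)) :=
            mul_le_mul_of_nonneg_right hsc hC
        _ = (Z.card : ℝ) * (4 * ((Dmax : ℝ) * Fintype.card C * Real.exp (-a))) := by ring
        _ ≤ (Z.card : ℝ) * (a / 2) := by
            refine mul_le_mul_of_nonneg_left ?_ hZc
            have := H.ha
            linarith
    have hprod := exp_prod_one_sub_ge (expNb (expSc pX pY) Z) (expWt pX pY a)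
      (expWt_nonneg pX pY a) (expWt_le_half pX pY a H.ha)
    have hwt : expWt pX pY a Z = Real.exp (-a * Z.card) := by simp [expWt, hrel]
    have h3 : Real.exp (-(2 * a) * Z.card) ≤ expWt pX pY a Z *
        ∏ Z' ∈ expNb (expSc pX pY) Z, (1 - expWt pX pY a Z') := by
      rw [hwt]
      calc Real.exp (-(2 * a) * Z.card)
          = Real.exp (-a * Z.card) * Real.exp (-(2 * ((Z.card : ℝ) * (a / 2)))) := by
            rw [← Real.exp_add]; congr 1; ring
        _ ≤ Real.exp (-a * Z.card) *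
            Real.exp (-(2 * ∑ Z' ∈ expNb (expSc pX pY) Z, expWt pX pY a Z')) := by
            refine mul_le_mul_of_nonneg_left (Real.exp_le_exp.2 ?_) (Real.exp_pos _).le
            linarith
        _ ≤ _ := mul_le_mul_of_nonneg_left hprod (Real.exp_pos _).le
    calc expCnt (expBad pX pY γ Z)
        ≤ (Fintype.card (K → Equiv.Perm C) : ℝ) * Real.exp (-(2 * a) * Z.card) :=
          h1.trans (mul_le_mul_of_nonneg_left h2 hN)
      _ ≤ (Fintype.card (K → Equiv.Perm C) : ℝ) * (expWt pX pY a Z *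
            ∏ Z' ∈ expNb (expSc pX pY) Z, (1 - expWt pX pY a Z')) :=
          mul_le_mul_of_nonneg_left h3 hN
      _ = _ := by ring

/-- **Selection theorem.**  There is a realisation all of whose cuts expand. -/
theorem exp_select (pX pY : K × C → V) (dmin Dmax : ℕ) (c1 γ : ℝ)
    (H : ExpHyp pX pY dmin Dmax c1 γ) : ∃ σ : K → Equiv.Perm C, expGood pX pY γ σ := by
  classical
  have h := (exp_lll_product (Ωk := fun _ : K => Equiv.Perm C) (expBad pX pY γ) (expSc pX pY)
    (expBad_dep pX pY γ) (expWt pX pY (expA c1 γ dmin)) (expWt_nonneg pX pY _)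
    (fun Z => lt_of_le_of_lt (expWt_le_half pX pY _ H.ha Z) (by norm_num))
    (exp_criterion pX pY dmin Dmax c1 γ H)).1
  by_contra hcon
  push Not at hcon
  have : expCnt (Ωk := fun _ : K => Equiv.Perm C) (expAvoid (expBad pX pY γ) univ) = 0 :=
    expMass_false_of _ _ fun σ hσ => hcon σ ((expGood_iff_avoid pX pY γ σ).2 hσ)
  rw [this] at h
  exact lt_irrefl _ h

/-- **Inflation bound.**  Conditioning on the expansion of all cuts increases the probability of an
event depending on the tables in `sF` by at most `exp (ε * |sF|)`, `ε = 8 |C| e^{-a}`. -/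
theorem exp_inflation (pX pY : K × C → V) (dmin Dmax : ℕ) (c1 γ : ℝ)
    (H : ExpHyp pX pY dmin Dmax c1 γ) (F : (K → Equiv.Perm C) → Prop) (sF : Finset K)
    (hF : ∀ σ σ' : K → Equiv.Perm C, (∀ κ ∈ sF, σ κ = σ' κ) → (F σ ↔ F σ')) :
    expCnt (Ωk := fun _ : K => Equiv.Perm C) (fun σ => F σ ∧ expGood pX pY γ σ) *
        (Fintype.card (K → Equiv.Perm C) : ℝ)
      ≤ Real.exp (8 * Fintype.card C * Real.exp (-(expA c1 γ dmin)) * sF.card) *
        (expCnt (Ωk := fun _ : K => Equiv.Perm C) F *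
          expCnt (Ωk := fun _ : K => Equiv.Perm C) (expGood pX pY γ)) := by
  classical
  set a := expA c1 γ dmin with ha
  have h := (exp_lll_product (Ωk := fun _ : K => Equiv.Perm C) (expBad pX pY γ) (expSc pX pY)
    (expBad_dep pX pY γ) (expWt pX pY a) (expWt_nonneg pX pY _)
    (fun Z => lt_of_le_of_lt (expWt_le_half pX pY _ H.ha Z) (by norm_num))
    (exp_criterion pX pY dmin Dmax c1 γ H)).2 F sF hF
  have e1 : expCnt (Ωk := fun _ : K => Equiv.Perm C) (fun σ => F σ ∧ expGood pX pY γ σ)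
      = expCnt (Ωk := fun _ : K => Equiv.Perm C)
        (fun σ => F σ ∧ expAvoid (expBad pX pY γ) univ σ) :=
    expMass_congr _ fun σ => by rw [expGood_iff_avoid]
  have e2 : expCnt (Ωk := fun _ : K => Equiv.Perm C) (expGood pX pY γ)
      = expCnt (Ωk := fun _ : K => Equiv.Perm C) (expAvoid (expBad pX pY γ) univ) :=
    expMass_congr _ fun σ => by rw [expGood_iff_avoid]
  rw [e1, e2]
  set A := expCnt (Ωk := fun _ : K => Equiv.Perm C)
    (fun σ => F σ ∧ expAvoid (expBad pX pY γ) univ σ) with hA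
  set N : ℝ := (Fintype.card (K → Equiv.Perm C) : ℝ) with hN
  set R := expCnt (Ωk := fun _ : K => Equiv.Perm C) F *
    expCnt (Ωk := fun _ : K => Equiv.Perm C) (expAvoid (expBad pX pY γ) univ) with hR
  have hA0 : 0 ≤ A := expMass_nonneg _ (fun _ => zero_le_one) _
  have hN0 : 0 ≤ N := Nat.cast_nonneg _
  have hprod := exp_prod_one_sub_ge (expTouch (expSc pX pY) sF) (expWt pX pY a)
    (expWt_nonneg pX pY a) (expWt_le_half pX pY a H.ha)
  have hsum := expWt_sum_touch pX pY Dmax H.hDmax a H.hρ sF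
  set ε : ℝ := 8 * Fintype.card C * Real.exp (-a) * sF.card with hε
  have hlow : Real.exp (-ε) ≤ ∏ Z ∈ expTouch (expSc pX pY) sF, (1 - expWt pX pY a Z) := by
    refine le_trans (Real.exp_le_exp.2 ?_) hprod
    rw [hε]
    nlinarith
  have h1 : A * Real.exp (-ε) * N ≤ R := by
    refine le_trans ?_ h
    exact mul_le_mul_of_nonneg_right (mul_le_mul_of_nonneg_left hlow hA0) hN0
  calc A * N = Real.exp ε * (A * Real.exp (-ε) * N) := by
        have : Real.exp ε * Real.exp (-ε) = 1 := by rw [← Real.exp_add]; simp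
        calc A * N = (Real.exp ε * Real.exp (-ε)) * (A * N) := by rw [this, one_mul]
          _ = _ := by ring
    _ ≤ Real.exp ε * R := mul_le_mul_of_nonneg_left h1 (Real.exp_pos _).le

end Claimed.Agent.R300
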