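/-
R300 shared expansion library, part X10: bipartite cluster matching blocks.  A gap for the mean
incidence operator gives a realisation of the tables with a uniform gap (KK Prop. exp:realized-gap,
INJ eq:uniform-incidence-gap) and the inflation bound (INJ eq:current-event-inflation).
Owner: helper126.

MODEL.  `A B` the two vertex sides, `K` keys, `C` cluster type, `pA : K × C → A`, `pB : K × C → B`
slot incidences, all fibres of `pA` of size `d`, all fibres of `pB` of size `D`.  For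
`σ : K → Equiv.Perm C` the edge `(κ, w)` joins `pB (κ, w)` and `pA (κ, σ κ w)`.
-/
import Claimed.Agent.R300.ExpSelect
import Claimed.Agent.R300.ExpCheeger

set_option autoImplicit false
set_option linter.unusedSectionVars false

namespace Claimed.Agent.R300

open Finset

variable {A B K C : Type*} [Fintype A] [DecidableEq A] [Fintype B] [DecidableEq B]
  [Fintype K] [DecidableEq K] [Fintype C] [DecidableEq C]

/-- Unnormalised mean incidence operator: `d * |C|` times the mean of the slot averages. -/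
def expMean (pA : K × C → A) (pB : K × C → B) (f : B → ℝ) (a : A) : ℝ :=
  ∑ e ∈ univ.filter (fun e : K × C => pA e = a), ∑ w, f (pB (e.1, w))

/-- Unnormalised incidence operator of the realisation `σ`. -/
def expInc (pA : K × C → A) (pB : K × C → B) (σ : K → Equiv.Perm C) (f : B → ℝ) (a : A) : ℝ :=
  chInc (fun e : K × C => pA (e.1, σ e.1 e.2)) pB f a

/-- Its adjoint. -/
def expIncAdj (pA : K × C → A) (pB : K × C → B) (σ : K → Equiv.Perm C) (g : A → ℝ) (b : B) : ℝ :=
  chInc pB (fun e : K × C => pA (e.1, σ e.1 e.2)) g b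

theorem exp_card_shear (σ : K → Equiv.Perm C) (P : K × C → Prop) [DecidablePred P] :
    (univ.filter fun e : K × C => P (e.1, σ e.1 e.2)).card = (univ.filter P).card := by
  rw [exp_card_prod, exp_card_prod]
  refine Finset.sum_congr rfl fun κ _ => ?_
  have h := exp_card_perm_filter (σ κ) (univ.filter fun y => P (κ, y))
  simp only [Finset.mem_filter, Finset.mem_univ, true_and] at h
  exact h

theorem expMean_form (pA : K × C → A) (pB : K × C → B) (g : A → ℝ) (f : B → ℝ) :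
    ∑ a, g a * expMean pA pB f a
      = ∑ κ, (∑ y, g (pA (κ, y))) * (∑ w, f (pB (κ, w))) := by
  have h1 : ∑ a, g a * expMean pA pB f a
      = ∑ e : K × C, g (pA e) * ∑ w, f (pB (e.1, w)) := by
    rw [← Finset.sum_fiberwise (s := univ) (g := pA)
      (f := fun e : K × C => g (pA e) * ∑ w, f (pB (e.1, w)))]
    refine Finset.sum_congr rfl fun a _ => ?_
    rw [expMean, Finset.mul_sum]
    exact Finset.sum_congr rfl fun e he => by rw [(Finset.mem_filter.1 he).2]
  rw [h1, Fintype.sum_prod_type]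
  exact Finset.sum_congr rfl fun κ _ => by rw [Finset.sum_mul]

theorem expMean_add_const (pA : K × C → A) (pB : K × C → B) (d : ℕ)
    (hd : ∀ a, (univ.filter fun e : K × C => pA e = a).card = d) (f : B → ℝ) (β : ℝ) (a : A) :
    expMean pA pB (fun b => f b + β) a = expMean pA pB f a + β * (d * Fintype.card C) := by
  simp only [expMean, Finset.sum_add_distrib, Finset.sum_const, Finset.card_univ, nsmul_eq_mul,
    hd a]
  ring

/-- Hypotheses on a bipartite block. -/
structure ExpBlkHyp (pA : K × C → A) (pB : K × C → B) (d D : ℕ) (η : ℝ) : Prop where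
  hd : ∀ a, (univ.filter fun e : K × C => pA e = a).card = d
  hD : ∀ b, (univ.filter fun e : K × C => pB e = b).card = D
  hdpos : 0 < d
  hDpos : 0 < D
  hNA : 0 < Fintype.card A
  hNB : 0 < Fintype.card B
  hη0 : 0 < η
  hη1 : η ≤ 1
  hgap : ∀ f : B → ℝ, ∑ b, f b = 0 →
    ∑ a, (expMean pA pB f a) ^ 2
      ≤ η ^ 2 * ((d : ℝ) * D * (Fintype.card C : ℝ) ^ 2) * ∑ b, f b ^ 2

theorem exp_card_edges (p : K × C → A) (d : ℕ)
    (hd : ∀ a, (univ.filter fun e : K × C => p e = a).card = d) :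
    Fintype.card K * Fintype.card C = Fintype.card A * d := by
  rw [← Fintype.card_prod, ← Finset.card_univ (α := K × C),
    Finset.card_eq_sum_card_fiberwise (f := p) (t := univ) (fun _ _ => Finset.mem_coe.2 (Finset.mem_univ _))]
  simp [hd]

/-- Variance of an indicator function. -/
theorem exp_indicator_var {X : Type*} [Fintype X] (_hX : 0 < Fintype.card X) (u : X → ℝ)
    (hu : ∀ x, u x ^ 2 = u x) (α : ℝ) (hα : α * (Fintype.card X : ℝ) = ∑ x, u x) :
    ∑ x, (u x - α) = 0 ∧ ∑ x, (u x - α) ^ 2 = (∑ x, u x) * (1 - α) := by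
  constructor
  · rw [Finset.sum_sub_distrib, ← hα]
    simp only [Finset.sum_const, Finset.card_univ, nsmul_eq_mul]
    ring
  · have h1 : ∀ x, (u x - α) ^ 2 = u x - 2 * α * u x + α ^ 2 := by
      intro x; have := hu x; nlinarith
    have h2 : ∑ x, (u x - α) ^ 2 = ∑ x, u x - 2 * α * ∑ x, u x + ∑ _x : X, α ^ 2 := by
      rw [Finset.mul_sum, ← Finset.sum_sub_distrib, ← Finset.sum_add_distrib]
      exact Finset.sum_congr rfl fun x _ => h1 x
    rw [h2]
    simp only [Finset.sum_const, Finset.card_univ, nsmul_eq_mul]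
    have h3 : (Fintype.card X : ℝ) * α ^ 2 = α * ∑ x, u x := by rw [← hα]; ring
    rw [h3]; ring

/-- The final real inequality of the expected cut estimate. -/
theorem exp_cut_real (E α β η μ2 : ℝ) (hE : 0 < E) (hα : 0 ≤ α) (hβ : 0 ≤ β) (hs : α + β ≤ 1)
    (hη0 : 0 < η) (hη1 : η ≤ 1)
    (hμ : μ2 ≤ E * (η * (α * (1 - α) + β * (1 - β)) + 2 * α * β)) :
    (1 - η) / 2 * (E * α + E * β) ≤ (E * α + E * β) - μ2 := by
  have hkey : 0 ≤ (1 - η) / 2 * ((α + β) * (1 - (α + β))) + (1 + η) / 2 * (α - β) ^ 2 := by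
    have h1 : 0 ≤ (α + β) * (1 - (α + β)) := mul_nonneg (by linarith) (by linarith)
    have h2 : 0 ≤ (1 - η) / 2 := by linarith
    have h3 : 0 ≤ (1 + η) / 2 := by linarith
    have h4 := sq_nonneg (α - β)
    positivity
  have h0 : (E * α + E * β) - (1 - η) / 2 * (E * α + E * β)
      - E * (η * (α * (1 - α) + β * (1 - β)) + 2 * α * β)
      = E * ((1 - η) / 2 * ((α + β) * (1 - (α + β))) + (1 + η) / 2 * (α - β) ^ 2) := by ring
  have h5 := mul_nonneg hE.le hkey
  linarith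

/-- Cross term bound from the gap of the mean operator. -/
theorem exp_cross (pA : K × C → A) (pB : K × C → B) (d D : ℕ) (η : ℝ)
    (H : ExpBlkHyp pA pB d D η) (hC : 0 < Fintype.card C) (g0 : A → ℝ) (f0 : B → ℝ)
    (hf0 : ∑ b, f0 b = 0) :
    2 * ∑ a, g0 a * expMean pA pB f0 a
      ≤ η * (Fintype.card C : ℝ) * ((d : ℝ) * ∑ a, g0 a ^ 2 + (D : ℝ) * ∑ b, f0 b ^ 2) := by
  have hgap := H.hgap f0 hf0
  have hdpos : (0 : ℝ) < d := by exact_mod_cast H.hdpos
  have hcpos : (0 : ℝ) < (Fintype.card C : ℝ) := by exact_mod_cast hC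
  have hη := H.hη0
  have hτpos : 0 < η * (Fintype.card C : ℝ) * d := by positivity
  have hcross : 2 * ∑ a, g0 a * expMean pA pB f0 a
      ≤ (η * (Fintype.card C : ℝ) * d) * ∑ a, g0 a ^ 2
        + (∑ a, expMean pA pB f0 a ^ 2) / (η * (Fintype.card C : ℝ) * d) := by
    rw [Finset.mul_sum, Finset.mul_sum, Finset.sum_div, ← Finset.sum_add_distrib]
    refine Finset.sum_le_sum fun a _ => ?_
    generalize expMean pA pB f0 a = h
    generalize g0 a = g
    generalize η * (Fintype.card C : ℝ) * d = τ at hτpos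
    have h1 : 0 ≤ (τ * g - h) ^ 2 / τ := by positivity
    have h2 : (τ * g - h) ^ 2 / τ = τ * g ^ 2 + h ^ 2 / τ - 2 * (g * h) := by
      field_simp
      ring
    linarith
  have hdiv : (∑ a, expMean pA pB f0 a ^ 2) / (η * (Fintype.card C : ℝ) * d)
      ≤ η * (Fintype.card C : ℝ) * D * ∑ b, f0 b ^ 2 := by
    rw [div_le_iff₀ hτpos]
    refine hgap.trans_eq ?_
    ring
  linarith

/-- The gap of the mean operator gives the lower bound for all expected cuts. -/
theorem exp_mean_cut (pA : K × C → A) (pB : K × C → B) (d D : ℕ) (η : ℝ)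
    (H : ExpBlkHyp pA pB d D η) (Z : Finset (A ⊕ B))
    (hvol : expVol (fun e => (Sum.inl (pA e) : A ⊕ B)) (fun e => Sum.inr (pB e)) Z
      ≤ Fintype.card K * Fintype.card C) :
    (1 - η) / 2 * (expVol (fun e => (Sum.inl (pA e) : A ⊕ B)) (fun e => Sum.inr (pB e)) Z : ℝ)
      ≤ (expVol (fun e => (Sum.inl (pA e) : A ⊕ B)) (fun e => Sum.inr (pB e)) Z : ℝ)
        - 2 * expMu (expS (fun e => (Sum.inr (pB e) : A ⊕ B)) Z)
            (expS (fun e => (Sum.inl (pA e) : A ⊕ B)) Z) := by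
  classical
  obtain ⟨g1, hg1⟩ : ∃ g1 : A → ℝ, g1 = fun a => if (Sum.inl a : A ⊕ B) ∈ Z then 1 else 0 :=
    ⟨_, rfl⟩
  obtain ⟨f1, hf1⟩ : ∃ f1 : B → ℝ, f1 = fun b => if (Sum.inr b : A ⊕ B) ∈ Z then 1 else 0 :=
    ⟨_, rfl⟩
  have hNApos : (0 : ℝ) < (Fintype.card A : ℝ) := by exact_mod_cast H.hNA
  have hNBpos : (0 : ℝ) < (Fintype.card B : ℝ) := by exact_mod_cast H.hNB
  have hdpos : (0 : ℝ) < (d : ℝ) := by exact_mod_cast H.hdpos
  have hDpos : (0 : ℝ) < (D : ℝ) := by exact_mod_cast H.hDpos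
  have hEA : (Fintype.card K : ℝ) * (Fintype.card C : ℝ) = (Fintype.card A : ℝ) * d := by
    exact_mod_cast exp_card_edges pA d H.hd
  have hEB : (Fintype.card K : ℝ) * (Fintype.card C : ℝ) = (Fintype.card B : ℝ) * D := by
    exact_mod_cast exp_card_edges pB D H.hD
  have hCnat : 0 < Fintype.card C := by
    rcases Nat.eq_zero_or_pos (Fintype.card C) with h | h
    · rw [h] at hEA
      have : (0 : ℝ) < (Fintype.card A : ℝ) * d := by positivity
      rw [← hEA] at this
      simp at this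
    · exact h
  have hcCpos : (0 : ℝ) < (Fintype.card C : ℝ) := by exact_mod_cast hCnat
  -- volume
  have hV : (expVol (fun e => (Sum.inl (pA e) : A ⊕ B)) (fun e => Sum.inr (pB e)) Z : ℝ)
      = (d : ℝ) * ∑ a, g1 a + (D : ℝ) * ∑ b, f1 b := by
    rw [expVol]
    push_cast
    rw [← Finset.sum_boole, ← Finset.sum_boole, ← ch_sum_comp pA d H.hd g1,
      ← ch_sum_comp pB D H.hD f1, hg1, hf1]
  -- mean number of internal edges
  have hMu : expMu (expS (fun e => (Sum.inr (pB e) : A ⊕ B)) Z)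
      (expS (fun e => (Sum.inl (pA e) : A ⊕ B)) Z) * (Fintype.card C : ℝ)
        = ∑ a, g1 a * expMean pA pB f1 a := by
    rw [expMean_form, expMu, Finset.sum_mul]
    refine Finset.sum_congr rfl fun κ _ => ?_
    have h1 : ∑ y, g1 (pA (κ, y)) = ((expS (fun e => (Sum.inl (pA e) : A ⊕ B)) Z κ).card : ℝ) := by
      rw [expS, ← Finset.sum_boole, hg1]
    have h2 : ∑ w, f1 (pB (κ, w)) = ((expS (fun e => (Sum.inr (pB e) : A ⊕ B)) Z κ).card : ℝ) := by
      rw [expS, ← Finset.sum_boole, hf1]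
    rw [h1, h2, div_mul_cancel₀ _ hcCpos.ne']
    ring
  have hg1sq : ∀ a, g1 a ^ 2 = g1 a := by
    intro a; rw [hg1]; dsimp only; split_ifs <;> norm_num
  have hf1sq : ∀ b, f1 b ^ 2 = f1 b := by
    intro b; rw [hf1]; dsimp only; split_ifs <;> norm_num
  have hg1nn : 0 ≤ ∑ a, g1 a :=
    Finset.sum_nonneg fun a _ => by rw [← hg1sq a]; positivity
  have hf1nn : 0 ≤ ∑ b, f1 b :=
    Finset.sum_nonneg fun a _ => by rw [← hf1sq a]; positivity
  generalize hμ : expMu (expS (fun e => (Sum.inr (pB e) : A ⊕ B)) Z)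
      (expS (fun e => (Sum.inl (pA e) : A ⊕ B)) Z) = μ at hMu ⊢
  have hvolR : (d : ℝ) * ∑ a, g1 a + (D : ℝ) * ∑ b, f1 b ≤ (Fintype.card A : ℝ) * d := by
    rw [← hV, ← hEA]
    exact_mod_cast hvol
  rw [hV]
  clear hV hvol hμ hg1 hf1
  obtain ⟨α, hα⟩ : ∃ α : ℝ, α * (Fintype.card A : ℝ) = ∑ a, g1 a :=
    ⟨(∑ a, g1 a) / (Fintype.card A : ℝ), by field_simp⟩
  obtain ⟨β, hβ⟩ : ∃ β : ℝ, β * (Fintype.card B : ℝ) = ∑ b, f1 b :=
    ⟨(∑ b, f1 b) / (Fintype.card B : ℝ), by field_simp⟩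
  obtain ⟨hA1, hA2⟩ := exp_indicator_var H.hNA g1 hg1sq α hα
  obtain ⟨hB1, hB2⟩ := exp_indicator_var H.hNB f1 hf1sq β hβ
  have hcr := exp_cross pA pB d D η H hCnat (fun a => g1 a - α) (fun b => f1 b - β) hB1
  rw [hA2, hB2] at hcr
  have hmean1 : ∀ a, expMean pA pB f1 a
      = expMean pA pB (fun b => f1 b - β) a + β * (d * Fintype.card C) := by
    intro a
    have := expMean_add_const pA pB d H.hd (fun b => f1 b - β) β a
    simp only [sub_add_cancel] at this
    exact this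
  have hhsum : ∑ a, expMean pA pB (fun b => f1 b - β) a = 0 := by
    have h1 := expMean_form pA pB (fun _ => (1 : ℝ)) (fun b => f1 b - β)
    simp only [one_mul, Finset.sum_const, Finset.card_univ, nsmul_eq_mul, mul_one] at h1
    rw [h1, ← Finset.mul_sum]
    have h2 : ∑ κ, ∑ w, (f1 (pB (κ, w)) - β) = ∑ e : K × C, (f1 (pB e) - β) := by
      rw [Fintype.sum_prod_type]
    rw [h2, ch_sum_comp pB D H.hD (fun b => f1 b - β), hB1]; ring
  have hsplit : ∑ a, g1 a * expMean pA pB f1 a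
      = ∑ a, (g1 a - α) * expMean pA pB (fun b => f1 b - β) a
        + β * (d * Fintype.card C) * ∑ a, g1 a := by
    have h3 : ∀ a, g1 a * expMean pA pB f1 a
        = (g1 a - α) * expMean pA pB (fun b => f1 b - β) a
          + α * expMean pA pB (fun b => f1 b - β) a + β * (d * Fintype.card C) * g1 a := by
      intro a; rw [hmean1 a]; ring
    rw [Finset.sum_congr rfl fun a _ => h3 a, Finset.sum_add_distrib, Finset.sum_add_distrib,
      ← Finset.mul_sum, ← Finset.mul_sum, hhsum]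
    ring
  rw [hsplit] at hMu
  generalize ∑ a, (g1 a - α) * expMean pA pB (fun b => f1 b - β) a = X at hMu hcr
  simp only [← hα, ← hβ] at hMu hcr hvolR hg1nn hf1nn ⊢
  have hE2 : (Fintype.card B : ℝ) * D = (Fintype.card A : ℝ) * d := by rw [← hEA, hEB]
  generalize (Fintype.card A : ℝ) = NA at *
  generalize (Fintype.card B : ℝ) = NB at *
  generalize (Fintype.card C : ℝ) = cC at *
  generalize (d : ℝ) = dR at *
  generalize (D : ℝ) = DR at *
  have hEpos : 0 < NA * dR := by positivity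
  have hα0 : 0 ≤ α := by
    by_contra hneg
    push Not at hneg
    nlinarith
  have hβ0 : 0 ≤ β := by
    by_contra hneg
    push Not at hneg
    nlinarith
  have e1 : dR * (α * NA) = (NA * dR) * α := by ring
  have e2 : DR * (β * NB) = (NA * dR) * β := by rw [← hE2]; ring
  rw [e1, e2] at hvolR ⊢
  have hs : α + β ≤ 1 := by
    have : (NA * dR) * (α + β) ≤ (NA * dR) * 1 := by linarith
    exact le_of_mul_le_mul_left this hEpos
  refine exp_cut_real (NA * dR) α β η (2 * μ) hEpos hα0 hβ0 hs H.hη0 H.hη1 ?_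
  have h1 : cC * (2 * μ) ≤ cC * ((NA * dR) * (η * (α * (1 - α) + β * (1 - β)) + 2 * α * β)) := by
    have e3 : η * cC * (dR * (α * NA * (1 - α)) + DR * (β * NB * (1 - β)))
        = cC * ((NA * dR) * (η * (α * (1 - α))) + (NB * DR) * (η * (β * (1 - β)))) := by ring
    rw [e3, hE2] at hcr
    nlinarith
  exact le_of_mul_le_mul_left h1 hcCpos

/-- The good event of a block: all cuts of at most half the volume expand. -/
def expBlkGood (pA : K × C → A) (pB : K × C → B) (γ : ℝ) (σ : K → Equiv.Perm C) : Prop :=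
  expGood (fun e => (Sum.inl (pA e) : A ⊕ B)) (fun e => Sum.inr (pB e)) γ σ

theorem expDeg_inl (pA : K × C → A) (pB : K × C → B) (a : A) :
    expDeg (fun e => (Sum.inl (pA e) : A ⊕ B)) (fun e => Sum.inr (pB e)) (Sum.inl a)
      = (univ.filter fun e : K × C => pA e = a).card := by
  simp [expDeg]

theorem expDeg_inr (pA : K × C → A) (pB : K × C → B) (b : B) :
    expDeg (fun e => (Sum.inl (pA e) : A ⊕ B)) (fun e => Sum.inr (pB e)) (Sum.inr b)
      = (univ.filter fun e : K × C => pB e = b).card := by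
  simp [expDeg]

/-- The hypotheses of the selection theorem hold for a block with a mean gap. -/
theorem exp_blk_hyp (pA : K × C → A) (pB : K × C → B) (d D : ℕ) (η γ : ℝ)
    (H : ExpBlkHyp pA pB d D η) (h0 : 0 ≤ γ) (hγ : γ ≤ (1 - η) / 2)
    (ha : 4 ≤ expA ((1 - η) / 2) γ (min d D))
    (hρ : ((max d D * Fintype.card C : ℕ) : ℝ) ^ 2 * Real.exp (-(expA ((1 - η) / 2) γ (min d D)))
      ≤ 1 / 2) :
    ExpHyp (fun e => (Sum.inl (pA e) : A ⊕ B)) (fun e => Sum.inr (pB e)) (min d D) (max d D)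
      ((1 - η) / 2) γ where
  hdmin := by
    rintro (a | b)
    · rw [expDeg_inl, H.hd]; exact min_le_left _ _
    · rw [expDeg_inr, H.hD]; exact min_le_right _ _
  hDmax := by
    rintro (a | b)
    · rw [expDeg_inl, H.hd]; exact le_max_left _ _
    · rw [expDeg_inr, H.hD]; exact le_max_right _ _
  h0 := h0
  hγ := hγ
  hc1 := by have := H.hη0; linarith
  hmean := fun Z hZ => exp_mean_cut pA pB d D η H Z hZ
  ha := ha
  hρ := hρ

/-- A good realisation has a uniform gap, in both directions. -/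
theorem exp_blk_gap (pA : K × C → A) (pB : K × C → B) (d D : ℕ)
    (hd : ∀ a, (univ.filter fun e : K × C => pA e = a).card = d)
    (hD : ∀ b, (univ.filter fun e : K × C => pB e = b).card = D) (hdpos : 0 < d) (hDpos : 0 < D)
    (γ : ℝ) (h0 : 0 ≤ γ) (h1 : γ ≤ 1) (σ : K → Equiv.Perm C) (hσ : expBlkGood pA pB γ σ) :
    (∀ f : B → ℝ, ∑ b, f b = 0 →
      ∑ a, (expInc pA pB σ f a) ^ 2 ≤ (1 - γ ^ 2 / 2) ^ 2 * ((d : ℝ) * D) * ∑ b, f b ^ 2) ∧
    (∀ g : A → ℝ, ∑ a, g a = 0 →
      ∑ b, (expIncAdj pA pB σ g b) ^ 2 ≤ (1 - γ ^ 2 / 2) ^ 2 * ((d : ℝ) * D) * ∑ a, g a ^ 2) := by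
  have hd' : ∀ a, (univ.filter fun e : K × C => pA (e.1, σ e.1 e.2) = a).card = d := by
    intro a
    rw [exp_card_shear σ (fun e => pA e = a), hd a]
  have hvol : ∀ Z : Finset (A ⊕ B),
      chVol (fun e : K × C => (Sum.inl (pA (e.1, σ e.1 e.2)) : A ⊕ B)) (fun e => Sum.inr (pB e)) Z
        = expVol (fun e => (Sum.inl (pA e) : A ⊕ B)) (fun e => Sum.inr (pB e)) Z := by
    intro Z
    rw [chVol, expVol, exp_card_shear σ (fun e => (Sum.inl (pA e) : A ⊕ B) ∈ Z)]
  have hcut : ∀ Z : Finset (A ⊕ B),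
      chVol (fun e : K × C => (Sum.inl (pA (e.1, σ e.1 e.2)) : A ⊕ B)) (fun e => Sum.inr (pB e)) Z
        ≤ Fintype.card (K × C) →
      γ * (chVol (fun e : K × C => (Sum.inl (pA (e.1, σ e.1 e.2)) : A ⊕ B))
          (fun e => Sum.inr (pB e)) Z : ℝ)
        ≤ chCut (fun e : K × C => (Sum.inl (pA (e.1, σ e.1 e.2)) : A ⊕ B))
          (fun e => Sum.inr (pB e)) Z := by
    intro Z hZ
    rw [hvol Z] at hZ ⊢
    rw [Fintype.card_prod] at hZ
    exact hσ Z hZ
  exact ⟨fun f hf => ch_bip_norm _ pB d D hdpos hd' hD γ h0 h1 hcut f hf,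
    fun g hg => ch_bip_norm_adj _ pB d D hDpos hd' hD γ h0 h1 hcut g hg⟩

/-- **Block selection.** -/
theorem exp_blk_select (pA : K × C → A) (pB : K × C → B) (d D : ℕ) (η γ : ℝ)
    (H : ExpBlkHyp pA pB d D η) (h0 : 0 ≤ γ) (hγ : γ ≤ (1 - η) / 2)
    (ha : 4 ≤ expA ((1 - η) / 2) γ (min d D))
    (hρ : ((max d D * Fintype.card C : ℕ) : ℝ) ^ 2 * Real.exp (-(expA ((1 - η) / 2) γ (min d D)))
      ≤ 1 / 2) :
    ∃ σ : K → Equiv.Perm C, expBlkGood pA pB γ σ :=
  exp_select _ _ _ _ _ _ (exp_blk_hyp pA pB d D η γ H h0 hγ ha hρ)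

/-- **Block inflation.** -/
theorem exp_blk_inflation (pA : K × C → A) (pB : K × C → B) (d D : ℕ) (η γ : ℝ)
    (H : ExpBlkHyp pA pB d D η) (h0 : 0 ≤ γ) (hγ : γ ≤ (1 - η) / 2)
    (ha : 4 ≤ expA ((1 - η) / 2) γ (min d D))
    (hρ : ((max d D * Fintype.card C : ℕ) : ℝ) ^ 2 * Real.exp (-(expA ((1 - η) / 2) γ (min d D)))
      ≤ 1 / 2)
    (F : (K → Equiv.Perm C) → Prop) (sF : Finset K)
    (hF : ∀ σ σ' : K → Equiv.Perm C, (∀ κ ∈ sF, σ κ = σ' κ) → (F σ ↔ F σ')) :
    expCnt (Ωk := fun _ : K => Equiv.Perm C) (fun σ => F σ ∧ expBlkGood pA pB γ σ) *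
        (Fintype.card (K → Equiv.Perm C) : ℝ)
      ≤ Real.exp (8 * Fintype.card C * Real.exp (-(expA ((1 - η) / 2) γ (min d D))) * sF.card) *
        (expCnt (Ωk := fun _ : K => Equiv.Perm C) F *
          expCnt (Ωk := fun _ : K => Equiv.Perm C) (expBlkGood pA pB γ)) :=
  exp_inflation _ _ _ _ _ _ (exp_blk_hyp pA pB d D η γ H h0 hγ ha hρ) F sF hF

end Claimed.Agent.R300
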