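/-
R300 shared expansion library, part X4: the zipper form of the band lemma and the passage to the
mean gap hypothesis `ExpBlkHyp.hgap` of `ExpMain`.  Owner: helper126.

ZIPPER.  The blocks of the two sides are interleaved by ONE index `k`; `oX k` says that the block `k`
belongs to `X` (otherwise to `Y`), `oX (k+1) ↔ ¬ oX k`.  `rX k`, `rY k` = "all blocks of index `< k`
agree".  A LEVEL for an `X`-block `k ≥ 1`: for `f` a function of the `Y`-blocks `< k`, `T f` is a
function of the `X`-blocks `≤ k` and is within `c ‖f‖` of a function of the `X`-blocks `< k - 1`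
(this is what `exp_level` produces).  Levels for all blocks `1 ≤ k ≤ n` give `‖T f‖ ≤ 3 c ‖f‖` for
centred functions of the `Y`-blocks `< n`.
-/
import Claimed.Agent.R300.ExpLevel
import Claimed.Agent.R300.ExpMain

set_option autoImplicit false
set_option linter.unusedSectionVars false

namespace Claimed.Agent.R300

open Finset

theorem ExpInv.mono {X : Type*} {r r' : X → X → Prop} (h : ∀ x x', r' x x' → r x x') {g : X → ℝ}
    (hg : ExpInv r g) : ExpInv r' g := fun x x' hx => hg x x' (h x x' hx)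

section zipper

variable {X Y : Type*} [Fintype X] [Fintype Y]

/-- The statement of one level. -/
def ExpLevelAt (rlo rhi : X → X → Prop) (rY : Y → Y → Prop) (T : (Y → ℝ) → (X → ℝ)) (c : ℝ) : Prop :=
  ∀ f, ExpInv rY f → ExpInv rhi (T f) ∧
    ∃ μ, ExpInv rlo μ ∧ ∑ x, (T f x - μ x) ^ 2 ≤ c ^ 2 * ∑ y, f y ^ 2

/-- One half of the parity bookkeeping. -/
theorem exp_zip_half (oX : ℕ → Prop) (hoX : ∀ k, oX (k + 1) ↔ ¬ oX k)
    (rX : ℕ → X → X → Prop) (rY : ℕ → Y → Y → Prop)
    (hrX : ∀ m x x', rX (m + 1) x x' → rX m x x')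
    (hsY : ∀ k, oX k → ∀ y y', rY k y y' → rY (k + 1) y y')
    (T : (Y → ℝ) → (X → ℝ)) (n : ℕ) (c : ℝ)
    (hconst : ∀ f, ExpInv (rY 0) f → ExpInv (rX 0) (T f))
    (hL : ∀ k, oX k → 1 ≤ k → k ≤ n → ExpLevelAt (rX (k - 1)) (rX (k + 1)) (rY k) T c) :
    (∀ m, m ≤ n → ∀ f, ExpInv (rY m) f → ExpInv (rX (m + 1)) (T f)) ∧
    (∀ m, m < n → ∀ f, ExpInv (rY (m + 1)) f →
      ∃ μ, ExpInv (rX m) μ ∧ ∑ x, (T f x - μ x) ^ 2 ≤ c ^ 2 * ∑ y, f y ^ 2) := by
  have hc0 : ∀ f, ExpInv (rY 0) f → ∀ m, ExpInv (rX m) (T f) := by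
    intro f hf m
    induction m with
    | zero => exact hconst f hf
    | succ m ih => exact ih.mono (hrX m)
  constructor
  · intro m hm f hf
    rcases Nat.eq_zero_or_pos m with rfl | hmpos
    · exact hc0 f hf 1
    · by_cases ho : oX m
      · exact (hL m ho hmpos hm f hf).1
      · obtain ⟨m', rfl⟩ : ∃ m', m = m' + 1 := ⟨m - 1, by omega⟩
        have ho' : oX m' := by
          by_contra hcon
          exact ho ((hoX m').2 hcon)
        have hf' : ExpInv (rY m') f := hf.mono (hsY m' ho')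
        rcases Nat.eq_zero_or_pos m' with rfl | hm'pos
        · exact hc0 f hf' _
        · exact ((hL m' ho' hm'pos (by omega) f hf').1).mono (hrX (m' + 1))
  · intro m hm f hf
    by_cases ho : oX (m + 1)
    · have := (hL (m + 1) ho (by omega) (by omega) f hf).2
      simpa using this
    · have ho' : oX m := by
        by_contra hcon
        exact ho ((hoX m).2 hcon)
      have hf' : ExpInv (rY m) f := hf.mono (hsY m ho')
      rcases Nat.eq_zero_or_pos m with rfl | hmpos
      · refine ⟨T f, hc0 f hf' 0, ?_⟩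
        simp only [sub_self, ne_eq, OfNat.ofNat_ne_zero, not_false_eq_true, zero_pow,
          Finset.sum_const_zero]
        exact mul_nonneg (sq_nonneg _) (Finset.sum_nonneg fun y _ => sq_nonneg _)
      · obtain ⟨μ, hμ, hμn⟩ := (hL m ho' hmpos hm.le f hf').2
        refine ⟨μ, ?_, hμn⟩
        obtain ⟨m', rfl⟩ : ∃ m', m = m' + 1 := ⟨m - 1, by omega⟩
        exact hμ.mono (by simpa using hrX m')

/-- **Zipper band lemma.** -/
theorem exp_zip (oX : ℕ → Prop) (hoX : ∀ k, oX (k + 1) ↔ ¬ oX k)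
    (rX : ℕ → X → X → Prop) (rY : ℕ → Y → Y → Prop)
    (hrX : ∀ m x x', rX (m + 1) x x' → rX m x x') (hrY : ∀ m y y', rY (m + 1) y y' → rY m y y')
    (hsX : ∀ k, ¬ oX k → ∀ x x', rX k x x' → rX (k + 1) x x')
    (hsY : ∀ k, oX k → ∀ y y', rY k y y' → rY (k + 1) y y')
    (T : (Y → ℝ) →ₗ[ℝ] (X → ℝ)) (T' : (X → ℝ) →ₗ[ℝ] (Y → ℝ))
    (hadj : ∀ g f, ∑ x, g x * T f x = ∑ y, T' g y * f y) (n : ℕ) (c : ℝ) (hc : 0 ≤ c)
    (hconst : ∀ f, ExpInv (rY 0) f → ExpInv (rX 0) (T f))
    (hconst' : ∀ g, ExpInv (rX 0) g → ExpInv (rY 0) (T' g))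
    (hLX : ∀ k, oX k → 1 ≤ k → k ≤ n → ExpLevelAt (rX (k - 1)) (rX (k + 1)) (rY k) T c)
    (hLY : ∀ k, ¬ oX k → 1 ≤ k → k ≤ n → ExpLevelAt (rY (k - 1)) (rY (k + 1)) (rX k) T' c)
    (hY0 : ∀ y y', rY 0 y y')
    (f : Y → ℝ) (hf : ExpInv (rY n) f) (hf0 : ∑ y, f y = 0) :
    ∑ x, (T f x) ^ 2 ≤ (3 * c) ^ 2 * ∑ y, f y ^ 2 := by
  obtain ⟨hC1, hV1⟩ := exp_zip_half oX hoX rX rY hrX hsY T n c hconst hLX
  obtain ⟨hC2, hV2⟩ := exp_zip_half (fun k => ¬ oX k)
    (fun k => by rw [hoX k]) rY rX hrY hsX T' n c hconst' hLY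
  have h := exp_bands_fun rX rY hrX hrY T T' hadj 1 n c hc hC1 hC2 hconst' hV1 hV2 hY0 f hf hf0
  have e : ((2 * ((1 : ℕ) : ℝ) + 1) * c) = 3 * c := by norm_num
  rw [e] at h
  exact h

end zipper

section mean

variable {A B K C S : Type*} [Fintype A] [DecidableEq A] [Fintype B] [DecidableEq B]
  [Fintype K] [DecidableEq K] [Fintype C] [DecidableEq C] [Fintype S]

/-- The mean incidence operator as a linear map. -/
def expMeanL (pA : K × C → A) (pB : K × C → B) : (B → ℝ) →ₗ[ℝ] (A → ℝ) where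
  toFun := expMean pA pB
  map_add' := by
    intro f g
    funext a
    simp only [expMean, Pi.add_apply, Finset.sum_add_distrib]
  map_smul' := by
    intro r f
    funext a
    simp only [expMean, Pi.smul_apply, smul_eq_mul, RingHom.id_apply, Finset.mul_sum]

theorem expMeanL_apply (pA : K × C → A) (pB : K × C → B) (f : B → ℝ) :
    expMeanL pA pB f = expMean pA pB f := rfl

theorem expMean_adj (pA : K × C → A) (pB : K × C → B) (g : A → ℝ) (f : B → ℝ) :
    ∑ a, g a * expMean pA pB f a = ∑ b, expMean pB pA g b * f b := by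
  rw [expMean_form]
  have h := expMean_form pB pA f g
  have e : ∑ b, expMean pB pA g b * f b = ∑ b, f b * expMean pB pA g b :=
    Finset.sum_congr rfl fun b _ => mul_comm _ _
  rw [e, h]
  exact Finset.sum_congr rfl fun κ _ => mul_comm _ _

/-- The neighbours of `a` in the mean graph: slots `(σ, w)`. -/
def expMeanNb (pB : K × C → B) (eA : A × S ≃ K × C) (q : S × C) (a : A) : B :=
  pB ((eA (a, q.1)).1, q.2)

theorem expMean_eq_nbSum (pA : K × C → A) (pB : K × C → B) (eA : A × S ≃ K × C)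
    (heA : ∀ a σ, pA (eA (a, σ)) = a) (f : B → ℝ) :
    expMean pA pB f = expNbSum (expMeanNb pB eA) f := by
  classical
  funext a
  rw [expMean, expNbSum, Fintype.sum_prod_type]
  refine (Finset.sum_bij (fun σ _ => eA (a, σ)) ?_ ?_ ?_ ?_).symm
  · intro σ _
    simp [heA]
  · intro σ _ σ' _ h
    simpa using eA.injective h
  · intro e he
    refine ⟨(eA.symm e).2, Finset.mem_univ _, ?_⟩
    have h1 : pA e = a := (Finset.mem_filter.1 he).2
    have h2 : (eA.symm e).1 = a := by
      have := heA (eA.symm e).1 (eA.symm e).2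
      rw [Prod.mk.eta, Equiv.apply_symm_apply] at this
      rw [← this, h1]
    rw [← h2, Prod.mk.eta, Equiv.apply_symm_apply]
  · intro σ _
    rfl

theorem expMeanNb_card (pB : K × C → B) (eA : A × S ≃ K × C) (D : ℕ)
    (hD : ∀ b, (univ.filter fun e : K × C => pB e = b).card = D) (b : B) :
    (univ.filter fun q : (S × C) × A => expMeanNb pB eA q.1 q.2 = b).card
      = D * Fintype.card C := by
  classical
  -- reindex by `(k, y, w)`
  let Φ : (S × C) × A ≃ (K × C) × C :=
    { toFun := fun q => (((eA (q.2, q.1.1)).1, q.1.2), (eA (q.2, q.1.1)).2)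
      invFun := fun r => (((eA.symm (r.1.1, r.2)).2, r.1.2), (eA.symm (r.1.1, r.2)).1)
      left_inv := by
        rintro ⟨⟨σ, w⟩, a⟩
        simp
      right_inv := by
        rintro ⟨⟨k, w⟩, y⟩
        simp }
  have h1 : (univ.filter fun q : (S × C) × A => expMeanNb pB eA q.1 q.2 = b).card
      = (univ.filter fun r : (K × C) × C => pB r.1 = b).card := by
    refine Finset.card_bij (fun q _ => Φ q) ?_ ?_ ?_
    · intro q hq
      have hq' := (Finset.mem_filter.1 hq).2
      exact Finset.mem_filter.2 ⟨Finset.mem_univ _, hq'⟩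
    · intro q _ q' _ h
      exact Φ.injective h
    · intro r hr
      refine ⟨Φ.symm r, ?_, Φ.apply_symm_apply r⟩
      have hr' := (Finset.mem_filter.1 hr).2
      have : pB (Φ (Φ.symm r)).1 = b := by
        rw [Φ.apply_symm_apply]; exact hr'
      exact Finset.mem_filter.2 ⟨Finset.mem_univ _, this⟩
  rw [h1, ← hD b]
  have h2 : (univ.filter fun r : (K × C) × C => pB r.1 = b)
      = (univ.filter fun e : K × C => pB e = b) ×ˢ (univ : Finset C) := by
    ext r
    simp
  rw [h2, Finset.card_product, Finset.card_univ]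

end mean

end Claimed.Agent.R300
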