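/-
Row 300 / S0553 (INJ paper), Section "A finite alphabet with deterministic recovery" (01_labeling).
DEFINITIONS ONLY (owner: helper31).  Formal model = "zipper": ONE interleaved source index k
  k = 0 : block A_0 (r bits),  k = 2j-1 : block B_j,  k = 2j : block A_j  (s bits).
An edge carries two sequences U k, V k (raw u- and v-blocks); the A endpoint owns the even k, the
B endpoint the odd k.  The boxed edge equations of the paper become the single chain
  Q 0 = h0,   Q 1 = h0' ++ P_0 (Ubar 0),   Q (k+2) = P_(k+1) (Ubar (k+1)),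
  Q k := Vbar k + K_(nu k) (Ubar k).
Occurrences of a type are indexed by the COMMON (smaller) height h; the family is (type, h mod M).
An executable copy of these definitions was tested (inversion both ways, supports, padding).
-/
import Mathlib

set_option autoImplicit false

namespace Claimed.Agent.R300.Lab

open Classical

/-! ### bit vectors -/

/-- bit vectors of length `n` -/
abbrev BV (n : ℕ) : Type := Fin n → ZMod 2

/-- zero extension of a bit vector to a bit stream -/
noncomputable def ext0 {n : ℕ} (x : BV n) (m : ℕ) : ZMod 2 := if h : m < n then x ⟨m, h⟩ else 0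

/-- the first `n` bits of a bit stream -/
def res (n : ℕ) (f : ℕ → ZMod 2) : BV n := fun m => f m.1

/-- `x` is supported on its first `t` bits -/
def IsPre {n : ℕ} (t : ℕ) (x : BV n) : Prop := ∀ m : Fin n, t ≤ m.1 → x m = 0

/-- a permutation of the first `w` bits acting on a block, identity on the other bits -/
noncomputable def actPre {n : ℕ} (w : ℕ) (π : Equiv.Perm (BV w)) (x : BV n) : BV n :=
  fun m => if h : m.1 < w then π (res w (ext0 x)) ⟨m.1, h⟩ else x m

/-- the bit vector `e` written at bit offset `o` of a zero block -/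
noncomputable def place {n c : ℕ} (o : ℕ) (e : BV c) : BV n :=
  fun m => if o ≤ m.1 then ext0 e (m.1 - o) else 0

/-- the `c` bits of `x` starting at bit offset `o` -/
noncomputable def slice {n : ℕ} (o c : ℕ) (x : BV n) : BV c := fun m => ext0 x (o + m.1)

/-! ### parameters -/

/-- offset of an incidence type: `dn` = pair (A_(h+1), B_h), `eq` = (A_h, B_h), `up` = (A_h, B_(h+1)) -/
inductive Off
  | dn
  | eq
  | up
  deriving DecidableEq

/-- the numerical data of one tower -/
structure Par where
  b : ℕ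
  s : ℕ
  n0 : ℕ
  T : ℕ
  off : Fin T → Off

namespace Par

variable (p : Par)

def r : ℕ := 3 * p.s / 5
/-- log2 of the A-degree d -/
def ld : ℕ := 8001 * p.s / 20000
/-- log2 of the B-degree D -/
def lD : ℕ := 12001 * p.s / 20000
/-- log2 of q = sqrt (d D) -/
def lq : ℕ := 10001 * p.s / 20000
def d : ℕ := 2 ^ p.ld
def D : ℕ := 2 ^ p.lD
/-- family modulus -/
def M : ℕ := 2000000 * p.s
/-- mark spacing (in source blocks) `K = M b / s` -/
def KK : ℕ := 2000000 * p.b
/-- log2 of the size of the layer B_i -/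
def H (i : ℕ) : ℕ := (2 * p.n0 + 1) * p.s + p.b * i
/-- index of the last active source block at height `h` -/
def kap (h : ℕ) : ℕ := (2 * p.n0 * p.s + p.b * h + p.s - 1) / p.s
/-- number of active bits (in `{b,2b,..,s}`) of the last active source block at height `h` -/
def tt (h : ℕ) : ℕ := 2 * p.n0 * p.s + p.b * h - (p.kap h - 1) * p.s
/-- width of source block `k` -/
def wd (k : ℕ) : ℕ := if k = 0 then p.r else p.s
/-- active width of the u-block `k` at height `i` -/
def aw (i k : ℕ) : ℕ := if k < p.kap i then p.wd k else if k = p.kap i then p.tt i else 0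
/-- active width of the v-block `k` at height `i` -/
def bw (i k : ℕ) : ℕ := if k = 0 then p.r else if k = 1 then p.s else p.aw i (k - 1)
/-- the paper's stream lengths -/
def lA (i : ℕ) : ℕ := p.r + p.n0 * p.s + (p.b * i / (2 * p.s)) * p.s + (p.b * i % (2 * p.s) - p.s)
def lB (i : ℕ) : ℕ := p.n0 * p.s + (p.b * i / (2 * p.s)) * p.s + min (p.b * i % (2 * p.s)) p.s

/-- basic admissibility (all that the deterministic lemmas 2.2-2.5 need) -/
structure Adm : Prop where
  hb : 1 ≤ p.b
  hs : 0 < p.s
  h20000 : 20000 ∣ p.s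
  h5b : 5 * p.b ∣ p.s
  hn0 : 1000000 ≤ p.n0
  /-- slope `a = b / log2 q ≤ 10^-6` -/
  hslope : 1000000 * p.b ≤ p.lq

/-- A-height and B-height of the occurrence of type `τ` with common height `h` -/
def aHt (τ : Fin p.T) (h : ℕ) : ℕ := if p.off τ = Off.dn then h + 1 else h
def bHt (τ : Fin p.T) (h : ℕ) : ℕ := if p.off τ = Off.up then h + 1 else h

/-- the extra interval of the occurrence `(τ,h)` lies in a u-block of the larger endpoint -/
def xInU (τ : Fin p.T) (h : ℕ) : Prop :=
  (p.off τ = Off.dn ∧ p.kap (h + 1) % 2 = 0) ∨ (p.off τ = Off.up ∧ p.kap (h + 1) % 2 = 1)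
/-- ... in a v-block of the larger endpoint -/
def xInV (τ : Fin p.T) (h : ℕ) : Prop :=
  (p.off τ = Off.dn ∧ p.kap (h + 1) % 2 = 1) ∨ (p.off τ = Off.up ∧ p.kap (h + 1) % 2 = 0)
/-- coordinate-block index of the extra interval -/
noncomputable def xIdx (τ : Fin p.T) (h : ℕ) : ℕ :=
  if p.xInU τ h then p.kap (h + 1) else p.kap (h + 1) + 1
/-- bit offset of the extra interval inside its block -/
def xOff (h : ℕ) : ℕ := p.tt (h + 1) - p.b

end Par

variable (p : Par)

/-! ### labels, names, coefficients -/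

/-- positive edge labels `(f, j, e, h0)`, `f = (ty, rho)`, `rho = h mod M` -/
@[ext] structure Label where
  ty : Fin p.T
  rho : Fin p.M
  j : Fin p.d
  e : BV p.b
  h0 : BV p.r

/-- A coefficient names `(f,j,e)` -/
@[ext] structure NameA where
  ty : Fin p.T
  rho : Fin p.M
  j : Fin p.d
  e : BV p.b

/-- B coefficient names `(f,j,c,e)` -/
@[ext] structure NameB where
  ty : Fin p.T
  rho : Fin p.M
  j : Fin p.d
  e : BV p.b
  c : BV (2 * p.r - p.s)

variable {p}

/-- the bucket `c` = first `2r-s` bits of the head -/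
noncomputable def Label.buck (l : Label p) : BV (2 * p.r - p.s) := slice 0 _ l.h0
/-- `h0'` = last `s-r` bits of the head -/
noncomputable def Label.tail (l : Label p) : BV (p.s - p.r) := slice (2 * p.r - p.s) _ l.h0
def Label.nameA (l : Label p) : NameA p := ⟨l.ty, l.rho, l.j, l.e⟩
noncomputable def Label.nameB (l : Label p) : NameB p := ⟨l.ty, l.rho, l.j, l.e, l.buck⟩

variable (p)

/-- an abstract coefficient system (in the paper: multiplication by field elements) -/
structure Coef where
  /-- on block 0 (acts on the `r`-prefix) -/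
  K0 : NameA p → (BV p.s →ₗ[ZMod 2] BV p.s)
  KA : NameA p → (BV p.s →ₗ[ZMod 2] BV p.s)
  KB : NameB p → (BV p.s →ₗ[ZMod 2] BV p.s)

variable {p}

/-- distinct names have invertible coefficient differences -/
structure Coef.Sep (cf : Coef p) : Prop where
  pre0 : ∀ ν x, IsPre p.r x → IsPre p.r (cf.K0 ν x)
  inj0 : ∀ ν ν', ν ≠ ν' → ∀ x, IsPre p.r x → cf.K0 ν x = cf.K0 ν' x → x = 0
  bijA : ∀ ν ν', ν ≠ ν' → Function.Bijective (fun x => cf.KA ν x - cf.KA ν' x)
  bijB : ∀ ν ν', ν ≠ ν' → Function.Bijective (fun x => cf.KB ν x - cf.KB ν' x)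

/-- the multiplicity bound of Lemma `coefficient-pools` (with `θ = 2^(1-b)`), in a fixed family
and extra slice, on either side -/
structure Coef.Mult (cf : Coef p) : Prop where
  multA : ∀ (τ : Fin p.T) (ρ : Fin p.M) (e : BV p.b) (ζ : BV p.s →ₗ[ZMod 2] ZMod 2), ζ ≠ 0 →
    ∀ t, p.b ≤ t → t ≤ p.s → ∀ φ : BV p.s → ZMod 2,
      2 ^ p.b * Nat.card {j : Fin p.d // ∀ x : BV p.s, IsPre t x → ζ (cf.KA ⟨τ, ρ, j, e⟩ x) = φ x}
        ≤ 2 * p.d
  multB : ∀ (τ : Fin p.T) (ρ : Fin p.M) (e : BV p.b) (ζ : BV p.s →ₗ[ZMod 2] ZMod 2), ζ ≠ 0 →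
    ∀ t, p.b ≤ t → t ≤ p.s → ∀ φ : BV p.s → ZMod 2,
      2 ^ p.b * Nat.card {jc : Fin p.d × BV (2 * p.r - p.s) //
          ∀ x : BV p.s, IsPre t x → ζ (cf.KB ⟨τ, ρ, jc.1, e, jc.2⟩ x) = φ x}
        ≤ 2 * p.D

/-- the coefficient map of the label `l` at source index `k` -/
noncomputable def Coef.at (cf : Coef p) (l : Label p) (k : ℕ) : BV p.s →ₗ[ZMod 2] BV p.s :=
  if k = 0 then cf.K0 l.nameA else if k % 2 = 0 then cf.KA l.nameA else cf.KB l.nameB

/-! ### gates, marks, corrections, tables, rules -/

/-- the lagged gate (2.10): reads the eight raw blocks `2J-7 .. 2J`, `J = ⌊(k-5)/2⌋` -/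
def gate {n : ℕ} (U : ℕ → BV n) (k : ℕ) : Prop :=
  k ≤ 20 ∨ ∃ j, 2 * ((k - 5) / 2) - 7 ≤ j ∧ j ≤ 2 * ((k - 5) / 2) ∧ U j ≠ 0

/-- `k` is a marked cutoff of the family of `l` -/
def isCut (l : Label p) (k : ℕ) : Prop := ∃ n, k = p.kap l.rho + p.KK * n
/-- `k` is one of the twenty blocks following a marked cutoff -/
def inZone (l : Label p) (k : ℕ) : Prop :=
  ∃ n, p.kap l.rho + p.KK * n < k ∧ k ≤ p.kap l.rho + p.KK * n + 20
/-- `k` is the block index of a marked extra interval lying in u -/
def isXU (l : Label p) (k : ℕ) : Prop :=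
  p.xInU l.ty l.rho ∧ ∃ n, k = p.xIdx l.ty l.rho + p.KK * n
/-- ... lying in v -/
def isXV (l : Label p) (k : ℕ) : Prop :=
  p.xInV l.ty l.rho ∧ ∃ n, k = p.xIdx l.ty l.rho + p.KK * n

/-- correction of the raw u-block `k`; `F` = set of indices where the gate is forced on -/
noncomputable def corU (F : ℕ → Prop) (l : Label p) (U : ℕ → BV p.s) (k : ℕ) : BV p.s :=
  if isXU l k ∧ (gate U k ∨ F k) then place (p.xOff l.rho) l.e else 0
/-- correction of the raw v-block `k` -/
noncomputable def corV (F : ℕ → Prop) (l : Label p) (U : ℕ → BV p.s) (k : ℕ) : BV p.s :=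
  if isXV l k ∧ (gate U k ∨ F k) then place (p.xOff l.rho) l.e else 0

/-- width of the permutation table of label `l` at source index `k` -/
noncomputable def tw (l : Label p) (k : ℕ) : ℕ := if isCut l k then p.tt l.rho else p.wd k

variable (p)
/-- the keys of source index `k`: (label, all earlier raw u-blocks) -/
abbrev Key (k : ℕ) : Type := Label p × (Fin k → BV p.s)
/-- all permutation tables of source index `k`: a plain product over the keys -/
def Lvl (k : ℕ) : Type := (kk : Key p k) → Equiv.Perm (BV (tw kk.1 k))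
/-- a complete system of permutation tables -/
def Tab : Type := (k : ℕ) → Lvl p k
variable {p}

/-- the key read off a raw u-sequence -/
def key (U : ℕ → BV p.s) (k : ℕ) : Fin k → BV p.s := fun j => U j.1

/-- the transformation at source block `k` (rules 1-3); `G` = indices where the gate is forced on -/
noncomputable def rule (G : ℕ → Prop) (𝔗 : Tab p) (l : Label p) (U : ℕ → BV p.s) (k : ℕ)
    (x : BV p.s) : BV p.s :=
  if inZone l k then x
  else if gate U k ∨ G k then actPre (tw l k) (𝔗 k (l, key U k)) x else x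

/-- right-hand side of the edge equation at index `k` -/
noncomputable def rhs (F G : ℕ → Prop) (𝔗 : Tab p) (l : Label p) (U : ℕ → BV p.s) : ℕ → BV p.s
  | 0 => place 0 l.h0
  | 1 => fun m =>
      if m.1 < p.s - p.r then ext0 l.h0 (2 * p.r - p.s + m.1)
      else ext0 (rule G 𝔗 l U 0 (U 0 + corU F l U 0)) (m.1 - (p.s - p.r))
  | (k + 2) => rule G 𝔗 l U (k + 1) (U (k + 1) + corU F l U (k + 1))

/-- the corrected evaluation `Q k` -/
noncomputable def evalQ (F : ℕ → Prop) (cf : Coef p) (l : Label p) (U V : ℕ → BV p.s) (k : ℕ) :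
    BV p.s :=
  V k + corV F l U k + cf.at l k (U k + corU F l U k)

/-- the edge equation at index `k` -/
def EqAt (F G : ℕ → Prop) (cf : Coef p) (𝔗 : Tab p) (l : Label p) (U V : ℕ → BV p.s) (k : ℕ) :
    Prop :=
  evalQ F cf l U V k = rhs F G 𝔗 l U k

/-- the universal padded edge equations (2.13) -/
def UnivEq (cf : Coef p) (𝔗 : Tab p) (l : Label p) (U V : ℕ → BV p.s) : Prop :=
  ∀ k, EqAt (fun _ => False) (fun _ => False) cf 𝔗 l U V k

/-- the auxiliary prescription at the occurrence with common height `h` -/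
def AuxEq (h : ℕ) (cf : Coef p) (𝔗 : Tab p) (l : Label p) (U V : ℕ → BV p.s) : Prop :=
  ∀ k, EqAt (fun k => k = p.xIdx l.ty h) (fun k => k = p.kap h) cf 𝔗 l U V k

/-! ### vertices, edges -/

/-- block `k` belongs to the side `sd` (`false` = A = even, `true` = B = odd) -/
def own (sd : Bool) (k : ℕ) : Prop := (k % 2 = 1 ↔ sd = true)

variable (p)
/-- a vertex state, as zero padded block sequences indexed by the source index -/
@[ext] structure Vtx where
  sd : Bool
  ht : ℕ
  u : ℕ → BV p.s
  v : ℕ → BV p.s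
  hu : ∀ k, IsPre (if own sd k then p.aw ht k else 0) (u k)
  hv : ∀ k, IsPre (if own sd k then p.bw ht k else 0) (v k)

/-- the layer `A_i` (`sd = false`) or `B_i` (`sd = true`) -/
def Layer (sd : Bool) (i : ℕ) : Type := {x : Vtx p // x.sd = sd ∧ x.ht = i}
variable {p}

/-- raw u- and v-sequences of a pair of endpoints -/
def zipU (a b : Vtx p) (k : ℕ) : BV p.s := a.u k + b.u k
def zipV (a b : Vtx p) (k : ℕ) : BV p.s := a.v k + b.v k

/-- the extra bits read from a state `x` (meaningful for the larger endpoint of `(τ,h)`) -/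
noncomputable def xbits (τ : Fin p.T) (h : ℕ) (x : Vtx p) : BV p.b :=
  slice (p.xOff h) p.b (if p.xInU τ h then x.u (p.xIdx τ h) else x.v (p.xIdx τ h))

/-- `(a,b,l)` is an edge of the auxiliary incidence of type `l.ty` with common height `h` -/
structure IsEdge0 (cf : Coef p) (𝔗 : Tab p) (h : ℕ) (a b : Vtx p) (l : Label p) : Prop where
  sa : a.sd = false
  sb : b.sd = true
  ha : a.ht = p.aHt l.ty h
  hb : b.ht = p.bHt l.ty h
  hrho : l.rho.1 = h % p.M
  edn : p.off l.ty = Off.dn → xbits l.ty h a = l.e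
  eup : p.off l.ty = Off.up → xbits l.ty h b = l.e
  eeq : p.off l.ty = Off.eq → l.e = 0
  aux : AuxEq h cf 𝔗 l (zipU a b) (zipV a b)

variable (p)
/-- common raw u-data at the common height `h` (the free coordinates of Lemma `incidence-inversion`) -/
def UC (h : ℕ) : Type := {W : ℕ → BV p.s // ∀ k, IsPre (p.aw h k) (W k)}
variable {p}

/-- the extra bits `e` of the occurrence `(τ,h)` as a u-sequence (zero if the extra interval is in v) -/
noncomputable def xU (τ : Fin p.T) (h : ℕ) (e : BV p.b) (k : ℕ) : BV p.s :=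
  if p.xInU τ h ∧ k = p.xIdx τ h then place (p.xOff h) e else 0

/-! ### deletions -/

/-- the three gate tests for one auxiliary edge with raw u-data `U` -/
def BadGates (h : ℕ) (l : Label p) (U : ℕ → BV p.s) : Prop :=
  (¬ gate U (p.kap h) ∨ ¬ gate U (p.kap h - 1) ∨ ¬ gate U (p.kap h - 2)) ∨
  (p.off l.ty ≠ Off.eq ∧ ¬ gate U (p.xIdx l.ty h)) ∨
  (∃ par : ℕ, par < 2 ∧
    ((Finset.Ico 1 (p.kap h)).filter (fun k => k % 2 = par)).card <
      250 * ((Finset.Ico 1 (p.kap h)).filter (fun k => k % 2 = par ∧ ¬ gate U k)).card)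

/-- deleted for gate reasons -/
def GateBad (cf : Coef p) (𝔗 : Tab p) (x : Vtx p) : Prop :=
  ∃ (h : ℕ) (a b : Vtx p) (l : Label p), IsEdge0 cf 𝔗 h a b l ∧ (x = a ∨ x = b) ∧
    BadGates h l (zipU a b)

/-- bit `n` of the raw own-side u-stream of `x` -/
noncomputable def ubit (x : Vtx p) (n : ℕ) : ZMod 2 :=
  if x.sd = true then ext0 (x.u (2 * (n / p.s) + 1)) (n % p.s)
  else if n < p.r then ext0 (x.u 0) n
  else ext0 (x.u (2 * ((n - p.r) / p.s) + 2)) ((n - p.r) % p.s)

/-- own-side u-length at height `i` -/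
def lC (p : Par) (sd : Bool) (i : ℕ) : ℕ := if sd = true then p.lB i else p.lA i

/-- deleted for separation (`η_sep = 1/2500`) -/
def SepBad (x : Vtx p) : Prop :=
  ∃ i', i' < x.ht ∧ i' % p.M = x.ht % p.M ∧
    ∀ n, n < min (p.H i' / 2500) ((x.ht - i') * p.b / 2) → ubit x (lC p x.sd i' + n) = 0

/-- vertices of `X^good` -/
def Good (cf : Coef p) (𝔗 : Tab p) (x : Vtx p) : Prop := ¬ GateBad cf 𝔗 x ∧ ¬ SepBad x

/-! ### the labelled graph, walks -/

/-- one oriented step with signed label `(l, σ)`: `σ = true` positive (A to B), `false` negative -/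
def Step (cf : Coef p) (𝔗 : Tab p) (x y : Vtx p) (ls : Label p × Bool) : Prop :=
  if ls.2 = true then ∃ h, IsEdge0 cf 𝔗 h x y ls.1 else ∃ h, IsEdge0 cf 𝔗 h y x ls.1

/-- a walk of length `N` inside the vertex set `S` (only `vx 0..N`, `lb 0..N-1` matter) -/
structure IsWalk (cf : Coef p) (𝔗 : Tab p) (S : Vtx p → Prop) (N : ℕ) (vx : ℕ → Vtx p)
    (lb : ℕ → Label p × Bool) : Prop where
  mem : ∀ n, n ≤ N → S (vx n)
  step : ∀ n, n < N → Step cf 𝔗 (vx n) (vx (n + 1)) (lb n)

/-- the label word is freely reduced (= the walk is immersed, by foldedness) -/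
def Reduced (N : ℕ) (lb : ℕ → Label p × Bool) : Prop :=
  ∀ n, n + 1 < N → ¬ ((lb (n + 1)).1 = (lb n).1 ∧ (lb (n + 1)).2 = !(lb n).2)

/-- forces the on-demand equation lemmas of the definitions of this file to live here
(RULES.md, rule 6) -/
theorem lab_defs_eqns : True := by
  have := @AuxEq.eq_1
  have := @AuxEq.congr_simp
  have := @BV.eq_1
  have := @BV.congr_simp
  have := @BadGates.eq_1
  have := @BadGates.congr_simp
  have := @Coef.at.eq_1
  have := @Coef.at.congr_simp
  have := @EqAt.eq_1
  have := @EqAt.congr_simp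
  have := @GateBad.eq_1
  have := @GateBad.congr_simp
  have := @Good.eq_1
  have := @Good.congr_simp
  have := @IsPre.eq_1
  have := @IsPre.congr_simp
  have := @Key.eq_1
  have := @Key.congr_simp
  have := @Label.buck.eq_1
  have := @Label.buck.congr_simp
  have := @Label.nameA.eq_1
  have := @Label.nameA.congr_simp
  have := @Label.nameB.eq_1
  have := @Label.nameB.congr_simp
  have := @Label.tail.eq_1
  have := @Label.tail.congr_simp
  have := @Layer.eq_1
  have := @Layer.congr_simp
  have := @Lvl.eq_1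
  have := @Lvl.congr_simp
  have := @Par.D.eq_1
  have := @Par.D.congr_simp
  have := @Par.H.eq_1
  have := @Par.H.congr_simp
  have := @Par.KK.eq_1
  have := @Par.KK.congr_simp
  have := @Par.M.eq_1
  have := @Par.M.congr_simp
  have := @Par.aHt.eq_1
  have := @Par.aHt.congr_simp
  have := @Par.aw.eq_1
  have := @Par.aw.congr_simp
  have := @Par.bHt.eq_1
  have := @Par.bHt.congr_simp
  have := @Par.bw.eq_1
  have := @Par.bw.congr_simp
  have := @Par.d.eq_1
  have := @Par.d.congr_simp
  have := @Par.kap.eq_1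
  have := @Par.kap.congr_simp
  have := @Par.lA.eq_1
  have := @Par.lA.congr_simp
  have := @Par.lB.eq_1
  have := @Par.lB.congr_simp
  have := @Par.lD.eq_1
  have := @Par.lD.congr_simp
  have := @Par.ld.eq_1
  have := @Par.ld.congr_simp
  have := @Par.lq.eq_1
  have := @Par.lq.congr_simp
  have := @Par.r.eq_1
  have := @Par.r.congr_simp
  have := @Par.tt.eq_1
  have := @Par.tt.congr_simp
  have := @Par.wd.eq_1
  have := @Par.wd.congr_simp
  have := @Par.xIdx.eq_1
  have := @Par.xIdx.congr_simp
  have := @Par.xInU.eq_1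
  have := @Par.xInU.congr_simp
  have := @Par.xInV.eq_1
  have := @Par.xInV.congr_simp
  have := @Par.xOff.eq_1
  have := @Par.xOff.congr_simp
  have := @Reduced.eq_1
  have := @Reduced.congr_simp
  have := @SepBad.eq_1
  have := @SepBad.congr_simp
  have := @Step.eq_1
  have := @Step.congr_simp
  have := @Tab.eq_1
  have := @Tab.congr_simp
  have := @UC.eq_1
  have := @UC.congr_simp
  have := @UnivEq.eq_1
  have := @UnivEq.congr_simp
  have := @actPre.eq_1
  have := @actPre.congr_simp
  have := @corU.eq_1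
  have := @corU.congr_simp
  have := @corV.eq_1
  have := @corV.congr_simp
  have := @evalQ.eq_1
  have := @evalQ.congr_simp
  have := @ext0.eq_1
  have := @ext0.congr_simp
  have := @gate.eq_1
  have := @gate.congr_simp
  have := @inZone.eq_1
  have := @inZone.congr_simp
  have := @isCut.eq_1
  have := @isCut.congr_simp
  have := @isXU.eq_1
  have := @isXU.congr_simp
  have := @isXV.eq_1
  have := @isXV.congr_simp
  have := @key.eq_1
  have := @key.congr_simp
  have := @lC.eq_1
  have := @lC.congr_simp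
  have := @own.eq_1
  have := @own.congr_simp
  have := @place.eq_1
  have := @place.congr_simp
  have := @res.eq_1
  have := @res.congr_simp
  have := @rhs.eq_1
  have := @rhs.eq_2
  have := @rhs.eq_3
  have := @rhs.congr_simp
  have := @rule.eq_1
  have := @rule.congr_simp
  have := @slice.eq_1
  have := @slice.congr_simp
  have := @tw.eq_1
  have := @tw.congr_simp
  have := @ubit.eq_1
  have := @ubit.congr_simp
  have := @xU.eq_1
  have := @xU.congr_simp
  have := @xbits.eq_1
  have := @xbits.congr_simp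
  have := @zipU.eq_1
  have := @zipU.congr_simp
  have := @zipV.eq_1
  have := @zipV.congr_simp
  trivial

end Claimed.Agent.R300.Lab
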