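/-
Row 300 / S0553 (INJ paper), Section 01_labeling, package L0 (LabArith): arithmetic of cutoffs.
Owner: helper31.
-/
import Claimed.Agent.R300.LabDefs

set_option autoImplicit false

namespace Claimed.Agent.R300.Lab

open Classical

variable {p : Par}

/-! ## L0: arithmetic of cutoffs -/

/-- characterisation of `⌈y/s⌉` -/
theorem lab_ceil_char (s y k t : ℕ) (hk : 1 ≤ k) (ht1 : 1 ≤ t) (hts : t ≤ s)
    (hy : y = (k - 1) * s + t) : (y + s - 1) / s = k := by
  obtain ⟨k', rfl⟩ : ∃ k', k = k' + 1 := ⟨k - 1, by omega⟩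
  have hs : 0 < s := by omega
  have h1 : y + s - 1 = (t - 1) + s * (k' + 1) := by
    simp only [Nat.add_sub_cancel] at hy
    have : s * (k' + 1) = k' * s + s := by ring
    omega
  rw [h1, Nat.add_mul_div_left _ _ hs, Nat.div_eq_of_lt (by omega)]
  omega

theorem lab_b_dvd_s (hp : p.Adm) : p.b ∣ p.s := Dvd.dvd.trans (Dvd.intro_left 5 rfl) hp.h5b

theorem lab_b_le_s (hp : p.Adm) : p.b ≤ p.s := Nat.le_of_dvd hp.hs (lab_b_dvd_s hp)

/-- `r = 3s/5` exactly -/
theorem lab_r_spec (hp : p.Adm) : 5 * p.r = 3 * p.s := by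
  obtain ⟨c, hc⟩ := hp.h20000
  unfold Par.r
  rw [hc]
  omega

theorem lab_b_dvd_r (hp : p.Adm) : p.b ∣ p.r := by
  obtain ⟨c, hc⟩ := hp.h5b
  have h := lab_r_spec hp
  refine ⟨3 * c, ?_⟩
  have : 5 * p.r = 5 * (p.b * (3 * c)) := by rw [h, hc]; ring
  omega

/-- `L_h = c_(kap h) + tt h`, `tt h ∈ {b,2b,..,s}` -/
theorem lab_kap_spec (hp : p.Adm) (h : ℕ) :
    2 * p.n0 * p.s + p.b * h = (p.kap h - 1) * p.s + p.tt h ∧ p.b ≤ p.tt h ∧ p.tt h ≤ p.s ∧
      p.b ∣ p.tt h ∧ 2 * p.n0 ≤ p.kap h := by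
  have hs := hp.hs
  have hn0 := hp.hn0
  set y := 2 * p.n0 * p.s + p.b * h with hy
  have hkap : p.kap h = (y + p.s - 1) / p.s := rfl
  have htt : p.tt h = y - (p.kap h - 1) * p.s := rfl
  set κ := p.kap h with hκ
  have hypos : 2 * p.n0 * p.s ≤ y := by omega
  have h1 : κ * p.s ≤ y + p.s - 1 := by rw [hkap]; exact Nat.div_mul_le_self _ _
  have h2 : y + p.s - 1 < (κ + 1) * p.s := by
    rw [hkap]
    have h3 := Nat.div_add_mod (y + p.s - 1) p.s
    have h4 := Nat.mod_lt (y + p.s - 1) hs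
    have h5 : ((y + p.s - 1) / p.s + 1) * p.s = p.s * ((y + p.s - 1) / p.s) + p.s := by ring
    omega
  have hκ2 : 2 * p.n0 ≤ κ := by
    rw [hkap, Nat.le_div_iff_mul_le hs]
    omega
  have hκ1 : 1 ≤ κ := by omega
  obtain ⟨κ', hκ'⟩ : ∃ κ', κ = κ' + 1 := ⟨κ - 1, by omega⟩
  have e1 : (κ - 1) * p.s = κ' * p.s := by rw [hκ']; simp
  have e2 : κ * p.s = κ' * p.s + p.s := by rw [hκ']; ring
  have e3 : (κ + 1) * p.s = κ' * p.s + p.s + p.s := by rw [hκ']; ring
  have hle : (κ - 1) * p.s + 1 ≤ y := by omega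
  have hA : y = (κ - 1) * p.s + p.tt h := by rw [htt]; omega
  have hB : p.tt h ≤ p.s := by rw [htt]; omega
  have hpos : 1 ≤ p.tt h := by rw [htt]; omega
  have hdvd : p.b ∣ p.tt h := by
    rw [htt]
    apply Nat.dvd_sub
    · rw [hy]
      exact Dvd.dvd.add (Dvd.dvd.mul_left (lab_b_dvd_s hp) _) (Dvd.intro _ rfl)
    · exact Dvd.dvd.mul_left (lab_b_dvd_s hp) _
  exact ⟨hA, Nat.le_of_dvd hpos hdvd, hB, hdvd, hκ2⟩

/-- uniqueness: a decomposition `L = c_k + t` determines `kap` and `tt` -/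
theorem lab_kap_unique (h k t : ℕ) (hk : 1 ≤ k) (ht1 : 1 ≤ t) (hts : t ≤ p.s)
    (hy : 2 * p.n0 * p.s + p.b * h = (k - 1) * p.s + t) : p.kap h = k ∧ p.tt h = t := by
  have h1 : p.kap h = k := lab_ceil_char p.s _ k t hk ht1 hts hy
  refine ⟨h1, ?_⟩
  unfold Par.tt
  rw [h1]
  omega

theorem lab_kap_succ (hp : p.Adm) (h : ℕ) :
    (p.tt h = p.s → p.kap (h + 1) = p.kap h + 1 ∧ p.tt (h + 1) = p.b) ∧
    (p.tt h < p.s → p.kap (h + 1) = p.kap h ∧ p.tt (h + 1) = p.tt h + p.b) := by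
  obtain ⟨hA, hb1, hb2, hdvd, hk⟩ := lab_kap_spec hp h
  have hn0 := hp.hn0
  have hb := hp.hb
  have hbs := lab_b_le_s hp
  have hexp : p.b * (h + 1) = p.b * h + p.b := by ring
  constructor
  · intro ht
    apply lab_kap_unique (h + 1) (p.kap h + 1) p.b (by omega) hb hbs
    obtain ⟨κ', hκ'⟩ : ∃ κ', p.kap h = κ' + 1 := ⟨p.kap h - 1, by omega⟩
    rw [hκ'] at hA ⊢
    simp only [Nat.add_sub_cancel] at hA ⊢
    have : (κ' + 1) * p.s = κ' * p.s + p.s := by ring
    omega
  · intro ht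
    obtain ⟨c, hc⟩ := hdvd
    obtain ⟨c', hc'⟩ := lab_b_dvd_s hp
    have hlt : c < c' := by
      rw [hc, hc'] at ht
      exact Nat.lt_of_mul_lt_mul_left ht
    have hle : p.tt h + p.b ≤ p.s := by
      rw [hc, hc']
      calc p.b * c + p.b = p.b * (c + 1) := by ring
        _ ≤ p.b * c' := Nat.mul_le_mul_left _ hlt
    apply lab_kap_unique (h + 1) (p.kap h) (p.tt h + p.b) (by omega) (by omega) hle
    omega

/-- consecutive occurrences of a family: the cutoff moves by `K` blocks, the phase is constant -/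
theorem lab_kap_add_M (hp : p.Adm) (h n : ℕ) :
    p.kap (h + p.M * n) = p.kap h + p.KK * n ∧ p.tt (h + p.M * n) = p.tt h := by
  obtain ⟨hA, hb1, hb2, hdvd, hk⟩ := lab_kap_spec hp h
  have hn0 := hp.hn0
  have hb := hp.hb
  apply lab_kap_unique _ _ _ (by omega) (by omega) hb2
  obtain ⟨κ', hκ'⟩ : ∃ κ', p.kap h = κ' + 1 := ⟨p.kap h - 1, by omega⟩
  rw [hκ'] at hA ⊢
  have e : κ' + 1 + p.KK * n - 1 = κ' + p.KK * n := by omega
  rw [e]
  simp only [Nat.add_sub_cancel] at hA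
  have : p.b * (h + p.M * n) = p.b * h + (p.KK * n) * p.s := by
    unfold Par.M Par.KK; ring
  rw [this, add_mul]
  omega

theorem lab_KK_even (p : Par) : p.KK % 2 = 0 := by
  unfold Par.KK; omega

theorem lab_KK_ge (hp : p.Adm) : 2000000 ≤ p.KK := by
  have := hp.hb
  unfold Par.KK; omega

theorem lab_M_pos (hp : p.Adm) : 0 < p.M := by
  have := hp.hs
  unfold Par.M; omega

/-- reduction of an occurrence to the least occurrence of its family -/
theorem lab_kap_mod (hp : p.Adm) (h : ℕ) :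
    p.kap h = p.kap (h % p.M) + p.KK * (h / p.M) ∧ p.tt h = p.tt (h % p.M) := by
  have := lab_kap_add_M hp (h % p.M) (h / p.M)
  rwa [Nat.mod_add_div] at this

theorem lab_kap_succ_mod (hp : p.Adm) (h : ℕ) :
    p.kap (h + 1) = p.kap (h % p.M + 1) + p.KK * (h / p.M) ∧ p.tt (h + 1) = p.tt (h % p.M + 1) := by
  have := lab_kap_add_M hp (h % p.M + 1) (h / p.M)
  have e : h % p.M + 1 + p.M * (h / p.M) = h + 1 := by
    have := Nat.mod_add_div h p.M
    omega
  rwa [e] at this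

theorem lab_xInU_mod (hp : p.Adm) (τ : Fin p.T) (h : ℕ) : p.xInU τ h ↔ p.xInU τ (h % p.M) := by
  have h1 := (lab_kap_succ_mod hp h).1
  have h2 := lab_KK_even p
  have h3 : p.kap (h + 1) % 2 = p.kap (h % p.M + 1) % 2 := by
    rw [h1, Nat.add_mod, Nat.mul_mod, h2]; simp
  unfold Par.xInU
  rw [h3]

theorem lab_xInV_mod (hp : p.Adm) (τ : Fin p.T) (h : ℕ) : p.xInV τ h ↔ p.xInV τ (h % p.M) := by
  have h1 := (lab_kap_succ_mod hp h).1
  have h2 := lab_KK_even p
  have h3 : p.kap (h + 1) % 2 = p.kap (h % p.M + 1) % 2 := by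
    rw [h1, Nat.add_mod, Nat.mul_mod, h2]; simp
  unfold Par.xInV
  rw [h3]

theorem lab_xIdx_mod (hp : p.Adm) (τ : Fin p.T) (h : ℕ) :
    p.xIdx τ h = p.xIdx τ (h % p.M) + p.KK * (h / p.M) := by
  have h1 := (lab_kap_succ_mod hp h).1
  unfold Par.xIdx
  by_cases hx : p.xInU τ h
  · rw [if_pos hx, if_pos ((lab_xInU_mod hp τ h).1 hx), h1]
  · rw [if_neg hx, if_neg (fun h' => hx ((lab_xInU_mod hp τ h).2 h')), h1]; omega

theorem lab_xOff_mod (hp : p.Adm) (h : ℕ) : p.xOff h = p.xOff (h % p.M) := by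
  unfold Par.xOff
  rw [(lab_kap_succ_mod hp h).2]

/-- the extra interval is at most two blocks beyond the common cutoff -/
theorem lab_xIdx_range (hp : p.Adm) (τ : Fin p.T) (h : ℕ) :
    p.kap h ≤ p.xIdx τ h ∧ p.xIdx τ h ≤ p.kap h + 2 := by
  obtain ⟨h1, h2⟩ := lab_kap_succ hp h
  obtain ⟨-, -, hts, -, -⟩ := lab_kap_spec hp h
  unfold Par.xIdx
  rcases Nat.lt_or_ge (p.tt h) p.s with hlt | hge
  · have := (h2 hlt).1
    split_ifs <;> omega
  · have := (h1 (by omega)).1
    split_ifs <;> omega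

/-- exactly one of `xInU`, `xInV` for adjacent types, none for equal-height types -/
theorem lab_xInU_or_xInV (τ : Fin p.T) (h : ℕ) (hne : p.off τ ≠ Off.eq) :
    (p.xInU τ h ∧ ¬ p.xInV τ h) ∨ (¬ p.xInU τ h ∧ p.xInV τ h) := by
  unfold Par.xInU Par.xInV
  have hpar : p.kap (h + 1) % 2 = 0 ∨ p.kap (h + 1) % 2 = 1 := by omega
  cases hoff : p.off τ with
  | eq => exact absurd hoff hne
  | dn => rcases hpar with h0 | h0 <;> simp [h0]
  | up => rcases hpar with h0 | h0 <;> simp [h0]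

theorem lab_not_x_of_eq (τ : Fin p.T) (h : ℕ) (he : p.off τ = Off.eq) :
    ¬ p.xInU τ h ∧ ¬ p.xInV τ h := by
  unfold Par.xInU Par.xInV
  simp [he]

/-! ### sums of widths -/

theorem lab_sum_wd_even (p : Par) (n : ℕ) :
    (∑ k ∈ Finset.range n, if k % 2 = 0 then p.wd k else 0)
      = if n = 0 then 0 else p.r + p.s * ((n - 1) / 2) := by
  induction n with
  | zero => simp
  | succ n ih =>
    rw [Finset.sum_range_succ, ih]
    rcases Nat.eq_zero_or_pos n with rfl | hn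
    · simp [Par.wd]
    · have hn0 : n ≠ 0 := by omega
      simp only [hn0, if_false, Nat.succ_ne_zero, Nat.add_sub_cancel, Par.wd]
      by_cases hpar : n % 2 = 0
      · rw [if_pos hpar]
        have : n / 2 = (n - 1) / 2 + 1 := by omega
        rw [this]; ring
      · rw [if_neg hpar]
        have : n / 2 = (n - 1) / 2 := by omega
        rw [this]; ring

theorem lab_sum_wd_odd (p : Par) (n : ℕ) :
    (∑ k ∈ Finset.range n, if k % 2 = 1 then p.wd k else 0) = p.s * (n / 2) := by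
  induction n with
  | zero => simp
  | succ n ih =>
    rw [Finset.sum_range_succ, ih]
    by_cases hpar : n % 2 = 1
    · rw [if_pos hpar]
      have hn0 : n ≠ 0 := by omega
      have : (n + 1) / 2 = n / 2 + 1 := by omega
      simp only [Par.wd, hn0, if_false]
      rw [this]; ring
    · rw [if_neg hpar]
      have : (n + 1) / 2 = n / 2 := by omega
      rw [this]; ring

/-- sum of the active u-widths of a given parity -/
theorem lab_sum_aw (p : Par) (i par : ℕ) :
    (∑ k ∈ (Finset.range (p.kap i + 2)).filter (fun k => k % 2 = par), p.aw i k)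
      = (∑ k ∈ Finset.range (p.kap i), if k % 2 = par then p.wd k else 0)
        + if p.kap i % 2 = par then p.tt i else 0 := by
  rw [Finset.sum_filter, Finset.sum_range_succ, Finset.sum_range_succ]
  have h1 : p.aw i (p.kap i + 1) = 0 := by
    unfold Par.aw; rw [if_neg (by omega), if_neg (by omega)]
  have h2 : p.aw i (p.kap i) = p.tt i := by
    unfold Par.aw; rw [if_neg (by omega), if_pos rfl]
  rw [h1, h2]
  have h3 : (∑ k ∈ Finset.range (p.kap i), if k % 2 = par then p.aw i k else 0)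
      = ∑ k ∈ Finset.range (p.kap i), if k % 2 = par then p.wd k else 0 := by
    apply Finset.sum_congr rfl
    intro k hk
    have : k < p.kap i := Finset.mem_range.1 hk
    unfold Par.aw
    rw [if_pos this]
  rw [h3]
  simp

/-- the three positions of the cutoff relative to the pair structure -/
theorem lab_kap_cases (hp : p.Adm) (i : ℕ) :
    (p.b * i % (2 * p.s) = 0 ∧ p.kap i = 2 * (p.n0 + p.b * i / (2 * p.s)) ∧ p.tt i = p.s) ∨
    (0 < p.b * i % (2 * p.s) ∧ p.b * i % (2 * p.s) ≤ p.s ∧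
      p.kap i = 2 * (p.n0 + p.b * i / (2 * p.s)) + 1 ∧ p.tt i = p.b * i % (2 * p.s)) ∨
    (p.s < p.b * i % (2 * p.s) ∧
      p.kap i = 2 * (p.n0 + p.b * i / (2 * p.s)) + 2 ∧ p.tt i = p.b * i % (2 * p.s) - p.s) := by
  have hs := hp.hs
  have hn0 := hp.hn0
  have hdm := Nat.div_add_mod (p.b * i) (2 * p.s)
  have hlt := Nat.mod_lt (p.b * i) (show 0 < 2 * p.s by omega)
  generalize p.b * i / (2 * p.s) = q at *
  generalize p.b * i % (2 * p.s) = t' at *
  have e0 : 2 * p.s * q = 2 * q * p.s := by ring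
  have e1 : 2 * p.n0 * p.s + 2 * q * p.s = (2 * (p.n0 + q)) * p.s := by ring
  rcases Nat.eq_zero_or_pos t' with h0 | hpos
  · left
    refine ⟨h0, ?_⟩
    apply lab_kap_unique i _ _ (by omega) (by omega) le_rfl
    obtain ⟨N, hN⟩ : ∃ N, 2 * (p.n0 + q) = N + 1 := ⟨2 * (p.n0 + q) - 1, by omega⟩
    rw [hN] at e1 ⊢
    simp only [Nat.add_sub_cancel]
    have : (N + 1) * p.s = N * p.s + p.s := by ring
    omega
  · rcases Nat.lt_or_ge p.s t' with hgt | hle
    · right; right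
      refine ⟨hgt, ?_⟩
      apply lab_kap_unique i _ _ (by omega) (by omega) (by omega)
      have e2 : 2 * (p.n0 + q) + 2 - 1 = 2 * (p.n0 + q) + 1 := by omega
      rw [e2]
      have : (2 * (p.n0 + q) + 1) * p.s = (2 * (p.n0 + q)) * p.s + p.s := by ring
      omega
    · right; left
      refine ⟨hpos, hle, ?_⟩
      apply lab_kap_unique i _ _ (by omega) hpos hle
      simp only [Nat.add_sub_cancel]
      omega

theorem lab_sum_aw_even (hp : p.Adm) (i : ℕ) :
    (∑ k ∈ (Finset.range (p.kap i + 2)).filter (fun k => k % 2 = 0), p.aw i k) = p.lA i := by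
  rw [lab_sum_aw, lab_sum_wd_even]
  have hn0 := hp.hn0
  unfold Par.lA
  have hc := lab_kap_cases hp i
  generalize p.b * i / (2 * p.s) = q at *
  generalize p.b * i % (2 * p.s) = t' at *
  rcases hc with ⟨h0, hk, ht⟩ | ⟨h0, h1, hk, ht⟩ | ⟨h0, hk, ht⟩
  · rw [hk, ht, if_neg (by omega), if_pos (by omega), h0]
    obtain ⟨N, hN⟩ : ∃ N, p.n0 + q = N + 1 := ⟨p.n0 + q - 1, by omega⟩
    have e : (2 * (p.n0 + q) - 1) / 2 = N := by omega
    rw [e]
    have e2 : p.n0 * p.s + q * p.s = p.s * N + p.s := by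
      have : p.n0 * p.s + q * p.s = (p.n0 + q) * p.s := by ring
      rw [this, hN]; ring
    omega
  · rw [hk, ht, if_neg (by omega), if_neg (by omega)]
    have e : (2 * (p.n0 + q) + 1 - 1) / 2 = p.n0 + q := by omega
    rw [e]
    have e2 : p.s * (p.n0 + q) = p.n0 * p.s + q * p.s := by ring
    omega
  · rw [hk, ht, if_neg (by omega), if_pos (by omega)]
    have e : (2 * (p.n0 + q) + 2 - 1) / 2 = p.n0 + q := by omega
    rw [e]
    have e2 : p.s * (p.n0 + q) = p.n0 * p.s + q * p.s := by ring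
    omega

theorem lab_sum_aw_odd (hp : p.Adm) (i : ℕ) :
    (∑ k ∈ (Finset.range (p.kap i + 2)).filter (fun k => k % 2 = 1), p.aw i k) = p.lB i := by
  rw [lab_sum_aw, lab_sum_wd_odd]
  have hn0 := hp.hn0
  have hs := hp.hs
  have hlt := Nat.mod_lt (p.b * i) (show 0 < 2 * p.s by omega)
  unfold Par.lB
  have hc := lab_kap_cases hp i
  generalize p.b * i / (2 * p.s) = q at *
  generalize p.b * i % (2 * p.s) = t' at *
  have e2 : p.s * (p.n0 + q) = p.n0 * p.s + q * p.s := by ring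
  rcases hc with ⟨h0, hk, ht⟩ | ⟨h0, h1, hk, ht⟩ | ⟨h0, hk, ht⟩
  · rw [hk, if_neg (by omega), h0]
    have e : 2 * (p.n0 + q) / 2 = p.n0 + q := by omega
    rw [e]
    simp only [Nat.zero_min]
    omega
  · rw [hk, ht, if_pos (by omega)]
    have e : (2 * (p.n0 + q) + 1) / 2 = p.n0 + q := by omega
    rw [e, min_eq_left h1]
    omega
  · rw [hk, if_neg (by omega)]
    have e : (2 * (p.n0 + q) + 2) / 2 = p.n0 + q + 1 := by omega
    rw [e, min_eq_right (by omega)]
    have e3 : p.s * (p.n0 + q + 1) = p.n0 * p.s + q * p.s + p.s := by ring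
    omega

theorem lab_aw_zero (hp : p.Adm) (i : ℕ) : p.aw i 0 = p.r := by
  have := (lab_kap_spec hp i).2.2.2.2
  have := hp.hn0
  unfold Par.aw Par.wd
  rw [if_pos (by omega), if_pos rfl]

theorem lab_aw_beyond (p : Par) (i k : ℕ) (hk : p.kap i < k) : p.aw i k = 0 := by
  unfold Par.aw
  rw [if_neg (by omega), if_neg (by omega)]

theorem lab_sum_bw_even (hp : p.Adm) (i : ℕ) :
    (∑ k ∈ (Finset.range (p.kap i + 2)).filter (fun k => k % 2 = 0), p.bw i k) = p.r + p.lB i := by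
  rw [← lab_sum_aw_odd hp i, Finset.sum_filter, Finset.sum_filter, Finset.sum_range_succ',
    Finset.sum_range_succ _ (p.kap i + 1), lab_aw_beyond p i _ (by omega)]
  have h3 : (∑ k ∈ Finset.range (p.kap i + 1), if (k + 1) % 2 = 0 then p.bw i (k + 1) else 0)
      = ∑ k ∈ Finset.range (p.kap i + 1), if k % 2 = 1 then p.aw i k else 0 := by
    apply Finset.sum_congr rfl
    intro k _
    by_cases hk : k % 2 = 1
    · rw [if_pos hk, if_pos (by omega)]
      unfold Par.bw
      rw [if_neg (by omega), if_neg (by omega)]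
      simp
    · rw [if_neg hk, if_neg (by omega)]
  rw [h3]
  simp [Par.bw]
  ring

theorem lab_sum_bw_odd (hp : p.Adm) (i : ℕ) :
    (∑ k ∈ (Finset.range (p.kap i + 2)).filter (fun k => k % 2 = 1), p.bw i k)
      = p.s - p.r + p.lA i := by
  rw [← lab_sum_aw_even hp i, Finset.sum_filter, Finset.sum_filter, Finset.sum_range_succ',
    Finset.sum_range_succ _ (p.kap i + 1), lab_aw_beyond p i _ (by omega)]
  have hr := lab_r_spec hp
  rw [Finset.sum_range_succ' _ (p.kap i), Finset.sum_range_succ' _ (p.kap i)]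
  have h3 : (∑ k ∈ Finset.range (p.kap i), if (k + 1 + 1) % 2 = 1 then p.bw i (k + 1 + 1) else 0)
      = ∑ k ∈ Finset.range (p.kap i), if (k + 1) % 2 = 0 then p.aw i (k + 1) else 0 := by
    apply Finset.sum_congr rfl
    intro k _
    by_cases hk : (k + 1) % 2 = 0
    · rw [if_pos hk, if_pos (by omega)]
      unfold Par.bw
      rw [if_neg (by omega), if_neg (by omega)]
      simp
    · rw [if_neg hk, if_neg (by omega)]
  rw [h3, lab_aw_zero hp i]
  simp [Par.bw]
  omega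

theorem lab_lA_add_lB (hp : p.Adm) (i : ℕ) : p.lA i + p.lB i + p.s = p.H i + p.r := by
  have hs := hp.hs
  have hdm := Nat.div_add_mod (p.b * i) (2 * p.s)
  have hlt := Nat.mod_lt (p.b * i) (show 0 < 2 * p.s by omega)
  unfold Par.lA Par.lB Par.H
  generalize p.b * i / (2 * p.s) = q at *
  generalize p.b * i % (2 * p.s) = t' at *
  have e0 : 2 * p.s * q = q * p.s + q * p.s := by ring
  have e1 : (2 * p.n0 + 1) * p.s = p.n0 * p.s + p.n0 * p.s + p.s := by ring
  rcases le_total t' p.s with h | h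
  · rw [min_eq_left h]; omega
  · rw [min_eq_right h]; omega

/-- the zipper widths add up to the paper's stream lengths (2.2) -/
theorem lab_len_sums (hp : p.Adm) (i : ℕ) :
    (∑ k ∈ (Finset.range (p.kap i + 2)).filter (fun k => k % 2 = 0), p.aw i k) = p.lA i ∧
    (∑ k ∈ (Finset.range (p.kap i + 2)).filter (fun k => k % 2 = 1), p.aw i k) = p.lB i ∧
    (∑ k ∈ (Finset.range (p.kap i + 2)).filter (fun k => k % 2 = 0), p.bw i k) = p.r + p.lB i ∧
    (∑ k ∈ (Finset.range (p.kap i + 2)).filter (fun k => k % 2 = 1), p.bw i k)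
      = p.s - p.r + p.lA i ∧
    p.lA i + p.lB i + p.s = p.H i + p.r :=
  ⟨lab_sum_aw_even hp i, lab_sum_aw_odd hp i, lab_sum_bw_even hp i, lab_sum_bw_odd hp i,
    lab_lA_add_lB hp i⟩

end Claimed.Agent.R300.Lab
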