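/-
Row 300 / S0553 (INJ paper), Section 01_labeling, package L1 (LabBits): bit-vector library.
Owner: helper31.
-/
import Claimed.Agent.R300.LabDefs

set_option autoImplicit false

namespace Claimed.Agent.R300.Lab

open Classical

/-! ## L1: bit vectors -/

theorem lab_ext0_lt {n : ℕ} (x : BV n) (m : ℕ) (h : m < n) : ext0 x m = x ⟨m, h⟩ := by
  simp [ext0, h]

theorem lab_ext0_ge {n : ℕ} (x : BV n) (m : ℕ) (h : n ≤ m) : ext0 x m = 0 := by
  simp [ext0, Nat.not_lt.mpr h]

theorem lab_ext0_fin {n : ℕ} (x : BV n) (m : Fin n) : ext0 x m.1 = x m := by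
  simp [ext0, m.2]

theorem lab_ext0_zero {n : ℕ} (m : ℕ) : ext0 (0 : BV n) m = 0 := by
  unfold ext0; split_ifs <;> rfl

theorem lab_ext0_add {n : ℕ} (x y : BV n) (m : ℕ) : ext0 (x + y) m = ext0 x m + ext0 y m := by
  unfold ext0; split_ifs <;> simp

theorem lab_ext0_inj {n : ℕ} {x y : BV n} (h : ∀ m, m < n → ext0 x m = ext0 y m) : x = y := by
  funext m
  have := h m.1 m.2
  rwa [lab_ext0_fin, lab_ext0_fin] at this

theorem lab_res_ext0 {n : ℕ} (x : BV n) : res n (ext0 x) = x := by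
  funext m; simp [res, lab_ext0_fin]

theorem lab_ext0_res (n : ℕ) (f : ℕ → ZMod 2) (m : ℕ) :
    ext0 (res n f) m = if m < n then f m else 0 := by
  unfold ext0 res; split_ifs <;> rfl

/-- characteristic two -/
theorem lab_add_self {n : ℕ} (x : BV n) : x + x = 0 := by
  funext m
  exact CharTwo.add_self_eq_zero (x m)

theorem lab_add_cancel_right {n : ℕ} (x y : BV n) : x + y + y = x := by
  rw [add_assoc, lab_add_self, add_zero]

theorem lab_sub_eq_add {n : ℕ} (x y : BV n) : x - y = x + y := by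
  funext m
  exact CharTwo.sub_eq_add (x m) (y m)

/-! ### prefixes -/

theorem lab_isPre_zero {n : ℕ} (t : ℕ) : IsPre t (0 : BV n) := fun _ _ => rfl

theorem lab_isPre_add {n t : ℕ} {x y : BV n} (hx : IsPre t x) (hy : IsPre t y) :
    IsPre t (x + y) := fun m hm => by simp [hx m hm, hy m hm]

theorem lab_isPre_mono {n t t' : ℕ} {x : BV n} (h : t ≤ t') (hx : IsPre t x) : IsPre t' x :=
  fun m hm => hx m (le_trans h hm)

theorem lab_isPre_full {n t : ℕ} (h : n ≤ t) (x : BV n) : IsPre t x :=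
  fun m hm => absurd m.2 (by omega)

theorem lab_isPre_zero_iff {n : ℕ} (x : BV n) : IsPre 0 x ↔ x = 0 :=
  ⟨fun h => funext fun m => h m (Nat.zero_le _), fun h => h ▸ lab_isPre_zero 0⟩

theorem lab_isPre_ext0 {n t : ℕ} {x : BV n} (hx : IsPre t x) (m : ℕ) (hm : t ≤ m) :
    ext0 x m = 0 := by
  by_cases h : m < n
  · rw [lab_ext0_lt x m h]; exact hx ⟨m, h⟩ hm
  · exact lab_ext0_ge x m (by omega)

theorem lab_isPre_of_ext0 {n t : ℕ} {x : BV n} (h : ∀ m, t ≤ m → ext0 x m = 0) : IsPre t x :=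
  fun m hm => by rw [← lab_ext0_fin x m]; exact h m.1 hm

/-- two `t`-prefix blocks with the same first `t` bits are equal -/
theorem lab_isPre_ext {n t : ℕ} {x y : BV n} (hx : IsPre t x) (hy : IsPre t y)
    (h : ∀ m, m < t → ext0 x m = ext0 y m) : x = y := by
  apply lab_ext0_inj
  intro m _
  by_cases hm : m < t
  · exact h m hm
  · rw [lab_isPre_ext0 hx m (by omega), lab_isPre_ext0 hy m (by omega)]

/-! ### `actPre` -/

theorem lab_actPre_lt {n : ℕ} (w : ℕ) (π : Equiv.Perm (BV w)) (x : BV n) (m : Fin n)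
    (h : m.1 < w) : actPre w π x m = π (res w (ext0 x)) ⟨m.1, h⟩ := by
  simp [actPre, h]

theorem lab_actPre_ge {n : ℕ} (w : ℕ) (π : Equiv.Perm (BV w)) (x : BV n) (m : Fin n)
    (h : w ≤ m.1) : actPre w π x m = x m := by
  simp [actPre, Nat.not_lt.mpr h]

theorem lab_res_actPre {n : ℕ} (w : ℕ) (hw : w ≤ n) (π : Equiv.Perm (BV w)) (x : BV n) :
    res w (ext0 (actPre w π x)) = π (res w (ext0 x)) := by
  funext m
  have hm : m.1 < n := lt_of_lt_of_le m.2 hw
  show ext0 (actPre w π x) m.1 = _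
  rw [lab_ext0_lt _ _ hm, lab_actPre_lt w π x ⟨m.1, hm⟩ m.2]

theorem lab_actPre_symm {n : ℕ} (w : ℕ) (hw : w ≤ n) (π : Equiv.Perm (BV w)) (x : BV n) :
    actPre w π.symm (actPre w π x) = x := by
  funext m
  by_cases h : m.1 < w
  · rw [lab_actPre_lt _ _ _ _ h, lab_res_actPre w hw, Equiv.symm_apply_apply]
    show ext0 x m.1 = x m
    exact lab_ext0_fin x m
  · rw [lab_actPre_ge _ _ _ _ (by omega), lab_actPre_ge _ _ _ _ (by omega)]

theorem lab_actPre_symm' {n : ℕ} (w : ℕ) (hw : w ≤ n) (π : Equiv.Perm (BV w)) (x : BV n) :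
    actPre w π (actPre w π.symm x) = x := by
  have := lab_actPre_symm w hw π.symm x
  rwa [Equiv.symm_symm] at this

/-- `actPre` is a permutation of the block -/
theorem lab_actPre_bij {n : ℕ} (w : ℕ) (hw : w ≤ n) (π : Equiv.Perm (BV w)) :
    Function.Bijective (actPre (n := n) w π) :=
  Function.bijective_iff_has_inverse.2
    ⟨actPre w π.symm, lab_actPre_symm w hw π, lab_actPre_symm' w hw π⟩

/-- ... that preserves every bit beyond the first `w` -/
theorem lab_actPre_pre {n : ℕ} (w t : ℕ) (hwt : w ≤ t) (π : Equiv.Perm (BV w)) (x : BV n) :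
    IsPre t (actPre w π x) ↔ IsPre t x := by
  constructor
  · intro h m hm
    have := h m hm
    rwa [lab_actPre_ge _ _ _ _ (by omega)] at this
  · intro h m hm
    rw [lab_actPre_ge _ _ _ _ (by omega)]
    exact h m hm

/-! ### `place`, `slice` -/

theorem lab_ext0_place {n c : ℕ} (o : ℕ) (e : BV c) (m : ℕ) (hm : m < n) :
    ext0 (place (n := n) o e) m = if o ≤ m then ext0 e (m - o) else 0 := by
  rw [lab_ext0_lt _ _ hm]; rfl

theorem lab_place_pre {n c : ℕ} (o : ℕ) (e : BV c) : IsPre (o + c) (place (n := n) o e) := by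
  intro m hm
  show (if o ≤ m.1 then ext0 e (m.1 - o) else 0) = 0
  rw [if_pos (by omega)]
  exact lab_ext0_ge e _ (by omega)

theorem lab_place_zero {n c : ℕ} (o : ℕ) : place (n := n) o (0 : BV c) = 0 := by
  funext m
  show (if o ≤ m.1 then ext0 (0 : BV c) (m.1 - o) else 0) = 0
  split_ifs
  · exact lab_ext0_zero _
  · rfl

theorem lab_slice_place {n c : ℕ} (o : ℕ) (h : o + c ≤ n) (e : BV c) :
    slice o c (place (n := n) o e) = e := by
  funext m
  show ext0 (place (n := n) o e) (o + m.1) = e m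
  rw [lab_ext0_place o e _ (by have := m.2; omega), if_pos (by omega)]
  have : o + m.1 - o = m.1 := by omega
  rw [this, lab_ext0_fin]

theorem lab_slice_add {n : ℕ} (o c : ℕ) (x y : BV n) :
    slice o c (x + y) = slice o c x + slice o c y := by
  funext m
  exact lab_ext0_add x y _

/-- removing the bits `[o, o+c)` of a block supported on `o + c` bits leaves an `o`-prefix -/
theorem lab_pre_add_place {n : ℕ} (o c : ℕ) (x : BV n) (hx : IsPre (o + c) x) :
    IsPre o (x + place o (slice o c x)) := by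
  intro m hm
  show x m + (if o ≤ m.1 then ext0 (slice o c x) (m.1 - o) else 0) = 0
  rw [if_pos hm]
  by_cases h : m.1 < o + c
  · rw [lab_ext0_lt _ _ (by omega)]
    show x m + ext0 x (o + (m.1 - o)) = 0
    have : o + (m.1 - o) = m.1 := by omega
    rw [this, lab_ext0_fin]
    exact CharTwo.add_self_eq_zero _
  · rw [lab_ext0_ge _ _ (by omega), hx m (by omega)]
    simp

/-- the slice of an `o`-prefix at offset `o` vanishes -/
theorem lab_slice_pre {n : ℕ} (o c : ℕ) (x : BV n) (hx : IsPre o x) : slice o c x = 0 := by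
  funext m
  exact lab_isPre_ext0 hx _ (by omega)

end Claimed.Agent.R300.Lab
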