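/-
Row 300 / S0553 (INJ paper), Section 01_labeling, package L1 (LabCard): cardinalities of prefix
spaces, layers and common u-data.  Section owner: helper31.
-/
import Claimed.Agent.R300.LabArith
import Claimed.Agent.R300.LabBits

set_option autoImplicit false

namespace Claimed.Agent.R300.Lab

open Classical

variable {p : Par}

/-- prefix blocks are bit vectors of the prefix length -/
noncomputable def preEquiv (n t : ℕ) (h : t ≤ n) : {x : BV n // IsPre t x} ≃ BV t where
  toFun x := res t (ext0 x.1)
  invFun y := ⟨res n (ext0 y), fun m hm => by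
    show ext0 y m.1 = 0
    exact lab_ext0_ge y m.1 hm⟩
  left_inv x := by
    apply Subtype.ext
    funext m
    show ext0 (res t (ext0 x.1)) m.1 = x.1 m
    rw [lab_ext0_res]
    by_cases hm : m.1 < t
    · rw [if_pos hm, lab_ext0_fin]
    · rw [if_neg hm]; exact (x.2 m (by omega)).symm
  right_inv y := by
    funext m
    show ext0 (res n (ext0 y)) m.1 = y m
    rw [lab_ext0_res, if_pos (by omega), lab_ext0_fin]

theorem lab_card_BV (t : ℕ) : Nat.card (BV t) = 2 ^ t := by
  rw [Nat.card_eq_fintype_card]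
  simp [ZMod.card]

/-- number of blocks supported on the first `t` bits -/
theorem lab_card_pre (n t : ℕ) (h : t ≤ n) : Nat.card {x : BV n // IsPre t x} = 2 ^ t := by
  rw [Nat.card_congr (preEquiv n t h), lab_card_BV]

/-- sequences of prefix blocks with finitely many nonzero widths -/
noncomputable def seqEquiv (n N : ℕ) (w : ℕ → ℕ) (hN : ∀ k, N ≤ k → w k = 0) :
    {W : ℕ → BV n // ∀ k, IsPre (w k) (W k)} ≃ ((k : Fin N) → {x : BV n // IsPre (w k.1) x}) where
  toFun W k := ⟨W.1 k.1, W.2 k.1⟩
  invFun f := ⟨fun k => if h : k < N then (f ⟨k, h⟩).1 else 0, fun k => by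
    by_cases h : k < N
    · simp only [h, dif_pos]; exact (f ⟨k, h⟩).2
    · simp only [h, dif_neg, not_false_eq_true]; exact lab_isPre_zero _⟩
  left_inv W := by
    apply Subtype.ext
    funext k
    by_cases h : k < N
    · simp only [h, dif_pos]
    · simp only [h, dif_neg, not_false_eq_true]
      have := W.2 k
      rw [hN k (by omega)] at this
      exact ((lab_isPre_zero_iff _).1 this).symm
  right_inv f := by
    funext k
    apply Subtype.ext
    simp only [k.2, dif_pos]

theorem lab_finite_seq (n N : ℕ) (w : ℕ → ℕ) (hN : ∀ k, N ≤ k → w k = 0) :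
    Finite {W : ℕ → BV n // ∀ k, IsPre (w k) (W k)} :=
  Finite.of_equiv _ (seqEquiv n N w hN).symm

theorem lab_card_seq (n N : ℕ) (w : ℕ → ℕ) (hw : ∀ k, w k ≤ n) (hN : ∀ k, N ≤ k → w k = 0) :
    Nat.card {W : ℕ → BV n // ∀ k, IsPre (w k) (W k)} = 2 ^ (∑ k ∈ Finset.range N, w k) := by
  rw [Nat.card_congr (seqEquiv n N w hN), Nat.card_pi]
  simp only [lab_card_pre n _ (hw _)]
  rw [Finset.prod_pow_eq_pow_sum, Finset.sum_range]

/-! ### widths -/

theorem lab_wd_le' (hp : p.Adm) (k : ℕ) : p.wd k ≤ p.s := by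
  have := lab_r_spec hp
  unfold Par.wd
  split_ifs <;> omega

theorem lab_aw_le' (hp : p.Adm) (i k : ℕ) : p.aw i k ≤ p.s := by
  have := lab_wd_le' hp k
  have := (lab_kap_spec hp i).2.2.1
  unfold Par.aw
  split_ifs <;> omega

theorem lab_bw_le' (hp : p.Adm) (i k : ℕ) : p.bw i k ≤ p.s := by
  have := lab_r_spec hp
  have := lab_aw_le' hp i (k - 1)
  unfold Par.bw
  split_ifs <;> omega

theorem lab_bw_beyond (hp : p.Adm) (i k : ℕ) (hk : p.kap i + 2 ≤ k) : p.bw i k = 0 := by
  unfold Par.bw
  rw [if_neg (by omega), if_neg (by omega)]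
  exact lab_aw_beyond p i _ (by omega)

/-- own-side widths -/
noncomputable def awO (p : Par) (sd : Bool) (i k : ℕ) : ℕ := if own sd k then p.aw i k else 0
noncomputable def bwO (p : Par) (sd : Bool) (i k : ℕ) : ℕ := if own sd k then p.bw i k else 0

theorem lab_own_iff (sd : Bool) (k : ℕ) : own sd k ↔ k % 2 = (if sd = true then 1 else 0) := by
  unfold own
  cases sd
  · simp
  · simp

theorem lab_sum_awO (p : Par) (sd : Bool) (i : ℕ) :
    (∑ k ∈ Finset.range (p.kap i + 2), awO p sd i k)
      = ∑ k ∈ (Finset.range (p.kap i + 2)).filter (fun k => k % 2 = (if sd = true then 1 else 0)),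
          p.aw i k := by
  rw [Finset.sum_filter]
  apply Finset.sum_congr rfl
  intro k _
  unfold awO
  simp only [lab_own_iff]

theorem lab_sum_bwO (p : Par) (sd : Bool) (i : ℕ) :
    (∑ k ∈ Finset.range (p.kap i + 2), bwO p sd i k)
      = ∑ k ∈ (Finset.range (p.kap i + 2)).filter (fun k => k % 2 = (if sd = true then 1 else 0)),
          p.bw i k := by
  rw [Finset.sum_filter]
  apply Finset.sum_congr rfl
  intro k _
  unfold bwO
  simp only [lab_own_iff]

/-- a layer is a product of two spaces of sequences -/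
noncomputable def layerEquiv (p : Par) (sd : Bool) (i : ℕ) :
    Layer p sd i ≃ {W : ℕ → BV p.s // ∀ k, IsPre (awO p sd i k) (W k)} ×
      {W : ℕ → BV p.s // ∀ k, IsPre (bwO p sd i k) (W k)} where
  toFun x := ⟨⟨x.1.u, fun k => by
      have := x.1.hu k
      rw [x.2.1, x.2.2] at this
      exact this⟩, ⟨x.1.v, fun k => by
      have := x.1.hv k
      rw [x.2.1, x.2.2] at this
      exact this⟩⟩
  invFun y := ⟨⟨sd, i, y.1.1, y.2.1, y.1.2, y.2.2⟩, rfl, rfl⟩
  left_inv x := by
    apply Subtype.ext
    apply Vtx.ext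
    · exact x.2.1.symm
    · exact x.2.2.symm
    · rfl
    · rfl
  right_inv y := rfl

theorem lab_awO_beyond (p : Par) (sd : Bool) (i k : ℕ) (hk : p.kap i + 2 ≤ k) : awO p sd i k = 0 := by
  unfold awO
  rw [lab_aw_beyond p i k (by omega)]
  simp

theorem lab_bwO_beyond (hp : p.Adm) (sd : Bool) (i k : ℕ) (hk : p.kap i + 2 ≤ k) :
    bwO p sd i k = 0 := by
  unfold bwO
  rw [lab_bw_beyond hp i k hk]
  simp

/-- the layers are finite -/
theorem lab_finite_layer (hp : p.Adm) (sd : Bool) (i : ℕ) : Finite (Layer p sd i) := by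
  haveI := lab_finite_seq p.s (p.kap i + 2) (awO p sd i) (lab_awO_beyond p sd i)
  haveI := lab_finite_seq p.s (p.kap i + 2) (bwO p sd i) (lab_bwO_beyond hp sd i)
  exact Finite.of_equiv _ (layerEquiv p sd i).symm

theorem lab_card_layer_aux (hp : p.Adm) (sd : Bool) (i : ℕ) :
    Nat.card (Layer p sd i) = 2 ^ ((∑ k ∈ Finset.range (p.kap i + 2), awO p sd i k)
      + ∑ k ∈ Finset.range (p.kap i + 2), bwO p sd i k) := by
  rw [Nat.card_congr (layerEquiv p sd i), Nat.card_prod,
    lab_card_seq p.s (p.kap i + 2) (awO p sd i) _ (lab_awO_beyond p sd i),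
    lab_card_seq p.s (p.kap i + 2) (bwO p sd i) _ (lab_bwO_beyond hp sd i), pow_add]
  · intro k
    unfold bwO
    have := lab_bw_le' hp i k
    split_ifs <;> omega
  · intro k
    unfold awO
    have := lab_aw_le' hp i k
    split_ifs <;> omega

/-- (2.4): sizes of the layers -/
theorem lab_card_layer (hp : p.Adm) (i : ℕ) :
    Nat.card (Layer p true i) = 2 ^ p.H i ∧
      Nat.card (Layer p false i) = 2 ^ (p.H i + 2 * p.r - p.s) := by
  obtain ⟨h1, h2, h3, h4, h5⟩ := lab_len_sums hp i
  have hr := lab_r_spec hp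
  constructor
  · rw [lab_card_layer_aux hp, lab_sum_awO, lab_sum_bwO]
    simp only [if_true]
    rw [h2, h4]
    congr 1
    omega
  · rw [lab_card_layer_aux hp, lab_sum_awO, lab_sum_bwO]
    simp only [Bool.false_eq_true, if_false]
    rw [h1, h3]
    congr 1
    omega

theorem lab_finite_UC (hp : p.Adm) (h : ℕ) : Finite (UC p h) :=
  lab_finite_seq p.s (p.kap h + 2) (p.aw h) (fun k hk => lab_aw_beyond p h k (by omega))

theorem lab_sum_aw_all (hp : p.Adm) (h : ℕ) :
    ∑ k ∈ Finset.range (p.kap h + 2), p.aw h k = p.H h + p.r - p.s := by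
  obtain ⟨h1, h2, h3, h4, h5⟩ := lab_len_sums hp h
  rw [← Finset.sum_filter_add_sum_filter_not (Finset.range (p.kap h + 2)) (fun k => k % 2 = 0), h1]
  have : (Finset.range (p.kap h + 2)).filter (fun k => ¬ k % 2 = 0)
      = (Finset.range (p.kap h + 2)).filter (fun k => k % 2 = 1) := by
    apply Finset.filter_congr
    intro k _
    omega
  rw [this, h2]
  omega

/-- number of common raw u-data at height `h`: `2^(L_h)`, `L_h = H_h + r - s` -/
theorem lab_card_UC (hp : p.Adm) (h : ℕ) : Nat.card (UC p h) = 2 ^ (p.H h + p.r - p.s) := by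
  rw [← lab_sum_aw_all hp h]
  exact lab_card_seq p.s (p.kap h + 2) (p.aw h) (lab_aw_le' hp h)
    (fun k hk => lab_aw_beyond p h k (by omega))

theorem lab_aw_full' (h k : ℕ) (h0 : 0 < k) (hk : k < p.kap h) : p.aw h k = p.s := by
  unfold Par.aw Par.wd
  rw [if_pos hk, if_neg (by omega)]

/-- common u-data with prescribed blocks `S` = sequences with the widths of `S` set to zero -/
noncomputable def ucBlocksEquiv (h : ℕ) (S : Finset ℕ) (hS : ∀ k ∈ S, 0 < k ∧ k < p.kap h)
    (c : ℕ → BV p.s) :
    {W : UC p h // ∀ k ∈ S, W.1 k = c k} ≃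
      {W : ℕ → BV p.s // ∀ k, IsPre (if k ∈ S then 0 else p.aw h k) (W k)} where
  toFun W := ⟨fun k => if k ∈ S then 0 else W.1.1 k, fun k => by
    by_cases hk : k ∈ S
    · simp only [hk, if_true]; exact lab_isPre_zero _
    · simp only [hk, if_false]; exact W.1.2 k⟩
  invFun Y := ⟨⟨fun k => if k ∈ S then c k else Y.1 k, fun k => by
    by_cases hk : k ∈ S
    · simp only [hk, if_true]
      rw [lab_aw_full' h k (hS k hk).1 (hS k hk).2]
      exact lab_isPre_full le_rfl _
    · have := Y.2 k
      simp only [hk, if_false] at this ⊢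
      exact this⟩, fun k hk => by simp only [hk, if_true]⟩
  left_inv W := by
    apply Subtype.ext
    apply Subtype.ext
    funext k
    by_cases hk : k ∈ S
    · simp only [hk, if_true]; exact (W.2 k hk).symm
    · simp only [hk, if_false]
  right_inv Y := by
    apply Subtype.ext
    funext k
    by_cases hk : k ∈ S
    · have := Y.2 k
      simp only [hk, if_true] at this ⊢
      exact ((lab_isPre_zero_iff _).1 this).symm
    · simp only [hk, if_false]

/-- prescribing the values of `m` active full blocks (indices in `S`, all `< kap h`, none `0`)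
cuts the number of common u-data by `2^(m s)` -/
theorem lab_card_UC_blocks (hp : p.Adm) (h : ℕ) (S : Finset ℕ) (hS : ∀ k ∈ S, 0 < k ∧ k < p.kap h)
    (c : ℕ → BV p.s) :
    2 ^ (S.card * p.s) * Nat.card {W : UC p h // ∀ k ∈ S, W.1 k = c k} = Nat.card (UC p h) := by
  rw [Nat.card_congr (ucBlocksEquiv h S hS c),
    lab_card_seq p.s (p.kap h + 2) (fun k => if k ∈ S then 0 else p.aw h k), ← pow_add,
    lab_card_UC hp h, ← lab_sum_aw_all hp h]
  · congr 1
    have h1 : ∀ k ∈ Finset.range (p.kap h + 2),
        p.aw h k = (if k ∈ S then p.s else 0) + (if k ∈ S then 0 else p.aw h k) := by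
      intro k _
      by_cases hk : k ∈ S
      · simp only [hk, if_true, add_zero]
        exact lab_aw_full' h k (hS k hk).1 (hS k hk).2
      · simp only [hk, if_false, zero_add]
    rw [Finset.sum_congr rfl h1, Finset.sum_add_distrib]
    congr 1
    rw [← Finset.sum_filter]
    have : (Finset.range (p.kap h + 2)).filter (fun k => k ∈ S) = S := by
      ext k
      simp only [Finset.mem_filter, Finset.mem_range]
      constructor
      · exact fun h' => h'.2
      · intro hk
        have := (hS k hk).2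
        exact ⟨by omega, hk⟩
    rw [this, Finset.sum_const, smul_eq_mul]
  · intro k
    have := lab_aw_le' hp h k
    show (if k ∈ S then 0 else p.aw h k) ≤ p.s
    split_ifs <;> omega
  · intro k hk
    show (if k ∈ S then 0 else p.aw h k) = 0
    rw [lab_aw_beyond p h k (by omega)]
    simp

/-- forces the on-demand equation lemmas of the definitions of this file to live here
(RULES.md, rule 6) -/
theorem lab_card_eqns : True := by
  have := @awO.eq_1
  have := @awO.congr_simp
  have := @bwO.eq_1
  have := @bwO.congr_simp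
  have := @layerEquiv.eq_1
  have := @layerEquiv.congr_simp
  have := @preEquiv.eq_1
  have := @preEquiv.congr_simp
  have := @seqEquiv.eq_1
  have := @seqEquiv.congr_simp
  have := @ucBlocksEquiv.eq_1
  have := @ucBlocksEquiv.congr_simp
  trivial

end Claimed.Agent.R300.Lab
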