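/-
Row 300 / S0553 (INJ paper), Section 01_labeling, package L3 (LabLocal): locality and determinacy of
the triangular edge equations.  Owner: helper31.
-/
import Claimed.Agent.R300.LabArith
import Claimed.Agent.R300.LabBits

set_option autoImplicit false

namespace Claimed.Agent.R300.Lab

open Classical

variable {p : Par}

/-! ## L3: locality / determinacy of the triangular equations -/

/-- gates at index `k` only read raw blocks of index `≤ k - 5` -/
theorem lab_gate_congr {n : ℕ} (U U' : ℕ → BV n) (k : ℕ) (h : ∀ j, j + 5 ≤ k → U j = U' j) :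
    gate U k ↔ gate U' k := by
  unfold gate
  constructor
  · rintro (h1 | ⟨j, hj1, hj2, hj3⟩)
    · exact Or.inl h1
    · by_cases hk : k ≤ 20
      · exact Or.inl hk
      · exact Or.inr ⟨j, hj1, hj2, by rw [← h j (by omega)]; exact hj3⟩
  · rintro (h1 | ⟨j, hj1, hj2, hj3⟩)
    · exact Or.inl h1
    · by_cases hk : k ≤ 20
      · exact Or.inl hk
      · exact Or.inr ⟨j, hj1, hj2, by rw [h j (by omega)]; exact hj3⟩

/-- a gate whose whole window vanishes is closed -/
theorem lab_gate_closed {n : ℕ} (U : ℕ → BV n) (k : ℕ) (hk : 20 < k)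
    (h : ∀ j, k ≤ j + 13 → j + 5 ≤ k → U j = 0) : ¬ gate U k := by
  unfold gate
  rintro (h1 | ⟨j, hj1, hj2, hj3⟩)
  · omega
  · exact hj3 (h j (by omega) (by omega))

theorem lab_corU_congr (F : ℕ → Prop) (l : Label p) (U U' : ℕ → BV p.s) (k : ℕ)
    (h : ∀ j, j + 5 ≤ k → U j = U' j) : corU F l U k = corU F l U' k := by
  unfold corU
  rw [lab_gate_congr U U' k h]

theorem lab_corV_congr (F : ℕ → Prop) (l : Label p) (U U' : ℕ → BV p.s) (k : ℕ)
    (h : ∀ j, j + 5 ≤ k → U j = U' j) : corV F l U k = corV F l U' k := by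
  unfold corV
  rw [lab_gate_congr U U' k h]

theorem lab_key_congr (U U' : ℕ → BV p.s) (k : ℕ) (h : ∀ j, j < k → U j = U' j) :
    key U k = key U' k := by
  funext j
  exact h j.1 j.2

theorem lab_rule_congr (G : ℕ → Prop) (𝔗 : Tab p) (l : Label p) (U U' : ℕ → BV p.s) (k : ℕ)
    (h : ∀ j, j < k → U j = U' j) (x : BV p.s) : rule G 𝔗 l U k x = rule G 𝔗 l U' k x := by
  unfold rule
  rw [lab_gate_congr U U' k (fun j hj => h j (by omega)), lab_key_congr U U' k h]

/-- the rule at level `k` only depends on the tables of level `k` -/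
theorem lab_rule_congr_tab (G : ℕ → Prop) (𝔗 𝔗' : Tab p) (l : Label p) (U : ℕ → BV p.s) (k : ℕ)
    (h : 𝔗 k = 𝔗' k) (x : BV p.s) : rule G 𝔗 l U k x = rule G 𝔗' l U k x := by
  unfold rule
  rw [h]

theorem lab_r_le_s (hp : p.Adm) : p.r ≤ p.s := by
  have := lab_r_spec hp
  omega

theorem lab_wd_le (hp : p.Adm) (k : ℕ) : p.wd k ≤ p.s := by
  unfold Par.wd
  split_ifs
  · exact lab_r_le_s hp
  · exact le_rfl

theorem lab_tw_le (hp : p.Adm) (l : Label p) (k : ℕ) : tw l k ≤ p.s := by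
  unfold tw
  split_ifs
  · exact (lab_kap_spec hp _).2.2.1
  · exact lab_wd_le hp k

theorem lab_rule_bij (hp : p.Adm) (G : ℕ → Prop) (𝔗 : Tab p) (l : Label p) (U : ℕ → BV p.s)
    (k : ℕ) : Function.Bijective (rule G 𝔗 l U k) := by
  unfold rule
  by_cases h1 : inZone l k
  · simp only [h1, if_true]; exact Function.bijective_id
  · by_cases h2 : gate U k ∨ G k
    · simp only [h1, h2, if_true, if_false]
      exact lab_actPre_bij _ (lab_tw_le hp l k) _
    · simp only [h1, h2, if_false]; exact Function.bijective_id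

/-- the rule preserves every prefix space that contains the table width -/
theorem lab_rule_pre (G : ℕ → Prop) (𝔗 : Tab p) (l : Label p) (U : ℕ → BV p.s)
    (k t : ℕ) (ht : tw l k ≤ t) (x : BV p.s) : IsPre t (rule G 𝔗 l U k x) ↔ IsPre t x := by
  unfold rule
  split_ifs
  · exact Iff.rfl
  · exact lab_actPre_pre _ _ ht _ _
  · exact Iff.rfl

/-- no marks among the first `2 n0` blocks -/
theorem lab_not_isCut_small (hp : p.Adm) (l : Label p) (k : ℕ) (hk : k < 2 * p.n0) :
    ¬ isCut l k := by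
  rintro ⟨n, hn⟩
  have := (lab_kap_spec hp l.rho).2.2.2.2
  omega

theorem lab_not_inZone_small (hp : p.Adm) (l : Label p) (k : ℕ) (hk : k ≤ 2 * p.n0) :
    ¬ inZone l k := by
  rintro ⟨n, hn1, _⟩
  have := (lab_kap_spec hp l.rho).2.2.2.2
  omega

theorem lab_not_isXU_small (hp : p.Adm) (l : Label p) (k : ℕ) (hk : k < 2 * p.n0) :
    ¬ isXU l k := by
  rintro ⟨_, n, hn⟩
  have := (lab_kap_spec hp l.rho).2.2.2.2
  have := (lab_xIdx_range hp l.ty l.rho).1
  omega

theorem lab_not_isXV_small (hp : p.Adm) (l : Label p) (k : ℕ) (hk : k < 2 * p.n0) :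
    ¬ isXV l k := by
  rintro ⟨_, n, hn⟩
  have := (lab_kap_spec hp l.rho).2.2.2.2
  have := (lab_xIdx_range hp l.ty l.rho).1
  omega

theorem lab_corU_small (hp : p.Adm) (F : ℕ → Prop) (l : Label p) (U : ℕ → BV p.s) (k : ℕ)
    (hk : k < 2 * p.n0) : corU F l U k = 0 := by
  unfold corU
  rw [if_neg (fun h => lab_not_isXU_small hp l k hk h.1)]

theorem lab_corV_small (hp : p.Adm) (F : ℕ → Prop) (l : Label p) (U : ℕ → BV p.s) (k : ℕ)
    (hk : k < 2 * p.n0) : corV F l U k = 0 := by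
  unfold corV
  rw [if_neg (fun h => lab_not_isXV_small hp l k hk h.1)]

theorem lab_tw_zero (hp : p.Adm) (l : Label p) : tw l 0 = p.r := by
  have := hp.hn0
  unfold tw
  rw [if_neg (lab_not_isCut_small hp l 0 (by omega))]
  simp [Par.wd]

theorem lab_rhs_congr (F G : ℕ → Prop) (𝔗 : Tab p) (l : Label p) (U U' : ℕ → BV p.s) (k : ℕ)
    (h : ∀ j, j < k → U j = U' j) : rhs F G 𝔗 l U k = rhs F G 𝔗 l U' k := by
  match k, h with
  | 0, _ => rfl
  | 1, h =>
    funext m
    show (if m.1 < p.s - p.r then _ else _) = (if m.1 < p.s - p.r then _ else _)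
    rw [lab_corU_congr F l U U' 0 (fun j hj => by omega), h 0 (by omega)]
    have : rule G 𝔗 l U 0 (U' 0 + corU F l U' 0) = rule G 𝔗 l U' 0 (U' 0 + corU F l U' 0) :=
      lab_rule_congr G 𝔗 l U U' 0 (fun j hj => by omega) _
    rw [this]
  | (k + 2), h =>
    show rule G 𝔗 l U (k + 1) (U (k + 1) + corU F l U (k + 1))
      = rule G 𝔗 l U' (k + 1) (U' (k + 1) + corU F l U' (k + 1))
    rw [lab_corU_congr F l U U' (k + 1) (fun j hj => h j (by omega)), h (k + 1) (by omega)]
    exact lab_rule_congr G 𝔗 l U U' (k + 1) (fun j hj => h j (by omega)) _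

/-- `rhs` at index `k` only depends on the tables of level `k - 1` -/
theorem lab_rhs_congr_tab (F G : ℕ → Prop) (𝔗 𝔗' : Tab p) (l : Label p) (U : ℕ → BV p.s) (k : ℕ)
    (h : 𝔗 (k - 1) = 𝔗' (k - 1)) : rhs F G 𝔗 l U k = rhs F G 𝔗' l U k := by
  match k, h with
  | 0, _ => rfl
  | 1, h =>
    funext m
    show (if m.1 < p.s - p.r then _ else _) = (if m.1 < p.s - p.r then _ else _)
    rw [lab_rule_congr_tab G 𝔗 𝔗' l U 0 h]
  | (k + 2), h => exact lab_rule_congr_tab G 𝔗 𝔗' l U (k + 1) h _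

theorem lab_own_succ (sd : Bool) (k : ℕ) : own sd (k + 1) ↔ ¬ own sd k := by
  unfold own
  cases sd <;> simp <;> omega

theorem lab_evalQ_congr (F : ℕ → Prop) (cf : Coef p) (l : Label p) (U V U' V' : ℕ → BV p.s) (k : ℕ)
    (h : ∀ j, j + 5 ≤ k → U j = U' j) (hU : U k = U' k) (hV : V k = V' k) :
    evalQ F cf l U V k = evalQ F cf l U' V' k := by
  unfold evalQ
  rw [lab_corU_congr F l U U' k h, lab_corV_congr F l U U' k h, hU, hV]

/-- the source block `j` is determined by `rhs (j+1)` and the earlier raw blocks -/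
theorem lab_rhs_inj (hp : p.Adm) (F G : ℕ → Prop) (𝔗 : Tab p) (l : Label p)
    (U U' : ℕ → BV p.s) (hU0 : IsPre p.r (U 0)) (hU0' : IsPre p.r (U' 0)) (j : ℕ)
    (h : ∀ i, i < j → U i = U' i) (he : rhs F G 𝔗 l U (j + 1) = rhs F G 𝔗 l U' (j + 1)) :
    U j = U' j := by
  have hn0 := hp.hn0
  match j, h, he with
  | 0, _, he =>
    have hc : corU F l U 0 = 0 := lab_corU_small hp F l U 0 (by omega)
    have hc' : corU F l U' 0 = 0 := lab_corU_small hp F l U' 0 (by omega)
    have hrs := lab_r_le_s hp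
    have e1 : ∀ n, n < p.r → ext0 (rule G 𝔗 l U 0 (U 0)) n = ext0 (rule G 𝔗 l U' 0 (U' 0)) n := by
      intro n hn
      have := congrFun he ⟨n + (p.s - p.r), by omega⟩
      simp only [rhs, hc, hc', add_zero] at this
      rw [if_neg (by omega), if_neg (by omega)] at this
      simpa using this
    have e2 : rule G 𝔗 l U 0 (U 0) = rule G 𝔗 l U' 0 (U' 0) := by
      apply lab_isPre_ext (t := p.r) _ _ e1
      · exact (lab_rule_pre G 𝔗 l U 0 p.r (lab_tw_zero hp l).le _).2 hU0
      · exact (lab_rule_pre G 𝔗 l U' 0 p.r (lab_tw_zero hp l).le _).2 hU0'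
    rw [lab_rule_congr G 𝔗 l U U' 0 (fun i hi => by omega)] at e2
    exact (lab_rule_bij hp G 𝔗 l U' 0).1 e2
  | (j + 1), h, he =>
    have e2 : rule G 𝔗 l U (j + 1) (U (j + 1) + corU F l U (j + 1))
        = rule G 𝔗 l U' (j + 1) (U' (j + 1) + corU F l U' (j + 1)) := he
    rw [lab_rule_congr G 𝔗 l U U' (j + 1) h,
      lab_corU_congr F l U U' (j + 1) (fun i hi => h i (by omega))] at e2
    exact add_right_cancel ((lab_rule_bij hp G 𝔗 l U' (j + 1)).1 e2)

/-- ONE-STEP DETERMINACY (= `eq:pruning-prefix-propagation`, also the engine of inversion):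
two solutions with the same label that agree on all blocks of one side of index `≤ k` agree on all
blocks of index `< k`.  Only the equations of index `≤ k` are used. -/
theorem lab_determ_le (hp : p.Adm) (F G : ℕ → Prop) (cf : Coef p) (𝔗 : Tab p) (l : Label p)
    (U V U' V' : ℕ → BV p.s) (hU0 : IsPre p.r (U 0)) (hU0' : IsPre p.r (U' 0)) (k : ℕ)
    (e1 : ∀ j, j ≤ k → EqAt F G cf 𝔗 l U V j) (e2 : ∀ j, j ≤ k → EqAt F G cf 𝔗 l U' V' j)
    (sd : Bool) (hag : ∀ j, j ≤ k → own sd j → U j = U' j ∧ V j = V' j) :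
    ∀ j, j < k → U j = U' j ∧ V j = V' j := by
  intro j
  induction j using Nat.strong_induction_on with
  | _ j ih =>
    intro hj
    by_cases ho : own sd j
    · exact hag j hj.le ho
    · have ho' : own sd (j + 1) := (lab_own_succ sd j).2 ho
      obtain ⟨hu1, hv1⟩ := hag (j + 1) hj ho'
      have hlt : ∀ i, i < j → U i = U' i := fun i hi => (ih i hi (by omega)).1
      have hQ : evalQ F cf l U V (j + 1) = evalQ F cf l U' V' (j + 1) :=
        lab_evalQ_congr F cf l U V U' V' (j + 1) (fun i hi => hlt i (by omega)) hu1 hv1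
      have hR : rhs F G 𝔗 l U (j + 1) = rhs F G 𝔗 l U' (j + 1) := by
        rw [← e1 (j + 1) hj, ← e2 (j + 1) hj, hQ]
      have hUj : U j = U' j := lab_rhs_inj hp F G 𝔗 l U U' hU0 hU0' j hlt hR
      refine ⟨hUj, ?_⟩
      have hRj : rhs F G 𝔗 l U j = rhs F G 𝔗 l U' j := lab_rhs_congr F G 𝔗 l U U' j hlt
      have h1 := e1 j hj.le
      have h2 := e2 j hj.le
      unfold EqAt evalQ at h1 h2
      rw [hRj, ← h2, lab_corU_congr F l U U' j (fun i hi => hlt i (by omega)),
        lab_corV_congr F l U U' j (fun i hi => hlt i (by omega)), hUj] at h1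
      exact add_right_cancel (add_right_cancel h1)

theorem lab_determ (hp : p.Adm) (F G : ℕ → Prop) (cf : Coef p) (𝔗 : Tab p) (l : Label p)
    (U V U' V' : ℕ → BV p.s) (hU0 : IsPre p.r (U 0)) (hU0' : IsPre p.r (U' 0))
    (e1 : ∀ k, EqAt F G cf 𝔗 l U V k) (e2 : ∀ k, EqAt F G cf 𝔗 l U' V' k)
    (sd : Bool) (k : ℕ) (hag : ∀ j, j ≤ k → own sd j → U j = U' j ∧ V j = V' j) :
    ∀ j, j < k → U j = U' j ∧ V j = V' j :=
  lab_determ_le hp F G cf 𝔗 l U V U' V' hU0 hU0' k (fun j _ => e1 j) (fun j _ => e2 j) sd hag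

end Claimed.Agent.R300.Lab
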