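/-
Row 300 / S0553 (INJ paper), Section 01_labeling: position of the marks of a family relative to one
of its occurrences, monotonicity of the widths.  Owner: helper31.
-/
import Claimed.Agent.R300.LabLocal

set_option autoImplicit false

namespace Claimed.Agent.R300.Lab

open Classical

variable {p : Par}

/-- two members of an arithmetic progression are equal or at least one step apart -/
theorem lab_ap_tri (a K n m : ℕ) :
    a + K * n = a + K * m ∨ a + K * n + K ≤ a + K * m ∨ a + K * m + K ≤ a + K * n := by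
  rcases lt_trichotomy n m with h | h | h
  · right; left
    have : K * (n + 1) ≤ K * m := Nat.mul_le_mul_left _ h
    have e : K * (n + 1) = K * n + K := by ring
    omega
  · left; rw [h]
  · right; right
    have : K * (m + 1) ≤ K * n := Nat.mul_le_mul_left _ h
    have e : K * (m + 1) = K * m + K := by ring
    omega

/-! ### widths at consecutive heights -/

theorem lab_aw_succ_ne (hp : p.Adm) (h k : ℕ) (hk : k ≠ p.kap (h + 1)) :
    p.aw (h + 1) k = p.aw h k := by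
  obtain ⟨h1, h2⟩ := lab_kap_succ hp h
  obtain ⟨-, -, hts, -, -⟩ := lab_kap_spec hp h
  have hn0 := hp.hn0
  have hκ := (lab_kap_spec hp h).2.2.2.2
  unfold Par.aw
  rcases Nat.lt_or_ge (p.tt h) p.s with hlt | hge
  · obtain ⟨e1, _⟩ := h2 hlt
    rw [e1] at hk ⊢
    rw [if_neg hk, if_neg hk]
  · have hts' : p.tt h = p.s := by omega
    obtain ⟨e1, _⟩ := h1 hts'
    rw [e1] at hk ⊢
    by_cases hk1 : k < p.kap h
    · rw [if_pos (by omega), if_pos hk1]
    · by_cases hk2 : k = p.kap h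
      · rw [if_pos (by omega), if_neg hk1, if_pos hk2, hts']
        unfold Par.wd
        rw [if_neg (by omega)]
      · rw [if_neg (by omega), if_neg hk, if_neg hk1, if_neg hk2]

theorem lab_aw_succ_eq (p : Par) (h : ℕ) : p.aw (h + 1) (p.kap (h + 1)) = p.tt (h + 1) := by
  unfold Par.aw
  rw [if_neg (by omega), if_pos rfl]

theorem lab_aw_at_succ (hp : p.Adm) (h : ℕ) : p.aw h (p.kap (h + 1)) = p.tt (h + 1) - p.b := by
  obtain ⟨h1, h2⟩ := lab_kap_succ hp h
  obtain ⟨-, -, hts, -, -⟩ := lab_kap_spec hp h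
  unfold Par.aw
  rcases Nat.lt_or_ge (p.tt h) p.s with hlt | hge
  · obtain ⟨e1, e2⟩ := h2 hlt
    rw [e1, e2, if_neg (by omega), if_pos rfl]; omega
  · obtain ⟨e1, e2⟩ := h1 (by omega)
    rw [e1, e2, if_neg (by omega), if_neg (by omega)]; omega

theorem lab_aw_mono (hp : p.Adm) (h k : ℕ) : p.aw h k ≤ p.aw (h + 1) k := by
  by_cases hk : k = p.kap (h + 1)
  · rw [hk, lab_aw_succ_eq, lab_aw_at_succ hp]; omega
  · rw [lab_aw_succ_ne hp h k hk]

theorem lab_bw_succ_ne (hp : p.Adm) (h k : ℕ) (hk : k ≠ p.kap (h + 1) + 1) :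
    p.bw (h + 1) k = p.bw h k := by
  unfold Par.bw
  split_ifs with h0 h1
  · rfl
  · rfl
  · exact lab_aw_succ_ne hp h (k - 1) (by omega)

theorem lab_bw_succ_eq (hp : p.Adm) (h : ℕ) :
    p.bw (h + 1) (p.kap (h + 1) + 1) = p.tt (h + 1) := by
  have hn0 := hp.hn0
  have hκ := (lab_kap_spec hp (h + 1)).2.2.2.2
  unfold Par.bw
  rw [if_neg (by omega), if_neg (by omega)]
  simpa using lab_aw_succ_eq p h

theorem lab_bw_at_succ (hp : p.Adm) (h : ℕ) :
    p.bw h (p.kap (h + 1) + 1) = p.tt (h + 1) - p.b := by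
  have hn0 := hp.hn0
  have hκ := (lab_kap_spec hp (h + 1)).2.2.2.2
  unfold Par.bw
  rw [if_neg (by omega), if_neg (by omega)]
  simpa using lab_aw_at_succ hp h

theorem lab_bw_mono (hp : p.Adm) (h k : ℕ) : p.bw h k ≤ p.bw (h + 1) k := by
  by_cases hk : k = p.kap (h + 1) + 1
  · rw [hk, lab_bw_succ_eq hp, lab_bw_at_succ hp]; omega
  · rw [lab_bw_succ_ne hp h k hk]

theorem lab_aw_full (hp : p.Adm) (h k : ℕ) (h0 : 0 < k) (hk : k < p.kap h) : p.aw h k = p.s := by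
  unfold Par.aw Par.wd
  rw [if_pos hk, if_neg (by omega)]

theorem lab_aw_cut (p : Par) (h : ℕ) : p.aw h (p.kap h) = p.tt h := by
  unfold Par.aw
  rw [if_neg (by omega), if_pos rfl]

theorem lab_bw_full (hp : p.Adm) (h k : ℕ) (h0 : 0 < k) (hk : k ≤ p.kap h) : p.bw h k = p.s := by
  unfold Par.bw
  rw [if_neg (by omega)]
  split_ifs with h1
  · rfl
  · exact lab_aw_full hp h (k - 1) (by omega) (by omega)

theorem lab_bw_succ' (k h : ℕ) (hk : 1 ≤ k) : p.bw h (k + 1) = p.aw h k := by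
  unfold Par.bw
  rw [if_neg (by omega), if_neg (by omega)]
  simp

theorem lab_bw_zero (h : ℕ) : p.bw h 0 = p.r := by
  unfold Par.bw
  rw [if_pos rfl]

theorem lab_aw_le (hp : p.Adm) (h k : ℕ) : p.aw h k ≤ p.s := by
  unfold Par.aw
  split_ifs
  · exact lab_wd_le hp k
  · exact (lab_kap_spec hp h).2.2.1
  · exact Nat.zero_le _

/-! ### marks of the family of an occurrence -/

section marks

variable (hp : p.Adm) (h : ℕ) (l : Label p) (hρ : l.rho.1 = h % p.M)
include hp hρ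

theorem lab_isCut_self : isCut l (p.kap h) :=
  ⟨h / p.M, by rw [hρ]; exact (lab_kap_mod hp h).1⟩

theorem lab_tt_rho : p.tt l.rho = p.tt h := by rw [hρ]; exact (lab_kap_mod hp h).2.symm

theorem lab_tw_self : tw l (p.kap h) = p.tt h := by
  unfold tw
  rw [if_pos (lab_isCut_self hp h l hρ), lab_tt_rho hp h l hρ]

theorem lab_isCut_tri (k : ℕ) (hk : isCut l k) :
    k = p.kap h ∨ k + p.KK ≤ p.kap h ∨ p.kap h + p.KK ≤ k := by
  obtain ⟨n, rfl⟩ := hk
  have e := (lab_kap_mod hp h).1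
  rw [← hρ] at e
  rw [e]
  exact lab_ap_tri _ _ _ _

theorem lab_inZone_after (k : ℕ) (h1 : p.kap h < k) (h2 : k ≤ p.kap h + 20) : inZone l k := by
  have e := (lab_kap_mod hp h).1
  rw [← hρ] at e
  exact ⟨h / p.M, by omega, by omega⟩

theorem lab_inZone_tri (k : ℕ) (hk : inZone l k) :
    (p.kap h < k ∧ k ≤ p.kap h + 20) ∨ k + p.KK ≤ p.kap h + 20 ∨ p.kap h + p.KK < k := by
  obtain ⟨n, h1, h2⟩ := hk
  have e := (lab_kap_mod hp h).1
  rw [← hρ] at e
  rcases lab_ap_tri (p.kap l.rho) p.KK n (h / p.M) with h3 | h3 | h3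
  · left; omega
  · right; left; omega
  · right; right; omega

theorem lab_isXU_iff (k : ℕ) :
    isXU l k ↔ p.xInU l.ty h ∧ ∃ n, k = p.xIdx l.ty (h % p.M) + p.KK * n := by
  unfold isXU
  rw [hρ, ← lab_xInU_mod hp]

theorem lab_isXV_iff (k : ℕ) :
    isXV l k ↔ p.xInV l.ty h ∧ ∃ n, k = p.xIdx l.ty (h % p.M) + p.KK * n := by
  unfold isXV
  rw [hρ, ← lab_xInV_mod hp]

theorem lab_isXU_self (hx : p.xInU l.ty h) : isXU l (p.xIdx l.ty h) :=
  (lab_isXU_iff hp h l hρ _).2 ⟨hx, h / p.M, lab_xIdx_mod hp _ _⟩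

theorem lab_isXV_self (hx : p.xInV l.ty h) : isXV l (p.xIdx l.ty h) :=
  (lab_isXV_iff hp h l hρ _).2 ⟨hx, h / p.M, lab_xIdx_mod hp _ _⟩

theorem lab_isXU_tri (k : ℕ) (hk : isXU l k) :
    p.xInU l.ty h ∧ (k = p.xIdx l.ty h ∨ k + p.KK ≤ p.xIdx l.ty h ∨ p.xIdx l.ty h + p.KK ≤ k) := by
  obtain ⟨hx, n, rfl⟩ := (lab_isXU_iff hp h l hρ k).1 hk
  refine ⟨hx, ?_⟩
  rw [lab_xIdx_mod hp l.ty h]
  exact lab_ap_tri _ _ _ _

theorem lab_isXV_tri (k : ℕ) (hk : isXV l k) :
    p.xInV l.ty h ∧ (k = p.xIdx l.ty h ∨ k + p.KK ≤ p.xIdx l.ty h ∨ p.xIdx l.ty h + p.KK ≤ k) := by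
  obtain ⟨hx, n, rfl⟩ := (lab_isXV_iff hp h l hρ k).1 hk
  refine ⟨hx, ?_⟩
  rw [lab_xIdx_mod hp l.ty h]
  exact lab_ap_tri _ _ _ _

theorem lab_xOff_rho : p.xOff l.rho = p.xOff h := by rw [hρ]; exact (lab_xOff_mod hp h).symm

end marks

/-- position of the marks of the family relative to the own cutoff -/
theorem lab_marks_at_cutoff (hp : p.Adm) (h : ℕ) (l : Label p) (hρ : l.rho.1 = h % p.M) :
    isCut l (p.kap h) ∧ tw l (p.kap h) = p.tt h ∧
      (∀ k, p.kap h - 40 ≤ k → k < p.kap h → ¬ isCut l k ∧ tw l k = p.s) ∧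
      (∀ k, p.kap h - 40 ≤ k → k ≤ p.kap h → ¬ inZone l k) := by
  have hK := lab_KK_ge hp
  have hn0 := hp.hn0
  have hκ := (lab_kap_spec hp h).2.2.2.2
  refine ⟨lab_isCut_self hp h l hρ, lab_tw_self hp h l hρ, ?_, ?_⟩
  · intro k h1 h2
    have hc : ¬ isCut l k := by
      intro hc
      rcases lab_isCut_tri hp h l hρ k hc with h3 | h3 | h3 <;> omega
    refine ⟨hc, ?_⟩
    unfold tw Par.wd
    rw [if_neg hc, if_neg (by omega)]
  · intro k h1 h2 hz
    rcases lab_inZone_tri hp h l hρ k hz with h3 | h3 | h3 <;> omega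

end Claimed.Agent.R300.Lab
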