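/-
Row 300 / S0553 (INJ paper), Section 01_labeling, package L4 part 1 (LabFwd): from edge coordinates
(label, common raw u-data) to an auxiliary edge: preservation of supports and padding
(first part of the proof of Lemma `incidence-inversion`).  Owner: helper31.
-/
import Claimed.Agent.R300.LabMarks

set_option autoImplicit false

namespace Claimed.Agent.R300.Lab

open Classical

variable {p : Par}

/-! ### vertices from sequences -/

theorem lab_own_true_iff (k : ℕ) : own true k ↔ ¬ own false k := by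
  unfold own; simp

/-- the vertex of side `sd` and height `ht` cut out of a pair of sequences -/
noncomputable def mkVtx (sd : Bool) (ht : ℕ) (U V : ℕ → BV p.s)
    (hU : ∀ k, own sd k → IsPre (p.aw ht k) (U k)) (hV : ∀ k, own sd k → IsPre (p.bw ht k) (V k)) :
    Vtx p where
  sd := sd
  ht := ht
  u := fun k => if own sd k then U k else 0
  v := fun k => if own sd k then V k else 0
  hu := by
    intro k
    by_cases h : own sd k
    · simp only [h, if_true]; exact hU k h
    · simp only [h, if_false]; exact lab_isPre_zero 0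
  hv := by
    intro k
    by_cases h : own sd k
    · simp only [h, if_true]; exact hV k h
    · simp only [h, if_false]; exact lab_isPre_zero 0

theorem lab_zipU_mk (i i' : ℕ) (U V : ℕ → BV p.s) (h1 h2 h3 h4) (k : ℕ) :
    zipU (mkVtx false i U V h1 h2) (mkVtx true i' U V h3 h4) k = U k := by
  unfold zipU mkVtx
  by_cases h : own false k
  · simp [h, lab_own_true_iff]
  · simp [h, lab_own_true_iff]

theorem lab_zipV_mk (i i' : ℕ) (U V : ℕ → BV p.s) (h1 h2 h3 h4) (k : ℕ) :
    zipV (mkVtx false i U V h1 h2) (mkVtx true i' U V h3 h4) k = V k := by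
  unfold zipV mkVtx
  by_cases h : own false k
  · simp [h, lab_own_true_iff]
  · simp [h, lab_own_true_iff]

/-- a vertex vanishes on the blocks of the other side -/
theorem lab_vtx_u_other (x : Vtx p) (k : ℕ) (h : ¬ own x.sd k) : x.u k = 0 := by
  have := x.hu k
  rw [if_neg h] at this
  exact (lab_isPre_zero_iff _).1 this

theorem lab_vtx_v_other (x : Vtx p) (k : ℕ) (h : ¬ own x.sd k) : x.v k = 0 := by
  have := x.hv k
  rw [if_neg h] at this
  exact (lab_isPre_zero_iff _).1 this

theorem lab_vtx_u_own (x : Vtx p) (k : ℕ) (h : own x.sd k) : IsPre (p.aw x.ht k) (x.u k) := by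
  have := x.hu k
  rwa [if_pos h] at this

theorem lab_vtx_v_own (x : Vtx p) (k : ℕ) (h : own x.sd k) : IsPre (p.bw x.ht k) (x.v k) := by
  have := x.hv k
  rwa [if_pos h] at this

/-- blocks of a pair of endpoints -/
theorem lab_zipU_own (a b : Vtx p) (ha : a.sd = false) (hb : b.sd = true) (k : ℕ) :
    (own false k → zipU a b k = a.u k) ∧ (own true k → zipU a b k = b.u k) := by
  unfold zipU
  constructor
  · intro h
    rw [lab_vtx_u_other b k (by rw [hb, lab_own_true_iff]; exact not_not.2 h), add_zero]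
  · intro h
    rw [lab_vtx_u_other a k (by rw [ha]; exact (lab_own_true_iff k).1 h), zero_add]

theorem lab_zipV_own (a b : Vtx p) (ha : a.sd = false) (hb : b.sd = true) (k : ℕ) :
    (own false k → zipV a b k = a.v k) ∧ (own true k → zipV a b k = b.v k) := by
  unfold zipV
  constructor
  · intro h
    rw [lab_vtx_v_other b k (by rw [hb, lab_own_true_iff]; exact not_not.2 h), add_zero]
  · intro h
    rw [lab_vtx_v_other a k (by rw [ha]; exact (lab_own_true_iff k).1 h), zero_add]

/-! ### the side that owns the extra interval -/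

/-- height of the endpoint of side `sd` of the occurrence `(τ,h)` -/
noncomputable def htOf (sd : Bool) (τ : Fin p.T) (h : ℕ) : ℕ := if sd = true then p.bHt τ h else p.aHt τ h

/-- `sd` is the larger side of the type `τ` -/
def isBig (sd : Bool) (τ : Fin p.T) : Prop :=
  (sd = false ∧ p.off τ = Off.dn) ∨ (sd = true ∧ p.off τ = Off.up)

theorem lab_htOf_big (sd : Bool) (τ : Fin p.T) (h : ℕ) (hb : isBig sd τ) : htOf sd τ h = h + 1 := by
  unfold htOf Par.aHt Par.bHt
  rcases hb with ⟨h1, h2⟩ | ⟨h1, h2⟩ <;> simp [h1, h2]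

theorem lab_htOf_small (sd : Bool) (τ : Fin p.T) (h : ℕ) (hb : ¬ isBig sd τ) : htOf sd τ h = h := by
  unfold htOf Par.aHt Par.bHt
  unfold isBig at hb
  cases sd <;> simp_all

theorem lab_big_of_xInU (sd : Bool) (τ : Fin p.T) (h : ℕ) (hx : p.xInU τ h)
    (ho : own sd (p.xIdx τ h)) : isBig sd τ := by
  unfold Par.xIdx at ho
  rw [if_pos hx] at ho
  unfold own at ho
  unfold isBig
  rcases hx with ⟨h1, h2⟩ | ⟨h1, h2⟩
  · left; refine ⟨?_, h1⟩
    cases sd
    · rfl
    · have := ho.2 rfl; omega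
  · right; exact ⟨ho.1 h2, h1⟩

theorem lab_not_xInU_of_xInV (τ : Fin p.T) (h : ℕ) (hx : p.xInV τ h) : ¬ p.xInU τ h := by
  unfold Par.xInU
  rcases hx with ⟨h1, h2⟩ | ⟨h1, h2⟩ <;> simp [h1, h2]

theorem lab_big_of_xInV (sd : Bool) (τ : Fin p.T) (h : ℕ) (hx : p.xInV τ h)
    (ho : own sd (p.xIdx τ h)) : isBig sd τ := by
  unfold Par.xIdx at ho
  rw [if_neg (lab_not_xInU_of_xInV τ h hx)] at ho
  unfold own at ho
  unfold isBig
  rcases hx with ⟨h1, h2⟩ | ⟨h1, h2⟩
  · left; refine ⟨?_, h1⟩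
    cases sd
    · rfl
    · have := ho.2 rfl; omega
  · right; exact ⟨ho.1 (by omega), h1⟩

theorem lab_xIdx_U (τ : Fin p.T) (h : ℕ) (hx : p.xInU τ h) : p.xIdx τ h = p.kap (h + 1) := by
  unfold Par.xIdx; rw [if_pos hx]

theorem lab_xIdx_V (τ : Fin p.T) (h : ℕ) (hx : p.xInV τ h) : p.xIdx τ h = p.kap (h + 1) + 1 := by
  unfold Par.xIdx; rw [if_neg (lab_not_xInU_of_xInV τ h hx)]

theorem lab_kap_succ_le (hp : p.Adm) (h : ℕ) :
    p.kap h ≤ p.kap (h + 1) ∧ p.kap (h + 1) ≤ p.kap h + 1 := by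
  obtain ⟨h1, h2⟩ := lab_kap_succ hp h
  obtain ⟨-, -, hts, -, -⟩ := lab_kap_spec hp h
  rcases Nat.lt_or_ge (p.tt h) p.s with hlt | hge
  · have := (h2 hlt).1; omega
  · have := (h1 (by omega)).1; omega

theorem lab_xOff_add (hp : p.Adm) (h : ℕ) : p.xOff h + p.b = p.tt (h + 1) := by
  have := (lab_kap_spec hp (h + 1)).2.1
  unfold Par.xOff; omega

/-! ### the edge with given coordinates -/

/-- forced correction gate / forced cutoff gate of the auxiliary prescription -/
def FX (l : Label p) (h : ℕ) : ℕ → Prop := fun k => k = p.xIdx l.ty h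
def GX (p : Par) (h : ℕ) : ℕ → Prop := fun k => k = p.kap h

/-- raw u-sequence with coordinates `W` -/
noncomputable def Ue (l : Label p) (h : ℕ) (W : UC p h) (k : ℕ) : BV p.s := W.1 k + xU l.ty h l.e k

/-- raw v-sequence solving the auxiliary equations -/
noncomputable def Ve (cf : Coef p) (𝔗 : Tab p) (l : Label p) (h : ℕ) (W : UC p h) (k : ℕ) : BV p.s :=
  rhs (FX l h) (GX p h) 𝔗 l (Ue l h W) k + corV (FX l h) l (Ue l h W) k
    + cf.at l k (Ue l h W k + corU (FX l h) l (Ue l h W) k)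

theorem lab_Ve_eq (cf : Coef p) (𝔗 : Tab p) (l : Label p) (h : ℕ) (W : UC p h) :
    AuxEq h cf 𝔗 l (Ue l h W) (Ve cf 𝔗 l h W) := by
  intro k
  show Ve cf 𝔗 l h W k + corV (FX l h) l (Ue l h W) k
      + cf.at l k (Ue l h W k + corU (FX l h) l (Ue l h W) k) = rhs (FX l h) (GX p h) 𝔗 l (Ue l h W) k
  unfold Ve
  generalize rhs (FX l h) (GX p h) 𝔗 l (Ue l h W) k = A
  generalize corV (FX l h) l (Ue l h W) k = B
  generalize cf.at l k (Ue l h W k + corU (FX l h) l (Ue l h W) k) = C
  calc A + B + C + B + C = A + (B + B) + (C + C) := by abel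
    _ = A := by rw [lab_add_self, lab_add_self]; simp

section fwd

variable (hp : p.Adm) (cf : Coef p) (hcf : cf.Sep) (𝔗 : Tab p) (h : ℕ) (l : Label p)
  (hρ : l.rho.1 = h % p.M) (W : UC p h)

omit hp in
theorem lab_W_beyond (k : ℕ) (hk : p.kap h < k) : W.1 k = 0 := by
  have := W.2 k
  rw [lab_aw_beyond p h k hk] at this
  exact (lab_isPre_zero_iff _).1 this

omit hp in
theorem lab_xU_ne (k : ℕ) (hk : k ≠ p.xIdx l.ty h) : xU l.ty h l.e k = 0 := by
  unfold xU
  rw [if_neg (fun h' => hk h'.2)]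

include hp in
theorem lab_Ue_beyond (k : ℕ) (hk : p.kap h + 2 ≤ k) : Ue l h W k = 0 := by
  unfold Ue
  rw [lab_W_beyond h W k (by omega), zero_add]
  unfold xU
  by_cases hx : p.xInU l.ty h
  · have := lab_xIdx_U l.ty h hx
    have := (lab_kap_succ_le hp h).2
    rw [if_neg (fun h' => by have := h'.2; omega)]
  · rw [if_neg (fun h' => hx h'.1)]

include hp in
theorem lab_gate_Ue_closed (k : ℕ) (hk : p.kap h + 15 ≤ k) : ¬ gate (Ue l h W) k := by
  have hn0 := hp.hn0
  have hκ := (lab_kap_spec hp h).2.2.2.2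
  apply lab_gate_closed _ _ (by omega)
  intro j hj _
  exact lab_Ue_beyond hp h l W j (by omega)

include hp hρ in
/-- the corrected u-blocks at and beyond the cutoff are the common data -/
theorem lab_Ubar_ge (k : ℕ) (hk : p.kap h ≤ k) :
    Ue l h W k + corU (FX l h) l (Ue l h W) k = W.1 k := by
  have hK := lab_KK_ge hp
  have hξ := lab_xIdx_range hp l.ty h
  by_cases hx : isXU l k
  · obtain ⟨hxu, h3 | h3 | h3⟩ := lab_isXU_tri hp h l hρ k hx
    · unfold corU Ue xU
      rw [if_pos ⟨hxu, h3⟩, if_pos ⟨hx, Or.inr h3⟩, lab_xOff_rho hp h l hρ]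
      exact lab_add_cancel_right _ _
    · omega
    · unfold corU
      rw [if_neg]
      · unfold Ue
        rw [lab_xU_ne h l k (by omega)]; simp
      · rintro ⟨_, h4 | h4⟩
        · exact lab_gate_Ue_closed hp h l W k (by omega) h4
        · have : k = p.xIdx l.ty h := h4
          omega
  · unfold corU
    rw [if_neg (fun h' => hx h'.1), add_zero]
    unfold Ue xU
    rw [if_neg, add_zero]
    rintro ⟨h1, h2⟩
    exact hx (h2 ▸ lab_isXU_self hp h l hρ h1)

include hp in
theorem lab_Ubar_zero : Ue l h W 0 + corU (FX l h) l (Ue l h W) 0 = W.1 0 := by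
  have hn0 := hp.hn0
  have hκ := (lab_kap_spec hp h).2.2.2.2
  have hξ := lab_xIdx_range hp l.ty h
  rw [lab_corU_small hp _ l _ 0 (by omega), add_zero]
  unfold Ue
  rw [lab_xU_ne h l 0 (by omega), add_zero]

include hp hρ in
theorem lab_Ubar_pre (k : ℕ) :
    IsPre (p.aw h k) (Ue l h W k + corU (FX l h) l (Ue l h W) k) := by
  by_cases hk : p.kap h ≤ k
  · rw [lab_Ubar_ge hp h l hρ W k hk]; exact W.2 k
  · rcases Nat.eq_zero_or_pos k with rfl | h0
    · rw [lab_Ubar_zero hp h l W]; exact W.2 0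
    · rw [lab_aw_full hp h k h0 (by omega)]
      exact lab_isPre_full le_rfl _

include hp hρ in
/-- the transformed corrected u-blocks keep the common supports -/
theorem lab_rule_Ubar_pre (k : ℕ) :
    IsPre (p.aw h k)
      (rule (GX p h) 𝔗 l (Ue l h W) k (Ue l h W k + corU (FX l h) l (Ue l h W) k)) := by
  have hn0 := hp.hn0
  have hκ := (lab_kap_spec hp h).2.2.2.2
  rcases lt_trichotomy k (p.kap h) with hk | hk | hk
  · rcases Nat.eq_zero_or_pos k with rfl | h0
    · rw [lab_rule_pre _ _ _ _ _ _ (by rw [lab_tw_zero hp l, lab_aw_zero hp h])]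
      exact lab_Ubar_pre hp h l hρ W 0
    · rw [lab_aw_full hp h k h0 hk]
      exact lab_isPre_full le_rfl _
  · subst hk
    rw [lab_rule_pre _ _ _ _ _ _ (by rw [lab_tw_self hp h l hρ, lab_aw_cut])]
    exact lab_Ubar_pre hp h l hρ W _
  · rw [lab_Ubar_ge hp h l hρ W k hk.le, lab_W_beyond h W k hk]
    have : rule (GX p h) 𝔗 l (Ue l h W) k 0 = 0 := by
      unfold rule
      by_cases hz : inZone l k
      · rw [if_pos hz]
      · rw [if_neg hz, if_neg]
        rintro (h4 | h4)
        · by_cases h20 : k ≤ p.kap h + 20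
          · exact hz (lab_inZone_after hp h l hρ k hk h20)
          · exact lab_gate_Ue_closed hp h l W k (by omega) h4
        · have : k = p.kap h := h4
          omega
    rw [this]
    exact lab_isPre_zero _

include hp hρ in
theorem lab_rhs_pre (k : ℕ) : IsPre (p.bw h k) (rhs (FX l h) (GX p h) 𝔗 l (Ue l h W) k) := by
  match k with
  | 0 =>
    rw [lab_bw_zero]
    have := lab_place_pre (n := p.s) 0 l.h0
    rwa [zero_add] at this
  | 1 =>
    have : p.bw h 1 = p.s := by unfold Par.bw; simp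
    rw [this]
    exact lab_isPre_full le_rfl _
  | (k + 2) =>
    rw [lab_bw_succ' (k + 1) h (by omega)]
    exact lab_rule_Ubar_pre hp 𝔗 h l hρ W (k + 1)

include hp hcf hρ in
theorem lab_KUbar_pre (k : ℕ) :
    IsPre (p.bw h k) (cf.at l k (Ue l h W k + corU (FX l h) l (Ue l h W) k)) := by
  rcases Nat.eq_zero_or_pos k with rfl | h0
  · rw [lab_bw_zero, lab_Ubar_zero hp h l W]
    unfold Coef.at
    rw [if_pos rfl]
    apply hcf.pre0
    have := W.2 0
    rwa [lab_aw_zero hp h] at this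
  · by_cases hk : k ≤ p.kap h
    · rw [lab_bw_full hp h k h0 hk]
      exact lab_isPre_full le_rfl _
    · rw [lab_Ubar_ge hp h l hρ W k (by omega), lab_W_beyond h W k (by omega), map_zero]
      exact lab_isPre_zero _

include hp hρ in
/-- beyond the cutoff the only v-correction is the forced one -/
theorem lab_corV_gt (k : ℕ) (hk : p.kap h < k) :
    corV (FX l h) l (Ue l h W) k
      = if p.xInV l.ty h ∧ k = p.xIdx l.ty h then place (p.xOff h) l.e else 0 := by
  have hK := lab_KK_ge hp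
  have hξ := lab_xIdx_range hp l.ty h
  by_cases hx : isXV l k
  · obtain ⟨hxv, h3 | h3 | h3⟩ := lab_isXV_tri hp h l hρ k hx
    · unfold corV
      rw [if_pos ⟨hx, Or.inr h3⟩, if_pos ⟨hxv, h3⟩, lab_xOff_rho hp h l hρ]
    · omega
    · unfold corV
      rw [if_neg, if_neg]
      · rintro ⟨_, h4⟩; omega
      · rintro ⟨_, h4 | h4⟩
        · exact lab_gate_Ue_closed hp h l W k (by omega) h4
        · have : k = p.xIdx l.ty h := h4
          omega
  · unfold corV
    rw [if_neg (fun h' => hx h'.1), if_neg]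
    rintro ⟨h1, h2⟩
    exact hx (h2 ▸ lab_isXV_self hp h l hρ h1)

include hp in
theorem lab_aw_htOf (sd : Bool) (k : ℕ) : p.aw h k ≤ p.aw (htOf sd l.ty h) k := by
  by_cases hb : isBig sd l.ty
  · rw [lab_htOf_big sd _ h hb]; exact lab_aw_mono hp h k
  · rw [lab_htOf_small sd _ h hb]

include hp in
theorem lab_bw_htOf (sd : Bool) (k : ℕ) : p.bw h k ≤ p.bw (htOf sd l.ty h) k := by
  by_cases hb : isBig sd l.ty
  · rw [lab_htOf_big sd _ h hb]; exact lab_bw_mono hp h k
  · rw [lab_htOf_small sd _ h hb]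

include hp in
/-- supports of the raw u-blocks -/
theorem lab_Ue_pre (sd : Bool) (k : ℕ) (ho : own sd k) :
    IsPre (p.aw (htOf sd l.ty h) k) (Ue l h W k) := by
  unfold Ue
  apply lab_isPre_add (lab_isPre_mono (lab_aw_htOf hp h l sd k) (W.2 k))
  unfold xU
  by_cases hx : p.xInU l.ty h ∧ k = p.xIdx l.ty h
  · rw [if_pos hx]
    obtain ⟨hx1, hx2⟩ := hx
    have hb : isBig sd l.ty := lab_big_of_xInU sd l.ty h hx1 (hx2 ▸ ho)
    rw [lab_htOf_big sd _ h hb, hx2, lab_xIdx_U _ _ hx1, lab_aw_succ_eq, ← lab_xOff_add hp h]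
    exact lab_place_pre _ _
  · rw [if_neg hx]; exact lab_isPre_zero _

include hp hcf hρ in
/-- supports of the raw v-blocks -/
theorem lab_Ve_pre (sd : Bool) (k : ℕ) (ho : own sd k) :
    IsPre (p.bw (htOf sd l.ty h) k) (Ve cf 𝔗 l h W k) := by
  have hn0 := hp.hn0
  have hκ := (lab_kap_spec hp h).2.2.2.2
  have hA := lab_isPre_mono (lab_bw_htOf hp h l sd k) (lab_rhs_pre hp 𝔗 h l hρ W k)
  have hC := lab_isPre_mono (lab_bw_htOf hp h l sd k) (lab_KUbar_pre hp cf hcf h l hρ W k)
  unfold Ve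
  refine lab_isPre_add (lab_isPre_add hA ?_) hC
  by_cases hk : p.kap h < k
  · rw [lab_corV_gt hp h l hρ W k hk]
    by_cases hx : p.xInV l.ty h ∧ k = p.xIdx l.ty h
    · rw [if_pos hx]
      obtain ⟨hx1, hx2⟩ := hx
      have hb : isBig sd l.ty := lab_big_of_xInV sd l.ty h hx1 (hx2 ▸ ho)
      rw [lab_htOf_big sd _ h hb, hx2, lab_xIdx_V _ _ hx1, lab_bw_succ_eq hp, ← lab_xOff_add hp h]
      exact lab_place_pre _ _
    · rw [if_neg hx]; exact lab_isPre_zero _
  · rcases Nat.eq_zero_or_pos k with rfl | h0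
    · rw [lab_corV_small hp _ l _ 0 (by omega)]; exact lab_isPre_zero _
    · have : p.bw h k = p.s := lab_bw_full hp h k h0 (by omega)
      have h2 := lab_bw_htOf hp h l sd k
      exact lab_isPre_full (by omega) _

include hp hcf hρ in
/-- the extra bits of the constructed sequences -/
theorem lab_extra_bits (hne : p.off l.ty ≠ Off.eq) :
    slice (p.xOff h) p.b
      (if p.xInU l.ty h then Ue l h W (p.xIdx l.ty h) else Ve cf 𝔗 l h W (p.xIdx l.ty h)) = l.e := by
  have hts := (lab_kap_spec hp (h + 1)).2.2.1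
  have hoff := lab_xOff_add hp h
  rcases lab_xInU_or_xInV l.ty h hne with ⟨hx, _⟩ | ⟨hx, hxv⟩
  · rw [if_pos hx]
    unfold Ue xU
    rw [if_pos ⟨hx, rfl⟩, lab_slice_add, lab_slice_place _ (by omega)]
    rw [lab_slice_pre, zero_add]
    have := W.2 (p.xIdx l.ty h)
    rw [lab_xIdx_U _ _ hx, lab_aw_at_succ hp] at this
    rw [lab_xIdx_U _ _ hx]
    exact this
  · rw [if_neg hx]
    have hk : p.kap h < p.xIdx l.ty h := by
      rw [lab_xIdx_V _ _ hxv]
      have := (lab_kap_succ_le hp h).1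
      omega
    unfold Ve
    rw [lab_corV_gt hp h l hρ W _ hk, if_pos ⟨hxv, rfl⟩, lab_slice_add, lab_slice_add,
      lab_slice_place _ (by omega)]
    have e : p.bw h (p.xIdx l.ty h) = p.xOff h := by
      rw [lab_xIdx_V _ _ hxv, lab_bw_at_succ hp]; rfl
    have h1 := lab_rhs_pre hp 𝔗 h l hρ W (p.xIdx l.ty h)
    have h2 := lab_KUbar_pre hp cf hcf h l hρ W (p.xIdx l.ty h)
    rw [e] at h1 h2
    rw [lab_slice_pre _ _ _ h1, lab_slice_pre _ _ _ h2]
    simp

end fwd

/-- forces the on-demand equation lemmas of the definitions of this file to live here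
(RULES.md, rule 6) -/
theorem lab_fwd_eqns : True := by
  have := @FX.eq_1
  have := @FX.congr_simp
  have := @GX.eq_1
  have := @GX.congr_simp
  have := @Ue.eq_1
  have := @Ue.congr_simp
  have := @Ve.eq_1
  have := @Ve.congr_simp
  have := @htOf.eq_1
  have := @htOf.congr_simp
  have := @isBig.eq_1
  have := @isBig.congr_simp
  have := @mkVtx.eq_1
  have := @mkVtx.congr_simp
  trivial

end Claimed.Agent.R300.Lab
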