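/-
Row 300 / S0553 (INJ paper), Section 01_labeling, package L4 (LabInv): Lemma `incidence-inversion`.
Owner: helper31.  Existence of the edge at a given endpoint is obtained by counting: the map
(extra slice, head parameter, common raw u-data) -> endpoint is injective (local determinism) between
finite sets of equal size.
-/
import Claimed.Agent.R300.LabFwd
import Claimed.Agent.R300.LabCard

set_option autoImplicit false

namespace Claimed.Agent.R300.Lab

open Classical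

variable {p : Par}

/-! ### endpoints of an auxiliary edge -/

theorem lab_htOf_false (τ : Fin p.T) (h : ℕ) : htOf false τ h = p.aHt τ h := by simp [htOf]
theorem lab_htOf_true (τ : Fin p.T) (h : ℕ) : htOf true τ h = p.bHt τ h := by simp [htOf]

/-- the larger endpoint owns the block of the extra interval -/
theorem lab_own_xIdx (sd : Bool) (τ : Fin p.T) (h : ℕ) (hb : isBig sd τ) : own sd (p.xIdx τ h) := by
  rw [lab_own_iff]
  unfold Par.xIdx Par.xInU
  rcases hb with ⟨rfl, h2⟩ | ⟨rfl, h2⟩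
  · by_cases h3 : p.kap (h + 1) % 2 = 0
    · simp [h2, h3]
    · simp [h2, h3]; omega
  · by_cases h3 : p.kap (h + 1) % 2 = 1
    · simp [h2, h3]
    · simp [h2, h3]; omega

/-- if the larger endpoint owns the block `kap (h+1)`, the extra interval lies in `u` -/
theorem lab_xInU_of_big (sd : Bool) (τ : Fin p.T) (h : ℕ) (hb : isBig sd τ)
    (ho : own sd (p.kap (h + 1))) : p.xInU τ h := by
  rw [lab_own_iff] at ho
  unfold Par.xInU
  rcases hb with ⟨rfl, h2⟩ | ⟨rfl, h2⟩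
  · left; exact ⟨h2, by simpa using ho⟩
  · right; exact ⟨h2, by simpa using ho⟩

/-- the endpoint of side `sd` -/
def endp (a b : Vtx p) (sd : Bool) : Vtx p := if sd = true then b else a

theorem lab_endp_spec {cf : Coef p} {𝔗 : Tab p} {h : ℕ} {a b : Vtx p} {l : Label p}
    (he : IsEdge0 cf 𝔗 h a b l) (sd : Bool) :
    (endp a b sd).sd = sd ∧ (endp a b sd).ht = htOf sd l.ty h ∧
      (isBig sd l.ty → xbits l.ty h (endp a b sd) = l.e) ∧
      (∀ k, own sd k → zipU a b k = (endp a b sd).u k ∧ zipV a b k = (endp a b sd).v k) := by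
  cases sd
  · refine ⟨he.sa, by rw [lab_htOf_false]; exact he.ha, ?_, ?_⟩
    · rintro (⟨-, h2⟩ | ⟨h1, -⟩)
      · exact he.edn h2
      · exact absurd h1 (by simp)
    · intro k ho
      exact ⟨(lab_zipU_own a b he.sa he.sb k).1 ho, (lab_zipV_own a b he.sa he.sb k).1 ho⟩
  · refine ⟨he.sb, by rw [lab_htOf_true]; exact he.hb, ?_, ?_⟩
    · rintro (⟨h1, -⟩ | ⟨-, h2⟩)
      · exact absurd h1 (by simp)
      · exact he.eup h2
    · intro k ho
      exact ⟨(lab_zipU_own a b he.sa he.sb k).2 ho, (lab_zipV_own a b he.sa he.sb k).2 ho⟩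

/-- a pair of endpoints is determined by its sides, heights and zipped sequences -/
theorem lab_vtx_ext_zip (a b a' b' : Vtx p) (ha : a.sd = false) (hb : b.sd = true)
    (ha' : a'.sd = false) (hb' : b'.sd = true) (h1 : a.ht = a'.ht) (h2 : b.ht = b'.ht)
    (hU : ∀ k, zipU a b k = zipU a' b' k) (hV : ∀ k, zipV a b k = zipV a' b' k) :
    a = a' ∧ b = b' := by
  constructor
  · apply Vtx.ext (ha.trans ha'.symm) h1
    · funext k
      by_cases ho : own false k
      · rw [← (lab_zipU_own a b ha hb k).1 ho, ← (lab_zipU_own a' b' ha' hb' k).1 ho, hU]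
      · rw [lab_vtx_u_other a k (by rwa [ha]), lab_vtx_u_other a' k (by rwa [ha'])]
    · funext k
      by_cases ho : own false k
      · rw [← (lab_zipV_own a b ha hb k).1 ho, ← (lab_zipV_own a' b' ha' hb' k).1 ho, hV]
      · rw [lab_vtx_v_other a k (by rwa [ha]), lab_vtx_v_other a' k (by rwa [ha'])]
  · apply Vtx.ext (hb.trans hb'.symm) h2
    · funext k
      by_cases ho : own true k
      · rw [← (lab_zipU_own a b ha hb k).2 ho, ← (lab_zipU_own a' b' ha' hb' k).2 ho, hU]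
      · rw [lab_vtx_u_other b k (by rwa [hb]), lab_vtx_u_other b' k (by rwa [hb'])]
    · funext k
      by_cases ho : own true k
      · rw [← (lab_zipV_own a b ha hb k).2 ho, ← (lab_zipV_own a' b' ha' hb' k).2 ho, hV]
      · rw [lab_vtx_v_other b k (by rwa [hb]), lab_vtx_v_other b' k (by rwa [hb'])]

theorem lab_own_false_zero : own false 0 := by unfold own; simp
theorem lab_own_true_one : own true 1 := by unfold own; simp

theorem lab_zipU_zero_pre (hp : p.Adm) {cf : Coef p} {𝔗 : Tab p} {h : ℕ} {a b : Vtx p}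
    {l : Label p} (he : IsEdge0 cf 𝔗 h a b l) : IsPre p.r (zipU a b 0) := by
  rw [(lab_zipU_own a b he.sa he.sb 0).1 lab_own_false_zero]
  have := lab_vtx_u_own a 0 (by rw [he.sa]; exact lab_own_false_zero)
  rwa [lab_aw_zero hp] at this

/-- two edges of one occurrence with the same label and a common endpoint coincide -/
theorem lab_edge_determ (hp : p.Adm) {cf : Coef p} {𝔗 : Tab p} {h : ℕ} {a b a' b' : Vtx p}
    {l : Label p} (he : IsEdge0 cf 𝔗 h a b l) (he' : IsEdge0 cf 𝔗 h a' b' l) (sd : Bool)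
    (hx : endp a b sd = endp a' b' sd) : a = a' ∧ b = b' := by
  have key : ∀ j, zipU a b j = zipU a' b' j ∧ zipV a b j = zipV a' b' j := by
    intro j
    refine lab_determ hp _ _ cf 𝔗 l _ _ _ _ (lab_zipU_zero_pre hp he) (lab_zipU_zero_pre hp he')
      he.aux he'.aux sd (j + 1) ?_ j (Nat.lt_succ_self j)
    intro i _ ho
    obtain ⟨h1, h2⟩ := (lab_endp_spec he sd).2.2.2 i ho
    obtain ⟨h3, h4⟩ := (lab_endp_spec he' sd).2.2.2 i ho
    rw [h1, h2, h3, h4, hx]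
    exact ⟨rfl, rfl⟩
  exact lab_vtx_ext_zip a b a' b' he.sa he.sb he'.sa he'.sb (he.ha.trans he'.ha.symm)
    (he.hb.trans he'.hb.symm) (fun k => (key k).1) (fun k => (key k).2)

/-! ### the head is determined by either endpoint -/

theorem lab_eq_zero (hp : p.Adm) {cf : Coef p} {𝔗 : Tab p} {h : ℕ} {a b : Vtx p} {l : Label p}
    (he : IsEdge0 cf 𝔗 h a b l) : a.v 0 + cf.K0 l.nameA (a.u 0) = place 0 l.h0 := by
  have hn0 := hp.hn0
  have h0 := he.aux 0
  unfold EqAt evalQ at h0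
  rw [lab_corV_small hp _ l _ 0 (by omega), lab_corU_small hp _ l _ 0 (by omega), add_zero, add_zero,
    (lab_zipU_own a b he.sa he.sb 0).1 lab_own_false_zero,
    (lab_zipV_own a b he.sa he.sb 0).1 lab_own_false_zero] at h0
  unfold Coef.at at h0
  rw [if_pos rfl] at h0
  exact h0

theorem lab_head_from_A (hp : p.Adm) {cf : Coef p} {𝔗 : Tab p} {h : ℕ} {a b b' : Vtx p}
    {l l' : Label p} (he : IsEdge0 cf 𝔗 h a b l) (he' : IsEdge0 cf 𝔗 h a b' l')
    (hn : l.nameA = l'.nameA) : l.h0 = l'.h0 := by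
  have h1 := lab_eq_zero hp he
  have h2 := lab_eq_zero hp he'
  rw [hn, h2] at h1
  have hr := lab_r_le_s hp
  have := congrArg (slice 0 p.r) h1
  rw [lab_slice_place 0 (by omega), lab_slice_place 0 (by omega)] at this
  exact this.symm

theorem lab_eq_one (hp : p.Adm) {cf : Coef p} {𝔗 : Tab p} {h : ℕ} {a b : Vtx p} {l : Label p}
    (he : IsEdge0 cf 𝔗 h a b l) (m : ℕ) (hm : m < p.s - p.r) :
    ext0 (b.v 1 + cf.KB l.nameB (b.u 1)) m = ext0 l.h0 (2 * p.r - p.s + m) := by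
  have hn0 := hp.hn0
  have h0 := he.aux 1
  unfold EqAt evalQ at h0
  rw [lab_corV_small hp _ l _ 1 (by omega), lab_corU_small hp _ l _ 1 (by omega), add_zero, add_zero,
    (lab_zipU_own a b he.sa he.sb 1).2 lab_own_true_one,
    (lab_zipV_own a b he.sa he.sb 1).2 lab_own_true_one] at h0
  unfold Coef.at at h0
  rw [if_neg (by omega), if_neg (by omega)] at h0
  rw [h0, lab_ext0_lt _ m (by omega)]
  show (if m < p.s - p.r then ext0 l.h0 (2 * p.r - p.s + m) else _) = _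
  rw [if_pos hm]

theorem lab_head_ext (hp : p.Adm) (x y : BV p.r)
    (h1 : slice 0 (2 * p.r - p.s) x = slice 0 (2 * p.r - p.s) y)
    (h2 : ∀ m, m < p.s - p.r → ext0 x (2 * p.r - p.s + m) = ext0 y (2 * p.r - p.s + m)) :
    x = y := by
  have hr := lab_r_spec hp
  apply lab_ext0_inj
  intro m hm
  by_cases hc : m < 2 * p.r - p.s
  · have := congrFun h1 ⟨m, hc⟩
    simpa [slice] using this
  · have := h2 (m - (2 * p.r - p.s)) (by omega)
    rwa [show 2 * p.r - p.s + (m - (2 * p.r - p.s)) = m by omega] at this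

theorem lab_head_from_B (hp : p.Adm) {cf : Coef p} {𝔗 : Tab p} {h : ℕ} {a a' b : Vtx p}
    {l l' : Label p} (he : IsEdge0 cf 𝔗 h a b l) (he' : IsEdge0 cf 𝔗 h a' b l')
    (hn : l.nameB = l'.nameB) : l.h0 = l'.h0 := by
  apply lab_head_ext hp
  · have := congrArg NameB.c hn
    exact this
  · intro m hm
    rw [← lab_eq_one hp he m hm, ← lab_eq_one hp he' m hm, hn]

/-- head with bucket `c` and tail `t` -/
noncomputable def joinH (c : BV (2 * p.r - p.s)) (t : BV (p.s - p.r)) : BV p.r :=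
  fun m => if m.1 < 2 * p.r - p.s then ext0 c m.1 else ext0 t (m.1 - (2 * p.r - p.s))

theorem lab_buck_join (hp : p.Adm) (c : BV (2 * p.r - p.s)) (t : BV (p.s - p.r)) :
    slice 0 (2 * p.r - p.s) (joinH c t) = c := by
  have hr := lab_r_spec hp
  funext m
  show ext0 (joinH c t) (0 + m.1) = c m
  have hm := m.2
  rw [zero_add, lab_ext0_lt _ _ (by omega)]
  show (if m.1 < 2 * p.r - p.s then ext0 c m.1 else _) = _
  rw [if_pos hm, lab_ext0_fin]

theorem lab_tail_join (hp : p.Adm) (c : BV (2 * p.r - p.s)) (t : BV (p.s - p.r)) (m : ℕ)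
    (hm : m < p.s - p.r) : ext0 (joinH c t) (2 * p.r - p.s + m) = ext0 t m := by
  have hr := lab_r_spec hp
  rw [lab_ext0_lt _ _ (by omega)]
  show (if 2 * p.r - p.s + m < 2 * p.r - p.s then _ else ext0 t (2 * p.r - p.s + m - (2 * p.r - p.s)))
    = _
  rw [if_neg (by omega), Nat.add_sub_cancel_left]

theorem lab_joinH_inj (hp : p.Adm) (c : BV (2 * p.r - p.s)) (t t' : BV (p.s - p.r))
    (h : joinH c t = joinH c t') : t = t' := by
  apply lab_ext0_inj
  intro m hm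
  rw [← lab_tail_join hp c t m hm, ← lab_tail_join hp c t' m hm, h]

/-! ### the edge with given coordinates -/

/-- endpoint of side `sd` of the edge with label `l` and common raw u-data `W` -/
noncomputable def edgeV (hp : p.Adm) (cf : Coef p) (hcf : cf.Sep) (𝔗 : Tab p) (h : ℕ) (l : Label p)
    (hρ : l.rho.1 = h % p.M) (W : UC p h) (sd : Bool) : Vtx p :=
  mkVtx sd (htOf sd l.ty h) (Ue l h W) (Ve cf 𝔗 l h W)
    (fun k ho => lab_Ue_pre hp h l W sd k ho) (fun k ho => lab_Ve_pre hp cf hcf 𝔗 h l hρ W sd k ho)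

section edgeV

variable (hp : p.Adm) (cf : Coef p) (hcf : cf.Sep) (𝔗 : Tab p) (h : ℕ) (l : Label p)
  (hρ : l.rho.1 = h % p.M) (W : UC p h)

theorem lab_edgeV_zipU (k : ℕ) :
    zipU (edgeV hp cf hcf 𝔗 h l hρ W false) (edgeV hp cf hcf 𝔗 h l hρ W true) k = Ue l h W k :=
  lab_zipU_mk _ _ _ _ _ _ _ _ k

theorem lab_edgeV_zipV (k : ℕ) :
    zipV (edgeV hp cf hcf 𝔗 h l hρ W false) (edgeV hp cf hcf 𝔗 h l hρ W true) k
      = Ve cf 𝔗 l h W k :=
  lab_zipV_mk _ _ _ _ _ _ _ _ k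

theorem lab_edgeV_xbits (sd : Bool) (hb : isBig sd l.ty) :
    xbits l.ty h (edgeV hp cf hcf 𝔗 h l hρ W sd) = l.e := by
  have ho := lab_own_xIdx sd l.ty h hb
  have hne : p.off l.ty ≠ Off.eq := by
    rcases hb with ⟨-, h2⟩ | ⟨-, h2⟩ <;> rw [h2] <;> simp
  rw [← lab_extra_bits hp cf hcf 𝔗 h l hρ W hne]
  unfold xbits edgeV mkVtx
  simp only [ho, if_true]

theorem lab_edgeV_isEdge (heq : p.off l.ty = Off.eq → l.e = 0) :
    IsEdge0 cf 𝔗 h (edgeV hp cf hcf 𝔗 h l hρ W false) (edgeV hp cf hcf 𝔗 h l hρ W true) l where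
  sa := rfl
  sb := rfl
  ha := lab_htOf_false _ _
  hb := lab_htOf_true _ _
  hrho := hρ
  edn := fun h1 => lab_edgeV_xbits hp cf hcf 𝔗 h l hρ W false (Or.inl ⟨rfl, h1⟩)
  eup := fun h1 => lab_edgeV_xbits hp cf hcf 𝔗 h l hρ W true (Or.inr ⟨rfl, h1⟩)
  eeq := heq
  aux := by
    have h1 : zipU (edgeV hp cf hcf 𝔗 h l hρ W false) (edgeV hp cf hcf 𝔗 h l hρ W true)
        = Ue l h W := funext (lab_edgeV_zipU hp cf hcf 𝔗 h l hρ W)
    have h2 : zipV (edgeV hp cf hcf 𝔗 h l hρ W false) (edgeV hp cf hcf 𝔗 h l hρ W true)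
        = Ve cf 𝔗 l h W := funext (lab_edgeV_zipV hp cf hcf 𝔗 h l hρ W)
    rw [h1, h2]
    exact lab_Ve_eq cf 𝔗 l h W

theorem lab_endp_edgeV (sd : Bool) :
    endp (edgeV hp cf hcf 𝔗 h l hρ W false) (edgeV hp cf hcf 𝔗 h l hρ W true) sd
      = edgeV hp cf hcf 𝔗 h l hρ W sd := by
  cases sd <;> simp [endp]

end edgeV

/-- the v-sequence is determined by the u-sequence -/
theorem lab_aux_V_unique {h : ℕ} {cf : Coef p} {𝔗 : Tab p} {l : Label p} {U V V' : ℕ → BV p.s}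
    (h1 : AuxEq h cf 𝔗 l U V) (h2 : AuxEq h cf 𝔗 l U V') (k : ℕ) : V k = V' k := by
  have e1 := h1 k
  have e2 := h2 k
  unfold EqAt evalQ at e1 e2
  rw [← e2] at e1
  exact add_right_cancel (add_right_cancel e1)

/-- uniform (edge) coordinates: head + common raw u-data parametrise the edges of a slot serial `j`
in the extra slice `e` -/
theorem lab_edge_coords (hp : p.Adm) (cf : Coef p) (hcf : cf.Sep) (𝔗 : Tab p) (τ : Fin p.T) (h : ℕ)
    (ρ : Fin p.M) (hρ : ρ.1 = h % p.M) (j : Fin p.d) (e : BV p.b) (heq : p.off τ = Off.eq → e = 0)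
    (h0 : BV p.r) (W : UC p h) :
    ∃! ab : Vtx p × Vtx p, IsEdge0 cf 𝔗 h ab.1 ab.2 ⟨τ, ρ, j, e, h0⟩ ∧
      ∀ k, zipU ab.1 ab.2 k = W.1 k + xU τ h e k := by
  have he := lab_edgeV_isEdge hp cf hcf 𝔗 h ⟨τ, ρ, j, e, h0⟩ hρ W heq
  refine ⟨(edgeV hp cf hcf 𝔗 h ⟨τ, ρ, j, e, h0⟩ hρ W false,
    edgeV hp cf hcf 𝔗 h ⟨τ, ρ, j, e, h0⟩ hρ W true),
    ⟨he, lab_edgeV_zipU hp cf hcf 𝔗 h ⟨τ, ρ, j, e, h0⟩ hρ W⟩, ?_⟩
  rintro ⟨a', b'⟩ ⟨he', hU'⟩
  have hU : ∀ k, zipU a' b' k = zipU (edgeV hp cf hcf 𝔗 h ⟨τ, ρ, j, e, h0⟩ hρ W false)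
      (edgeV hp cf hcf 𝔗 h ⟨τ, ρ, j, e, h0⟩ hρ W true) k := by
    intro k
    rw [lab_edgeV_zipU]
    exact hU' k
  have hUf := funext hU
  have haux := he'.aux
  simp only at hUf haux
  rw [hUf] at haux
  obtain ⟨h1, h2⟩ := lab_vtx_ext_zip a' b' _ _ he'.sa he'.sb he.sa he.sb (he'.ha.trans he.ha.symm)
    (he'.hb.trans he.hb.symm) hU (lab_aux_V_unique haux he.aux)
  rw [h1, h2]

/-- every auxiliary edge has such coordinates -/
theorem lab_edge_coords_exists (hp : p.Adm) (cf : Coef p) (hcf : cf.Sep) (𝔗 : Tab p) (h : ℕ)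
    (a b : Vtx p) (l : Label p) (he : IsEdge0 cf 𝔗 h a b l) :
    ∃ W : UC p h, ∀ k, zipU a b k = W.1 k + xU l.ty h l.e k := by
  refine ⟨⟨fun k => zipU a b k + xU l.ty h l.e k, ?_⟩, fun k => (lab_add_cancel_right _ _).symm⟩
  intro k
  obtain ⟨sd, ho⟩ : ∃ sd, own sd k := by
    by_cases h1 : own false k
    · exact ⟨false, h1⟩
    · exact ⟨true, (lab_own_true_iff k).2 h1⟩
  obtain ⟨h1, h2, h3, h4⟩ := lab_endp_spec he sd
  have hpre := lab_vtx_u_own (endp a b sd) k (by rwa [h1])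
  rw [h2] at hpre
  show IsPre (p.aw h k) (zipU a b k + xU l.ty h l.e k)
  rw [(h4 k ho).1]
  by_cases hb : isBig sd l.ty
  · rw [lab_htOf_big sd _ h hb] at hpre
    by_cases hk : k = p.kap (h + 1)
    · subst hk
      have hx := lab_xInU_of_big sd l.ty h hb ho
      have hi := lab_xIdx_U l.ty h hx
      unfold xU
      rw [if_pos ⟨hx, hi.symm⟩, ← h3 hb]
      unfold xbits
      rw [if_pos hx, hi, lab_aw_at_succ hp]
      apply lab_pre_add_place
      rw [lab_aw_succ_eq] at hpre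
      have := lab_xOff_add hp h
      unfold Par.xOff at this
      rwa [this]
    · rw [lab_aw_succ_ne hp h k hk] at hpre
      unfold xU
      rw [if_neg, add_zero]
      · exact hpre
      · rintro ⟨hx, hk'⟩
        exact hk (hk'.trans (lab_xIdx_U l.ty h hx))
  · rw [lab_htOf_small sd _ h hb] at hpre
    unfold xU
    rw [if_neg, add_zero]
    · exact hpre
    · rintro ⟨hx, hk'⟩
      exact hb (lab_big_of_xInU sd l.ty h hx (hk' ▸ ho))

/-! ### existence by counting -/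

/-- the extra slices available to the side `sd`: all of them for the larger side, only `e` else -/
def XE (sd : Bool) (τ : Fin p.T) (e : BV p.b) : Type := {e' : BV p.b // ¬ isBig sd τ → e' = e}

theorem lab_card_XE (sd : Bool) (τ : Fin p.T) (e : BV p.b) :
    Nat.card (XE sd τ e) = if isBig sd τ then 2 ^ p.b else 1 := by
  by_cases hb : isBig sd τ
  · rw [if_pos hb, ← lab_card_BV p.b]
    exact Nat.card_congr (Equiv.subtypeUnivEquiv (fun _ hn => absurd hb hn))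
  · rw [if_neg hb]
    have : XE sd τ e ≃ {e' : BV p.b // e' = e} :=
      Equiv.subtypeEquivRight (fun e' => ⟨fun h' => h' hb, fun h' _ => h'⟩)
    rw [Nat.card_congr this]
    exact Nat.card_unique

theorem lab_H_succ (p : Par) (h : ℕ) : p.H (h + 1) = p.H h + p.b := by
  unfold Par.H; ring

theorem lab_H_ge (p : Par) (h : ℕ) : p.s ≤ p.H h := by
  unfold Par.H
  nlinarith [Nat.zero_le (p.n0 * p.s), Nat.zero_le (p.b * h)]

theorem lab_edge_surj (hp : p.Adm) (cf : Coef p) (hcf : cf.Sep) (𝔗 : Tab p) (τ : Fin p.T) (h : ℕ)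
    (ρ : Fin p.M) (hρ : ρ.1 = h % p.M) (j : Fin p.d) (sd : Bool)
    (P : Type) (hd : P → BV p.r)
    (hinj : ∀ (e : BV p.b) (π π' : P) (a b a' b' : Vtx p),
      IsEdge0 cf 𝔗 h a b ⟨τ, ρ, j, e, hd π⟩ → IsEdge0 cf 𝔗 h a' b' ⟨τ, ρ, j, e, hd π'⟩ →
      endp a b sd = endp a' b' sd → π = π')
    (hcard : ∀ i, Nat.card (Layer p sd i) = Nat.card P * 2 ^ (p.H i + p.r - p.s))
    (e : BV p.b) (heq : p.off τ = Off.eq → e = 0)
    (x : Vtx p) (hs : x.sd = sd) (hh : x.ht = htOf sd τ h) (hx : isBig sd τ → xbits τ h x = e) :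
    ∃ (π : P) (W : UC p h), edgeV hp cf hcf 𝔗 h ⟨τ, ρ, j, e, hd π⟩ hρ W sd = x := by
  have heq' : ∀ e' : XE sd τ e, p.off τ = Off.eq → e'.1 = 0 := by
    intro e' h1
    rw [e'.2 ?_]
    · exact heq h1
    · rintro (⟨-, h2⟩ | ⟨-, h2⟩) <;> rw [h1] at h2 <;> simp at h2
  let f : XE sd τ e × P × UC p h → Layer p sd (htOf sd τ h) := fun y =>
    ⟨edgeV hp cf hcf 𝔗 h ⟨τ, ρ, j, y.1.1, hd y.2.1⟩ hρ y.2.2 sd, rfl, rfl⟩
  have hf : Function.Injective f := by
    rintro ⟨e1, π1, W1⟩ ⟨e2, π2, W2⟩ h12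
    have h12' : edgeV hp cf hcf 𝔗 h ⟨τ, ρ, j, e1.1, hd π1⟩ hρ W1 sd
        = edgeV hp cf hcf 𝔗 h ⟨τ, ρ, j, e2.1, hd π2⟩ hρ W2 sd := congrArg Subtype.val h12
    have he12 : e1 = e2 := by
      apply Subtype.ext
      by_cases hb : isBig sd τ
      · have h3 := lab_edgeV_xbits hp cf hcf 𝔗 h ⟨τ, ρ, j, e1.1, hd π1⟩ hρ W1 sd hb
        have h4 := lab_edgeV_xbits hp cf hcf 𝔗 h ⟨τ, ρ, j, e2.1, hd π2⟩ hρ W2 sd hb
        rw [h12'] at h3
        exact h3.symm.trans h4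
      · rw [e1.2 hb, e2.2 hb]
    subst he12
    have E1 := lab_edgeV_isEdge hp cf hcf 𝔗 h ⟨τ, ρ, j, e1.1, hd π1⟩ hρ W1 (heq' e1)
    have E2 := lab_edgeV_isEdge hp cf hcf 𝔗 h ⟨τ, ρ, j, e1.1, hd π2⟩ hρ W2 (heq' e1)
    have hπ : π1 = π2 := hinj e1.1 π1 π2 _ _ _ _ E1 E2 (by rw [lab_endp_edgeV, lab_endp_edgeV, h12'])
    subst hπ
    obtain ⟨h5, h6⟩ := lab_edge_determ hp E1 E2 sd (by rw [lab_endp_edgeV, lab_endp_edgeV, h12'])
    have hW : W1 = W2 := by
      apply Subtype.ext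
      funext k
      have h7 := lab_edgeV_zipU hp cf hcf 𝔗 h ⟨τ, ρ, j, e1.1, hd π1⟩ hρ W1 k
      have h8 := lab_edgeV_zipU hp cf hcf 𝔗 h ⟨τ, ρ, j, e1.1, hd π1⟩ hρ W2 k
      rw [h5, h6, h8] at h7
      exact (add_right_cancel h7).symm
    rw [hW]
  haveI := lab_finite_layer hp sd (htOf sd τ h)
  have hc : Nat.card (Layer p sd (htOf sd τ h)) ≤ Nat.card (XE sd τ e × P × UC p h) := by
    rw [Nat.card_prod, Nat.card_prod, lab_card_XE, lab_card_UC hp, hcard]
    have hH := lab_H_ge p h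
    by_cases hb : isBig sd τ
    · rw [if_pos hb, lab_htOf_big sd τ h hb, lab_H_succ,
        show p.H h + p.b + p.r - p.s = p.b + (p.H h + p.r - p.s) by omega, pow_add]
      apply le_of_eq
      ring
    · rw [if_neg hb, lab_htOf_small sd τ h hb, one_mul]
  obtain ⟨⟨e1, π1, W1⟩, hy⟩ := (hf.bijective_of_nat_card_le hc).2 ⟨x, hs, hh⟩
  have hy' : edgeV hp cf hcf 𝔗 h ⟨τ, ρ, j, e1.1, hd π1⟩ hρ W1 sd = x := congrArg Subtype.val hy
  have he1 : e1.1 = e := by
    by_cases hb : isBig sd τ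
    · have h3 := lab_edgeV_xbits hp cf hcf 𝔗 h ⟨τ, ρ, j, e1.1, hd π1⟩ hρ W1 sd hb
      rw [hy'] at h3
      exact h3.symm.trans (hx hb)
    · exact e1.2 hb
  rw [he1] at hy'
  exact ⟨π1, W1, hy'⟩

/-! ## L4: Lemma `incidence-inversion` -/

/-- exactly one auxiliary edge at every A endpoint and slot -/
theorem lab_edge_from_A (hp : p.Adm) (cf : Coef p) (hcf : cf.Sep) (𝔗 : Tab p) (τ : Fin p.T) (h : ℕ)
    (ρ : Fin p.M) (hρ : ρ.1 = h % p.M) (a : Vtx p) (hsa : a.sd = false) (hha : a.ht = p.aHt τ h)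
    (j : Fin p.d) (e : BV p.b) (hdn : p.off τ = Off.dn → xbits τ h a = e)
    (heq : p.off τ = Off.eq → e = 0) :
    ∃! bh : Vtx p × BV p.r, IsEdge0 cf 𝔗 h a bh.1 ⟨τ, ρ, j, e, bh.2⟩ := by
  obtain ⟨π, W, hx⟩ := lab_edge_surj hp cf hcf 𝔗 τ h ρ hρ j false (BV p.r) id
    (fun e π π' a b a' b' E E' hx => by
      have hx' : a = a' := hx
      subst hx'
      exact lab_head_from_A hp E E' rfl)
    (fun i => by
      have hH := lab_H_ge p i
      have hr := lab_r_spec hp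
      rw [(lab_card_layer hp i).2, lab_card_BV, ← pow_add]
      congr 1
      omega)
    e heq a hsa (by rw [lab_htOf_false]; exact hha)
    (by
      rintro (⟨-, h2⟩ | ⟨h1, -⟩)
      · exact hdn h2
      · exact absurd h1 (by simp))
  have E := lab_edgeV_isEdge hp cf hcf 𝔗 h ⟨τ, ρ, j, e, π⟩ hρ W heq
  simp only [id] at hx
  rw [hx] at E
  refine ⟨(edgeV hp cf hcf 𝔗 h ⟨τ, ρ, j, e, π⟩ hρ W true, π), E, ?_⟩
  rintro ⟨b', h0'⟩ E'
  have h1 : h0' = π := lab_head_from_A hp E' E rfl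
  subst h1
  have h2 := (lab_edge_determ hp E' E false rfl).2
  simp only at h2
  rw [h2]

/-- exactly one auxiliary edge at every B endpoint and slot `(τ,j,c,e)` -/
theorem lab_edge_from_B (hp : p.Adm) (cf : Coef p) (hcf : cf.Sep) (𝔗 : Tab p) (τ : Fin p.T) (h : ℕ)
    (b : Vtx p) (hsb : b.sd = true) (hhb : b.ht = p.bHt τ h)
    (j : Fin p.d) (c : BV (2 * p.r - p.s)) (e : BV p.b) (hup : p.off τ = Off.up → xbits τ h b = e)
    (heq : p.off τ = Off.eq → e = 0) :
    ∃! al : Vtx p × Label p, IsEdge0 cf 𝔗 h al.1 b al.2 ∧ al.2.ty = τ ∧ al.2.j = j ∧ al.2.e = e ∧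
      al.2.buck = c := by
  obtain ⟨ρ, hρ⟩ : ∃ ρ : Fin p.M, ρ.1 = h % p.M := ⟨⟨h % p.M, Nat.mod_lt _ (lab_M_pos hp)⟩, rfl⟩
  have hname : ∀ (e : BV p.b) (x y : BV p.r), slice 0 (2 * p.r - p.s) x = slice 0 (2 * p.r - p.s) y →
      Label.nameB (⟨τ, ρ, j, e, x⟩ : Label p) = Label.nameB (⟨τ, ρ, j, e, y⟩ : Label p) := by
    intro e x y hxy
    unfold Label.nameB Label.buck
    simp only [hxy]
  obtain ⟨π, W, hx⟩ := lab_edge_surj hp cf hcf 𝔗 τ h ρ hρ j true (BV (p.s - p.r)) (joinH c)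
    (fun e π π' a b a' b' E E' hx => by
      have hx' : b = b' := hx
      subst hx'
      exact lab_joinH_inj hp c π π' (lab_head_from_B hp E E'
        (hname e _ _ (by rw [lab_buck_join hp, lab_buck_join hp]))))
    (fun i => by
      have hH := lab_H_ge p i
      have hr := lab_r_spec hp
      rw [(lab_card_layer hp i).1, lab_card_BV, ← pow_add]
      congr 1
      omega)
    e heq b hsb (by rw [lab_htOf_true]; exact hhb)
    (by
      rintro (⟨h1, -⟩ | ⟨-, h2⟩)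
      · exact absurd h1 (by simp)
      · exact hup h2)
  have E := lab_edgeV_isEdge hp cf hcf 𝔗 h ⟨τ, ρ, j, e, joinH c π⟩ hρ W heq
  rw [hx] at E
  refine ⟨(edgeV hp cf hcf 𝔗 h ⟨τ, ρ, j, e, joinH c π⟩ hρ W false, ⟨τ, ρ, j, e, joinH c π⟩),
    ⟨E, rfl, rfl, rfl, lab_buck_join hp c π⟩, ?_⟩
  rintro ⟨a', ⟨ty', rho', j', e', h0'⟩⟩ ⟨E', h1, h2, h3, h4⟩
  simp only at h1 h2 h3 h4 E'
  subst h1 h2 h3
  have h5 : rho' = ρ := Fin.ext (E'.hrho.trans hρ.symm)
  subst h5
  have h6 : h0' = joinH c π := lab_head_from_B hp E' E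
    (hname _ _ _ (by rw [lab_buck_join hp]; exact h4))
  subst h6
  have h7 := (lab_edge_determ hp E' E true rfl).1
  rw [h7]

/-- forces the on-demand equation lemmas of the definitions of this file to live here
(RULES.md, rule 6) -/
theorem lab_inv_eqns : True := by
  have := @XE.eq_1
  have := @XE.congr_simp
  have := @edgeV.eq_1
  have := @edgeV.congr_simp
  have := @endp.eq_1
  have := @endp.congr_simp
  have := @joinH.eq_1
  have := @joinH.congr_simp
  trivial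

end Claimed.Agent.R300.Lab
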