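/-
Row 300 / S0553 (INJ paper), Section 02_expansion, paper specific part: DEFINITIONS.
Owner: helper126.  Namespace `Claimed.Agent.R300.El`, prefix `el`.

One SLICED OCCURRENCE `o : Occ p` = incidence type `τ`, common height `h`, extra slice `e`.
* `o.XS sd`  : the vertices of the slice on the side `sd` (`false` = A, `true` = B);
* `o.EC`     : edge coordinates `(j, h0, W)` of helper31's `edgeV` (serial, head, common raw u-data);
* `ev c 𝔗 o q sd` : the endpoint of side `sd` of the auxiliary edge with coordinates `q`;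
* `Sl p sd`, `sl o sd q` : slot names (A: serial, B: serial and bucket);
* `o.κ = kap h` the cutoff, `o.C = BV (tt h)` the cluster type, `o.K` the keys `(j, h0, W | W κ = 0)`,
  `ecE : o.K × o.C ≃ o.EC`;
* `elBase 𝔗 o` : the tables `𝔗` with the level `κ` replaced by identities; `elP c 𝔗 o sd` the endpoint
  maps of that graph on `o.K × o.C`.  For arbitrary tables `ω` of level `κ` the edge `(k, w)` joins
  `elP .. sd0 (k, w)` and `elP .. (!sd0) (k, elSig o ω k w)`  (`sd0` = owner of the block `κ`):
  this is the model of `ExpMain` with `pB := elP .. sd0`, `pA := elP .. (!sd0)`.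
-/
import Claimed.Agent.R300.LabInv
import Claimed.Agent.R300.ExpZip

set_option autoImplicit false

namespace Claimed.Agent.R300.El

open Claimed.Agent.R300.Lab
open Classical

variable {p : Par}

/-- the fixed data of the tower -/
structure Ctx (p : Par) where
  hp : p.Adm
  cf : Coef p
  hcf : cf.Sep
  hmu : cf.Mult

/-- a sliced occurrence -/
structure Occ (p : Par) where
  hp : p.Adm
  τ : Fin p.T
  h : ℕ
  ρ : Fin p.M
  hρ : ρ.1 = h % p.M
  e : BV p.b
  heq : p.off τ = Off.eq → e = 0

namespace Occ

variable (o : Occ p)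

/-- the cutoff index -/
def κ : ℕ := p.kap o.h
/-- the active width of the cutoff block -/
def t : ℕ := p.tt o.h
/-- the labels of the slice -/
def lab (j : Fin p.d) (h0 : BV p.r) : Label p := ⟨o.τ, o.ρ, j, o.e, h0⟩
/-- the vertices of the slice -/
def XS (sd : Bool) : Type :=
  {x : Vtx p // x.sd = sd ∧ x.ht = htOf sd o.τ o.h ∧ (isBig sd o.τ → xbits o.τ o.h x = o.e)}
/-- common raw u-data -/
def UW : Type := UC p o.h
/-- edge coordinates -/
abbrev EC : Type := Fin p.d × BV p.r × o.UW
/-- cluster type -/
abbrev C : Type := BV o.t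
/-- common raw u-data before the cutoff -/
def UK : Type := {W : UC p o.h // W.1 o.κ = 0}
/-- keys -/
abbrev K : Type := Fin p.d × BV p.r × o.UK
/-- the owner of the cutoff block -/
def sd0 : Bool := decide (o.κ % 2 = 1)

theorem own_sd0 : own o.sd0 o.κ := by
  unfold own sd0
  simp

instance : Finite o.UW := lab_finite_UC o.hp o.h
instance : Finite o.UK := Subtype.finite (α := o.UW)
instance (sd : Bool) : Finite (o.XS sd) := by
  have hfin : Finite (Layer p sd (htOf sd o.τ o.h)) := lab_finite_layer o.hp sd (htOf sd o.τ o.h)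
  exact @Finite.of_injective _ _ hfin
    (fun x : o.XS sd => (⟨x.1, x.2.1, x.2.2.1⟩ : Layer p sd (htOf sd o.τ o.h)))
    (fun x y h => Subtype.ext (congrArg (fun z : Layer p sd (htOf sd o.τ o.h) => z.1) h))
noncomputable instance : Fintype o.UW := Fintype.ofFinite _
noncomputable instance : Fintype o.UK := Fintype.ofFinite _
noncomputable instance (sd : Bool) : Fintype (o.XS sd) := Fintype.ofFinite _

/-- put the cluster coordinate into the cutoff block -/
noncomputable def join (W : o.UK) (w : o.C) : o.UW :=
  ⟨fun k => if k = o.κ then place 0 w else W.1.1 k, by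
    intro k
    by_cases hk : k = o.κ
    · simp only [hk, if_true]
      have h1 : p.aw o.h o.κ = 0 + o.t := by
        rw [zero_add]; exact lab_aw_cut p o.h
      rw [h1]
      exact lab_place_pre 0 w
    · simp only [hk, if_false]
      exact W.1.2 k⟩

/-- remove the cutoff block -/
noncomputable def cutK (W : o.UW) : o.UK :=
  ⟨⟨fun k => if k = o.κ then 0 else W.1 k, by
    intro k
    by_cases hk : k = o.κ
    · simp only [hk, if_true]; exact lab_isPre_zero _
    · simp only [hk, if_false]; exact W.2 k⟩, by simp⟩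

/-- the cluster coordinate -/
noncomputable def cutC (W : o.UW) : o.C := slice 0 o.t (W.1 o.κ)

end Occ

/-- slot names -/
def Sl (p : Par) : Bool → Type
  | false => Fin p.d
  | true => Fin p.d × BV (2 * p.r - p.s)

noncomputable instance (sd : Bool) : Fintype (Sl p sd) := by
  cases sd
  · exact inferInstanceAs (Fintype (Fin p.d))
  · exact inferInstanceAs (Fintype (Fin p.d × BV (2 * p.r - p.s)))

/-- the slot name of an edge at its endpoint of side `sd` -/
noncomputable def sl (o : Occ p) : (sd : Bool) → o.EC → Sl p sd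
  | false, q => q.1
  | true, q => (q.1, slice 0 (2 * p.r - p.s) q.2.1)

/-- the degree of the side `sd` in a slice -/
def deg (p : Par) (sd : Bool) : ℕ := if sd = true then p.D else p.d

/-- the endpoint of side `sd` of the edge with coordinates `q` -/
noncomputable def ev (c : Ctx p) (𝔗 : Tab p) (o : Occ p) (q : o.EC) (sd : Bool) : o.XS sd :=
  ⟨edgeV c.hp c.cf c.hcf 𝔗 o.h (o.lab q.1 q.2.1) o.hρ q.2.2 sd, rfl, rfl,
    fun hb => lab_edgeV_xbits c.hp c.cf c.hcf 𝔗 o.h (o.lab q.1 q.2.1) o.hρ q.2.2 sd hb⟩

/-- all raw blocks of index `< k` agree -/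
def agr (o : Occ p) (sd : Bool) (k : ℕ) (x x' : o.XS sd) : Prop :=
  ∀ j, j < k → x.1.u j = x'.1.u j ∧ x.1.v j = x'.1.v j

/-- the coefficient map of a slot on the blocks of index `≥ 1` -/
noncomputable def Kc (c : Ctx p) (o : Occ p) : (sd : Bool) → Sl p sd → (BV p.s →ₗ[ZMod 2] BV p.s)
  | false, j => c.cf.KA ⟨o.τ, o.ρ, j, o.e⟩
  | true, jc => c.cf.KB ⟨o.τ, o.ρ, jc.1, o.e, jc.2⟩

/-- the raw evaluation of the slot `σ` on the block `k` -/
noncomputable def Qv (c : Ctx p) (o : Occ p) (sd : Bool) (σ : Sl p sd) (k : ℕ) (x : o.XS sd) :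
    BV p.s :=
  x.1.v k + Kc c o sd σ (x.1.u k)

/-- the coordinates `(key, cluster coordinate)` -/
noncomputable def ecE (o : Occ p) : o.K × o.C ≃ o.EC where
  toFun := fun q => (q.1.1, q.1.2.1, o.join q.1.2.2 q.2)
  invFun := fun r => ((r.1, r.2.1, o.cutK r.2.2), o.cutC r.2.2)
  left_inv := by
    rintro ⟨⟨j, h0, W⟩, w⟩
    have h1 : o.cutK (o.join W w) = W := by
      apply Subtype.ext
      apply Subtype.ext
      funext k
      by_cases hk : k = o.κ
      · subst hk
        simp only [Occ.cutK, if_true]
        exact W.2.symm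
      · simp [Occ.cutK, Occ.join, hk]
    have h2 : o.cutC (o.join W w) = w := by
      have ht : 0 + o.t ≤ p.s := by
        rw [zero_add]; exact (lab_kap_spec o.hp o.h).2.2.1
      simp only [Occ.cutC, Occ.join, if_true]
      exact lab_slice_place 0 ht w
    simp only [h1, h2]
  right_inv := by
    rintro ⟨j, h0, W⟩
    have h1 : o.join (o.cutK W) (o.cutC W) = W := by
      apply Subtype.ext
      funext k
      by_cases hk : k = o.κ
      · subst hk
        simp only [Occ.join, Occ.cutC, if_true]
        have hW : IsPre (0 + o.t) (W.1 o.κ) := by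
          rw [zero_add]
          have := W.2 o.κ
          rwa [show p.aw o.h o.κ = o.t from lab_aw_cut p o.h] at this
        have h3 := (lab_isPre_zero_iff _).1 (lab_pre_add_place 0 o.t (W.1 o.κ) hW)
        have h4 : place 0 (slice 0 o.t (W.1 o.κ)) + (W.1 o.κ + place 0 (slice 0 o.t (W.1 o.κ)))
            = W.1 o.κ := by
          rw [add_comm (W.1 o.κ), ← add_assoc, lab_add_self, zero_add]
        rw [h3, add_zero] at h4
        exact h4
      · simp [Occ.cutK, Occ.join, hk]
    simp only [h1]

/-- the tables with the level `κ` replaced by identities -/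
noncomputable def elBase (𝔗 : Tab p) (o : Occ p) : Tab p :=
  Function.update 𝔗 o.κ (fun _ => Equiv.refl _)

/-- the endpoint maps of the base graph -/
noncomputable def elP (c : Ctx p) (𝔗 : Tab p) (o : Occ p) (sd : Bool) (q : o.K × o.C) : o.XS sd :=
  ev c (elBase 𝔗 o) o (ecE o q) sd

/-- the key of the permutation table used by the cluster `k` -/
def tkey (o : Occ p) (k : o.K) : Key p o.κ := (o.lab k.1 k.2.1, fun i => k.2.2.1.1 i.1)

theorem el_tw (o : Occ p) (k : o.K) : tw (tkey o k).1 o.κ = o.t :=
  lab_tw_self o.hp o.h (o.lab k.1 k.2.1) o.hρ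

/-- change of the width along an equality -/
def bvCast {n m : ℕ} (h : n = m) : BV n ≃ BV m := Equiv.cast (congrArg BV h)

/-- the cluster permutations read off the tables of level `κ` -/
noncomputable def elSig (o : Occ p) (ω : Lvl p o.κ) (k : o.K) : Equiv.Perm o.C :=
  (bvCast (el_tw o k)).permCongr (ω (tkey o k))

/-- the good event of a sliced occurrence: all cuts expand -/
def elGood (c : Ctx p) (𝔗 : Tab p) (o : Occ p) (γ : ℝ) (ω : Lvl p o.κ) : Prop :=
  expBlkGood (elP c 𝔗 o (!o.sd0)) (elP c 𝔗 o o.sd0) γ (elSig o ω)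

end Claimed.Agent.R300.El
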