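/-
Row 300 / S0553 (INJ paper), Section 01_labeling, package L5 (LabGate): Lemma `gate-deletions`.
Owner: helper31.  The budget is a union bound over all edges in edge coordinates (label, common raw
u-data); a closed gate prescribes eight full free blocks; Markov for the density test.
-/
import Claimed.Agent.R300.LabInv
import Claimed.Agent.R300.LabCard

set_option autoImplicit false

namespace Claimed.Agent.R300.Lab

open Classical

variable {p : Par}

/-! ### generic counting -/

theorem lab_ncard_filter {α : Type} [Fintype α] (A : α → Prop) :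
    Nat.card {x // A x} = (Finset.univ.filter A).card := by
  rw [Nat.card_eq_fintype_card, Fintype.card_subtype]

theorem lab_ncard_mono {α : Type} [Finite α] (A B : α → Prop) (h : ∀ x, A x → B x) :
    Nat.card {x // A x} ≤ Nat.card {x // B x} :=
  Nat.card_le_card_of_injective (fun x => (⟨x.1, h x.1 x.2⟩ : {x // B x}))
    (fun x y hxy => by
      have := congrArg Subtype.val hxy
      exact Subtype.ext this)

theorem lab_ncard_or {α : Type} [Finite α] (A B : α → Prop) :
    Nat.card {x // A x ∨ B x} ≤ Nat.card {x // A x} + Nat.card {x // B x} := by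
  letI := Fintype.ofFinite α
  rw [lab_ncard_filter, lab_ncard_filter, lab_ncard_filter]
  refine le_trans (Finset.card_le_card ?_) (Finset.card_union_le _ _)
  intro x hx
  simp only [Finset.mem_filter, Finset.mem_univ, true_and, Finset.mem_union] at hx ⊢
  exact hx

theorem lab_ncard_false {α : Type} (A : α → Prop) (h : ∀ x, ¬ A x) : Nat.card {x // A x} = 0 := by
  haveI : IsEmpty {x // A x} := ⟨fun x => h x.1 x.2⟩
  exact Nat.card_of_isEmpty

/-- Markov's inequality for the number of failures among the tests `k ∈ P` -/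
theorem lab_markov {α : Type} [Finite α] (P : Finset ℕ) (R : α → ℕ → Prop) (m N C : ℕ)
    (hk : ∀ k ∈ P, m * Nat.card {x // R x k} ≤ N) :
    m * Nat.card {x // P.card < C * (P.filter (R x)).card} ≤ C * N := by
  letI := Fintype.ofFinite α
  rcases Nat.eq_zero_or_pos P.card with h0 | h0
  · rw [lab_ncard_false]
    · simp
    · intro x hx
      have : (P.filter (R x)).card ≤ P.card := Finset.card_filter_le _ _
      have h1 : (P.filter (R x)).card = 0 := by omega
      rw [h1] at hx
      omega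
  · rw [lab_ncard_filter]
    set bad := Finset.univ.filter (fun x : α => P.card < C * (P.filter (R x)).card) with hbad
    have h1 : bad.card * P.card ≤ ∑ x ∈ bad, C * (P.filter (R x)).card := by
      rw [← smul_eq_mul, ← Finset.sum_const]
      apply Finset.sum_le_sum
      intro x hx
      exact (Finset.mem_filter.1 hx).2.le
    have h2 : ∑ x ∈ bad, C * (P.filter (R x)).card ≤ ∑ x : α, C * (P.filter (R x)).card :=
      Finset.sum_le_sum_of_subset (Finset.subset_univ _)
    have h3 : ∑ x : α, (P.filter (R x)).card = ∑ k ∈ P, (Finset.univ.filter (fun x => R x k)).card := by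
      simp only [Finset.card_filter]
      exact Finset.sum_comm
    have h4 : m * ∑ k ∈ P, (Finset.univ.filter (fun x : α => R x k)).card ≤ P.card * N := by
      rw [Finset.mul_sum, ← smul_eq_mul, ← Finset.sum_const]
      apply Finset.sum_le_sum
      intro k hk'
      have := hk k hk'
      rwa [lab_ncard_filter] at this
    rw [← Finset.mul_sum (Finset.univ : Finset α), h3] at h2
    have h5 : (m * bad.card) * P.card ≤ (C * N) * P.card := by
      calc (m * bad.card) * P.card = m * (bad.card * P.card) := by ring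
        _ ≤ m * (C * ∑ k ∈ P, (Finset.univ.filter (fun x : α => R x k)).card) :=
            Nat.mul_le_mul_left _ (h1.trans h2)
        _ = C * (m * ∑ k ∈ P, (Finset.univ.filter (fun x : α => R x k)).card) := by ring
        _ ≤ C * (P.card * N) := Nat.mul_le_mul_left _ h4
        _ = (C * N) * P.card := by ring
    convert Nat.le_of_mul_le_mul_right h5 h0

theorem lab_six (m N a1 a2 a3 a4 a5 a6 t : ℕ) (h : t ≤ a1 + (a2 + (a3 + (a4 + (a5 + a6)))))
    (g1 : m * a1 ≤ N) (g2 : m * a2 ≤ N) (g3 : m * a3 ≤ N) (g4 : m * a4 ≤ N)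
    (g5 : m * a5 ≤ 250 * N) (g6 : m * a6 ≤ 250 * N) : m * t ≤ 504 * N := by
  have := Nat.mul_le_mul_left m h
  simp only [mul_add] at this
  omega

/-! ### counting closed gates in edge coordinates -/

section gates

variable (hp : p.Adm) (h : ℕ) (l : Label p)

include hp in
/-- below the cutoff the raw u-blocks are the common data -/
theorem lab_Ue_lt (W : UC p h) (j : ℕ) (hj : j < p.kap h) : Ue l h W j = W.1 j := by
  have := (lab_xIdx_range hp l.ty h).1
  unfold Ue
  rw [lab_xU_ne h l j (by omega), add_zero]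

include hp in
/-- a gate tested at most two blocks after the cutoff is closed with probability `≤ 2^(-8s)` -/
theorem lab_gate_count (k : ℕ) (hk : k ≤ p.kap h + 2) :
    2 ^ (8 * p.s) * Nat.card {W : UC p h // ¬ gate (Ue l h W) k} ≤ Nat.card (UC p h) := by
  by_cases h20 : k ≤ 20
  · rw [lab_ncard_false]
    · simp
    · intro W hW
      exact hW (Or.inl h20)
  · have hS : ∀ j ∈ Finset.Icc (2 * ((k - 5) / 2) - 7) (2 * ((k - 5) / 2)),
        0 < j ∧ j < p.kap h := by
      intro j hj
      rw [Finset.mem_Icc] at hj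
      omega
    have hc := lab_card_UC_blocks hp h _ hS (fun _ => 0)
    have h8 : (Finset.Icc (2 * ((k - 5) / 2) - 7) (2 * ((k - 5) / 2))).card = 8 := by
      rw [Nat.card_Icc]; omega
    rw [h8] at hc
    rw [← hc]
    apply le_of_eq
    congr 1
    apply Nat.card_congr
    apply Equiv.subtypeEquivRight
    intro W
    unfold gate
    constructor
    · intro hg j hj
      by_contra hne
      have hj' := Finset.mem_Icc.1 hj
      exact hg (Or.inr ⟨j, hj'.1, hj'.2, by rwa [lab_Ue_lt hp h l W j (hS j hj).2]⟩)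
    · rintro hz (h1 | ⟨j, h1, h2, h3⟩)
      · exact h20 h1
      · have hj := Finset.mem_Icc.2 ⟨h1, h2⟩
        rw [lab_Ue_lt hp h l W j (hS j hj).2] at h3
        exact h3 (hz j hj)

include hp in
/-- the three gate tests fail with probability at most `504 * 2^(-8s)` in edge coordinates -/
theorem lab_badgates_count :
    2 ^ (8 * p.s) * Nat.card {W : UC p h // BadGates h l (Ue l h W)} ≤ 504 * Nat.card (UC p h) := by
  haveI := lab_finite_UC hp h
  have hξ := (lab_xIdx_range hp l.ty h).2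
  have g1 := lab_gate_count hp h l (p.kap h) (by omega)
  have g2 := lab_gate_count hp h l (p.kap h - 1) (by omega)
  have g3 := lab_gate_count hp h l (p.kap h - 2) (by omega)
  have g4 := lab_gate_count hp h l (p.xIdx l.ty h) hξ
  have g5 : ∀ par : ℕ, 2 ^ (8 * p.s) * Nat.card {W : UC p h //
      ((Finset.Ico 1 (p.kap h)).filter (fun k => k % 2 = par)).card <
        250 * (((Finset.Ico 1 (p.kap h)).filter (fun k => k % 2 = par)).filter
          (fun k => ¬ gate (Ue l h W) k)).card} ≤ 250 * Nat.card (UC p h) := by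
    intro par
    have := lab_markov ((Finset.Ico 1 (p.kap h)).filter (fun k => k % 2 = par))
      (fun (W : UC p h) k => ¬ gate (Ue l h W) k) (2 ^ (8 * p.s)) (Nat.card (UC p h)) 250 (by
        intro k hk
        have := (Finset.mem_Ico.1 (Finset.mem_filter.1 hk).1).2
        exact lab_gate_count hp h l k (by omega))
    convert this
  have hmono := lab_ncard_mono (fun W : UC p h => BadGates h l (Ue l h W))
    (fun W : UC p h => ¬ gate (Ue l h W) (p.kap h) ∨ ¬ gate (Ue l h W) (p.kap h - 1) ∨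
      ¬ gate (Ue l h W) (p.kap h - 2) ∨ ¬ gate (Ue l h W) (p.xIdx l.ty h) ∨
      (((Finset.Ico 1 (p.kap h)).filter (fun k => k % 2 = 0)).card <
        250 * (((Finset.Ico 1 (p.kap h)).filter (fun k => k % 2 = 0)).filter
          (fun k => ¬ gate (Ue l h W) k)).card) ∨
      (((Finset.Ico 1 (p.kap h)).filter (fun k => k % 2 = 1)).card <
        250 * (((Finset.Ico 1 (p.kap h)).filter (fun k => k % 2 = 1)).filter
          (fun k => ¬ gate (Ue l h W) k)).card)) (by
      intro W hW
      rcases hW with (h1 | h1 | h1) | ⟨-, h1⟩ | ⟨par, hpar, h1⟩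
      · exact Or.inl h1
      · exact Or.inr (Or.inl h1)
      · exact Or.inr (Or.inr (Or.inl h1))
      · exact Or.inr (Or.inr (Or.inr (Or.inl h1)))
      · rw [← Finset.filter_filter] at h1
        interval_cases par
        · exact Or.inr (Or.inr (Or.inr (Or.inr (Or.inl h1))))
        · exact Or.inr (Or.inr (Or.inr (Or.inr (Or.inr h1)))))
  have o1 := lab_ncard_or (fun W : UC p h => ¬ gate (Ue l h W) (p.kap h))
    (fun W : UC p h => ¬ gate (Ue l h W) (p.kap h - 1) ∨
      ¬ gate (Ue l h W) (p.kap h - 2) ∨ ¬ gate (Ue l h W) (p.xIdx l.ty h) ∨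
      (((Finset.Ico 1 (p.kap h)).filter (fun k => k % 2 = 0)).card <
        250 * (((Finset.Ico 1 (p.kap h)).filter (fun k => k % 2 = 0)).filter
          (fun k => ¬ gate (Ue l h W) k)).card) ∨
      (((Finset.Ico 1 (p.kap h)).filter (fun k => k % 2 = 1)).card <
        250 * (((Finset.Ico 1 (p.kap h)).filter (fun k => k % 2 = 1)).filter
          (fun k => ¬ gate (Ue l h W) k)).card))
  have o2 := lab_ncard_or (fun W : UC p h => ¬ gate (Ue l h W) (p.kap h - 1))
    (fun W : UC p h =>
      ¬ gate (Ue l h W) (p.kap h - 2) ∨ ¬ gate (Ue l h W) (p.xIdx l.ty h) ∨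
      (((Finset.Ico 1 (p.kap h)).filter (fun k => k % 2 = 0)).card <
        250 * (((Finset.Ico 1 (p.kap h)).filter (fun k => k % 2 = 0)).filter
          (fun k => ¬ gate (Ue l h W) k)).card) ∨
      (((Finset.Ico 1 (p.kap h)).filter (fun k => k % 2 = 1)).card <
        250 * (((Finset.Ico 1 (p.kap h)).filter (fun k => k % 2 = 1)).filter
          (fun k => ¬ gate (Ue l h W) k)).card))
  have o3 := lab_ncard_or (fun W : UC p h => ¬ gate (Ue l h W) (p.kap h - 2))
    (fun W : UC p h => ¬ gate (Ue l h W) (p.xIdx l.ty h) ∨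
      (((Finset.Ico 1 (p.kap h)).filter (fun k => k % 2 = 0)).card <
        250 * (((Finset.Ico 1 (p.kap h)).filter (fun k => k % 2 = 0)).filter
          (fun k => ¬ gate (Ue l h W) k)).card) ∨
      (((Finset.Ico 1 (p.kap h)).filter (fun k => k % 2 = 1)).card <
        250 * (((Finset.Ico 1 (p.kap h)).filter (fun k => k % 2 = 1)).filter
          (fun k => ¬ gate (Ue l h W) k)).card))
  have o4 := lab_ncard_or (fun W : UC p h => ¬ gate (Ue l h W) (p.xIdx l.ty h))
    (fun W : UC p h =>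
      (((Finset.Ico 1 (p.kap h)).filter (fun k => k % 2 = 0)).card <
        250 * (((Finset.Ico 1 (p.kap h)).filter (fun k => k % 2 = 0)).filter
          (fun k => ¬ gate (Ue l h W) k)).card) ∨
      (((Finset.Ico 1 (p.kap h)).filter (fun k => k % 2 = 1)).card <
        250 * (((Finset.Ico 1 (p.kap h)).filter (fun k => k % 2 = 1)).filter
          (fun k => ¬ gate (Ue l h W) k)).card))
  have o5 := lab_ncard_or (fun W : UC p h =>
      (((Finset.Ico 1 (p.kap h)).filter (fun k => k % 2 = 0)).card <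
        250 * (((Finset.Ico 1 (p.kap h)).filter (fun k => k % 2 = 0)).filter
          (fun k => ¬ gate (Ue l h W) k)).card))
    (fun W : UC p h =>
      (((Finset.Ico 1 (p.kap h)).filter (fun k => k % 2 = 1)).card <
        250 * (((Finset.Ico 1 (p.kap h)).filter (fun k => k % 2 = 1)).filter
          (fun k => ¬ gate (Ue l h W) k)).card))
  have g50 := g5 0
  have g51 := g5 1
  have htot := hmono.trans (o1.trans (Nat.add_le_add_left (o2.trans (Nat.add_le_add_left
    (o3.trans (Nat.add_le_add_left (o4.trans (Nat.add_le_add_left o5 _)) _)) _)) _))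
  exact lab_six _ _ _ _ _ _ _ _ _ htot g1 g2 g3 g4 g50 g51

end gates

/-! ### the gate budget -/

/-- every auxiliary edge is the edge of its coordinates -/
theorem lab_edge_eq_edgeV (hp : p.Adm) (cf : Coef p) (hcf : cf.Sep) (𝔗 : Tab p) (h : ℕ)
    (a b : Vtx p) (l : Label p) (he : IsEdge0 cf 𝔗 h a b l) :
    ∃ W : UC p h, a = edgeV hp cf hcf 𝔗 h l he.hrho W false ∧
      b = edgeV hp cf hcf 𝔗 h l he.hrho W true ∧ zipU a b = Ue l h W := by
  obtain ⟨W, hW⟩ := lab_edge_coords_exists hp cf hcf 𝔗 h a b l he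
  have E := lab_edgeV_isEdge hp cf hcf 𝔗 h l he.hrho W he.eeq
  have hU : zipU a b = Ue l h W := funext hW
  have hU' : ∀ k, zipU a b k = zipU (edgeV hp cf hcf 𝔗 h l he.hrho W false)
      (edgeV hp cf hcf 𝔗 h l he.hrho W true) k := by
    intro k
    rw [lab_edgeV_zipU]
    exact hW k
  have haux := he.aux
  rw [funext hU'] at haux
  obtain ⟨h1, h2⟩ := lab_vtx_ext_zip a b _ _ he.sa he.sb E.sa E.sb (he.ha.trans E.ha.symm)
    (he.hb.trans E.hb.symm) hU' (lab_aux_V_unique haux E.aux)
  exact ⟨W, h1, h2, hU⟩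

theorem lab_ld_lD (hp : p.Adm) : p.ld + (2 * p.r - p.s) = p.lD := by
  obtain ⟨c, hc⟩ := hp.h20000
  unfold Par.ld Par.lD Par.r
  rw [hc]
  omega

theorem lab_H_mono (p : Par) {i j : ℕ} (h : i ≤ j) : p.H i ≤ p.H j := by
  unfold Par.H
  have := Nat.mul_le_mul_left p.b h
  omega

/-- common height of the occurrences of type `τ` whose endpoint of side `sd` has height `i` -/
noncomputable def hCom (sd : Bool) (i : ℕ) (τ : Fin p.T) : ℕ := if isBig sd τ then i - 1 else i

theorem lab_hCom_le (sd : Bool) (i : ℕ) (τ : Fin p.T) : hCom sd i τ ≤ i := by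
  unfold hCom; split_ifs <;> omega

theorem lab_hCom_eq (sd : Bool) (τ : Fin p.T) (h : ℕ) : hCom sd (htOf sd τ h) τ = h := by
  unfold hCom
  by_cases hb : isBig sd τ
  · rw [if_pos hb, lab_htOf_big sd τ h hb]; rfl
  · rw [if_neg hb, lab_htOf_small sd τ h hb]

/-- the label with given type, serial, extra value and head at the common height `h` -/
def lblAt (hp : p.Adm) (h : ℕ) (q : Fin p.T × Fin p.d × BV p.b × BV p.r) : Label p :=
  ⟨q.1, ⟨h % p.M, Nat.mod_lt _ (lab_M_pos hp)⟩, q.2.1, q.2.2.1, q.2.2.2⟩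

theorem lab_card_Q (p : Par) :
    Fintype.card (Fin p.T × Fin p.d × BV p.b × BV p.r) = p.T * (p.d * (2 ^ p.b * 2 ^ p.r)) := by
  simp [ZMod.card]

/-- (2.16) uniform gate budget -/
theorem lab_gate_budget (hp : p.Adm) (cf : Coef p) (hcf : cf.Sep) (𝔗 : Tab p) (sd : Bool) (i : ℕ) :
    2 ^ (8 * p.s) * Nat.card {x : Layer p sd i // GateBad cf 𝔗 x.1} ≤
      600 * p.T * 2 ^ p.b * p.D * Nat.card (Layer p sd i) := by
  haveI : ∀ h, Finite (UC p h) := lab_finite_UC hp
  let Idx : Type := Σ q : Fin p.T × Fin p.d × BV p.b × BV p.r,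
    {W : UC p (hCom sd i q.1) // BadGates (hCom sd i q.1) (lblAt hp (hCom sd i q.1) q)
      (Ue (lblAt hp (hCom sd i q.1) q) (hCom sd i q.1) W)}
  let rc : Idx → Vtx p := fun y =>
    edgeV hp cf hcf 𝔗 (hCom sd i y.1.1) (lblAt hp (hCom sd i y.1.1) y.1) rfl y.2.1 sd
  have hcov0 : ∀ x : Vtx p, x.sd = sd → x.ht = i → GateBad cf 𝔗 x → ∃ y : Idx, rc y = x := by
    rintro x hxs hxh ⟨h, a, b, l, he, hxab, hbad⟩
    have hx : x = endp a b sd := by
      rcases hxab with h' | h'
      · have : sd = false := by rw [← hxs, h', he.sa]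
        rw [this, h']; rfl
      · have : sd = true := by rw [← hxs, h', he.sb]
        rw [this, h']; rfl
    have hi : i = htOf sd l.ty h := by
      rw [← hxh, hx]; exact (lab_endp_spec he sd).2.1
    obtain ⟨W, h1, h2, h3⟩ := lab_edge_eq_edgeV hp cf hcf 𝔗 h a b l he
    have hx' : x = edgeV hp cf hcf 𝔗 h l he.hrho W sd := by
      rw [hx, ← lab_endp_edgeV hp cf hcf 𝔗 h l he.hrho W sd, ← h1, ← h2]
    rw [h3] at hbad
    have hh : hCom sd i l.ty = h := by rw [hi]; exact lab_hCom_eq sd l.ty h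
    have hrho := he.hrho
    clear h1 h2 h3 hx hxab
    rcases l with ⟨τ, ρ, j, e, h0⟩
    simp only at hh hrho
    subst hh
    obtain rfl : ρ = ⟨hCom sd i τ % p.M, Nat.mod_lt _ (lab_M_pos hp)⟩ := Fin.ext hrho
    exact ⟨⟨(τ, j, e, h0), ⟨W, hbad⟩⟩, hx'.symm⟩
  have hcov : ∀ x : {x : Layer p sd i // GateBad cf 𝔗 x.1}, ∃ y : Idx, rc y = x.1.1 :=
    fun x => hcov0 x.1.1 x.1.2.1 x.1.2.2 x.2
  choose g hg using hcov
  have hginj : Function.Injective g := by
    intro x y hxy
    apply Subtype.ext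
    apply Subtype.ext
    rw [← hg x, ← hg y, hxy]
  have h1 : Nat.card {x : Layer p sd i // GateBad cf 𝔗 x.1} ≤ Nat.card Idx :=
    Nat.card_le_card_of_injective g hginj
  have h2 : 2 ^ (8 * p.s) * Nat.card Idx
      ≤ (p.T * (p.d * (2 ^ p.b * 2 ^ p.r))) * (504 * 2 ^ (p.H i + p.r - p.s)) := by
    rw [Nat.card_sigma, Finset.mul_sum, ← lab_card_Q p, ← Finset.card_univ]
    refine le_trans (Finset.sum_le_sum (g := fun _ => 504 * 2 ^ (p.H i + p.r - p.s)) ?_)
      (by rw [Finset.sum_const, smul_eq_mul])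
    intro q _
    refine (lab_badgates_count hp (hCom sd i q.1) (lblAt hp (hCom sd i q.1) q)).trans ?_
    rw [lab_card_UC hp]
    apply Nat.mul_le_mul_left
    apply Nat.pow_le_pow_right (by norm_num)
    have := lab_H_mono p (lab_hCom_le sd i q.1)
    omega
  have h3 : (p.T * (p.d * (2 ^ p.b * 2 ^ p.r))) * (504 * 2 ^ (p.H i + p.r - p.s))
      ≤ 600 * p.T * 2 ^ p.b * p.D * Nat.card (Layer p sd i) := by
    have hH := lab_H_ge p i
    have hr := lab_r_spec hp
    have hl := lab_ld_lD hp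
    have hD : p.D = p.d * 2 ^ (2 * p.r - p.s) := by
      unfold Par.D Par.d
      rw [← hl, pow_add]
    cases sd
    · rw [(lab_card_layer hp i).2, show p.H i + 2 * p.r - p.s = p.r + (p.H i + p.r - p.s) by omega,
        pow_add, hD]
      have h1 : 1 ≤ 2 ^ (2 * p.r - p.s) := Nat.one_le_two_pow
      calc p.T * (p.d * (2 ^ p.b * 2 ^ p.r)) * (504 * 2 ^ (p.H i + p.r - p.s))
          = 504 * (p.T * p.d * 2 ^ p.b * 2 ^ p.r * 2 ^ (p.H i + p.r - p.s)) * 1 := by ring
        _ ≤ 600 * (p.T * p.d * 2 ^ p.b * 2 ^ p.r * 2 ^ (p.H i + p.r - p.s)) * 2 ^ (2 * p.r - p.s) :=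
            Nat.mul_le_mul (Nat.mul_le_mul_right _ (by norm_num)) h1
        _ = _ := by ring
    · rw [(lab_card_layer hp i).1, hD]
      have h2 : 2 ^ p.r * 2 ^ (p.H i + p.r - p.s) = 2 ^ (2 * p.r - p.s) * 2 ^ p.H i := by
        rw [← pow_add, ← pow_add]
        congr 1
        omega
      calc p.T * (p.d * (2 ^ p.b * 2 ^ p.r)) * (504 * 2 ^ (p.H i + p.r - p.s))
          = 504 * (p.T * p.d * 2 ^ p.b * (2 ^ p.r * 2 ^ (p.H i + p.r - p.s))) := by ring
        _ ≤ 600 * (p.T * p.d * 2 ^ p.b * (2 ^ p.r * 2 ^ (p.H i + p.r - p.s))) :=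
            Nat.mul_le_mul_right _ (by norm_num)
        _ = _ := by rw [h2]; ring
  exact (Nat.mul_le_mul_left _ h1).trans (h2.trans h3)

/-! ### surviving edges -/

theorem lab_not_badgates {cf : Coef p} {𝔗 : Tab p} {h : ℕ} {a b : Vtx p} {l : Label p}
    (he : IsEdge0 cf 𝔗 h a b l) (ha : ¬ GateBad cf 𝔗 a) : ¬ BadGates h l (zipU a b) :=
  fun hb => ha ⟨h, a, b, l, he, Or.inl rfl, hb⟩

theorem lab_not_badgates' {cf : Coef p} {𝔗 : Tab p} {h : ℕ} {a b : Vtx p} {l : Label p}
    (he : IsEdge0 cf 𝔗 h a b l) (hb' : ¬ GateBad cf 𝔗 b) : ¬ BadGates h l (zipU a b) :=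
  fun hb => hb' ⟨h, a, b, l, he, Or.inr rfl, hb⟩

theorem lab_off_ne_of_isXU (l : Label p) (k : ℕ) (hx : isXU l k) : p.off l.ty ≠ Off.eq := by
  rcases hx.1 with ⟨h1, -⟩ | ⟨h1, -⟩ <;> rw [h1] <;> simp

theorem lab_off_ne_of_isXV (l : Label p) (k : ℕ) (hx : isXV l k) : p.off l.ty ≠ Off.eq := by
  rcases hx.1 with ⟨h1, -⟩ | ⟨h1, -⟩ <;> rw [h1] <;> simp

theorem lab_rhs_zero' (F G : ℕ → Prop) (𝔗 : Tab p) (l : Label p) (U : ℕ → BV p.s) :
    rhs F G 𝔗 l U 0 = place 0 l.h0 := rfl

theorem lab_rhs_one' (F G : ℕ → Prop) (𝔗 : Tab p) (l : Label p) (U : ℕ → BV p.s) :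
    rhs F G 𝔗 l U 1 = fun m => if m.1 < p.s - p.r then ext0 l.h0 (2 * p.r - p.s + m.1)
      else ext0 (rule G 𝔗 l U 0 (U 0 + corU F l U 0)) (m.1 - (p.s - p.r)) := rfl

theorem lab_rhs_two' (F G : ℕ → Prop) (𝔗 : Tab p) (l : Label p) (U : ℕ → BV p.s) (k : ℕ) :
    rhs F G 𝔗 l U (k + 2) = rule G 𝔗 l U (k + 1) (U (k + 1) + corU F l U (k + 1)) := rfl

theorem lab_or_forced (A : Prop) (B : Prop) (h : B → A) : (A ∨ B) ↔ (A ∨ False) :=
  ⟨fun h' => h'.elim Or.inl (fun hb => Or.inl (h hb)), fun h' => h'.elim Or.inl False.elim⟩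

theorem lab_corU_congr_F (F F' : ℕ → Prop) (l : Label p) (U : ℕ → BV p.s) (k : ℕ)
    (h : isXU l k → ((gate U k ∨ F k) ↔ (gate U k ∨ F' k))) : corU F l U k = corU F' l U k := by
  unfold corU
  exact if_congr (and_congr_right h) rfl rfl

theorem lab_corV_congr_F (F F' : ℕ → Prop) (l : Label p) (U : ℕ → BV p.s) (k : ℕ)
    (h : isXV l k → ((gate U k ∨ F k) ↔ (gate U k ∨ F' k))) : corV F l U k = corV F' l U k := by
  unfold corV
  exact if_congr (and_congr_right h) rfl rfl

theorem lab_rule_congr_G (G G' : ℕ → Prop) (𝔗 : Tab p) (l : Label p) (U : ℕ → BV p.s) (k : ℕ)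
    (h : (gate U k ∨ G k) ↔ (gate U k ∨ G' k)) (x : BV p.s) :
    rule G 𝔗 l U k x = rule G' 𝔗 l U k x := by
  unfold rule
  exact if_congr Iff.rfl rfl (if_congr h rfl rfl)

/-- if the gate tests pass, the auxiliary and the universal equations coincide -/
theorem lab_univ_of_gates (h : ℕ) (cf : Coef p) (𝔗 : Tab p) (l : Label p) (U V : ℕ → BV p.s)
    (g1 : gate U (p.kap h)) (g2 : p.off l.ty ≠ Off.eq → gate U (p.xIdx l.ty h))
    (haux : AuxEq h cf 𝔗 l U V) : UnivEq cf 𝔗 l U V := by
  have cU : ∀ k, corU (fun k => k = p.xIdx l.ty h) l U k = corU (fun _ => False) l U k := by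
    intro k
    exact lab_corU_congr_F _ _ l U k (fun hx => lab_or_forced _ _
      (fun h1 => h1 ▸ g2 (lab_off_ne_of_isXU l k hx)))
  have cV : ∀ k, corV (fun k => k = p.xIdx l.ty h) l U k = corV (fun _ => False) l U k := by
    intro k
    exact lab_corV_congr_F _ _ l U k (fun hx => lab_or_forced _ _
      (fun h1 => h1 ▸ g2 (lab_off_ne_of_isXV l k hx)))
  have cR : ∀ k x, rule (fun k => k = p.kap h) 𝔗 l U k x = rule (fun _ => False) 𝔗 l U k x := by
    intro k x
    exact lab_rule_congr_G _ _ 𝔗 l U k (lab_or_forced _ _ (fun h1 => h1 ▸ g1)) x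
  intro k
  have e := haux k
  unfold EqAt evalQ at e ⊢
  rw [cU, cV] at e
  rw [e]
  match k with
  | 0 => rfl
  | 1 => rw [lab_rhs_one', lab_rhs_one', cU, cR]
  | (k + 2) => rw [lab_rhs_two', lab_rhs_two', cU, cR]

/-- a surviving edge satisfies the universal padded equations -/
theorem lab_univ_of_good (hp : p.Adm) (cf : Coef p) (hcf : cf.Sep) (𝔗 : Tab p) (h : ℕ)
    (a b : Vtx p) (l : Label p) (he : IsEdge0 cf 𝔗 h a b l) (ha : ¬ GateBad cf 𝔗 a) :
    UnivEq cf 𝔗 l (zipU a b) (zipV a b) :=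
  lab_univ_of_gates h cf 𝔗 l _ _
    (by
      by_contra hg
      exact lab_not_badgates he ha (Or.inl (Or.inl hg)))
    (fun hne => by
      by_contra hg
      exact lab_not_badgates he ha (Or.inr (Or.inl ⟨hne, hg⟩))) he.aux

/-! ### availability -/

theorem lab_card_parity (κ par : ℕ) (hpar : par < 2) :
    (κ - 1) / 2 ≤ ((Finset.Ico 1 κ).filter (fun k => k % 2 = par)).card := by
  have := Finset.card_le_card_of_injOn (s := Finset.range ((κ - 1) / 2))
    (t := (Finset.Ico 1 κ).filter (fun k => k % 2 = par)) (fun j => 2 * j + 2 - par)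
    (by
      intro j hj
      have hj' := Finset.mem_range.1 (Finset.mem_coe.1 hj)
      simp only [Finset.coe_filter, Finset.mem_Ico, Set.mem_ofPred_eq]
      omega)
    (by
      intro j _ j' _ hjj
      simp only at hjj
      omega)
  rwa [Finset.card_range] at this

/-- the marked cutoffs and their zones below the own cutoff -/
theorem lab_card_marked (hp : p.Adm) (h : ℕ) (l : Label p) (hρ : l.rho.1 = h % p.M) :
    ((Finset.Ico 1 (p.kap h)).filter (fun k => isCut l k ∨ inZone l k)).card ≤ 21 * (h / p.M) := by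
  have hK := lab_KK_ge hp
  have hκ := (lab_kap_mod hp h).1
  rw [← hρ] at hκ
  have hsub : (Finset.Ico 1 (p.kap h)).filter (fun k => isCut l k ∨ inZone l k) ⊆
      (Finset.range (h / p.M)).biUnion
        (fun n => Finset.Icc (p.kap l.rho + p.KK * n) (p.kap l.rho + p.KK * n + 20)) := by
    intro k hk
    obtain ⟨hk1, hk2⟩ := Finset.mem_filter.1 hk
    have hk3 := (Finset.mem_Ico.1 hk1).2
    obtain ⟨n, h1, h2⟩ : ∃ n, p.kap l.rho + p.KK * n ≤ k ∧ k ≤ p.kap l.rho + p.KK * n + 20 := by
      rcases hk2 with ⟨n, hn⟩ | ⟨n, hn1, hn2⟩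
      · exact ⟨n, by omega, by omega⟩
      · exact ⟨n, by omega, by omega⟩
    rw [Finset.mem_biUnion]
    refine ⟨n, Finset.mem_range.2 ?_, Finset.mem_Icc.2 ⟨h1, h2⟩⟩
    have : p.KK * n < p.KK * (h / p.M) := by omega
    exact Nat.lt_of_mul_lt_mul_left this
  refine (Finset.card_le_card hsub).trans (Finset.card_biUnion_le.trans ?_)
  have : ∀ n ∈ Finset.range (h / p.M),
      (Finset.Icc (p.kap l.rho + p.KK * n) (p.kap l.rho + p.KK * n + 20)).card = 21 := by
    intro n _
    rw [Nat.card_Icc]; omega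
  rw [Finset.sum_congr rfl this, Finset.sum_const, Finset.card_range, smul_eq_mul, mul_comm]

/-- fewer than `.005` of the full updates of either parity are unavailable -/
theorem lab_avail (hp : p.Adm) (cf : Coef p) (𝔗 : Tab p) (h : ℕ)
    (a b : Vtx p) (l : Label p) (he : IsEdge0 cf 𝔗 h a b l) (ha : ¬ GateBad cf 𝔗 a)
    (par : ℕ) (hpar : par < 2) :
    1000 * ((Finset.Ico 1 (p.kap h)).filter
        (fun k => k % 2 = par ∧ (¬ gate (zipU a b) k ∨ isCut l k ∨ inZone l k))).card <
      5 * ((Finset.Ico 1 (p.kap h)).filter (fun k => k % 2 = par)).card := by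
  have hK := lab_KK_ge hp
  have hn0 := hp.hn0
  have hκ := (lab_kap_mod hp h).1
  have hκ0 := (lab_kap_spec hp (h % p.M)).2.2.2.2
  have hP := lab_card_parity (p.kap h) par hpar
  have hZ := lab_card_marked hp h l he.hrho
  have hC : 250 * ((Finset.Ico 1 (p.kap h)).filter
      (fun k => k % 2 = par ∧ ¬ gate (zipU a b) k)).card ≤
      ((Finset.Ico 1 (p.kap h)).filter (fun k => k % 2 = par)).card := by
    by_contra hc
    exact lab_not_badgates he ha (Or.inr (Or.inr ⟨par, hpar, not_le.1 hc⟩))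
  have hsub : (Finset.Ico 1 (p.kap h)).filter
        (fun k => k % 2 = par ∧ (¬ gate (zipU a b) k ∨ isCut l k ∨ inZone l k)) ⊆
      (Finset.Ico 1 (p.kap h)).filter (fun k => k % 2 = par ∧ ¬ gate (zipU a b) k) ∪
      (Finset.Ico 1 (p.kap h)).filter (fun k => isCut l k ∨ inZone l k) := by
    intro k hk
    obtain ⟨hk1, hk2, hk3⟩ := Finset.mem_filter.1 hk
    rw [Finset.mem_union]
    rcases hk3 with hk3 | hk3
    · exact Or.inl (Finset.mem_filter.2 ⟨hk1, hk2, hk3⟩)
    · exact Or.inr (Finset.mem_filter.2 ⟨hk1, hk3⟩)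
  have hA := (Finset.card_le_card hsub).trans (Finset.card_union_le _ _)
  have hKn : 2000000 * (h / p.M) ≤ p.KK * (h / p.M) := Nat.mul_le_mul_right _ hK
  generalize p.KK * (h / p.M) = X at *
  omega

/-- forces the on-demand equation lemmas of the definitions of this file to live here
(RULES.md, rule 6) -/
theorem lab_gate_eqns : True := by
  have := @hCom.eq_1
  have := @hCom.congr_simp
  have := @lblAt.eq_1
  have := @lblAt.congr_simp
  trivial

end Claimed.Agent.R300.Lab
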