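/-
Row 300 / S0553 (INJ paper), Section 02_expansion, package EL-A (ElCoord): the edge coordinates of a
sliced occurrence: slot bijections, congruence and determinacy of prefixes.
Section owner: helper126.  Proofs: helper31.  Statements as frozen by helper126.
-/
import Claimed.Agent.R300.ElDefs
import Claimed.Agent.R300.LabGate

set_option autoImplicit false

namespace Claimed.Agent.R300.El

open Claimed.Agent.R300.Lab
open Classical

variable {p : Par}

/-- the coefficient map of an edge on an own block `k ≥ 1` of the side `sd` only depends on the slot -/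
theorem el_at_eq (c : Ctx p) (o : Occ p) (sd : Bool) (q : o.EC) (k : ℕ) (hk : 1 ≤ k)
    (ho : own sd k) : c.cf.at (o.lab q.1 q.2.1) k = Kc c o sd (sl o sd q) := by
  unfold Coef.at
  rw [if_neg (by omega)]
  rw [lab_own_iff] at ho
  cases sd
  · simp only [Bool.false_eq_true, if_false] at ho
    rw [if_pos ho]; rfl
  · simp only [if_true] at ho
    rw [if_neg (by omega)]; rfl

theorem el_ev_u (c : Ctx p) (𝔗 : Tab p) (o : Occ p) (q : o.EC) (sd : Bool) (k : ℕ) :
    (ev c 𝔗 o q sd).1.u k = if own sd k then Ue (o.lab q.1 q.2.1) o.h q.2.2 k else 0 := rfl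

theorem el_ev_v (c : Ctx p) (𝔗 : Tab p) (o : Occ p) (q : o.EC) (sd : Bool) (k : ℕ) :
    (ev c 𝔗 o q sd).1.v k = if own sd k then Ve c.cf 𝔗 (o.lab q.1 q.2.1) o.h q.2.2 k else 0 := rfl

/-- the two endpoints form an auxiliary edge -/
theorem el_isEdge (c : Ctx p) (𝔗 : Tab p) (o : Occ p) (q : o.EC) :
    IsEdge0 c.cf 𝔗 o.h (ev c 𝔗 o q false).1 (ev c 𝔗 o q true).1 (o.lab q.1 q.2.1) :=
  lab_edgeV_isEdge c.hp c.cf c.hcf 𝔗 o.h (o.lab q.1 q.2.1) o.hρ q.2.2 o.heq

/-- every auxiliary edge of the slice has coordinates -/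
theorem el_isEdge_conv (c : Ctx p) (𝔗 : Tab p) (o : Occ p) (a b : Vtx p) (l : Label p)
    (he : IsEdge0 c.cf 𝔗 o.h a b l) (hτ : l.ty = o.τ) (hl : l.e = o.e) :
    ∃ q : o.EC, a = (ev c 𝔗 o q false).1 ∧ b = (ev c 𝔗 o q true).1 ∧ l = o.lab q.1 q.2.1 := by
  obtain ⟨W, h1, h2, -⟩ := lab_edge_eq_edgeV c.hp c.cf c.hcf 𝔗 o.h a b l he
  have hρ := he.hrho
  rcases l with ⟨ty, rho, j, e, h0⟩
  simp only at hτ hl hρ
  subst hτ
  subst hl
  obtain rfl : rho = o.ρ := Fin.ext (hρ.trans o.hρ.symm)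
  exact ⟨(j, h0, W), h1, h2, rfl⟩

/-- CONGRUENCE: the blocks of index `< k` of both endpoints only depend on the serial, the head, the
common u-blocks of index `< k` and the tables of level `< k`. -/
theorem el_cong (c : Ctx p) (𝔗 𝔗' : Tab p) (o : Occ p) (q q' : o.EC) (k : ℕ)
    (hT : ∀ i, i + 1 < k → 𝔗 i = 𝔗' i) (hj : q.1 = q'.1) (h0 : q.2.1 = q'.2.1)
    (hW : ∀ i, i < k → q.2.2.1 i = q'.2.2.1 i) (sd : Bool) :
    agr o sd k (ev c 𝔗 o q sd) (ev c 𝔗' o q' sd) := by
  obtain ⟨j, x0, W⟩ := q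
  obtain ⟨j', x0', W'⟩ := q'
  simp only at hj h0 hW
  subst hj
  subst h0
  have hU : ∀ i, i < k → Ue (o.lab j x0) o.h W i = Ue (o.lab j x0) o.h W' i := by
    intro i hi
    unfold Ue
    rw [hW i hi]
  intro i hi
  rw [el_ev_u, el_ev_u, el_ev_v, el_ev_v]
  by_cases ho : own sd i
  · simp only [ho, if_true]
    refine ⟨hU i hi, ?_⟩
    unfold Ve
    have h1 : rhs (FX (o.lab j x0) o.h) (GX p o.h) 𝔗 (o.lab j x0) (Ue (o.lab j x0) o.h W) i
        = rhs (FX (o.lab j x0) o.h) (GX p o.h) 𝔗' (o.lab j x0) (Ue (o.lab j x0) o.h W') i := by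
      rw [lab_rhs_congr _ _ 𝔗 _ _ (Ue (o.lab j x0) o.h W') i (fun n hn => hU n (by omega))]
      rcases Nat.eq_zero_or_pos i with rfl | hi0
      · rfl
      · exact lab_rhs_congr_tab _ _ _ _ _ _ _ (hT (i - 1) (by omega))
    rw [h1, lab_corV_congr _ _ _ (Ue (o.lab j x0) o.h W') i (fun n hn => hU n (by omega)),
      lab_corU_congr _ _ _ (Ue (o.lab j x0) o.h W') i (fun n hn => hU n (by omega)), hU i hi]
  · rw [if_neg ho, if_neg ho, if_neg ho, if_neg ho]
    exact ⟨rfl, rfl⟩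

/-- determinacy of the raw u-blocks `< k` from the own blocks `< k` of one side and the raw
evaluation on the own block `k` -/
theorem el_determ_eval (hp : p.Adm) (F G : ℕ → Prop) (cf : Coef p) (𝔗 : Tab p) (l : Label p)
    (U V U' V' : ℕ → BV p.s) (hU0 : IsPre p.r (U 0)) (hU0' : IsPre p.r (U' 0)) (k : ℕ) (hk : 1 ≤ k)
    (e1 : ∀ j, j ≤ k → EqAt F G cf 𝔗 l U V j) (e2 : ∀ j, j ≤ k → EqAt F G cf 𝔗 l U' V' j)
    (sd : Bool) (hag : ∀ j, j < k → own sd j → U j = U' j ∧ V j = V' j)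
    (hQ : V k + cf.at l k (U k) = V' k + cf.at l k (U' k)) : ∀ j, j < k → U j = U' j := by
  obtain ⟨k', rfl⟩ : ∃ k', k = k' + 1 := ⟨k - 1, by omega⟩
  have s1 := lab_determ_le hp F G cf 𝔗 l U V U' V' hU0 hU0' k' (fun j hj => e1 j (by omega))
    (fun j hj => e2 j (by omega)) sd (fun j hj ho => hag j (by omega) ho)
  have s2 : U k' = U' k' := by
    apply lab_rhs_inj hp F G 𝔗 l U U' hU0 hU0' k' (fun i hi => (s1 i hi).1)
    rw [← e1 (k' + 1) le_rfl, ← e2 (k' + 1) le_rfl]
    unfold evalQ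
    rw [lab_corV_congr F l U U' (k' + 1) (fun n hn => (s1 n (by omega)).1),
      lab_corU_congr F l U U' (k' + 1) (fun n hn => (s1 n (by omega)).1), map_add, map_add]
    calc V (k' + 1) + corV F l U' (k' + 1) + (cf.at l (k' + 1) (U (k' + 1))
          + cf.at l (k' + 1) (corU F l U' (k' + 1)))
        = (V (k' + 1) + cf.at l (k' + 1) (U (k' + 1))) + corV F l U' (k' + 1)
          + cf.at l (k' + 1) (corU F l U' (k' + 1)) := by abel
      _ = (V' (k' + 1) + cf.at l (k' + 1) (U' (k' + 1))) + corV F l U' (k' + 1)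
          + cf.at l (k' + 1) (corU F l U' (k' + 1)) := by rw [hQ]
      _ = _ := by abel
  intro j hj
  rcases Nat.lt_succ_iff_lt_or_eq.1 hj with h | h
  · exact (s1 j h).1
  · rw [h]; exact s2

theorem el_Ue_zero_pre (hp : p.Adm) (h : ℕ) (l : Label p) (W : UC p h) : IsPre p.r (Ue l h W 0) := by
  have := lab_Ue_pre hp h l W false 0 lab_own_false_zero
  rwa [lab_aw_zero hp] at this

/-- same slot: same serial -/
theorem el_sl_serial (o : Occ p) (sd : Bool) (q q' : o.EC) (hs : sl o sd q = sl o sd q') :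
    q.1 = q'.1 := by
  cases sd
  · exact hs
  · have h1 : (q.1, slice 0 (2 * p.r - p.s) q.2.1) = (q'.1, slice 0 (2 * p.r - p.s) q'.2.1) := hs
    exact (Prod.mk.inj h1).1

/-- DETERMINACY: same slot at the side `sd`, agreement of the blocks `< k` of the endpoints of side
`sd` and of the raw evaluation on the own block `k`: then the heads and the common u-blocks of index
`< k` agree. -/
theorem el_det (c : Ctx p) (𝔗 : Tab p) (o : Occ p) (sd : Bool) (q q' : o.EC)
    (hs : sl o sd q = sl o sd q') (k : ℕ) (hk : 1 ≤ k) (ho : own sd k)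
    (hag : agr o sd k (ev c 𝔗 o q sd) (ev c 𝔗 o q' sd))
    (hQ : Qv c o sd (sl o sd q) k (ev c 𝔗 o q sd) = Qv c o sd (sl o sd q) k (ev c 𝔗 o q' sd)) :
    q.1 = q'.1 ∧ q.2.1 = q'.2.1 ∧ ∀ i, i < k → q.2.2.1 i = q'.2.2.1 i := by
  have hp := c.hp
  have hj := el_sl_serial o sd q q' hs
  have E := el_isEdge c 𝔗 o q
  have E' := el_isEdge c 𝔗 o q'
  have hh : q.2.1 = q'.2.1 := by
    cases sd
    · have hk2 : 0 < k := by omega
      have h1 := lab_eq_zero hp E
      have h2 := lab_eq_zero hp E'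
      have hn : (o.lab q.1 q.2.1).nameA = (o.lab q'.1 q'.2.1).nameA := by
        unfold Label.nameA Occ.lab
        simp only [hj]
      rw [(hag 0 hk2).1, (hag 0 hk2).2, hn, h2] at h1
      have hr := lab_r_le_s hp
      have := congrArg (slice 0 p.r) h1
      rw [lab_slice_place 0 (by omega), lab_slice_place 0 (by omega)] at this
      exact this.symm
    · have hb : slice 0 (2 * p.r - p.s) q.2.1 = slice 0 (2 * p.r - p.s) q'.2.1 := by
        have h1 : (q.1, slice 0 (2 * p.r - p.s) q.2.1) = (q'.1, slice 0 (2 * p.r - p.s) q'.2.1) := hs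
        exact (Prod.mk.inj h1).2
      have hn : (o.lab q.1 q.2.1).nameB = (o.lab q'.1 q'.2.1).nameB := by
        unfold Label.nameB Label.buck Occ.lab
        simp only [hj, hb]
      have hev : (ev c 𝔗 o q true).1.v 1 + c.cf.KB (o.lab q.1 q.2.1).nameB ((ev c 𝔗 o q true).1.u 1)
          = (ev c 𝔗 o q' true).1.v 1
            + c.cf.KB (o.lab q.1 q.2.1).nameB ((ev c 𝔗 o q' true).1.u 1) := by
        rcases Nat.lt_or_ge 1 k with h1 | h1
        · rw [(hag 1 h1).1, (hag 1 h1).2]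
        · obtain rfl : k = 1 := by omega
          exact hQ
      apply lab_head_ext hp _ _ hb
      intro m hm
      have h1 := lab_eq_one hp E m hm
      have h2 := lab_eq_one hp E' m hm
      rw [← hn, ← hev, h1] at h2
      exact h2
  refine ⟨hj, hh, ?_⟩
  obtain ⟨j, x0, W⟩ := q
  obtain ⟨j', x0', W'⟩ := q'
  simp only at hj hh
  subst hj
  subst hh
  have key := el_determ_eval hp _ _ c.cf 𝔗 (o.lab j x0) (Ue (o.lab j x0) o.h W)
    (Ve c.cf 𝔗 (o.lab j x0) o.h W) (Ue (o.lab j x0) o.h W') (Ve c.cf 𝔗 (o.lab j x0) o.h W')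
    (el_Ue_zero_pre hp _ _ _) (el_Ue_zero_pre hp _ _ _) k hk
    (fun i _ => lab_Ve_eq c.cf 𝔗 (o.lab j x0) o.h W i)
    (fun i _ => lab_Ve_eq c.cf 𝔗 (o.lab j x0) o.h W' i) sd
    (fun i hi hoi => by
      have := hag i hi
      rw [el_ev_u, el_ev_u, el_ev_v, el_ev_v, if_pos hoi, if_pos hoi, if_pos hoi, if_pos hoi] at this
      exact this)
    (by
      unfold Qv at hQ
      rw [el_ev_u, el_ev_u, el_ev_v, el_ev_v, if_pos ho, if_pos ho, if_pos ho, if_pos ho,
        ← el_at_eq c o sd (j, x0, W) k hk ho] at hQ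
      exact hQ)
  intro i hi
  have := key i hi
  unfold Ue at this
  exact add_right_cancel this

/-- the same with agreement of the whole block `k` -/
theorem el_det' (c : Ctx p) (𝔗 : Tab p) (o : Occ p) (sd : Bool) (q q' : o.EC)
    (hs : sl o sd q = sl o sd q') (k : ℕ) (hk : 1 ≤ k) (ho : own sd k)
    (hag : agr o sd (k + 1) (ev c 𝔗 o q sd) (ev c 𝔗 o q' sd)) :
    q.1 = q'.1 ∧ q.2.1 = q'.2.1 ∧ ∀ i, i < k + 1 → q.2.2.1 i = q'.2.2.1 i := by
  obtain ⟨h1, h2, h3⟩ := el_det c 𝔗 o sd q q' hs k hk ho (fun i hi => hag i (by omega))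
    (by unfold Qv; rw [(hag k (by omega)).1, (hag k (by omega)).2])
  refine ⟨h1, h2, ?_⟩
  intro i hi
  rcases Nat.lt_succ_iff_lt_or_eq.1 hi with h | h
  · exact h3 i h
  · subst h
    have := (hag i (by omega)).1
    rw [el_ev_u, el_ev_u, if_pos ho, if_pos ho, h1, h2] at this
    unfold Ue at this
    exact add_right_cancel this

/-- SLOT BIJECTION (Lemma `incidence-inversion` in a slice): exactly one edge at every endpoint and
slot. -/
theorem el_bij (c : Ctx p) (𝔗 : Tab p) (o : Occ p) (sd : Bool) :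
    Function.Bijective (fun q : o.EC => (ev c 𝔗 o q sd, sl o sd q)) := by
  have hp := c.hp
  constructor
  · intro q q' hqq
    have h1 : ev c 𝔗 o q sd = ev c 𝔗 o q' sd := (Prod.mk.inj hqq).1
    have h2 : sl o sd q = sl o sd q' := (Prod.mk.inj hqq).2
    have key : ∀ i, q.1 = q'.1 ∧ q.2.1 = q'.2.1 ∧ q.2.2.1 i = q'.2.2.1 i := by
      intro i
      obtain ⟨k, hk1, hk2, hk3⟩ : ∃ k, 1 ≤ k ∧ own sd k ∧ i < k + 1 := by
        cases sd
        · exact ⟨2 * i + 2, by omega, by rw [lab_own_iff]; simp, by omega⟩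
        · exact ⟨2 * i + 1, by omega, by rw [lab_own_iff]; simp, by omega⟩
      obtain ⟨e1, e2, e3⟩ := el_det' c 𝔗 o sd q q' h2 k hk1 hk2 (by
        rw [h1]; exact fun _ _ => ⟨rfl, rfl⟩)
      exact ⟨e1, e2, e3 i hk3⟩
    obtain ⟨j, x0, W⟩ := q
    obtain ⟨j', x0', W'⟩ := q'
    have e1 : j = j' := (key 0).1
    have e2 : x0 = x0' := (key 0).2.1
    have e3 : W = W' := Subtype.ext (funext fun i => (key i).2.2)
    rw [e1, e2, e3]
  · rintro ⟨x, σ⟩
    cases sd
    · obtain ⟨π, W, hx⟩ := lab_edge_surj hp c.cf c.hcf 𝔗 o.τ o.h o.ρ o.hρ σ false (BV p.r) id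
        (fun e π π' a b a' b' E E' hx => by
          have hx' : a = a' := hx
          subst hx'
          exact lab_head_from_A hp E E' rfl)
        (fun i => by
          have hH := lab_H_ge p i
          have hr := lab_r_spec hp
          rw [(lab_card_layer hp i).2, lab_card_BV, ← pow_add]
          congr 1
          omega)
        o.e o.heq x.1 x.2.1 x.2.2.1 x.2.2.2
      refine ⟨(σ, π, W), ?_⟩
      exact Prod.ext (Subtype.ext hx) rfl
    · obtain ⟨j, cc⟩ := σ
      have hname : ∀ (e : BV p.b) (x y : BV p.r),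
          slice 0 (2 * p.r - p.s) x = slice 0 (2 * p.r - p.s) y →
          Label.nameB (⟨o.τ, o.ρ, j, e, x⟩ : Label p) = Label.nameB (⟨o.τ, o.ρ, j, e, y⟩ : Label p) := by
        intro e x y hxy
        unfold Label.nameB Label.buck
        simp only [hxy]
      obtain ⟨π, W, hx⟩ := lab_edge_surj hp c.cf c.hcf 𝔗 o.τ o.h o.ρ o.hρ j true (BV (p.s - p.r))
        (joinH cc)
        (fun e π π' a b a' b' E E' hx => by
          have hx' : b = b' := hx
          subst hx'
          exact lab_joinH_inj hp cc π π' (lab_head_from_B hp E E'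
            (hname e _ _ (by rw [lab_buck_join hp, lab_buck_join hp]))))
        (fun i => by
          have hH := lab_H_ge p i
          have hr := lab_r_spec hp
          rw [(lab_card_layer hp i).1, lab_card_BV, ← pow_add]
          congr 1
          omega)
        o.e o.heq x.1 x.2.1 x.2.2.1 x.2.2.2
      refine ⟨(j, joinH cc π, W), ?_⟩
      refine Prod.ext (Subtype.ext hx) ?_
      show (j, slice 0 (2 * p.r - p.s) (joinH cc π)) = (j, cc)
      rw [lab_buck_join hp]

theorem el_card_Sl (hp : p.Adm) (sd : Bool) : Fintype.card (Sl p sd) = deg p sd := by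
  cases sd
  · show Fintype.card (Fin p.d) = _
    simp [deg]
  · show Fintype.card (Fin p.d × BV (2 * p.r - p.s)) = _
    have hD : p.D = p.d * 2 ^ (2 * p.r - p.s) := by
      unfold Par.D Par.d
      rw [← lab_ld_lD hp, pow_add]
    simp [deg, hD, ZMod.card]

end Claimed.Agent.R300.El
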