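/-
Row 300 / S0553 (INJ paper), Section 02_expansion, package EL-E (ElNum): the numerical conditions of the
selection theorem (`exp_blk_select`, `exp_blk_inflation` of ExpMain.lean) for the tower parameters,
with `η = 1/5`, `γ = 1/20`.
Section owner: helper126.  The `sorry`s are replaced IN PLACE by the owner of the package
(table subtask, target row300, name EL-E).  Statements are frozen: ask helper126 before changing one.

PLAN.  `expA c1 γ dmin = (c1 - γ)^2 / 16 * dmin` (ExpSelect.lean), here `= 49/6400 * d`, `d = 2 ^ ld`,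
`ld = 8001 * s / 20000`, `s = 20000 m`, `m ≥ 1`, so `ld = 8001 m`, `lD = 12001 m ≤ s`, `min d D = d`,
`max d D = D ≤ 2 ^ s`.  `(D 2^t)^2 ≤ 2^(4 s)`, `exp a ≥ 2 ^ n` for `n ≤ a` (`exp 1 ≥ 2`), and
`a ≥ 4 s + 1` because `2 ^ (8001 m) ≥ 2 ^ 30 * (m + 1)`.
-/
import Claimed.Agent.R300.ElDefs

set_option autoImplicit false

namespace Claimed.Agent.R300.El

open Claimed.Agent.R300.Lab

variable {p : Par}

theorem el_d_le_D (p : Par) : p.d ≤ p.D := by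
  unfold Par.d Par.D Par.ld Par.lD
  exact Nat.pow_le_pow_right (by norm_num) (Nat.div_le_div_right (by omega))

theorem el_min_deg (p : Par) (sd : Bool) : min (deg p (!sd)) (deg p sd) = p.d := by
  have h := el_d_le_D p
  cases sd
  · simp [deg, h]
  · simp [deg, h]

theorem el_max_deg (p : Par) (sd : Bool) : max (deg p (!sd)) (deg p sd) = p.D := by
  have h := el_d_le_D p
  cases sd
  · simp [deg, h]
  · simp [deg, h]

/-- the exponent of the local lemma -/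
noncomputable def elA (p : Par) : ℝ := expA ((1 - (1 / 5 : ℝ)) / 2) (1 / 20) p.d

theorem el_elA_eq (p : Par) : elA p = 49 / 6400 * (p.d : ℝ) := by
  unfold elA expA
  norm_num

theorem el_num_a (hp : p.Adm) : 4 * (p.s : ℝ) + 4 ≤ elA p := by
  obtain ⟨m, hm⟩ := hp.h20000
  have hm1 : 1 ≤ m := by
    have := hp.hs
    omega
  have hld : p.ld = 8001 * m := by
    unfold Par.ld
    rw [hm]
    omega
  have h1 : 2 ^ 30 * (m + 1) ≤ p.d := by
    unfold Par.d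
    rw [hld]
    calc 2 ^ 30 * (m + 1) ≤ 2 ^ 30 * 2 ^ m :=
          Nat.mul_le_mul_left _ (Nat.lt_two_pow_self (n := m))
      _ = 2 ^ (30 + m) := (pow_add 2 30 m).symm
      _ ≤ 2 ^ (8001 * m) := Nat.pow_le_pow_right (by norm_num) (by omega)
  have h2 : ((2 : ℝ) ^ 30 * ((m : ℝ) + 1)) ≤ (p.d : ℝ) := by exact_mod_cast h1
  have h3 : (p.s : ℝ) = 20000 * (m : ℝ) := by exact_mod_cast hm
  have h4 : (1 : ℝ) ≤ m := by exact_mod_cast hm1
  rw [el_elA_eq, h3]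
  norm_num at h2
  linarith

/-- `2 ^ n ≤ exp x` for `n ≤ x` -/
theorem el_two_pow_le_exp {n : ℕ} {x : ℝ} (h : (n : ℝ) ≤ x) : (2 : ℝ) ^ n ≤ Real.exp x := by
  have h2 : (2 : ℝ) ≤ Real.exp 1 := by
    have := Real.add_one_le_exp (1 : ℝ)
    linarith
  calc (2 : ℝ) ^ n ≤ Real.exp 1 ^ n := pow_le_pow_left₀ (by norm_num) h2 n
    _ = Real.exp n := by rw [← Real.exp_nat_mul, mul_one]
    _ ≤ Real.exp x := Real.exp_le_exp.2 h

theorem el_exp_neg_le (hp : p.Adm) : Real.exp (-(elA p)) ≤ 1 / (2 : ℝ) ^ (4 * p.s + 4) := by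
  have h1 : (2 : ℝ) ^ (4 * p.s + 4) ≤ Real.exp (elA p) := by
    refine el_two_pow_le_exp ?_
    have := el_num_a hp
    push_cast
    linarith
  rw [Real.exp_neg, ← one_div]
  exact one_div_le_one_div_of_le (by positivity) h1

theorem el_D_le (p : Par) : p.D ≤ 2 ^ p.s := by
  unfold Par.D Par.lD
  exact Nat.pow_le_pow_right (by norm_num) (by omega)

theorem el_num_four (hp : p.Adm) : 4 ≤ elA p := by
  have h := el_num_a hp
  have h0 : (0 : ℝ) ≤ p.s := Nat.cast_nonneg _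
  linarith

theorem el_num_rho (hp : p.Adm) (t : ℕ) (ht : t ≤ p.s) :
    ((p.D * 2 ^ t : ℕ) : ℝ) ^ 2 * Real.exp (-(elA p)) ≤ 1 / 2 := by
  have h1 : p.D * 2 ^ t ≤ 2 ^ (2 * p.s) := by
    calc p.D * 2 ^ t ≤ 2 ^ p.s * 2 ^ p.s :=
          Nat.mul_le_mul (el_D_le p) (Nat.pow_le_pow_right (by norm_num) ht)
      _ = 2 ^ (2 * p.s) := by rw [← pow_add]; congr 1; omega
  have h2 : ((p.D * 2 ^ t : ℕ) : ℝ) ≤ (2 : ℝ) ^ (2 * p.s) := by exact_mod_cast h1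
  have h3 : ((p.D * 2 ^ t : ℕ) : ℝ) ^ 2 ≤ (2 : ℝ) ^ (4 * p.s) := by
    calc ((p.D * 2 ^ t : ℕ) : ℝ) ^ 2 ≤ ((2 : ℝ) ^ (2 * p.s)) ^ 2 :=
          pow_le_pow_left₀ (Nat.cast_nonneg _) h2 2
      _ = (2 : ℝ) ^ (4 * p.s) := by rw [← pow_mul]; congr 1; omega
  calc ((p.D * 2 ^ t : ℕ) : ℝ) ^ 2 * Real.exp (-(elA p))
      ≤ (2 : ℝ) ^ (4 * p.s) * (1 / (2 : ℝ) ^ (4 * p.s + 4)) :=
        mul_le_mul h3 (el_exp_neg_le hp) (Real.exp_pos _).le (by positivity)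
    _ = 1 / 16 := by
        rw [pow_add]
        field_simp
        norm_num
    _ ≤ 1 / 2 := by norm_num

theorem el_num_eps (hp : p.Adm) (t : ℕ) (ht : t ≤ p.s) :
    8 * ((2 ^ t : ℕ) : ℝ) * Real.exp (-(elA p)) ≤ 1 := by
  have h1 : 2 ^ t ≤ 2 ^ (4 * p.s) := Nat.pow_le_pow_right (by norm_num) (by omega)
  have h2 : ((2 ^ t : ℕ) : ℝ) ≤ (2 : ℝ) ^ (4 * p.s) := by exact_mod_cast h1
  calc 8 * ((2 ^ t : ℕ) : ℝ) * Real.exp (-(elA p))
      ≤ 8 * (2 : ℝ) ^ (4 * p.s) * (1 / (2 : ℝ) ^ (4 * p.s + 4)) :=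
        mul_le_mul (by linarith) (el_exp_neg_le hp) (Real.exp_pos _).le (by positivity)
    _ = 1 / 2 := by
        rw [pow_add]
        field_simp
        norm_num
    _ ≤ 1 := by norm_num

/-- the mean gap constant: `9 * 2 / 2 ^ b ≤ (1/5)^2` -/
theorem el_num_eta (hb : 9 ≤ p.b) : 9 * (2 / (2 : ℝ) ^ p.b) ≤ (1 / 5 : ℝ) ^ 2 := by
  have h1 : (2 : ℝ) ^ 9 ≤ (2 : ℝ) ^ p.b := pow_le_pow_right₀ (by norm_num) hb
  have h2 : (0 : ℝ) < (2 : ℝ) ^ p.b := by positivity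
  rw [show 9 * (2 / (2 : ℝ) ^ p.b) = 18 / (2 : ℝ) ^ p.b by ring, div_le_iff₀ h2]
  norm_num at h1 ⊢
  linarith

end Claimed.Agent.R300.El
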