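/-
Row 300 / S0553 (INJ paper), Section 02_expansion, package EL-C (ElShift): translations of one block of
the vertices of a slice, and the multiplicity bound in the form of `exp_level`.
Owner: helper126.
-/
import Claimed.Agent.R300.ElDefs

set_option autoImplicit false

namespace Claimed.Agent.R300.El

open Claimed.Agent.R300.Lab
open Classical

variable {p : Par}

/-- the input space of the block `k`: the active prefix at the common height -/
def PU (o : Occ p) (k : ℕ) : Submodule (ZMod 2) (BV p.s) where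
  carrier := {x | IsPre (p.aw o.h k) x}
  add_mem' := fun ha hb => lab_isPre_add ha hb
  zero_mem' := lab_isPre_zero _
  smul_mem' := by
    intro c x hx m hm
    have : x m = 0 := hx m hm
    simp [this]

noncomputable instance (o : Occ p) (k : ℕ) : Fintype (PU o k) := Fintype.ofFinite _

theorem el_aw_htOf (hp : p.Adm) (τ : Fin p.T) (h : ℕ) (sd : Bool) (k : ℕ) :
    p.aw h k ≤ p.aw (htOf sd τ h) k := by
  by_cases hb : isBig sd τ
  · rw [lab_htOf_big sd _ h hb]; exact lab_aw_mono hp h k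
  · rw [lab_htOf_small sd _ h hb]

theorem el_bw_htOf (hp : p.Adm) (τ : Fin p.T) (h : ℕ) (sd : Bool) (k : ℕ) :
    p.bw h k ≤ p.bw (htOf sd τ h) k := by
  by_cases hb : isBig sd τ
  · rw [lab_htOf_big sd _ h hb]; exact lab_bw_mono hp h k
  · rw [lab_htOf_small sd _ h hb]

/-- translation of one block of a vertex state -/
def shV (x : Vtx p) (k : ℕ) (u v : BV p.s)
    (hu : IsPre (if own x.sd k then p.aw x.ht k else 0) u)
    (hv : IsPre (if own x.sd k then p.bw x.ht k else 0) v) : Vtx p where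
  sd := x.sd
  ht := x.ht
  u := fun j => if j = k then x.u j + u else x.u j
  v := fun j => if j = k then x.v j + v else x.v j
  hu := by
    intro j
    by_cases hj : j = k
    · subst hj
      simp only [if_true]
      exact lab_isPre_add (x.hu j) hu
    · simp only [hj, if_false]
      exact x.hu j
  hv := by
    intro j
    by_cases hj : j = k
    · subst hj
      simp only [if_true]
      exact lab_isPre_add (x.hv j) hv
    · simp only [hj, if_false]
      exact x.hv j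

theorem el_sh_hu (o : Occ p) (sd : Bool) (k : ℕ) (ho : own sd k) (u : PU o k) (x : o.XS sd) :
    IsPre (if own x.1.sd k then p.aw x.1.ht k else 0) u.1 := by
  rw [x.2.1, if_pos ho, x.2.2.1]
  exact lab_isPre_mono (el_aw_htOf o.hp o.τ o.h sd k) u.2

theorem el_sh_hv (o : Occ p) (sd : Bool) (k : ℕ) (hk1 : 1 ≤ k) (hk : k ≤ o.κ) (ho : own sd k)
    (v : BV p.s) (x : o.XS sd) : IsPre (if own x.1.sd k then p.bw x.1.ht k else 0) v := by
  rw [x.2.1, if_pos ho, x.2.2.1]
  have h1 : p.bw o.h k = p.s := lab_bw_full o.hp o.h k hk1 hk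
  have h2 := el_bw_htOf o.hp o.τ o.h sd k
  exact lab_isPre_full (by omega) v

theorem el_sh_xb (o : Occ p) (sd : Bool) (k : ℕ) (hk : k ≤ o.κ) (u : PU o k) (v : BV p.s)
    (x : o.XS sd) (hu hv) (hb : isBig sd o.τ) : xbits o.τ o.h (shV x.1 k u.1 v hu hv) = o.e := by
  refine Eq.trans ?_ (x.2.2.2 hb)
  have hne : p.off o.τ ≠ Off.eq := by
    rcases hb with ⟨_, h2⟩ | ⟨_, h2⟩ <;> rw [h2] <;> simp
  unfold xbits
  rcases lab_xInU_or_xInV o.τ o.h hne with ⟨hxu, _⟩ | ⟨hxu, hxv⟩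
  · rw [if_pos hxu, if_pos hxu]
    show slice _ _ (if p.xIdx o.τ o.h = k then x.1.u (p.xIdx o.τ o.h) + u.1
      else x.1.u (p.xIdx o.τ o.h)) = _
    by_cases hj : p.xIdx o.τ o.h = k
    · rw [if_pos hj, lab_slice_add]
      have h1 : IsPre (p.xOff o.h) u.1 := by
        have := u.2
        have e : p.aw o.h k = p.xOff o.h := by
          rw [← hj, lab_xIdx_U _ _ hxu, lab_aw_at_succ o.hp]; rfl
        rw [← e]; exact this
      rw [lab_slice_pre _ _ _ h1, add_zero]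
    · rw [if_neg hj]
  · rw [if_neg hxu, if_neg hxu]
    show slice _ _ (if p.xIdx o.τ o.h = k then x.1.v (p.xIdx o.τ o.h) + v
      else x.1.v (p.xIdx o.τ o.h)) = _
    have hj : p.xIdx o.τ o.h ≠ k := by
      rw [lab_xIdx_V _ _ hxv]
      have := (lab_kap_succ_le o.hp o.h).1
      have hk' : k ≤ p.kap o.h := hk
      omega
    rw [if_neg hj]

/-- translation of the block `k` in a slice -/
noncomputable def elShF (o : Occ p) (sd : Bool) (k : ℕ) (hk1 : 1 ≤ k) (hk : k ≤ o.κ) (ho : own sd k)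
    (u : PU o k) (v : BV p.s) (x : o.XS sd) : o.XS sd :=
  ⟨shV x.1 k u.1 v (el_sh_hu o sd k ho u x) (el_sh_hv o sd k hk1 hk ho v x), x.2.1, x.2.2.1,
    fun hb => el_sh_xb o sd k hk u v x _ _ hb⟩

theorem elShF_u (o : Occ p) (sd : Bool) (k : ℕ) (hk1 : 1 ≤ k) (hk : k ≤ o.κ) (ho : own sd k)
    (u : PU o k) (v : BV p.s) (x : o.XS sd) (j : ℕ) :
    (elShF o sd k hk1 hk ho u v x).1.u j = if j = k then x.1.u j + u.1 else x.1.u j := rfl

theorem elShF_v (o : Occ p) (sd : Bool) (k : ℕ) (hk1 : 1 ≤ k) (hk : k ≤ o.κ) (ho : own sd k)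
    (u : PU o k) (v : BV p.s) (x : o.XS sd) (j : ℕ) :
    (elShF o sd k hk1 hk ho u v x).1.v j = if j = k then x.1.v j + v else x.1.v j := rfl

theorem el_XS_ext (o : Occ p) (sd : Bool) (x y : o.XS sd) (hu : ∀ j, x.1.u j = y.1.u j)
    (hv : ∀ j, x.1.v j = y.1.v j) : x = y := by
  apply Subtype.ext
  apply Vtx.ext
  · rw [x.2.1, y.2.1]
  · rw [x.2.2.1, y.2.2.1]
  · exact funext hu
  · exact funext hv

theorem elShF_comp (o : Occ p) (sd : Bool) (k : ℕ) (hk1 : 1 ≤ k) (hk : k ≤ o.κ) (ho : own sd k)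
    (u u' : PU o k) (v v' : BV p.s) (x : o.XS sd) :
    elShF o sd k hk1 hk ho u' v' (elShF o sd k hk1 hk ho u v x)
      = elShF o sd k hk1 hk ho (u' + u) (v' + v) x := by
  apply el_XS_ext
  · intro j
    simp only [elShF_u]
    by_cases hj : j = k
    · simp only [hj, if_true, Submodule.coe_add]; abel
    · simp only [hj, if_false]
  · intro j
    simp only [elShF_v]
    by_cases hj : j = k
    · simp only [hj, if_true]; abel
    · simp only [hj, if_false]

theorem elShF_zero (o : Occ p) (sd : Bool) (k : ℕ) (hk1 : 1 ≤ k) (hk : k ≤ o.κ) (ho : own sd k)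
    (x : o.XS sd) : elShF o sd k hk1 hk ho 0 0 x = x := by
  apply el_XS_ext
  · intro j
    simp only [elShF_u]
    by_cases hj : j = k
    · simp only [hj, if_true, Submodule.coe_zero, add_zero]
    · simp only [hj, if_false]
  · intro j
    simp only [elShF_v]
    by_cases hj : j = k
    · simp only [hj, if_true, add_zero]
    · simp only [hj, if_false]

theorem elShF_invol (o : Occ p) (sd : Bool) (k : ℕ) (hk1 : 1 ≤ k) (hk : k ≤ o.κ) (ho : own sd k)
    (u : PU o k) (v : BV p.s) : Function.Involutive (elShF o sd k hk1 hk ho u v) := by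
  intro x
  rw [elShF_comp]
  have h1 : u + u = 0 := Subtype.ext (lab_add_self u.1)
  rw [h1, lab_add_self, elShF_zero]

/-- the translations as permutations -/
noncomputable def elSh (o : Occ p) (sd : Bool) (k : ℕ) (hk1 : 1 ≤ k) (hk : k ≤ o.κ) (ho : own sd k)
    (u : PU o k) (v : BV p.s) : Equiv.Perm (o.XS sd) :=
  (elShF_invol o sd k hk1 hk ho u v).toPerm

theorem elSh_apply (o : Occ p) (sd : Bool) (k : ℕ) (hk1 : 1 ≤ k) (hk : k ≤ o.κ) (ho : own sd k)
    (u : PU o k) (v : BV p.s) (x : o.XS sd) :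
    elSh o sd k hk1 hk ho u v x = elShF o sd k hk1 hk ho u v x := rfl

/-- the coefficient map of a slot on the input space of the block `k` -/
noncomputable def KU (c : Ctx p) (o : Occ p) (sd : Bool) (k : ℕ) (σ : Sl p sd) :
    PU o k →ₗ[ZMod 2] BV p.s := (Kc c o sd σ) ∘ₗ (PU o k).subtype

theorem el_sh_act (o : Occ p) (sd : Bool) (k : ℕ) (hk1 : 1 ≤ k) (hk : k ≤ o.κ) (ho : own sd k)
    (u : PU o k) (v z : BV p.s) (x : o.XS sd) :
    elSh o sd k hk1 hk ho 0 z (elSh o sd k hk1 hk ho u v x) = elSh o sd k hk1 hk ho u (z + v) x := by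
  simp only [elSh_apply]
  rw [elShF_comp, zero_add]

theorem el_sh_Q (c : Ctx p) (o : Occ p) (sd : Bool) (k : ℕ) (hk1 : 1 ≤ k) (hk : k ≤ o.κ)
    (ho : own sd k) (σ : Sl p sd) (u : PU o k) (v : BV p.s) (x : o.XS sd) :
    Qv c o sd σ k (elSh o sd k hk1 hk ho u v x) = Qv c o sd σ k x + v + KU c o sd k σ u := by
  simp only [elSh_apply, Qv, elShF_u, elShF_v, if_true, map_add, KU, LinearMap.comp_apply,
    Submodule.subtype_apply]
  abel

theorem el_sh_agr (o : Occ p) (sd : Bool) (k : ℕ) (hk1 : 1 ≤ k) (hk : k ≤ o.κ) (ho : own sd k)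
    (u u' : PU o k) (v v' : BV p.s) (x x' : o.XS sd) (m : ℕ) (hm : m ≤ k) (h : agr o sd m x x') :
    agr o sd m (elSh o sd k hk1 hk ho u v x) (elSh o sd k hk1 hk ho u' v' x') := by
  intro j hj
  have hjk : j ≠ k := by omega
  simp only [elSh_apply, elShF_u, elShF_v, hjk, if_false]
  exact h j hj

theorem el_agr_refl (o : Occ p) (sd : Bool) (m : ℕ) (x : o.XS sd) : agr o sd m x x :=
  fun _ _ => ⟨rfl, rfl⟩

theorem el_agr_mono (o : Occ p) (sd : Bool) {m m' : ℕ} (h : m ≤ m') (x x' : o.XS sd)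
    (H : agr o sd m' x x') : agr o sd m x x' := fun j hj => H j (by omega)

/-- a block of the other side does not matter -/
theorem el_agr_step (o : Occ p) (sd : Bool) (m : ℕ) (hm : ¬ own sd m) (x x' : o.XS sd)
    (H : agr o sd m x x') : agr o sd (m + 1) x x' := by
  intro j hj
  rcases Nat.lt_or_ge j m with h | h
  · exact H j h
  · have e : j = m := by omega
    subst e
    have h1 : ¬ own x.1.sd j := by rw [x.2.1]; exact hm
    have h2 : ¬ own x'.1.sd j := by rw [x'.2.1]; exact hm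
    rw [lab_vtx_u_other _ _ h1, lab_vtx_u_other _ _ h2, lab_vtx_v_other _ _ h1,
      lab_vtx_v_other _ _ h2]
    exact ⟨rfl, rfl⟩

theorem el_aw_range (o : Occ p) (k : ℕ) (hk1 : 1 ≤ k) (hk : k ≤ o.κ) :
    p.b ≤ p.aw o.h k ∧ p.aw o.h k ≤ p.s := by
  have hk' : k ≤ p.kap o.h := hk
  rcases Nat.lt_or_ge k (p.kap o.h) with h | h
  · rw [lab_aw_full o.hp o.h k hk1 h]
    exact ⟨lab_b_le_s o.hp, le_rfl⟩
  · have e : k = p.kap o.h := by omega
    rw [e, lab_aw_cut]
    exact ⟨(lab_kap_spec o.hp o.h).2.1, (lab_kap_spec o.hp o.h).2.2.1⟩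

/-- the multiplicity bound of the coefficient pools for the slots of one side -/
theorem el_mult_slot (c : Ctx p) (o : Occ p) (sd : Bool) (k : ℕ) (hk1 : 1 ≤ k) (hk : k ≤ o.κ)
    (ζ : BV p.s →ₗ[ZMod 2] ZMod 2) (hζ : ζ ≠ 0) (φ : BV p.s → ZMod 2) :
    2 ^ p.b * Nat.card {σ : Sl p sd // ∀ x : BV p.s, IsPre (p.aw o.h k) x →
      ζ (Kc c o sd σ x) = φ x} ≤ 2 * deg p sd := by
  obtain ⟨h1, h2⟩ := el_aw_range o k hk1 hk
  cases sd
  · exact c.hmu.multA o.τ o.ρ o.e ζ hζ _ h1 h2 φ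
  · exact c.hmu.multB o.τ o.ρ o.e ζ hζ _ h1 h2 φ

theorem el_KU_eq_iff (c : Ctx p) (o : Occ p) (sd : Bool) (k : ℕ) (ζ : BV p.s →ₗ[ZMod 2] ZMod 2)
    (σ σ' : Sl p sd) : ζ ∘ₗ KU c o sd k σ' = ζ ∘ₗ KU c o sd k σ ↔
      ∀ x : BV p.s, IsPre (p.aw o.h k) x → ζ (Kc c o sd σ' x) = ζ (Kc c o sd σ x) := by
  constructor
  · intro h x hx
    exact LinearMap.congr_fun h (⟨x, hx⟩ : PU o k)
  · intro h
    ext x
    exact h x.1 x.2

/-- the multiplicity bound in the form of `exp_level` (slots = slot names and cluster coordinates) -/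
theorem el_mult (c : Ctx p) (o : Occ p) (sd : Bool) (k : ℕ) (hk1 : 1 ≤ k) (hk : k ≤ o.κ)
    (ζ : BV p.s →ₗ[ZMod 2] ZMod 2) (hζ : ζ ≠ 0) (q : Sl p sd × o.C)
    [DecidablePred fun q' : Sl p sd × o.C => ζ ∘ₗ KU c o sd k q'.1 = ζ ∘ₗ KU c o sd k q.1] :
    (((Finset.univ.filter fun q' : Sl p sd × o.C =>
      ζ ∘ₗ KU c o sd k q'.1 = ζ ∘ₗ KU c o sd k q.1).card : ℕ) : ℝ)
      ≤ 2 * (deg p sd : ℝ) * (Fintype.card o.C : ℝ) / 2 ^ p.b := by
  have h1 := el_mult_slot c o sd k hk1 hk ζ hζ (fun x => ζ (Kc c o sd q.1 x))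
  set A : Type := {σ : Sl p sd // ∀ x : BV p.s, IsPre (p.aw o.h k) x →
      ζ (Kc c o sd σ x) = ζ (Kc c o sd q.1 x)} with hA
  have e : {q' : Sl p sd × o.C // ζ ∘ₗ KU c o sd k q'.1 = ζ ∘ₗ KU c o sd k q.1} ≃ A × o.C :=
    { toFun := fun z => (⟨z.1.1, (el_KU_eq_iff c o sd k ζ q.1 z.1.1).1 z.2⟩, z.1.2)
      invFun := fun z => ⟨(z.1.1, z.2), (el_KU_eq_iff c o sd k ζ q.1 z.1.1).2 z.1.2⟩
      left_inv := fun z => rfl
      right_inv := fun z => rfl }
  have h2 : (Finset.univ.filter fun q' : Sl p sd × o.C =>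
      ζ ∘ₗ KU c o sd k q'.1 = ζ ∘ₗ KU c o sd k q.1).card = Nat.card A * Fintype.card o.C := by
    rw [← Fintype.card_subtype, ← Nat.card_eq_fintype_card, Nat.card_congr e, Nat.card_prod,
      Nat.card_eq_fintype_card (α := o.C)]
  rw [h2, le_div_iff₀ (by positivity)]
  have h3 : ((2 ^ p.b * Nat.card A : ℕ) : ℝ) ≤ ((2 * deg p sd : ℕ) : ℝ) := by exact_mod_cast h1
  push_cast at h3 ⊢
  have h4 : (0 : ℝ) ≤ (Fintype.card o.C : ℝ) := Nat.cast_nonneg _
  nlinarith

end Claimed.Agent.R300.El
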