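/-
Row 300 / S0553 (INJ paper), Section 02_expansion, package EL-B (ElTab): dependence of a sliced
occurrence on the permutation tables = Lemma `fresh-matching-coordinates`.
Section owner: helper126.  Proofs: helper31.  Statements as frozen by helper126.
-/
import Claimed.Agent.R300.ElCoord

set_option autoImplicit false

namespace Claimed.Agent.R300.El

open Claimed.Agent.R300.Lab
open Classical

variable {p : Par}

theorem el_ext0_bvCast {n m : ℕ} (h : n = m) (x : BV n) (i : ℕ) :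
    ext0 (bvCast h x) i = ext0 x i := by
  subst h
  rfl

theorem el_res_place {n t : ℕ} (ht : t ≤ n) (w : BV t) : res t (ext0 (place (n := n) 0 w)) = w := by
  funext i
  show ext0 (place (n := n) 0 w) i.1 = w i
  rw [lab_ext0_place 0 w i.1 (by have := i.2; omega)]
  simp [lab_ext0_fin]

theorem el_actPre_place {n t : ℕ} (ht : t ≤ n) (π : Equiv.Perm (BV t)) (w : BV t) :
    actPre (n := n) t π (place 0 w) = place 0 (π w) := by
  funext m
  by_cases hm : m.1 < t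
  · rw [lab_actPre_lt _ _ _ _ hm, el_res_place ht]
    show _ = (if 0 ≤ m.1 then ext0 (π w) (m.1 - 0) else 0)
    rw [if_pos (Nat.zero_le _), Nat.sub_zero, lab_ext0_lt _ _ hm]
  · rw [lab_actPre_ge _ _ _ _ (by omega)]
    show (if 0 ≤ m.1 then ext0 w (m.1 - 0) else 0) = (if 0 ≤ m.1 then ext0 (π w) (m.1 - 0) else 0)
    rw [if_pos (Nat.zero_le _), if_pos (Nat.zero_le _), Nat.sub_zero, lab_ext0_ge _ _ (by omega),
      lab_ext0_ge _ _ (by omega)]

theorem el_actPre_cast {n t t' : ℕ} (h : t' = t) (ht : t ≤ n) (π : Equiv.Perm (BV t')) (w : BV t) :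
    actPre (n := n) t' π (place 0 w) = place 0 ((bvCast h).permCongr π w) := by
  subst h
  exact el_actPre_place ht π w

/-- a table of the cutoff level acts on the cutoff block through `elSig` -/
theorem el_actPre (o : Occ p) (ω : Lvl p o.κ) (k : o.K) (w : o.C) :
    actPre (n := p.s) (tw (tkey o k).1 o.κ) (ω (tkey o k)) (place 0 w) = place 0 (elSig o ω k w) :=
  el_actPre_cast (el_tw o k) (lab_kap_spec o.hp o.h).2.2.1 _ w

/-! ### the v-blocks beyond the cutoff -/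

theorem el_rhs_succ (F G : ℕ → Prop) (𝔗 : Tab p) (l : Label p) (U : ℕ → BV p.s) (k : ℕ)
    (hk : 1 ≤ k) : rhs F G 𝔗 l U (k + 1) = rule G 𝔗 l U k (U k + corU F l U k) := by
  match k, hk with
  | k' + 1, _ => rfl

section far

variable (hp : p.Adm) (cf : Coef p) (𝔗 : Tab p) (h : ℕ) (l : Label p)
  (hρ : l.rho.1 = h % p.M) (W : UC p h)

include hp hρ in
theorem el_Ve_far (i : ℕ) (hi : p.kap h + 2 ≤ i) :
    Ve cf 𝔗 l h W i
      = if p.xInV l.ty h ∧ i = p.xIdx l.ty h then place (p.xOff h) l.e else 0 := by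
  unfold Ve
  rw [lab_corV_gt hp h l hρ W i (by omega), lab_Ubar_ge hp h l hρ W i (by omega),
    lab_W_beyond h W i (by omega), map_zero, add_zero]
  have h1 := lab_rhs_pre hp 𝔗 h l hρ W i
  rw [lab_bw_beyond hp h i hi] at h1
  rw [(lab_isPre_zero_iff _).1 h1, zero_add]

include hp hρ in
theorem el_Ve_next :
    Ve cf 𝔗 l h W (p.kap h + 1)
      = actPre (tw l (p.kap h)) (𝔗 (p.kap h) (l, key (Ue l h W) (p.kap h))) (W.1 (p.kap h))
        + (if p.xInV l.ty h ∧ p.kap h + 1 = p.xIdx l.ty h then place (p.xOff h) l.e else 0) := by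
  have hn0 := hp.hn0
  have hκ := (lab_kap_spec hp h).2.2.2.2
  unfold Ve
  rw [lab_corV_gt hp h l hρ W _ (by omega), lab_Ubar_ge hp h l hρ W _ (by omega),
    lab_W_beyond h W _ (by omega), map_zero, add_zero, el_rhs_succ _ _ _ _ _ _ (by omega),
    lab_Ubar_ge hp h l hρ W _ le_rfl]
  congr 1
  unfold rule
  rw [if_neg ((lab_marks_at_cutoff hp h l hρ).2.2.2 _ (by omega) le_rfl), if_pos (Or.inr (show GX p h (p.kap h) from rfl))]

omit hp in
/-- `Ve` at index `i` uses the tables only at the level `i - 1` -/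
theorem el_Ve_tab (𝔗' : Tab p) (i : ℕ) (hT : 𝔗 (i - 1) = 𝔗' (i - 1)) :
    Ve cf 𝔗 l h W i = Ve cf 𝔗' l h W i := by
  unfold Ve
  rw [lab_rhs_congr_tab _ _ 𝔗 𝔗' _ _ i hT]

end far

theorem el_upd_ne (𝔗 : Tab p) (κ : ℕ) (ω : Lvl p κ) (i : ℕ) (h : i ≠ κ) :
    (Function.update 𝔗 κ ω : Tab p) i = 𝔗 i := Function.update_of_ne h ω 𝔗

theorem el_upd_self (𝔗 : Tab p) (κ : ℕ) (ω : Lvl p κ) :
    (Function.update 𝔗 κ ω : Tab p) κ = ω := Function.update_self κ ω 𝔗

/-- the whole auxiliary incidence of the slice only depends on the tables of level `≤ κ` -/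
theorem el_ev_dep (c : Ctx p) (𝔗 𝔗' : Tab p) (o : Occ p) (h : ∀ i, i ≤ o.κ → 𝔗 i = 𝔗' i) (q : o.EC)
    (sd : Bool) : ev c 𝔗 o q sd = ev c 𝔗' o q sd := by
  apply Subtype.ext
  apply Vtx.ext
  · rfl
  · rfl
  · rfl
  · funext i
    rw [el_ev_v, el_ev_v]
    by_cases ho : own sd i
    · rw [if_pos ho, if_pos ho]
      by_cases hi : p.kap o.h + 2 ≤ i
      · exact (el_Ve_far c.hp c.cf 𝔗 o.h (o.lab q.1 q.2.1) o.hρ q.2.2 i hi).trans
          (el_Ve_far c.hp c.cf 𝔗' o.h (o.lab q.1 q.2.1) o.hρ q.2.2 i hi).symm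
      · exact el_Ve_tab c.cf 𝔗 o.h _ _ 𝔗' i (h _ (by unfold Occ.κ; omega))
    · rw [if_neg ho, if_neg ho]

/-- the endpoint maps only depend on the tables of level `< κ` -/
theorem el_P_dep (c : Ctx p) (𝔗 𝔗' : Tab p) (o : Occ p) (h : ∀ i, i < o.κ → 𝔗 i = 𝔗' i) (sd : Bool) :
    elP c 𝔗 o sd = elP c 𝔗' o sd := by
  funext q
  unfold elP
  apply el_ev_dep
  intro i hi
  unfold elBase
  rcases Nat.lt_or_ge i o.κ with h1 | h1
  · exact (el_upd_ne 𝔗 o.κ _ i (by omega)).trans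
      ((h i h1).trans (el_upd_ne 𝔗' o.κ _ i (by omega)).symm)
  · obtain rfl : i = o.κ := by omega
    exact (el_upd_self 𝔗 o.κ _).trans (el_upd_self 𝔗' o.κ _).symm

theorem el_kap_pos (o : Occ p) : 1 ≤ o.κ := by
  have hn0 := o.hp.hn0
  have hκ := (lab_kap_spec o.hp o.h).2.2.2.2
  unfold Occ.κ
  omega

theorem el_own_not (sd : Bool) (k : ℕ) : own (!sd) k ↔ ¬ own sd k := by
  rw [lab_own_iff, lab_own_iff]
  cases sd <;> simp

theorem el_edge0_gen (c : Ctx p) (𝔗₁ 𝔗₂ : Tab p) (o : Occ p) (hT : ∀ i, i ≠ o.κ → 𝔗₁ i = 𝔗₂ i)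
    (Q : o.EC) : ev c 𝔗₁ o Q o.sd0 = ev c 𝔗₂ o Q o.sd0 := by
  apply Subtype.ext
  apply Vtx.ext
  · rfl
  · rfl
  · rfl
  · funext i
    rw [el_ev_v, el_ev_v]
    by_cases ho : own o.sd0 i
    · rw [if_pos ho, if_pos ho]
      apply el_Ve_tab
      have hne : i - 1 ≠ o.κ := by
        intro h
        have h1 := el_kap_pos o
        have h2 : i = o.κ + 1 := by omega
        rw [h2, lab_own_succ] at ho
        exact ho o.own_sd0
      exact hT _ hne
    · rw [if_neg ho, if_neg ho]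

/-- the endpoint on the side of the cutoff block does not depend on the tables of level `κ` -/
theorem el_edge0 (c : Ctx p) (𝔗 : Tab p) (o : Occ p) (ω : Lvl p o.κ) (q : o.K × o.C) :
    ev c (Function.update 𝔗 o.κ ω) o (ecE o q) o.sd0 = elP c 𝔗 o o.sd0 q :=
  el_edge0_gen c (Function.update 𝔗 o.κ ω) (elBase 𝔗 o) o
    (fun i hi => (el_upd_ne 𝔗 o.κ _ i hi).trans (el_upd_ne 𝔗 o.κ _ i hi).symm) (ecE o q)

theorem el_join_ne (o : Occ p) (W : o.UK) (w : o.C) (i : ℕ) (hi : i ≠ o.κ) :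
    (o.join W w).1 i = W.1.1 i := by
  simp [Occ.join, hi]

theorem el_join_self (o : Occ p) (W : o.UK) (w : o.C) : (o.join W w).1 o.κ = place 0 w := by
  simp [Occ.join]

/-- the v-block following the cutoff -/
theorem el_Ve_next' (c : Ctx p) (𝔗 : Tab p) (o : Occ p) (j : Fin p.d) (x0 : BV p.r) (W : o.UK)
    (w : o.C) :
    Ve c.cf 𝔗 (o.lab j x0) o.h (o.join W w) (o.κ + 1)
      = place 0 (elSig o (𝔗 o.κ) (j, x0, W) w)
        + (if p.xInV o.τ o.h ∧ o.κ + 1 = p.xIdx o.τ o.h then place (p.xOff o.h) o.e else 0) := by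
  refine (el_Ve_next c.hp c.cf 𝔗 o.h (o.lab j x0) o.hρ (o.join W w)).trans ?_
  congr 1
  have hkey : key (Ue (o.lab j x0) o.h (o.join W w)) o.κ = (tkey o (j, x0, W)).2 := by
    funext i
    have hi : i.1 < p.kap o.h := i.2
    show Ue (o.lab j x0) o.h (o.join W w) i.1 = W.1.1 i.1
    rw [lab_Ue_lt c.hp o.h (o.lab j x0) (o.join W w) i.1 hi]
    exact el_join_ne o W w i.1 (by unfold Occ.κ; omega)
  show actPre (tw (o.lab j x0) o.κ)
    (𝔗 o.κ (o.lab j x0, key (Ue (o.lab j x0) o.h (o.join W w)) o.κ)) ((o.join W w).1 o.κ) = _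
  rw [hkey, el_join_self]
  exact el_actPre o (𝔗 o.κ) (j, x0, W) w

theorem el_elSig_refl (o : Occ p) (k : o.K) (w : o.C) :
    elSig o (fun _ => Equiv.refl _) k w = w := by
  unfold elSig
  simp

theorem el_edge1_gen (c : Ctx p) (𝔗₁ 𝔗₂ : Tab p) (o : Occ p) (hT : ∀ i, i ≠ o.κ → 𝔗₁ i = 𝔗₂ i)
    (ω : Lvl p o.κ) (e1 : 𝔗₁ o.κ = ω) (e2 : 𝔗₂ o.κ = fun _ => Equiv.refl _)
    (j : Fin p.d) (x0 : BV p.r) (W : o.UK) (w : o.C) :
    ev c 𝔗₁ o (ecE o ((j, x0, W), w)) (!o.sd0)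
      = ev c 𝔗₂ o (ecE o ((j, x0, W), elSig o ω (j, x0, W) w)) (!o.sd0) := by
  have hlow := el_cong c 𝔗₁ 𝔗₂ o (ecE o ((j, x0, W), w))
    (ecE o ((j, x0, W), elSig o ω (j, x0, W) w)) o.κ
    (fun i hi => hT i (by omega)) rfl rfl
    (fun i hi => (el_join_ne o W w i (by omega)).trans (el_join_ne o W _ i (by omega)).symm)
    (!o.sd0)
  apply Subtype.ext
  apply Vtx.ext
  · rfl
  · rfl
  · funext i
    rw [el_ev_u, el_ev_u]
    by_cases ho : own (!o.sd0) i
    · rw [if_pos ho, if_pos ho]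
      have hi : i ≠ o.κ := by
        rintro rfl
        exact (el_own_not _ _).1 ho o.own_sd0
      show (o.join W w).1 i + _ = (o.join W (elSig o ω (j, x0, W) w)).1 i + _
      rw [el_join_ne o W w i hi, el_join_ne o W _ i hi]
      rfl
    · rw [if_neg ho, if_neg ho]
  · funext i
    by_cases ho : own (!o.sd0) i
    · have hi : i ≠ o.κ := by
        rintro rfl
        exact (el_own_not _ _).1 ho o.own_sd0
      rcases Nat.lt_or_ge i o.κ with h1 | h1
      · exact (hlow i h1).2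
      · rw [el_ev_v, el_ev_v, if_pos ho, if_pos ho]
        rcases Nat.lt_or_ge i (o.κ + 2) with h2 | h2
        · obtain rfl : i = o.κ + 1 := by omega
          refine (el_Ve_next' c _ o j x0 W w).trans
            (Eq.trans ?_ (el_Ve_next' c _ o j x0 W (elSig o ω (j, x0, W) w)).symm)
          rw [e1, e2, el_elSig_refl]
        · exact (el_Ve_far c.hp c.cf _ o.h (o.lab j x0) o.hρ (o.join W w) i h2).trans
            (el_Ve_far c.hp c.cf _ o.h (o.lab j x0) o.hρ (o.join W _) i h2).symm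
    · rw [el_ev_v, el_ev_v, if_neg ho, if_neg ho]

/-- the other endpoint depends on them only through the value of the table of the key -/
theorem el_edge1 (c : Ctx p) (𝔗 : Tab p) (o : Occ p) (ω : Lvl p o.κ) (q : o.K × o.C) :
    ev c (Function.update 𝔗 o.κ ω) o (ecE o q) (!o.sd0)
      = elP c 𝔗 o (!o.sd0) (q.1, elSig o ω q.1 q.2) := by
  obtain ⟨⟨j, x0, W⟩, w⟩ := q
  exact el_edge1_gen c (Function.update 𝔗 o.κ ω) (elBase 𝔗 o) o
    (fun i hi => (el_upd_ne 𝔗 o.κ _ i hi).trans (el_upd_ne 𝔗 o.κ _ i hi).symm) ω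
    (el_upd_self 𝔗 o.κ ω) (el_upd_self 𝔗 o.κ _) j x0 W w

/-- distinct keys of the slice use distinct tables -/
theorem el_tkey_inj (o : Occ p) : Function.Injective (tkey o) := by
  rintro ⟨j, x0, W⟩ ⟨j', x0', W'⟩ h
  have h1 : o.lab j x0 = o.lab j' x0' := (Prod.mk.inj h).1
  have h2 : (fun i : Fin o.κ => W.1.1 i.1) = (fun i : Fin o.κ => W'.1.1 i.1) := (Prod.mk.inj h).2
  have e1 : j = j' := congrArg Label.j h1
  have e2 : x0 = x0' := congrArg Label.h0 h1
  have e3 : W = W' := by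
    apply Subtype.ext
    apply Subtype.ext
    funext i
    rcases lt_trichotomy i o.κ with hi | hi | hi
    · exact congrFun h2 ⟨i, hi⟩
    · rw [hi, W.2, W'.2]
    · rw [lab_W_beyond o.h W.1 i hi, lab_W_beyond o.h W'.1 i hi]
  rw [e1, e2, e3]

/-- different sliced occurrences with the same cutoff use different tables -/
theorem el_tkey_disj (o o' : Occ p) (hκ : o.κ = o'.κ) (k : o.K) (k' : o'.K)
    (h : (tkey o k).1 = (tkey o' k').1) : o.τ = o'.τ ∧ o.h = o'.h ∧ o.e = o'.e := by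
  have h1 : o.τ = o'.τ := congrArg Label.ty h
  have h2 : o.ρ = o'.ρ := congrArg Label.rho h
  have h3 : o.e = o'.e := congrArg Label.e h
  refine ⟨h1, ?_, h3⟩
  have hK := lab_KK_ge o.hp
  have m1 := (lab_kap_mod o.hp o.h).1
  have m2 := (lab_kap_mod o.hp o'.h).1
  have hm : o.h % p.M = o'.h % p.M := by rw [← o.hρ, ← o'.hρ, h2]
  have hκ' : p.kap o.h = p.kap o'.h := hκ
  rw [hm] at m1
  have h4 : p.KK * (o.h / p.M) = p.KK * (o'.h / p.M) := by omega
  have h5 : o.h / p.M = o'.h / p.M := Nat.eq_of_mul_eq_mul_left (by omega) h4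
  rw [← Nat.div_add_mod o.h p.M, ← Nat.div_add_mod o'.h p.M, h5, hm]

end Claimed.Agent.R300.El
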