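/-
Row 300 / S0553 (INJ paper), Section 02_expansion, package EL-D (ElLevel): the gap of the mean incidence
of a sliced occurrence (Lemma `conditional-mean`): `el_fib`, `el_blk_hyp`.
Owner: helper126.
-/
import Claimed.Agent.R300.ElTab
import Claimed.Agent.R300.ElShift
import Claimed.Agent.R300.ElNum

set_option autoImplicit false

namespace Claimed.Agent.R300.El

open Claimed.Agent.R300.Lab
open Classical

variable {p : Par}

/-- (endpoint, slot) ↦ (key, cluster coordinate) in the base graph -/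
noncomputable def eS (c : Ctx p) (𝔗 : Tab p) (o : Occ p) (sd : Bool) :
    o.XS sd × Sl p sd ≃ o.K × o.C :=
  (Equiv.ofBijective _ (el_bij c (elBase 𝔗 o) o sd)).symm.trans (ecE o).symm

theorem el_eS_spec (c : Ctx p) (𝔗 : Tab p) (o : Occ p) (sd : Bool) (x : o.XS sd) (σ : Sl p sd) :
    ev c (elBase 𝔗 o) o (ecE o (eS c 𝔗 o sd (x, σ))) sd = x ∧
      sl o sd (ecE o (eS c 𝔗 o sd (x, σ))) = σ := by
  have h := (Equiv.ofBijective _ (el_bij c (elBase 𝔗 o) o sd)).apply_symm_apply (x, σ)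
  have e : ecE o (eS c 𝔗 o sd (x, σ))
      = (Equiv.ofBijective _ (el_bij c (elBase 𝔗 o) o sd)).symm (x, σ) := by
    simp [eS]
  rw [e]
  exact ⟨congrArg Prod.fst h, congrArg Prod.snd h⟩

theorem el_eS_P (c : Ctx p) (𝔗 : Tab p) (o : Occ p) (sd : Bool) (x : o.XS sd) (σ : Sl p sd) :
    elP c 𝔗 o sd (eS c 𝔗 o sd (x, σ)) = x := (el_eS_spec c 𝔗 o sd x σ).1

/-- fibres of the endpoint maps -/
theorem el_fib (c : Ctx p) (𝔗 : Tab p) (o : Occ p) (sd : Bool) (x : o.XS sd) :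
    (Finset.univ.filter fun q : o.K × o.C => elP c 𝔗 o sd q = x).card = deg p sd := by
  rw [← el_card_Sl c.hp sd, ← Finset.card_univ]
  symm
  refine Finset.card_bij (fun σ _ => eS c 𝔗 o sd (x, σ)) ?_ ?_ ?_
  · intro σ _
    exact Finset.mem_filter.2 ⟨Finset.mem_univ _, el_eS_P c 𝔗 o sd x σ⟩
  · intro σ _ σ' _ h
    exact (Prod.mk.inj ((eS c 𝔗 o sd).injective h)).2
  · intro q hq
    have hq' : elP c 𝔗 o sd q = x := (Finset.mem_filter.1 hq).2
    refine ⟨((eS c 𝔗 o sd).symm q).2, Finset.mem_univ _, ?_⟩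
    have h1 := el_eS_P c 𝔗 o sd ((eS c 𝔗 o sd).symm q).1 ((eS c 𝔗 o sd).symm q).2
    rw [Prod.mk.eta, Equiv.apply_symm_apply, hq'] at h1
    rw [h1, Prod.mk.eta, Equiv.apply_symm_apply]

theorem el_deg_pos (p : Par) (sd : Bool) : 0 < deg p sd := by
  unfold deg Par.d Par.D
  split_ifs <;> positivity

theorem el_deg_mul (p : Par) (sd : Bool) : deg p sd * deg p (!sd) = p.d * p.D := by
  cases sd
  · simp [deg]
  · simp [deg, mul_comm]

/-- LOCALITY of a standard level. -/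
theorem el_nb_agr (c : Ctx p) (𝔗 : Tab p) (o : Occ p) (sd : Bool) (k : ℕ) (hk1 : 1 ≤ k)
    (hk : k ≤ o.κ) (ho : own sd k) (σ : Sl p sd) (w : o.C) (x x' : o.XS sd)
    (hag : agr o sd k x x') (hQ : Qv c o sd σ k x = Qv c o sd σ k x') :
    agr o (!sd) k (elP c 𝔗 o (!sd) ((eS c 𝔗 o sd (x, σ)).1, w))
      (elP c 𝔗 o (!sd) ((eS c 𝔗 o sd (x', σ)).1, w)) := by
  obtain ⟨hx, hsl⟩ := el_eS_spec c 𝔗 o sd x σ
  obtain ⟨hx', hsl'⟩ := el_eS_spec c 𝔗 o sd x' σ
  have hdet := el_det c (elBase 𝔗 o) o sd (ecE o (eS c 𝔗 o sd (x, σ)))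
    (ecE o (eS c 𝔗 o sd (x', σ))) (hsl.trans hsl'.symm) k hk1 ho
    (by rw [hx, hx']; exact hag) (by rw [hsl, hx, hx']; exact hQ)
  unfold elP
  refine el_cong c (elBase 𝔗 o) (elBase 𝔗 o) o (ecE o ((eS c 𝔗 o sd (x, σ)).1, w))
    (ecE o ((eS c 𝔗 o sd (x', σ)).1, w)) k (fun _ _ => rfl) hdet.1 hdet.2.1 ?_ (!sd)
  intro i hi
  have h3 := hdet.2.2 i hi
  have hne : i ≠ o.κ := by omega
  have e1 : ∀ q : o.K × o.C, (ecE o q).2.2.1 i = q.1.2.2.1.1 i := fun q => el_join_ne o _ _ i hne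
  rw [e1, e1] at h3
  rw [e1, e1]
  exact h3

/-- the constant of one level -/
noncomputable def elV (o : Occ p) : ℝ :=
  2 / (2 : ℝ) ^ p.b * ((p.d : ℝ) * p.D * (Fintype.card o.C : ℝ) ^ 2)

theorem elV_nonneg (o : Occ p) : 0 ≤ elV o := by
  unfold elV
  positivity

/-- **A standard level** (own block `1 ≤ k ≤ κ` of the side `sd`). -/
theorem el_level (c : Ctx p) (𝔗 : Tab p) (o : Occ p) (sd sd' : Bool) (hs : sd' = !sd) (k : ℕ)
    (hk1 : 1 ≤ k) (hk : k ≤ o.κ) (ho : own sd k) :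
    ExpLevelAt (agr o sd (k - 1)) (agr o sd (k + 1)) (agr o sd' k)
      (expMean (elP c 𝔗 o sd) (elP c 𝔗 o sd')) (Real.sqrt (elV o)) := by
  subst hs
  intro f hf
  have hT : expMean (elP c 𝔗 o sd) (elP c 𝔗 o (!sd)) f
      = expNbSum (expMeanNb (elP c 𝔗 o (!sd)) (eS c 𝔗 o sd)) f :=
    expMean_eq_nbSum _ _ (eS c 𝔗 o sd) (el_eS_P c 𝔗 o sd) f
  have hnot : ¬ own sd (k - 1) := by
    have h1 := lab_own_succ sd (k - 1)
    rw [show k - 1 + 1 = k by omega] at h1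
    exact h1.1 ho
  have hstep : ∀ x x', agr o sd (k - 1) x x' → agr o sd k x x' := by
    intro x x' h
    have := el_agr_step o sd (k - 1) hnot x x' h
    rwa [show k - 1 + 1 = k by omega] at this
  have key := exp_level (agr o sd (k - 1)) (agr o sd (k + 1)) (agr o (!sd) k)
    (expMeanNb (elP c 𝔗 o (!sd)) (eS c 𝔗 o sd)) (deg p (!sd) * Fintype.card o.C)
    (expMeanNb_card _ _ _ (el_fib c 𝔗 o (!sd)))
    (elSh o sd k hk1 hk ho) (fun u v z x => el_sh_act o sd k hk1 hk ho u v z x)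
    (fun q : Sl p sd × o.C => KU c o sd k q.1)
    (2 * (deg p sd : ℝ) * (Fintype.card o.C : ℝ) / 2 ^ p.b) (by positivity)
    (fun ζ hζ q => el_mult c o sd k hk1 hk ζ hζ q)
    (fun q x => Qv c o sd q.1 k x)
    (fun q u v x => el_sh_Q c o sd k hk1 hk ho q.1 u v x)
    (fun x => el_agr_refl o sd _ x)
    (fun u v u' v' x x' h => el_sh_agr o sd k hk1 hk ho u u' v v' x x' (k - 1) (by omega) h)
    (fun q x x' h hQ => el_nb_agr c 𝔗 o sd k hk1 hk ho q.1 q.2 x x' (hstep x x' h) hQ)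
    (fun q x x' h => ⟨el_agr_mono o sd (by omega) x x' h, by
      have h1 := h k (by omega)
      simp only [Qv, h1.1, h1.2]⟩)
    f hf
  rw [hT]
  refine ⟨key.1, ?_⟩
  obtain ⟨μ, hμ, hμn⟩ := key.2
  refine ⟨μ, hμ, hμn.trans (le_of_eq ?_)⟩
  rw [Real.sq_sqrt (elV_nonneg o)]
  have h2 : ((deg p sd : ℝ)) * (deg p (!sd) : ℝ) = (p.d : ℝ) * p.D := by
    exact_mod_cast el_deg_mul p sd
  unfold elV
  push_cast
  have h3 : 2 * (deg p sd : ℝ) * (Fintype.card o.C : ℝ) / 2 ^ p.b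
      * ((deg p (!sd) : ℝ) * (Fintype.card o.C : ℝ))
      = 2 / 2 ^ p.b * (((deg p sd : ℝ)) * (deg p (!sd) : ℝ) * (Fintype.card o.C : ℝ) ^ 2) := by
    ring
  rw [h3, h2]

theorem el_kap_two (o : Occ p) : 2 ≤ o.κ := by
  have hn0 := o.hp.hn0
  have hκ := (lab_kap_spec o.hp o.h).2.2.2.2
  unfold Occ.κ
  omega

theorem el_own_pred (o : Occ p) : own (!o.sd0) (o.κ - 1) := by
  have h1 := lab_own_succ o.sd0 (o.κ - 1)
  have h2 := el_kap_two o
  rw [show o.κ - 1 + 1 = o.κ by omega] at h1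
  exact (el_own_not o.sd0 _).2 (h1.1 o.own_sd0)

/-- the key of an edge is determined by its slot and the blocks `< κ` of its endpoint on the side which
does not own the cutoff block -/
theorem el_key_top (c : Ctx p) (𝔗 : Tab p) (o : Occ p) (σ : Sl p (!o.sd0)) (x x' : o.XS (!o.sd0))
    (hag : agr o (!o.sd0) o.κ x x') :
    (eS c 𝔗 o (!o.sd0) (x, σ)).1 = (eS c 𝔗 o (!o.sd0) (x', σ)).1 := by
  obtain ⟨hx, hsl⟩ := el_eS_spec c 𝔗 o (!o.sd0) x σ
  obtain ⟨hx', hsl'⟩ := el_eS_spec c 𝔗 o (!o.sd0) x' σ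
  have h2 := el_kap_two o
  have hdet := el_det' c (elBase 𝔗 o) o (!o.sd0) (ecE o (eS c 𝔗 o (!o.sd0) (x, σ)))
    (ecE o (eS c 𝔗 o (!o.sd0) (x', σ))) (hsl.trans hsl'.symm) (o.κ - 1) (by omega) (el_own_pred o)
    (by rw [hx, hx', show o.κ - 1 + 1 = o.κ by omega]; exact hag)
  refine Prod.ext hdet.1 (Prod.ext hdet.2.1 ?_)
  apply Subtype.ext
  apply Subtype.ext
  funext i
  rcases Nat.lt_trichotomy i o.κ with hi | hi | hi
  · have h3 := hdet.2.2 i (by omega)
    have hne : i ≠ o.κ := by omega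
    have e1 : ∀ q : o.K × o.C, (ecE o q).2.2.1 i = q.1.2.2.1.1 i :=
      fun q => el_join_ne o _ _ i hne
    rw [e1, e1] at h3
    exact h3
  · rw [hi]
    exact ((eS c 𝔗 o (!o.sd0) (x, σ)).1.2.2.2).trans ((eS c 𝔗 o (!o.sd0) (x', σ)).1.2.2.2).symm
  · rw [lab_W_beyond o.h _ i hi, lab_W_beyond o.h _ i hi]

/-- **The top level**: the mean does not depend on the last blocks. -/
theorem el_top (c : Ctx p) (𝔗 : Tab p) (o : Occ p) (f : o.XS o.sd0 → ℝ) :
    ExpInv (agr o (!o.sd0) o.κ) (expMean (elP c 𝔗 o (!o.sd0)) (elP c 𝔗 o o.sd0) f) := by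
  have hT : expMean (elP c 𝔗 o (!o.sd0)) (elP c 𝔗 o o.sd0) f
      = expNbSum (expMeanNb (elP c 𝔗 o o.sd0) (eS c 𝔗 o (!o.sd0))) f :=
    expMean_eq_nbSum _ _ (eS c 𝔗 o (!o.sd0)) (el_eS_P c 𝔗 o (!o.sd0)) f
  rw [hT]
  intro x x' h
  unfold expNbSum expMeanNb
  refine Finset.sum_congr rfl fun q _ => ?_
  rw [el_key_top c 𝔗 o q.1 x x' h]

theorem el_Sl_nonempty (hp : p.Adm) (sd : Bool) : Nonempty (Sl p sd) := by
  have h := el_card_Sl hp sd
  have h2 := el_deg_pos p sd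
  exact Fintype.card_pos_iff.1 (by omega)

/-- the blocks `≤ κ` determine the vertices of the slice on the side of the cutoff block -/
theorem el_top_eq (c : Ctx p) (𝔗 : Tab p) (o : Occ p) (y y' : o.XS o.sd0)
    (hag : agr o o.sd0 (o.κ + 1) y y') : y = y' := by
  obtain ⟨σ⟩ := el_Sl_nonempty c.hp o.sd0
  obtain ⟨hx, hsl⟩ := el_eS_spec c 𝔗 o o.sd0 y σ
  obtain ⟨hx', hsl'⟩ := el_eS_spec c 𝔗 o o.sd0 y' σ
  have h2 := el_kap_two o
  have hdet := el_det' c (elBase 𝔗 o) o o.sd0 (ecE o (eS c 𝔗 o o.sd0 (y, σ)))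
    (ecE o (eS c 𝔗 o o.sd0 (y', σ))) (hsl.trans hsl'.symm) o.κ (by omega) o.own_sd0
    (by rw [hx, hx']; exact hag)
  have e : ecE o (eS c 𝔗 o o.sd0 (y, σ)) = ecE o (eS c 𝔗 o o.sd0 (y', σ)) := by
    refine Prod.ext hdet.1 (Prod.ext hdet.2.1 ?_)
    apply Subtype.ext
    funext i
    rcases Nat.lt_or_ge i (o.κ + 1) with hi | hi
    · exact hdet.2.2 i hi
    · have hi' : p.kap o.h < i := by
        have : o.κ = p.kap o.h := rfl
        omega
      exact (lab_W_beyond o.h (ecE o (eS c 𝔗 o o.sd0 (y, σ))).2.2 i hi').trans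
        (lab_W_beyond o.h (ecE o (eS c 𝔗 o o.sd0 (y', σ))).2.2 i hi').symm
  rw [← hx, ← hx', e]

/-- the mean of a constant is constant -/
theorem el_mean_const {A B K C : Type*} [Fintype A] [DecidableEq A] [Fintype B] [DecidableEq B]
    [Fintype K] [DecidableEq K] [Fintype C] [DecidableEq C] (pA : K × C → A) (pB : K × C → B) (d : ℕ)
    (hd : ∀ a, (Finset.univ.filter fun e : K × C => pA e = a).card = d) (f : B → ℝ)
    (hf : ∀ b b', f b = f b') (a a' : A) : expMean pA pB f a = expMean pA pB f a' := by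
  rcases isEmpty_or_nonempty B with hB | ⟨⟨b0⟩⟩
  · have hE : IsEmpty (K × C) := ⟨fun e => hB.false (pB e)⟩
    unfold expMean
    rw [Finset.sum_eq_zero, Finset.sum_eq_zero]
    · intro e _; exact (hE.false e).elim
    · intro e _; exact (hE.false e).elim
  · have h1 : ∀ a, expMean pA pB f a = d * (Fintype.card C * f b0) := by
      intro a
      unfold expMean
      rw [Finset.sum_congr rfl fun e _ => Finset.sum_congr rfl fun w _ => hf (pB (e.1, w)) b0]
      simp only [Finset.sum_const, Finset.card_univ, nsmul_eq_mul, hd a]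
    rw [h1, h1]

theorem el_XS_nonempty (c : Ctx p) (𝔗 : Tab p) (o : Occ p) (sd : Bool) : Nonempty (o.XS sd) := by
  have hd : 0 < p.d := by unfold Par.d; positivity
  exact ⟨ev c 𝔗 o (⟨0, hd⟩, 0, ⟨fun _ => 0, fun _ => lab_isPre_zero _⟩) sd⟩

/-- **the mean gap of a sliced occurrence** -/
theorem el_blk_hyp (c : Ctx p) (𝔗 : Tab p) (o : Occ p) (hb : 9 ≤ p.b) :
    ExpBlkHyp (elP c 𝔗 o (!o.sd0)) (elP c 𝔗 o o.sd0) (deg p (!o.sd0)) (deg p o.sd0) (1 / 5) where
  hd := el_fib c 𝔗 o (!o.sd0)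
  hD := el_fib c 𝔗 o o.sd0
  hdpos := el_deg_pos p _
  hDpos := el_deg_pos p _
  hNA := Fintype.card_pos_iff.2 (el_XS_nonempty c 𝔗 o _)
  hNB := Fintype.card_pos_iff.2 (el_XS_nonempty c 𝔗 o _)
  hη0 := by norm_num
  hη1 := by norm_num
  hgap := by
    intro f hf0
    have key := exp_zip (fun k => own (!o.sd0) k) (fun k => lab_own_succ (!o.sd0) k)
      (fun k => agr o (!o.sd0) k) (fun k => agr o o.sd0 k)
      (fun m x x' h => el_agr_mono o _ (Nat.le_succ m) x x' h)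
      (fun m x x' h => el_agr_mono o _ (Nat.le_succ m) x x' h)
      (fun k hk x x' h => el_agr_step o _ k hk x x' h)
      (fun k hk y y' h => el_agr_step o _ k ((el_own_not o.sd0 k).1 hk) y y' h)
      (expMeanL (elP c 𝔗 o (!o.sd0)) (elP c 𝔗 o o.sd0))
      (expMeanL (elP c 𝔗 o o.sd0) (elP c 𝔗 o (!o.sd0)))
      (fun g f => expMean_adj _ _ g f) (o.κ + 1) (Real.sqrt (elV o)) (Real.sqrt_nonneg _)
      (fun f hf x x' _ => el_mean_const _ _ _ (el_fib c 𝔗 o (!o.sd0)) f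
        (fun b b' => hf b b' (fun j hj => absurd hj (Nat.not_lt_zero j))) x x')
      (fun g hg y y' _ => el_mean_const _ _ _ (el_fib c 𝔗 o o.sd0) g
        (fun b b' => hg b b' (fun j hj => absurd hj (Nat.not_lt_zero j))) y y')
      (by
        intro k hk hk1 hkn
        rcases Nat.lt_or_ge k (o.κ + 1) with h | h
        · exact el_level c 𝔗 o (!o.sd0) o.sd0 (Bool.not_not _).symm k hk1 (by omega) hk
        · have e : k = o.κ + 1 := by omega
          subst e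
          intro f _
          have ht := el_top c 𝔗 o f
          refine ⟨ht.mono fun x x' h => el_agr_mono o _ (by omega) x x' h,
            expMean (elP c 𝔗 o (!o.sd0)) (elP c 𝔗 o o.sd0) f, ?_, ?_⟩
          · simpa using ht
          · simp only [expMeanL_apply, sub_self, ne_eq, OfNat.ofNat_ne_zero, not_false_eq_true,
              zero_pow, Finset.sum_const_zero]
            exact mul_nonneg (sq_nonneg _) (Finset.sum_nonneg fun y _ => sq_nonneg _))
      (by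
        intro k hk hk1 hkn
        have hk' : own o.sd0 k := by
          by_contra hcon
          exact hk ((el_own_not o.sd0 k).2 hcon)
        have hne : k ≠ o.κ + 1 := by
          rintro rfl
          exact (lab_own_succ o.sd0 o.κ).1 hk' o.own_sd0
        exact el_level c 𝔗 o o.sd0 (!o.sd0) rfl k hk1 (by omega) hk')
      (fun y y' j hj => absurd hj (Nat.not_lt_zero j))
      f (fun y y' h => by rw [el_top_eq c 𝔗 o y y' h]) hf0
    rw [expMeanL_apply] at key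
    refine key.trans ?_
    refine mul_le_mul_of_nonneg_right ?_ (Finset.sum_nonneg fun y _ => sq_nonneg _)
    rw [mul_pow, Real.sq_sqrt (elV_nonneg o)]
    have h1 := el_num_eta (p := p) hb
    have h2 : ((deg p (!o.sd0) : ℝ)) * (deg p o.sd0 : ℝ) = (p.d : ℝ) * p.D := by
      have := el_deg_mul p (!o.sd0)
      rw [Bool.not_not] at this
      exact_mod_cast this
    rw [h2]
    unfold elV
    have h3 : (0 : ℝ) ≤ (p.d : ℝ) * p.D * (Fintype.card o.C : ℝ) ^ 2 := by positivity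
    nlinarith

end Claimed.Agent.R300.El
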