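/-
Row 300, INJ paper, Lemma `lem:heisenberg-law` (Section 03_pruning):
a nonempty reduced closed walk whose word is a law of the Heisenberg group covers a
"bicycle" at least four times.  Model-agnostic version: graphs are given by darts.
Owner: helper59.
-/
import Mathlib

set_option autoImplicit false

namespace Claimed.Agent.R300.HeisLaw

universe u v w

/-- A Serre-type graph given by its darts (oriented edges). -/
structure HlGraph (V : Type u) (D : Type v) where
  src : D → V
  inv : D → D
  inv_inv : ∀ d, inv (inv d) = d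
  inv_ne : ∀ d, inv d ≠ d

namespace HlGraph

variable {V : Type u} {D : Type v} (G : HlGraph V D)

/-- target of a dart -/
def tgt (d : D) : V := G.src (G.inv d)

/-- `G.IsWalk a P b`: the list of darts `P` is a walk from `a` to `b`. -/
def IsWalk : V → List D → V → Prop
  | a, [], b => a = b
  | a, d :: P, b => G.src d = a ∧ IsWalk (G.tgt d) P b

/-- no dart is immediately followed by its inverse -/
def Reduced (P : List D) : Prop := P.IsChain (fun d d' => d' ≠ G.inv d)

/-- reduced, also across the base point -/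
def CycRed (P : List D) : Prop :=
  G.Reduced P ∧ ∀ d ∈ P.head?, ∀ d' ∈ P.getLast?, d ≠ G.inv d'

/-- inner vertices of a walk -/
def inner (P : List D) : List V := P.tail.map G.src

/-- A theta graph: three walks from `a` to `b`, all inner vertices distinct and different
from `a`, `b`; `a ≠ b`; all darts distinct. -/
structure IsTheta (a b : V) (P₁ P₂ P₃ : List D) : Prop where
  walk₁ : G.IsWalk a P₁ b
  walk₂ : G.IsWalk a P₂ b
  walk₃ : G.IsWalk a P₃ b
  nodup_verts : (a :: b :: (G.inner P₁ ++ G.inner P₂ ++ G.inner P₃)).Nodup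
  nodup_darts : (P₁ ++ P₂ ++ P₃).Nodup

@[simp] lemma tgt_inv (d : D) : G.tgt (G.inv d) = G.src d := by
  simp [tgt, G.inv_inv]

@[simp] lemma src_inv (d : D) : G.src (G.inv d) = G.tgt d := rfl

lemma inv_injective : Function.Injective G.inv := fun a b h => by
  have := congrArg G.inv h
  simpa [G.inv_inv] using this

lemma inv_eq_iff {a b : D} : G.inv a = b ↔ a = G.inv b := by
  constructor
  · intro h; rw [← h, G.inv_inv]
  · intro h; rw [h, G.inv_inv]

lemma ne_inv (d : D) : d ≠ G.inv d := fun h => G.inv_ne d h.symm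

@[simp] lemma isWalk_nil {a b : V} : G.IsWalk a [] b ↔ a = b := Iff.rfl

@[simp] lemma isWalk_cons {a b : V} {d : D} {P : List D} :
    G.IsWalk a (d :: P) b ↔ G.src d = a ∧ G.IsWalk (G.tgt d) P b := Iff.rfl

lemma isWalk_append {a b : V} {P Q : List D} :
    G.IsWalk a (P ++ Q) b ↔ ∃ c, G.IsWalk a P c ∧ G.IsWalk c Q b := by
  induction P generalizing a with
  | nil => simp
  | cons d P ih =>
    simp only [List.cons_append, isWalk_cons, ih]
    constructor
    · rintro ⟨h, c, h1, h2⟩; exact ⟨c, ⟨h, h1⟩, h2⟩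
    · rintro ⟨c, ⟨h, h1⟩, h2⟩; exact ⟨h, c, h1, h2⟩

end HlGraph

/-! ### Algebra in a group with a Heisenberg pair -/

section algebra

variable {Hh : Type w} [Group Hh] {x y : Hh}

lemma hl_conj_zpow (hzy : Commute (x * y * x⁻¹ * y⁻¹) y) (n : ℤ) :
    x * y ^ n * x⁻¹ = (x * y * x⁻¹ * y⁻¹) ^ n * y ^ n := by
  have h1 : SemiconjBy x y (x * y * x⁻¹ * y⁻¹ * y) := by
    unfold SemiconjBy; group
  have h2 := h1.zpow_right n
  rw [hzy.mul_zpow] at h2
  unfold SemiconjBy at h2
  rw [h2]; group

lemma hl_x_inf (hzx : Commute (x * y * x⁻¹ * y⁻¹) x)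
    (hz : ∀ n : ℤ, (x * y * x⁻¹ * y⁻¹) ^ n = 1 → n = 0) (n : ℤ) (hn : x ^ n = 1) : n = 0 := by
  have h1 : SemiconjBy y x ((x * y * x⁻¹ * y⁻¹)⁻¹ * x) := by
    unfold SemiconjBy; group
  have h2 := h1.zpow_right n
  rw [hzx.inv_left.mul_zpow] at h2
  unfold SemiconjBy at h2
  rw [hn] at h2
  have h3 : ((x * y * x⁻¹ * y⁻¹)⁻¹) ^ n = 1 := by
    have : y = ((x * y * x⁻¹ * y⁻¹)⁻¹) ^ n * y := by simpa using h2
    exact (mul_eq_right (a := ((x * y * x⁻¹ * y⁻¹)⁻¹) ^ n) (b := y)).1 this.symm
  rw [inv_zpow, inv_eq_one] at h3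
  exact hz n h3

end algebra

/-! ### Evaluation of words -/

section evaluation

variable {V : Type u} {D : Type v} (G : HlGraph V D) [DecidableEq D]
variable {Hh : Type w} [Group Hh]

/-- signed number of traversals -/
def hlN (f : D) (U : List D) : ℤ := (U.count f : ℤ) - (U.count (G.inv f) : ℤ)

/-- every dart is used as often as its inverse -/
def HlBal (U : List D) : Prop := ∀ d, U.count d = U.count (G.inv d)

/-- one-variable substitution -/
def hlPhi1 (e : D) (x : Hh) : D → Hh :=
  fun d => if d = e then x else if d = G.inv e then x⁻¹ else 1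

/-- two-variable substitution -/
def hlPhi2 (e f : D) (x y : Hh) : D → Hh :=
  fun d => if d = e then x else if d = G.inv e then x⁻¹ else hlPhi1 G f y d

lemma hlPhi1_inv (e : D) (x : Hh) (d : D) : hlPhi1 G e x (G.inv d) = (hlPhi1 G e x d)⁻¹ := by
  unfold hlPhi1
  by_cases h1 : d = e
  · subst h1
    simp [G.inv_ne]
  · by_cases h2 : d = G.inv e
    · subst h2
      simp [G.inv_inv, G.inv_ne]
    · have h3 : G.inv d ≠ e := fun h => h2 ((G.inv_eq_iff).1 h)
      have h4 : G.inv d ≠ G.inv e := fun h => h1 (G.inv_injective h)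
      simp [h1, h2, h3, h4]

lemma hlPhi2_inv (e f : D) (x y : Hh) (d : D) :
    hlPhi2 G e f x y (G.inv d) = (hlPhi2 G e f x y d)⁻¹ := by
  unfold hlPhi2
  by_cases h1 : d = e
  · subst h1
    simp [G.inv_ne]
  · by_cases h2 : d = G.inv e
    · subst h2
      simp [G.inv_inv, G.inv_ne]
    · have h3 : G.inv d ≠ e := fun h => h2 ((G.inv_eq_iff).1 h)
      have h4 : G.inv d ≠ G.inv e := fun h => h1 (G.inv_injective h)
      simp [h1, h2, h3, h4, hlPhi1_inv]

lemma hl_prod_phi1 (e : D) (x : Hh) (U : List D) :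
    (U.map (hlPhi1 G e x)).prod = x ^ (hlN G e U) := by
  induction U with
  | nil => simp [hlN]
  | cons d U ih =>
    rw [List.map_cons, List.prod_cons, ih]
    unfold hlN hlPhi1
    by_cases h1 : d = e
    · subst h1
      have : d ≠ G.inv d := G.ne_inv d
      rw [List.count_cons_self, List.count_cons_of_ne this, if_pos rfl]
      rw [← zpow_one_add]
      congr 1
      push_cast; ring
    · by_cases h2 : d = G.inv e
      · subst h2
        rw [List.count_cons_self, List.count_cons_of_ne h1, if_neg h1, if_pos rfl]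
        rw [← zpow_neg_one, ← zpow_add]
        congr 1
        push_cast; ring
      · rw [List.count_cons_of_ne h1, List.count_cons_of_ne h2, if_neg h1, if_neg h2, one_mul]

lemma hl_prod_phi2 (e f : D) (x y : Hh) (U : List D) (h1 : e ∉ U) (h2 : G.inv e ∉ U) :
    (U.map (hlPhi2 G e f x y)).prod = y ^ (hlN G f U) := by
  rw [← hl_prod_phi1]
  congr 1
  apply List.map_congr_left
  intro d hd
  have h3 : d ≠ e := fun h => h1 (h ▸ hd)
  have h4 : d ≠ G.inv e := fun h => h2 (h ▸ hd)
  simp [hlPhi2, h3, h4]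

lemma hlN_append (f : D) (A B : List D) : hlN G f (A ++ B) = hlN G f A + hlN G f B := by
  unfold hlN; rw [List.count_append, List.count_append]; push_cast; ring

lemma hlN_cons_of_ne (f d : D) (A : List D) (h1 : d ≠ f) (h2 : d ≠ G.inv f) :
    hlN G f (d :: A) = hlN G f A := by
  unfold hlN; rw [List.count_cons_of_ne h1, List.count_cons_of_ne h2]

/-- Step 1: a law is balanced. -/
lemma hl_law_bal {x y : Hh} (hzx : Commute (x * y * x⁻¹ * y⁻¹) x)
    (hz : ∀ n : ℤ, (x * y * x⁻¹ * y⁻¹) ^ n = 1 → n = 0) (W : List D)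
    (hlaw : ∀ φ : D → Hh, (∀ d, φ (G.inv d) = (φ d)⁻¹) → (W.map φ).prod = 1) :
    HlBal G W := by
  intro d
  have h1 := hlaw (hlPhi1 G d x) (hlPhi1_inv G d x)
  rw [hl_prod_phi1] at h1
  have h2 := hl_x_inf hzx hz _ h1
  unfold hlN at h2
  omega

/-- Step 2: the open interval between the two occurrences of a paired edge is balanced. -/
lemma hl_interval {x y : Hh} (hzx : Commute (x * y * x⁻¹ * y⁻¹) x)
    (hzy : Commute (x * y * x⁻¹ * y⁻¹) y)
    (hz : ∀ n : ℤ, (x * y * x⁻¹ * y⁻¹) ^ n = 1 → n = 0) (W : List D)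
    (hlaw : ∀ φ : D → Hh, (∀ d, φ (G.inv d) = (φ d)⁻¹) → (W.map φ).prod = 1)
    (e : D) (A U B : List D) (hW : W = A ++ e :: (U ++ G.inv e :: B))
    (h1 : W.count e = 1) (h2 : W.count (G.inv e) = 1) :
    HlBal G U ∧ e ∉ U ∧ G.inv e ∉ U := by
  have hne : e ≠ G.inv e := G.ne_inv e
  have hne' : G.inv e ≠ e := G.inv_ne e
  rw [hW] at h1 h2
  simp only [List.count_append, List.count_cons_self, List.count_cons_of_ne hne,
    List.count_cons_of_ne hne'] at h1 h2
  have eA : e ∉ A := by rw [← List.count_eq_zero]; omega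
  have eU : e ∉ U := by rw [← List.count_eq_zero]; omega
  have eB : e ∉ B := by rw [← List.count_eq_zero]; omega
  have iA : G.inv e ∉ A := by rw [← List.count_eq_zero]; omega
  have iU : G.inv e ∉ U := by rw [← List.count_eq_zero]; omega
  have iB : G.inv e ∉ B := by rw [← List.count_eq_zero]; omega
  refine ⟨?_, eU, iU⟩
  intro f
  by_cases hf1 : f = e
  · subst hf1
    rw [List.count_eq_zero.2 eU, List.count_eq_zero.2 iU]
  by_cases hf2 : f = G.inv e
  · subst hf2
    rw [G.inv_inv, List.count_eq_zero.2 eU, List.count_eq_zero.2 iU]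
  have hbal := hl_law_bal G hzx hz W hlaw f
  have hl := hlaw (hlPhi2 G e f x y) (hlPhi2_inv G e f x y)
  rw [hW] at hl
  simp only [List.map_append, List.map_cons, List.prod_append, List.prod_cons] at hl
  rw [hl_prod_phi2 G e f x y A eA iA, hl_prod_phi2 G e f x y U eU iU,
    hl_prod_phi2 G e f x y B eB iB] at hl
  have he1 : hlPhi2 G e f x y e = x := by simp [hlPhi2]
  have he2 : hlPhi2 G e f x y (G.inv e) = x⁻¹ := by simp [hlPhi2, hne']
  rw [he1, he2] at hl
  -- total balance
  have hf3 : e ≠ f := fun h => hf1 h.symm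
  have hf4 : e ≠ G.inv f := fun h => hf2 ((G.inv_eq_iff).1 h.symm)
  have hf5 : G.inv e ≠ f := fun h => hf2 h.symm
  have hf6 : G.inv e ≠ G.inv f := fun h => hf1 (G.inv_injective h).symm
  have htot : hlN G f A + hlN G f U + hlN G f B = 0 := by
    have : hlN G f W = 0 := by unfold hlN; omega
    rw [hW, hlN_append, hlN_cons_of_ne G f e _ hf3 hf4, hlN_append,
      hlN_cons_of_ne G f (G.inv e) _ hf5 hf6] at this
    linarith
  set a := hlN G f A with ha
  set n := hlN G f U with hn
  set b := hlN G f B with hb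
  have h3 : x * y ^ n * x⁻¹ = y ^ n := by
    have h4 : x * y ^ n * x⁻¹ = (y ^ a)⁻¹ * (y ^ b)⁻¹ := by
      have : y ^ a * (x * y ^ n * x⁻¹) * y ^ b = 1 := by
        rw [← hl]; group
      calc x * y ^ n * x⁻¹ = (y ^ a)⁻¹ * (y ^ a * (x * y ^ n * x⁻¹) * y ^ b) * (y ^ b)⁻¹ := by
            group
        _ = _ := by rw [this]; group
    rw [h4, ← zpow_neg, ← zpow_neg, ← zpow_add]
    congr 1; linarith
  rw [hl_conj_zpow hzy] at h3
  have h5 := hz n ((mul_eq_right).1 h3)
  rw [hn] at h5
  unfold hlN at h5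
  omega

end evaluation

/-! ### The shortest balanced closed infix -/

section core

variable {V : Type u} {D : Type v} (G : HlGraph V D) [DecidableEq D]
variable {Hh : Type w} [Group Hh]

/-- candidate subwalks of `W` -/
structure HlCand (W U : List D) : Prop where
  isInfix : U <:+: W
  ne : U ≠ []
  closed : ∃ a, G.IsWalk a U a
  bal : HlBal G U

omit [DecidableEq D] in
lemma hl_split (e : D) (U : List D) (h1 : e ∈ U) (h2 : G.inv e ∈ U) :
    ∃ e', (e' = e ∨ e' = G.inv e) ∧ ∃ s U' t, U = s ++ e' :: (U' ++ G.inv e' :: t) := by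
  obtain ⟨s, t, rfl⟩ := List.append_of_mem h1
  rw [List.mem_append, List.mem_cons] at h2
  rcases h2 with h | h | h
  · obtain ⟨s', U', rfl⟩ := List.append_of_mem h
    exact ⟨G.inv e, Or.inr rfl, s', U', t, by simp [G.inv_inv]⟩
  · exact absurd h (G.inv_ne e)
  · obtain ⟨U', t', rfl⟩ := List.append_of_mem h
    exact ⟨e, Or.inl rfl, s, U', t', rfl⟩

omit [DecidableEq D] in
lemma hl_no_adjacent (W : List D) (hred : G.Reduced W) (e : D) (A B : List D)
    (hW : W = A ++ e :: G.inv e :: B) : False := by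
  have h1 : [e, G.inv e] <:+: W := ⟨A, B, by rw [hW]; simp⟩
  have h2 : List.IsChain (fun d d' => d' ≠ G.inv d) [e, G.inv e] := List.IsChain.infix hred h1
  rw [List.isChain_cons_cons] at h2
  exact h2.1 rfl

lemma hl_core {x y : Hh} (hzx : Commute (x * y * x⁻¹ * y⁻¹) x)
    (hzy : Commute (x * y * x⁻¹ * y⁻¹) y)
    (hz : ∀ n : ℤ, (x * y * x⁻¹ * y⁻¹) ^ n = 1 → n = 0) (W : List D)
    (hred : G.Reduced W)
    (hlaw : ∀ φ : D → Hh, (∀ d, φ (G.inv d) = (φ d)⁻¹) → (W.map φ).prod = 1) :
    ∀ (n : ℕ) (U : List D), U.length = n → HlCand G W U →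
      ∃ C, HlCand G W C ∧ (∀ d ∈ C, 2 ≤ W.count d) ∧ G.CycRed C := by
  have hWbal := hl_law_bal G hzx hz W hlaw
  intro n
  induction n using Nat.strong_induction_on with
  | _ n ih =>
  intro U hn hU
  by_cases hheavy : ∀ d ∈ U, 2 ≤ W.count d
  · by_cases hcyc : G.CycRed U
    · exact ⟨U, hU, hheavy, hcyc⟩
    · -- strip the first and the last dart
      have hUred : G.Reduced U := List.IsChain.infix hred hU.isInfix
      have h1 : ∃ d ∈ U.head?, ∃ d' ∈ U.getLast?, d = G.inv d' := by
        by_contra hcon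
        push Not at hcon
        exact hcyc ⟨hUred, hcon⟩
      obtain ⟨d, hd, d', hd', hdd⟩ := h1
      obtain ⟨T, rfl⟩ := List.head?_eq_some_iff.1 hd
      rcases List.eq_nil_or_concat' T with rfl | ⟨U', b, rfl⟩
      · simp at hd'
        rw [← hd'] at hdd
        exact absurd hdd (G.ne_inv d)
      · have hb : b = d' := by
          have : (d :: (U' ++ [b])).getLast? = some b := by
            rw [← List.cons_append, List.getLast?_concat]
          rw [this] at hd'
          simpa using hd'
        subst hb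
        have hb' : b = G.inv d := by rw [hdd, G.inv_inv]
        subst hb'
        obtain ⟨A, B, hAB⟩ := hU.isInfix
        have hU'ne : U' ≠ [] := by
          rintro rfl
          exact hl_no_adjacent G W hred d A B (by rw [← hAB]; simp)
        have hcand : HlCand G W U' := by
          refine ⟨⟨A ++ [d], [G.inv d] ++ B, by rw [← hAB]; simp⟩, hU'ne, ?_, ?_⟩
          · obtain ⟨a, ha⟩ := hU.closed
            rw [HlGraph.isWalk_cons, HlGraph.isWalk_append] at ha
            obtain ⟨-, c, hc1, hc2⟩ := ha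
            rw [HlGraph.isWalk_cons] at hc2
            refine ⟨G.tgt d, ?_⟩
            have : c = G.tgt d := hc2.1.symm
            rw [this] at hc1
            exact hc1
          · intro f
            have h2 := hU.bal f
            simp only [List.count_cons, List.count_append, List.count_nil, beq_iff_eq] at h2
            have e1 : (d = G.inv f) ↔ (G.inv d = f) := by
              rw [G.inv_eq_iff]
            have e2 : (G.inv d = G.inv f) ↔ (d = f) :=
              ⟨fun h => G.inv_injective h, fun h => by rw [h]⟩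
            simp only [e1, e2] at h2
            split_ifs at h2 <;> omega
        exact ih U'.length (by rw [← hn]; simp) U' rfl hcand
  · -- a paired edge
    push Not at hheavy
    obtain ⟨e, heU, he2⟩ := hheavy
    have heW : e ∈ W := hU.isInfix.subset heU
    have hc1 : W.count e = 1 := by
      have := List.count_pos_iff.2 heW
      omega
    have hc2 : W.count (G.inv e) = 1 := by rw [← hWbal e]; exact hc1
    have hieU : G.inv e ∈ U := by
      rw [← List.count_pos_iff, ← hU.bal e, List.count_pos_iff]; exact heU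
    obtain ⟨e', he', s, U', t, hsplit⟩ := hl_split G e U heU hieU
    have hc1' : W.count e' = 1 := by
      rcases he' with rfl | rfl
      · exact hc1
      · exact hc2
    have hc2' : W.count (G.inv e') = 1 := by
      rcases he' with rfl | rfl
      · exact hc2
      · rw [G.inv_inv]; exact hc1
    obtain ⟨A, B, hAB⟩ := hU.isInfix
    have hW' : W = (A ++ s) ++ e' :: (U' ++ G.inv e' :: (t ++ B)) := by
      rw [← hAB, hsplit]; simp
    obtain ⟨hbal', -, -⟩ := hl_interval G hzx hzy hz W hlaw e' (A ++ s) U' (t ++ B) hW' hc1' hc2'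
    have hU'ne : U' ≠ [] := by
      rintro rfl
      exact hl_no_adjacent G W hred e' (A ++ s) (t ++ B) (by rw [hW']; simp)
    have hcand : HlCand G W U' := by
      refine ⟨⟨A ++ s ++ [e'], G.inv e' :: (t ++ B), by rw [hW']; simp⟩, hU'ne, ?_, hbal'⟩
      obtain ⟨a, ha⟩ := hU.closed
      rw [hsplit, HlGraph.isWalk_append] at ha
      obtain ⟨c, -, hc⟩ := ha
      rw [HlGraph.isWalk_cons, HlGraph.isWalk_append] at hc
      obtain ⟨-, c', hc1, hc2⟩ := hc
      rw [HlGraph.isWalk_cons] at hc2
      refine ⟨G.tgt e', ?_⟩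
      have : c' = G.tgt e' := hc2.1.symm
      rw [this] at hc1
      exact hc1
    exact ih U'.length (by rw [← hn, hsplit]; simp; omega) U' rfl hcand

end core

/-! ### Segments of a sequence of darts, reversal -/

section segments

variable {V : Type u} {D : Type v} (G : HlGraph V D)

/-- the segment `c i, …, c (i+L-1)` -/
def hlSeg (c : ℕ → D) (i L : ℕ) : List D := (List.range' i L).map c

/-- the reversed walk -/
def hlRev (P : List D) : List D := (P.map G.inv).reverse

variable {G}

@[simp] lemma hlSeg_zero (c : ℕ → D) (i : ℕ) : hlSeg c i 0 = [] := rfl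

lemma hlSeg_succ (c : ℕ → D) (i L : ℕ) : hlSeg c i (L + 1) = c i :: hlSeg c (i + 1) L := by
  simp [hlSeg, List.range'_succ]

lemma hlSeg_concat (c : ℕ → D) (i L : ℕ) : hlSeg c i (L + 1) = hlSeg c i L ++ [c (i + L)] := by
  simp [hlSeg, List.range'_concat]

@[simp] lemma hlSeg_length (c : ℕ → D) (i L : ℕ) : (hlSeg c i L).length = L := by
  simp [hlSeg]

lemma mem_hlSeg {c : ℕ → D} {i L : ℕ} {d : D} :
    d ∈ hlSeg c i L ↔ ∃ k, i ≤ k ∧ k < i + L ∧ c k = d := by
  simp only [hlSeg, List.mem_map, List.mem_range'_1]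
  constructor
  · rintro ⟨k, ⟨h1, h2⟩, h3⟩; exact ⟨k, h1, h2, h3⟩
  · rintro ⟨k, h1, h2, h3⟩; exact ⟨k, ⟨h1, h2⟩, h3⟩

lemma hlSeg_walk {c : ℕ → D} (hchain : ∀ k, G.tgt (c k) = G.src (c (k + 1))) (i L : ℕ) :
    G.IsWalk (G.src (c i)) (hlSeg c i L) (G.src (c (i + L))) := by
  induction L generalizing i with
  | zero => simp
  | succ L ih =>
    rw [hlSeg_succ, HlGraph.isWalk_cons]
    refine ⟨rfl, ?_⟩
    rw [hchain i]
    have := ih (i + 1)
    rwa [show i + 1 + L = i + (L + 1) by ring] at this

lemma hlSeg_reduced {c : ℕ → D} (hred : ∀ k, c (k + 1) ≠ G.inv (c k)) (i L : ℕ) :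
    G.Reduced (hlSeg c i L) := by
  unfold HlGraph.Reduced
  rw [List.isChain_iff_getElem]
  intro k hk
  simp only [hlSeg, List.getElem_map, List.getElem_range', one_mul]
  have := hred (i + k)
  rwa [show i + k + 1 = i + (k + 1) by ring] at this

lemma hlSeg_head? (c : ℕ → D) (i L : ℕ) : (hlSeg c i (L + 1)).head? = some (c i) := by
  rw [hlSeg_succ]; rfl

lemma hlSeg_getLast? (c : ℕ → D) (i L : ℕ) : (hlSeg c i (L + 1)).getLast? = some (c (i + L)) := by
  rw [hlSeg_concat, List.getLast?_concat]

lemma hlSeg_inner (c : ℕ → D) (i L : ℕ) :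
    G.inner (hlSeg c i (L + 1)) = (List.range' (i + 1) L).map (fun k => G.src (c k)) := by
  rw [hlSeg_succ]
  simp [HlGraph.inner, hlSeg]

lemma hlRev_cons (d : D) (P : List D) : hlRev G (d :: P) = hlRev G P ++ [G.inv d] := by
  simp [hlRev]

lemma hlRev_concat (d : D) (P : List D) : hlRev G (P ++ [d]) = G.inv d :: hlRev G P := by
  simp [hlRev]

@[simp] lemma hlRev_length (P : List D) : (hlRev G P).length = P.length := by
  simp [hlRev]

lemma mem_hlRev {P : List D} {d : D} : d ∈ hlRev G P ↔ G.inv d ∈ P := by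
  simp only [hlRev, List.mem_reverse, List.mem_map]
  constructor
  · rintro ⟨e, he, rfl⟩; rwa [G.inv_inv]
  · intro h; exact ⟨_, h, G.inv_inv d⟩

lemma hlRev_walk {a b : V} {P : List D} (h : G.IsWalk a P b) : G.IsWalk b (hlRev G P) a := by
  induction P generalizing a with
  | nil => simpa [hlRev] using h.symm
  | cons d P ih =>
    rw [HlGraph.isWalk_cons] at h
    rw [hlRev_cons, HlGraph.isWalk_append]
    refine ⟨G.tgt d, ih h.2, ?_⟩
    simp [h.1]

lemma hlRev_seg_inner {c : ℕ → D} (hchain : ∀ k, G.tgt (c k) = G.src (c (k + 1))) (i L : ℕ) :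
    G.inner (hlRev G (hlSeg c i (L + 1)))
      = ((List.range' (i + 1) L).reverse).map (fun k => G.src (c k)) := by
  rw [hlSeg_concat, hlRev_concat]
  simp only [HlGraph.inner, List.tail_cons, hlRev, hlSeg, List.map_map, List.map_reverse]
  congr 1
  rw [show i + 1 = 1 + i by ring, ← List.map_add_range', List.map_map]
  apply List.map_congr_left
  intro k _
  simp only [Function.comp]
  rw [show 1 + k = k + 1 by ring, ← hchain k]
  rfl

end segments

/-! ### Periodic reduced walks that use every dart together with its inverse -/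

section periodic

variable {V : Type u} {D : Type v} (G : HlGraph V D)

/-- a periodic, everywhere reduced walk in which the inverse of every used dart is used -/
structure HlPer (c : ℕ → D) (n : ℕ) : Prop where
  pos : 0 < n
  per : ∀ k, c (k + n) = c k
  chain : ∀ k, G.tgt (c k) = G.src (c (k + 1))
  red : ∀ k, c (k + 1) ≠ G.inv (c k)
  back : ∀ k, ∃ j, c j = G.inv (c k)

variable {G}

lemma HlPer.per_mul {c : ℕ → D} {n : ℕ} (hc : HlPer G c n) (k m : ℕ) : c (k + n * m) = c k := by
  induction m with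
  | zero => simp
  | succ m ih => rw [Nat.mul_succ, ← Nat.add_assoc, hc.per, ih]

/-- The combinatorial data extracted from a periodic walk: a first simple cycle
`c i, …, c (i+l-1)` which the walk leaves at time `i+l`, and the next repetition time `u`. -/
lemma hl_times {c : ℕ → D} {n : ℕ} (hc : HlPer G c n) :
    ∃ i l u w, 0 < l ∧ i + l < u ∧ i ≤ w ∧ w < u ∧
      G.src (c i) = G.src (c (i + l)) ∧ G.src (c w) = G.src (c u) ∧ c (i + l) ≠ c i ∧
      (∀ k k', i ≤ k → k < k' → k' < u → G.src (c k) = G.src (c k') → k = i ∧ k' = i + l) := by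
  classical
  set v : ℕ → V := fun k => G.src (c k) with hv
  -- minimal return time
  have hex : ∃ l, 0 < l ∧ ∃ i, v i = v (i + l) :=
    ⟨n, hc.pos, 0, by simp only [hv]; rw [hc.per]⟩
  set l := Nat.find hex with hl
  obtain ⟨hlpos, i₀, hi₀⟩ := Nat.find_spec hex
  have hlmin : ∀ m, 0 < m → m < l → ∀ i, v i ≠ v (i + m) := by
    intro m hm1 hm2 i hi
    exact Nat.find_min hex hm2 ⟨hm1, i, hi⟩
  -- an index where the walk leaves the cycle
  have hleave : ∃ i, v i = v (i + l) ∧ c (i + l) ≠ c i := by
    by_contra hcon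
    push Not at hcon
    have h1 : ∀ k, v (i₀ + k) = v (i₀ + k + l) := by
      intro k
      induction k with
      | zero => exact hi₀
      | succ k ih =>
        have h2 := hcon _ ih
        have h3 : v (i₀ + k + l + 1) = v (i₀ + k + 1) := by
          simp only [hv]
          rw [← hc.chain, ← hc.chain, h2]
        rw [show i₀ + (k + 1) = i₀ + k + 1 by ring, show i₀ + k + 1 + l = i₀ + k + l + 1 by ring]
        exact h3.symm
    have h2 : ∀ k, c (i₀ + k + l) = c (i₀ + k) := fun k => hcon _ (h1 k)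
    have h3 : ∀ m k, c (i₀ + k + l * m) = c (i₀ + k) := by
      intro m
      induction m with
      | zero => intro k; simp
      | succ m ih =>
        intro k
        rw [Nat.mul_succ, ← Nat.add_assoc]
        have := h2 (k + l * m)
        rw [show i₀ + (k + l * m) + l = i₀ + k + l * m + l by ring,
          show i₀ + (k + l * m) = i₀ + k + l * m by ring] at this
        rw [this, ih]
    obtain ⟨j, hj⟩ := hc.back i₀
    -- move `j` beyond `i₀`
    have hj' : c (j + n * (i₀ + 1)) = G.inv (c i₀) := by rw [hc.per_mul, hj]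
    have hbig : i₀ + 1 ≤ j + n * (i₀ + 1) := by
      have : 1 * (i₀ + 1) ≤ n * (i₀ + 1) := Nat.mul_le_mul_right _ hc.pos
      omega
    obtain ⟨t, ht⟩ := Nat.exists_eq_add_of_le hbig
    rw [ht] at hj'
    have hdm : t = t % l + l * (t / l) := (Nat.mod_add_div t l).symm
    have h4 : c (i₀ + 1 + t) = c (i₀ + (1 + t % l)) := by
      have := h3 (t / l) (1 + t % l)
      rw [← this]
      congr 1
      omega
    have h5 : v (i₀ + (1 + t % l)) = v (i₀ + 1) := by
      simp only [hv]
      rw [← h4, hj', ← hc.chain]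
      rfl
    have h6 : t % l = 0 := by
      by_contra hne
      have hpos : 0 < t % l := Nat.pos_of_ne_zero hne
      have hlt : t % l < l := Nat.mod_lt _ hlpos
      apply hlmin (t % l) hpos hlt (i₀ + 1)
      rw [← h5]
      congr 1
      ring
    rw [h6] at h4
    exact hc.red i₀ (by rw [← hj', h4])
  obtain ⟨i, hi1, hi2⟩ := hleave
  -- next repetition time
  have hex2 : ∃ u, i + l < u ∧ ∃ w, i ≤ w ∧ w < u ∧ v w = v u :=
    ⟨i + l + n, by have := hc.pos; omega, i + l, by omega, by have := hc.pos; omega, by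
      simp only [hv]; rw [hc.per]⟩
  set u := Nat.find hex2 with hu
  obtain ⟨hu1, w, hw1, hw2, hw3⟩ := Nat.find_spec hex2
  have humin : ∀ u', i + l < u' → u' < u → ∀ w, i ≤ w → w < u' → v w ≠ v u' := by
    intro u' h1 h2 w h3 h4 h5
    exact Nat.find_min hex2 h2 ⟨h1, w, h3, h4, h5⟩
  refine ⟨i, l, u, w, hlpos, hu1, hw1, hw2, hi1, hw3, hi2, ?_⟩
  intro k k' hk hkk' hk' hvv
  by_cases hc1 : i + l < k'
  · exact absurd hvv (humin k' hc1 hk' k hk hkk')
  · by_cases hc2 : k' - k < l
    · exfalso
      apply hlmin (k' - k) (by omega) hc2 k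
      rw [show k + (k' - k) = k' by omega]
      exact hvv
    · omega

/-- the darts `c i, …, c (u-1)` are pairwise distinct unoriented edges -/
lemma hl_edges_distinct {c : ℕ → D} {n : ℕ} (hc : HlPer G c n) {i l u : ℕ}
    (hne : c (i + l) ≠ c i)
    (hdist : ∀ k k', i ≤ k → k < k' → k' < u → G.src (c k) = G.src (c k') → k = i ∧ k' = i + l) :
    ∀ k k', i ≤ k → k < u → i ≤ k' → k' < u → (c k = c k' → k = k') ∧ c k ≠ G.inv (c k') := by
  have key1 : ∀ k k', i ≤ k → k < k' → k' < u → c k ≠ c k' := by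
    intro k k' h1 h2 h3 h4
    obtain ⟨rfl, rfl⟩ := hdist k k' h1 h2 h3 (by rw [h4])
    exact hne h4.symm
  have key2 : ∀ k k', i ≤ k → k < k' → k' < u → c k ≠ G.inv (c k') := by
    intro k k' h1 h2 h3 h4
    have h5 : G.src (c (k + 1)) = G.src (c k') := by
      rw [← hc.chain, h4, HlGraph.tgt_inv]
    by_cases h6 : k + 1 = k'
    · subst h6
      apply hc.red k
      rw [h4, G.inv_inv]
    · have := hdist (k + 1) k' (by omega) (by omega) h3 h5
      omega
  intro k k' h1 h2 h3 h4
  constructor
  · intro h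
    by_contra hkk
    rcases Nat.lt_or_gt_of_ne hkk with h5 | h5
    · exact key1 k k' h1 h5 h4 h
    · exact key1 k' k h3 h5 h2 h.symm
  · intro h
    rcases Nat.lt_trichotomy k k' with h5 | h5 | h5
    · exact key2 k k' h1 h5 h4 h
    · subst h5; exact G.ne_inv _ h
    · apply key2 k' k h3 h5 h2
      rw [h, G.inv_inv]

/-- a closed segment inside the window is a cyclically reduced closed walk -/
lemma hl_seg_cycRed {c : ℕ → D} {n : ℕ} (hc : HlPer G c n) {i u : ℕ}
    (hE : ∀ k k', i ≤ k → k < u → i ≤ k' → k' < u → (c k = c k' → k = k') ∧ c k ≠ G.inv (c k'))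
    (j L : ℕ) (hj : i ≤ j) (hL : 0 < L) (hjL : j + L ≤ u) : G.CycRed (hlSeg c j L) := by
  refine ⟨hlSeg_reduced hc.red j L, ?_⟩
  obtain ⟨L', rfl⟩ : ∃ L', L = L' + 1 := ⟨L - 1, by omega⟩
  rw [hlSeg_head?, hlSeg_getLast?]
  intro d hd d' hd'
  simp only [Option.mem_def, Option.some.injEq] at hd hd'
  subst hd; subst hd'
  exact (hE j (j + L') hj (by omega) (by omega) (by omega)).2

/-- **Shape lemma.** -/
lemma hl_shape {c : ℕ → D} {n : ℕ} (hc : HlPer G c n) :
    ∃ i u, i < u ∧
      (∀ k k', i ≤ k → k < u → i ≤ k' → k' < u → (c k = c k' → k = k') ∧ c k ≠ G.inv (c k')) ∧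
      ((∃ a b P₁ P₂ P₃, G.IsTheta a b P₁ P₂ P₃ ∧
          (∀ d ∈ P₁ ++ P₂ ++ P₃, ∃ k, d = c k ∨ d = G.inv (c k)) ∧
          P₁.length + P₂.length + P₃.length = u - i) ∨
       (∃ p q C₁ C₂, G.IsWalk p C₁ p ∧ G.IsWalk q C₂ q ∧ C₁ ≠ [] ∧ C₂ ≠ [] ∧
          G.CycRed C₁ ∧ G.CycRed C₂ ∧ (∀ d ∈ C₁ ++ C₂, ∃ k, d = c k) ∧
          C₁.length + C₂.length ≤ u - i)) := by
  obtain ⟨i, l, u, w, hl, hu, hw1, hw2, hil, hwu, hne, hdist⟩ := hl_times hc
  have hE := hl_edges_distinct hc hne hdist
  refine ⟨i, u, by omega, hE, ?_⟩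
  by_cases hcase : i < w ∧ w < i + l
  · -- theta
    left
    obtain ⟨hc1, hc2⟩ := hcase
    obtain ⟨L₁, hL₁⟩ : ∃ L, w = i + (L + 1) := ⟨w - i - 1, by omega⟩
    obtain ⟨L₂, hL₂⟩ : ∃ L, i + l = w + (L + 1) := ⟨i + l - w - 1, by omega⟩
    obtain ⟨L₃, hL₃⟩ : ∃ L, u = i + l + (L + 1) := ⟨u - (i + l) - 1, by omega⟩
    refine ⟨G.src (c i), G.src (c w), hlSeg c i (L₁ + 1), hlRev G (hlSeg c w (L₂ + 1)),
      hlSeg c (i + l) (L₃ + 1), ⟨?_, ?_, ?_, ?_, ?_⟩, ?_, ?_⟩
    · have := hlSeg_walk hc.chain i (L₁ + 1)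
      rwa [← hL₁] at this
    · have := hlSeg_walk hc.chain w (L₂ + 1)
      rw [← hL₂, ← hil] at this
      exact hlRev_walk this
    · have := hlSeg_walk hc.chain (i + l) (L₃ + 1)
      rwa [← hL₃, ← hil, ← hwu] at this
    · rw [hlSeg_inner, hlSeg_inner, hlRev_seg_inner hc.chain]
      have hmap : (G.src (c i) :: G.src (c w) ::
          (List.map (fun k => G.src (c k)) (List.range' (i + 1) L₁) ++
            List.map (fun k => G.src (c k)) (List.range' (w + 1) L₂).reverse ++
            List.map (fun k => G.src (c k)) (List.range' (i + l + 1) L₃)))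
          = (i :: w :: (List.range' (i + 1) L₁ ++ (List.range' (w + 1) L₂).reverse ++
              List.range' (i + l + 1) L₃)).map (fun k => G.src (c k)) := by
        simp
      rw [hmap]
      apply List.Nodup.map_on
      · intro k hk k' hk' hkk'
        have hr : ∀ k, k ∈ (i :: w :: (List.range' (i + 1) L₁ ++ (List.range' (w + 1) L₂).reverse ++
              List.range' (i + l + 1) L₃)) → i ≤ k ∧ k < u ∧ k ≠ i + l := by
          intro k hk
          simp only [List.mem_cons, List.mem_append, List.mem_reverse, List.mem_range'_1] at hk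
          omega
        have h1 := hr k hk
        have h2 := hr k' hk'
        by_contra hcon
        rcases Nat.lt_or_gt_of_ne hcon with h5 | h5
        · have := hdist k k' h1.1 h5 h2.2.1 hkk'
          omega
        · have := hdist k' k h2.1 h5 h1.2.1 hkk'.symm
          omega
      · simp only [List.nodup_cons, List.nodup_append, List.mem_cons, List.mem_append,
          List.mem_reverse, List.mem_range'_1, List.nodup_reverse]
        refine ⟨by omega, by omega, ⟨List.nodup_range' _, List.nodup_range' _, ?_⟩,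
          List.nodup_range' _, ?_⟩
        · intro a ha b hb; omega
        · intro a ha b hb; omega
    · rw [List.nodup_append, List.nodup_append]
      refine ⟨⟨?_, ?_, ?_⟩, ?_, ?_⟩
      · apply List.Nodup.map_on _ (List.nodup_range' _)
        intro k hk k' hk' h
        rw [List.mem_range'_1] at hk hk'
        exact (hE k k' (by omega) (by omega) (by omega) (by omega)).1 h
      · unfold hlRev
        rw [List.nodup_reverse]
        apply List.Nodup.map G.inv_injective
        apply List.Nodup.map_on _ (List.nodup_range' _)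
        intro k hk k' hk' h
        rw [List.mem_range'_1] at hk hk'
        exact (hE k k' (by omega) (by omega) (by omega) (by omega)).1 h
      · intro a ha b hb hab
        rw [mem_hlSeg] at ha
        rw [mem_hlRev, mem_hlSeg] at hb
        obtain ⟨k, h1, h2, rfl⟩ := ha
        obtain ⟨k', h3, h4, h5⟩ := hb
        apply (hE k k' (by omega) (by omega) (by omega) (by omega)).2
        rw [h5, G.inv_inv, hab]
      · apply List.Nodup.map_on _ (List.nodup_range' _)
        intro k hk k' hk' h
        rw [List.mem_range'_1] at hk hk'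
        exact (hE k k' (by omega) (by omega) (by omega) (by omega)).1 h
      · intro a ha b hb hab
        rw [mem_hlSeg] at hb
        obtain ⟨k', h3, h4, rfl⟩ := hb
        rw [List.mem_append] at ha
        rcases ha with ha | ha
        · rw [mem_hlSeg] at ha
          obtain ⟨k, h1, h2, h5⟩ := ha
          have := (hE k k' (by omega) (by omega) (by omega) (by omega)).1 (by rw [h5, hab])
          omega
        · rw [mem_hlRev, mem_hlSeg] at ha
          obtain ⟨k, h1, h2, h5⟩ := ha
          apply (hE k k' (by omega) (by omega) (by omega) (by omega)).2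
          rw [h5, hab]
    · intro d hd
      rw [List.mem_append, List.mem_append] at hd
      rcases hd with (hd | hd) | hd
      · rw [mem_hlSeg] at hd
        obtain ⟨k, -, -, rfl⟩ := hd
        exact ⟨k, Or.inl rfl⟩
      · rw [mem_hlRev, mem_hlSeg] at hd
        obtain ⟨k, -, -, h⟩ := hd
        exact ⟨k, Or.inr (by rw [h, G.inv_inv])⟩
      · rw [mem_hlSeg] at hd
        obtain ⟨k, -, -, rfl⟩ := hd
        exact ⟨k, Or.inl rfl⟩
    · simp only [hlSeg_length, hlRev_length]
      omega
  · -- two cycles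
    right
    have hw' : ∃ w', i + l ≤ w' ∧ w' < u ∧ G.src (c w') = G.src (c u) := by
      by_cases h1 : i + l ≤ w
      · exact ⟨w, h1, hw2, hwu⟩
      · have : w = i := by omega
        subst this
        exact ⟨w + l, le_refl _, hu, by rw [← hil, hwu]⟩
    obtain ⟨w', hw'1, hw'2, hw'3⟩ := hw'
    refine ⟨G.src (c i), G.src (c w'), hlSeg c i l, hlSeg c w' (u - w'), ?_, ?_, ?_, ?_,
      hl_seg_cycRed hc hE i l (le_refl _) hl (by omega),
      hl_seg_cycRed hc hE w' (u - w') (by omega) (by omega) (by omega), ?_, ?_⟩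
    · have := hlSeg_walk hc.chain i l
      rwa [← hil] at this
    · have := hlSeg_walk hc.chain w' (u - w')
      rwa [show w' + (u - w') = u by omega, ← hw'3] at this
    · intro h
      have := congrArg List.length h
      simp at this
      omega
    · intro h
      have := congrArg List.length h
      simp at this
      omega
    · intro d hd
      rw [List.mem_append] at hd
      rcases hd with hd | hd
      · rw [mem_hlSeg] at hd
        obtain ⟨k, -, -, rfl⟩ := hd
        exact ⟨k, rfl⟩
      · rw [mem_hlSeg] at hd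
        obtain ⟨k, -, -, rfl⟩ := hd
        exact ⟨k, rfl⟩
    · simp only [hlSeg_length]
      omega

end periodic

/-! ### From lists to periodic sequences, counting, and the main theorem -/

section main

variable {V : Type u} {D : Type v} (G : HlGraph V D)

variable {G} in
lemma hl_walk_getElem {a b : V} {P : List D} (h : G.IsWalk a P b) :
    ∀ k (hk : k + 1 < P.length), G.tgt P[k] = G.src P[k + 1] := by
  induction P generalizing a with
  | nil => intro k hk; simp at hk
  | cons d P ih =>
    rw [HlGraph.isWalk_cons] at h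
    intro k hk
    cases k with
    | zero =>
      cases P with
      | nil => simp at hk
      | cons e P =>
        rw [HlGraph.isWalk_cons] at h
        simpa using h.2.1.symm
    | succ k =>
      have := ih h.2 k (by simpa using hk)
      simpa using this

variable {G} in
lemma hl_walk_first {a b : V} {P : List D} (h : G.IsWalk a P b) (hk : 0 < P.length) :
    G.src P[0] = a := by
  cases P with
  | nil => simp at hk
  | cons d P => exact h.1

variable {G} in
lemma hl_walk_last {a b : V} {P : List D} (h : G.IsWalk a P b) (hk : 0 < P.length) :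
    G.tgt (P[P.length - 1]'(by omega)) = b := by
  induction P generalizing a with
  | nil => simp at hk
  | cons d P ih =>
    rw [HlGraph.isWalk_cons] at h
    cases P with
    | nil => simpa using h.2
    | cons e P =>
      have := ih h.2 (by simp)
      simpa using this

/-- the periodic sequence of a nonempty list -/
def hlCyc (C : List D) (h : 0 < C.length) : ℕ → D :=
  fun k => C[k % C.length]'(Nat.mod_lt _ h)

variable {G} in
lemma hlCyc_per [DecidableEq D] {C : List D} (h : 0 < C.length) {a : V} (hw : G.IsWalk a C a)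
    (hcr : G.CycRed C) (hbal : HlBal G C) : HlPer G (hlCyc C h) C.length := by
  have hstep : ∀ k, (k % C.length + 1 < C.length ∧ (k + 1) % C.length = k % C.length + 1) ∨
      (k % C.length = C.length - 1 ∧ (k + 1) % C.length = 0) := by
    intro k
    have h1 : k % C.length < C.length := Nat.mod_lt _ h
    by_cases h2 : k % C.length + 1 < C.length
    · left
      refine ⟨h2, ?_⟩
      rw [Nat.add_mod, Nat.mod_eq_of_lt (a := k % C.length + 1 % C.length)]
      · rw [Nat.mod_eq_of_lt (a := 1)]; omega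
      · rw [Nat.mod_eq_of_lt (a := 1)] <;> omega
    · right
      have h3 : k % C.length = C.length - 1 := by omega
      refine ⟨h3, ?_⟩
      rw [Nat.add_mod, h3]
      by_cases h4 : C.length = 1
      · rw [h4]
      · rw [Nat.mod_eq_of_lt (a := 1) (by omega), show C.length - 1 + 1 = C.length by omega,
          Nat.mod_self]
  refine ⟨h, ?_, ?_, ?_, ?_⟩
  · intro k
    simp only [hlCyc, Nat.add_mod_right]
  · intro k
    simp only [hlCyc]
    rcases hstep k with ⟨h1, h2⟩ | ⟨h1, h2⟩
    · simp only [h2]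
      exact hl_walk_getElem hw _ h1
    · simp only [h1, h2]
      rw [hl_walk_last hw h, hl_walk_first hw h]
  · intro k
    simp only [hlCyc]
    rcases hstep k with ⟨h1, h2⟩ | ⟨h1, h2⟩
    · simp only [h2]
      exact (List.isChain_iff_getElem.1 hcr.1) _ h1
    · simp only [h1, h2]
      apply hcr.2
      · rw [List.head?_eq_getElem?, List.getElem?_eq_getElem h]; rfl
      · rw [List.getLast?_eq_getElem?, List.getElem?_eq_getElem (by omega)]; rfl
  · intro k
    have h1 : hlCyc C h k ∈ C := List.getElem_mem _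
    have h2 : G.inv (hlCyc C h k) ∈ C := by
      rw [← List.count_pos_iff, ← hbal, List.count_pos_iff]; exact h1
    obtain ⟨j, hj, hj2⟩ := List.mem_iff_getElem.1 h2
    refine ⟨j, ?_⟩
    simp only [hlCyc] at hj2 ⊢
    simp only [Nat.mod_eq_of_lt hj]
    exact hj2

lemma hl_count_le [DecidableEq D] (W L : List D) (hL : L.Nodup) (m : ℕ) (hm : 0 < m)
    (h : ∀ d ∈ L, m ≤ W.count d) : m * L.length ≤ W.length := by
  have h1 : L.toFinset ⊆ W.toFinset := by
    intro d hd
    rw [List.mem_toFinset] at hd ⊢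
    rw [← List.count_pos_iff]
    have := h d hd
    omega
  have h2 : ∑ d ∈ W.toFinset, W.count d = W.length := by
    simp
  have h3 : L.toFinset.card • m ≤ ∑ d ∈ L.toFinset, W.count d :=
    Finset.card_nsmul_le_sum _ _ _ (fun d hd => h d (List.mem_toFinset.1 hd))
  rw [List.toFinset_card_of_nodup hL, smul_eq_mul] at h3
  calc m * L.length = L.length * m := Nat.mul_comm _ _
    _ ≤ ∑ d ∈ L.toFinset, W.count d := h3
    _ ≤ ∑ d ∈ W.toFinset, W.count d := Finset.sum_le_sum_of_subset h1
    _ = W.length := h2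

/-- **Lemma `lem:heisenberg-law` (INJ, Section 03).**  Let `W` be a nonempty closed walk,
reduced as a based walk, whose word is a law (in independent edge variables) of a group
containing a Heisenberg pair `x, y`.  Then the support of `W` contains a theta graph or two
cyclically reduced closed walks, of total length at most `|W| / 4`. -/
theorem hl_main {Hh : Type w} [Group Hh] (x y : Hh)
    (hzx : Commute (x * y * x⁻¹ * y⁻¹) x) (hzy : Commute (x * y * x⁻¹ * y⁻¹) y)
    (hz : ∀ n : ℤ, (x * y * x⁻¹ * y⁻¹) ^ n = 1 → n = 0)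
    (W : List D) (a : V) (hW : G.IsWalk a W a) (hne : W ≠ []) (hred : G.Reduced W)
    (hlaw : ∀ φ : D → Hh, (∀ d, φ (G.inv d) = (φ d)⁻¹) → (W.map φ).prod = 1) :
    (∃ p q P₁ P₂ P₃, G.IsTheta p q P₁ P₂ P₃ ∧ (∀ d ∈ P₁ ++ P₂ ++ P₃, d ∈ W) ∧
        4 * (P₁.length + P₂.length + P₃.length) ≤ W.length) ∨
    (∃ p q C₁ C₂, G.IsWalk p C₁ p ∧ G.IsWalk q C₂ q ∧ C₁ ≠ [] ∧ C₂ ≠ [] ∧
        G.CycRed C₁ ∧ G.CycRed C₂ ∧ (∀ d ∈ C₁ ++ C₂, d ∈ W) ∧
        4 * (C₁.length + C₂.length) ≤ W.length) := by
  classical
  have hWbal := hl_law_bal G hzx hz W hlaw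
  have hcand : HlCand G W W := ⟨List.infix_rfl, hne, ⟨a, hW⟩, hWbal⟩
  obtain ⟨C, hC, hheavy, hcyc⟩ := hl_core G hzx hzy hz W hred hlaw W.length W rfl hcand
  have hlen : 0 < C.length := List.length_pos_iff.2 hC.ne
  obtain ⟨b, hb⟩ := hC.closed
  have hper := hlCyc_per hlen hb hcyc hC.bal
  set c := hlCyc C hlen with hcdef
  have hcC : ∀ k, c k ∈ C := fun k => List.getElem_mem _
  have hcW : ∀ k, c k ∈ W := fun k => hC.isInfix.subset (hcC k)
  have hiW : ∀ k, G.inv (c k) ∈ W := by
    intro k
    rw [← List.count_pos_iff, ← hWbal, List.count_pos_iff]; exact hcW k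
  obtain ⟨i, u, hiu, hE, hshape⟩ := hl_shape hper
  -- the length inequality
  have hlenW : 4 * (u - i) ≤ W.length := by
    have hnd : (hlSeg c i (u - i) ++ (hlSeg c i (u - i)).map G.inv).Nodup := by
      rw [List.nodup_append]
      have h1 : (hlSeg c i (u - i)).Nodup := by
        apply List.Nodup.map_on _ (List.nodup_range' _)
        intro k hk k' hk' h
        rw [List.mem_range'_1] at hk hk'
        exact (hE k k' (by omega) (by omega) (by omega) (by omega)).1 h
      refine ⟨h1, h1.map G.inv_injective, ?_⟩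
      intro d hd e he hde
      rw [mem_hlSeg] at hd
      rw [List.mem_map] at he
      obtain ⟨k, h1, h2, rfl⟩ := hd
      obtain ⟨e', he', rfl⟩ := he
      rw [mem_hlSeg] at he'
      obtain ⟨k', h3, h4, rfl⟩ := he'
      exact (hE k k' (by omega) (by omega) (by omega) (by omega)).2 hde
    have := hl_count_le W _ hnd 2 (by norm_num) (by
      intro d hd
      rw [List.mem_append] at hd
      rcases hd with hd | hd
      · rw [mem_hlSeg] at hd
        obtain ⟨k, -, -, rfl⟩ := hd
        exact hheavy _ (hcC k)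
      · rw [List.mem_map] at hd
        obtain ⟨e', he', rfl⟩ := hd
        rw [mem_hlSeg] at he'
        obtain ⟨k, -, -, rfl⟩ := he'
        rw [← hWbal]
        exact hheavy _ (hcC k))
    simp only [List.length_append, hlSeg_length, List.length_map] at this
    omega
  rcases hshape with ⟨p, q, P₁, P₂, P₃, hth, hmem, hl⟩ | ⟨p, q, C₁, C₂, h1, h2, h3, h4, h5, h6, hmem, hl⟩
  · left
    refine ⟨p, q, P₁, P₂, P₃, hth, ?_, by omega⟩
    intro d hd
    obtain ⟨k, rfl | rfl⟩ := hmem d hd
    · exact hcW k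
    · exact hiW k
  · right
    refine ⟨p, q, C₁, C₂, h1, h2, h3, h4, h5, h6, ?_, by omega⟩
    intro d hd
    obtain ⟨k, rfl⟩ := hmem d hd
    exact hcW k

/-- Contrapositive form used by `prop:pruning (4)`: if every cyclically reduced closed walk in
the support of `W` is longer than `|W| / 8` and every theta in the support is longer than
`|W| / 4`, then `W` is not a law: some assignment of the edge variables has nontrivial
holonomy along `W`. -/
theorem hl_nonlaw {Hh : Type w} [Group Hh] (x y : Hh)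
    (hzx : Commute (x * y * x⁻¹ * y⁻¹) x) (hzy : Commute (x * y * x⁻¹ * y⁻¹) y)
    (hz : ∀ n : ℤ, (x * y * x⁻¹ * y⁻¹) ^ n = 1 → n = 0)
    (W : List D) (a : V) (hW : G.IsWalk a W a) (hne : W ≠ []) (hred : G.Reduced W)
    (hcyc : ∀ p C, G.IsWalk p C p → C ≠ [] → G.CycRed C → (∀ d ∈ C, d ∈ W) →
      W.length < 8 * C.length)
    (htheta : ∀ p q P₁ P₂ P₃, G.IsTheta p q P₁ P₂ P₃ → (∀ d ∈ P₁ ++ P₂ ++ P₃, d ∈ W) →
      W.length < 4 * (P₁.length + P₂.length + P₃.length)) :
    ∃ φ : D → Hh, (∀ d, φ (G.inv d) = (φ d)⁻¹) ∧ (W.map φ).prod ≠ 1 := by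
  by_contra hcon
  push Not at hcon
  rcases hl_main G x y hzx hzy hz W a hW hne hred hcon with
    ⟨p, q, P₁, P₂, P₃, hth, hmem, hl⟩ | ⟨p, q, C₁, C₂, h1, h2, h3, h4, h5, h6, hmem, hl⟩
  · have := htheta p q P₁ P₂ P₃ hth hmem
    omega
  · have e1 := hcyc p C₁ h1 h3 h5 (fun d hd => hmem d (List.mem_append_left _ hd))
    have e2 := hcyc q C₂ h2 h4 h6 (fun d hd => hmem d (List.mem_append_right _ hd))
    omega

end main

end Claimed.Agent.R300.HeisLaw
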