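/-
Row 300 / S0553 (INJ paper), Section 01_labeling (LabStream): the own-side raw u-stream of a state:
block and offset of a stream bit, active bits, writing bits into the stream, cardinality of the set
of states with prescribed zero bits.  Owner: helper31.
-/
import Claimed.Agent.R300.LabCard
import Claimed.Agent.R300.LabFwd

set_option autoImplicit false

namespace Claimed.Agent.R300.Lab

open Classical

variable {p : Par}


/-! ### the own-side raw u-stream -/

/-- index of the block containing bit `n` of the own-side u-stream -/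
def ublk (p : Par) (sd : Bool) (n : ℕ) : ℕ :=
  if sd = true then 2 * (n / p.s) + 1 else if n < p.r then 0 else 2 * ((n - p.r) / p.s) + 2

/-- offset of that bit inside its block -/
def uoff (p : Par) (sd : Bool) (n : ℕ) : ℕ :=
  if sd = true then n % p.s else if n < p.r then n else (n - p.r) % p.s

theorem lab_ubit_eq (x : Vtx p) (n : ℕ) :
    ubit x n = ext0 (x.u (ublk p x.sd n)) (uoff p x.sd n) := by
  unfold ubit ublk uoff
  split_ifs <;> rfl

theorem lab_own_ublk (sd : Bool) (n : ℕ) : own sd (ublk p sd n) := by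
  rw [lab_own_iff]
  unfold ublk
  cases sd
  · simp only [Bool.false_eq_true, if_false]
    split_ifs <;> omega
  · simp only [if_true]
    omega

theorem lab_ubit_congr (x x' : Vtx p) (n : ℕ) (hs : x.sd = x'.sd)
    (hu : x.u (ublk p x.sd n) = x'.u (ublk p x.sd n)) : ubit x n = ubit x' n := by
  rw [lab_ubit_eq, lab_ubit_eq, ← hs, hu]

theorem lab_ubit_zero_of_blk (x : Vtx p) (n : ℕ) (hu : x.u (ublk p x.sd n) = 0) : ubit x n = 0 := by
  rw [lab_ubit_eq, hu, lab_ext0_zero]

/-- beyond the own length the active width does not reach the bit -/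
theorem lab_aw_le_uoff (hp : p.Adm) (sd : Bool) (i n : ℕ) (hn : lC p sd i ≤ n) :
    p.aw i (ublk p sd n) ≤ uoff p sd n := by
  have hs := hp.hs
  have hc := lab_kap_cases hp i
  unfold lC Par.lA Par.lB at hn
  unfold ublk uoff Par.aw
  generalize p.b * i / (2 * p.s) = Q at *
  generalize p.b * i % (2 * p.s) = R at *
  cases sd
  · simp only [Bool.false_eq_true, if_false] at hn ⊢
    have hr : ¬ n < p.r := by omega
    rw [if_neg hr, if_neg hr]
    have h1 := Nat.div_add_mod (n - p.r) p.s
    have h2 := Nat.mod_lt (n - p.r) hs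
    have h3 : p.n0 + Q ≤ (n - p.r) / p.s := by
      apply (Nat.le_div_iff_mul_le hs).2
      have : (p.n0 + Q) * p.s = p.n0 * p.s + Q * p.s := by ring
      omega
    generalize (n - p.r) / p.s = qn at *
    generalize (n - p.r) % p.s = rn at *
    rcases hc with ⟨c1, c2, c3⟩ | ⟨c1, c1', c2, c3⟩ | ⟨c1, c2, c3⟩
    · rw [if_neg (by omega), if_neg (by omega)]; omega
    · rw [if_neg (by omega), if_neg (by omega)]; omega
    · rw [if_neg (by omega)]
      split_ifs with h4
      · have h5 : qn = p.n0 + Q := by omega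
        have h6 : p.s * qn = p.n0 * p.s + Q * p.s := by rw [h5]; ring
        omega
      · omega
  · simp only [if_true] at hn ⊢
    have h1 := Nat.div_add_mod n p.s
    have h2 := Nat.mod_lt n hs
    have h3 : p.n0 + Q ≤ n / p.s := by
      apply (Nat.le_div_iff_mul_le hs).2
      have : (p.n0 + Q) * p.s = p.n0 * p.s + Q * p.s := by ring
      omega
    rcases hc with ⟨c1, c2, c3⟩ | ⟨c1, c1', c2, c3⟩ | ⟨c1, c2, c3⟩
    · rw [if_neg (by omega), if_neg (by omega)]; omega
    · rw [if_neg (by omega)]
      split_ifs with h4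
      · have h5 : n / p.s = p.n0 + Q := by omega
        have h6 : p.s * (n / p.s) = p.n0 * p.s + Q * p.s := by rw [h5]; ring
        omega
      · omega
    · have h3' : p.n0 + Q + 1 ≤ n / p.s := by
        apply (Nat.le_div_iff_mul_le hs).2
        have : (p.n0 + Q + 1) * p.s = p.n0 * p.s + Q * p.s + p.s := by ring
        omega
      rw [if_neg (by omega), if_neg (by omega)]; omega

/-- the own-side u-stream vanishes beyond its length -/
theorem lab_ubit_beyond (hp : p.Adm) (x : Vtx p) (n : ℕ) (hn : lC p x.sd x.ht ≤ n) :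
    ubit x n = 0 := by
  rw [lab_ubit_eq]
  exact lab_isPre_ext0 (lab_vtx_u_own x _ (lab_own_ublk x.sd n)) _ (lab_aw_le_uoff hp x.sd x.ht n hn)

/-- position of the block of a stream bit -/
theorem lab_ublk_le (hp : p.Adm) (sd : Bool) (i n : ℕ) :
    p.s * (ublk p sd (lC p sd i + n) - 1) ≤ p.H i + 2 * n := by
  have hs := hp.hs
  have hr := lab_r_spec hp
  have hR := Nat.mod_lt (p.b * i) (show 0 < 2 * p.s by omega)
  have hQ := Nat.div_add_mod (p.b * i) (2 * p.s)
  unfold lC Par.lA Par.lB ublk Par.H
  generalize p.b * i / (2 * p.s) = Q at *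
  generalize p.b * i % (2 * p.s) = R at *
  generalize p.b * i = Y at *
  have e1 : 2 * p.s * Q = 2 * (Q * p.s) := by ring
  have e2 : (2 * p.n0 + 1) * p.s = 2 * (p.n0 * p.s) + p.s := by ring
  cases sd
  · simp only [Bool.false_eq_true, if_false]
    split_ifs with h0
    · simp
    · have h1 := Nat.div_add_mod (p.r + p.n0 * p.s + Q * p.s + (R - p.s) + n - p.r) p.s
      generalize (p.r + p.n0 * p.s + Q * p.s + (R - p.s) + n - p.r) / p.s = qn at *
      generalize (p.r + p.n0 * p.s + Q * p.s + (R - p.s) + n - p.r) % p.s = rn at *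
      have e3 : p.s * (2 * qn + 2 - 1) = 2 * (p.s * qn) + p.s := by
        rw [show 2 * qn + 2 - 1 = 2 * qn + 1 by omega]; ring
      omega
  · simp only [if_true]
    have h1 := Nat.div_add_mod (p.n0 * p.s + Q * p.s + min R p.s + n) p.s
    generalize (p.n0 * p.s + Q * p.s + min R p.s + n) / p.s = qn at *
    generalize (p.n0 * p.s + Q * p.s + min R p.s + n) % p.s = rn at *
    have e3 : p.s * (2 * qn + 1 - 1) = 2 * (p.s * qn) := by
      rw [show 2 * qn + 1 - 1 = 2 * qn by omega]; ring
    omega

/-- inside the own length the bit is active -/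
theorem lab_uoff_lt_aw (hp : p.Adm) (sd : Bool) (i n : ℕ) (hn : n < lC p sd i) :
    uoff p sd n < p.aw i (ublk p sd n) := by
  have hs := hp.hs
  have hn0 := hp.hn0
  have hc := lab_kap_cases hp i
  have hR := Nat.mod_lt (p.b * i) (show 0 < 2 * p.s by omega)
  unfold lC Par.lA Par.lB at hn
  unfold ublk uoff Par.aw Par.wd
  generalize p.b * i / (2 * p.s) = Q at *
  generalize p.b * i % (2 * p.s) = R at *
  cases sd
  · simp only [Bool.false_eq_true, if_false] at hn ⊢
    by_cases hr : n < p.r
    · rw [if_pos hr, if_pos hr, if_pos (by omega), if_pos rfl]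
      exact hr
    · rw [if_neg hr, if_neg hr]
      have h1 := Nat.div_add_mod (n - p.r) p.s
      have h2 := Nat.mod_lt (n - p.r) hs
      have h3 : (n - p.r) / p.s < p.n0 + Q + 1 := by
        apply (Nat.div_lt_iff_lt_mul hs).2
        have : (p.n0 + Q + 1) * p.s = p.n0 * p.s + Q * p.s + p.s := by ring
        omega
      have h3' : R ≤ p.s → (n - p.r) / p.s < p.n0 + Q := by
        intro hRs
        apply (Nat.div_lt_iff_lt_mul hs).2
        have : (p.n0 + Q) * p.s = p.n0 * p.s + Q * p.s := by ring
        omega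
      generalize (n - p.r) / p.s = qn at *
      generalize (n - p.r) % p.s = rn at *
      rw [if_neg (show ¬ (2 * qn + 2 = 0) by omega)]
      rcases hc with ⟨c1, c2, c3⟩ | ⟨c1, c1', c2, c3⟩ | ⟨c1, c2, c3⟩
      · have := h3' (by omega)
        split_ifs <;> omega
      · have := h3' (by omega)
        split_ifs <;> omega
      · split_ifs with h4 h5
        · omega
        · have h6 : qn = p.n0 + Q := by omega
          have h7 : p.s * qn = p.n0 * p.s + Q * p.s := by rw [h6]; ring
          omega
        · omega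
  · simp only [if_true] at hn ⊢
    have h1 := Nat.div_add_mod n p.s
    have h2 := Nat.mod_lt n hs
    have h3 : n / p.s < p.n0 + Q + 1 := by
      apply (Nat.div_lt_iff_lt_mul hs).2
      have : (p.n0 + Q + 1) * p.s = p.n0 * p.s + Q * p.s + p.s := by ring
      omega
    have h3' : R = 0 → n / p.s < p.n0 + Q := by
      intro hRs
      apply (Nat.div_lt_iff_lt_mul hs).2
      have : (p.n0 + Q) * p.s = p.n0 * p.s + Q * p.s := by ring
      omega
    generalize n / p.s = qn at *
    generalize n % p.s = rn at *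
    rw [if_neg (show ¬ (2 * qn + 1 = 0) by omega)]
    rcases hc with ⟨c1, c2, c3⟩ | ⟨c1, c1', c2, c3⟩ | ⟨c1, c2, c3⟩
    · have := h3' c1
      split_ifs <;> omega
    · split_ifs with h4 h5
      · omega
      · have h6 : qn = p.n0 + Q := by omega
        have h7 : p.s * qn = p.n0 * p.s + Q * p.s := by rw [h6]; ring
        omega
      · omega
    · split_ifs <;> omega

/-- a stream position is determined by its block and offset -/
theorem lab_ublk_uoff_inj (sd : Bool) (n n' : ℕ) (h1 : ublk p sd n = ublk p sd n')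
    (h2 : uoff p sd n = uoff p sd n') : n = n' := by
  unfold ublk at h1
  unfold uoff at h2
  cases sd
  · simp only [Bool.false_eq_true, if_false] at h1 h2
    by_cases hr : n < p.r <;> by_cases hr' : n' < p.r
    · rw [if_pos hr, if_pos hr'] at h2; exact h2
    · rw [if_pos hr, if_neg hr'] at h1; omega
    · rw [if_neg hr, if_pos hr'] at h1; omega
    · rw [if_neg hr, if_neg hr'] at h1 h2
      have e1 := Nat.div_add_mod (n - p.r) p.s
      have e2 := Nat.div_add_mod (n' - p.r) p.s
      have e3 : (n - p.r) / p.s = (n' - p.r) / p.s := by omega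
      rw [e3, h2] at e1
      omega
  · simp only [if_true] at h1 h2
    have e1 := Nat.div_add_mod n p.s
    have e2 := Nat.div_add_mod n' p.s
    have e3 : n / p.s = n' / p.s := by omega
    rw [e3, h2] at e1
    omega

/-! ### writing bits into the own-side u-stream -/

/-- the block sequence carrying the bits `ε` at the stream positions `P0, .., P0 + q - 1` -/
noncomputable def eblk (p : Par) (sd : Bool) (P0 : ℕ) {q : ℕ} (ε : BV q) (k : ℕ) : BV p.s :=
  fun m => if h : ∃ n : Fin q, ublk p sd (P0 + n.1) = k ∧ uoff p sd (P0 + n.1) = m.1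
    then ε (Classical.choose h) else 0

theorem lab_uoff_lt_s (hp : p.Adm) (sd : Bool) (n : ℕ) : uoff p sd n < p.s := by
  have hs := hp.hs
  have hr := lab_r_spec hp
  unfold uoff
  split_ifs
  · exact Nat.mod_lt _ hs
  · omega
  · exact Nat.mod_lt _ hs

theorem lab_eblk_at (hp : p.Adm) (sd : Bool) (P0 : ℕ) {q : ℕ} (ε : BV q) (n : Fin q) :
    ext0 (eblk p sd P0 ε (ublk p sd (P0 + n.1))) (uoff p sd (P0 + n.1)) = ε n := by
  rw [lab_ext0_lt _ _ (lab_uoff_lt_s hp sd _)]
  have h : ∃ n' : Fin q, ublk p sd (P0 + n'.1) = ublk p sd (P0 + n.1) ∧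
      uoff p sd (P0 + n'.1) = uoff p sd (P0 + n.1) := ⟨n, rfl, rfl⟩
  show (if h : ∃ n' : Fin q, ublk p sd (P0 + n'.1) = ublk p sd (P0 + n.1) ∧
      uoff p sd (P0 + n'.1) = uoff p sd (P0 + n.1) then ε (Classical.choose h) else 0) = ε n
  rw [dif_pos h]
  congr 1
  apply Fin.ext
  have := lab_ublk_uoff_inj sd _ _ (Classical.choose_spec h).1 (Classical.choose_spec h).2
  omega

theorem lab_eblk_pre (hp : p.Adm) (sd : Bool) (i P0 : ℕ) {q : ℕ} (ε : BV q)
    (hq : P0 + q ≤ lC p sd i) (k : ℕ) :
    IsPre (if own sd k then p.aw i k else 0) (eblk p sd P0 ε k) := by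
  intro m hm
  show (if h : ∃ n : Fin q, ublk p sd (P0 + n.1) = k ∧ uoff p sd (P0 + n.1) = m.1
    then ε (Classical.choose h) else 0) = 0
  rw [dif_neg]
  rintro ⟨n, h1, h2⟩
  have ho : own sd k := h1 ▸ lab_own_ublk sd _
  rw [if_pos ho] at hm
  have := lab_uoff_lt_aw hp sd i (P0 + n.1) (by have := n.2; omega)
  rw [h1, h2] at this
  omega

/-- add the bits `ε` to the own-side u-stream of a state of the layer -/
noncomputable def addE (hp : p.Adm) (sd : Bool) (i P0 : ℕ) {q : ℕ} (hq : P0 + q ≤ lC p sd i)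
    (x : Layer p sd i) (ε : BV q) : Layer p sd i :=
  ⟨⟨sd, i, fun k => x.1.u k + eblk p sd P0 ε k, x.1.v, fun k => by
      have h1 := x.1.hu k
      rw [x.2.1, x.2.2] at h1
      exact lab_isPre_add h1 (lab_eblk_pre hp sd i P0 ε hq k), fun k => by
      have h1 := x.1.hv k
      rw [x.2.1, x.2.2] at h1
      exact h1⟩, rfl, rfl⟩

theorem lab_ubit_addE (hp : p.Adm) (sd : Bool) (i P0 : ℕ) {q : ℕ} (hq : P0 + q ≤ lC p sd i)
    (x : Layer p sd i) (ε : BV q) (n : Fin q) :
    ubit (addE hp sd i P0 hq x ε).1 (P0 + n.1) = ubit x.1 (P0 + n.1) + ε n := by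
  rw [lab_ubit_eq, lab_ubit_eq, x.2.1]
  show ext0 (x.1.u (ublk p sd (P0 + n.1)) + eblk p sd P0 ε (ublk p sd (P0 + n.1)))
    (uoff p sd (P0 + n.1)) = _
  rw [lab_ext0_add, lab_eblk_at hp]

/-- prescribing `q` active bits of the own-side u-stream cuts the layer by `2^q` -/
theorem lab_card_zero_bits (hp : p.Adm) (sd : Bool) (i P0 q : ℕ) (hq : P0 + q ≤ lC p sd i) :
    2 ^ q * Nat.card {x : Layer p sd i // ∀ n, n < q → ubit x.1 (P0 + n) = 0}
      ≤ Nat.card (Layer p sd i) := by
  haveI := lab_finite_layer hp sd i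
  rw [← lab_card_BV q, ← Nat.card_prod]
  apply Nat.card_le_card_of_injective
    (fun y : BV q × {x : Layer p sd i // ∀ n, n < q → ubit x.1 (P0 + n) = 0} =>
      addE hp sd i P0 hq y.2.1 y.1)
  rintro ⟨ε, x, hx⟩ ⟨ε', x', hx'⟩ e
  simp only at e
  have hε : ε = ε' := by
    funext n
    have h1 := lab_ubit_addE hp sd i P0 hq x ε n
    have h2 := lab_ubit_addE hp sd i P0 hq x' ε' n
    rw [hx n.1 n.2, zero_add] at h1
    rw [hx' n.1 n.2, zero_add] at h2
    rw [← h1, ← h2, e]
  subst hε
  have hxx : x = x' := by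
    apply Subtype.ext
    apply Vtx.ext (x.2.1.trans x'.2.1.symm) (x.2.2.trans x'.2.2.symm)
    · funext k
      have := congrFun (congrArg (fun y : Layer p sd i => y.1.u) e) k
      exact add_right_cancel this
    · have := congrArg (fun y : Layer p sd i => y.1.v) e
      exact this
  subst hxx
  rfl

/-- forces the on-demand equation lemmas of the definitions of this file to live here
(RULES.md, rule 6) -/
theorem lab_stream_eqns : True := by
  have := @addE.eq_1
  have := @addE.congr_simp
  have := @eblk.eq_1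
  have := @eblk.congr_simp
  have := @ublk.eq_1
  have := @ublk.congr_simp
  have := @uoff.eq_1
  have := @uoff.congr_simp
  trivial

end Claimed.Agent.R300.Lab
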