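/-
Row 300 / S0553 (INJ paper), Section 01_labeling, package L7 (LabSep): Lemma `separation-deletions`.
Owner: helper31.
-/
import Claimed.Agent.R300.LabStream
import Claimed.Agent.R300.LabGate

set_option autoImplicit false

namespace Claimed.Agent.R300.Lab

open Classical

variable {p : Par}

/-! ### real estimates for the separation budget -/

theorem lab_inv_pow_floor (h : ℕ) :
    (1 : ℝ) / 2 ^ (h / 2500) ≤ 2 * (2 : ℝ) ^ (-((h : ℝ) / 2500)) := by
  have h1 : (1 : ℝ) / 2 ^ (h / 2500) = (2 : ℝ) ^ (-((h / 2500 : ℕ) : ℝ)) := by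
    rw [Real.rpow_neg (by norm_num), Real.rpow_natCast, one_div]
  have h2 : 2 * (2 : ℝ) ^ (-((h : ℝ) / 2500)) = (2 : ℝ) ^ (1 + -((h : ℝ) / 2500)) := by
    rw [Real.rpow_add (by norm_num), Real.rpow_one]
  rw [h1, h2]
  apply Real.rpow_le_rpow_of_exponent_le (by norm_num)
  have h3 : h < 2500 * (h / 2500 + 1) := by omega
  have h4 : (h : ℝ) < 2500 * (((h / 2500 : ℕ) : ℝ) + 1) := by exact_mod_cast h3
  linarith

theorem lab_inv_pow_min (a b : ℕ) :
    (1 : ℝ) / 2 ^ (min a b) ≤ 1 / 2 ^ a + 1 / 2 ^ b := by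
  have ha : (0 : ℝ) < 1 / 2 ^ a := by positivity
  have hb : (0 : ℝ) < 1 / 2 ^ b := by positivity
  rcases le_total a b with h | h
  · rw [min_eq_left h]; linarith
  · rw [min_eq_right h]; linarith

theorem lab_geom_le (θ : ℝ) (h0 : 0 ≤ θ) (h1 : θ < 1) (n : ℕ) :
    ∑ t ∈ Finset.range n, θ ^ t ≤ 1 / (1 - θ) := by
  have h2 : 0 < 1 - θ := by linarith
  rw [le_div_iff₀ h2]
  have := geom_sum_mul θ n
  have h3 : (∑ t ∈ Finset.range n, θ ^ t) * (1 - θ) = 1 - θ ^ n := by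
    have : (∑ t ∈ Finset.range n, θ ^ t) * (1 - θ) = -((∑ t ∈ Finset.range n, θ ^ t) * (θ - 1)) := by
      ring
    rw [this, geom_sum_mul]; ring
  rw [h3]
  have := pow_nonneg h0 n
  linarith

/-- the summation of the two geometric series -/
theorem lab_sep_sum (c0 θ ρ : ℝ) (hc : 0 ≤ c0) (hθ0 : 0 ≤ θ) (hθ1 : θ < 1) (hρ0 : 0 ≤ ρ) (hρ1 : ρ < 1)
    (T : ℕ) :
    ∑ t ∈ Finset.range T, (2 * (c0 * θ ^ (T - 1 - t)) + 2 * ρ ^ (t + 1))
      ≤ 2 * (ρ / (1 - ρ) + c0 / (1 - θ)) := by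
  rw [Finset.sum_add_distrib, ← Finset.mul_sum, ← Finset.mul_sum, ← Finset.mul_sum,
    Finset.sum_range_reflect (fun t => θ ^ t) T]
  have h1 := lab_geom_le θ hθ0 hθ1 T
  have h2 := lab_geom_le ρ hρ0 hρ1 T
  have h3 : ∑ t ∈ Finset.range T, ρ ^ (t + 1) = ρ * ∑ t ∈ Finset.range T, ρ ^ t := by
    rw [Finset.mul_sum]
    apply Finset.sum_congr rfl
    intro t _
    ring
  rw [h3]
  have h4 : c0 * ∑ t ∈ Finset.range T, θ ^ t ≤ c0 * (1 / (1 - θ)) := mul_le_mul_of_nonneg_left h1 hc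
  have h5 : ρ * ∑ t ∈ Finset.range T, ρ ^ t ≤ ρ * (1 / (1 - ρ)) := mul_le_mul_of_nonneg_left h2 hρ0
  have e1 : c0 / (1 - θ) = c0 * (1 / (1 - θ)) := by ring
  have e2 : ρ / (1 - ρ) = ρ * (1 / (1 - ρ)) := by ring
  rw [e1, e2]
  linarith

theorem lab_lC_add_M (hp : p.Adm) (sd : Bool) (i t : ℕ) :
    lC p sd (i + p.M * t) = lC p sd i + p.M * t * p.b / 2 := by
  have hs := hp.hs
  have e : p.b * (i + 2000000 * p.s * t) = p.b * i + 2 * p.s * (1000000 * p.b * t) := by ring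
  have e2 : 2000000 * p.s * t * p.b / 2 = 1000000 * p.b * t * p.s := by
    rw [show 2000000 * p.s * t * p.b = 2 * (1000000 * p.b * t * p.s) by ring]
    exact Nat.mul_div_cancel_left _ (by norm_num)
  unfold lC Par.lA Par.lB Par.M
  rw [e, Nat.add_mul_div_left _ _ (show 0 < 2 * p.s by omega), Nat.add_mul_mod_self_left, e2,
    add_mul]
  cases sd
  · simp only [Bool.false_eq_true, if_false]; omega
  · simp only [if_true]; omega

theorem lab_ncard_exists {α : Type} [Finite α] (n : ℕ) (A : ℕ → α → Prop) :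
    Nat.card {x // ∃ t, t < n ∧ A t x} ≤ ∑ t ∈ Finset.range n, Nat.card {x // A t x} := by
  induction n with
  | zero =>
    rw [lab_ncard_false]
    · simp
    · rintro x ⟨t, ht, -⟩; omega
  | succ n ih =>
    rw [Finset.sum_range_succ]
    refine (lab_ncard_mono _ (fun x => (∃ t, t < n ∧ A t x) ∨ A n x) ?_).trans
      ((lab_ncard_or _ _).trans (Nat.add_le_add_right ih _))
    rintro x ⟨t, ht, hA⟩
    rcases Nat.lt_succ_iff_lt_or_eq.1 ht with h | h
    · exact Or.inl ⟨t, h, hA⟩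
    · exact Or.inr (h ▸ hA)

/-- length of the tested interval -/
def sepQ (p : Par) (i t : ℕ) : ℕ :=
  min (p.H (i - p.M * (t + 1)) / 2500) (p.M * (t + 1) * p.b / 2)

/-- a state deleted for separation fails one of the tests `t < i / M` -/
theorem lab_sepBad_cases (hp : p.Adm) (sd : Bool) (i : ℕ) (x : Layer p sd i) (hx : SepBad x.1) :
    ∃ t, t < i / p.M ∧ ∀ n, n < sepQ p i t → ubit x.1 (lC p sd (i - p.M * (t + 1)) + n) = 0 := by
  have hM := lab_M_pos hp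
  obtain ⟨i', h1, h2, h3⟩ := hx
  rw [x.2.1, x.2.2] at *
  have h4 : (i - i') % p.M = 0 := Nat.sub_mod_eq_zero_of_mod_eq h2.symm
  have h5 := Nat.div_add_mod (i - i') p.M
  rw [h4, add_zero] at h5
  have h6 : 0 < (i - i') / p.M := by
    rcases Nat.eq_zero_or_pos ((i - i') / p.M) with h0 | h0
    · rw [h0] at h5; omega
    · exact h0
  obtain ⟨t, ht⟩ : ∃ t, (i - i') / p.M = t + 1 := ⟨(i - i') / p.M - 1, by omega⟩
  rw [ht] at h5
  have h7 : i' = i - p.M * (t + 1) := by omega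
  refine ⟨t, ?_, ?_⟩
  · have : t + 1 ≤ i / p.M := by
      apply (Nat.le_div_iff_mul_le hM).2
      rw [mul_comm]; omega
    omega
  · intro n hn
    unfold sepQ at hn
    rw [← h7] at hn ⊢
    apply h3 n
    rw [← h5]
    exact hn

theorem lab_sep_test_count (hp : p.Adm) (sd : Bool) (i t : ℕ) (ht : t < i / p.M) :
    2 ^ sepQ p i t * Nat.card {x : Layer p sd i //
        ∀ n, n < sepQ p i t → ubit x.1 (lC p sd (i - p.M * (t + 1)) + n) = 0}
      ≤ Nat.card (Layer p sd i) := by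
  apply lab_card_zero_bits hp
  have hM := lab_M_pos hp
  have h1 : p.M * (t + 1) ≤ i := by
    have : t + 1 ≤ i / p.M := ht
    have := (Nat.le_div_iff_mul_le hM).1 this
    rwa [mul_comm] at this
  have h2 := lab_lC_add_M hp sd (i - p.M * (t + 1)) (t + 1)
  rw [Nat.sub_add_cancel h1] at h2
  rw [h2]
  apply Nat.add_le_add_left
  exact min_le_right _ _

theorem lab_sep_term1 (hp : p.Adm) (i t : ℕ) (ht : t < i / p.M) :
    (1 : ℝ) / 2 ^ (p.H (i - p.M * (t + 1)) / 2500) ≤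
      2 * ((2 : ℝ) ^ (-((p.H 0 : ℝ) / 2500)) * ((2 : ℝ) ^ (-((p.b : ℝ) / 2500))) ^ (i / p.M - 1 - t)) := by
  refine (lab_inv_pow_floor _).trans ?_
  apply mul_le_mul_of_nonneg_left _ (by norm_num)
  rw [← Real.rpow_natCast, ← Real.rpow_mul (by norm_num), ← Real.rpow_add (by norm_num)]
  apply Real.rpow_le_rpow_of_exponent_le (by norm_num)
  have hM := lab_M_pos hp
  have h1 : i / p.M - 1 - t ≤ i - p.M * (t + 1) := by
    have h2 : p.M * (i / p.M) ≤ i := Nat.mul_div_le i p.M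
    obtain ⟨c, hc⟩ : ∃ c, i / p.M = t + 1 + c := ⟨i / p.M - (t + 1), by omega⟩
    rw [hc] at h2 ⊢
    have h3 : p.M * (t + 1 + c) = p.M * (t + 1) + p.M * c := by ring
    have h4 : c ≤ p.M * c := Nat.le_mul_of_pos_left c hM
    omega
  have h2 : p.H 0 + p.b * (i / p.M - 1 - t) ≤ p.H (i - p.M * (t + 1)) := by
    unfold Par.H
    have := Nat.mul_le_mul_left p.b h1
    omega
  have h3 : (p.H 0 : ℝ) + (p.b : ℝ) * ((i / p.M - 1 - t : ℕ) : ℝ) ≤ (p.H (i - p.M * (t + 1)) : ℝ) := by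
    exact_mod_cast h2
  have e : -((p.H 0 : ℝ) / 2500) + -((p.b : ℝ) / 2500) * ((i / p.M - 1 - t : ℕ) : ℝ)
      = -(((p.H 0 : ℝ) + (p.b : ℝ) * ((i / p.M - 1 - t : ℕ) : ℝ)) / 2500) := by ring
  rw [e]
  apply neg_le_neg
  apply div_le_div_of_nonneg_right h3 (by norm_num)

theorem lab_sep_term2 (p : Par) (t : ℕ) :
    (1 : ℝ) / 2 ^ (p.M * (t + 1) * p.b / 2) = ((2 : ℝ) ^ (-((p.M * p.b : ℝ) / 2))) ^ (t + 1) := by
  have e2 : p.M * (t + 1) * p.b / 2 = 1000000 * p.s * p.b * (t + 1) := by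
    unfold Par.M
    rw [show 2000000 * p.s * (t + 1) * p.b = 2 * (1000000 * p.s * p.b * (t + 1)) by ring]
    exact Nat.mul_div_cancel_left _ (by norm_num)
  rw [e2, ← Real.rpow_natCast ((2 : ℝ) ^ (-((p.M * p.b : ℝ) / 2))), ← Real.rpow_mul (by norm_num),
    one_div, ← Real.rpow_natCast 2, ← Real.rpow_neg (by norm_num)]
  congr 1
  unfold Par.M
  push_cast
  ring

/-! ## L7: Lemma `separation-deletions` -/

/-- (2.19) uniform separation budget -/
theorem lab_sep_budget (hp : p.Adm) (sd : Bool) (i : ℕ) :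
    (Nat.card {x : Layer p sd i // SepBad x.1} : ℝ) ≤
      2 * ((2 : ℝ) ^ (-((p.M * p.b : ℝ) / 2)) / (1 - (2 : ℝ) ^ (-((p.M * p.b : ℝ) / 2)))
        + (2 : ℝ) ^ (-((p.H 0 : ℝ) / 2500)) / (1 - (2 : ℝ) ^ (-((p.b : ℝ) / 2500))))
      * Nat.card (Layer p sd i) := by
  haveI := lab_finite_layer hp sd i
  have hb : (0 : ℝ) < p.b := by exact_mod_cast hp.hb
  have hM : (0 : ℝ) < p.M := by exact_mod_cast lab_M_pos hp
  set ρ : ℝ := (2 : ℝ) ^ (-((p.M * p.b : ℝ) / 2)) with hρ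
  set c0 : ℝ := (2 : ℝ) ^ (-((p.H 0 : ℝ) / 2500)) with hc0
  set θ : ℝ := (2 : ℝ) ^ (-((p.b : ℝ) / 2500)) with hθ
  have hρ0 : 0 ≤ ρ := (Real.rpow_pos_of_pos (by norm_num) _).le
  have hc00 : 0 ≤ c0 := (Real.rpow_pos_of_pos (by norm_num) _).le
  have hθ0 : 0 ≤ θ := (Real.rpow_pos_of_pos (by norm_num) _).le
  have hρ1 : ρ < 1 := Real.rpow_lt_one_of_one_lt_of_neg (by norm_num) (by
    have : 0 < (p.M * p.b : ℝ) := mul_pos hM hb
    linarith)
  have hθ1 : θ < 1 := Real.rpow_lt_one_of_one_lt_of_neg (by norm_num) (by linarith)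
  have h1 : Nat.card {x : Layer p sd i // SepBad x.1} ≤
      ∑ t ∈ Finset.range (i / p.M), Nat.card {x : Layer p sd i //
        ∀ n, n < sepQ p i t → ubit x.1 (lC p sd (i - p.M * (t + 1)) + n) = 0} :=
    (lab_ncard_mono _ _ (fun x hx => lab_sepBad_cases hp sd i x hx)).trans
      (lab_ncard_exists (i / p.M) (fun t (x : Layer p sd i) =>
        ∀ n, n < sepQ p i t → ubit x.1 (lC p sd (i - p.M * (t + 1)) + n) = 0))
  have h2 : ∀ t ∈ Finset.range (i / p.M), (Nat.card {x : Layer p sd i //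
        ∀ n, n < sepQ p i t → ubit x.1 (lC p sd (i - p.M * (t + 1)) + n) = 0} : ℝ) ≤
      (2 * (c0 * θ ^ (i / p.M - 1 - t)) + 2 * ρ ^ (t + 1)) * Nat.card (Layer p sd i) := by
    intro t ht
    have ht' := Finset.mem_range.1 ht
    have h3 := lab_sep_test_count hp sd i t ht'
    have h4 : ((2 : ℝ) ^ sepQ p i t) * (Nat.card {x : Layer p sd i //
        ∀ n, n < sepQ p i t → ubit x.1 (lC p sd (i - p.M * (t + 1)) + n) = 0} : ℝ)
        ≤ Nat.card (Layer p sd i) := by exact_mod_cast h3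
    have h5 : (0 : ℝ) < 2 ^ sepQ p i t := by positivity
    have h6 : (Nat.card {x : Layer p sd i //
        ∀ n, n < sepQ p i t → ubit x.1 (lC p sd (i - p.M * (t + 1)) + n) = 0} : ℝ)
        ≤ (1 / 2 ^ sepQ p i t) * Nat.card (Layer p sd i) := by
      rw [one_div, ← div_eq_inv_mul, le_div_iff₀ h5, mul_comm]
      exact h4
    refine h6.trans (mul_le_mul_of_nonneg_right ?_ (Nat.cast_nonneg _))
    have h7 := lab_inv_pow_min (p.H (i - p.M * (t + 1)) / 2500) (p.M * (t + 1) * p.b / 2)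
    have h8 := lab_sep_term1 hp i t ht'
    have h9 := lab_sep_term2 p t
    have h10 : 0 ≤ ρ ^ (t + 1) := pow_nonneg hρ0 _
    unfold sepQ
    rw [h9] at h7
    linarith
  have h3 : (Nat.card {x : Layer p sd i // SepBad x.1} : ℝ) ≤
      ∑ t ∈ Finset.range (i / p.M), (Nat.card {x : Layer p sd i //
        ∀ n, n < sepQ p i t → ubit x.1 (lC p sd (i - p.M * (t + 1)) + n) = 0} : ℝ) := by
    exact_mod_cast h1
  refine h3.trans ((Finset.sum_le_sum h2).trans ?_)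
  rw [← Finset.sum_mul]
  exact mul_le_mul_of_nonneg_right (lab_sep_sum c0 θ ρ hc00 hθ0 hθ1 hρ0 hρ1 _) (Nat.cast_nonneg _)

/-- forces the on-demand equation lemmas of the definitions of this file to live here
(RULES.md, rule 6) -/
theorem lab_sep_eqns : True := by
  have := @sepQ.eq_1
  have := @sepQ.congr_simp
  trivial

end Claimed.Agent.R300.Lab
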