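/-
Row 300 / S0553 (INJ paper), Section 03_pruning: DEFINITIONS (owner: helper59).
Everything is measured in BLOCK UNITS of the zipper model of `LabDefs`:
* `Agree x x' K` : all raw blocks of index `< K` agree (aligned depth `K s` of the paper);
* a depth `K` is available at `x` when `K ≤ kap x.ht`, aligned when `x` owns the block `K - 1`;
* the margin is `μ` blocks; the band of `μ` consists of the heights with
  `21 μ s ≤ H ≤ 30 μ s` (so `M / H ∈ [1/30, 1/21]`; every integer `μ` is a band, which replaces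
  the geometric bands `T_k = H_0 (1.1)^k` of the paper at the cost of a polynomial factor);
* coherent return: `N + 2 μ ≤ 2 K`  (`h ≥ p s / 2 + M`).
Bicycles are replaced by thetas (see `HeisLaw.lean`: a Heisenberg law covers four times a theta or
two cyclically reduced closed walks, and the latter are excluded by the girth).
-/
import Claimed.Agent.R300.LabGate
import Claimed.Agent.R300.LabSep
import Claimed.Agent.R300.LabCard
import Claimed.Agent.R300.HeisLaw
import Claimed.Agent.R300.PrProb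

set_option autoImplicit false

namespace Claimed.Agent.R300.Pr

open Claimed.Agent.R300.Lab

variable {p : Par}

/-- all raw blocks of index `< K` agree -/
def Agree (x x' : Vtx p) (K : ℕ) : Prop := ∀ j, j < K → x.u j = x'.u j ∧ x.v j = x'.v j

/-- the walk `n ↦ vx (n + a)` -/
def shiftV (a : ℕ) (vx : ℕ → Vtx p) : ℕ → Vtx p := fun n => vx (n + a)
def shiftL (a : ℕ) (lb : ℕ → Label p × Bool) : ℕ → Label p × Bool := fun n => lb (n + a)

/-- Definition `def:coherent-return`, margin `μ` blocks. -/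
structure IsCohRet (cf : Coef p) (𝔗 : Tab p) (μ N : ℕ) (vx : ℕ → Vtx p)
    (lb : ℕ → Label p × Bool) : Prop where
  walk : IsWalk cf 𝔗 (Good cf 𝔗) N vx lb
  pos : 0 < N
  red : Reduced N lb
  band : ∀ n, n ≤ N → 21 * μ * p.s ≤ p.H (vx n).ht ∧ p.H (vx n).ht ≤ 30 * μ * p.s
  side : (vx 0).sd = (vx N).sd
  depth : ∃ K, 1 ≤ K ∧ own (vx 0).sd (K - 1) ∧ N + 2 * μ ≤ 2 * K ∧ K ≤ p.kap (vx 0).ht ∧
    K ≤ p.kap (vx N).ht ∧ Agree (vx 0) (vx N) K

/-- minimal coherent return: no proper contiguous subpath is a coherent return (same margin) -/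
def IsMinCohRet (cf : Coef p) (𝔗 : Tab p) (μ N : ℕ) (vx : ℕ → Vtx p)
    (lb : ℕ → Label p × Bool) : Prop :=
  IsCohRet cf 𝔗 μ N vx lb ∧
    ∀ a N', a + N' ≤ N → N' < N → ¬ IsCohRet cf 𝔗 μ N' (shiftV a vx) (shiftL a lb)

/-- first deletion: vertices on minimal coherent returns -/
def Del1 (cf : Coef p) (𝔗 : Tab p) (x : Vtx p) : Prop :=
  ∃ μ N vx lb, IsMinCohRet cf 𝔗 μ N vx lb ∧ ∃ n, n ≤ N ∧ vx n = x

/-- the vertex set of `X^(1)` -/
def X1 (cf : Coef p) (𝔗 : Tab p) (x : Vtx p) : Prop := Good cf 𝔗 x ∧ ¬ Del1 cf 𝔗 x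

/-- a theta inside the vertex set `S`: three walks from `vx 0 0` to `vx 0 (N 0)` -/
structure IsThetaW (cf : Coef p) (𝔗 : Tab p) (S : Vtx p → Prop) (N : Fin 3 → ℕ)
    (vx : Fin 3 → ℕ → Vtx p) (lb : Fin 3 → ℕ → Label p × Bool) : Prop where
  walk : ∀ i, IsWalk cf 𝔗 S (N i) (vx i) (lb i)
  pos : ∀ i, 0 < N i
  start : ∀ i, vx i 0 = vx 0 0
  stop : ∀ i, vx i (N i) = vx 0 (N 0)
  ne : vx 0 0 ≠ vx 0 (N 0)
  inj : ∀ i j n m, 0 < n → n < N i → 0 < m → m < N j → vx i n = vx j m → i = j ∧ n = m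
  inner : ∀ i n, 0 < n → n < N i → vx i n ≠ vx 0 0 ∧ vx i n ≠ vx 0 (N 0)
  first : ∀ i j, i ≠ j → lb i 0 ≠ lb j 0

/-- second deletion: vertices on thetas of `X^(1)` of length `< 1.52 m_i` for the height `i` of one
of their vertices (`m_i = H_i / log2 q`) -/
def Del2 (cf : Coef p) (𝔗 : Tab p) (x : Vtx p) : Prop :=
  ∃ N vx lb, IsThetaW cf 𝔗 (X1 cf 𝔗) N vx lb ∧ (∃ i n, n ≤ N i ∧ vx i n = x) ∧
    ∃ i n, n ≤ N i ∧ 100 * ((N 0 + N 1 + N 2) * p.lq) < 152 * p.H (vx i n).ht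

/-- the vertex set of `X_old` -/
def Xold (cf : Coef p) (𝔗 : Tab p) (x : Vtx p) : Prop := X1 cf 𝔗 x ∧ ¬ Del2 cf 𝔗 x

/-- holonomy of a walk for an assignment of group elements to the positive edges
(an edge = its A endpoint and its label) -/
def hol {Hh : Type*} [Group Hh] (φ : Vtx p × Label p → Hh) (N : ℕ) (vx : ℕ → Vtx p)
    (lb : ℕ → Label p × Bool) : Hh :=
  ((List.range N).map fun n =>
    if (lb n).2 = true then φ (vx n, (lb n).1) else (φ (vx (n + 1), (lb n).1))⁻¹).prod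

/-- the cells of the permutation tables -/
abbrev Cell (p : Par) (t : ℕ) (κ : Key p t) : Type := BV (tw κ.1 t)

/-! ### the law of the tables -/

/-- labels as tuples -/
def labelEquiv (p : Par) : Label p ≃ Fin p.T × Fin p.M × Fin p.d × BV p.b × BV p.r where
  toFun l := (l.ty, l.rho, l.j, l.e, l.h0)
  invFun x := ⟨x.1, x.2.1, x.2.2.1, x.2.2.2.1, x.2.2.2.2⟩
  left_inv _ := rfl
  right_inv _ := rfl

noncomputable instance instFintypeLabel (p : Par) : Fintype (Label p) :=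
  Fintype.ofEquiv _ (labelEquiv p).symm

noncomputable instance instDecEqLabel (p : Par) : DecidableEq (Label p) := Classical.decEq _

theorem pr_card_label (p : Par) :
    Fintype.card (Label p) = p.T * (p.M * (p.d * (2 ^ p.b * 2 ^ p.r))) := by
  rw [Fintype.card_congr (labelEquiv p)]
  simp [Fintype.card_prod, ZMod.card]

/-- **The interface to Section 02** (`prop:sequential-law`): a sequential law on the systems of
permutation tables (`Tab p` is definitionally `∀ t, ∀ κ : Key p t, Perm (Cell p t κ)`) with the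
domination property `eq:pruning-current-domination` with constant `ε`. -/
abbrev PLaw (p : Par) (ε : ℝ) : Type := PrProb.KeyLaw (Key p) (Cell p) ε

example (p : Par) : Tab p = (∀ t, ∀ κ : Key p t, Equiv.Perm (Cell p t κ)) := rfl

/-- centred gap `ρ` of every slice `(τ, h, e)` of every auxiliary incidence: the slice is the
`(d, D)`-biregular graph formed by the edges with labels of type `τ` and extra value `e`
(`prop:sequential-law`, gap part). -/
def SliceGap (cf : Coef p) (𝔗 : Tab p) (ρ : ℝ) : Prop :=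
  ∀ (τ : Fin p.T) (h : ℕ) (e : BV p.b) (f : Vtx p → ℝ),
    (∀ v, f v ≠ 0 → v.sd = true ∧ v.ht = p.bHt τ h ∧ (p.off τ = Off.up → xbits τ h v = e)) →
    ∑ᶠ v, f v = 0 →
    ∑ᶠ a : Vtx p, (∑ᶠ x : {x : Vtx p × Label p //
        IsEdge0 cf 𝔗 h a x.1 x.2 ∧ x.2.ty = τ ∧ x.2.e = e}, f x.1.1) ^ 2
      ≤ ρ ^ 2 * ((p.d : ℝ) * p.D) * ∑ᶠ v, f v ^ 2

/-- **What Section 03 and the final adapter consume from Section 02** (owner of the proof:
helper126).  The domination constant only has to be `≤ 1`. -/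
def ExpLawStmt : Prop :=
  ∃ b : ℕ, 1 ≤ b ∧ ∃ ρ : ℝ, 0 < ρ ∧ ρ < 1 ∧
    ∀ (T : ℕ) (off : Fin T → Off),
    ∃ s0 : ℕ, ∀ s : ℕ, s0 ≤ s → 20000 ∣ s → 5 * b ∣ s →
    ∃ n1 : ℕ, ∀ n0 : ℕ, n1 ≤ n0 → ∀ cf : Coef ⟨b, s, n0, T, off⟩, cf.Sep → cf.Mult →
    ∃ L : PLaw ⟨b, s, n0, T, off⟩ 1,
      ∀ 𝔗 : Tab ⟨b, s, n0, T, off⟩, (∀ t, 𝔗 t ∈ L.seq.G t 𝔗) → SliceGap cf 𝔗 ρ

end Claimed.Agent.R300.Pr
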