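/-
Row 300 / S0553 (INJ paper), Section 02_expansion, package EL-G (ElGap): the gap of every slice of every
auxiliary incidence from the good events of all sliced occurrences, in the form `Pr.SliceGap` consumed
by Section 03 (helper59).
Section owner: helper126.  Proofs: helper31 (table subtask, target row300, name EL-G).  Statements are frozen: ask helper126 before changing one.
`el_fib` (ElLevel.lean) may be used although it is still a `sorry` there (helper126 proves it).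

PROOF PLANS.
* `el_real0/1`: `el_edge0`, `el_edge1` (ElTab) with `ω := 𝔗 o.κ`; `Function.update 𝔗 o.κ (𝔗 o.κ) = 𝔗`
  (`Function.update_eq_self`; see `el_upd_self`, `el_upd_ne`, or use `el_edge0_gen`, `el_edge1_gen`).
* `el_gap_occ`: `exp_blk_gap (elP c 𝔗 o (!o.sd0)) (elP c 𝔗 o o.sd0) (deg p (!o.sd0)) (deg p o.sd0)
  (el_fib ..) (el_fib ..) _ _ γ h0 h1 (elSig o (𝔗 o.κ)) hgood` gives both directions.  Case `o.sd0 = true`: first
  part (`B`-role = side `true`), case `o.sd0 = false`: second part (`expIncAdj`).  (`generalize`/`cases` on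
  `o.sd0` needs care: state an auxiliary lemma for two sides `sd sd'` with `sd' = !sd`.)  Reindex
  `chInc` (sum over `e : o.K × o.C`) by `ecE o : o.K × o.C ≃ o.EC`.  `deg p false * deg p true = d * D`.
* `el_slice_gap`: fix `(τ, h, e, f)`.  If `p.off τ = Off.eq ∧ e ≠ 0` there is no edge (`IsEdge0.eeq`), the left
  side vanishes.  Otherwise `o := ⟨c.hp, τ, h, ⟨h % p.M, _⟩, rfl, e, _⟩`.  `∑ᶠ v, f v = ∑ y : o.XS true, f y.1` (support
  hypothesis; `isBig true τ ↔ p.off τ = Off.up`, `htOf true τ h = p.bHt τ h`), same for the squares.  Outer sum: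
  the inner sum vanishes unless `a` underlies some `x : o.XS false` (`el_isEdge_conv`), so it is a sum over
  `o.XS false`.  Inner sum: `{(b,l) // IsEdge0 .. a b l ∧ l.ty = τ ∧ l.e = e} ≃ {q : o.EC // ev c 𝔗 o q false = a}`
  by `el_isEdge`, `el_isEdge_conv`, injectivity: `el_bij` (or `lab_edge_coords`).
-/
import Claimed.Agent.R300.ElLevel
import Claimed.Agent.R300.PrDefs

set_option autoImplicit false

namespace Claimed.Agent.R300.El

open Claimed.Agent.R300.Lab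
open Classical

variable {p : Par}

/-- the realised edge `(k, w)`: endpoint on the side of the cutoff block -/
theorem el_real0 (c : Ctx p) (𝔗 : Tab p) (o : Occ p) (q : o.K × o.C) :
    ev c 𝔗 o (ecE o q) o.sd0 = elP c 𝔗 o o.sd0 q :=
  el_edge0_gen c 𝔗 (elBase 𝔗 o) o (fun i hi => (el_upd_ne 𝔗 o.κ _ i hi).symm) (ecE o q)

/-- the realised edge `(k, w)`: the other endpoint -/
theorem el_real1 (c : Ctx p) (𝔗 : Tab p) (o : Occ p) (q : o.K × o.C) :
    ev c 𝔗 o (ecE o q) (!o.sd0) = elP c 𝔗 o (!o.sd0) (q.1, elSig o (𝔗 o.κ) q.1 q.2) := by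
  obtain ⟨⟨j, x0, W⟩, w⟩ := q
  exact el_edge1_gen c 𝔗 (elBase 𝔗 o) o (fun i hi => (el_upd_ne 𝔗 o.κ _ i hi).symm) (𝔗 o.κ) rfl
    (el_upd_self 𝔗 o.κ _) j x0 W w

/-- reindexing of the edges of a slice by `(key, cluster coordinate)` -/
theorem el_sum_reindex (c : Ctx p) (𝔗 : Tab p) (o : Occ p) (s s' : Bool) (F : o.XS s → ℝ)
    (a : o.XS s') :
    ∑ q ∈ Finset.univ.filter (fun q : o.EC => ev c 𝔗 o q s' = a), F (ev c 𝔗 o q s)
      = ∑ e ∈ Finset.univ.filter (fun e : o.K × o.C => ev c 𝔗 o (ecE o e) s' = a),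
          F (ev c 𝔗 o (ecE o e) s) := by
  symm
  refine Finset.sum_equiv (ecE o) ?_ ?_
  · intro e
    simp only [Finset.mem_filter, Finset.mem_univ, true_and]
  · intro e _
    rfl

/-- the gap of one sliced occurrence in both directions, sides named by the cutoff block -/
theorem el_gap_aux (c : Ctx p) (𝔗 : Tab p) (o : Occ p) (γ : ℝ) (h0 : 0 ≤ γ) (h1 : γ ≤ 1)
    (hgood : elGood c 𝔗 o γ (𝔗 o.κ)) :
    (∀ f : o.XS o.sd0 → ℝ, ∑ y, f y = 0 →
      ∑ a : o.XS (!o.sd0), (∑ q ∈ Finset.univ.filter (fun q : o.EC => ev c 𝔗 o q (!o.sd0) = a),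
        f (ev c 𝔗 o q o.sd0)) ^ 2
      ≤ (1 - γ ^ 2 / 2) ^ 2 * ((p.d : ℝ) * p.D) * ∑ y, f y ^ 2) ∧
    (∀ g : o.XS (!o.sd0) → ℝ, ∑ y, g y = 0 →
      ∑ b : o.XS o.sd0, (∑ q ∈ Finset.univ.filter (fun q : o.EC => ev c 𝔗 o q o.sd0 = b),
        g (ev c 𝔗 o q (!o.sd0))) ^ 2
      ≤ (1 - γ ^ 2 / 2) ^ 2 * ((p.d : ℝ) * p.D) * ∑ y, g y ^ 2) := by
  have key := exp_blk_gap (elP c 𝔗 o (!o.sd0)) (elP c 𝔗 o o.sd0) (deg p (!o.sd0)) (deg p o.sd0)
    (el_fib c 𝔗 o (!o.sd0)) (el_fib c 𝔗 o o.sd0) (el_deg_pos p _) (el_deg_pos p _) γ h0 h1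
    (elSig o (𝔗 o.κ)) hgood
  have h2 : ((deg p (!o.sd0) : ℝ)) * (deg p o.sd0 : ℝ) = (p.d : ℝ) * p.D := by
    have := el_deg_mul p (!o.sd0)
    rw [Bool.not_not] at this
    exact_mod_cast this
  rw [h2] at key
  constructor
  · intro f hf
    refine le_trans (le_of_eq ?_) (key.1 f hf)
    refine Finset.sum_congr rfl fun a _ => ?_
    congr 1
    rw [el_sum_reindex]
    unfold expInc chInc
    refine Finset.sum_congr ?_ ?_
    · ext e
      simp only [Finset.mem_filter, Finset.mem_univ, true_and]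
      rw [el_real1]
    · intro e _
      rw [el_real0]
  · intro g hg
    refine le_trans (le_of_eq ?_) (key.2 g hg)
    refine Finset.sum_congr rfl fun b _ => ?_
    congr 1
    rw [el_sum_reindex]
    unfold expIncAdj chInc
    refine Finset.sum_congr ?_ ?_
    · ext e
      simp only [Finset.mem_filter, Finset.mem_univ, true_and]
      rw [el_real0]
    · intro e _
      rw [el_real1]

/-- the gap of one sliced occurrence, in edge coordinates -/
theorem el_gap_occ (c : Ctx p) (𝔗 : Tab p) (o : Occ p) (γ : ℝ) (h0 : 0 ≤ γ) (h1 : γ ≤ 1)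
    (hgood : elGood c 𝔗 o γ (𝔗 o.κ)) (f : o.XS true → ℝ) (hf : ∑ y, f y = 0) :
    ∑ a : o.XS false, (∑ q ∈ Finset.univ.filter (fun q : o.EC => ev c 𝔗 o q false = a),
        f (ev c 𝔗 o q true)) ^ 2
      ≤ (1 - γ ^ 2 / 2) ^ 2 * ((p.d : ℝ) * p.D) * ∑ y, f y ^ 2 := by
  have key := el_gap_aux c 𝔗 o γ h0 h1 hgood
  have gen : ∀ sd : Bool,
      ((∀ f : o.XS sd → ℝ, ∑ y, f y = 0 →
        ∑ a : o.XS (!sd), (∑ q ∈ Finset.univ.filter (fun q : o.EC => ev c 𝔗 o q (!sd) = a),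
          f (ev c 𝔗 o q sd)) ^ 2
        ≤ (1 - γ ^ 2 / 2) ^ 2 * ((p.d : ℝ) * p.D) * ∑ y, f y ^ 2) ∧
      (∀ g : o.XS (!sd) → ℝ, ∑ y, g y = 0 →
        ∑ b : o.XS sd, (∑ q ∈ Finset.univ.filter (fun q : o.EC => ev c 𝔗 o q sd = b),
          g (ev c 𝔗 o q (!sd))) ^ 2
        ≤ (1 - γ ^ 2 / 2) ^ 2 * ((p.d : ℝ) * p.D) * ∑ y, g y ^ 2)) →
      ∀ f : o.XS true → ℝ, ∑ y, f y = 0 →
        ∑ a : o.XS false, (∑ q ∈ Finset.univ.filter (fun q : o.EC => ev c 𝔗 o q false = a),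
          f (ev c 𝔗 o q true)) ^ 2
        ≤ (1 - γ ^ 2 / 2) ^ 2 * ((p.d : ℝ) * p.D) * ∑ y, f y ^ 2 := by
    intro sd
    cases sd
    · exact fun h => h.2
    · exact fun h => h.1
  exact gen o.sd0 key f hf

theorem el_finsum_sub {α : Type*} (P : α → Prop) [Fintype (Subtype P)] (f : α → ℝ)
    (h : ∀ v, f v ≠ 0 → P v) : ∑ᶠ v, f v = ∑ y : Subtype P, f y.1 := by
  rw [← finsum_eq_sum_of_fintype, finsum_subtype_eq_finsum_cond]
  refine finsum_congr fun v => ?_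
  rw [finsum_eq_if]
  split_ifs with hv
  · rfl
  · by_contra hne
    exact hv (h v hne)

theorem el_finsum_filter {α : Type*} [Fintype α] (P : α → Prop) (F : α → ℝ) :
    ∑ᶠ q : Subtype P, F q.1 = ∑ q ∈ Finset.univ.filter P, F q := by
  rw [finsum_subtype_eq_finsum_cond, Finset.sum_filter, ← finsum_eq_sum_of_fintype]
  refine finsum_congr fun v => ?_
  rw [finsum_eq_if]

/-- the edges of the slice at `a` in edge coordinates -/
theorem el_inner (c : Ctx p) (𝔗 : Tab p) (o : Occ p) (f : Vtx p → ℝ) (a : o.XS false) :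
    ∑ᶠ x : {x : Vtx p × Label p // IsEdge0 c.cf 𝔗 o.h a.1 x.1 x.2 ∧ x.2.ty = o.τ ∧ x.2.e = o.e},
        f x.1.1
      = ∑ q ∈ Finset.univ.filter (fun q : o.EC => ev c 𝔗 o q false = a), f (ev c 𝔗 o q true).1 := by
  rw [← el_finsum_filter (fun q : o.EC => ev c 𝔗 o q false = a) (fun q => f (ev c 𝔗 o q true).1)]
  symm
  refine finsum_eq_of_bijective
    (fun q : {q : o.EC // ev c 𝔗 o q false = a} =>
      (⟨((ev c 𝔗 o q.1 true).1, o.lab q.1.1 q.1.2.1), by
        have h := el_isEdge c 𝔗 o q.1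
        rw [q.2] at h
        exact ⟨h, rfl, rfl⟩⟩ :
        {x : Vtx p × Label p // IsEdge0 c.cf 𝔗 o.h a.1 x.1 x.2 ∧ x.2.ty = o.τ ∧ x.2.e = o.e}))
    ⟨?_, ?_⟩ (fun q => rfl)
  · intro q q' h
    have h' := congrArg Subtype.val h
    have h1 : (ev c 𝔗 o q.1 true).1 = (ev c 𝔗 o q'.1 true).1 := congrArg Prod.fst h'
    have h2 : o.lab q.1.1 q.1.2.1 = o.lab q'.1.1 q'.1.2.1 := congrArg Prod.snd h'
    have e1 : q.1.1 = q'.1.1 := congrArg Label.j h2
    have e2 : q.1.2.1 = q'.1.2.1 := congrArg Label.h0 h2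
    apply Subtype.ext
    apply (el_bij c 𝔗 o true).1
    refine Prod.ext (Subtype.ext h1) ?_
    show sl o true q.1 = sl o true q'.1
    unfold sl
    simp only [e1, e2]
    rfl
  · rintro ⟨⟨b, l⟩, he, hτ, hl⟩
    obtain ⟨q, h1, h2, h3⟩ := el_isEdge_conv c 𝔗 o a.1 b l he hτ hl
    refine ⟨⟨q, Subtype.ext h1.symm⟩, ?_⟩
    apply Subtype.ext
    exact Prod.ext h2.symm h3.symm

/-- **the gap of all slices** -/
theorem el_slice_gap (c : Ctx p) (𝔗 : Tab p) (γ : ℝ) (h0 : 0 ≤ γ) (h1 : γ ≤ 1)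
    (hgood : ∀ o : Occ p, elGood c 𝔗 o γ (𝔗 o.κ)) : Pr.SliceGap c.cf 𝔗 (1 - γ ^ 2 / 2) := by
  intro τ h e f hsupp hsum
  by_cases hcase : p.off τ = Off.eq → e = 0
  · set o : Occ p := ⟨c.hp, τ, h, ⟨h % p.M, Nat.mod_lt _ (lab_M_pos c.hp)⟩, rfl, e, hcase⟩ with ho
    have hP : ∀ v, f v ≠ 0 →
        v.sd = true ∧ v.ht = htOf true o.τ o.h ∧ (isBig true o.τ → xbits o.τ o.h v = o.e) := by
      intro v hv
      obtain ⟨a1, a2, a3⟩ := hsupp v hv
      refine ⟨a1, a2, fun hb => a3 ?_⟩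
      rcases hb with ⟨hb, -⟩ | ⟨-, hb⟩
      · exact absurd hb (by simp)
      · exact hb
    have s1 : ∑ᶠ v, f v = ∑ y : o.XS true, f y.1 :=
      @el_finsum_sub _ (fun v : Vtx p =>
        v.sd = true ∧ v.ht = htOf true o.τ o.h ∧ (isBig true o.τ → xbits o.τ o.h v = o.e))
        (Occ.instFintypeXS o true) f hP
    have s2 : ∑ᶠ v, f v ^ 2 = ∑ y : o.XS true, f y.1 ^ 2 :=
      @el_finsum_sub _ (fun v : Vtx p =>
        v.sd = true ∧ v.ht = htOf true o.τ o.h ∧ (isBig true o.τ → xbits o.τ o.h v = o.e))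
        (Occ.instFintypeXS o true) (fun v => f v ^ 2)
        (fun v hv => hP v (fun h0 => hv (by simp [h0])))
    have s3 : ∑ᶠ a : Vtx p, (∑ᶠ x : {x : Vtx p × Label p //
          IsEdge0 c.cf 𝔗 h a x.1 x.2 ∧ x.2.ty = τ ∧ x.2.e = e}, f x.1.1) ^ 2
        = ∑ a : o.XS false, (∑ᶠ x : {x : Vtx p × Label p //
          IsEdge0 c.cf 𝔗 h a.1 x.1 x.2 ∧ x.2.ty = τ ∧ x.2.e = e}, f x.1.1) ^ 2 := by
      refine @el_finsum_sub _ (fun v : Vtx p =>
        v.sd = false ∧ v.ht = htOf false o.τ o.h ∧ (isBig false o.τ → xbits o.τ o.h v = o.e))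
        (Occ.instFintypeXS o false) (fun a : Vtx p => (∑ᶠ x : {x : Vtx p × Label p //
          IsEdge0 c.cf 𝔗 h a x.1 x.2 ∧ x.2.ty = τ ∧ x.2.e = e}, f x.1.1) ^ 2) ?_
      intro a ha
      by_contra hcon
      apply ha
      have hE : IsEmpty {x : Vtx p × Label p //
          IsEdge0 c.cf 𝔗 h a x.1 x.2 ∧ x.2.ty = τ ∧ x.2.e = e} := by
        refine ⟨?_⟩
        rintro ⟨⟨b, l⟩, he, hτ, hl⟩
        obtain ⟨q, h1, -, -⟩ := el_isEdge_conv c 𝔗 o a b l he hτ hl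
        apply hcon
        rw [h1]
        exact (ev c 𝔗 o q false).2
      rw [finsum_of_isEmpty]
      simp
    rw [s2, s3]
    rw [s1] at hsum
    have key := el_gap_occ c 𝔗 o γ h0 h1 (hgood o) (fun y => f y.1) hsum
    refine le_trans (le_of_eq ?_) key
    refine Finset.sum_congr rfl fun a _ => ?_
    congr 1
    exact el_inner c 𝔗 o f a
  · have hz : ∀ a : Vtx p, (∑ᶠ x : {x : Vtx p × Label p //
          IsEdge0 c.cf 𝔗 h a x.1 x.2 ∧ x.2.ty = τ ∧ x.2.e = e}, f x.1.1) ^ 2 = 0 := by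
      intro a
      have hE : IsEmpty {x : Vtx p × Label p //
          IsEdge0 c.cf 𝔗 h a x.1 x.2 ∧ x.2.ty = τ ∧ x.2.e = e} := by
        refine ⟨?_⟩
        rintro ⟨⟨b, l⟩, he, hτ, hl⟩
        apply hcase
        intro hoff
        have := he.eeq
        simp only at hτ hl
        rw [hτ, hl] at this
        exact this hoff
      rw [finsum_of_isEmpty]
      simp
    rw [finsum_congr hz, finsum_zero]
    exact mul_nonneg (by positivity) (finsum_nonneg fun v => sq_nonneg _)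

end Claimed.Agent.R300.El
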