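/-
R300 shared expansion library, part X7 (package EL-F1): DOMINATION on finite product spaces.
Section owner: helper126.  The `sorry`s are replaced IN PLACE by the owner of the package
(table subtask, target row300, name EL-F1).  Statements are frozen: ask helper126 before changing one.

`Ω = ∀ i, Ωk i` with the counting measure (`expCnt` of ExpLLL.lean).  `ExpDom ε D G`: conditioning on the
event `G` multiplies the probability of an event depending on the coordinates in `S` by at most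
`exp (ε |S ∩ D|)`.  Events with disjoint supports multiply (`exp_dom_inter`, `exp_dom_family`), and the
domination of a block `K → Ω'` (`exp_blk_inflation` of ExpMain.lean) is transported along an injective
map of the keys `ι : K → I` and identifications of the cells (`exp_dom_transfer`).

PROOF PLANS.
* `exp_dom_inter`: `N = |Ω|`.  (1) `h'` for the event `F ∧ G` (depends on `S ∪ D`, `(S ∪ D) ∩ D' = S ∩ D'`);
  (2) `h` for `F`; (3) `expCnt_indep G G' D`: `cnt (G ∧ G') N = cnt G cnt G'`.  Multiply, divide by `N`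
  (`N = 0`: all counts vanish).  `|S ∩ D| + |S ∩ D'| = |S ∩ (D ∪ D')|`.
* `exp_dom_family`, `exp_pos_family`: induction on the finset `s` (`Finset.induction_on`), carrying `ExpDep`.
  For `exp_pos_family` glue with `expMix`.
* `exp_dom_transfer`: `Φ : Ω ≃ (K → Ω') × R`, `R = ∀ i : {i // i ∉ Set.range ι}, Ωk i`
  (`Equiv.piEquivPiSubtypeProd`, `Equiv.ofInjective`, `Equiv.piCongr`), or directly: sum over the
  coordinates outside the range.  For a fixed rest `z` the event `F (Φ.symm (·, z))` depends on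
  `sF = S.preimage ι`, `|sF| = |S ∩ image ι|`.  Sum the hypothesis over `z`;
  `cnt G = cnt G' |R|`, `|Ω| = |K → Ω'| |R|`.
-/
import Claimed.Agent.R300.ExpLLL

set_option autoImplicit false
set_option linter.unusedSectionVars false

namespace Claimed.Agent.R300

open Finset

section dom

variable {I : Type*} [DecidableEq I] [Fintype I] {Ωk : I → Type*} [∀ i, Fintype (Ωk i)]

/-- `F` only depends on the coordinates in `S`. -/
def ExpDep (S : Finset I) (F : (∀ i, Ωk i) → Prop) : Prop :=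
  ∀ ω ω' : ∀ i, Ωk i, (∀ i ∈ S, ω i = ω' i) → (F ω ↔ F ω')

/-- Conditioning on `G` inflates events depending on `S` by at most `exp (ε |S ∩ D|)`. -/
def ExpDom (ε : ℝ) (D : Finset I) (G : (∀ i, Ωk i) → Prop) : Prop :=
  ∀ (S : Finset I) (F : (∀ i, Ωk i) → Prop), ExpDep S F →
    expCnt (fun ω => F ω ∧ G ω) * (Fintype.card (∀ i, Ωk i) : ℝ)
      ≤ Real.exp (ε * ((S ∩ D).card : ℝ)) * (expCnt F * expCnt G)

theorem expCnt_card_dec (P : (∀ i, Ωk i) → Prop) [DecidablePred P] :
    expCnt P = ((univ.filter P).card : ℝ) := by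
  unfold expCnt expMass
  simp only
  rw [Finset.sum_boole]

theorem expCnt_nonneg (P : (∀ i, Ωk i) → Prop) : 0 ≤ expCnt P :=
  expMass_nonneg _ (fun _ => zero_le_one) P

theorem expCnt_congr {P Q : (∀ i, Ωk i) → Prop} (h : ∀ ω, P ω ↔ Q ω) : expCnt P = expCnt Q :=
  expMass_congr _ h

theorem expCnt_true : expCnt (fun _ : ∀ i, Ωk i => True) = (Fintype.card (∀ i, Ωk i) : ℝ) := by
  unfold expCnt
  rw [expMass_true]
  simp

theorem ExpDom.congr {ε : ℝ} {D D' : Finset I} {G G' : (∀ i, Ωk i) → Prop} (hD : D = D')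
    (h : ∀ ω, G ω ↔ G' ω) (hG : ExpDom ε D G) : ExpDom ε D' G' := by
  have : G = G' := funext fun ω => propext (h ω)
  rw [← hD, ← this]
  exact hG

theorem ExpDep.and {S S' : Finset I} {F F' : (∀ i, Ωk i) → Prop} (hF : ExpDep S F)
    (hF' : ExpDep S' F') : ExpDep (S ∪ S') (fun ω => F ω ∧ F' ω) := by
  intro ω ω' h
  show (F ω ∧ F' ω) ↔ (F ω' ∧ F' ω')
  rw [hF ω ω' fun i hi => h i (Finset.mem_union_left _ hi),
    hF' ω ω' fun i hi => h i (Finset.mem_union_right _ hi)]

theorem ExpDep.mono {S S' : Finset I} (h : S ⊆ S') {F : (∀ i, Ωk i) → Prop} (hF : ExpDep S F) :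
    ExpDep S' F := fun ω ω' hω => hF ω ω' fun i hi => hω i (h hi)

theorem ExpDom.mono {ε ε' : ℝ} (h : ε ≤ ε') {D : Finset I} {G : (∀ i, Ωk i) → Prop}
    (hG : ExpDom ε D G) : ExpDom ε' D G := by
  intro S F hF
  refine (hG S F hF).trans ?_
  apply mul_le_mul_of_nonneg_right _ (mul_nonneg (expCnt_nonneg _) (expCnt_nonneg _))
  exact Real.exp_le_exp.2 (mul_le_mul_of_nonneg_right h (Nat.cast_nonneg _))

theorem exp_dom_true (ε : ℝ) : ExpDom ε (∅ : Finset I) (fun _ : ∀ i, Ωk i => True) := by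
  intro S F _
  rw [Finset.inter_empty, Finset.card_empty, Nat.cast_zero, mul_zero, Real.exp_zero, one_mul,
    expCnt_true, expCnt_congr (Q := F) fun ω => ⟨fun h => h.1, fun h => ⟨h, trivial⟩⟩]

/-- Two events with disjoint supports. -/
theorem exp_dom_inter (ε : ℝ) (D D' : Finset I) (hdisj : Disjoint D D')
    (G G' : (∀ i, Ωk i) → Prop) (hG : ExpDep D G) (hG' : ExpDep D' G')
    (h : ExpDom ε D G) (h' : ExpDom ε D' G') : ExpDom ε (D ∪ D') (fun ω => G ω ∧ G' ω) := by
  intro S F hF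
  set N : ℝ := (Fintype.card (∀ i, Ωk i) : ℝ) with hN
  have hN0 : 0 ≤ N := Nat.cast_nonneg _
  have e1 := h' (S ∪ D) (fun ω => F ω ∧ G ω) (hF.and hG)
  have hS1 : (S ∪ D) ∩ D' = S ∩ D' := by
    rw [Finset.union_inter_distrib_right, Finset.disjoint_iff_inter_eq_empty.1 hdisj,
      Finset.union_empty]
  rw [hS1] at e1
  have e2 := h S F hF
  have e3 := expCnt_indep G G' D hG (fun ω ω' hω => hG' ω ω' fun i hi =>
    hω i (Finset.disjoint_right.1 hdisj hi))
  have hcard : ((S ∩ (D ∪ D')).card : ℝ) = ((S ∩ D).card : ℝ) + ((S ∩ D').card : ℝ) := by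
    rw [Finset.inter_union_distrib_left, Finset.card_union_of_disjoint, Nat.cast_add]
    exact Finset.disjoint_of_subset_left Finset.inter_subset_right
      (Finset.disjoint_of_subset_right Finset.inter_subset_right hdisj)
  rw [hcard, mul_add, Real.exp_add]
  have e4 : expCnt (fun ω => F ω ∧ G ω ∧ G' ω) = expCnt (fun ω => (F ω ∧ G ω) ∧ G' ω) :=
    expCnt_congr fun ω => (and_assoc).symm
  rw [e4]
  rcases hN0.eq_or_lt with h0 | hpos
  · rw [← h0, mul_zero]
    exact mul_nonneg (by positivity) (mul_nonneg (expCnt_nonneg _) (expCnt_nonneg _))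
  · refine le_of_mul_le_mul_right ?_ hpos
    set a := Real.exp (ε * ((S ∩ D).card : ℝ)) with ha
    set a' := Real.exp (ε * ((S ∩ D').card : ℝ)) with ha'
    have ha0 : 0 ≤ a := (Real.exp_pos _).le
    have ha'0 : 0 ≤ a' := (Real.exp_pos _).le
    calc expCnt (fun ω => (F ω ∧ G ω) ∧ G' ω) * N * N
        ≤ a' * (expCnt (fun ω => F ω ∧ G ω) * expCnt G') * N :=
          mul_le_mul_of_nonneg_right e1 hN0
      _ = a' * expCnt G' * (expCnt (fun ω => F ω ∧ G ω) * N) := by ring
      _ ≤ a' * expCnt G' * (a * (expCnt F * expCnt G)) :=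
          mul_le_mul_of_nonneg_left e2 (mul_nonneg ha'0 (expCnt_nonneg _))
      _ = a * a' * (expCnt F * (expCnt G * expCnt G')) := by ring
      _ = a * a' * (expCnt F * expCnt fun ω => G ω ∧ G' ω) * N := by rw [← e3]; ring

/-- A finite family of events with pairwise disjoint supports. -/
theorem exp_dom_family {J : Type*} [DecidableEq J] (ε : ℝ) (s : Finset J) (D : J → Finset I)
    (G : J → (∀ i, Ωk i) → Prop)
    (hdisj : ∀ j ∈ s, ∀ j' ∈ s, j ≠ j' → Disjoint (D j) (D j'))
    (hdep : ∀ j ∈ s, ExpDep (D j) (G j)) (hdom : ∀ j ∈ s, ExpDom ε (D j) (G j)) :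
    ExpDom ε (s.biUnion D) (fun ω => ∀ j ∈ s, G j ω) := by
  suffices H : ExpDep (s.biUnion D) (fun ω => ∀ j ∈ s, G j ω) ∧
      ExpDom ε (s.biUnion D) (fun ω => ∀ j ∈ s, G j ω) from H.2
  induction s using Finset.induction_on with
  | empty =>
    refine ⟨fun ω ω' _ => by simp, ?_⟩
    exact (exp_dom_true ε).congr (by simp) (fun ω => by simp)
  | insert a s ha ih =>
    obtain ⟨ih1, ih2⟩ := ih
      (fun j hj j' hj' => hdisj j (Finset.mem_insert_of_mem hj) j' (Finset.mem_insert_of_mem hj'))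
      (fun j hj => hdep j (Finset.mem_insert_of_mem hj))
      (fun j hj => hdom j (Finset.mem_insert_of_mem hj))
    have hd : Disjoint (D a) (s.biUnion D) := by
      rw [Finset.disjoint_biUnion_right]
      intro j hj
      exact hdisj a (Finset.mem_insert_self _ _) j (Finset.mem_insert_of_mem hj)
        (fun h => ha (h ▸ hj))
    have hda := hdep a (Finset.mem_insert_self _ _)
    constructor
    · have := hda.and ih1
      rw [Finset.biUnion_insert]
      intro ω ω' h
      show (∀ j ∈ insert a s, G j ω) ↔ (∀ j ∈ insert a s, G j ω')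
      rw [Finset.forall_mem_insert, Finset.forall_mem_insert]
      exact this ω ω' h
    · exact (exp_dom_inter ε _ _ hd _ _ hda ih1 (hdom a (Finset.mem_insert_self _ _)) ih2).congr
        (Finset.biUnion_insert).symm (fun ω => (Finset.forall_mem_insert _ _ _).symm)

/-- Events with pairwise disjoint supports which are all possible are jointly possible. -/
theorem exp_pos_family {J : Type*} [DecidableEq J] (s : Finset J) (D : J → Finset I)
    (G : J → (∀ i, Ωk i) → Prop) [Nonempty (∀ i, Ωk i)]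
    (hdisj : ∀ j ∈ s, ∀ j' ∈ s, j ≠ j' → Disjoint (D j) (D j'))
    (hdep : ∀ j ∈ s, ExpDep (D j) (G j)) (hpos : ∀ j ∈ s, ∃ ω, G j ω) :
    ∃ ω, ∀ j ∈ s, G j ω := by
  induction s using Finset.induction_on with
  | empty => exact ⟨Classical.arbitrary _, by simp⟩
  | insert a s ha ih =>
    obtain ⟨ω₂, h₂⟩ := ih
      (fun j hj j' hj' => hdisj j (Finset.mem_insert_of_mem hj) j' (Finset.mem_insert_of_mem hj'))
      (fun j hj => hdep j (Finset.mem_insert_of_mem hj))
      (fun j hj => hpos j (Finset.mem_insert_of_mem hj))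
    obtain ⟨ω₁, h₁⟩ := hpos a (Finset.mem_insert_self _ _)
    refine ⟨expMix (D a) ω₁ ω₂, ?_⟩
    rw [Finset.forall_mem_insert]
    constructor
    · refine (hdep a (Finset.mem_insert_self _ _) _ ω₁ fun i hi => ?_).2 h₁
      simp [expMix, hi]
    · intro j hj
      refine (hdep j (Finset.mem_insert_of_mem hj) _ ω₂ fun i hi => ?_).2 (h₂ j hj)
      have hd := hdisj a (Finset.mem_insert_self _ _) j (Finset.mem_insert_of_mem hj)
        (fun h => ha (h ▸ hj))
      simp [expMix, Finset.disjoint_right.1 hd hi]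

/-- The form of the domination used in `PrProb.KeyLaw.dom`. -/
theorem exp_dom_card (ε : ℝ) (hε : 0 ≤ ε) (D : Finset I) (G : (∀ i, Ωk i) → Prop) [DecidablePred G]
    (h : ExpDom ε D G) (S : Finset I) (F : (∀ i, Ωk i) → Prop) [DecidablePred F]
    (hF : ∀ ω ω' : ∀ i, Ωk i, (∀ i ∈ S, ω i = ω' i) → (F ω ↔ F ω')) :
    ((((univ.filter G).filter F).card : ℝ)) * (Fintype.card (∀ i, Ωk i) : ℝ)
      ≤ Real.exp (ε * S.card) * (((univ.filter F).card : ℝ) * ((univ.filter G).card : ℝ)) := by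
  have e1 := h S F hF
  rw [expCnt_card_dec, expCnt_card_dec F, expCnt_card_dec G] at e1
  have e2 : (univ.filter G).filter F = univ.filter (fun ω => F ω ∧ G ω) := by
    rw [Finset.filter_filter]
    exact Finset.filter_congr fun ω _ => and_comm
  rw [e2]
  refine e1.trans ?_
  apply mul_le_mul_of_nonneg_right _ (by positivity)
  apply Real.exp_le_exp.2
  apply mul_le_mul_of_nonneg_left _ hε
  exact_mod_cast Finset.card_le_card Finset.inter_subset_left

variable {K Ω' : Type*} [Fintype K] [DecidableEq K] [Fintype Ω']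

theorem exp_dep_transfer (ι : K → I) (e : ∀ k, Ωk (ι k) ≃ Ω') (G' : (K → Ω') → Prop) :
    ExpDep (univ.image ι) (fun ω : ∀ i, Ωk i => G' (fun k => e k (ω (ι k)))) := by
  intro ω ω' h
  have : (fun k => e k (ω (ι k))) = fun k => e k (ω' (ι k)) := by
    funext k
    rw [h (ι k) (Finset.mem_image_of_mem _ (Finset.mem_univ k))]
  simp only [this]

open Classical in
/-- splitting of a configuration into the block and the rest -/
noncomputable def expTrEquiv (ι : K → I) (hι : Function.Injective ι) (e : ∀ k, Ωk (ι k) ≃ Ω') :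
    (∀ i, Ωk i) ≃ (K → Ω') × (∀ i : {i // ¬ i ∈ Set.range ι}, Ωk i) :=
  (Equiv.piEquivPiSubtypeProd (fun i => i ∈ Set.range ι) Ωk).trans
    (Equiv.prodCongr
      (((Equiv.piCongrLeft (fun b : {i // i ∈ Set.range ι} => Ωk b)
        (Equiv.ofInjective ι hι)).symm).trans (Equiv.piCongrRight e)) (Equiv.refl _))

theorem expTrEquiv_fst (ι : K → I) (hι : Function.Injective ι) (e : ∀ k, Ωk (ι k) ≃ Ω')
    (ω : ∀ i, Ωk i) (k : K) : (expTrEquiv ι hι e ω).1 k = e k (ω (ι k)) := rfl

theorem expTrEquiv_snd (ι : K → I) (hι : Function.Injective ι) (e : ∀ k, Ωk (ι k) ≃ Ω')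
    (ω : ∀ i, Ωk i) (i : {i // ¬ i ∈ Set.range ι}) : (expTrEquiv ι hι e ω).2 i = ω i.1 := rfl

theorem expTrEquiv_symm_block (ι : K → I) (hι : Function.Injective ι) (e : ∀ k, Ωk (ι k) ≃ Ω')
    (σ : K → Ω') (z : ∀ i : {i // ¬ i ∈ Set.range ι}, Ωk i) (k : K) :
    e k ((expTrEquiv ι hι e).symm (σ, z) (ι k)) = σ k := by
  rw [← expTrEquiv_fst ι hι e, Equiv.apply_symm_apply]

theorem expTrEquiv_symm_rest (ι : K → I) (hι : Function.Injective ι) (e : ∀ k, Ωk (ι k) ≃ Ω')
    (σ : K → Ω') (z : ∀ i : {i // ¬ i ∈ Set.range ι}, Ωk i) (i : {i // ¬ i ∈ Set.range ι}) :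
    (expTrEquiv ι hι e).symm (σ, z) i.1 = z i := by
  rw [← expTrEquiv_snd ι hι e ((expTrEquiv ι hι e).symm (σ, z)) i, Equiv.apply_symm_apply]

theorem exp_pos_transfer [Nonempty (∀ i, Ωk i)] (ι : K → I) (hι : Function.Injective ι)
    (e : ∀ k, Ωk (ι k) ≃ Ω') (G' : (K → Ω') → Prop) (h : ∃ σ, G' σ) :
    ∃ ω : ∀ i, Ωk i, G' (fun k => e k (ω (ι k))) := by
  obtain ⟨σ, hσ⟩ := h
  refine ⟨(expTrEquiv ι hι e).symm (σ, fun i => Classical.arbitrary (∀ i, Ωk i) i.1), ?_⟩
  simp only [expTrEquiv_symm_block]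
  exact hσ

open Classical in
/-- counting by fibres over the rest -/
theorem expCnt_fibre (ι : K → I) (hι : Function.Injective ι) (e : ∀ k, Ωk (ι k) ≃ Ω')
    (P : (∀ i, Ωk i) → Prop) :
    expCnt P = ∑ z : (∀ i : {i // ¬ i ∈ Set.range ι}, Ωk i),
      expCnt (Ωk := fun _ : K => Ω') (fun σ => P ((expTrEquiv ι hι e).symm (σ, z))) := by
  unfold expCnt expMass
  rw [← Equiv.sum_comp (expTrEquiv ι hι e).symm, Fintype.sum_prod_type_right]

/-- Transport of the domination of a block. -/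
theorem exp_dom_transfer (ι : K → I) (hι : Function.Injective ι) (e : ∀ k, Ωk (ι k) ≃ Ω') (ε : ℝ)
    (G' : (K → Ω') → Prop)
    (h : ∀ (F' : (K → Ω') → Prop) (sF : Finset K),
      (∀ σ σ' : K → Ω', (∀ κ ∈ sF, σ κ = σ' κ) → (F' σ ↔ F' σ')) →
      expCnt (Ωk := fun _ : K => Ω') (fun σ => F' σ ∧ G' σ) * (Fintype.card (K → Ω') : ℝ)
        ≤ Real.exp (ε * sF.card) *
          (expCnt (Ωk := fun _ : K => Ω') F' * expCnt (Ωk := fun _ : K => Ω') G')) :
    ExpDom ε (univ.image ι) (fun ω : ∀ i, Ωk i => G' (fun k => e k (ω (ι k)))) := by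
  classical
  intro S F hF
  set sF : Finset K := univ.filter (fun k => ι k ∈ S) with hsF
  have hcard : (S ∩ univ.image ι).card = sF.card := by
    rw [← Finset.card_image_of_injective sF hι]
    congr 1
    ext i
    simp only [hsF, Finset.mem_inter, Finset.mem_image, Finset.mem_univ, true_and,
      Finset.mem_filter]
    constructor
    · rintro ⟨h1, k, rfl⟩
      exact ⟨k, h1, rfl⟩
    · rintro ⟨k, h1, rfl⟩
      exact ⟨h1, k, rfl⟩
  rw [hcard]
  have hz : ∀ z : (∀ i : {i // ¬ i ∈ Set.range ι}, Ωk i),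
      expCnt (Ωk := fun _ : K => Ω') (fun σ => F ((expTrEquiv ι hι e).symm (σ, z)) ∧ G' σ)
          * (Fintype.card (K → Ω') : ℝ)
        ≤ Real.exp (ε * sF.card) *
          (expCnt (Ωk := fun _ : K => Ω') (fun σ => F ((expTrEquiv ι hι e).symm (σ, z)))
            * expCnt (Ωk := fun _ : K => Ω') G') := by
    intro z
    apply h _ sF
    intro σ σ' hσ
    apply hF
    intro i hi
    by_cases hr : i ∈ Set.range ι
    · obtain ⟨k, rfl⟩ := hr
      apply (e k).injective
      rw [expTrEquiv_symm_block, expTrEquiv_symm_block]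
      exact hσ k (Finset.mem_filter.2 ⟨Finset.mem_univ _, hi⟩)
    · rw [expTrEquiv_symm_rest ι hι e σ z ⟨i, hr⟩, expTrEquiv_symm_rest ι hι e σ' z ⟨i, hr⟩]
  have c1 : expCnt (fun ω : ∀ i, Ωk i => F ω ∧ G' (fun k => e k (ω (ι k))))
      = ∑ z : (∀ i : {i // ¬ i ∈ Set.range ι}, Ωk i),
        expCnt (Ωk := fun _ : K => Ω') (fun σ => F ((expTrEquiv ι hι e).symm (σ, z)) ∧ G' σ) := by
    rw [expCnt_fibre ι hι e]
    refine Finset.sum_congr rfl fun z _ => ?_
    simp only [expTrEquiv_symm_block]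
  have c2 := expCnt_fibre ι hι e F
  have c3 : expCnt (fun ω : ∀ i, Ωk i => G' (fun k => e k (ω (ι k))))
      = (Fintype.card (∀ i : {i // ¬ i ∈ Set.range ι}, Ωk i) : ℝ)
        * expCnt (Ωk := fun _ : K => Ω') G' := by
    rw [expCnt_fibre ι hι e]
    simp only [expTrEquiv_symm_block]
    rw [Finset.sum_const, Finset.card_univ, nsmul_eq_mul]
  have c4 : (Fintype.card (∀ i, Ωk i) : ℝ) = (Fintype.card (K → Ω') : ℝ)
      * (Fintype.card (∀ i : {i // ¬ i ∈ Set.range ι}, Ωk i) : ℝ) := by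
    rw [Fintype.card_congr (expTrEquiv ι hι e), Fintype.card_prod, Nat.cast_mul]
  rw [c1, c2, c3, c4]
  set R : ℝ := (Fintype.card (∀ i : {i // ¬ i ∈ Set.range ι}, Ωk i) : ℝ) with hR
  have hR0 : 0 ≤ R := Nat.cast_nonneg _
  calc (∑ z : (∀ i : {i // ¬ i ∈ Set.range ι}, Ωk i),
        expCnt (Ωk := fun _ : K => Ω') (fun σ => F ((expTrEquiv ι hι e).symm (σ, z)) ∧ G' σ))
          * ((Fintype.card (K → Ω') : ℝ) * R)
      = (∑ z : (∀ i : {i // ¬ i ∈ Set.range ι}, Ωk i),
        expCnt (Ωk := fun _ : K => Ω') (fun σ => F ((expTrEquiv ι hι e).symm (σ, z)) ∧ G' σ)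
          * (Fintype.card (K → Ω') : ℝ)) * R := by
        rw [Finset.sum_mul, Finset.sum_mul]
        refine Finset.sum_congr rfl fun z _ => ?_
        ring
    _ ≤ (∑ z : (∀ i : {i // ¬ i ∈ Set.range ι}, Ωk i), Real.exp (ε * sF.card) *
          (expCnt (Ωk := fun _ : K => Ω') (fun σ => F ((expTrEquiv ι hι e).symm (σ, z)))
            * expCnt (Ωk := fun _ : K => Ω') G')) * R :=
        mul_le_mul_of_nonneg_right (Finset.sum_le_sum fun z _ => hz z) hR0
    _ = _ := by
        rw [← Finset.mul_sum, ← Finset.sum_mul]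
        ring

end dom

end Claimed.Agent.R300
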