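/-
Row 300 / S0553 (INJ paper), Section 02_expansion, package EL-F2 (ElLaw): the sequential law of the
permutation tables (`prop:sequential-law`): at level `t` the tables are uniform in the set of those `ω` for
which ALL sliced occurrences with cutoff `t` are good (all cuts expand).
Section owner: helper126.  The `sorry`s are replaced IN PLACE by the owner of the package
(table subtask, target row300, name EL-F2).  Statements are frozen: ask helper126 before changing one.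
The statements of ElLevel.lean (`el_blk_hyp`), ElNum.lean, ExpDom.lean may be used although they may still be
`sorry` there.

PROOF PLANS.
* `Occ.ext'`: `cases`, `ρ` is determined by `hρ` (`Fin.ext`), the other fields are proofs.
* `el_occ_finite`: `o ↦ (o.τ, o.h, o.e)` is injective (`Occ.ext'`) and `o.κ = t` bounds `o.h`:
  `lab_kap_spec`: `2 n0 s + b h = (κ - 1) s + tt h ≤ κ s`, `b ≥ 1`, so `h ≤ t * p.s`.
* `el_tkeyAt_inj`, `el_tkeyAt_disj`: `subst` and `el_tkey_inj`, `el_tkey_disj` (ElTab), `Occ.ext'`.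
* `el_one_*` (ONE occurrence): `G' := expBlkGood (elP ..) (elP ..) (1/20)` on `o.K → Perm o.C`;
  `exp_blk_select`, `exp_blk_inflation` with `H := el_blk_hyp c 𝔗 o hb`, `η = 1/5`, `γ = 1/20`; numerical hypotheses
  from ElNum (`el_min_deg`, `el_max_deg`, `elA`, `el_num_four`, `el_num_rho`, `el_num_eps`, `Fintype.card o.C = 2 ^ o.t`,
  `o.t ≤ p.s` by `lab_kap_spec`); then `exp_dom_transfer`, `exp_pos_transfer`, `exp_dep_transfer` (ExpDom) with
  `ι := tkeyAt o t`, `e := elCell o t ht`, and `ExpDom.mono` to `ε = 1`.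
* `el_good_ne`, `el_good_dom`: `exp_pos_family`, `exp_dom_family` over `s := univ : Finset {o : Occ p // o.κ = t}`.
* `el_good_dep`: `el_P_dep` (ElTab).
* `el_law`: `seq.G t 𝔗 := univ.filter (elGoodAt c t 𝔗)`, `dom` by `exp_dom_card`.
-/
import Claimed.Agent.R300.ElLevel
import Claimed.Agent.R300.ExpDom
import Claimed.Agent.R300.PrDefs

set_option autoImplicit false

namespace Claimed.Agent.R300.El

open Claimed.Agent.R300.Lab
open Classical

variable {p : Par}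

/-- the space of the tables of level `t` (definitionally `Lvl p t`) -/
abbrev LvP (p : Par) (t : ℕ) : Type := ∀ i : Key p t, Equiv.Perm (Pr.Cell p t i)

theorem Occ.ext' (o o' : Occ p) (h1 : o.τ = o'.τ) (h2 : o.h = o'.h) (h3 : o.e = o'.e) : o = o' := by
  obtain ⟨hp, τ, h, ρ, hρ, e, heq⟩ := o
  obtain ⟨hp', τ', h', ρ', hρ', e', heq'⟩ := o'
  simp only at h1 h2 h3
  subst h1 h2 h3
  have : ρ = ρ' := Fin.ext (hρ.trans hρ'.symm)
  subst this
  rfl

theorem el_occ_finite (hp : p.Adm) (t : ℕ) : Finite {o : Occ p // o.κ = t} := by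
  have hh : ∀ o : {o : Occ p // o.κ = t}, o.1.h < t * p.s + 1 := by
    intro o
    have h1 := lab_kap_spec hp o.1.h
    have h2 : p.kap o.1.h = t := o.2
    rw [h2] at h1
    obtain ⟨e1, -, e2, -, e3⟩ := h1
    have hb := hp.hb
    have h3 : o.1.h ≤ p.b * o.1.h := Nat.le_mul_of_pos_left _ hb
    have h4 : (t - 1) * p.s + p.s = t * p.s := by
      have h5 : 1 ≤ t := by have := hp.hn0; omega
      obtain ⟨t', rfl⟩ : ∃ t', t = t' + 1 := ⟨t - 1, by omega⟩
      rw [Nat.add_sub_cancel]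
      ring
    omega
  exact Finite.of_injective (fun o : {o : Occ p // o.κ = t} =>
    ((o.1.τ, (⟨o.1.h, hh o⟩ : Fin (t * p.s + 1)), o.1.e) : Fin p.T × Fin (t * p.s + 1) × BV p.b)) (by
    intro o o' h
    simp only [Prod.mk.injEq, Fin.mk.injEq] at h
    exact Subtype.ext (Occ.ext' _ _ h.1 h.2.1 h.2.2))

/-- the key of the table of level `t` used by the cluster `k` -/
def tkeyAt (o : Occ p) (t : ℕ) (k : o.K) : Key p t := (o.lab k.1 k.2.1, fun i => k.2.2.1.1 i.1)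

theorem el_twAt (o : Occ p) (t : ℕ) (ht : o.κ = t) (k : o.K) : tw (tkeyAt o t k).1 t = o.t := by
  subst ht
  exact el_tw o k

/-- identification of the cells -/
noncomputable def elCell (o : Occ p) (t : ℕ) (ht : o.κ = t) (k : o.K) :
    Equiv.Perm (Pr.Cell p t (tkeyAt o t k)) ≃ Equiv.Perm o.C :=
  (bvCast (el_twAt o t ht k)).permCongr

/-- the cluster permutations read off the tables of level `t` -/
noncomputable def elSigAt (o : Occ p) (t : ℕ) (ht : o.κ = t) (ω : LvP p t) (k : o.K) :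
    Equiv.Perm o.C := elCell o t ht k (ω (tkeyAt o t k))

theorem elSigAt_self (o : Occ p) (ω : Lvl p o.κ) : elSigAt o o.κ rfl ω = elSig o ω := rfl

/-- the good event of one occurrence with cutoff `t` -/
def elGoodOne (c : Ctx p) (t : ℕ) (𝔗 : Tab p) (o : Occ p) (ht : o.κ = t) (ω : LvP p t) : Prop :=
  expBlkGood (elP c 𝔗 o (!o.sd0)) (elP c 𝔗 o o.sd0) (1 / 20) (elSigAt o t ht ω)

/-- the good event of level `t` -/
def elGoodAt (c : Ctx p) (t : ℕ) (𝔗 : Tab p) (ω : LvP p t) : Prop :=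
  ∀ (o : Occ p) (ht : o.κ = t), elGoodOne c t 𝔗 o ht ω

theorem el_tkeyAt_inj (o : Occ p) (t : ℕ) (ht : o.κ = t) : Function.Injective (tkeyAt o t) := by
  subst ht
  exact el_tkey_inj o

theorem el_tkeyAt_disj (o o' : Occ p) (t : ℕ) (ht : o.κ = t) (ht' : o'.κ = t) (hne : o ≠ o') :
    Disjoint (Finset.univ.image (tkeyAt o t)) (Finset.univ.image (tkeyAt o' t)) := by
  subst ht
  rw [Finset.disjoint_left]
  intro x hx hx'
  obtain ⟨k, -, rfl⟩ := Finset.mem_image.1 hx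
  obtain ⟨k', -, hk'⟩ := Finset.mem_image.1 hx'
  have h1 := el_tkey_disj o o' ht'.symm k k' (congrArg Prod.fst hk').symm
  exact hne (Occ.ext' _ _ h1.1 h1.2.1 h1.2.2)

theorem el_one_dep (c : Ctx p) (t : ℕ) (𝔗 : Tab p) (o : Occ p) (ht : o.κ = t) :
    ExpDep (Finset.univ.image (tkeyAt o t)) (elGoodOne c t 𝔗 o ht) := by
  intro ω ω' h
  have h1 : elSigAt o t ht ω = elSigAt o t ht ω' := by
    funext k
    unfold elSigAt
    rw [h (tkeyAt o t k) (Finset.mem_image_of_mem _ (Finset.mem_univ k))]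
  unfold elGoodOne
  rw [h1]

theorem el_card_C (o : Occ p) : Fintype.card o.C = 2 ^ o.t := by
  simp [ZMod.card]

theorem el_t_le (o : Occ p) : o.t ≤ p.s := (lab_kap_spec o.hp o.h).2.2.1

theorem el_law_ha (hp : p.Adm) (sd : Bool) :
    4 ≤ expA ((1 - (1 / 5 : ℝ)) / 2) (1 / 20) (min (deg p (!sd)) (deg p sd)) := by
  rw [el_min_deg]
  exact el_num_four hp

theorem el_law_hrho (o : Occ p) (sd : Bool) :
    ((max (deg p (!sd)) (deg p sd) * Fintype.card o.C : ℕ) : ℝ) ^ 2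
      * Real.exp (-(expA ((1 - (1 / 5 : ℝ)) / 2) (1 / 20) (min (deg p (!sd)) (deg p sd)))) ≤ 1 / 2 := by
  rw [el_min_deg, el_max_deg, el_card_C]
  exact el_num_rho o.hp o.t (el_t_le o)

theorem el_one_ne (c : Ctx p) (hb : 9 ≤ p.b) (t : ℕ) (𝔗 : Tab p) (o : Occ p) (ht : o.κ = t) :
    ∃ ω, elGoodOne c t 𝔗 o ht ω := by
  have h1 : ∃ σ : o.K → Equiv.Perm o.C,
      expBlkGood (elP c 𝔗 o (!o.sd0)) (elP c 𝔗 o o.sd0) (1 / 20) σ :=
    exp_blk_select _ _ _ _ (1 / 5) (1 / 20) (el_blk_hyp c 𝔗 o hb) (by norm_num) (by norm_num)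
      (el_law_ha o.hp o.sd0) (el_law_hrho o o.sd0)
  exact exp_pos_transfer (Ωk := fun i : Key p t => Equiv.Perm (Pr.Cell p t i)) (tkeyAt o t)
    (el_tkeyAt_inj o t ht) (elCell o t ht)
    (expBlkGood (elP c 𝔗 o (!o.sd0)) (elP c 𝔗 o o.sd0) (1 / 20)) h1

theorem el_one_dom (c : Ctx p) (hb : 9 ≤ p.b) (t : ℕ) (𝔗 : Tab p) (o : Occ p) (ht : o.κ = t) :
    ExpDom 1 (Finset.univ.image (tkeyAt o t)) (elGoodOne c t 𝔗 o ht) := by
  have h1 := exp_dom_transfer (Ωk := fun i : Key p t => Equiv.Perm (Pr.Cell p t i))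
    (tkeyAt o t) (el_tkeyAt_inj o t ht) (elCell o t ht)
    (8 * Fintype.card o.C * Real.exp (-(expA ((1 - (1 / 5 : ℝ)) / 2) (1 / 20)
      (min (deg p (!o.sd0)) (deg p o.sd0)))))
    (expBlkGood (elP c 𝔗 o (!o.sd0)) (elP c 𝔗 o o.sd0) (1 / 20))
    (fun F' sF hF' => exp_blk_inflation _ _ _ _ (1 / 5) (1 / 20) (el_blk_hyp c 𝔗 o hb)
      (by norm_num) (by norm_num) (el_law_ha o.hp o.sd0) (el_law_hrho o o.sd0) F' sF hF')
  refine ExpDom.mono ?_ h1
  rw [el_min_deg, el_card_C]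
  exact el_num_eps o.hp o.t (el_t_le o)

theorem el_good_dep (c : Ctx p) (t : ℕ) (𝔗 𝔗' : Tab p) (h : ∀ j, j < t → 𝔗 j = 𝔗' j) (ω : LvP p t) :
    elGoodAt c t 𝔗 ω ↔ elGoodAt c t 𝔗' ω := by
  unfold elGoodAt elGoodOne
  refine forall_congr' fun o => forall_congr' fun ht => ?_
  rw [el_P_dep c 𝔗 𝔗' o (fun i hi => h i (ht ▸ hi)) (!o.sd0),
    el_P_dep c 𝔗 𝔗' o (fun i hi => h i (ht ▸ hi)) o.sd0]

theorem el_good_ne (c : Ctx p) (hb : 9 ≤ p.b) (t : ℕ) (𝔗 : Tab p) : ∃ ω, elGoodAt c t 𝔗 ω := by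
  have := el_occ_finite c.hp t
  let _ : Fintype {o : Occ p // o.κ = t} := Fintype.ofFinite _
  obtain ⟨ω, hω⟩ := exp_pos_family (Finset.univ : Finset {o : Occ p // o.κ = t})
    (fun j => Finset.univ.image (tkeyAt j.1 t)) (fun j => elGoodOne c t 𝔗 j.1 j.2)
    (fun j _ j' _ hne => el_tkeyAt_disj j.1 j'.1 t j.2 j'.2 fun h => hne (Subtype.ext h))
    (fun j _ => el_one_dep c t 𝔗 j.1 j.2) (fun j _ => el_one_ne c hb t 𝔗 j.1 j.2)
  exact ⟨ω, fun o ht => hω ⟨o, ht⟩ (Finset.mem_univ _)⟩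

theorem el_good_dom (c : Ctx p) (hb : 9 ≤ p.b) (t : ℕ) (𝔗 : Tab p) :
    ∃ D : Finset (Key p t), ExpDom 1 D (elGoodAt c t 𝔗) := by
  have := el_occ_finite c.hp t
  let _ : Fintype {o : Occ p // o.κ = t} := Fintype.ofFinite _
  have h1 := exp_dom_family (Ωk := fun i : Key p t => Equiv.Perm (Pr.Cell p t i)) 1
    (Finset.univ : Finset {o : Occ p // o.κ = t})
    (fun j => Finset.univ.image (tkeyAt j.1 t)) (fun j => elGoodOne c t 𝔗 j.1 j.2)
    (fun j _ j' _ hne => el_tkeyAt_disj j.1 j'.1 t j.2 j'.2 fun h => hne (Subtype.ext h))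
    (fun j _ => el_one_dep c t 𝔗 j.1 j.2) (fun j _ => el_one_dom c hb t 𝔗 j.1 j.2)
  refine ⟨(Finset.univ : Finset {o : Occ p // o.κ = t}).biUnion
    fun j => Finset.univ.image (tkeyAt j.1 t), ?_⟩
  have h2 : (fun ω : LvP p t => ∀ j ∈ (Finset.univ : Finset {o : Occ p // o.κ = t}),
      elGoodOne c t 𝔗 j.1 j.2 ω) = elGoodAt c t 𝔗 := by
    funext ω
    exact propext ⟨fun h o ht => h ⟨o, ht⟩ (Finset.mem_univ _), fun h j _ => h j.1 j.2⟩
  rw [← h2]
  exact h1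

/-- **the sequential law** -/
theorem el_law (c : Ctx p) (hb : 9 ≤ p.b) :
    ∃ L : Pr.PLaw p 1, ∀ 𝔗 : Tab p, (∀ t, 𝔗 t ∈ L.seq.G t 𝔗) →
      ∀ o : Occ p, elGood c 𝔗 o (1 / 20) (𝔗 o.κ) := by
  refine ⟨{ seq := { G := fun t 𝔗 => Finset.univ.filter (elGoodAt c t 𝔗)
                     dep := ?_
                     ne := ?_ }
            dom := ?_ }, ?_⟩
  · intro t τ τ' h
    exact Finset.filter_congr fun ω _ => el_good_dep c t τ τ' h ω
  · intro t τ
    obtain ⟨ω, hω⟩ := el_good_ne c hb t τ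
    exact ⟨ω, Finset.mem_filter.2 ⟨Finset.mem_univ _, hω⟩⟩
  · intro t τ S F _ hF
    obtain ⟨D, hD⟩ := el_good_dom c hb t τ
    exact exp_dom_card 1 zero_le_one D (elGoodAt c t τ) hD S F hF
  · intro 𝔗 h o
    have h1 : (𝔗 o.κ : LvP p o.κ) ∈ (Finset.univ : Finset (LvP p o.κ)).filter (elGoodAt c o.κ 𝔗) :=
      h o.κ
    exact ((Finset.mem_filter (α := LvP p o.κ)).1 h1).2 o rfl

end Claimed.Agent.R300.El
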