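/-
Row 300 / S0553 (INJ paper), Section 02_expansion: the final statement consumed by Section 03 and the
adapter `inj_graph` (helper59): `exp_law : Pr.ExpLawStmt`, with `b = 10`, `ρ = 1 - 1/800`, `ε = 1`.
Owner: helper126.
-/
import Claimed.Agent.R300.ElGap
import Claimed.Agent.R300.ElLaw

set_option autoImplicit false

namespace Claimed.Agent.R300.El

open Claimed.Agent.R300.Lab

/-- **`prop:sequential-law`**: the sequential law of the tables with the domination property, all of
whose realisations have uniformly expanding slices. -/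
theorem exp_law : Pr.ExpLawStmt := by
  refine ⟨10, by norm_num, 1 - (1 / 20 : ℝ) ^ 2 / 2, by norm_num, by norm_num, ?_⟩
  intro T off
  refine ⟨20000000, ?_⟩
  intro s hs h2 h5
  refine ⟨1000000, ?_⟩
  intro n0 hn0 cf hsep hmult
  have hp : (⟨10, s, n0, T, off⟩ : Par).Adm :=
    { hb := by norm_num
      hs := by show 0 < s; omega
      h20000 := h2
      h5b := h5
      hn0 := hn0
      hslope := by
        show 1000000 * 10 ≤ 10001 * s / 20000
        omega }
  obtain ⟨L, hL⟩ := el_law (⟨hp, cf, hsep, hmult⟩ : Ctx ⟨10, s, n0, T, off⟩) (by norm_num)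
  exact ⟨L, fun 𝔗 h𝔗 => el_slice_gap (⟨hp, cf, hsep, hmult⟩ : Ctx ⟨10, s, n0, T, off⟩) 𝔗 (1 / 20)
    (by norm_num) (by norm_num) (hL 𝔗 h𝔗)⟩

end Claimed.Agent.R300.El
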