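/-
R300 shared expansion library, part X5 (requests of the KK tower, helper221).  Owner: helper126.

* `exp_avl`: the conditional Fourier estimate in "affine" form: `X` a finite `ZMod 2`-space, translations
  by `iU u + iV v`, retained data `Cc`, evaluations `Z a`, slot summands `F a` functions of `(Cc, Z a)`.
* `exp_bands_term`: band lemma plus ONE terminal variance bound (abstract inner product version).
* `exp_term_B`, `exp_term_A`: KK Lemma exp:mean-gap from the six facts (Cf), (Cr), (Vf), (Vr), (Tb)/(Ta),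
  constant `49 θ₁ + θ₂` (`exp_bands` with `p = 3` in the zipper index).
-/
import Claimed.Agent.R300.ExpZip

set_option autoImplicit false
set_option linter.unusedSectionVars false

namespace Claimed.Agent.R300

open Finset
open scoped InnerProductSpace

section avl

variable {X U V ι Γ : Type*} [AddCommGroup X] [Module (ZMod 2) X] [Fintype X]
  [AddCommGroup U] [Module (ZMod 2) U] [Fintype U] [AddCommGroup V] [Module (ZMod 2) V] [Fintype V]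
  [Fintype ι]

/-- **Conditional Fourier estimate, affine form.** -/
theorem exp_avl (iU : U →ₗ[ZMod 2] X) (iV : V →ₗ[ZMod 2] X) (Cc : X → Γ) (Z : ι → X → V)
    (Kk : ι → (U →ₗ[ZMod 2] V)) (F : ι → X → ℝ)
    (hC : ∀ x u v, Cc (x + iU u + iV v) = Cc x)
    (hZ : ∀ a x u v, Z a (x + iU u + iV v) = Z a x + v + Kk a u)
    (hF : ∀ a x x', Cc x = Cc x' → Z a x = Z a x' → F a x = F a x')
    (M : ℝ) (hM0 : 0 ≤ M)
    (hM : ∀ ζ : V →ₗ[ZMod 2] ZMod 2, ζ ≠ 0 → ∀ a,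
      ((univ.filter fun a' => ζ ∘ₗ Kk a' = ζ ∘ₗ Kk a).card : ℝ) ≤ M) :
    ∃ μ : X → ℝ, (∀ x x', Cc x = Cc x' → μ x = μ x') ∧
      ∑ x, (∑ a, F a x - μ x) ^ 2 ≤ M * ∑ a, ∑ x, F a x ^ 2 := by
  classical
  have hU : (0 : ℝ) < (Fintype.card U : ℝ) := by exact_mod_cast Fintype.card_pos_iff.2 ⟨(0 : U)⟩
  have hV : (0 : ℝ) < (Fintype.card V : ℝ) := by exact_mod_cast Fintype.card_pos_iff.2 ⟨(0 : V)⟩
  have hC' : ∀ x v, Cc (x + iV v) = Cc x := by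
    intro x v
    have := hC x 0 v
    rwa [map_zero, add_zero] at this
  have hZ' : ∀ a x v, Z a (x + iV v) = Z a x + v := by
    intro a x v
    have := hZ a x 0 v
    rwa [map_zero, map_zero, add_zero, add_zero] at this
  set μ : X → ℝ := fun x => (∑ a, ∑ z, F a (x + iV z)) / (Fintype.card V : ℝ) with hμ
  have hμC : ∀ x x', Cc x = Cc x' → μ x = μ x' := by
    intro x x' h
    simp only [hμ]
    congr 1
    refine Finset.sum_congr rfl fun a _ => ?_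
    have h1 : ∀ z, F a (x + iV z) = F a (x' + iV (z + (Z a x - Z a x'))) := by
      intro z
      refine hF a _ _ ?_ ?_
      · rw [hC', hC', h]
      · rw [hZ', hZ']; abel
    rw [Finset.sum_congr rfl fun z _ => h1 z]
    exact Equiv.sum_comp (Equiv.addRight (Z a x - Z a x')) fun z => F a (x' + iV z)
  refine ⟨μ, hμC, ?_⟩
  have hloc : ∀ a x u v, F a (x + iU u + iV v) = F a (x + iV (v + Kk a u)) := by
    intro a x u v
    refine hF a _ _ ?_ ?_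
    · rw [hC, hC']
    · rw [hZ, hZ']; abel
  have hFo : ∀ x, ∑ u, ∑ v, (∑ a, F a (x + iU u + iV v) - μ (x + iU u + iV v)) ^ 2
      ≤ M * (Fintype.card U : ℝ) * ∑ a, ∑ z, F a (x + iV z) ^ 2 := by
    intro x
    have h := exp_fourier Kk (fun a z => F a (x + iV z)) M hM0 hM
    refine le_trans (le_of_eq ?_) h
    refine Finset.sum_congr rfl fun u _ => Finset.sum_congr rfl fun v _ => ?_
    rw [hμC _ x (hC x u v)]
    congr 2
    exact Finset.sum_congr rfl fun a _ => hloc a x u v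
  have htr : ∀ (G : X → ℝ) (y : X), ∑ x, G (x + y) = ∑ x, G x :=
    fun G y => Equiv.sum_comp (Equiv.addRight y) G
  have hL : ∑ x, ∑ u, ∑ v, (∑ a, F a (x + iU u + iV v) - μ (x + iU u + iV v)) ^ 2
      = (Fintype.card U : ℝ) * (Fintype.card V : ℝ) * ∑ x, (∑ a, F a x - μ x) ^ 2 := by
    rw [Finset.sum_comm]
    have h1 : ∀ u, ∑ x, ∑ v, (∑ a, F a (x + iU u + iV v) - μ (x + iU u + iV v)) ^ 2
        = (Fintype.card V : ℝ) * ∑ x, (∑ a, F a x - μ x) ^ 2 := by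
      intro u
      rw [Finset.sum_comm]
      have h2 : ∀ v, ∑ x, (∑ a, F a (x + iU u + iV v) - μ (x + iU u + iV v)) ^ 2
          = ∑ x, (∑ a, F a x - μ x) ^ 2 := by
        intro v
        have := htr (fun x => (∑ a, F a x - μ x) ^ 2) (iU u + iV v)
        simpa only [add_assoc] using this
      rw [Finset.sum_congr rfl fun v _ => h2 v, Finset.sum_const, Finset.card_univ, nsmul_eq_mul]
    rw [Finset.sum_congr rfl fun u _ => h1 u, Finset.sum_const, Finset.card_univ, nsmul_eq_mul]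
    ring
  have hR : ∑ x, ∑ a, ∑ z, F a (x + iV z) ^ 2
      = (Fintype.card V : ℝ) * ∑ a, ∑ x, F a x ^ 2 := by
    rw [Finset.sum_comm, Finset.mul_sum]
    refine Finset.sum_congr rfl fun a _ => ?_
    rw [Finset.sum_comm]
    rw [Finset.sum_congr rfl fun z _ => htr (fun x => F a x ^ 2) (iV z), Finset.sum_const,
      Finset.card_univ, nsmul_eq_mul]
  have hsum : ∑ x, ∑ u, ∑ v, (∑ a, F a (x + iU u + iV v) - μ (x + iU u + iV v)) ^ 2
      ≤ ∑ x, M * (Fintype.card U : ℝ) * ∑ a, ∑ z, F a (x + iV z) ^ 2 :=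
    Finset.sum_le_sum fun x _ => hFo x
  rw [hL, ← Finset.mul_sum, hR] at hsum
  have h3 : (Fintype.card U : ℝ) * (Fintype.card V : ℝ) * ∑ x, (∑ a, F a x - μ x) ^ 2
      ≤ (Fintype.card U : ℝ) * (Fintype.card V : ℝ) * (M * ∑ a, ∑ x, F a x ^ 2) := by
    refine hsum.trans (le_of_eq ?_)
    ring
  exact le_of_mul_le_mul_left h3 (mul_pos hU hV)

end avl

section term

variable {E F : Type*} [NormedAddCommGroup E] [InnerProductSpace ℝ E]
  [NormedAddCommGroup F] [InnerProductSpace ℝ F]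

/-- Pythagoras for an orthogonal projection. -/
theorem exp_proj_pyth (K : Submodule ℝ F) [K.HasOrthogonalProjection] (y ν : F) (hν : ν ∈ K) :
    ‖y - ν‖ ^ 2 = ‖y - K.starProjection y‖ ^ 2 + ‖K.starProjection y - ν‖ ^ 2 := by
  have h0 : ⟪y - K.starProjection y, K.starProjection y - ν⟫_ℝ = 0 :=
    Submodule.starProjection_inner_eq_zero y _
      (Submodule.sub_mem _ (Submodule.starProjection_apply_mem _ _) hν)
  have e : y - ν = (y - K.starProjection y) + (K.starProjection y - ν) := by abel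
  rw [e, sq, sq, sq]
  exact norm_add_sq_eq_norm_sq_add_norm_sq_real h0

/-- **Band lemma with a terminal variance bound.** -/
theorem exp_bands_term (W : ℕ → Submodule ℝ E) (Z : ℕ → Submodule ℝ F)
    [∀ m, (W m).HasOrthogonalProjection] [∀ m, (Z m).HasOrthogonalProjection]
    (hW : Monotone W) (hZ : Monotone Z) (T : F →ₗ[ℝ] E) (T' : E →ₗ[ℝ] F)
    (hadj : ∀ g f, ⟪g, T f⟫_ℝ = ⟪T' g, f⟫_ℝ) (p n : ℕ) (c c2 : ℝ) (hc : 0 ≤ c)
    (hC1 : ∀ m, m ≤ n → ∀ f ∈ Z m, T f ∈ W (m + p))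
    (hC2 : ∀ m, m ≤ n → ∀ g ∈ W m, T' g ∈ Z (m + p))
    (hC0 : ∀ g ∈ W 0, T' g ∈ Z 0) (hC0' : ∀ f ∈ Z 0, T f ∈ W 0)
    (hV1 : ∀ m, m < n → ∀ f ∈ Z (m + 1), ∃ μ ∈ W m, ‖T f - μ‖ ≤ c * ‖f‖)
    (hV2 : ∀ m, m < n → ∀ g ∈ W (m + 1), ∃ ν ∈ Z m, ‖T' g - ν‖ ≤ c * ‖g‖)
    (hT : ∀ g, ∃ ν ∈ Z n, ‖T' g - ν‖ ≤ c2 * ‖g‖)
    (g : E) (hg0 : ∀ w ∈ W 0, ⟪w, g⟫_ℝ = 0) :
    ‖T' g‖ ^ 2 ≤ (((2 * p + 1) * c) ^ 2 + c2 ^ 2) * ‖g‖ ^ 2 := by
  set y : F := T' g with hy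
  set f : F := (Z n).starProjection y with hf
  have hfmem : f ∈ Z n := Submodule.starProjection_apply_mem _ _
  -- the far part
  obtain ⟨ν, hν, hνn⟩ := hT g
  have hfar : ‖y - f‖ ^ 2 ≤ c2 ^ 2 * ‖g‖ ^ 2 := by
    have h1 := exp_proj_pyth (Z n) y ν hν
    have h2 : ‖y - ν‖ ^ 2 ≤ (c2 * ‖g‖) ^ 2 := pow_le_pow_left₀ (norm_nonneg _) hνn 2
    rw [mul_pow] at h2
    nlinarith [sq_nonneg ‖(Z n).starProjection y - ν‖]
  -- the near part
  set f0 : F := (Z 0).starProjection f with hf0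
  have hf0mem : f0 ∈ Z 0 := Submodule.starProjection_apply_mem _ _
  set f1 : F := f - f0 with hf1
  have hf1mem : f1 ∈ Z n := Submodule.sub_mem _ hfmem (hZ (Nat.zero_le n) hf0mem)
  have hf1orth : ∀ z ∈ Z 0, ⟪z, f1⟫_ℝ = 0 := by
    intro z hz
    rw [real_inner_comm]
    exact Submodule.starProjection_inner_eq_zero f z hz
  have hf1n : ‖f1‖ ≤ ‖f‖ := by
    have h1 := exp_proj_pyth (Z 0) f 0 (Submodule.zero_mem _)
    rw [sub_zero, sub_zero] at h1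
    have h2 : ‖f1‖ ^ 2 ≤ ‖f‖ ^ 2 := by
      rw [h1]
      nlinarith [sq_nonneg ‖(Z 0).starProjection f‖]
    exact (abs_le_of_sq_le_sq' h2 (norm_nonneg _)).2
  have hband := exp_bands W Z hW hZ T T' hadj p n c hc hC1 hC2 hC0 hV1 hV2 f1 hf1mem hf1orth
  have hq : (0 : ℝ) ≤ (2 * p + 1) * c := by positivity
  have hnear0 : ‖f‖ ^ 2 = ⟪g, T f1⟫_ℝ := by
    have h1 : ⟪y - f, f⟫_ℝ = 0 := Submodule.starProjection_inner_eq_zero y f hfmem
    rw [inner_sub_left, real_inner_self_eq_norm_sq] at h1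
    have h2 : ⟪g, T f0⟫_ℝ = 0 := by
      rw [real_inner_comm]
      exact hg0 _ (hC0' _ hf0mem)
    have h3 : f = f1 + f0 := by rw [hf1]; abel
    have h4 : ⟪g, T f⟫_ℝ = ⟪g, T f1⟫_ℝ := by
      conv_lhs => rw [h3]
      rw [map_add, inner_add_right, h2, add_zero]
    rw [← h4, hadj]
    linarith
  have hnear : ‖f‖ ≤ (2 * p + 1) * c * ‖g‖ := by
    have h1 : ‖f‖ ^ 2 ≤ ‖g‖ * ((2 * p + 1) * c * ‖f‖) := by
      rw [hnear0]
      calc ⟪g, T f1⟫_ℝ ≤ ‖g‖ * ‖T f1‖ := real_inner_le_norm _ _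
        _ ≤ ‖g‖ * ((2 * p + 1) * c * ‖f1‖) := mul_le_mul_of_nonneg_left hband (norm_nonneg _)
        _ ≤ ‖g‖ * ((2 * p + 1) * c * ‖f‖) :=
          mul_le_mul_of_nonneg_left (mul_le_mul_of_nonneg_left hf1n hq) (norm_nonneg _)
    rcases (norm_nonneg f).eq_or_lt with h0 | h0
    · rw [← h0]; positivity
    · have h2 : ‖f‖ * ‖f‖ ≤ ‖f‖ * ((2 * p + 1) * c * ‖g‖) := by nlinarith
      exact le_of_mul_le_mul_left h2 h0
  have hpy := exp_proj_pyth (Z n) y 0 (Submodule.zero_mem _)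
  rw [sub_zero, sub_zero] at hpy
  have hnear2 : ‖f‖ ^ 2 ≤ ((2 * p + 1) * c) ^ 2 * ‖g‖ ^ 2 := by
    rw [← mul_pow]
    exact pow_le_pow_left₀ (norm_nonneg _) hnear 2
  rw [hpy, add_mul]
  linarith

end term

section termfun

variable {X Y : Type*} [Fintype X] [Fintype Y]

/-- **Band lemma with a terminal variance bound, for functions on finite types.** -/
theorem exp_bands_term_fun (rX : ℕ → X → X → Prop) (rY : ℕ → Y → Y → Prop)
    (hrX : ∀ m x x', rX (m + 1) x x' → rX m x x') (hrY : ∀ m y y', rY (m + 1) y y' → rY m y y')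
    (T : (Y → ℝ) →ₗ[ℝ] (X → ℝ)) (T' : (X → ℝ) →ₗ[ℝ] (Y → ℝ))
    (hadj : ∀ g f, ∑ x, g x * T f x = ∑ y, T' g y * f y) (p n : ℕ) (c c2 : ℝ) (hc : 0 ≤ c)
    (hc2 : 0 ≤ c2)
    (hC1 : ∀ m, m ≤ n → ∀ f, ExpInv (rY m) f → ExpInv (rX (m + p)) (T f))
    (hC2 : ∀ m, m ≤ n → ∀ g, ExpInv (rX m) g → ExpInv (rY (m + p)) (T' g))
    (hC0 : ∀ g, ExpInv (rX 0) g → ExpInv (rY 0) (T' g))
    (hC0' : ∀ f, ExpInv (rY 0) f → ExpInv (rX 0) (T f))
    (hV1 : ∀ m, m < n → ∀ f, ExpInv (rY (m + 1)) f →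
      ∃ μ, ExpInv (rX m) μ ∧ ∑ x, (T f x - μ x) ^ 2 ≤ c ^ 2 * ∑ y, f y ^ 2)
    (hV2 : ∀ m, m < n → ∀ g, ExpInv (rX (m + 1)) g →
      ∃ ν, ExpInv (rY m) ν ∧ ∑ y, (T' g y - ν y) ^ 2 ≤ c ^ 2 * ∑ x, g x ^ 2)
    (hT : ∀ g, ∃ ν, ExpInv (rY n) ν ∧ ∑ y, (T' g y - ν y) ^ 2 ≤ c2 ^ 2 * ∑ x, g x ^ 2)
    (hX0 : ∀ x x', rX 0 x x')
    (g : X → ℝ) (hg0 : ∑ x, g x = 0) :
    ∑ y, (T' g y) ^ 2 ≤ (((2 * p + 1) * c) ^ 2 + c2 ^ 2) * ∑ x, g x ^ 2 := by
  classical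
  set TE : EuclideanSpace ℝ Y →ₗ[ℝ] EuclideanSpace ℝ X :=
    (WithLp.linearEquiv 2 ℝ (X → ℝ)).symm.toLinearMap ∘ₗ T ∘ₗ
      (WithLp.linearEquiv 2 ℝ (Y → ℝ)).toLinearMap with hTE
  set TE' : EuclideanSpace ℝ X →ₗ[ℝ] EuclideanSpace ℝ Y :=
    (WithLp.linearEquiv 2 ℝ (Y → ℝ)).symm.toLinearMap ∘ₗ T' ∘ₗ
      (WithLp.linearEquiv 2 ℝ (X → ℝ)).toLinearMap with hTE'
  have hTEa : ∀ φ : EuclideanSpace ℝ Y, TE φ = WithLp.toLp 2 (T (fun y => φ y)) := fun φ => rfl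
  have hTEa' : ∀ φ : EuclideanSpace ℝ X, TE' φ = WithLp.toLp 2 (T' (fun y => φ y)) := fun φ => rfl
  have hmonoX : Monotone (fun m => expInvSub (rX m)) := by
    refine monotone_nat_of_le_succ fun m g hg x x' h => hg x x' (hrX m x x' h)
  have hmonoY : Monotone (fun m => expInvSub (rY m)) := by
    refine monotone_nat_of_le_succ fun m g hg x x' h => hg x x' (hrY m x x' h)
  have key := exp_bands_term (fun m => expInvSub (rX m)) (fun m => expInvSub (rY m)) hmonoX hmonoY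
    TE TE'
    (by
      intro g φ
      rw [hTEa, hTEa']
      have e1 : g = WithLp.toLp 2 (fun x => g x) := rfl
      have e2 : φ = WithLp.toLp 2 (fun x => φ x) := rfl
      conv_lhs => rw [e1]
      conv_rhs => rw [e2]
      rw [exp_inner_toLp, exp_inner_toLp]
      exact hadj _ _)
    p n c c2 hc
    (fun m hm φ hφ => hC1 m hm _ hφ) (fun m hm g hg => hC2 m hm _ hg) (fun g hg => hC0 _ hg)
    (fun f hf => hC0' _ hf)
    (by
      intro m hm φ hφ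
      obtain ⟨μ, hμ, hμn⟩ := hV1 m hm _ hφ
      refine ⟨WithLp.toLp 2 μ, hμ, ?_⟩
      rw [hTEa, ← WithLp.toLp_sub]
      refine exp_norm_toLp_le _ _ (mul_nonneg hc (norm_nonneg _)) ?_
      rw [mul_pow, EuclideanSpace.norm_sq_eq]
      simpa using hμn)
    (by
      intro m hm g hg
      obtain ⟨ν, hν, hνn⟩ := hV2 m hm _ hg
      refine ⟨WithLp.toLp 2 ν, hν, ?_⟩
      rw [hTEa', ← WithLp.toLp_sub]
      refine exp_norm_toLp_le _ _ (mul_nonneg hc (norm_nonneg _)) ?_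
      rw [mul_pow, EuclideanSpace.norm_sq_eq]
      simpa using hνn)
    (by
      intro g
      obtain ⟨ν, hν, hνn⟩ := hT (fun x => g x)
      refine ⟨WithLp.toLp 2 ν, hν, ?_⟩
      rw [hTEa', ← WithLp.toLp_sub]
      refine exp_norm_toLp_le _ _ (mul_nonneg hc2 (norm_nonneg _)) ?_
      rw [mul_pow, EuclideanSpace.norm_sq_eq]
      simpa using hνn)
    (WithLp.toLp 2 g)
    (by
      intro z hz
      have e1 : z = WithLp.toLp 2 (fun x => z x) := rfl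
      rw [e1, exp_inner_toLp]
      rcases isEmpty_or_nonempty X with hX | ⟨⟨x0⟩⟩
      · simp
      · have : ∀ x, z x = z x0 := fun x => hz x x0 (hX0 x x0)
        simp only [this]
        rw [← Finset.mul_sum, hg0, mul_zero])
  rw [hTEa', exp_norm_sq_toLp, exp_norm_sq_toLp] at key
  exact key

/-- Transfer of a norm bound on centred functions to the adjoint. -/
theorem exp_adj_bound (T : (Y → ℝ) →ₗ[ℝ] (X → ℝ)) (T' : (X → ℝ) →ₗ[ℝ] (Y → ℝ))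
    (hadj : ∀ g f, ∑ x, g x * T f x = ∑ y, T' g y * f y)
    (hconst : ∀ g : X → ℝ, (∀ x x', g x = g x') → ∀ y y', T' g y = T' g y')
    (v : ℝ) (hv : 0 ≤ v)
    (h : ∀ g : X → ℝ, ∑ x, g x = 0 → ∑ y, (T' g y) ^ 2 ≤ v * ∑ x, g x ^ 2)
    (f : Y → ℝ) (hf : ∑ y, f y = 0) : ∑ x, (T f x) ^ 2 ≤ v * ∑ y, f y ^ 2 := by
  classical
  set g : X → ℝ := T f with hg
  have hg0 : ∑ x, g x = 0 := by
    have h1 := hadj (fun _ => 1) f
    simp only [one_mul] at h1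
    rw [hg, h1]
    rcases isEmpty_or_nonempty Y with hY | ⟨⟨y0⟩⟩
    · simp
    · have : ∀ y, T' (fun _ => 1) y = T' (fun _ => 1) y0 :=
        fun y => hconst _ (fun _ _ => rfl) y y0
      simp only [this]
      rw [← Finset.mul_sum, hf, mul_zero]
  have h1 : ∑ x, g x ^ 2 = ∑ y, T' g y * f y := by
    rw [← hadj g f]
    exact Finset.sum_congr rfl fun x _ => by rw [sq]
  have h2 : (∑ y, T' g y * f y) ^ 2 ≤ (∑ y, T' g y ^ 2) * ∑ y, f y ^ 2 :=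
    Finset.sum_mul_sq_le_sq_mul_sq _ _ _
  have h3 := h g hg0
  set a : ℝ := ∑ x, g x ^ 2 with ha
  have ha0 : 0 ≤ a := Finset.sum_nonneg fun x _ => sq_nonneg _
  set b : ℝ := ∑ y, f y ^ 2 with hb
  have hb0 : 0 ≤ b := Finset.sum_nonneg fun x _ => sq_nonneg _
  rw [← h1] at h2
  have h4 : a ^ 2 ≤ (v * a) * b := h2.trans (mul_le_mul_of_nonneg_right h3 hb0)
  rcases ha0.eq_or_lt with h0 | h0
  · rw [← h0]; positivity
  · have h5 : a * a ≤ a * (v * b) := by nlinarith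
    exact le_of_mul_le_mul_left h5 h0

end termfun

section kk

variable {A B : Type*} [Fintype A] [Fintype B]

/-- the `A`-chain in the zipper index: `0 ↦` everything related, `2h+1, 2h+2 ↦ RA h` -/
def expZipA (RA : ℕ → A → A → Prop) (k : ℕ) (a a' : A) : Prop := 1 ≤ k → RA ((k - 1) / 2) a a'

/-- the `B`-chain in the zipper index: `2j, 2j+1 ↦ RB j` -/
def expZipB (RB : ℕ → B → B → Prop) (k : ℕ) (b b' : B) : Prop := RB (k / 2) b b'

theorem exp_chain_anti {X : Type*} (R : ℕ → X → X → Prop) (hR : ∀ h a a', R (h + 1) a a' → R h a a')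
    {h h' : ℕ} (hh : h ≤ h') (a a' : X) (H : R h' a a') : R h a a' := by
  induction hh with
  | refl => exact H
  | step _ ih => exact ih (hR _ _ _ H)

theorem expZipA_succ (RA : ℕ → A → A → Prop) (hRA : ∀ h a a', RA (h + 1) a a' → RA h a a')
    (m : ℕ) (a a' : A) (H : expZipA RA (m + 1) a a') : expZipA RA m a a' := by
  intro hm
  exact exp_chain_anti RA hRA (by omega) a a' (H (by omega))

theorem expZipB_succ (RB : ℕ → B → B → Prop) (hRB : ∀ h a a', RB (h + 1) a a' → RB h a a')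
    (m : ℕ) (b b' : B) (H : expZipB RB (m + 1) b b') : expZipB RB m b b' :=
  exp_chain_anti RB hRB (by omega) b b' H

variable (RA : ℕ → A → A → Prop) (RB : ℕ → B → B → Prop)
  (MA : (B → ℝ) →ₗ[ℝ] (A → ℝ)) (MB : (A → ℝ) →ₗ[ℝ] (B → ℝ))

theorem exp_zip_Cf (Cf : ∀ J φ, ExpInv (RB J) φ → ExpInv (RA (J + 1)) (MA φ)) (m : ℕ) (f : B → ℝ)
    (hf : ExpInv (expZipB RB m) f) : ExpInv (expZipA RA (m + 3)) (MA f) := by
  intro a a' h
  have h1 := h (by omega)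
  have e : (m + 3 - 1) / 2 = m / 2 + 1 := by omega
  rw [e] at h1
  exact Cf (m / 2) f hf a a' h1

theorem exp_zip_Cr (hcB : ∀ g : A → ℝ, (∀ a a', g a = g a') → ∀ b b', MB g b = MB g b')
    (Cr : ∀ h g, ExpInv (RA h) g → ExpInv (RB (h + 2)) (MB g)) (m : ℕ) (g : A → ℝ)
    (hg : ExpInv (expZipA RA m) g) : ExpInv (expZipB RB (m + 3)) (MB g) := by
  intro b b' h
  rcases Nat.eq_zero_or_pos m with rfl | hm
  · exact hcB g (fun a a' => hg a a' (fun h0 => absurd h0 (by omega))) b b'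
  · have e : (m + 3) / 2 = (m - 1) / 2 + 2 := by omega
    have h1 : RB ((m - 1) / 2 + 2) b b' := by
      rw [← e]; exact h
    exact Cr ((m - 1) / 2) g (fun a a' H => hg a a' (fun _ => H)) b b' h1

theorem exp_zip_Vf (hB0 : ∀ b b', RB 0 b b')
    (hcA : ∀ f : B → ℝ, (∀ b b', f b = f b') → ∀ a a', MA f a = MA f a') (n : ℕ) (v1 : ℝ)
    (hv1 : 0 ≤ v1)
    (Vf : ∀ J, 1 ≤ J → J ≤ n → ∀ φ, ExpInv (RB J) φ →
      ∃ μ, ExpInv (RA (J - 1)) μ ∧ ∑ a, (MA φ a - μ a) ^ 2 ≤ v1 * ∑ b, φ b ^ 2)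
    (m : ℕ) (hm : (m + 1) / 2 ≤ n) (f : B → ℝ) (hf : ExpInv (expZipB RB (m + 1)) f) :
    ∃ μ, ExpInv (expZipA RA m) μ ∧ ∑ a, (MA f a - μ a) ^ 2 ≤ v1 * ∑ b, f b ^ 2 := by
  rcases Nat.eq_zero_or_pos m with rfl | hmpos
  · refine ⟨MA f, fun a a' _ => hcA f (fun b b' => hf b b' (hB0 b b')) a a', ?_⟩
    simp only [sub_self, ne_eq, OfNat.ofNat_ne_zero, not_false_eq_true, zero_pow,
      Finset.sum_const_zero]
    exact mul_nonneg hv1 (Finset.sum_nonneg fun y _ => sq_nonneg _)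
  · obtain ⟨μ, hμ, hμn⟩ := Vf ((m + 1) / 2) (by omega) hm f hf
    refine ⟨μ, fun a a' h => hμ a a' ?_, hμn⟩
    have e : (m + 1) / 2 - 1 = (m - 1) / 2 := by omega
    rw [e]
    exact h hmpos

theorem exp_zip_Vr (n : ℕ) (v1 : ℝ)
    (Vr : ∀ h, h ≤ n → ∀ g, ExpInv (RA h) g →
      ∃ μ, ExpInv (RB h) μ ∧ ∑ b, (MB g b - μ b) ^ 2 ≤ v1 * ∑ a, g a ^ 2)
    (m : ℕ) (hm : m / 2 ≤ n) (g : A → ℝ) (hg : ExpInv (expZipA RA (m + 1)) g) :
    ∃ μ, ExpInv (expZipB RB m) μ ∧ ∑ b, (MB g b - μ b) ^ 2 ≤ v1 * ∑ a, g a ^ 2 := by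
  refine Vr (m / 2) hm g fun a a' H => hg a a' fun _ => ?_
  simpa using H

/-- **KK Lemma exp:mean-gap, Case A** (the last active block belongs to `A`). -/
theorem exp_term_A (hRA : ∀ h a a', RA (h + 1) a a' → RA h a a')
    (hRB : ∀ j b b', RB (j + 1) b b' → RB j b b') (hB0 : ∀ b b', RB 0 b b')
    (hadj : ∀ g f, ∑ a, g a * MA f a = ∑ b, MB g b * f b)
    (hcA : ∀ f : B → ℝ, (∀ b b', f b = f b') → ∀ a a', MA f a = MA f a')
    (hcB : ∀ g : A → ℝ, (∀ a a', g a = g a') → ∀ b b', MB g b = MB g b')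
    (n : ℕ) (v1 v2 : ℝ) (hv1 : 0 ≤ v1) (hv2 : 0 ≤ v2)
    (Cf : ∀ J φ, ExpInv (RB J) φ → ExpInv (RA (J + 1)) (MA φ))
    (Cr : ∀ h g, ExpInv (RA h) g → ExpInv (RB (h + 2)) (MB g))
    (Vf : ∀ J, 1 ≤ J → J ≤ n → ∀ φ, ExpInv (RB J) φ →
      ∃ μ, ExpInv (RA (J - 1)) μ ∧ ∑ a, (MA φ a - μ a) ^ 2 ≤ v1 * ∑ b, φ b ^ 2)
    (Vr : ∀ h, h ≤ n → ∀ g, ExpInv (RA h) g →
      ∃ μ, ExpInv (RB h) μ ∧ ∑ b, (MB g b - μ b) ^ 2 ≤ v1 * ∑ a, g a ^ 2)
    (Ta : ∀ φ, ∃ μ, ExpInv (RA n) μ ∧ ∑ a, (MA φ a - μ a) ^ 2 ≤ v2 * ∑ b, φ b ^ 2)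
    (φ : B → ℝ) (hφ : ∑ b, φ b = 0) :
    ∑ a, (MA φ a) ^ 2 ≤ (49 * v1 + v2) * ∑ b, φ b ^ 2 := by
  have hs1 : Real.sqrt v1 ^ 2 = v1 := Real.sq_sqrt hv1
  have hs2 : Real.sqrt v2 ^ 2 = v2 := Real.sq_sqrt hv2
  have key := exp_bands_term_fun (expZipB RB) (expZipA RA) (expZipB_succ RB hRB)
    (expZipA_succ RA hRA) MB MA (fun g f => by
      have e1 : ∑ x, g x * MB f x = ∑ x, MB f x * g x :=
        Finset.sum_congr rfl fun x _ => mul_comm _ _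
      have e2 : ∑ y, MA g y * f y = ∑ y, f y * MA g y :=
        Finset.sum_congr rfl fun x _ => mul_comm _ _
      rw [e1, e2, hadj]) 3 (2 * n + 1) (Real.sqrt v1) (Real.sqrt v2)
    (Real.sqrt_nonneg _) (Real.sqrt_nonneg _)
    (fun m _ g hg => exp_zip_Cr RA RB MB hcB Cr m g hg)
    (fun m _ f hf => exp_zip_Cf RA RB MA Cf m f hf)
    (fun f hf a a' _ => hcA f (fun b b' => hf b b' (hB0 b b')) a a')
    (fun g hg b b' _ => hcB g (fun a a' => hg a a' (fun h0 => absurd h0 (by omega))) b b')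
    (fun m hm g hg => by
      rw [hs1]
      exact exp_zip_Vr RA RB MB n v1 Vr m (by omega) g hg)
    (fun m hm f hf => by
      rw [hs1]
      exact exp_zip_Vf RA RB MA hB0 hcA n v1 hv1 Vf m (by omega) f hf)
    (fun f => by
      rw [hs2]
      obtain ⟨μ, hμ, hμn⟩ := Ta f
      refine ⟨μ, fun a a' h => hμ a a' ?_, hμn⟩
      have h1 := h (by omega)
      have e : (2 * n + 1 - 1) / 2 = n := by omega
      rwa [e] at h1)
    (fun b b' => hB0 b b') φ hφ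
  have e : ((2 * ((3 : ℕ) : ℝ) + 1) * Real.sqrt v1) ^ 2 + Real.sqrt v2 ^ 2 = 49 * v1 + v2 := by
    rw [mul_pow, hs1, hs2]; norm_num
  rw [e] at key
  exact key

/-- **KK Lemma exp:mean-gap, Case B** (the last active block belongs to `B`). -/
theorem exp_term_B (hRA : ∀ h a a', RA (h + 1) a a' → RA h a a')
    (hRB : ∀ j b b', RB (j + 1) b b' → RB j b b') (hB0 : ∀ b b', RB 0 b b')
    (hadj : ∀ g f, ∑ a, g a * MA f a = ∑ b, MB g b * f b)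
    (hcA : ∀ f : B → ℝ, (∀ b b', f b = f b') → ∀ a a', MA f a = MA f a')
    (hcB : ∀ g : A → ℝ, (∀ a a', g a = g a') → ∀ b b', MB g b = MB g b')
    (n : ℕ) (v1 v2 : ℝ) (hv1 : 0 ≤ v1) (hv2 : 0 ≤ v2)
    (Cf : ∀ J φ, ExpInv (RB J) φ → ExpInv (RA (J + 1)) (MA φ))
    (Cr : ∀ h g, ExpInv (RA h) g → ExpInv (RB (h + 2)) (MB g))
    (Vf : ∀ J, 1 ≤ J → J ≤ n → ∀ φ, ExpInv (RB J) φ →
      ∃ μ, ExpInv (RA (J - 1)) μ ∧ ∑ a, (MA φ a - μ a) ^ 2 ≤ v1 * ∑ b, φ b ^ 2)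
    (Vr : ∀ h, h + 1 ≤ n → ∀ g, ExpInv (RA h) g →
      ∃ μ, ExpInv (RB h) μ ∧ ∑ b, (MB g b - μ b) ^ 2 ≤ v1 * ∑ a, g a ^ 2)
    (Tb : ∀ g, ∃ μ, ExpInv (RB n) μ ∧ ∑ b, (MB g b - μ b) ^ 2 ≤ v2 * ∑ a, g a ^ 2)
    (φ : B → ℝ) (hφ : ∑ b, φ b = 0) :
    ∑ a, (MA φ a) ^ 2 ≤ (49 * v1 + v2) * ∑ b, φ b ^ 2 := by
  have hs1 : Real.sqrt v1 ^ 2 = v1 := Real.sq_sqrt hv1
  have hs2 : Real.sqrt v2 ^ 2 = v2 := Real.sq_sqrt hv2
  refine exp_adj_bound MA MB hadj hcB (49 * v1 + v2) (by positivity) ?_ φ hφ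
  intro g hg0
  have key := exp_bands_term_fun (expZipA RA) (expZipB RB) (expZipA_succ RA hRA)
    (expZipB_succ RB hRB) MA MB hadj 3 (2 * n) (Real.sqrt v1) (Real.sqrt v2)
    (Real.sqrt_nonneg _) (Real.sqrt_nonneg _)
    (fun m _ f hf => exp_zip_Cf RA RB MA Cf m f hf)
    (fun m _ g hg => exp_zip_Cr RA RB MB hcB Cr m g hg)
    (fun g hg b b' _ => hcB g (fun a a' => hg a a' (fun h0 => absurd h0 (by omega))) b b')
    (fun f hf a a' _ => hcA f (fun b b' => hf b b' (hB0 b b')) a a')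
    (fun m hm f hf => by
      rw [hs1]
      exact exp_zip_Vf RA RB MA hB0 hcA n v1 hv1 Vf m (by omega) f hf)
    (fun m hm g hg => by
      rw [hs1]
      rcases Nat.eq_zero_or_pos n with rfl | hn
      · omega
      · exact exp_zip_Vr RA RB MB (n - 1) v1 (fun h hh => Vr h (by omega)) m (by omega) g hg)
    (fun g => by
      rw [hs2]
      obtain ⟨μ, hμ, hμn⟩ := Tb g
      refine ⟨μ, fun b b' h => hμ b b' ?_, hμn⟩
      have h1 : RB (2 * n / 2) b b' := h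
      have e : 2 * n / 2 = n := by omega
      rwa [e] at h1)
    (fun a a' h0 => absurd h0 (by omega)) g hg0
  have e : ((2 * ((3 : ℕ) : ℝ) + 1) * Real.sqrt v1) ^ 2 + Real.sqrt v2 ^ 2 = 49 * v1 + v2 := by
    rw [mul_pow, hs1, hs2]; norm_num
  rw [e] at key
  exact key

end kk

end Claimed.Agent.R300
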