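import Claimed.Agent.R300.DomBrSys
import Claimed.Agent.R300.GeoKKSets

/-!
# R300 / GeoKK: charts of the sheets

`DomBr.Dev g₀ x₀ z g`: the point `z` of the relator graph (in the component of `x₀`) is developed to
the group element `g`, when `x₀` is placed at `g₀`.  This relation is a label preserving bijection
between the component of `x₀` and the vertex set of the sheet through `g₀` at the position of `x₀`.
`DomBr.loc g₀ x₀ g` is the inverse chart as a function.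
-/

namespace Claimed.Agent.R300

namespace DomBr

open Shell

universe u v w

variable {S : Type u} {T : Type v} {Q : Type w} {Θ : RelSys S T Q}

/-- the developing relation of the sheet through `g₀` at `x₀` -/
def Dev (g₀ : Gam Θ) (x₀ z : T) (g : Gam Θ) : Prop :=
  ∃ a, Shell.Path Θ.E x₀ a z ∧ g = g₀ * gw Θ a

theorem Dev.refl (g₀ : Gam Θ) (x₀ : T) : Dev g₀ x₀ x₀ g₀ :=
  ⟨[], Shell.Path.nil _, by simp [gw_nil]⟩

theorem Dev.functional {g₀ g g' : Gam Θ} {x₀ z : T} (h : Dev g₀ x₀ z g) (h' : Dev g₀ x₀ z g') :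
    g = g' := by
  obtain ⟨a, h1, rfl⟩ := h
  obtain ⟨a', h1', rfl⟩ := h'
  rw [gw_same_end h1 h1']

theorem Dev.injective (hemb : Embeds Θ) {g₀ g : Gam Θ} {x₀ z z' : T} (h : Dev g₀ x₀ z g)
    (h' : Dev g₀ x₀ z' g) : z = z' := by
  obtain ⟨a, h1, rfl⟩ := h
  obtain ⟨a', h1', h2⟩ := h'
  have h3 : gw Θ a = gw Θ a' := mul_left_cancel h2
  have h4 : Shell.Path Θ.E z' (FreeGroup.invRev a' ++ a) z := (h1'.inv Θ.sym).append h1
  exact hemb h4 (by rw [gw_append, gw_invRev, h3, inv_mul_cancel])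

theorem Dev.edge {g₀ g : Gam Θ} {x₀ z z' : T} {l : S × Bool} (h : Dev g₀ x₀ z g)
    (e : Θ.E z l z') : Dev g₀ x₀ z' (g * gw Θ [l]) := by
  obtain ⟨a, h1, rfl⟩ := h
  exact ⟨a ++ [l], h1.concat e, by rw [gw_append, mul_assoc]⟩

theorem Dev.path {g₀ g : Gam Θ} {x₀ z z' : T} {b : List (S × Bool)} (h : Dev g₀ x₀ z g)
    (e : Shell.Path Θ.E z b z') : Dev g₀ x₀ z' (g * gw Θ b) := by
  obtain ⟨a, h1, rfl⟩ := h
  exact ⟨a ++ b, h1.append e, by rw [gw_append, mul_assoc]⟩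

theorem Dev.smul (γ : Gam Θ) {g₀ g : Gam Θ} {x₀ z : T} (h : Dev g₀ x₀ z g) :
    Dev (γ * g₀) x₀ z (γ * g) := by
  obtain ⟨a, h1, rfl⟩ := h
  exact ⟨a, h1, by rw [mul_assoc]⟩

theorem Dev.symm {g₀ g : Gam Θ} {x₀ z : T} (h : Dev g₀ x₀ z g) : Dev g z x₀ g₀ := by
  obtain ⟨a, h1, rfl⟩ := h
  exact ⟨FreeGroup.invRev a, h1.inv Θ.sym, by rw [gw_invRev, mul_inv_cancel_right]⟩

theorem Dev.trans {g₀ g₁ g : Gam Θ} {x₀ x₁ z : T} (h : Dev g₀ x₀ x₁ g₁) (h' : Dev g₁ x₁ z g) :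
    Dev g₀ x₀ z g := by
  obtain ⟨a, h1, rfl⟩ := h'
  exact h.path h1

/-- change of the base incidence inside the sheet -/
theorem dev_base_iff {g₀ g₁ g : Gam Θ} {x₀ x₁ z : T} (h : Dev g₀ x₀ x₁ g₁) :
    Dev g₁ x₁ z g ↔ Dev g₀ x₀ z g :=
  ⟨fun h' => h.trans h', fun h' => h.symm.trans h'⟩

/-- change of the base point inside its position class -/
theorem Dev.transport {g₀ g : Gam Θ} {x₀ x₀' z : T} (h : Dev g₀ x₀ z g)
    (hx : Θ.pos x₀ = Θ.pos x₀') : ∃ z', Θ.pos z' = Θ.pos z ∧ Dev g₀ x₀' z' g := by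
  obtain ⟨a, h1, rfl⟩ := h
  obtain ⟨z', h2, h3⟩ := pos_path hx h1
  exact ⟨z', h3, a, h2, rfl⟩

section
variable (hemb : Embeds Θ) (hpos : Function.Surjective Θ.pos)

theorem Dev.sheet {g₀ g : Gam Θ} {x₀ z : T} (h : Dev g₀ x₀ z g) :
    (toSys hemb hpos).sheet (g, Θ.pos z) = (toSys hemb hpos).sheet (g₀, Θ.pos x₀) := by
  obtain ⟨a, h1, h2⟩ := h
  exact (sheet_eq_iff hemb hpos g₀ g x₀ (Θ.pos z)).2 ⟨a, z, h1, rfl, h2⟩

theorem exists_dev {g₀ g : Gam Θ} {x₀ : T} {q : Q}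
    (h : (toSys hemb hpos).sheet (g, q) = (toSys hemb hpos).sheet (g₀, Θ.pos x₀)) :
    ∃ z, Θ.pos z = q ∧ Dev g₀ x₀ z g := by
  obtain ⟨a, z, h1, h2, h3⟩ := (sheet_eq_iff hemb hpos g₀ g x₀ q).1 h
  exact ⟨z, h2, a, h1, h3⟩

/-- the vertex set of a sheet is the image of the developing relation -/
theorem mem_gkV_iff (g₀ g : Gam Θ) (x₀ : T) :
    g ∈ (toSys hemb hpos).gkV ((toSys hemb hpos).sheet (g₀, Θ.pos x₀)) ↔ ∃ z, Dev g₀ x₀ z g := by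
  constructor
  · rintro ⟨q, hq⟩
    obtain ⟨z, _, hz⟩ := exists_dev hemb hpos hq
    exact ⟨z, hz⟩
  · rintro ⟨z, hz⟩
    exact ⟨Θ.pos z, hz.sheet hemb hpos⟩

theorem Dev.gkTy [Nonempty Q] {g₀ g : Gam Θ} {x₀ z : T} (h : Dev g₀ x₀ z g) :
    (toSys hemb hpos).gkTy ((toSys hemb hpos).sheet (g₀, Θ.pos x₀)) g = Θ.pos z := by
  rw [← h.sheet hemb hpos]
  exact DomSys.gkTy_sheet g (Θ.pos z)

end

open Classical in
/-- the inverse chart: the point of the component of `x₀` which develops to `g`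
(junk value `x₀` outside the sheet) -/
noncomputable def loc (g₀ : Gam Θ) (x₀ : T) (g : Gam Θ) : T :=
  if h : ∃ z, Dev g₀ x₀ z g then h.choose else x₀

theorem loc_spec {g₀ g : Gam Θ} {x₀ : T} (h : ∃ z, Dev g₀ x₀ z g) :
    Dev g₀ x₀ (loc g₀ x₀ g) g := by
  unfold loc
  rw [dif_pos h]
  exact h.choose_spec

theorem Dev.loc_eq (hemb : Embeds Θ) {g₀ g : Gam Θ} {x₀ z : T} (h : Dev g₀ x₀ z g) :
    loc g₀ x₀ g = z :=
  (loc_spec ⟨z, h⟩).injective hemb h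

theorem loc_injOn {g₀ : Gam Θ} {x₀ : T} : Set.InjOn (loc g₀ x₀) {g | ∃ z, Dev g₀ x₀ z g} := by
  intro g hg g' hg' h
  have h1 := loc_spec hg
  have h2 := loc_spec hg'
  rw [h] at h1
  exact h1.functional h2

theorem loc_smul (hemb : Embeds Θ) (γ : Gam Θ) {g₀ g : Gam Θ} {x₀ : T}
    (h : ∃ z, Dev g₀ x₀ z g) : loc (γ * g₀) x₀ (γ * g) = loc g₀ x₀ g :=
  ((loc_spec h).smul γ).loc_eq hemb

theorem loc_edge (hemb : Embeds Θ) {g₀ g : Gam Θ} {x₀ z' : T} {l : S × Bool}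
    (h : ∃ z, Dev g₀ x₀ z g) (e : Θ.E (loc g₀ x₀ g) l z') : loc g₀ x₀ (g * gw Θ [l]) = z' :=
  ((loc_spec h).edge e).loc_eq hemb

end DomBr

end Claimed.Agent.R300
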