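import Claimed.Agent.R300.ShellMain
import Claimed.Agent.R300.ShellCover
import Claimed.Agent.R300.DomBrMain
import Claimed.Agent.R300.DomBrMetric
import Claimed.Agent.R300.GeoKKChart

/-!
# R300 / GeoKK: the geometry of the KK group (Section 7 of the KK paper), assembled

* `Shell.Metric Θ m a L c`: the metric small cancellation hypotheses on a relator system;
  they imply `C6` and `DomBr.C62`.
* `DomBr.GkDomains hemb hpos wt`: assigned domains `D q ⊆ V q` of the sheets: pairwise disjoint,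
  covering the group, `V q \ D q` finite of size `≤ wt x` for every point `x` of it, and the Cayley
  edges which are not internal to a domain form a forest.
* `DomBr.gk_main`: existence of the domains, torsion-freeness, for a metric relator system.
* `Shell.VGraph.gk_main`: the same for the voltage cover of a base graph (the KK case).
-/

namespace Claimed.Agent.R300

namespace Shell

universe u v w

variable {S : Type u} {T : Type v} {Q : Type w}

/-- The metric small cancellation hypotheses. -/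
structure Metric (Θ : RelSys S T Q) (m : T → ℝ) (a L c : ℝ) : Prop where
  m_nonneg : ∀ x, 0 ≤ m x
  a_nonneg : 0 ≤ a
  L_nonneg : 0 ≤ L
  lip : MLip Θ m a
  piece : MPiece Θ m L
  girth : MGirth Θ m c
  num5 : L * msum (1 + L * a) 5 ≤ c
  num62 : ∀ x, 2 * (L * msum (1 + L * a) 3 * m x) + 2 ≤ c * m x

theorem Metric.c6 {Θ : RelSys S T Q} {m : T → ℝ} {a L c : ℝ} (h : Metric Θ m a L c) : C6 Θ :=
  c6_of_metric h.m_nonneg h.a_nonneg h.L_nonneg h.lip h.piece h.girth h.num5

theorem Metric.c62 {Θ : RelSys S T Q} {m : T → ℝ} {a L c : ℝ} (h : Metric Θ m a L c) :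
    DomBr.C62 Θ := by
  intro x y y' u s u' hu hs hlen hu'
  exact c62_of_metric h.m_nonneg h.a_nonneg h.L_nonneg h.lip h.piece h.girth 3 2
    (by simpa using h.num62) hu hs hlen hu'

end Shell

namespace DomBr

open Shell

universe u v w

variable {S : Type u} {T : Type v} {Q : Type w} {Θ : RelSys S T Q}

/-- finitely many letters: the group is finitely generated -/
theorem gam_fg [Finite S] (Θ : RelSys S T Q) : Group.FG (Gam Θ) :=
  Group.fg_of_surjective (PresentedGroup.mk_surjective (rels Θ))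

/-- deck transformations of finite order are trivial -/
theorem gw_eq_one_of_finOrder (hemb : Embeds Θ) (htf : NoDeckTorsion Θ) ⦃x z : T⦄
    ⦃a : List (S × Bool)⦄ (h1 : Shell.Path Θ.E x a z) (h2 : Θ.pos z = Θ.pos x)
    (hfin : IsOfFinOrder (gw Θ a)) : gw Θ a = 1 := by
  obtain ⟨n, hn, hun⟩ := isOfFinOrder_iff_pow_eq_one.1 hfin
  obtain ⟨zn, h6, _⟩ := path_replicate h1 h2 n
  have h7 : zn = x := hemb h6 (by rw [gw_replicate, hun])
  subst h7
  have h8 : z = zn := htf hn h1 h2 h6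
  subst h8
  exact gw_closed h1

section
variable {vlev : Gam Θ → ℕ} {slev : Gam Θ → T → ℕ}
variable (hS : ShellSpec Θ vlev slev) (hpos : Function.Surjective Θ.pos)

/-- Two shared incidences of one sheet are joined by at most six pieces. -/
theorem fewPieces_six (hC : C62 Θ) (hL : AllLetters Θ) :
    FewPieces hS.embed hpos 6 (ord slev) (ord_inj slev) := by
  rintro ⟨g, q⟩ ⟨g', q'⟩ hs hp hp' x hx
  have hx' : Θ.pos x = q := hx
  subst hx'
  obtain ⟨wa, a₀, hpa, hva⟩ := hS.att_nonempty g x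
  have h0 : vlev (g * gw Θ wa) = slev (g * gw Θ wa) a₀ := by rw [hva, hS.slev_path g hpa]
  have hxa : Shell.Path Θ.E a₀ (FreeGroup.invRev wa) x := hpa.inv Θ.sym
  have hgx : g * gw Θ wa * gw Θ (FreeGroup.invRev wa) = g := by rw [gw_invRev]; group
  obtain ⟨b, z, hb1, hb2, hb3⟩ := (sheet_eq_iff hS.embed hpos g g' x q').1 hs.symm
  subst hb2
  obtain ⟨c₁, hc₁⟩ := removed_reach hS hpos hC hL h0 hxa (by rw [hgx]; exact hp)
  have hg' : g * gw Θ wa * gw Θ (FreeGroup.invRev wa ++ b) = g' := by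
    rw [gw_append, ← mul_assoc, hgx, hb3]
  obtain ⟨c₂, hc₂⟩ := removed_reach hS hpos hC hL h0 (hxa.append hb1) (by rw [hg']; exact hp')
  refine ⟨FreeGroup.invRev c₁ ++ c₂, z, hc₁.inv.append hc₂, rfl, ?_⟩
  show g' = g * gw Θ (FreeGroup.invRev c₁ ++ c₂)
  rw [hb3, gw_same_end hb1 ((hc₁.inv.append hc₂).path)]

end

/-- **Assigned domains of the sheets** (KK Proposition `geo:main`, in the form used in Section 10).
`wt x` bounds the size of the removed part of a sheet in terms of any of its points. -/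
structure GkDomains (hemb : Embeds Θ) (hpos : Function.Surjective Θ.pos) (wt : T → ℕ) where
  /-- the assigned domain of a sheet -/
  D : Sheets Θ → Set (Gam Θ)
  sub : ∀ q, D q ⊆ (toSys hemb hpos).gkV q
  disj : ∀ q q', q ≠ q' → Disjoint (D q) (D q')
  cover : ∀ g, ∃ q, g ∈ D q
  fin : ∀ q, ((toSys hemb hpos).gkV q \ D q).Finite
  card : ∀ q g x, g ∈ (toSys hemb hpos).gkV q \ D q → (toSys hemb hpos).sheet (g, Θ.pos x) = q →
    ((toSys hemb hpos).gkV q \ D q).ncard ≤ wt x
  /-- the Cayley edges which are not edges of a sheet with both ends in its domain -/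
  forest : DomForest domCs (domCt (sig Θ))
    {ε : Gam Θ × S | ¬ ∃ q x z, Θ.E x (ε.2, true) z ∧ (toSys hemb hpos).sheet (ε.1, Θ.pos x) = q ∧
      ε.1 ∈ D q ∧ ε.1 * sig Θ ε.2 ∈ D q}

/-- **The geometry of a metric small cancellation relator system.** -/
theorem gk_main [Nonempty T] {m : T → ℝ} {a L c : ℝ} (hM : Metric Θ m a L c) (hL : AllLetters Θ)
    (hpos : Function.Surjective Θ.pos) {Δ : ℕ} (hΔ : ∀ x : T, {l | ∃ z, Θ.E x l z}.encard ≤ Δ) :
    ∃ hemb : Embeds Θ,
      Nonempty (GkDomains hemb hpos (fun x => (Δ + 1) ^ ⌊L * msum (1 + L * a) 6 * m x⌋₊)) ∧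
      (NoDeckTorsion Θ → ∀ γ : Gam Θ, IsOfFinOrder γ → γ = 1) := by
  obtain ⟨vlev, slev, hS⟩ := shell_main hM.c6 hL
  have hC := hM.c62
  refine ⟨hS.embed, ⟨?_⟩, ?_⟩
  · set h := shelled hS hpos hC hL with hh
    have hk := fewPieces_six hS hpos hC hL
    have hdiff : ∀ q, (toSys hS.embed hpos).gkV q \ h.gkD q =
        {g | ∃ v, (toSys hS.embed hpos).sheet (g, v) = q ∧ h.Removed (g, v)} := by
      intro q
      ext g
      exact h.mem_gkV_diff_gkD q g
    refine
      { D := h.gkD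
        sub := h.gkD_subset
        disj := fun q q' hne => h.gkD_disjoint hne
        cover := ?_
        fin := ?_
        card := ?_
        forest := ?_ }
    · intro g
      obtain ⟨x₀⟩ := ‹Nonempty T›
      obtain ⟨x, hx⟩ := exists_retained hS hpos hC hL g x₀
      exact ⟨_, Θ.pos x, rfl, hx⟩
    · intro q
      by_cases hex : ∃ g v, (toSys hS.embed hpos).sheet (g, v) = q ∧ h.Removed (g, v)
      · obtain ⟨g, v, hv1, hv2⟩ := hex
        rw [hdiff, ← hv1]
        exact hk.removed_finite hM.m_nonneg hM.a_nonneg hM.L_nonneg hM.lip hM.piece hΔ hv2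
      · rw [hdiff]
        convert Set.finite_empty
        ext g
        constructor
        · rintro ⟨v, hv⟩
          exact hex ⟨g, v, hv⟩
        · intro hg
          exact hg.elim
    · intro q g x hg hx
      obtain ⟨v, hv1, hv2⟩ := (h.mem_gkV_diff_gkD q g).1 hg
      have hvx : v = Θ.pos x := (toSys hS.embed hpos).sheet_inj (hv1.trans hx.symm)
      subst hvx
      rw [hdiff, ← hv1]
      exact hk.removed_ncard_le hM.m_nonneg hM.a_nonneg hM.L_nonneg hM.lip hM.piece hΔ hv2 rfl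
    · refine (residual_forest hS hpos hC hL).mono ?_
      rintro ⟨g, s⟩ hε hint
      apply hε
      obtain ⟨x, z, h1, h2, h3⟩ := (internal_iff hS hpos hC hL g s).1 hint
      refine ⟨_, x, z, h1, rfl, ⟨Θ.pos x, rfl, h2⟩, ⟨Θ.pos z, ?_, h3⟩⟩
      exact (sheet_eq_iff hS.embed hpos g (g * sig Θ s) x (Θ.pos z)).2
        ⟨[(s, true)], z, path_single_iff.2 h1, rfl, rfl⟩
  · intro htf
    exact torsion_free hS hpos hC hL (gw_eq_one_of_finOrder hS.embed htf)

end DomBr

namespace Shell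

namespace VGraph

universe u v w

variable {S : Type u} {V : Type v} {F : Type w} [Group F] {Y : VGraph S V F}

theorem rel_pos_surjective (Y : VGraph S V F) : Function.Surjective Y.rel.pos :=
  fun a => ⟨(a, 1), rfl⟩

theorem allLetters_rel (h : ∀ l : S × Bool, ∃ a b, Y.E a l b) : AllLetters Y.rel := by
  intro l
  obtain ⟨a, b, hab⟩ := h l
  exact ⟨(a, 1), (b, 1 * Y.vol a l), hab, rfl⟩

theorem noDeckTorsion_rel (hF : ∀ f : F, IsOfFinOrder f → f = 1) : DomBr.NoDeckTorsion Y.rel :=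
  fun _ _ _ _ hn hp hpos hc => closes_of_pow hF hn hp hpos hc

theorem rel_degree {Δ : ℕ} (hΔ : ∀ a : V, {l | ∃ b, Y.E a l b}.encard ≤ Δ) (x : V × F) :
    {l | ∃ z, Y.rel.E x l z}.encard ≤ Δ :=
  by
  refine le_trans (Set.encard_le_encard ?_) (hΔ x.1)
  rintro l ⟨z, hz⟩
  exact ⟨z.1, hz.1⟩

/-- the metric hypotheses for the voltage cover, from the base graph -/
theorem BaseMetric.metric {Λ : V → ℝ} {ε c : ℝ} (h : BaseMetric Y Λ ε c) (hε : 0 ≤ ε)
    (hc : 0 ≤ c) (hcε : c * ε ≤ 2) (h5 : msum (1 + ε) 5 ≤ c)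
    (h62 : ∀ a, 2 * (msum (1 + ε) 3 * Λ a) + 2 ≤ c * Λ a) :
    Metric Y.rel (fun x => Λ x.1) ε 1 c where
  m_nonneg := fun x => h.nonneg x.1
  a_nonneg := hε
  L_nonneg := zero_le_one
  lip := h.mlip
  piece := h.mpiece
  girth := h.mgirth hc hcε
  num5 := by simpa using h5
  num62 := fun x => by simpa using h62 x.1

/-- **KK Section 7.** The group of the voltage cover of a base graph with the properties (Y1)-(Y5):
finitely generated, torsion-free, sheets embed, assigned domains. -/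
theorem gk_main [Finite S] [Nonempty V] {Λ : V → ℝ} {ε c : ℝ} (h : BaseMetric Y Λ ε c)
    (hε : 0 ≤ ε) (hc : 0 ≤ c) (hcε : c * ε ≤ 2) (h5 : msum (1 + ε) 5 ≤ c)
    (h62 : ∀ a, 2 * (msum (1 + ε) 3 * Λ a) + 2 ≤ c * Λ a)
    (hL : ∀ l : S × Bool, ∃ a b, Y.E a l b) (hF : ∀ f : F, IsOfFinOrder f → f = 1) {Δ : ℕ}
    (hΔ : ∀ a : V, {l | ∃ b, Y.E a l b}.encard ≤ Δ) :
    Group.FG (Gam Y.rel) ∧ (∀ γ : Gam Y.rel, IsOfFinOrder γ → γ = 1) ∧
      ∃ hemb : DomBr.Embeds Y.rel,
        Nonempty (DomBr.GkDomains hemb Y.rel_pos_surjective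
          (fun x => (Δ + 1) ^ ⌊msum (1 + ε) 6 * Λ x.1⌋₊)) := by
  obtain ⟨hemb, hD, htf⟩ := DomBr.gk_main (h.metric hε hc hcε h5 h62) (allLetters_rel hL)
    Y.rel_pos_surjective (rel_degree hΔ)
  refine ⟨DomBr.gam_fg Y.rel, htf (noDeckTorsion_rel hF), hemb, ?_⟩
  simpa using hD

end VGraph

end Shell

end Claimed.Agent.R300
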