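import Claimed.Agent.R300.ShellCover

/-!
# Shelling library: refinement of the labels by tags, restriction to the used letters

`Y : VGraph S V F`, `τ a s` the tag of the positive edge issued from `a` with the letter `s`.
`Y.refine τ` is the same graph with voltages, labelled by the pairs `(s, t)` (letter, tag) which
occur on an edge.  Every signed letter of the new alphabet occurs on an edge, and all hypotheses of
the geometry (`BaseMetric`, degree bound, finiteness of the alphabet) are inherited.
-/

namespace Claimed.Agent.R300.Shell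

namespace VGraph

universe u v w t

variable {S : Type u} {V : Type v} {F : Type w} [Group F] {Tg : Type t}

/-- the refined alphabet: pairs (letter, tag) which occur on a positive edge -/
def RLet (Y : VGraph S V F) (τ : V → S → Tg) : Type (max u t) :=
  {p : S × Tg // ∃ a b, Y.E a (p.1, true) b ∧ τ a p.1 = p.2}

variable (Y : VGraph S V F) (τ : V → S → Tg)

instance [Finite S] [Finite Tg] : Finite (RLet Y τ) := Subtype.finite

variable {Y τ}

/-- the underlying letter -/
def RLet.let (p : RLet Y τ) : S := p.1.1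
/-- the tag of a refined letter -/
def RLet.tag (p : RLet Y τ) : Tg := p.1.2

theorem RLet.ext' {p p' : RLet Y τ} (h1 : p.let = p'.let) (h2 : p.tag = p'.tag) : p = p' :=
  Subtype.ext (Prod.ext h1 h2)

/-- projection of signed letters -/
def rproj (l : RLet Y τ × Bool) : S × Bool := (l.1.let, l.2)

theorem rproj_linv (l : RLet Y τ × Bool) : rproj (linv l) = linv (rproj l) := rfl

variable (Y τ)

/-- the edges of the refined graph -/
def rE : V → RLet Y τ × Bool → V → Prop :=
  fun a l b => Y.E a (rproj l) b ∧ (if l.2 then τ a l.1.let else τ b l.1.let) = l.1.tag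

/-- The refinement of a graph with voltages by tags. -/
def refine : VGraph (RLet Y τ) V F where
  E := rE Y τ
  sym := by
    rintro a ⟨p, β⟩ b ⟨h1, h2⟩
    refine ⟨Y.sym h1, ?_⟩
    cases β <;> simpa [linv] using h2
  det := by
    rintro a l b c ⟨h1, _⟩ ⟨h2, _⟩
    exact Y.det h1 h2
  vol := fun a l => Y.vol a (rproj l)
  vol_inv := by
    rintro a l b ⟨h1, _⟩
    rw [rproj_linv]
    exact Y.vol_inv h1

variable {Y τ}

theorem refine_allLetters (l : RLet Y τ × Bool) : ∃ a b, (Y.refine τ).E a l b := by
  obtain ⟨p, β⟩ := l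
  obtain ⟨a, b, h1, h2⟩ := p.2
  have h : (Y.refine τ).E a (p, true) b := ⟨h1, h2⟩
  cases β
  · exact ⟨b, a, (Y.refine τ).sym h⟩
  · exact ⟨a, b, h⟩

theorem rpath_proj {a b : V} {w : List (RLet Y τ × Bool)} (h : Path (Y.refine τ).E a w b) :
    Path Y.E a (w.map rproj) b := by
  induction h with
  | nil => exact Path.nil _
  | cons e _ ih => exact Path.cons e.1 ih

theorem rcpath_proj {x z : V × F} {w : List (RLet Y τ × Bool)}
    (h : Path (Y.refine τ).cE x w z) : Path Y.cE x (w.map rproj) z := by
  induction h with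
  | nil => exact Path.nil _
  | cons e _ ih => exact Path.cons ⟨e.1.1, e.2⟩ ih

/-- every edge of the graph carries exactly one refined letter -/
theorem exists_refined_edge {a b : V} {l : S × Bool} (h : Y.E a l b) :
    ∃ l' : RLet Y τ × Bool, rproj l' = l ∧ (Y.refine τ).E a l' b := by
  obtain ⟨s, β⟩ := l
  cases β
  · have h' : Y.E b (s, true) a := by simpa [linv] using Y.sym h
    exact ⟨(⟨(s, τ b s), b, a, h', rfl⟩, false), rfl, h, by simp [RLet.let, RLet.tag]⟩
  · exact ⟨(⟨(s, τ a s), a, b, h, rfl⟩, true), rfl, h, by simp [RLet.let, RLet.tag]⟩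

theorem rpath_lift {a b : V} {u : List (S × Bool)} (h : Path Y.E a u b) :
    ∃ w : List (RLet Y τ × Bool), w.map rproj = u ∧ Path (Y.refine τ).E a w b := by
  induction h with
  | nil => exact ⟨[], rfl, Path.nil _⟩
  | cons e _ ih =>
    obtain ⟨w, hw1, hw2⟩ := ih
    obtain ⟨l', hl1, hl2⟩ := exists_refined_edge (τ := τ) e
    exact ⟨l' :: w, by simp [hl1, hw1], Path.cons hl2 hw2⟩

/-- the projection is injective on the letters readable at a vertex -/
theorem rproj_injOn (a : V) : Set.InjOn rproj {l : RLet Y τ × Bool | ∃ b, (Y.refine τ).E a l b} := by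
  rintro ⟨p, β⟩ ⟨b, h1, h2⟩ ⟨p', β'⟩ ⟨b', h1', h2'⟩ h
  have hl : p.let = p'.let := congrArg (fun l : S × Bool => l.1) h
  have hβ : β = β' := congrArg (fun l : S × Bool => l.2) h
  subst hβ
  have hb : b = b' := by
    have : rproj (p, β) = rproj (p', β) := h
    rw [this] at h1
    exact Y.det h1 h1'
  subst hb
  have ht : p.tag = p'.tag := by
    rw [← h2, ← h2']
    simp only [hl]
  rw [RLet.ext' hl ht]

theorem refine_degree {Δ : ℕ} (hΔ : ∀ a : V, {l | ∃ b, Y.E a l b}.encard ≤ Δ) (a : V) :
    {l | ∃ b, (Y.refine τ).E a l b}.encard ≤ Δ := by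
  refine le_trans (Set.encard_le_encard_of_injOn (f := rproj) (t := {l | ∃ b, Y.E a l b}) ?_
    (rproj_injOn a)) (hΔ a)
  rintro l ⟨b, hb⟩
  exact ⟨b, hb.1⟩

/-- two consecutive refined letters on a path whose projections cancel are inverse to each other -/
theorem cancel_of_proj {a b c : V} {l₁ l₂ : RLet Y τ × Bool} (h₁ : (Y.refine τ).E a l₁ b)
    (h₂ : (Y.refine τ).E b l₂ c) (hs : l₁.1.let = l₂.1.let) (hβ : l₁.2 ≠ l₂.2) : l₁.1 = l₂.1 := by
  have h3 := (Y.refine τ).sym h₁
  have hp : rproj (linv l₁) = rproj l₂ := by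
    obtain ⟨p₁, β₁⟩ := l₁
    obtain ⟨p₂, β₂⟩ := l₂
    simp only [rproj, linv] at *
    rw [hs]
    congr 1
    cases β₁ <;> cases β₂ <;> simp_all
  have := rproj_injOn (τ := τ) b ⟨a, h3⟩ ⟨c, h₂⟩ hp
  have h5 : (linv l₁).1 = l₂.1 := congrArg Prod.fst this
  exact h5

/-- readable reduced words project to reduced words -/
theorem isReduced_proj {w : List (RLet Y τ × Bool)} :
    ∀ {a b : V}, Path (Y.refine τ).E a w b → FreeGroup.IsReduced w →
      FreeGroup.IsReduced (w.map rproj) := by
  induction w with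
  | nil => intro _ _ _ _; exact FreeGroup.IsReduced.nil
  | cons l w ih =>
    intro a b h hr
    obtain ⟨a₁, e₁, h'⟩ := path_cons_iff.1 h
    have hr' : FreeGroup.IsReduced w := (List.isChain_cons.1 hr).2
    have ih' := ih h' hr'
    cases w with
    | nil => exact FreeGroup.IsReduced.singleton
    | cons l' w' =>
      obtain ⟨a₂, e₂, _⟩ := path_cons_iff.1 h'
      refine List.IsChain.cons_cons ?_ ih'
      intro hs
      by_contra hβ
      have h4 := cancel_of_proj e₁ e₂ hs hβ
      exact hβ ((List.isChain_cons_cons.1 hr).1 h4)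

/-- closed readable cyclically reduced words project to cyclically reduced words -/
theorem isCyclicallyReduced_proj {w : List (RLet Y τ × Bool)} {a : V}
    (h : Path (Y.refine τ).E a w a) (hr : FreeGroup.IsCyclicallyReduced w) :
    FreeGroup.IsCyclicallyReduced (w.map rproj) := by
  refine ⟨isReduced_proj h hr.1, ?_⟩
  intro x hx y hy hxy
  rw [List.getLast?_map] at hx
  rw [List.head?_map] at hy
  obtain ⟨l₁, hl₁, rfl⟩ := Option.mem_map.1 hx
  obtain ⟨l₂, hl₂, rfl⟩ := Option.mem_map.1 hy
  by_contra hβ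
  -- the last edge ends at `a`, the first one starts at `a`
  obtain ⟨w₁, rfl⟩ : ∃ w₁, w = w₁ ++ [l₁] := by
    have := List.mem_getLast?_eq_getLast hl₁
    obtain ⟨hne, rfl⟩ := this
    exact ⟨w.dropLast, (List.dropLast_append_getLast hne).symm⟩
  obtain ⟨b, _, e₁⟩ := path_append_iff.1 h
  have e₁' := path_single_iff.1 e₁
  have e₂ : ∃ c, (Y.refine τ).E a l₂ c := by
    cases w₁ with
    | nil =>
      simp only [List.nil_append, List.head?_cons, Option.mem_def, Option.some.injEq] at hl₂
      subst hl₂
      have h' : Path (Y.refine τ).E a [l₁] a := h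
      exact ⟨a, path_single_iff.1 h'⟩
    | cons l w' =>
      simp only [List.cons_append, List.head?_cons, Option.mem_def, Option.some.injEq] at hl₂
      subst hl₂
      obtain ⟨c, hc, _⟩ := path_cons_iff.1 h
      exact ⟨c, hc⟩
  obtain ⟨c, e₂⟩ := e₂
  have h4 := cancel_of_proj e₁' e₂ hxy hβ
  exact hβ (hr.2 l₁ hl₁ l₂ hl₂ h4)

/-- **The hypotheses of the geometry are inherited by the refinement.** -/
theorem BaseMetric.refine {Λ : V → ℝ} {ε c : ℝ} (h : BaseMetric Y Λ ε c) :
    BaseMetric (Y.refine τ) Λ ε c where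
  nonneg := h.nonneg
  lip := fun _ _ _ e => h.lip e.1
  uniq := by
    intro a a' b b' p hp h1 h2 hlen
    exact h.uniq (isReduced_proj h1 hp) (rpath_proj h1) (rpath_proj h2) (by simpa using hlen)
  girth := by
    intro a w hne hc hp
    have h1 := h.girth (w := w.map rproj) (by simpa using hne)
      (isCyclicallyReduced_proj (cpath_fst hp) hc) (rcpath_proj hp)
    simpa using h1

end VGraph

end Claimed.Agent.R300.Shell
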