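import Claimed.Agent.R300.KkIface
import Claimed.Agent.R300.ShellRefine
import Claimed.Agent.R300.GeoKKMain

/-!
# R300 / GeoKK: the geometry for the KK tower

`𝕋 : KkTower l ε₀`, voltages `vol` in a torsion-free group `F` on the edges of `Y`, tags `τ` on the
positive edges (the matrix weights of Section 9).  If the cyclically reduced closed walks of the
voltage cover at `a` are longer than `20 Λ_a = 500 H_a / l` and `l ≥ 1000`, the group of the
(refined) voltage cover is finitely generated, torsion-free, its sheets embed and have assigned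
domains with removed parts of size `≤ 2 ^ (2240 H)`.
-/

namespace Claimed.Agent.R300

open Shell

namespace DomBr

universe u v w

variable {S : Type u} {T : Type v} {Q : Type w} {Θ : RelSys S T Q}

/-- weakening of the size bound -/
def GkDomains.mono {hemb : Embeds Θ} {hpos : Function.Surjective Θ.pos} {wt wt' : T → ℕ}
    (G : GkDomains hemb hpos wt) (h : ∀ x, wt x ≤ wt' x) : GkDomains hemb hpos wt' where
  D := G.D
  sub := G.sub
  disj := G.disj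
  cover := G.cover
  fin := G.fin
  card := fun q g x hg hx => (G.card q g x hg hx).trans (h x)
  forest := G.forest

end DomBr

/-! ### numerics -/

theorem gk_msum5 : msum (41 / 40) 5 ≤ 20 := by
  norm_num [msum, Finset.sum_range_succ]

theorem gk_msum3 : msum (41 / 40) 3 ≤ 4 := by
  norm_num [msum, Finset.sum_range_succ]

theorem gk_msum6 : msum (41 / 40) 6 ≤ 32 / 5 := by
  norm_num [msum, Finset.sum_range_succ]

theorem gk_eps_le {l : ℕ} (hl : 1000 ≤ l) : (25 : ℝ) / l ≤ 1 / 40 := by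
  have h1 : (1000 : ℝ) ≤ l := by exact_mod_cast hl
  rw [div_le_div_iff₀ (by linarith) (by norm_num)]
  linarith

theorem gk_alphabet_le {l : ℕ} (hl : 1000 ≤ l) : 2 * kkM l + 1 ≤ 2 ^ (14 * l) := by
  have h1 : l < 2 ^ l := Nat.lt_two_pow_self
  have h2 : l ^ 2 ≤ 2 ^ (2 * l) := by
    calc l ^ 2 ≤ (2 ^ l) ^ 2 := Nat.pow_le_pow_left h1.le 2
      _ = 2 ^ (2 * l) := by rw [← pow_mul, mul_comm]
  have h3 : (2 : ℕ) ^ 25 ≤ 2 ^ l := Nat.pow_le_pow_right (by norm_num) (by omega)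
  have h4 : 2 * kkM l + 1 ≤ 2 ^ 25 * l ^ 2 * 2 ^ (11 * l) := by
    have e1 : kkM l = 27 * 320 ^ 2 * 4 * (l ^ 2 * 2 ^ (11 * l)) := by
      unfold kkM kkd
      rw [mul_pow, pow_add, show 11 * l = 4 * l + 7 * l by ring, pow_add]
      ring
    have h5 : 1 ≤ l ^ 2 * 2 ^ (11 * l) :=
      Nat.one_le_iff_ne_zero.2 (by positivity)
    rw [e1]
    nlinarith
  calc 2 * kkM l + 1 ≤ 2 ^ 25 * l ^ 2 * 2 ^ (11 * l) := h4
    _ ≤ 2 ^ l * 2 ^ (2 * l) * 2 ^ (11 * l) := by gcongr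
    _ = 2 ^ (14 * l) := by rw [← pow_add, ← pow_add]; congr 1; ring

namespace KkTower

variable {l : ℕ} {ε₀ : ℝ} (𝕋 : KkTower l ε₀)

/-- the scale `Λ_v = L_i = 25 H_i / l` -/
noncomputable def gkLam (v : 𝕋.V0) : ℝ := 25 * (kkH l (𝕋.lay v) : ℝ) / l

/-- the base graph `Y` with voltages -/
def gkGraph {F : Type} [Group F] (vol : 𝕋.V0 → 𝕋.S × Bool → F)
    (hvol : ∀ a lt b, 𝕋.EY a lt b → vol b (linv lt) = (vol a lt)⁻¹) : VGraph 𝕋.S 𝕋.V0 F where
  E := 𝕋.EY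
  sym := 𝕋.EY_sym
  det := 𝕋.EY_det
  vol := vol
  vol_inv := fun a lt b h => hvol a lt b h

theorem gk_nonempty : Nonempty 𝕋.V0 := by
  have h : 0 < (𝕋.lB 0).card := by rw [𝕋.cardB]; positivity
  obtain ⟨v, _⟩ := Finset.card_pos.1 h
  exact ⟨v⟩

theorem gkH_lip {x y : 𝕋.V0} {lt : 𝕋.S × Bool} (h : 𝕋.EY x lt y) :
    kkH l (𝕋.lay y) ≤ kkH l (𝕋.lay x) + 1 := by
  have h1 := 𝕋.EY_lay h
  unfold kkH
  have h2 := abs_le.1 h1
  omega

theorem gkLam_ge (hl : 0 < l) (v : 𝕋.V0) : 25 ≤ 𝕋.gkLam v := by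
  have hl' : (0 : ℝ) < l := by exact_mod_cast hl
  unfold gkLam
  rw [le_div_iff₀ hl']
  have h1 : l ≤ kkH l (𝕋.lay v) := by unfold kkH; omega
  have h2 : (l : ℝ) ≤ kkH l (𝕋.lay v) := by exact_mod_cast h1
  linarith

variable {F : Type} [Group F] (vol : 𝕋.V0 → 𝕋.S × Bool → F)
  (hvol : ∀ a lt b, 𝕋.EY a lt b → vol b (linv lt) = (vol a lt)⁻¹)

/-- the hypotheses (Y2)-(Y4) -/
theorem gk_baseMetric (hl : 0 < l)
    (hgirth : ∀ (a : 𝕋.V0) (w : List (𝕋.S × Bool)), w ≠ [] → FreeGroup.IsCyclicallyReduced w →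
      Path (𝕋.gkGraph vol hvol).cE (a, 1) w (a, 1) → 500 * kkH l (𝕋.lay a) < l * w.length) :
    VGraph.BaseMetric (𝕋.gkGraph vol hvol) 𝕋.gkLam (25 / l) 20 where
  nonneg := fun a => le_trans (by norm_num) (𝕋.gkLam_ge hl a)
  lip := by
    intro a lt b h
    have hl' : (0 : ℝ) < l := by exact_mod_cast hl
    have h1 : (kkH l (𝕋.lay b) : ℝ) ≤ kkH l (𝕋.lay a) + 1 := by exact_mod_cast 𝕋.gkH_lip h
    unfold gkLam
    rw [← add_div]
    gcongr
    linarith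
  uniq := by
    intro a a' b b' p hp h1 h2 hlen
    have hl' : (0 : ℝ) < l := by exact_mod_cast hl
    refine (𝕋.uniq a a' b b' p hp h1 h2 ?_).symm
    unfold gkLam at hlen
    rw [div_le_iff₀ hl'] at hlen
    have : (25 * kkH l (𝕋.lay a) : ℝ) ≤ l * p.length := by linarith
    exact_mod_cast this
  girth := by
    intro a w hne hc hp
    have hl' : (0 : ℝ) < l := by exact_mod_cast hl
    have h1 := hgirth a w hne hc hp
    have h2 : (500 * kkH l (𝕋.lay a) : ℝ) < l * w.length := by exact_mod_cast h1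
    unfold gkLam
    rw [mul_div_assoc', div_lt_iff₀ hl']
    linarith

/-- the size bound -/
theorem gk_weight_le (hl : 1000 ≤ l) (v : 𝕋.V0) :
    (2 * kkM l + 1) ^ ⌊msum (1 + 25 / (l : ℝ)) 6 * 𝕋.gkLam v⌋₊ ≤ 2 ^ (2240 * kkH l (𝕋.lay v)) := by
  have hl0 : 0 < l := by omega
  have hl' : (0 : ℝ) < l := by exact_mod_cast hl0
  set n := ⌊msum (1 + 25 / (l : ℝ)) 6 * 𝕋.gkLam v⌋₊ with hn
  have hΛ : 0 ≤ 𝕋.gkLam v := le_trans (by norm_num) (𝕋.gkLam_ge hl0 v)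
  have hm : msum (1 + 25 / (l : ℝ)) 6 ≤ 32 / 5 :=
    le_trans (msum_le_msum (by positivity) (by have := gk_eps_le hl; linarith) 6) gk_msum6
  have h1 : (n : ℝ) ≤ msum (1 + 25 / (l : ℝ)) 6 * 𝕋.gkLam v :=
    Nat.floor_le (mul_nonneg (msum_nonneg (by positivity) 6) hΛ)
  have h2 : (n : ℝ) ≤ 32 / 5 * 𝕋.gkLam v := h1.trans (mul_le_mul_of_nonneg_right hm hΛ)
  have h3 : (n : ℝ) * l ≤ 160 * kkH l (𝕋.lay v) := by
    have e : 32 / 5 * 𝕋.gkLam v * l = 160 * kkH l (𝕋.lay v) := by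
      unfold gkLam
      field_simp
      ring
    calc (n : ℝ) * l ≤ 32 / 5 * 𝕋.gkLam v * l := mul_le_mul_of_nonneg_right h2 hl'.le
      _ = _ := e
  have h4 : n * l ≤ 160 * kkH l (𝕋.lay v) := by exact_mod_cast h3
  calc (2 * kkM l + 1) ^ n ≤ (2 ^ (14 * l)) ^ n := Nat.pow_le_pow_left (gk_alphabet_le hl) n
    _ = 2 ^ (14 * (n * l)) := by rw [← pow_mul]; congr 1; ring
    _ ≤ 2 ^ (2240 * kkH l (𝕋.lay v)) := Nat.pow_le_pow_right (by norm_num) (by omega)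

theorem gk_degree (a : 𝕋.V0) :
    {lt | ∃ b, (𝕋.gkGraph vol hvol).E a lt b}.encard ≤ (2 * kkM l : ℕ) := by
  have := 𝕋.finS
  have h1 : {lt | ∃ b, (𝕋.gkGraph vol hvol).E a lt b}.encard ≤
      (Set.univ : Set (𝕋.S × Bool)).encard := Set.encard_le_encard (Set.subset_univ _)
  refine h1.trans ?_
  rw [Set.encard_univ, ENat.card_eq_coe_natCard]
  have h2 : Nat.card (𝕋.S × Bool) = Nat.card 𝕋.S * 2 := by
    rw [Nat.card_prod]; simp
  rw [h2]
  have := 𝕋.cardS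
  exact_mod_cast (by omega : Nat.card 𝕋.S * 2 ≤ 2 * kkM l)

/-- **KK Section 7 for the tower**, with labels refined by tags `τ` from a finite set. -/
theorem gk_main {Tg : Type} [Finite Tg] (τ : 𝕋.V0 → 𝕋.S → Tg) (hl : 1000 ≤ l)
    (hF : ∀ f : F, IsOfFinOrder f → f = 1)
    (hgirth : ∀ (a : 𝕋.V0) (w : List (𝕋.S × Bool)), w ≠ [] → FreeGroup.IsCyclicallyReduced w →
      Path (𝕋.gkGraph vol hvol).cE (a, 1) w (a, 1) → 500 * kkH l (𝕋.lay a) < l * w.length) :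
    Group.FG (Gam ((𝕋.gkGraph vol hvol).refine τ).rel) ∧
    (∀ γ : Gam ((𝕋.gkGraph vol hvol).refine τ).rel, IsOfFinOrder γ → γ = 1) ∧
    ∃ hemb : DomBr.Embeds ((𝕋.gkGraph vol hvol).refine τ).rel,
      Nonempty (DomBr.GkDomains hemb ((𝕋.gkGraph vol hvol).refine τ).rel_pos_surjective
        (fun x => 2 ^ (2240 * kkH l (𝕋.lay x.1)))) := by
  have hl0 : 0 < l := by omega
  have hl' : (0 : ℝ) < l := by exact_mod_cast hl0
  have := 𝕋.finS
  have := 𝕋.gk_nonempty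
  have hε := gk_eps_le hl
  have hB := (𝕋.gk_baseMetric vol hvol hl0 hgirth).refine (τ := τ)
  have hq : (1 : ℝ) + 25 / l ≤ 41 / 40 := by linarith
  have hq0 : (0 : ℝ) ≤ 1 + 25 / l := by positivity
  obtain ⟨h1, h2, hemb, ⟨G⟩⟩ := VGraph.gk_main hB (by positivity) (by norm_num)
    (by linarith) ((msum_le_msum hq0 hq 5).trans gk_msum5)
    (by
      intro a
      have h3 := (msum_le_msum hq0 hq 3).trans gk_msum3
      have h4 := 𝕋.gkLam_ge hl0 a
      have h5 : msum (1 + 25 / (l : ℝ)) 3 * 𝕋.gkLam a ≤ 4 * 𝕋.gkLam a :=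
        mul_le_mul_of_nonneg_right h3 (by linarith)
      linarith)
    VGraph.refine_allLetters hF (VGraph.refine_degree (𝕋.gk_degree vol hvol))
  exact ⟨h1, h2, hemb, ⟨G.mono (fun x => 𝕋.gk_weight_le hl x.1)⟩⟩

end KkTower

end Claimed.Agent.R300
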