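/-
Row 300 / S0553 (INJ paper), Section 03_pruning: LOCAL lemmas about edges and walks of the tower
(owner: helper59).  Two-evaluation determinacy, one-evaluation determinacy, equality of keys,
propagation of agreement along a common label.
-/
import Claimed.Agent.R300.PrDefs

set_option autoImplicit false

namespace Claimed.Agent.R300.Pr

open Claimed.Agent.R300.Lab

variable {p : Par}

/-! ### raw sequences of an edge -/

theorem pr_zipU_comm (a b : Vtx p) : zipU a b = zipU b a := by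
  funext k; unfold zipU; rw [add_comm]

theorem pr_zipV_comm (a b : Vtx p) : zipV a b = zipV b a := by
  funext k; unfold zipV; rw [add_comm]

theorem pr_own_iff_not (sd sd' : Bool) (h : sd ≠ sd') (k : ℕ) : own sd k ↔ ¬ own sd' k := by
  unfold own
  cases sd <;> cases sd' <;> simp_all

theorem pr_u_not_own (x : Vtx p) (k : ℕ) (h : ¬ own x.sd k) : x.u k = 0 := by
  have := x.hu k
  rw [if_neg h] at this
  exact (lab_isPre_zero_iff _).1 this

theorem pr_v_not_own (x : Vtx p) (k : ℕ) (h : ¬ own x.sd k) : x.v k = 0 := by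
  have := x.hv k
  rw [if_neg h] at this
  exact (lab_isPre_zero_iff _).1 this

theorem pr_zipU_own (x y : Vtx p) (hsd : x.sd ≠ y.sd) (k : ℕ) (ho : own x.sd k) :
    zipU x y k = x.u k := by
  unfold zipU
  rw [pr_u_not_own y k ((pr_own_iff_not _ _ hsd k).1 ho), add_zero]

theorem pr_zipV_own (x y : Vtx p) (hsd : x.sd ≠ y.sd) (k : ℕ) (ho : own x.sd k) :
    zipV x y k = x.v k := by
  unfold zipV
  rw [pr_v_not_own y k ((pr_own_iff_not _ _ hsd k).1 ho), add_zero]

theorem pr_zipU_own' (x y : Vtx p) (k : ℕ) (ho : ¬ own x.sd k) :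
    zipU x y k = y.u k := by
  unfold zipU
  rw [pr_u_not_own x k ho, zero_add]

theorem pr_zipV_own' (x y : Vtx p) (k : ℕ) (ho : ¬ own x.sd k) :
    zipV x y k = y.v k := by
  unfold zipV
  rw [pr_v_not_own x k ho, zero_add]

theorem pr_step_symm (cf : Coef p) (𝔗 : Tab p) (x y : Vtx p) (l : Label p) (σ : Bool) :
    Step cf 𝔗 x y (l, σ) ↔ Step cf 𝔗 y x (l, !σ) := by
  unfold Step
  cases σ <;> simp

theorem pr_step_sd (cf : Coef p) (𝔗 : Tab p) (x y : Vtx p) (ls : Label p × Bool)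
    (h : Step cf 𝔗 x y ls) : x.sd = !ls.2 ∧ y.sd = ls.2 := by
  unfold Step at h
  by_cases hs : ls.2 = true
  · rw [if_pos hs] at h
    obtain ⟨h0, he⟩ := h
    rw [hs, he.sa, he.sb]; simp
  · rw [if_neg hs] at h
    obtain ⟨h0, he⟩ := h
    have : ls.2 = false := by simpa using hs
    rw [this, he.sa, he.sb]; simp

/-- a step between vertices that survive the gate deletion satisfies the universal equations -/
theorem pr_step_univ (hp : p.Adm) (cf : Coef p) (hcf : cf.Sep) (𝔗 : Tab p) (x y : Vtx p)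
    (ls : Label p × Bool) (h : Step cf 𝔗 x y ls) (hx : ¬ GateBad cf 𝔗 x)
    (hy : ¬ GateBad cf 𝔗 y) : UnivEq cf 𝔗 ls.1 (zipU x y) (zipV x y) := by
  unfold Step at h
  by_cases hs : ls.2 = true
  · rw [if_pos hs] at h
    obtain ⟨h0, he⟩ := h
    exact lab_univ_of_good hp cf hcf 𝔗 h0 x y ls.1 he hx
  · rw [if_neg hs] at h
    obtain ⟨h0, he⟩ := h
    rw [pr_zipU_comm, pr_zipV_comm]
    exact lab_univ_of_good hp cf hcf 𝔗 h0 y x ls.1 he hy

/-- block `0` of the raw u-sequence of an edge is supported on the first `r` bits -/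
theorem pr_zipU_zero_pre (hp : p.Adm) (x y : Vtx p) : IsPre p.r (zipU x y 0) := by
  unfold zipU
  apply lab_isPre_add
  · have := x.hu 0
    split_ifs at this
    · rwa [lab_aw_zero hp] at this
    · exact lab_isPre_mono (Nat.zero_le _) this
  · have := y.hu 0
    split_ifs at this
    · rwa [lab_aw_zero hp] at this
    · exact lab_isPre_mono (Nat.zero_le _) this

/-! ### determinacy -/

/-- the universal edge equation at index `k` -/
abbrev UEq (cf : Coef p) (𝔗 : Tab p) (l : Label p) (U V : ℕ → BV p.s) (k : ℕ) : Prop :=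
  EqAt (fun _ => False) (fun _ => False) cf 𝔗 l U V k

/-- the coefficient names of `l₁`, `l₂` relevant for the block `k` are different -/
def NameNe (l₁ l₂ : Label p) (k : ℕ) : Prop :=
  (k % 2 = 0 → l₁.nameA ≠ l₂.nameA) ∧ (k % 2 = 1 → l₁.nameB ≠ l₂.nameB)

/-- injectivity of the difference of two coefficient maps -/
theorem pr_coef_inj (cf : Coef p) (hcf : cf.Sep) (l₁ l₂ : Label p) (k : ℕ)
    (hne : NameNe l₁ l₂ k) (x : BV p.s) (h0 : k = 0 → IsPre p.r x)
    (h : cf.at l₁ k x = cf.at l₂ k x) : x = 0 := by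
  unfold Coef.at at h
  by_cases hk0 : k = 0
  · rw [if_pos hk0, if_pos hk0] at h
    exact hcf.inj0 _ _ (hne.1 (by omega)) x (h0 hk0) h
  · rw [if_neg hk0, if_neg hk0] at h
    by_cases hk2 : k % 2 = 0
    · rw [if_pos hk2, if_pos hk2] at h
      have hb := (hcf.bijA _ _ (hne.1 hk2)).1
      apply hb
      simp only [map_zero, sub_self]
      rw [h, sub_self]
    · rw [if_neg hk2, if_neg hk2] at h
      have hb := (hcf.bijB _ _ (hne.2 (by omega))).1
      apply hb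
      simp only [map_zero, sub_self]
      rw [h, sub_self]

/-- the "known part" of the edge equation at index `k`: `V k + K (U k) = known` -/
theorem pr_eq_known (cf : Coef p) (𝔗 : Tab p) (l : Label p) (U V : ℕ → BV p.s) (k : ℕ)
    (e : UEq cf 𝔗 l U V k) :
    V k + cf.at l k (U k) = rhs (fun _ => False) (fun _ => False) 𝔗 l U k
      + corV (fun _ => False) l U k + cf.at l k (corU (fun _ => False) l U k) := by
  unfold UEq EqAt evalQ at e
  rw [← e, map_add]
  have h2 : ∀ z : BV p.s, z + z = 0 := lab_add_self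
  have : V k + corV (fun _ => False) l U k + (cf.at l k (U k) + cf.at l k (corU (fun _ => False) l U k))
      + corV (fun _ => False) l U k + cf.at l k (corU (fun _ => False) l U k)
      = V k + cf.at l k (U k) + (corV (fun _ => False) l U k + corV (fun _ => False) l U k)
        + (cf.at l k (corU (fun _ => False) l U k) + cf.at l k (corU (fun _ => False) l U k)) := by
    abel
  rw [this, h2, h2, add_zero, add_zero]

/-- the known part only depends on the raw blocks of index `< k` and the tables of level `k-1` -/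
theorem pr_known_congr (cf : Coef p) (𝔗 𝔗' : Tab p) (l : Label p) (U U' : ℕ → BV p.s) (k : ℕ)
    (hT : 0 < k → 𝔗 (k - 1) = 𝔗' (k - 1)) (hU : ∀ j, j < k → U j = U' j) :
    rhs (fun _ => False) (fun _ => False) 𝔗 l U k
      + corV (fun _ => False) l U k + cf.at l k (corU (fun _ => False) l U k)
    = rhs (fun _ => False) (fun _ => False) 𝔗' l U' k
      + corV (fun _ => False) l U' k + cf.at l k (corU (fun _ => False) l U' k) := by
  have hrhs : rhs (fun _ => False) (fun _ => False) 𝔗 l U k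
      = rhs (fun _ => False) (fun _ => False) 𝔗' l U k := by
    rcases Nat.eq_zero_or_pos k with rfl | hk
    · rfl
    · exact lab_rhs_congr_tab _ _ 𝔗 𝔗' l U k (hT hk)
  rw [hrhs, lab_rhs_congr _ _ 𝔗' l U U' k hU,
    lab_corV_congr _ l U U' k (fun j hj => hU j (by omega)),
    lab_corU_congr _ l U U' k (fun j hj => hU j (by omega))]

/-- **One evaluation**: the raw v-block is determined by the raw u-blocks of index `≤ k`. -/
theorem pr_one_eval (cf : Coef p) (𝔗 𝔗' : Tab p) (l : Label p) (U V U' V' : ℕ → BV p.s) (k : ℕ)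
    (hT : 0 < k → 𝔗 (k - 1) = 𝔗' (k - 1)) (hU : ∀ j, j ≤ k → U j = U' j)
    (e : UEq cf 𝔗 l U V k) (e' : UEq cf 𝔗' l U' V' k) : V k = V' k := by
  have h1 := pr_eq_known cf 𝔗 l U V k e
  have h2 := pr_eq_known cf 𝔗' l U' V' k e'
  rw [pr_known_congr cf 𝔗 𝔗' l U U' k hT (fun j hj => hU j hj.le), ← h2, hU k le_rfl] at h1
  exact add_right_cancel h1

/-- **Two evaluations**: a block which occurs in two edge equations with different coefficient
names is determined by the raw blocks of smaller index and the tables of level `k - 1`. -/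
theorem pr_two_eval (cf : Coef p) (hcf : cf.Sep) (𝔗 𝔗' : Tab p) (k : ℕ)
    (hT : 0 < k → 𝔗 (k - 1) = 𝔗' (k - 1)) (l₁ l₂ : Label p) (hne : NameNe l₁ l₂ k)
    (U₁ V₁ U₂ V₂ U₁' V₁' U₂' V₂' : ℕ → BV p.s)
    (e₁ : UEq cf 𝔗 l₁ U₁ V₁ k) (e₂ : UEq cf 𝔗 l₂ U₂ V₂ k)
    (e₁' : UEq cf 𝔗' l₁ U₁' V₁' k) (e₂' : UEq cf 𝔗' l₂ U₂' V₂' k)
    (hlow₁ : ∀ j, j < k → U₁ j = U₁' j) (hlow₂ : ∀ j, j < k → U₂ j = U₂' j)
    (hu : U₁ k = U₂ k) (hv : V₁ k = V₂ k) (hu' : U₁' k = U₂' k) (hv' : V₁' k = V₂' k)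
    (h0 : k = 0 → IsPre p.r (U₁ k) ∧ IsPre p.r (U₁' k)) :
    U₁ k = U₁' k ∧ V₁ k = V₁' k := by
  have a₁ := pr_eq_known cf 𝔗 l₁ U₁ V₁ k e₁
  have a₂ := pr_eq_known cf 𝔗 l₂ U₂ V₂ k e₂
  have a₁' := pr_eq_known cf 𝔗' l₁ U₁' V₁' k e₁'
  have a₂' := pr_eq_known cf 𝔗' l₂ U₂' V₂' k e₂'
  rw [pr_known_congr cf 𝔗 𝔗' l₁ U₁ U₁' k hT hlow₁, ← a₁'] at a₁
  rw [pr_known_congr cf 𝔗 𝔗' l₂ U₂ U₂' k hT hlow₂, ← a₂', ← hu, ← hv, ← hu', ← hv'] at a₂
  -- a₁ : V₁ k + K₁ (U₁ k) = V₁' k + K₁ (U₁' k),  a₂ : the same with K₂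
  have h2 : ∀ z : BV p.s, z + z = 0 := lab_add_self
  have hx : cf.at l₁ k (U₁ k + U₁' k) = cf.at l₂ k (U₁ k + U₁' k) := by
    rw [map_add, map_add]
    have b₁ : cf.at l₁ k (U₁ k) + cf.at l₁ k (U₁' k) = V₁ k + V₁' k := by
      calc cf.at l₁ k (U₁ k) + cf.at l₁ k (U₁' k)
          = (V₁ k + cf.at l₁ k (U₁ k)) + cf.at l₁ k (U₁' k) + V₁ k := by
            have : (V₁ k + cf.at l₁ k (U₁ k)) + cf.at l₁ k (U₁' k) + V₁ k
                = cf.at l₁ k (U₁ k) + cf.at l₁ k (U₁' k) + (V₁ k + V₁ k) := by abel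
            rw [this, h2, add_zero]
        _ = (V₁' k + cf.at l₁ k (U₁' k)) + cf.at l₁ k (U₁' k) + V₁ k := by rw [a₁]
        _ = V₁ k + V₁' k := by
            have : (V₁' k + cf.at l₁ k (U₁' k)) + cf.at l₁ k (U₁' k) + V₁ k
                = V₁ k + V₁' k + (cf.at l₁ k (U₁' k) + cf.at l₁ k (U₁' k)) := by abel
            rw [this, h2, add_zero]
    have b₂ : cf.at l₂ k (U₁ k) + cf.at l₂ k (U₁' k) = V₁ k + V₁' k := by
      calc cf.at l₂ k (U₁ k) + cf.at l₂ k (U₁' k)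
          = (V₁ k + cf.at l₂ k (U₁ k)) + cf.at l₂ k (U₁' k) + V₁ k := by
            have : (V₁ k + cf.at l₂ k (U₁ k)) + cf.at l₂ k (U₁' k) + V₁ k
                = cf.at l₂ k (U₁ k) + cf.at l₂ k (U₁' k) + (V₁ k + V₁ k) := by abel
            rw [this, h2, add_zero]
        _ = (V₁' k + cf.at l₂ k (U₁' k)) + cf.at l₂ k (U₁' k) + V₁ k := by rw [a₂]
        _ = V₁ k + V₁' k := by
            have : (V₁' k + cf.at l₂ k (U₁' k)) + cf.at l₂ k (U₁' k) + V₁ k
                = V₁ k + V₁' k + (cf.at l₂ k (U₁' k) + cf.at l₂ k (U₁' k)) := by abel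
            rw [this, h2, add_zero]
    rw [b₁, b₂]
  have hz := pr_coef_inj cf hcf l₁ l₂ k hne _
    (fun hk => lab_isPre_add (h0 hk).1 (h0 hk).2) hx
  have hU : U₁ k = U₁' k := by
    have : U₁ k = U₁ k + U₁' k + U₁' k := (lab_add_cancel_right _ _).symm
    rw [this, hz, zero_add]
  refine ⟨hU, ?_⟩
  rw [hU] at a₁
  exact add_right_cancel a₁

/-! ### equality of keys, propagation -/

theorem pr_key_eq_iff (U U' : ℕ → BV p.s) (t : ℕ) :
    key U t = key U' t ↔ ∀ j, j < t → U j = U' j := by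
  constructor
  · intro h j hj
    exact congrFun h ⟨j, hj⟩
  · intro h
    funext j
    exact h j.1 j.2

/-- `lem:pruning-key-prefix` on raw sequences: equal raw u-blocks below `t` (= equal keys at level
`t`) and equal labels give equal raw v-blocks below `t`. -/
theorem pr_key_agree (cf : Coef p) (𝔗 : Tab p) (l : Label p) (U V U' V' : ℕ → BV p.s) (t : ℕ)
    (hU : ∀ j, j < t → U j = U' j) (e : ∀ j, j < t → UEq cf 𝔗 l U V j)
    (e' : ∀ j, j < t → UEq cf 𝔗 l U' V' j) : ∀ j, j < t → V j = V' j := by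
  intro j hj
  exact pr_one_eval cf 𝔗 𝔗 l U V U' V' j (fun _ => rfl) (fun i hi => hU i (by omega)) (e j hj)
    (e' j hj)

theorem Agree.mono {x x' : Vtx p} {K K' : ℕ} (h : Agree x x' K) (hK : K' ≤ K) : Agree x x' K' :=
  fun j hj => h j (by omega)

theorem Agree.refl (x : Vtx p) (K : ℕ) : Agree x x K := fun _ _ => ⟨rfl, rfl⟩

theorem Agree.symm {x x' : Vtx p} {K : ℕ} (h : Agree x x' K) : Agree x' x K :=
  fun j hj => ⟨(h j hj).1.symm, (h j hj).2.symm⟩

/-- agreement of the raw sequences of two edges gives agreement of the endpoints -/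
theorem pr_agree_of_zip (x y x' y' : Vtx p) (hsd : x.sd ≠ y.sd) (hx : x.sd = x'.sd)
    (hy : y.sd = y'.sd) (K : ℕ)
    (h : ∀ j, j < K → zipU x y j = zipU x' y' j ∧ zipV x y j = zipV x' y' j) :
    Agree x x' K := by
  intro j hj
  have hsd' : x'.sd ≠ y'.sd := by rw [← hx, ← hy]; exact hsd
  by_cases ho : own x.sd j
  · have ho' : own x'.sd j := hx ▸ ho
    have := h j hj
    rwa [pr_zipU_own x y hsd j ho, pr_zipV_own x y hsd j ho, pr_zipU_own x' y' hsd' j ho',
      pr_zipV_own x' y' hsd' j ho'] at this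
  · have ho' : ¬ own x'.sd j := hx ▸ ho
    rw [pr_u_not_own x j ho, pr_u_not_own x' j ho', pr_v_not_own x j ho, pr_v_not_own x' j ho']
    exact ⟨rfl, rfl⟩

/-- `eq:pruning-prefix-propagation`: equal prefixes followed through one common outward label
lose exactly one block. -/
theorem pr_propagate (hp : p.Adm) (cf : Coef p) (hcf : cf.Sep) (𝔗 : Tab p) (x y x' y' : Vtx p)
    (ls : Label p × Bool) (h : Step cf 𝔗 x y ls) (h' : Step cf 𝔗 x' y' ls)
    (gx : ¬ GateBad cf 𝔗 x) (gy : ¬ GateBad cf 𝔗 y) (gx' : ¬ GateBad cf 𝔗 x')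
    (gy' : ¬ GateBad cf 𝔗 y') (K : ℕ) (hK : Agree x x' (K + 1)) : Agree y y' K := by
  have e := pr_step_univ hp cf hcf 𝔗 x y ls h gx gy
  have e' := pr_step_univ hp cf hcf 𝔗 x' y' ls h' gx' gy'
  obtain ⟨s1, s2⟩ := pr_step_sd cf 𝔗 x y ls h
  obtain ⟨s1', s2'⟩ := pr_step_sd cf 𝔗 x' y' ls h'
  have hsd : x.sd ≠ y.sd := by rw [s1, s2]; cases ls.2 <;> simp
  have hsd' : x'.sd ≠ y'.sd := by rw [s1', s2']; cases ls.2 <;> simp
  have hxx : x.sd = x'.sd := by rw [s1, s1']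
  have hyy : y.sd = y'.sd := by rw [s2, s2']
  have key := lab_determ_le hp _ _ cf 𝔗 ls.1 (zipU x y) (zipV x y) (zipU x' y') (zipV x' y')
    (pr_zipU_zero_pre hp x y) (pr_zipU_zero_pre hp x' y') K (fun j _ => e j) (fun j _ => e' j) x.sd
    (by
      intro j hj ho
      have ho' : own x'.sd j := hxx ▸ ho
      rw [pr_zipU_own x y hsd j ho, pr_zipV_own x y hsd j ho, pr_zipU_own x' y' hsd' j ho',
        pr_zipV_own x' y' hsd' j ho']
      exact hK j (by omega))
  apply pr_agree_of_zip y x y' x' hsd.symm hyy hxx K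
  intro j hj
  rw [pr_zipU_comm y x, pr_zipV_comm y x, pr_zipU_comm y' x', pr_zipV_comm y' x']
  exact key j hj

/-! ### the label is determined by the coefficient name and the initial blocks -/

theorem pr_label_eq_A (hp : p.Adm) (cf : Coef p) (𝔗 : Tab p) {F₁ G₁ F₂ G₂ : ℕ → Prop} (l₁ l₂ : Label p)
    (hn : l₁.nameA = l₂.nameA) (U₁ V₁ U₂ V₂ : ℕ → BV p.s) (e₁ : EqAt F₁ G₁ cf 𝔗 l₁ U₁ V₁ 0)
    (e₂ : EqAt F₂ G₂ cf 𝔗 l₂ U₂ V₂ 0) (hu : U₁ 0 = U₂ 0) (hv : V₁ 0 = V₂ 0) : l₁ = l₂ := by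
  have hn0 := hp.hn0
  unfold EqAt evalQ at e₁ e₂
  rw [lab_corU_small hp _ _ _ 0 (by omega), lab_corV_small hp _ _ _ 0 (by omega)] at e₁ e₂
  have hat : cf.at l₁ 0 = cf.at l₂ 0 := by
    unfold Coef.at; simp only [if_true]; rw [hn]
  rw [hu, hv, hat, e₂] at e₁
  have h3 : place (n := p.s) 0 l₂.h0 = place (n := p.s) 0 l₁.h0 := e₁
  have hrs := lab_r_le_s hp
  have h4 : l₂.h0 = l₁.h0 := by
    have := congrArg (slice 0 p.r) h3
    rwa [lab_slice_place 0 (by omega), lab_slice_place 0 (by omega)] at this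
  unfold Label.nameA at hn
  simp only [NameA.mk.injEq] at hn
  exact Label.ext hn.1 hn.2.1 hn.2.2.1 hn.2.2.2 h4.symm

theorem pr_label_eq_B (hp : p.Adm) (cf : Coef p) (𝔗 : Tab p) {F₁ G₁ F₂ G₂ : ℕ → Prop} (l₁ l₂ : Label p)
    (hn : l₁.nameB = l₂.nameB) (U₁ V₁ U₂ V₂ : ℕ → BV p.s) (e₁ : EqAt F₁ G₁ cf 𝔗 l₁ U₁ V₁ 1)
    (e₂ : EqAt F₂ G₂ cf 𝔗 l₂ U₂ V₂ 1) (hu : U₁ 1 = U₂ 1) (hv : V₁ 1 = V₂ 1) : l₁ = l₂ := by
  have hn0 := hp.hn0
  unfold EqAt evalQ at e₁ e₂
  rw [lab_corU_small hp _ _ _ 1 (by omega), lab_corV_small hp _ _ _ 1 (by omega)] at e₁ e₂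
  have hat : cf.at l₁ 1 = cf.at l₂ 1 := by
    unfold Coef.at; simp; rw [hn]
  rw [hu, hv, hat, e₂] at e₁
  have hrs := lab_r_le_s hp
  have hr5 := lab_r_spec hp
  have hs := hp.hs
  unfold Label.nameB at hn
  simp only [NameB.mk.injEq] at hn
  obtain ⟨n1, n2, n3, n4, n5⟩ := hn
  have h4 : l₁.h0 = l₂.h0 := by
    apply lab_ext0_inj
    intro m hm
    by_cases hm1 : m < 2 * p.r - p.s
    · have := congrFun n5 ⟨m, hm1⟩
      unfold Label.buck slice at this
      simpa using this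
    · have h5 := congrFun e₁ ⟨m - (2 * p.r - p.s), by omega⟩
      simp only [rhs] at h5
      rw [if_pos (by omega), if_pos (by omega)] at h5
      rw [show 2 * p.r - p.s + (m - (2 * p.r - p.s)) = m by omega] at h5
      exact h5.symm
  exact Label.ext n1 n2 n3 n4 h4

end Claimed.Agent.R300.Pr
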