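/-
Row 300 / S0553 (INJ paper), Section 03_pruning: walks, sides and heights along walks, subwalks,
arithmetic of `kap`/`H`, the junction lemma, existence of minimal returns (owner: helper59).
-/
import Claimed.Agent.R300.PrLocal

set_option autoImplicit false

namespace Claimed.Agent.R300.Pr

open Claimed.Agent.R300.Lab

variable {p : Par}

/-! ### arithmetic -/

theorem pr_H_eq (hp : p.Adm) (h : ℕ) : p.H h = p.kap h * p.s + p.tt h := by
  obtain ⟨hA, -, -, -, hk⟩ := lab_kap_spec hp h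
  have hn0 := hp.hn0
  obtain ⟨κ', hκ'⟩ : ∃ κ', p.kap h = κ' + 1 := ⟨p.kap h - 1, by omega⟩
  rw [hκ'] at hA ⊢
  simp only [Nat.add_sub_cancel] at hA
  unfold Par.H
  have e1 : (2 * p.n0 + 1) * p.s = 2 * p.n0 * p.s + p.s := by ring
  have e2 : (κ' + 1) * p.s = κ' * p.s + p.s := by ring
  omega

theorem pr_H_succ (p : Par) (h : ℕ) : p.H (h + 1) = p.H h + p.b := by
  unfold Par.H; ring

theorem pr_H_add (p : Par) (h n : ℕ) : p.H (h + n) = p.H h + p.b * n := by
  unfold Par.H; ring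

theorem pr_H_mono (p : Par) {h h' : ℕ} (hh : h ≤ h') : p.H h ≤ p.H h' := by
  obtain ⟨n, rfl⟩ := Nat.exists_eq_add_of_le hh
  rw [pr_H_add]; omega

theorem pr_kap_succ_le (hp : p.Adm) (h : ℕ) :
    p.kap h ≤ p.kap (h + 1) ∧ p.kap (h + 1) ≤ p.kap h + 1 := by
  obtain ⟨h1, h2⟩ := lab_kap_succ hp h
  obtain ⟨-, -, hts, -, -⟩ := lab_kap_spec hp h
  rcases Nat.lt_or_ge (p.tt h) p.s with hlt | hge
  · rw [(h2 hlt).1]; omega
  · rw [(h1 (by omega)).1]; omega

theorem pr_kap_mono (hp : p.Adm) {h h' : ℕ} (hh : h ≤ h') : p.kap h ≤ p.kap h' := by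
  obtain ⟨n, rfl⟩ := Nat.exists_eq_add_of_le hh
  induction n with
  | zero => exact le_refl _
  | succ n ih =>
    have := (pr_kap_succ_le hp (h + n)).1
    rw [← Nat.add_assoc]
    exact le_trans (ih (by omega)) this

/-- `kap` in terms of `H`:  `H - s ≤ kap * s < H` -/
theorem pr_kap_bounds (hp : p.Adm) (h : ℕ) :
    p.kap h * p.s < p.H h ∧ p.H h ≤ p.kap h * p.s + p.s := by
  have := pr_H_eq hp h
  obtain ⟨-, hb1, hts, -, -⟩ := lab_kap_spec hp h
  have := hp.hb
  omega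

/-! ### sides, signs and heights along a walk -/

/-- the height of the next vertex -/
def nextHt (o : Off) (sd : Bool) (i : ℕ) : ℕ :=
  match sd, o with
  | false, Off.dn => i - 1
  | false, Off.eq => i
  | false, Off.up => i + 1
  | true, Off.dn => i + 1
  | true, Off.eq => i
  | true, Off.up => i - 1

/-- the side of the `n`-th vertex -/
def sdAt (sd : Bool) (n : ℕ) : Bool := if n % 2 = 0 then sd else !sd

theorem pr_step_ht (cf : Coef p) (𝔗 : Tab p) (x y : Vtx p) (ls : Label p × Bool)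
    (h : Step cf 𝔗 x y ls) : y.ht = nextHt (p.off ls.1.ty) x.sd x.ht := by
  unfold Step at h
  by_cases hs : ls.2 = true
  · rw [if_pos hs] at h
    obtain ⟨h0, he⟩ := h
    rw [he.sa, he.ha, he.hb]
    unfold Par.aHt Par.bHt nextHt
    cases p.off ls.1.ty <;> simp
  · rw [if_neg hs] at h
    obtain ⟨h0, he⟩ := h
    rw [he.sb, he.ha, he.hb]
    unfold Par.aHt Par.bHt nextHt
    cases p.off ls.1.ty <;> simp

/-- the common height of a step -/
theorem pr_step_common (cf : Coef p) (𝔗 : Tab p) (x y : Vtx p) (ls : Label p × Bool)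
    (h : Step cf 𝔗 x y ls) :
    ls.1.rho.1 = (min x.ht y.ht) % p.M ∧
      ((ls.2 = true ∧ IsEdge0 cf 𝔗 (min x.ht y.ht) x y ls.1) ∨
       (ls.2 = false ∧ IsEdge0 cf 𝔗 (min x.ht y.ht) y x ls.1)) := by
  unfold Step at h
  by_cases hs : ls.2 = true
  · rw [if_pos hs] at h
    obtain ⟨h0, he⟩ := h
    have : min x.ht y.ht = h0 := by
      rw [he.ha, he.hb]
      unfold Par.aHt Par.bHt
      cases p.off ls.1.ty <;> simp
    rw [this]
    exact ⟨he.hrho, Or.inl ⟨hs, he⟩⟩
  · rw [if_neg hs] at h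
    obtain ⟨h0, he⟩ := h
    have : min x.ht y.ht = h0 := by
      rw [he.ha, he.hb]
      unfold Par.aHt Par.bHt
      cases p.off ls.1.ty <;> simp
    rw [this]
    exact ⟨he.hrho, Or.inr ⟨by simpa using hs, he⟩⟩

theorem pr_step_ht_le (cf : Coef p) (𝔗 : Tab p) (x y : Vtx p) (ls : Label p × Bool)
    (h : Step cf 𝔗 x y ls) : x.ht ≤ y.ht + 1 ∧ y.ht ≤ x.ht + 1 := by
  have := pr_step_ht cf 𝔗 x y ls h
  rw [this]
  unfold nextHt
  cases x.sd <;> cases p.off ls.1.ty <;> simp <;> omega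

variable {cf : Coef p} {𝔗 : Tab p} {S : Vtx p → Prop} {N : ℕ} {vx : ℕ → Vtx p}
  {lb : ℕ → Label p × Bool}

theorem pr_walk_sd (w : IsWalk cf 𝔗 S N vx lb) : ∀ n, n ≤ N → (vx n).sd = sdAt (vx 0).sd n := by
  intro n
  induction n with
  | zero => intro _; simp [sdAt]
  | succ n ih =>
    intro hn
    obtain ⟨s1, s2⟩ := pr_step_sd cf 𝔗 _ _ _ (w.step n (by omega))
    have := ih (by omega)
    rw [s1] at this
    rw [s2]
    unfold sdAt at this ⊢
    by_cases h2 : n % 2 = 0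
    · rw [if_pos h2] at this
      rw [if_neg (by omega), ← this]; simp
    · rw [if_neg h2] at this
      rw [if_pos (by omega)]
      have h3 : (vx 0).sd = !!(lb n).2 := by rw [this]; simp
      simpa using h3.symm

theorem pr_walk_sign (w : IsWalk cf 𝔗 S N vx lb) (n : ℕ) (hn : n < N) :
    (lb n).2 = !(vx n).sd := by
  rw [(pr_step_sd cf 𝔗 _ _ _ (w.step n hn)).1]; simp

theorem pr_walk_sd_ne (w : IsWalk cf 𝔗 S N vx lb) (n : ℕ) (hn : n < N) :
    (vx n).sd ≠ (vx (n + 1)).sd := by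
  obtain ⟨s1, s2⟩ := pr_step_sd cf 𝔗 _ _ _ (w.step n hn)
  rw [s1, s2]; cases (lb n).2 <;> simp

theorem pr_walk_ht_le (w : IsWalk cf 𝔗 S N vx lb) (a : ℕ) :
    ∀ n, a + n ≤ N → (vx a).ht ≤ (vx (a + n)).ht + n ∧ (vx (a + n)).ht ≤ (vx a).ht + n := by
  intro n
  induction n with
  | zero => intro _; simp
  | succ n ih =>
    intro hn
    have h1 := ih (by omega)
    have h2 := pr_step_ht_le cf 𝔗 _ _ _ (w.step (a + n) (by omega))
    have e : a + (n + 1) = a + n + 1 := by ring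
    rw [e]
    omega

theorem pr_walk_shift (w : IsWalk cf 𝔗 S N vx lb) (a N' : ℕ) (h : a + N' ≤ N) :
    IsWalk cf 𝔗 S N' (shiftV a vx) (shiftL a lb) := by
  refine ⟨fun n hn => w.mem (n + a) (by omega), fun n hn => ?_⟩
  have := w.step (n + a) (by omega)
  unfold shiftV shiftL
  rwa [show n + 1 + a = n + a + 1 by ring]

theorem pr_red_shift (hr : Reduced N lb) (a N' : ℕ) (h : a + N' ≤ N) :
    Reduced N' (shiftL a lb) := by
  intro n hn
  have := hr (n + a) (by omega)
  unfold shiftL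
  rwa [show n + 1 + a = n + a + 1 by ring]

theorem pr_walk_mono {S' : Vtx p → Prop} (w : IsWalk cf 𝔗 S N vx lb) (h : ∀ x, S x → S' x) :
    IsWalk cf 𝔗 S' N vx lb := ⟨fun n hn => h _ (w.mem n hn), w.step⟩

/-- the walk has even length if its endpoints lie on the same side -/
theorem pr_walk_even (w : IsWalk cf 𝔗 S N vx lb) (h : (vx 0).sd = (vx N).sd) : N % 2 = 0 := by
  have := pr_walk_sd w N le_rfl
  rw [← h] at this
  unfold sdAt at this
  by_contra hne
  rw [if_neg hne] at this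
  cases hh : (vx 0).sd <;> simp [hh] at this

/-- two consecutive labels of a reduced walk are different -/
theorem pr_walk_label_ne (w : IsWalk cf 𝔗 S N vx lb) (hr : Reduced N lb) (n : ℕ)
    (hn : n + 1 < N) : (lb (n + 1)).1 ≠ (lb n).1 := by
  intro h
  apply hr n hn
  refine ⟨h, ?_⟩
  rw [pr_walk_sign w (n + 1) hn, pr_walk_sign w n (by omega)]
  have := pr_walk_sd_ne w n (by omega)
  cases h1 : (vx n).sd <;> cases h2 : (vx (n + 1)).sd <;> simp_all

end Claimed.Agent.R300.Pr
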