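/-
Row 300 / S0553 (INJ paper), Section 01_labeling, package L6 (LabRec).  Section owner: helper31;
package owner: helper59.  Lemma `tower-recovery` (padded-prefix recovery).
-/
import Claimed.Agent.R300.PrWalk

set_option autoImplicit false

namespace Claimed.Agent.R300.Lab

open Classical
open Claimed.Agent.R300.Pr

variable {p : Par}

/-! ## L6: Lemma `tower-recovery` -/

/-- two distinct slots at an interior vertex of a reduced walk: the coefficient names differ -/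
theorem lab_names_ne (hp : p.Adm) (cf : Coef p) (_hcf : cf.Sep) (𝔗 : Tab p) (x y z : Vtx p)
    (l l' : Label p) (σ : Bool) (h1 : Step cf 𝔗 y x (l, σ)) (h2 : Step cf 𝔗 y z (l', σ))
    (hne : l ≠ l') : (σ = true → l.nameA ≠ l'.nameA) ∧ (σ = false → l.nameB ≠ l'.nameB) := by
  constructor
  · rintro rfl hn
    unfold Step at h1 h2
    simp only [if_true] at h1 h2
    obtain ⟨a1, e1⟩ := h1
    obtain ⟨a2, e2⟩ := h2
    apply hne
    have o0 : own y.sd 0 := by unfold own; rw [e1.sa]; simp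
    have s1 : y.sd ≠ x.sd := by rw [e1.sa, e1.sb]; simp
    have s2 : y.sd ≠ z.sd := by rw [e2.sa, e2.sb]; simp
    apply pr_label_eq_A hp cf 𝔗 _ _ hn _ _ _ _ (e1.aux 0) (e2.aux 0)
    · rw [pr_zipU_own _ _ s1 0 o0, pr_zipU_own _ _ s2 0 o0]
    · rw [pr_zipV_own _ _ s1 0 o0, pr_zipV_own _ _ s2 0 o0]
  · rintro rfl hn
    unfold Step at h1 h2
    simp only [Bool.false_eq_true, if_false] at h1 h2
    obtain ⟨a1, e1⟩ := h1
    obtain ⟨a2, e2⟩ := h2
    apply hne
    have o0 : own y.sd 1 := by unfold own; rw [e1.sb]; simp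
    have s1 : y.sd ≠ x.sd := by rw [e1.sa, e1.sb]; simp
    have s2 : y.sd ≠ z.sd := by rw [e2.sa, e2.sb]; simp
    apply pr_label_eq_B hp cf 𝔗 _ _ hn _ _ _ _ (e1.aux 1) (e2.aux 1)
    · rw [pr_zipU_comm, pr_zipU_own _ _ s1 1 o0, pr_zipU_comm, pr_zipU_own _ _ s2 1 o0]
    · rw [pr_zipV_comm, pr_zipV_own _ _ s1 1 o0, pr_zipV_comm, pr_zipV_own _ _ s2 1 o0]

/-- interior vertices of a reduced walk: the two coefficient names are different -/
theorem lab_walk_nameNe (hp : p.Adm) {cf : Coef p} (hcf : cf.Sep) {𝔗 : Tab p} {S : Vtx p → Prop}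
    {N : ℕ} {vx : ℕ → Vtx p} {lb : ℕ → Label p × Bool}
    (w : IsWalk cf 𝔗 S N vx lb) (hr : Reduced N lb) (n : ℕ) (hn : n + 1 < N) (k : ℕ)
    (hk : own (vx (n + 1)).sd k) : NameNe (lb n).1 (lb (n + 1)).1 k := by
  have h1 : Step cf 𝔗 (vx (n + 1)) (vx n) ((lb n).1, !(lb n).2) :=
    (pr_step_symm cf 𝔗 _ _ _ _).1 (w.step n (by omega))
  have h2 : Step cf 𝔗 (vx (n + 1)) (vx (n + 2)) ((lb (n + 1)).1, (lb (n + 1)).2) :=
    w.step (n + 1) hn
  have hs1 : (lb n).2 = (vx (n + 1)).sd := (pr_step_sd cf 𝔗 _ _ _ (w.step n (by omega))).2.symm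
  have hs2 : (lb (n + 1)).2 = !(vx (n + 1)).sd := pr_walk_sign w (n + 1) hn
  rw [hs1] at h1
  rw [hs2] at h2
  have hne := (pr_walk_label_ne w hr n hn).symm
  have := lab_names_ne hp cf hcf 𝔗 (vx n) (vx (n + 1)) (vx (n + 2)) (lb n).1 (lb (n + 1)).1
    (!(vx (n + 1)).sd) h1 h2 hne
  unfold own at hk
  constructor
  · intro hk0
    apply this.1
    cases hh : (vx (n + 1)).sd
    · rfl
    · rw [hh] at hk; simp at hk; omega
  · intro hk1
    apply this.2
    cases hh : (vx (n + 1)).sd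
    · rw [hh] at hk; simp at hk; omega
    · rfl

/-- Lemma `lem:tower-recovery` (padded-prefix recovery), in zipper form: at a position of radius
`≥ k+1` the own blocks of index `k` agree -/
theorem lab_recovery (hp : p.Adm) (cf : Coef p) (hcf : cf.Sep) (𝔗 : Tab p) (N : ℕ)
    (vx vx' : ℕ → Vtx p) (lb : ℕ → Label p × Bool)
    (w : IsWalk cf 𝔗 (fun x => ¬ GateBad cf 𝔗 x) N vx lb)
    (w' : IsWalk cf 𝔗 (fun x => ¬ GateBad cf 𝔗 x) N vx' lb) (hred : Reduced N lb) :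
    ∀ n, n ≤ N → ∀ k, own (vx n).sd k → k + 1 ≤ min n (N - n) →
      (vx n).u k = (vx' n).u k ∧ (vx n).v k = (vx' n).v k := by
  -- sides agree
  have hsd : ∀ n, n < N → (vx n).sd = (vx' n).sd ∧ (vx (n + 1)).sd = (vx' (n + 1)).sd := by
    intro n hn
    have a := pr_step_sd cf 𝔗 _ _ _ (w.step n hn)
    have a' := pr_step_sd cf 𝔗 _ _ _ (w'.step n hn)
    exact ⟨a.1.trans a'.1.symm, a.2.trans a'.2.symm⟩
  have huniv : ∀ n, n < N → UnivEq cf 𝔗 (lb n).1 (zipU (vx n) (vx (n + 1)))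
      (zipV (vx n) (vx (n + 1))) := fun n hn =>
    pr_step_univ hp cf hcf 𝔗 _ _ _ (w.step n hn) (w.mem n hn.le) (w.mem (n + 1) hn)
  have huniv' : ∀ n, n < N → UnivEq cf 𝔗 (lb n).1 (zipU (vx' n) (vx' (n + 1)))
      (zipV (vx' n) (vx' (n + 1))) := fun n hn =>
    pr_step_univ hp cf hcf 𝔗 _ _ _ (w'.step n hn) (w'.mem n hn.le) (w'.mem (n + 1) hn)
  intro n hn k
  induction k using Nat.strong_induction_on generalizing n with
  | _ k ih =>
    intro ho hk
    obtain ⟨m, rfl⟩ : ∃ m, n = m + 1 := ⟨n - 1, by omega⟩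
    have hm1 : m < N := by omega
    have hm2 : m + 1 < N := by omega
    have sne1 := pr_walk_sd_ne w m hm1
    have sne2 := pr_walk_sd_ne w (m + 1) hm2
    have sne1' := pr_walk_sd_ne w' m hm1
    have sne2' := pr_walk_sd_ne w' (m + 1) hm2
    have ho' : own (vx' (m + 1)).sd k := (hsd m hm1).2 ▸ ho
    -- low blocks of the two edges agree
    have hlow₁ : ∀ j, j < k → zipU (vx m) (vx (m + 1)) j = zipU (vx' m) (vx' (m + 1)) j := by
      intro j hj
      by_cases hoj : own (vx m).sd j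
      · have hoj' : own (vx' m).sd j := (hsd m hm1).1 ▸ hoj
        rw [pr_zipU_own _ _ sne1 j hoj, pr_zipU_own _ _ sne1' j hoj']
        exact (ih j hj m (by omega) hoj (by omega)).1
      · have hoj' : ¬ own (vx' m).sd j := (hsd m hm1).1 ▸ hoj
        rw [pr_zipU_own' _ _ j hoj, pr_zipU_own' _ _ j hoj']
        exact (ih j hj (m + 1) (by omega) ((pr_own_iff_not _ _ sne1.symm j).2 hoj) (by omega)).1
    have hlow₂ : ∀ j, j < k →
        zipU (vx (m + 1)) (vx (m + 1 + 1)) j = zipU (vx' (m + 1)) (vx' (m + 1 + 1)) j := by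
      intro j hj
      by_cases hoj : own (vx (m + 1)).sd j
      · have hoj' : own (vx' (m + 1)).sd j := (hsd m hm1).2 ▸ hoj
        rw [pr_zipU_own _ _ sne2 j hoj, pr_zipU_own _ _ sne2' j hoj']
        exact (ih j hj (m + 1) (by omega) hoj (by omega)).1
      · have hoj' : ¬ own (vx' (m + 1)).sd j := (hsd m hm1).2 ▸ hoj
        rw [pr_zipU_own' _ _ j hoj, pr_zipU_own' _ _ j hoj']
        exact (ih j hj (m + 1 + 1) (by omega) ((pr_own_iff_not _ _ sne2.symm j).2 hoj)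
          (by omega)).1
    have hno : ¬ own (vx m).sd k := (pr_own_iff_not _ _ sne1.symm k).1 ho
    have hno' : ¬ own (vx' m).sd k := (hsd m hm1).1 ▸ hno
    have key := pr_two_eval cf hcf 𝔗 𝔗 k (fun _ => rfl) (lb m).1 (lb (m + 1)).1
      (lab_walk_nameNe hp hcf w hred m hm2 k ho)
      (zipU (vx m) (vx (m + 1))) (zipV (vx m) (vx (m + 1)))
      (zipU (vx (m + 1)) (vx (m + 1 + 1))) (zipV (vx (m + 1)) (vx (m + 1 + 1)))
      (zipU (vx' m) (vx' (m + 1))) (zipV (vx' m) (vx' (m + 1)))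
      (zipU (vx' (m + 1)) (vx' (m + 1 + 1))) (zipV (vx' (m + 1)) (vx' (m + 1 + 1)))
      (huniv m hm1 k) (huniv (m + 1) hm2 k) (huniv' m hm1 k) (huniv' (m + 1) hm2 k)
      hlow₁ hlow₂
      (by rw [pr_zipU_own' _ _ k hno, pr_zipU_own _ _ sne2 k ho])
      (by rw [pr_zipV_own' _ _ k hno, pr_zipV_own _ _ sne2 k ho])
      (by rw [pr_zipU_own' _ _ k hno', pr_zipU_own _ _ sne2' k ho'])
      (by rw [pr_zipV_own' _ _ k hno', pr_zipV_own _ _ sne2' k ho'])
      (fun h0 => by subst h0; exact ⟨pr_zipU_zero_pre hp _ _, pr_zipU_zero_pre hp _ _⟩)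
    rwa [pr_zipU_own' _ _ k hno, pr_zipV_own' _ _ k hno, pr_zipU_own' _ _ k hno',
      pr_zipV_own' _ _ k hno'] at key

end Claimed.Agent.R300.Lab
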