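/-
Row 300 / S0553 (INJ paper), Section 01_labeling, package L8 (LabTower): Proposition `tower-labels`
(foldedness, heights, alphabet, degrees, global uniqueness of long words).  Owner: helper31.
Uses `lab_recovery` of LabRec (package L6).
-/
import Claimed.Agent.R300.LabRec

set_option autoImplicit false

namespace Claimed.Agent.R300.Lab

open Classical

variable {p : Par}

/-! ## L8: Proposition `tower-labels` -/

/-- a step as an auxiliary edge seen from the side of its source -/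
theorem lab_step_edge {cf : Coef p} {𝔗 : Tab p} {x y : Vtx p} {ls : Label p × Bool}
    (h1 : Step cf 𝔗 x y ls) :
    ∃ (h : ℕ) (a b : Vtx p), IsEdge0 cf 𝔗 h a b ls.1 ∧ x = endp a b (!ls.2) ∧ y = endp a b ls.2 := by
  obtain ⟨l, σ⟩ := ls
  unfold Step at h1
  cases σ
  · simp only [Bool.false_eq_true, if_false] at h1
    obtain ⟨h, he⟩ := h1
    exact ⟨h, y, x, he, rfl, rfl⟩
  · simp only [if_true] at h1
    obtain ⟨h, he⟩ := h1
    exact ⟨h, x, y, he, rfl, rfl⟩

theorem lab_step_of_edge {cf : Coef p} {𝔗 : Tab p} {h : ℕ} {a b : Vtx p} {l : Label p}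
    (he : IsEdge0 cf 𝔗 h a b l) (σ : Bool) : Step cf 𝔗 (endp a b (!σ)) (endp a b σ) (l, σ) := by
  unfold Step
  cases σ
  · simp only [Bool.false_eq_true, if_false]
    exact ⟨h, he⟩
  · simp only [if_true]
    exact ⟨h, he⟩

/-- reversal of a step -/
theorem lab_step_symm {cf : Coef p} {𝔗 : Tab p} {x y : Vtx p} {l : Label p} {σ : Bool}
    (h1 : Step cf 𝔗 x y (l, σ)) : Step cf 𝔗 y x (l, !σ) := by
  obtain ⟨h, a, b, he, rfl, rfl⟩ := lab_step_edge h1
  have := lab_step_of_edge he (!σ)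
  simpa using this

theorem lab_htOf_inj (sd : Bool) (τ : Fin p.T) (h h' : ℕ) (e : htOf sd τ h = htOf sd τ h') :
    h = h' := by
  rw [← lab_hCom_eq sd τ h, e, lab_hCom_eq]

theorem lab_htOf_range (sd : Bool) (τ : Fin p.T) (h : ℕ) : h ≤ htOf sd τ h ∧ htOf sd τ h ≤ h + 1 := by
  by_cases hb : isBig sd τ
  · rw [lab_htOf_big sd τ h hb]; omega
  · rw [lab_htOf_small sd τ h hb]; omega

/-- the labelling is folded -/
theorem lab_folded (hp : p.Adm) (cf : Coef p) (hcf : cf.Sep) (𝔗 : Tab p) (x y y' : Vtx p)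
    (ls : Label p × Bool) (h1 : Step cf 𝔗 x y ls) (h2 : Step cf 𝔗 x y' ls) : y = y' := by
  obtain ⟨h, a, b, he, hx, rfl⟩ := lab_step_edge h1
  obtain ⟨h', a', b', he', hx', rfl⟩ := lab_step_edge h2
  have hh : h = h' := by
    apply lab_htOf_inj (!ls.2) ls.1.ty
    rw [← (lab_endp_spec he (!ls.2)).2.1, ← (lab_endp_spec he' (!ls.2)).2.1, ← hx, ← hx']
  subst hh
  obtain ⟨e1, e2⟩ := lab_edge_determ hp he he' (!ls.2) (hx.symm.trans hx')
  rw [e1, e2]

/-- edges join equal or consecutive heights and opposite sides -/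
theorem lab_step_ht (cf : Coef p) (𝔗 : Tab p) (x y : Vtx p) (ls : Label p × Bool)
    (h1 : Step cf 𝔗 x y ls) : x.sd ≠ y.sd ∧ x.ht ≤ y.ht + 1 ∧ y.ht ≤ x.ht + 1 := by
  obtain ⟨h, a, b, he, rfl, rfl⟩ := lab_step_edge h1
  have s1 := lab_endp_spec he (!ls.2)
  have s2 := lab_endp_spec he ls.2
  have r1 := lab_htOf_range (!ls.2) ls.1.ty h
  have r2 := lab_htOf_range ls.2 ls.1.ty h
  rw [s1.1, s2.1, s1.2.1, s2.2.1]
  refine ⟨by cases ls.2 <;> simp, by omega, by omega⟩

/-- labels as tuples -/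
def labelEquiv (p : Par) : Label p ≃ Fin p.T × Fin p.M × Fin p.d × BV p.b × BV p.r where
  toFun l := (l.ty, l.rho, l.j, l.e, l.h0)
  invFun q := ⟨q.1, q.2.1, q.2.2.1, q.2.2.2.1, q.2.2.2.2⟩
  left_inv _ := rfl
  right_inv _ := rfl

instance lab_finite_label : Finite (Label p) := Finite.of_equiv _ (labelEquiv p).symm

/-- size of the signed alphabet, (2.20) -/
theorem lab_card_alphabet : Nat.card (Label p × Bool) = 2 * (p.T * p.M * p.d * 2 ^ p.b * 2 ^ p.r) := by
  rw [Nat.card_prod, Nat.card_congr (labelEquiv p), Nat.card_eq_fintype_card,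
    Nat.card_eq_fintype_card]
  simp [ZMod.card]
  ring

/-- a step out of `x` is determined by type, serial, extra value and bucket of its label -/
theorem lab_step_slot (hp : p.Adm) (cf : Coef p) (hcf : cf.Sep) (𝔗 : Tab p) (x y y' : Vtx p)
    (ls ls' : Label p × Bool) (h1 : Step cf 𝔗 x y ls) (h2 : Step cf 𝔗 x y' ls')
    (e1 : ls.1.ty = ls'.1.ty) (e2 : ls.1.j = ls'.1.j) (e3 : ls.1.e = ls'.1.e)
    (e4 : ls.1.buck = ls'.1.buck) : y = y' ∧ ls = ls' := by
  obtain ⟨l, σ⟩ := ls
  obtain ⟨l', σ'⟩ := ls'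
  simp only at e1 e2 e3 e4
  obtain ⟨h, a, b, he, hx, -⟩ := lab_step_edge h1
  obtain ⟨h', a', b', he', hx', -⟩ := lab_step_edge h2
  simp only at he he' hx hx'
  have hσ : σ = σ' := by
    have t1 := (lab_endp_spec he (!σ)).1
    have t2 := (lab_endp_spec he' (!σ')).1
    rw [← hx] at t1
    rw [← hx', t1] at t2
    simpa using t2
  subst hσ
  have hh : h = h' := by
    apply lab_htOf_inj (!σ) l.ty
    rw [← (lab_endp_spec he (!σ)).2.1, e1, ← (lab_endp_spec he' (!σ)).2.1, ← hx, ← hx']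
  subst hh
  have e5 : l.rho = l'.rho := Fin.ext (he.hrho.trans he'.hrho.symm)
  have e6 : l.h0 = l'.h0 := by
    cases σ
    · have t1 : x = b := hx
      have t2 : x = b' := hx'
      subst t1
      subst t2
      apply lab_head_from_B hp he he'
      unfold Label.nameB
      rw [e1, e2, e3, e4, e5]
    · have t1 : x = a := hx
      have t2 : x = a' := hx'
      subst t1
      subst t2
      apply lab_head_from_A hp he he'
      unfold Label.nameA
      rw [e1, e2, e3, e5]
  have hl : l = l' := Label.ext e1 e5 e2 e3 e6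
  subst hl
  exact ⟨lab_folded hp cf hcf 𝔗 x y y' _ h1 h2, rfl⟩

/-- total degrees -/
theorem lab_degree (hp : p.Adm) (cf : Coef p) (hcf : cf.Sep) (𝔗 : Tab p) (x : Vtx p) :
    Nat.card {yl : Vtx p × (Label p × Bool) // Step cf 𝔗 x yl.1 yl.2} ≤ p.T * 2 ^ p.b * p.D := by
  have hinj : Function.Injective
      (fun yl : {yl : Vtx p × (Label p × Bool) // Step cf 𝔗 x yl.1 yl.2} =>
        ((yl.1.2.1.ty, yl.1.2.1.j, yl.1.2.1.e, yl.1.2.1.buck) :
          Fin p.T × Fin p.d × BV p.b × BV (2 * p.r - p.s))) := by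
    rintro ⟨⟨y, ls⟩, h1⟩ ⟨⟨y', ls'⟩, h2⟩ e
    simp only [Prod.mk.injEq] at e
    obtain ⟨e1, e2, e3, e4⟩ := e
    obtain ⟨t1, t2⟩ := lab_step_slot hp cf hcf 𝔗 x y y' ls ls' h1 h2 e1 e2 e3 e4
    subst t1
    subst t2
    rfl
  refine (Nat.card_le_card_of_injective _ hinj).trans (le_of_eq ?_)
  have hD : p.D = p.d * 2 ^ (2 * p.r - p.s) := by
    unfold Par.D Par.d
    rw [← lab_ld_lD hp, pow_add]
  rw [Nat.card_eq_fintype_card, hD]
  simp [ZMod.card]
  ring



theorem lab_lq_spec (hp : p.Adm) : 20000 * p.lq = 10001 * p.s := by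
  obtain ⟨c, hc⟩ := hp.h20000
  unfold Par.lq
  rw [hc]
  omega

/-- the arithmetic of the midpoint: the radius `N/2` exceeds `1.0008 H_j / s + 1` -/
theorem lab_mid_arith (hp : p.Adm) (i j N : ℕ) (hj : j ≤ i + N / 2)
    (hN : 1002 * p.H i ≤ 1000 * (N * p.lq)) :
    p.H j + 2 * (p.H j / 2500) < p.s * (N / 2 - 1) := by
  obtain ⟨c, hc⟩ := hp.h20000
  have hs := hp.hs
  have hlq := lab_lq_spec hp
  have hsl := hp.hslope
  have hn0 := hp.hn0
  have h1 : p.H j ≤ p.H i + p.b * (N / 2) := by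
    unfold Par.H
    have := Nat.mul_le_mul_left p.b hj
    rw [mul_add] at this
    omega
  have h2 : 1000000 * (p.b * (N / 2)) ≤ p.lq * (N / 2) := by
    have := Nat.mul_le_mul_right (N / 2) hsl
    calc 1000000 * (p.b * (N / 2)) = 1000000 * p.b * (N / 2) := by ring
      _ ≤ _ := this
  have h3 : N * p.lq ≤ 2 * (p.lq * (N / 2)) + p.lq := by
    have : N ≤ 2 * (N / 2) + 1 := by omega
    calc N * p.lq ≤ (2 * (N / 2) + 1) * p.lq := Nat.mul_le_mul_right _ this
      _ = _ := by ring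
  have h4 : 2000001 * p.s ≤ p.H i := by
    unfold Par.H
    have := Nat.mul_le_mul_right p.s hn0
    have e : (2 * p.n0 + 1) * p.s = 2 * (p.n0 * p.s) + p.s := by ring
    omega
  have h5 : 20000 * (p.lq * (N / 2)) = 10001 * (p.s * (N / 2)) := by
    calc 20000 * (p.lq * (N / 2)) = (20000 * p.lq) * (N / 2) := by ring
      _ = _ := by rw [hlq]; ring
  rcases Nat.eq_zero_or_pos (N / 2) with h0 | h0
  · rw [h0] at h2 h3 h5
    omega
  · obtain ⟨R, hR⟩ : ∃ R, N / 2 = R + 1 := ⟨N / 2 - 1, by omega⟩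
    rw [hR] at h1 h2 h3 h5 ⊢
    have e : p.s * (R + 1) = p.s * R + p.s := by ring
    rw [e] at h5
    rw [show R + 1 - 1 = R by omega]
    generalize p.s * R = X at *
    generalize p.lq * (R + 1) = Y at *
    generalize p.b * (R + 1) = Z at *
    generalize p.H i = Hi at *
    generalize p.H j = Hj at *
    have hd : 2500 * (Hj / 2500) ≤ Hj := Nat.mul_div_le Hj 2500
    generalize Hj / 2500 = dd at *
    generalize N * p.lq = NL at *
    clear hc hj hR e hsl hn0
    linarith


/-! ### global uniqueness of long words -/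

theorem lab_walk_ht {cf : Coef p} {𝔗 : Tab p} {S : Vtx p → Prop} {N : ℕ} {vx : ℕ → Vtx p}
    {lb : ℕ → Label p × Bool} (w : IsWalk cf 𝔗 S N vx lb) :
    ∀ n, n ≤ N → (vx n).ht ≤ (vx 0).ht + n := by
  intro n
  induction n with
  | zero => intro _; omega
  | succ n ih =>
    intro hn
    have h1 := ih (by omega)
    have h2 := (lab_step_ht cf 𝔗 _ _ _ (w.step n (by omega))).2.2
    omega

/-- side and height residue of the source of a step are read off the label -/
theorem lab_step_src {cf : Coef p} {𝔗 : Tab p} {x y : Vtx p} {ls : Label p × Bool}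
    (h1 : Step cf 𝔗 x y ls) :
    x.sd = (!ls.2) ∧ ∃ h, x.ht = htOf (!ls.2) ls.1.ty h ∧ ls.1.rho.1 = h % p.M := by
  obtain ⟨h, a, b, he, rfl, -⟩ := lab_step_edge h1
  exact ⟨(lab_endp_spec he _).1, h, (lab_endp_spec he _).2.1, he.hrho⟩

theorem lab_htOf_mod (sd : Bool) (τ : Fin p.T) (h h' : ℕ) (e : h % p.M = h' % p.M) :
    htOf sd τ h % p.M = htOf sd τ h' % p.M := by
  by_cases hb : isBig sd τ
  · rw [lab_htOf_big sd τ h hb, lab_htOf_big sd τ h' hb, Nat.add_mod, e, ← Nat.add_mod]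
  · rw [lab_htOf_small sd τ h hb, lab_htOf_small sd τ h' hb, e]

theorem lab_kap_mul_le (hp : p.Adm) (j : ℕ) : p.s * p.kap j ≤ p.H j := by
  obtain ⟨h1, h2, h3, -, h5⟩ := lab_kap_spec hp j
  have hn0 := hp.hn0
  unfold Par.H
  obtain ⟨k, hk⟩ : ∃ k, p.kap j = k + 1 := ⟨p.kap j - 1, by omega⟩
  rw [hk] at h1 ⊢
  rw [show k + 1 - 1 = k by omega] at h1
  have e1 : p.s * (k + 1) = k * p.s + p.s := by ring
  have e2 : (2 * p.n0 + 1) * p.s = 2 * p.n0 * p.s + p.s := by ring
  omega

/-- two separated states with the same side and height residue which agree on all own blocks of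
index `< R - 1`, where `R` exceeds `1.0008 H / s + 1` for the first one, are equal -/
theorem lab_mid_eq (hp : p.Adm) (x x' : Vtx p) (R : ℕ) (hsd : x.sd = x'.sd)
    (hmod : x.ht % p.M = x'.ht % p.M)
    (hrec : ∀ k, own x.sd k → k + 1 ≤ R → x.u k = x'.u k ∧ x.v k = x'.v k)
    (hMI : p.H x.ht + 2 * (p.H x.ht / 2500) < p.s * (R - 1))
    (hg : ¬ SepBad x) (hg' : ¬ SepBad x') : x = x' := by
  have hκ : p.kap x.ht + 2 ≤ R := by
    have h1 := lab_kap_mul_le hp x.ht
    have h2 : p.s * p.kap x.ht < p.s * (R - 1) := by omega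
    have := Nat.lt_of_mul_lt_mul_left h2
    omega
  have hzero : ∀ k, ¬ k + 1 ≤ R → x.u k = 0 ∧ x.v k = 0 := by
    intro k hk
    by_cases ho : own x.sd k
    · have h1 := lab_vtx_u_own x k ho
      have h2 := lab_vtx_v_own x k ho
      rw [lab_aw_beyond p _ k (by omega)] at h1
      rw [lab_bw_beyond hp _ k (by omega)] at h2
      exact ⟨(lab_isPre_zero_iff _).1 h1, (lab_isPre_zero_iff _).1 h2⟩
    · exact ⟨lab_vtx_u_other x k ho, lab_vtx_v_other x k ho⟩
  rcases lt_trichotomy x.ht x'.ht with hlt | heq | hgt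
  · exfalso
    apply hg'
    refine ⟨x.ht, hlt, hmod, fun n hn => ?_⟩
    have hn1 : n < p.H x.ht / 2500 := lt_of_lt_of_le hn (min_le_left _ _)
    rw [← hsd]
    have hk : ublk p x.sd (lC p x.sd x.ht + n) + 1 ≤ R := by
      have h1 := lab_ublk_le hp x.sd x.ht n
      have h2 : p.s * (ublk p x.sd (lC p x.sd x.ht + n) - 1) < p.s * (R - 1) := by omega
      have := Nat.lt_of_mul_lt_mul_left h2
      omega
    rw [← lab_ubit_congr x x' _ hsd (hrec _ (lab_own_ublk _ _) hk).1]
    exact lab_ubit_beyond hp x _ (Nat.le_add_right _ _)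
  · apply Vtx.ext hsd heq
    · funext k
      by_cases hk : k + 1 ≤ R
      · by_cases ho : own x.sd k
        · exact (hrec k ho hk).1
        · rw [lab_vtx_u_other x k ho, lab_vtx_u_other x' k (by rwa [← hsd])]
      · rw [(hzero k hk).1]
        by_cases ho : own x.sd k
        · have h1 := lab_vtx_u_own x' k (by rwa [← hsd])
          rw [← heq, lab_aw_beyond p _ k (by omega)] at h1
          exact ((lab_isPre_zero_iff _).1 h1).symm
        · rw [lab_vtx_u_other x' k (by rwa [← hsd])]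
    · funext k
      by_cases hk : k + 1 ≤ R
      · by_cases ho : own x.sd k
        · exact (hrec k ho hk).2
        · rw [lab_vtx_v_other x k ho, lab_vtx_v_other x' k (by rwa [← hsd])]
      · rw [(hzero k hk).2]
        by_cases ho : own x.sd k
        · have h1 := lab_vtx_v_own x' k (by rwa [← hsd])
          rw [← heq, lab_bw_beyond hp _ k (by omega)] at h1
          exact ((lab_isPre_zero_iff _).1 h1).symm
        · rw [lab_vtx_v_other x' k (by rwa [← hsd])]
  · exfalso
    apply hg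
    refine ⟨x'.ht, hgt, hmod.symm, fun n _ => ?_⟩
    by_cases hk : ublk p x.sd (lC p x.sd x'.ht + n) + 1 ≤ R
    · rw [lab_ubit_congr x x' _ hsd (hrec _ (lab_own_ublk _ _) hk).1]
      apply lab_ubit_beyond hp x'
      rw [← hsd]
      exact Nat.le_add_right _ _
    · exact lab_ubit_zero_of_blk x _ (hzero _ hk).1

/-- Proposition `prop:tower-labels` (4): global uniqueness of words of length `≥ 1.002 m_i`,
`m_i = H_i / log2 q` -/
theorem lab_word_unique (hp : p.Adm) (cf : Coef p) (hcf : cf.Sep) (𝔗 : Tab p) (N : ℕ)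
    (vx vx' : ℕ → Vtx p) (lb : ℕ → Label p × Bool)
    (w : IsWalk cf 𝔗 (Good cf 𝔗) N vx lb) (w' : IsWalk cf 𝔗 (Good cf 𝔗) N vx' lb)
    (hred : Reduced N lb) (hN : 1002 * p.H (vx 0).ht ≤ 1000 * (N * p.lq)) :
    ∀ n, n ≤ N → vx n = vx' n := by
  have hs := hp.hs
  have hjle := lab_walk_ht w (N / 2) (Nat.div_le_self N 2)
  have hMI := lab_mid_arith hp _ _ N hjle hN
  have hN2 : 2 ≤ N / 2 := by
    by_contra hc
    have : N / 2 - 1 = 0 := by omega
    rw [this] at hMI
    omega
  -- recovery at the midpoint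
  have hrec := lab_recovery hp cf hcf 𝔗 N vx vx' lb
    ⟨fun n hn => (w.mem n hn).1, w.step⟩ ⟨fun n hn => (w'.mem n hn).1, w'.step⟩ hred
    (N / 2) (Nat.div_le_self N 2)
  have hmin : min (N / 2) (N - N / 2) = N / 2 := by omega
  rw [hmin] at hrec
  obtain ⟨hsd, h, hh, hρ⟩ := lab_step_src (w.step (N / 2) (by omega))
  obtain ⟨hsd', h', hh', hρ'⟩ := lab_step_src (w'.step (N / 2) (by omega))
  have hgood := w.mem (N / 2) (Nat.div_le_self N 2)
  have hgood' := w'.mem (N / 2) (Nat.div_le_self N 2)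
  have hmid : vx (N / 2) = vx' (N / 2) :=
    lab_mid_eq hp _ _ (N / 2) (hsd.trans hsd'.symm)
      (by rw [hh, hh']; exact lab_htOf_mod _ _ _ _ (hρ.symm.trans hρ')) hrec hMI hgood.2 hgood'.2
  -- propagation by foldedness
  have hfwd : ∀ m, N / 2 + m ≤ N → vx (N / 2 + m) = vx' (N / 2 + m) := by
    intro m
    induction m with
    | zero => intro _; exact hmid
    | succ m ih =>
      intro hm
      have e := ih (by omega)
      have s1 := w.step (N / 2 + m) (by omega)
      have s2 := w'.step (N / 2 + m) (by omega)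
      rw [← e] at s2
      exact lab_folded hp cf hcf 𝔗 _ _ _ _ s1 s2
  have hbwd : ∀ m, m ≤ N / 2 → vx (N / 2 - m) = vx' (N / 2 - m) := by
    intro m
    induction m with
    | zero => intro _; exact hmid
    | succ m ih =>
      intro hm
      have e := ih (by omega)
      have s1 := w.step (N / 2 - (m + 1)) (by omega)
      have s2 := w'.step (N / 2 - (m + 1)) (by omega)
      rw [show N / 2 - (m + 1) + 1 = N / 2 - m by omega] at s1 s2
      rw [← e] at s2
      exact lab_folded hp cf hcf 𝔗 _ _ _ _ (lab_step_symm s1) (lab_step_symm s2)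
  intro n hn
  by_cases hc : N / 2 ≤ n
  · have := hfwd (n - N / 2) (by omega)
    rwa [show N / 2 + (n - N / 2) = n by omega] at this
  · have := hbwd (N / 2 - n) (by omega)
    rwa [show N / 2 - (N / 2 - n) = n by omega] at this

/-- forces the on-demand equation lemmas of the definitions of this file to live here
(RULES.md, rule 6) -/
theorem lab_tower_eqns : True := by
  have := @labelEquiv.eq_1
  have := @labelEquiv.congr_simp
  trivial

end Claimed.Agent.R300.Lab
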