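/-
Row 300 / S0553 (INJ paper), Section 03_pruning: deterministic facts about coherent returns
(owner: helper59): labels are determined by names + initial blocks, `lem:coherent-junction`,
every coherent return contains a minimal one, `lem:pruning-base-girth`.
-/
import Claimed.Agent.R300.PrWalk
import Claimed.Agent.R300.LabRec

set_option autoImplicit false

namespace Claimed.Agent.R300.Pr

open Claimed.Agent.R300.Lab

variable {p : Par}

variable {cf : Coef p} {𝔗 : Tab p} {μ N : ℕ} {vx : ℕ → Vtx p} {lb : ℕ → Label p × Bool}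

theorem pr_good_gate {x : Vtx p} (h : Good cf 𝔗 x) : ¬ GateBad cf 𝔗 x := h.1

/-- the universal equations along a walk in the good graph -/
theorem pr_walk_univ (hp : p.Adm) (hcf : cf.Sep) {S : Vtx p → Prop}
    (hS : ∀ x, S x → ¬ GateBad cf 𝔗 x) (w : IsWalk cf 𝔗 S N vx lb) (n : ℕ) (hn : n < N) :
    UnivEq cf 𝔗 (lb n).1 (zipU (vx n) (vx (n + 1))) (zipV (vx n) (vx (n + 1))) :=
  pr_step_univ hp cf hcf 𝔗 _ _ _ (w.step n hn) (hS _ (w.mem n hn.le)) (hS _ (w.mem (n + 1) hn))

/-- interior vertices of a reduced walk: the two coefficient names are different -/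
theorem pr_walk_nameNe (hp : p.Adm) (hcf : cf.Sep) {S : Vtx p → Prop}
    (w : IsWalk cf 𝔗 S N vx lb) (hr : Reduced N lb) (n : ℕ) (hn : n + 1 < N) (k : ℕ)
    (hk : own (vx (n + 1)).sd k) : NameNe (lb n).1 (lb (n + 1)).1 k :=
  lab_walk_nameNe hp hcf w hr n hn k hk

/-- `lem:coherent-junction` -/
theorem pr_junction (hp : p.Adm) (hcf : cf.Sep) (h : IsMinCohRet cf 𝔗 μ N vx lb) (k : ℕ)
    (hk : own (vx 0).sd k) : NameNe (lb 0).1 (lb (N - 1)).1 k := by
  obtain ⟨hc, hmin⟩ := h
  obtain ⟨K, hK1, hKo, hKN, hKa, hKb, hag⟩ := hc.depth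
  have hN := hc.pos
  have w := hc.walk
  have heven := pr_walk_even w hc.side
  have hN2 : 2 ≤ N := by omega
  have hG : ∀ x, Good cf 𝔗 x → ¬ GateBad cf 𝔗 x := fun x hx => hx.1
  -- it suffices to exclude equality of the two labels
  have hlab : (lb 0).1 ≠ (lb (N - 1)).1 := by
    intro hl
    by_cases hN' : N = 2
    · subst hN'
      exact (pr_walk_label_ne w hc.red 0 (by omega)) hl.symm
    · -- strip one edge at both ends
      have s0 : Step cf 𝔗 (vx 0) (vx 1) (lb 0) := w.step 0 hN
      have sN : Step cf 𝔗 (vx N) (vx (N - 1)) ((lb (N - 1)).1, !(lb (N - 1)).2) := by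
        have := w.step (N - 1) (by omega)
        rw [show N - 1 + 1 = N by omega] at this
        exact (pr_step_symm cf 𝔗 _ _ _ _).1 this
      have hsg : ((lb (N - 1)).1, !(lb (N - 1)).2) = lb 0 := by
        have a1 : (lb 0).2 = !(vx 0).sd := pr_walk_sign w 0 hN
        have a2 : (lb (N - 1)).2 = (vx N).sd := by
          have := (pr_step_sd cf 𝔗 _ _ _ (w.step (N - 1) (by omega))).2
          rw [show N - 1 + 1 = N by omega] at this
          exact this.symm
        apply Prod.ext
        · exact hl.symm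
        · simp only; rw [a2, a1, hc.side]
      rw [hsg] at sN
      obtain ⟨K', rfl⟩ : ∃ K', K = K' + 1 := ⟨K - 1, by omega⟩
      have hag' : Agree (vx 1) (vx (N - 1)) K' :=
        pr_propagate hp cf hcf 𝔗 _ _ _ _ _ s0 sN (hG _ (w.mem 0 (by omega)))
          (hG _ (w.mem 1 (by omega))) (hG _ (w.mem N le_rfl)) (hG _ (w.mem (N - 1) (by omega)))
          K' hag
      apply hmin 1 (N - 2) (by omega) (by omega)
      have e1 : shiftV 1 vx 0 = vx 1 := rfl
      have e2 : shiftV 1 vx (N - 2) = vx (N - 1) := by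
        unfold shiftV; congr 1; omega
      refine ⟨pr_walk_shift w 1 (N - 2) (by omega), by omega, pr_red_shift hc.red 1 (N - 2) (by omega),
        fun n hn => hc.band (n + 1) (by omega), ?_, ?_⟩
      · rw [e1, e2]
        have a1 := pr_walk_sd_ne w 0 hN
        have a2 := pr_walk_sd_ne w (N - 1) (by omega)
        rw [show N - 1 + 1 = N by omega] at a2
        have a3 := hc.side
        cases h1 : (vx 0).sd <;> cases h2 : (vx (0 + 1)).sd <;> cases h3 : (vx (N - 1)).sd <;>
          cases h4 : (vx N).sd <;> simp_all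
      · rw [e1, e2]
        have b1 := pr_step_ht_le cf 𝔗 _ _ _ s0
        have b2 := pr_step_ht_le cf 𝔗 _ _ _ sN
        have c1 : p.kap (vx 0).ht ≤ p.kap (vx 1).ht + 1 := by
          have := pr_kap_mono hp b1.1
          have := (pr_kap_succ_le hp (vx 1).ht).2
          omega
        have c2 : p.kap (vx N).ht ≤ p.kap (vx (N - 1)).ht + 1 := by
          have := pr_kap_mono hp b2.1
          have := (pr_kap_succ_le hp (vx (N - 1)).ht).2
          omega
        refine ⟨K', by omega, ?_, by omega, by omega, by omega, hag'⟩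
        have a1 := pr_walk_sd_ne w 0 hN
        simp only [Nat.add_sub_cancel] at hKo
        have hK'1 : 1 ≤ K' := by omega
        obtain ⟨K'', rfl⟩ : ∃ K'', K' = K'' + 1 := ⟨K' - 1, by omega⟩
        simp only [Nat.add_sub_cancel]
        have := (lab_own_succ (vx 0).sd K'').1 hKo
        exact (pr_own_iff_not _ _ a1.symm K'').2 this
  -- names
  have u0 := pr_walk_univ hp hcf hG w 0 hN
  have uN := pr_walk_univ hp hcf hG w (N - 1) (by omega)
  rw [show N - 1 + 1 = N by omega] at uN
  have sd0 := pr_walk_sd_ne w 0 hN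
  have sdN := pr_walk_sd_ne w (N - 1) (by omega)
  rw [show N - 1 + 1 = N by omega] at sdN
  unfold own at hk hKo
  constructor
  · intro hk0 hname
    have hA : (vx 0).sd = false := by
      cases hh : (vx 0).sd
      · rfl
      · rw [hh] at hk; simp at hk; omega
    have hAN : (vx N).sd = false := by rw [← hc.side]; exact hA
    have o0 : own (vx 0).sd 0 := by unfold own; rw [hA]; simp
    have oN : own (vx N).sd 0 := by unfold own; rw [hAN]; simp
    apply hlab
    apply pr_label_eq_A hp cf 𝔗 _ _ hname _ _ _ _ (u0 0) (uN 0)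
    · rw [pr_zipU_own _ _ sd0 0 o0, pr_zipU_comm, pr_zipU_own _ _ sdN.symm 0 oN]
      exact (hag 0 (by omega)).1
    · rw [pr_zipV_own _ _ sd0 0 o0, pr_zipV_comm, pr_zipV_own _ _ sdN.symm 0 oN]
      exact (hag 0 (by omega)).2
  · intro hk1 hname
    have hB : (vx 0).sd = true := by
      cases hh : (vx 0).sd
      · rw [hh] at hk; simp at hk; omega
      · rfl
    have hBN : (vx N).sd = true := by rw [← hc.side]; exact hB
    have o0 : own (vx 0).sd 1 := by unfold own; rw [hB]; simp
    have oN : own (vx N).sd 1 := by unfold own; rw [hBN]; simp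
    have hK2 : 2 ≤ K := by
      rw [hB] at hKo; simp at hKo; omega
    apply hlab
    apply pr_label_eq_B hp cf 𝔗 _ _ hname _ _ _ _ (u0 1) (uN 1)
    · rw [pr_zipU_own _ _ sd0 1 o0, pr_zipU_comm, pr_zipU_own _ _ sdN.symm 1 oN]
      exact (hag 1 (by omega)).1
    · rw [pr_zipV_own _ _ sd0 1 o0, pr_zipV_comm, pr_zipV_own _ _ sdN.symm 1 oN]
      exact (hag 1 (by omega)).2

/-- every coherent return contains a minimal one -/
theorem pr_exists_min : ∀ (N : ℕ) (vx : ℕ → Vtx p) (lb : ℕ → Label p × Bool),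
    IsCohRet cf 𝔗 μ N vx lb →
    ∃ a N', a + N' ≤ N ∧ IsMinCohRet cf 𝔗 μ N' (shiftV a vx) (shiftL a lb) := by
  intro N
  induction N using Nat.strong_induction_on with
  | _ N ih =>
    intro vx lb h
    by_cases hmin : ∀ a N', a + N' ≤ N → N' < N → ¬ IsCohRet cf 𝔗 μ N' (shiftV a vx) (shiftL a lb)
    · exact ⟨0, N, by omega, h, hmin⟩
    · push Not at hmin
      obtain ⟨a, N', h1, h2, h3⟩ := hmin
      obtain ⟨a', N'', h4, h5⟩ := ih N' h2 _ _ h3
      refine ⟨a' + a, N'', by omega, ?_⟩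
      have e1 : shiftV a' (shiftV a vx) = shiftV (a' + a) vx := by
        funext n; unfold shiftV; congr 1; ring
      have e2 : shiftL a' (shiftL a lb) = shiftL (a' + a) lb := by
        funext n; unfold shiftL; congr 1; ring
      rwa [e1, e2] at h5

/-- heights along a walk, in terms of `H` -/
theorem pr_walk_H {S : Vtx p → Prop} (w : IsWalk cf 𝔗 S N vx lb) (n : ℕ) (hn : n ≤ N) :
    p.H (vx 0).ht ≤ p.H (vx n).ht + p.b * n ∧ p.H (vx n).ht ≤ p.H (vx 0).ht + p.b * n := by
  have h := pr_walk_ht_le w 0 n (by omega)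
  rw [Nat.zero_add] at h
  constructor
  · calc p.H (vx 0).ht ≤ p.H ((vx n).ht + n) := pr_H_mono p h.1
      _ = _ := pr_H_add p _ _
  · calc p.H (vx n).ht ≤ p.H ((vx 0).ht + n) := pr_H_mono p h.2
      _ = _ := pr_H_add p _ _

/-- a vertex owns `k` or `k + 1` -/
theorem pr_own_or (sd : Bool) (k : ℕ) : own sd k ∨ own sd (k + 1) := by
  by_cases h : own sd k
  · exact Or.inl h
  · exact Or.inr ((lab_own_succ sd k).2 h)

/-- A closed reduced walk of length `≤ .93 m_i` in the good graph is a coherent return. -/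
theorem pr_closed_cohRet (hp : p.Adm) (w : IsWalk cf 𝔗 (Good cf 𝔗) N vx lb) (hN : 0 < N)
    (hcl : vx N = vx 0) (hr : Reduced N lb) (hlen : 100 * (N * p.lq) ≤ 93 * p.H (vx 0).ht) :
    IsCohRet cf 𝔗 (p.H (vx 0).ht / (25 * p.s)) N vx lb := by
  set H := p.H (vx 0).ht with hH
  set μ := H / (25 * p.s) with hμ
  have hs := hp.hs
  have hn0 := hp.hn0
  obtain ⟨s', hs'⟩ := hp.h20000
  have hlq : p.lq = 10001 * s' := by
    unfold Par.lq; rw [hs']
    rw [show 10001 * (20000 * s') = 20000 * (10001 * s') by ring]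
    exact Nat.mul_div_cancel_left _ (by norm_num)
  have hs'pos : 0 < s' := by omega
  have hslope := hp.hslope
  obtain ⟨hk1, hk2⟩ := pr_kap_bounds hp (vx 0).ht
  rw [← hH] at hk1 hk2
  set κ := p.kap (vx 0).ht with hκ
  -- basic size
  have hHbig : 2000000 * p.s ≤ H := by
    rw [hH]; unfold Par.H
    have : 2000000 * p.s ≤ (2 * p.n0 + 1) * p.s := Nat.mul_le_mul_right _ (by omega)
    omega
  have hμ1 : 25 * p.s * μ ≤ H := Nat.mul_div_le H (25 * p.s)
  have hμ2 : H < 25 * p.s * (μ + 1) := Nat.lt_mul_div_succ H (by omega)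
  -- atoms
  have hbN : 1000000 * (p.b * N) ≤ H := by
    have : 1000000 * (p.b * N) ≤ p.lq * N := by
      calc 1000000 * (p.b * N) = (1000000 * p.b) * N := by ring
        _ ≤ p.lq * N := Nat.mul_le_mul_right _ hslope
    have h2 : p.lq * N = N * p.lq := Nat.mul_comm _ _
    omega
  have hNs : 100 * 10001 * (N * p.s) ≤ 93 * 20000 * H := by
    have e1 : N * p.s = 20000 * (N * s') := by rw [hs']; ring
    have e2 : N * p.lq = 10001 * (N * s') := by rw [hlq]; ring
    rw [e1]; rw [e2] at hlen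
    omega
  have e3 : 25 * p.s * μ = 25 * (μ * p.s) := by ring
  have e4 : 25 * p.s * (μ + 1) = 25 * (μ * p.s) + 25 * p.s := by ring
  rw [e3] at hμ1
  rw [e4] at hμ2
  refine ⟨w, hN, hr, ?_, by rw [hcl], ?_⟩
  · intro n hn
    obtain ⟨a1, a2⟩ := pr_walk_H w n hn
    rw [← hH] at a1 a2
    have hbn : p.b * n ≤ p.b * N := Nat.mul_le_mul_left _ hn
    have e5 : 21 * μ * p.s = 21 * (μ * p.s) := by ring
    have e6 : 30 * μ * p.s = 30 * (μ * p.s) := by ring
    rw [e5, e6]
    constructor <;> omega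
  · -- choose the aligned depth among κ - 1, κ
    have hκ2 : 2 ≤ κ := by
      have := (lab_kap_spec hp (vx 0).ht).2.2.2.2
      omega
    have hmain : ∀ K, κ ≤ K + 1 → N + 2 * μ ≤ 2 * K := by
      intro K hK
      have h1 : (N + 2 * μ) * p.s ≤ (2 * K) * p.s := by
        have e7 : (N + 2 * μ) * p.s = N * p.s + 2 * (μ * p.s) := by ring
        have e8 : κ * p.s ≤ (K + 1) * p.s := Nat.mul_le_mul_right _ hK
        have e9 : (K + 1) * p.s = K * p.s + p.s := by ring
        have e10 : (2 * K) * p.s = 2 * (K * p.s) := by ring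
        rw [e7, e10]
        omega
      exact Nat.le_of_mul_le_mul_right h1 hs
    rcases pr_own_or (vx 0).sd (κ - 2) with ho | ho
    · refine ⟨κ - 1, by omega, ?_, hmain _ (by omega), by omega, by rw [hcl]; omega, ?_⟩
      · rwa [show κ - 1 - 1 = κ - 2 by omega]
      · rw [hcl]; exact Agree.refl _ _
    · refine ⟨κ, by omega, ?_, hmain _ (by omega), le_refl _, by rw [hcl], ?_⟩
      · rwa [show κ - 2 + 1 = κ - 1 by omega] at ho
      · rw [hcl]; exact Agree.refl _ _

/-- `lem:pruning-base-girth`: no nonempty reduced closed walk of `X^(1)` based at height `i` has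
length `≤ .93 m_i`. -/
theorem pr_girth (hp : p.Adm) (w : IsWalk cf 𝔗 (X1 cf 𝔗) N vx lb) (hN : 0 < N)
    (hcl : vx N = vx 0) (hr : Reduced N lb) : 93 * p.H (vx 0).ht < 100 * (N * p.lq) := by
  by_contra hcon
  have hlen : 100 * (N * p.lq) ≤ 93 * p.H (vx 0).ht := by omega
  have hc := pr_closed_cohRet hp (pr_walk_mono w (fun x hx => hx.1)) hN hcl hr hlen
  obtain ⟨a, N', h1, h2⟩ := pr_exists_min N vx lb hc
  have h3 : Del1 cf 𝔗 (vx a) := ⟨_, N', _, _, h2, 0, by omega, by simp [shiftV]⟩
  exact (w.mem a (by omega)).2 h3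

end Claimed.Agent.R300.Pr
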