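/-
Row 300 / S0553 (INJ paper), Section 03_pruning: candidates for minimal coherent returns and
`lem:pruning-reconstruction` in the form PU ("predictability + uniqueness"): two realisations of
one candidate, for tables which agree below level `t`, agree on all blocks of index `≤ t`.
Owner: helper59.
-/
import Claimed.Agent.R300.PrRetDet

set_option autoImplicit false

namespace Claimed.Agent.R300.Pr

open Claimed.Agent.R300.Lab

variable {p : Par}

/-- header of a return candidate: margin, length, initial side and height -/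
structure RHead where
  μ : ℕ
  N : ℕ
  sd : Bool
  ht : ℕ

/-- the least aligned depth `K` with `N + 2 μ ≤ 2 K` -/
noncomputable def RHead.K (η : RHead) : ℕ :=
  open Classical in
  if own η.sd (η.N / 2 + η.μ - 1) then η.N / 2 + η.μ else η.N / 2 + η.μ + 1

/-- number of free u-blocks recorded at either end -/
noncomputable def RHead.m (η : RHead) (p : Par) : ℕ := (p.kap (η.ht + η.N) + 2 - η.K) / 2 + 1

/-- a return candidate: labels and the free raw u-blocks of the two ends beyond the depth `K` -/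
abbrev RCand (p : Par) (η : RHead) : Type :=
  (Fin η.N → Label p) × (Fin (η.m p) → BV p.s) × (Fin (η.m p) → BV p.s)

/-- the walk `(vx, lb)` has the data of the candidate `c` -/
structure RMatch (η : RHead) (c : RCand p η) (vx : ℕ → Vtx p) (lb : ℕ → Label p × Bool) :
    Prop where
  sd0 : (vx 0).sd = η.sd
  ht0 : (vx 0).ht = η.ht
  lab : ∀ n : Fin η.N, (lb n.1).1 = c.1 n
  fu : ∀ j : Fin (η.m p), (vx 0).u (η.K + 1 + 2 * j.1) = c.2.1 j
  fu' : ∀ j : Fin (η.m p), (vx η.N).u (η.K + 1 + 2 * j.1) = c.2.2 j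

/-- the event: the candidate is realised by a minimal coherent return -/
def REv (cf : Coef p) (η : RHead) (c : RCand p η) (𝔗 : Tab p) : Prop :=
  ∃ vx lb, IsMinCohRet cf 𝔗 η.μ η.N vx lb ∧ RMatch η c vx lb

theorem RHead.K_spec (η : RHead) (hN : 2 ≤ η.N) (heven : η.N % 2 = 0) :
    1 ≤ η.K ∧ own η.sd (η.K - 1) ∧ η.N + 2 * η.μ ≤ 2 * η.K := by
  unfold RHead.K
  split_ifs with h
  · exact ⟨by omega, h, by omega⟩
  · refine ⟨by omega, ?_, by omega⟩
    have := (lab_own_succ η.sd (η.N / 2 + η.μ - 1)).2 h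
    rwa [show η.N / 2 + η.μ - 1 + 1 = η.N / 2 + η.μ + 1 - 1 by omega] at this

theorem RHead.K_le (η : RHead) (K : ℕ) (ho : own η.sd (K - 1)) (hK : η.N + 2 * η.μ ≤ 2 * K) :
    η.K ≤ K := by
  unfold RHead.K
  split_ifs with h
  · omega
  · by_contra hcon
    have : K = η.N / 2 + η.μ := by omega
    rw [this] at ho
    exact h ho

theorem RHead.K_le' (η : RHead) : η.K ≤ η.N / 2 + η.μ + 1 := by
  unfold RHead.K
  split_ifs <;> omega

theorem RHead.le_K (η : RHead) : η.N / 2 + η.μ ≤ η.K := by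
  unfold RHead.K
  split_ifs <;> omega

section PU

variable {cf : Coef p} {η : RHead} {c : RCand p η}

/-- the depth `η.K` works for every realisation -/
theorem pr_ret_depth {𝔗 : Tab p} {vx : ℕ → Vtx p} {lb : ℕ → Label p × Bool}
    (h : IsCohRet cf 𝔗 η.μ η.N vx lb) (hsd : (vx 0).sd = η.sd) :
    2 ≤ η.N ∧ η.N % 2 = 0 ∧ η.K ≤ p.kap (vx 0).ht ∧ η.K ≤ p.kap (vx η.N).ht ∧
      Agree (vx 0) (vx η.N) η.K := by
  obtain ⟨K, hK1, hKo, hKN, hKa, hKb, hag⟩ := h.depth
  have heven := pr_walk_even h.walk h.side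
  have hpos := h.pos
  rw [hsd] at hKo
  have hle := η.K_le K hKo hKN
  exact ⟨by omega, heven, by omega, by omega, hag.mono hle⟩

/-- sides, signs, labels and heights of two realisations coincide -/
theorem pr_ret_shape {𝔗 𝔗' : Tab p} {vx vx' : ℕ → Vtx p} {lb lb' : ℕ → Label p × Bool}
    (h : IsCohRet cf 𝔗 η.μ η.N vx lb) (m : RMatch η c vx lb)
    (h' : IsCohRet cf 𝔗' η.μ η.N vx' lb') (m' : RMatch η c vx' lb') :
    (∀ n, n ≤ η.N → (vx n).sd = (vx' n).sd ∧ (vx n).ht = (vx' n).ht) ∧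
      ∀ n, n < η.N → lb n = lb' n := by
  have hsd : ∀ n, n ≤ η.N → (vx n).sd = (vx' n).sd := by
    intro n hn
    rw [pr_walk_sd h.walk n hn, pr_walk_sd h'.walk n hn, m.sd0, m'.sd0]
  have hlb : ∀ n, n < η.N → lb n = lb' n := by
    intro n hn
    apply Prod.ext
    · rw [m.lab ⟨n, hn⟩, m'.lab ⟨n, hn⟩]
    · rw [pr_walk_sign h.walk n hn, pr_walk_sign h'.walk n hn, hsd n hn.le]
  refine ⟨fun n hn => ⟨hsd n hn, ?_⟩, hlb⟩
  induction n with
  | zero => rw [m.ht0, m'.ht0]
  | succ n ih =>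
    rw [pr_step_ht cf 𝔗 _ _ _ (h.walk.step n (by omega)),
      pr_step_ht cf 𝔗' _ _ _ (h'.walk.step n (by omega)), hlb n (by omega), hsd n (by omega),
      ih (by omega)]

/-- **PU** for returns (`lem:pruning-reconstruction`). -/
theorem pr_ret_PU (hp : p.Adm) (hcf : cf.Sep) {𝔗 𝔗' : Tab p} (t : ℕ)
    (hT : ∀ j, j < t → 𝔗 j = 𝔗' j) {vx vx' : ℕ → Vtx p} {lb lb' : ℕ → Label p × Bool}
    (h : IsMinCohRet cf 𝔗 η.μ η.N vx lb) (m : RMatch η c vx lb)
    (h' : IsMinCohRet cf 𝔗' η.μ η.N vx' lb') (m' : RMatch η c vx' lb') :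
    ∀ k, k ≤ t → ∀ n, n ≤ η.N → (vx n).u k = (vx' n).u k ∧ (vx n).v k = (vx' n).v k := by
  obtain ⟨hshape, hlb⟩ := pr_ret_shape h.1 m h'.1 m'
  obtain ⟨hN2, heven, hKa, hKb, hag⟩ := pr_ret_depth h.1 m.sd0
  obtain ⟨-, -, hKa', hKb', hag'⟩ := pr_ret_depth h'.1 m'.sd0
  obtain ⟨hK1, hKo, hKN⟩ := η.K_spec hN2 heven
  have w := h.1.walk
  have w' := h'.1.walk
  have hG : ∀ x, Good cf 𝔗 x → ¬ GateBad cf 𝔗 x := fun x hx => hx.1
  have hG' : ∀ x, Good cf 𝔗' x → ¬ GateBad cf 𝔗' x := fun x hx => hx.1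
  intro k
  induction k using Nat.strong_induction_on with
  | _ k ih =>
  intro hk
  have hTk : 0 < k → 𝔗 (k - 1) = 𝔗' (k - 1) := fun h0 => hT _ (by omega)
  have hlowU : ∀ a b, a ≤ η.N → b ≤ η.N → ∀ j, j < k →
      zipU (vx a) (vx b) j = zipU (vx' a) (vx' b) j := by
    intro a b ha hb j hj
    unfold zipU
    rw [(ih j hj (by omega) a ha).1, (ih j hj (by omega) b hb).1]
  -- the two ends
  have hend0 : own η.sd k → (vx 0).u k = (vx' 0).u k ∧ (vx 0).v k = (vx' 0).v k := by
    intro ho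
    have o0 : own (vx 0).sd k := by rw [m.sd0]; exact ho
    have o0' : own (vx' 0).sd k := by rw [m'.sd0]; exact ho
    have oN : own (vx η.N).sd k := by rw [← h.1.side]; exact o0
    have oN' : own (vx' η.N).sd k := by rw [← h'.1.side]; exact o0'
    have sd0 := pr_walk_sd_ne w 0 (by omega)
    have sd0' := pr_walk_sd_ne w' 0 (by omega)
    have sdN := pr_walk_sd_ne w (η.N - 1) (by omega)
    have sdN' := pr_walk_sd_ne w' (η.N - 1) (by omega)
    have u0 := pr_walk_univ hp hcf hG w 0 (by omega)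
    have u0' := pr_walk_univ hp hcf hG' w' 0 (by omega)
    have uN := pr_walk_univ hp hcf hG w (η.N - 1) (by omega)
    have uN' := pr_walk_univ hp hcf hG' w' (η.N - 1) (by omega)
    rw [show η.N - 1 + 1 = η.N by omega] at sdN sdN' uN uN'
    rw [← hlb 0 (by omega)] at u0'
    rw [← hlb (η.N - 1) (by omega)] at uN'
    by_cases hkK : k < η.K
    · have := pr_two_eval cf hcf 𝔗 𝔗' k hTk (lb 0).1 (lb (η.N - 1)).1 (pr_junction hp hcf h k o0)
        _ _ _ _ _ _ _ _ (u0 k) (uN k) (u0' k) (uN' k)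
        (hlowU 0 (0 + 1) (by omega) (by omega)) (hlowU (η.N - 1) η.N (by omega) le_rfl)
        (by rw [pr_zipU_own _ _ sd0 k o0, pr_zipU_comm, pr_zipU_own _ _ sdN.symm k oN]
            exact (hag k hkK).1)
        (by rw [pr_zipV_own _ _ sd0 k o0, pr_zipV_comm, pr_zipV_own _ _ sdN.symm k oN]
            exact (hag k hkK).2)
        (by rw [pr_zipU_own _ _ sd0' k o0', pr_zipU_comm, pr_zipU_own _ _ sdN'.symm k oN']
            exact (hag' k hkK).1)
        (by rw [pr_zipV_own _ _ sd0' k o0', pr_zipV_comm, pr_zipV_own _ _ sdN'.symm k oN']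
            exact (hag' k hkK).2)
        (fun hk0 => by subst hk0; exact ⟨pr_zipU_zero_pre hp _ _, pr_zipU_zero_pre hp _ _⟩)
      rwa [pr_zipU_own _ _ sd0 k o0, pr_zipV_own _ _ sd0 k o0, pr_zipU_own _ _ sd0' k o0',
        pr_zipV_own _ _ sd0' k o0'] at this
    · -- free block
      have hu : (vx 0).u k = (vx' 0).u k := by
        have hpar : ∃ j, k = η.K + 1 + 2 * j := by
          unfold own at ho hKo
          refine ⟨(k - η.K - 1) / 2, ?_⟩
          cases hh : η.sd <;> rw [hh] at ho hKo <;> simp at ho hKo <;> omega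
        obtain ⟨j, rfl⟩ := hpar
        by_cases hj : j < η.m p
        · rw [m.fu ⟨j, hj⟩, m'.fu ⟨j, hj⟩]
        · have hbig : p.kap (η.ht + η.N) < η.K + 1 + 2 * j := by
            unfold RHead.m at hj; omega
          have hk0 : p.kap η.ht ≤ p.kap (η.ht + η.N) := pr_kap_mono hp (by omega)
          have z1 := (vx 0).hu (η.K + 1 + 2 * j)
          have z2 := (vx' 0).hu (η.K + 1 + 2 * j)
          rw [if_pos o0, m.ht0, lab_aw_beyond p _ _ (by omega)] at z1
          rw [if_pos o0', m'.ht0, lab_aw_beyond p _ _ (by omega)] at z2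
          rw [(lab_isPre_zero_iff _).1 z1, (lab_isPre_zero_iff _).1 z2]
      refine ⟨hu, ?_⟩
      have := pr_one_eval cf 𝔗 𝔗' (lb 0).1 _ _ _ _ k hTk
        (by
          intro j hj
          rcases Nat.lt_or_ge j k with hlt | hge
          · exact hlowU 0 (0 + 1) (by omega) (by omega) j hlt
          · have : j = k := by omega
            subst this
            rw [pr_zipU_own _ _ sd0 j o0, pr_zipU_own _ _ sd0' j o0']
            exact hu)
        (u0 k) (u0' k)
      rwa [pr_zipV_own _ _ sd0 k o0, pr_zipV_own _ _ sd0' k o0'] at this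
  have hendN : own η.sd k → (vx η.N).u k = (vx' η.N).u k ∧ (vx η.N).v k = (vx' η.N).v k := by
    intro ho
    have o0 : own (vx 0).sd k := by rw [m.sd0]; exact ho
    have o0' : own (vx' 0).sd k := by rw [m'.sd0]; exact ho
    have oN : own (vx η.N).sd k := by rw [← h.1.side]; exact o0
    have oN' : own (vx' η.N).sd k := by rw [← h'.1.side]; exact o0'
    by_cases hkK : k < η.K
    · obtain ⟨a1, a2⟩ := hend0 ho
      rw [← (hag k hkK).1, ← (hag k hkK).2, ← (hag' k hkK).1, ← (hag' k hkK).2]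
      exact ⟨a1, a2⟩
    · have sdN := pr_walk_sd_ne w (η.N - 1) (by omega)
      have sdN' := pr_walk_sd_ne w' (η.N - 1) (by omega)
      have uN := pr_walk_univ hp hcf hG w (η.N - 1) (by omega)
      have uN' := pr_walk_univ hp hcf hG' w' (η.N - 1) (by omega)
      rw [show η.N - 1 + 1 = η.N by omega] at sdN sdN' uN uN'
      rw [← hlb (η.N - 1) (by omega)] at uN'
      have hu : (vx η.N).u k = (vx' η.N).u k := by
        have hpar : ∃ j, k = η.K + 1 + 2 * j := by
          unfold own at ho hKo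
          refine ⟨(k - η.K - 1) / 2, ?_⟩
          cases hh : η.sd <;> rw [hh] at ho hKo <;> simp at ho hKo <;> omega
        obtain ⟨j, rfl⟩ := hpar
        by_cases hj : j < η.m p
        · rw [m.fu' ⟨j, hj⟩, m'.fu' ⟨j, hj⟩]
        · have hbig : p.kap (η.ht + η.N) < η.K + 1 + 2 * j := by
            unfold RHead.m at hj; omega
          have hh1 : (vx η.N).ht ≤ η.ht + η.N := by
            have := (pr_walk_ht_le w 0 η.N (by omega)).2
            rw [Nat.zero_add, m.ht0] at this; exact this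
          have hh2 : (vx' η.N).ht ≤ η.ht + η.N := by
            have := (pr_walk_ht_le w' 0 η.N (by omega)).2
            rw [Nat.zero_add, m'.ht0] at this; exact this
          have hk1 := pr_kap_mono hp hh1
          have hk2 := pr_kap_mono hp hh2
          have z1 := (vx η.N).hu (η.K + 1 + 2 * j)
          have z2 := (vx' η.N).hu (η.K + 1 + 2 * j)
          rw [if_pos oN, lab_aw_beyond p _ _ (by omega)] at z1
          rw [if_pos oN', lab_aw_beyond p _ _ (by omega)] at z2
          rw [(lab_isPre_zero_iff _).1 z1, (lab_isPre_zero_iff _).1 z2]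
      refine ⟨hu, ?_⟩
      have := pr_one_eval cf 𝔗 𝔗' (lb (η.N - 1)).1 _ _ _ _ k hTk
        (by
          intro j hj
          rcases Nat.lt_or_ge j k with hlt | hge
          · exact hlowU (η.N - 1) η.N (by omega) le_rfl j hlt
          · have : j = k := by omega
            subst this
            rw [pr_zipU_comm, pr_zipU_own _ _ sdN.symm j oN, pr_zipU_comm (vx' (η.N - 1)),
              pr_zipU_own _ _ sdN'.symm j oN']
            exact hu)
        (uN k) (uN' k)
      rwa [pr_zipV_comm, pr_zipV_own _ _ sdN.symm k oN, pr_zipV_comm (vx' (η.N - 1)),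
        pr_zipV_own _ _ sdN'.symm k oN'] at this
  intro n hn
  by_cases ho : own (vx n).sd k
  · have ho' : own (vx' n).sd k := by rw [← (hshape n hn).1]; exact ho
    rcases Nat.eq_zero_or_pos n with rfl | hn0
    · exact hend0 (by rw [← m.sd0]; exact ho)
    rcases Nat.lt_or_ge n η.N with hlt | hge
    · -- interior vertex
      obtain ⟨n', rfl⟩ : ∃ n', n = n' + 1 := ⟨n - 1, by omega⟩
      have sd1 := pr_walk_sd_ne w n' (by omega)
      have sd1' := pr_walk_sd_ne w' n' (by omega)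
      have sd2 := pr_walk_sd_ne w (n' + 1) hlt
      have sd2' := pr_walk_sd_ne w' (n' + 1) hlt
      have u1 := pr_walk_univ hp hcf hG w n' (by omega)
      have u1' := pr_walk_univ hp hcf hG' w' n' (by omega)
      have u2 := pr_walk_univ hp hcf hG w (n' + 1) hlt
      have u2' := pr_walk_univ hp hcf hG' w' (n' + 1) hlt
      rw [← hlb n' (by omega)] at u1'
      rw [← hlb (n' + 1) hlt] at u2'
      have := pr_two_eval cf hcf 𝔗 𝔗' k hTk (lb n').1 (lb (n' + 1)).1
        (pr_walk_nameNe hp hcf w h.1.red n' hlt k ho)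
        _ _ _ _ _ _ _ _ (u1 k) (u2 k) (u1' k) (u2' k)
        (hlowU n' (n' + 1) (by omega) (by omega)) (hlowU (n' + 1) (n' + 1 + 1) (by omega) (by omega))
        (by rw [pr_zipU_comm, pr_zipU_own _ _ sd1.symm k ho, pr_zipU_own _ _ sd2 k ho])
        (by rw [pr_zipV_comm, pr_zipV_own _ _ sd1.symm k ho, pr_zipV_own _ _ sd2 k ho])
        (by rw [pr_zipU_comm, pr_zipU_own _ _ sd1'.symm k ho', pr_zipU_own _ _ sd2' k ho'])
        (by rw [pr_zipV_comm, pr_zipV_own _ _ sd1'.symm k ho', pr_zipV_own _ _ sd2' k ho'])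
        (fun hk0 => by subst hk0; exact ⟨pr_zipU_zero_pre hp _ _, pr_zipU_zero_pre hp _ _⟩)
      rwa [pr_zipU_comm, pr_zipU_own _ _ sd1.symm k ho, pr_zipV_comm,
        pr_zipV_own _ _ sd1.symm k ho, pr_zipU_comm (vx' n'), pr_zipU_own _ _ sd1'.symm k ho',
        pr_zipV_comm (vx' n'), pr_zipV_own _ _ sd1'.symm k ho'] at this
    · have : n = η.N := by omega
      subst this
      exact hendN (by rw [← m.sd0, h.1.side]; exact ho)
  · have ho' : ¬ own (vx' n).sd k := by rw [← (hshape n hn).1]; exact ho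
    rw [pr_u_not_own _ k ho, pr_u_not_own _ k ho', pr_v_not_own _ k ho, pr_v_not_own _ k ho']
    exact ⟨rfl, rfl⟩

/-- uniqueness of the realisation -/
theorem pr_ret_unique (hp : p.Adm) (hcf : cf.Sep) {𝔗 : Tab p} {vx vx' : ℕ → Vtx p}
    {lb lb' : ℕ → Label p × Bool}
    (h : IsMinCohRet cf 𝔗 η.μ η.N vx lb) (m : RMatch η c vx lb)
    (h' : IsMinCohRet cf 𝔗 η.μ η.N vx' lb') (m' : RMatch η c vx' lb') :
    ∀ n, n ≤ η.N → vx n = vx' n := by
  intro n hn
  obtain ⟨hshape, -⟩ := pr_ret_shape h.1 m h'.1 m'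
  apply Vtx.ext (hshape n hn).1 (hshape n hn).2
  · funext k
    exact (pr_ret_PU hp hcf k (fun _ _ => rfl) h m h' m' k le_rfl n hn).1
  · funext k
    exact (pr_ret_PU hp hcf k (fun _ _ => rfl) h m h' m' k le_rfl n hn).2

end PU

end Claimed.Agent.R300.Pr
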