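/-
Row 300 / S0553 (INJ paper), Section 03_pruning: TEST SITES (owner: helper59).
A test site at level `t` consists of a fresh slot (label, key, corrected input, offset), a width `a`
of the unknown u-block of index `t + 1` and a list of other slots.  The test asks that the value of
the fresh table is compatible with the values of the other tables:
  `∃ u ∈ Pre a, ∀ other σ,  Y_f + o_f + K_f u = Y_σ + o_σ + K_σ u`   (both sides are the v-block).
`lem:pruning-terminal-codimension` = one other slot, at most `2^a` allowed values;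
`lem:pruning-triple-ranks` = two other slots with different names, at most one allowed value.
-/
import Claimed.Agent.R300.PrRetCand

set_option autoImplicit false

namespace Claimed.Agent.R300.Pr

open Claimed.Agent.R300.Lab
open Claimed.Agent.R300.PrProb
open Classical

variable {p : Par}

/-! ### slots -/

/-- corrected input of the source block `t` -/
noncomputable def tIn (l : Label p) (U : ℕ → BV p.s) (t : ℕ) : BV p.s :=
  U t + corU (fun _ => False) l U t

/-- known offset of the edge equation of index `t + 1` -/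
noncomputable def tOff (cf : Coef p) (l : Label p) (U : ℕ → BV p.s) (t : ℕ) : BV p.s :=
  corV (fun _ => False) l U (t + 1) + cf.at l (t + 1) (corU (fun _ => False) l U (t + 1))

/-- a slot at level `t`: label, key, corrected input, offset, "the table is used" -/
@[ext] structure OSlot (p : Par) (t : ℕ) where
  l : Label p
  k : Fin t → BV p.s
  x : BV p.s
  o : BV p.s
  g : Prop

variable {t : ℕ}

/-- the key of a slot -/
abbrev OSlot.key (σ : OSlot p t) : Key p t := (σ.l, σ.k)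

/-- the output of the slot for the tables `ω` of level `t` -/
noncomputable def OSlot.Y (σ : OSlot p t) (ω : Lvl p t) : BV p.s :=
  if σ.g then actPre (tw σ.l t) (ω (σ.l, σ.k)) σ.x else σ.x

/-- the slot of an edge with raw u-sequence `U` -/
noncomputable def mkSlot (cf : Coef p) (l : Label p) (U : ℕ → BV p.s) (t : ℕ) : OSlot p t :=
  ⟨l, key U t, tIn l U t, tOff cf l U t, ¬ inZone l t ∧ gate U t⟩

theorem pr_mkSlot_congr (cf : Coef p) (l : Label p) (U U' : ℕ → BV p.s) (t : ℕ)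
    (h : ∀ j, j ≤ t → U j = U' j) : mkSlot cf l U t = mkSlot cf l U' t := by
  unfold mkSlot
  have h1 : key U t = key U' t := lab_key_congr U U' t (fun j hj => h j hj.le)
  have h2 : tIn l U t = tIn l U' t := by
    unfold tIn
    rw [h t le_rfl, lab_corU_congr _ l U U' t (fun j hj => h j (by omega))]
  have h3 : tOff cf l U t = tOff cf l U' t := by
    unfold tOff
    rw [lab_corU_congr _ l U U' (t + 1) (fun j hj => h j (by omega)),
      lab_corV_congr _ l U U' (t + 1) (fun j hj => h j (by omega))]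
  have h4 : gate U t ↔ gate U' t := lab_gate_congr U U' t (fun j hj => h j (by omega))
  rw [h1, h2, h3, propext h4]

theorem pr_rhs_succ (𝔗 : Tab p) (l : Label p) (U : ℕ → BV p.s) (cf : Coef p) (t : ℕ) (ht : 1 ≤ t) :
    rhs (fun _ => False) (fun _ => False) 𝔗 l U (t + 1) = (mkSlot cf l U t).Y (𝔗 t) := by
  obtain ⟨t', rfl⟩ : ∃ t', t = t' + 1 := ⟨t - 1, by omega⟩
  simp only [rhs, rule, OSlot.Y, mkSlot, tIn, or_false]
  by_cases hz : inZone l (t' + 1)
  · simp [hz]
  · by_cases hg : gate U (t' + 1)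
    · simp [hz, hg]
    · simp [hz, hg]

/-- the edge equation of index `t + 1` in terms of the slot -/
theorem pr_slot_eq (cf : Coef p) (𝔗 : Tab p) (l : Label p) (U V : ℕ → BV p.s) (t : ℕ) (ht : 1 ≤ t)
    (e : UEq cf 𝔗 l U V (t + 1)) :
    (mkSlot cf l U t).Y (𝔗 t) + (mkSlot cf l U t).o + cf.at l (t + 1) (U (t + 1)) = V (t + 1) := by
  have h := pr_eq_known cf 𝔗 l U V (t + 1) e
  rw [pr_rhs_succ 𝔗 l U cf t ht] at h
  have h2 : (mkSlot cf l U t).o = corV (fun _ => False) l U (t + 1)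
      + cf.at l (t + 1) (corU (fun _ => False) l U (t + 1)) := rfl
  rw [h2, ← add_assoc, ← h]
  exact lab_add_cancel_right _ _

/-- the output of a slot depends only on its own table -/
theorem OSlot.Y_congr (σ : OSlot p t) (ω ω' : Lvl p t) (h : ω σ.key = ω' σ.key) :
    σ.Y ω = σ.Y ω' := by
  unfold OSlot.Y
  have h' : ω (σ.l, σ.k) = ω' (σ.l, σ.k) := h
  rw [h']

/-! ### sites -/

/-- a test site at level `t` -/
structure TSite (p : Par) (t : ℕ) where
  f : OSlot p t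
  a : ℕ
  oth : List (OSlot p t)

namespace TSite

/-- argument of the fresh table -/
noncomputable def arg (S : TSite p t) : Cell p t S.f.key := res (tw S.f.l t) (ext0 S.f.x)

/-- output block of the fresh slot when the value of the fresh table is `y` -/
noncomputable def glue (S : TSite p t) (y : Cell p t S.f.key) : BV p.s :=
  fun m => if h : m.1 < tw S.f.l t then y ⟨m.1, h⟩ else S.f.x m

/-- the allowed values of the fresh table -/
noncomputable def Al (cf : Coef p) (S : TSite p t) (ω : Lvl p t) : Finset (Cell p t S.f.key) :=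
  Finset.univ.filter fun y => ∃ u : BV p.s, IsPre S.a u ∧ ∀ σ ∈ S.oth,
    S.glue y + S.f.o + cf.at S.f.l (t + 1) u = σ.Y ω + σ.o + cf.at σ.l (t + 1) u

/-- the keys of the other slots -/
noncomputable def keyO (S : TSite p t) : Finset (Key p t) := (S.oth.map OSlot.key).toFinset

theorem glue_arg (S : TSite p t) (ω : Lvl p t) (hg : S.f.g) :
    S.glue (ω S.f.key S.arg) = S.f.Y ω := by
  unfold OSlot.Y
  rw [if_pos hg]
  rfl

theorem glue_inj (S : TSite p t) (hw : tw S.f.l t ≤ p.s) : Function.Injective S.glue := by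
  intro y y' h
  funext m
  have := congrFun h ⟨m.1, lt_of_lt_of_le m.2 hw⟩
  unfold glue at this
  simpa [m.2] using this

theorem Al_congr (cf : Coef p) (S : TSite p t) (ω ω' : Lvl p t)
    (h : ∀ i ∈ S.keyO, ω i = ω' i) : S.Al cf ω = S.Al cf ω' := by
  unfold Al
  apply Finset.filter_congr
  intro y _
  apply exists_congr
  intro u
  apply and_congr_right
  intro _
  apply forall₂_congr
  intro σ hσ
  rw [σ.Y_congr ω ω' (h _ (by
    unfold keyO
    rw [List.mem_toFinset]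
    exact List.mem_map_of_mem hσ))]

theorem card_keyO_le (S : TSite p t) : S.keyO.card ≤ S.oth.length := by
  unfold keyO
  exact le_trans (List.toFinset_card_le _) (by simp)

/-- `lem:pruning-terminal-codimension`: at most `2^a` allowed values -/
theorem card_Al_le_pre (cf : Coef p) (S : TSite p t) (ω : Lvl p t) (hw : tw S.f.l t ≤ p.s)
    (ha : S.a ≤ p.s) (hne : S.oth ≠ []) : (S.Al cf ω).card ≤ 2 ^ S.a := by
  obtain ⟨σ, hσ⟩ := List.exists_mem_of_ne_nil _ hne
  have hex : ∀ y : {y // y ∈ S.Al cf ω}, ∃ u : BV p.s, IsPre S.a u ∧ ∀ σ ∈ S.oth,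
      S.glue y.1 + S.f.o + cf.at S.f.l (t + 1) u = σ.Y ω + σ.o + cf.at σ.l (t + 1) u := by
    intro y
    have := y.2
    unfold Al at this
    exact (Finset.mem_filter.1 this).2
  choose f hf using hex
  have hinj : Function.Injective (fun y : {y // y ∈ S.Al cf ω} =>
      (⟨f y, (hf y).1⟩ : {u : BV p.s // IsPre S.a u})) := by
    intro y y' h
    have h1 : f y = f y' := congrArg Subtype.val h
    have e1 := (hf y).2 σ hσ
    have e2 := (hf y').2 σ hσ
    rw [h1, ← e2] at e1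
    have e3 : S.glue y.1 = S.glue y'.1 := add_right_cancel (add_right_cancel e1)
    exact Subtype.ext (S.glue_inj hw e3)
  have h2 := Nat.card_le_card_of_injective _ hinj
  rw [lab_card_pre p.s S.a ha] at h2
  simpa using h2

/-- rank of a terminal test -/
theorem rank_pre (cf : Coef p) (S : TSite p t) (ω : Lvl p t) (hw : tw S.f.l t ≤ p.s)
    (ha : S.a ≤ p.s) (hne : S.oth ≠ []) (r : ℕ) (hr : r + S.a ≤ tw S.f.l t) :
    (S.Al cf ω).card * 2 ^ r ≤ Fintype.card (Cell p t S.f.key) := by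
  have h1 := S.card_Al_le_pre cf ω hw ha hne
  have h2 : Fintype.card (Cell p t S.f.key) = 2 ^ (tw S.f.l t) := by
    simp [Cell, ZMod.card]
  rw [h2]
  calc (S.Al cf ω).card * 2 ^ r ≤ 2 ^ S.a * 2 ^ r := Nat.mul_le_mul_right _ h1
    _ = 2 ^ (S.a + r) := (pow_add _ _ _).symm
    _ ≤ 2 ^ (tw S.f.l t) := Nat.pow_le_pow_right (by norm_num) (by omega)

/-- `lem:pruning-triple-ranks`: two other slots with different coefficient names leave at most one
allowed value -/
theorem card_Al_le_one (cf : Coef p) (hcf : cf.Sep) (S : TSite p t) (ω : Lvl p t)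
    (hw : tw S.f.l t ≤ p.s) (σ₁ σ₂ : OSlot p t) (h₁ : σ₁ ∈ S.oth) (h₂ : σ₂ ∈ S.oth)
    (hne : NameNe σ₁.l σ₂.l (t + 1)) : (S.Al cf ω).card ≤ 1 := by
  rw [Finset.card_le_one]
  intro y hy y' hy'
  unfold Al at hy hy'
  obtain ⟨u, -, hu⟩ := (Finset.mem_filter.1 hy).2
  obtain ⟨u', -, hu'⟩ := (Finset.mem_filter.1 hy').2
  have a1 := (hu σ₁ h₁).symm.trans (hu σ₂ h₂)
  have a2 := (hu' σ₁ h₁).symm.trans (hu' σ₂ h₂)
  -- `(K₁ + K₂) u = Y₁ + o₁ + Y₂ + o₂ = (K₁ + K₂) u'`
  have h2 : ∀ z : BV p.s, z + z = 0 := lab_add_self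
  have key : cf.at σ₁.l (t + 1) (u + u') = cf.at σ₂.l (t + 1) (u + u') := by
    rw [map_add, map_add]
    have b1 : cf.at σ₁.l (t + 1) u + cf.at σ₂.l (t + 1) u
        = σ₁.Y ω + σ₁.o + (σ₂.Y ω + σ₂.o) := by
      calc cf.at σ₁.l (t + 1) u + cf.at σ₂.l (t + 1) u
          = (σ₁.Y ω + σ₁.o + cf.at σ₁.l (t + 1) u) + cf.at σ₂.l (t + 1) u + (σ₁.Y ω + σ₁.o) := by
            have : (σ₁.Y ω + σ₁.o + cf.at σ₁.l (t + 1) u) + cf.at σ₂.l (t + 1) u + (σ₁.Y ω + σ₁.o)
              = cf.at σ₁.l (t + 1) u + cf.at σ₂.l (t + 1) u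
                + ((σ₁.Y ω + σ₁.o) + (σ₁.Y ω + σ₁.o)) := by abel
            rw [this, h2, add_zero]
        _ = (σ₂.Y ω + σ₂.o + cf.at σ₂.l (t + 1) u) + cf.at σ₂.l (t + 1) u + (σ₁.Y ω + σ₁.o) := by
            rw [a1]
        _ = _ := by
            have : (σ₂.Y ω + σ₂.o + cf.at σ₂.l (t + 1) u) + cf.at σ₂.l (t + 1) u + (σ₁.Y ω + σ₁.o)
              = σ₁.Y ω + σ₁.o + (σ₂.Y ω + σ₂.o)
                + (cf.at σ₂.l (t + 1) u + cf.at σ₂.l (t + 1) u) := by abel
            rw [this, h2, add_zero]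
    have b2 : cf.at σ₁.l (t + 1) u' + cf.at σ₂.l (t + 1) u'
        = σ₁.Y ω + σ₁.o + (σ₂.Y ω + σ₂.o) := by
      calc cf.at σ₁.l (t + 1) u' + cf.at σ₂.l (t + 1) u'
          = (σ₁.Y ω + σ₁.o + cf.at σ₁.l (t + 1) u') + cf.at σ₂.l (t + 1) u' + (σ₁.Y ω + σ₁.o) := by
            have : (σ₁.Y ω + σ₁.o + cf.at σ₁.l (t + 1) u') + cf.at σ₂.l (t + 1) u'
                + (σ₁.Y ω + σ₁.o)
              = cf.at σ₁.l (t + 1) u' + cf.at σ₂.l (t + 1) u'
                + ((σ₁.Y ω + σ₁.o) + (σ₁.Y ω + σ₁.o)) := by abel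
            rw [this, h2, add_zero]
        _ = (σ₂.Y ω + σ₂.o + cf.at σ₂.l (t + 1) u') + cf.at σ₂.l (t + 1) u' + (σ₁.Y ω + σ₁.o) := by
            rw [a2]
        _ = _ := by
            have : (σ₂.Y ω + σ₂.o + cf.at σ₂.l (t + 1) u') + cf.at σ₂.l (t + 1) u'
                + (σ₁.Y ω + σ₁.o)
              = σ₁.Y ω + σ₁.o + (σ₂.Y ω + σ₂.o)
                + (cf.at σ₂.l (t + 1) u' + cf.at σ₂.l (t + 1) u') := by abel
            rw [this, h2, add_zero]
    have b3 : cf.at σ₁.l (t + 1) u + cf.at σ₂.l (t + 1) u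
        = cf.at σ₁.l (t + 1) u' + cf.at σ₂.l (t + 1) u' := b1.trans b2.symm
    calc cf.at σ₁.l (t + 1) u + cf.at σ₁.l (t + 1) u'
        = (cf.at σ₁.l (t + 1) u + cf.at σ₂.l (t + 1) u) + cf.at σ₂.l (t + 1) u
            + cf.at σ₁.l (t + 1) u' := by
          rw [lab_add_cancel_right]
      _ = (cf.at σ₁.l (t + 1) u' + cf.at σ₂.l (t + 1) u') + cf.at σ₂.l (t + 1) u
            + cf.at σ₁.l (t + 1) u' := by rw [b3]
      _ = cf.at σ₂.l (t + 1) u + cf.at σ₂.l (t + 1) u'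
            + (cf.at σ₁.l (t + 1) u' + cf.at σ₁.l (t + 1) u') := by abel
      _ = _ := by rw [h2, add_zero]
  have hz := pr_coef_inj cf hcf σ₁.l σ₂.l (t + 1) hne _ (fun h => by omega) key
  have huu : u = u' := by
    have : u = u + u' + u' := (lab_add_cancel_right _ _).symm
    rw [this, hz, zero_add]
  subst huu
  have e1 := (hu σ₁ h₁).trans (hu' σ₁ h₁).symm
  exact S.glue_inj hw (add_right_cancel (add_right_cancel e1))

theorem rank_one (cf : Coef p) (hcf : cf.Sep) (S : TSite p t) (ω : Lvl p t)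
    (hw : tw S.f.l t ≤ p.s) (σ₁ σ₂ : OSlot p t) (h₁ : σ₁ ∈ S.oth) (h₂ : σ₂ ∈ S.oth)
    (hne : NameNe σ₁.l σ₂.l (t + 1)) :
    (S.Al cf ω).card * 2 ^ (tw S.f.l t) ≤ Fintype.card (Cell p t S.f.key) := by
  have h1 := S.card_Al_le_one cf hcf ω hw σ₁ σ₂ h₁ h₂ hne
  have h2 : Fintype.card (Cell p t S.f.key) = 2 ^ (tw S.f.l t) := by
    simp [Cell, ZMod.card]
  rw [h2]
  calc (S.Al cf ω).card * 2 ^ (tw S.f.l t) ≤ 1 * 2 ^ (tw S.f.l t) := Nat.mul_le_mul_right _ h1
    _ = _ := one_mul _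

end TSite

/-- **Membership**: a vertex block `(u, v)` of index `t + 1` which satisfies the edge equations of
the fresh slot and of all other slots passes the test. -/
theorem pr_site_mem (cf : Coef p) (S : TSite p t) (ω : Lvl p t) (u v : BV p.s)
    (hg : S.f.g) (ha : IsPre S.a u)
    (hf : S.f.Y ω + S.f.o + cf.at S.f.l (t + 1) u = v)
    (ho : ∀ σ ∈ S.oth, σ.Y ω + σ.o + cf.at σ.l (t + 1) u = v) :
    ω S.f.key S.arg ∈ S.Al cf ω := by
  unfold TSite.Al
  refine Finset.mem_filter.2 ⟨Finset.mem_univ _, u, ha, ?_⟩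
  intro σ hσ
  rw [S.glue_arg ω hg, hf, ho σ hσ]

/-- **A level with a family of test sites.** -/
theorem pr_sites_bound {ε : ℝ} (L : PLaw p ε) (hε : 0 ≤ ε) (cf : Coef p) (A : Tab p → Prop)
    (t : ℕ) (τ : Tab p) {J : Type*} [DecidableEq J] (N : Finset J) (S : J → TSite p t)
    (hkey : ∀ n ∈ N, ∀ n' ∈ N, (S n).f.key = (S n').f.key → n = n')
    (hfresh : ∀ n ∈ N, ∀ n' ∈ N, ∀ σ ∈ (S n).oth, σ.key ≠ (S n').f.key)
    (r : J → ℕ)
    (hr : ∀ n ∈ N, ∀ ω, ((S n).Al cf ω).card * 2 ^ r n ≤ Fintype.card (Cell p t (S n).f.key))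
    (hB : ∀ 𝔗 : Tab p, A 𝔗 → (∀ j, j < t → 𝔗 j = τ j) →
      ∀ n ∈ N, 𝔗 t (S n).f.key (S n).arg ∈ (S n).Al cf (𝔗 t))
    (k₁ : ℕ) (hk : ∀ n ∈ N, (S n).oth.length + 1 ≤ k₁) :
    L.seq.E t (SeqLaw.ind (SeqLaw.Proj A (t + 1))) τ
      ≤ ENNReal.ofReal (Real.exp (ε * ((k₁ * N.card : ℕ) : ℝ)) / 2 ^ (∑ n ∈ N, r n)) := by
  apply L.tests_bound hε t τ (SeqLaw.Proj A (t + 1)) N (fun n => (S n).f.key) hkey
    (fun n => (S n).arg) (fun n => (S n).Al cf) (fun n => (S n).keyO)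
    (fun n _ ω ω' h => (S n).Al_congr cf ω ω' h)
  · intro n hn n' hn' hmem
    unfold TSite.keyO at hmem
    rw [List.mem_toFinset, List.mem_map] at hmem
    obtain ⟨σ, hσ, he⟩ := hmem
    exact hfresh n hn n' hn' σ hσ he
  · exact hr
  · intro ω _ hP n hn
    obtain ⟨𝔗, hA, hag⟩ := hP
    have h1 : 𝔗 t = ω := (hag t (by omega)).trans (Function.update_self _ _ _)
    have h2 : ∀ j, j < t → 𝔗 j = τ j := fun j hj =>
      (hag j (by omega)).trans (Function.update_of_ne (by omega) _ _)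
    have := hB 𝔗 hA h2 n hn
    rwa [h1] at this
  · intro n hn
    exact le_trans (Nat.add_le_add_right (S n).card_keyO_le 1) (hk n hn)

/-! ### terminal levels and ranks -/

/-- level of the terminal test at a vertex of side `sd` and height `i` -/
noncomputable def tlev (p : Par) (sd : Bool) (i : ℕ) : ℕ :=
  if own sd (p.kap i) then p.kap i - 1 else p.kap i

/-- rank of the terminal test at a vertex of side `sd` and height `i` -/
noncomputable def trk (p : Par) (sd : Bool) (i : ℕ) : ℕ :=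
  if own sd (p.kap i) then p.s - p.tt i else p.tt i - p.b

theorem pr_tlev_bounds (hp : p.Adm) (sd : Bool) (i : ℕ) :
    p.kap i ≤ tlev p sd i + 1 ∧ tlev p sd i ≤ p.kap i ∧ 1 ≤ tlev p sd i := by
  have h1 := (lab_kap_spec hp i).2.2.2.2
  have h2 := hp.hn0
  unfold tlev
  split_ifs <;> omega

theorem pr_tlev_own (hp : p.Adm) (sd : Bool) (i : ℕ) : own sd (tlev p sd i + 1) := by
  have h1 := (lab_kap_spec hp i).2.2.2.2
  have h2 := hp.hn0
  unfold tlev
  split_ifs with h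
  · rwa [show p.kap i - 1 + 1 = p.kap i by omega]
  · exact (lab_own_succ sd _).2 h

theorem pr_trk_le (hp : p.Adm) (sd : Bool) (i : ℕ) : trk p sd i ≤ p.s := by
  have := (lab_kap_spec hp i).2.2.1
  unfold trk
  split_ifs <;> omega

theorem pr_own_not (sd : Bool) (k : ℕ) : own (!sd) k ↔ ¬ own sd k := by
  unfold own
  cases sd <;> simp

/-- `eq:pruning-surplus-pair` -/
theorem pr_trk_pair (hp : p.Adm) (sd : Bool) (i i' : ℕ) (h : i ≤ i' + 1) (h' : i' ≤ i + 1) :
    p.s ≤ trk p sd i + trk p (!sd) i' + 2 * p.b := by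
  have key : ∀ (sd : Bool) (j : ℕ), p.s ≤ trk p sd j + trk p (!sd) (j + 1) + 2 * p.b := by
    intro sd j
    obtain ⟨-, a1, a2, -, -⟩ := lab_kap_spec hp j
    obtain ⟨c1, c2⟩ := lab_kap_succ hp j
    unfold trk
    rcases Nat.lt_or_ge (p.tt j) p.s with hlt | hge
    · obtain ⟨d1, d2⟩ := c2 hlt
      rw [d1, d2, pr_own_not]
      by_cases ho : own sd (p.kap j)
      · rw [if_pos ho, if_neg (not_not.2 ho)]; omega
      · rw [if_neg ho, if_pos ho]; omega
    · obtain ⟨d1, d2⟩ := c1 (by omega)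
      rw [d1, d2, pr_own_not, lab_own_succ]
      by_cases ho : own sd (p.kap j)
      · rw [if_pos ho, if_pos (not_not.2 ho)]; omega
      · rw [if_neg ho, if_neg (not_not.2 ho)]; omega
  rcases Nat.lt_trichotomy i i' with hlt | heq | hgt
  · have : i' = i + 1 := by omega
    subst this
    exact key sd i
  · subst heq
    obtain ⟨-, a1, a2, -, -⟩ := lab_kap_spec hp i
    unfold trk
    rw [pr_own_not]
    by_cases ho : own sd (p.kap i)
    · rw [if_pos ho, if_neg (not_not.2 ho)]; omega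
    · rw [if_neg ho, if_pos ho]; omega
  · have : i = i' + 1 := by omega
    subst this
    have := key (!sd) i'
    rw [Bool.not_not] at this
    omega

/-- the table of an incident edge at the terminal level of the receiver -/
theorem pr_recv (hp : p.Adm) (sd : Bool) (i h : ℕ) (l : Label p) (hρ : l.rho.1 = h % p.M)
    (hh : h = i ∨ h + 1 = i) (hpos : 0 < trk p sd i) :
    ¬ inZone l (tlev p sd i) ∧ (tlev p sd i = p.kap h ∨ tlev p sd i = p.kap h - 1) ∧
      trk p sd i + p.aw i (tlev p sd i + 1) ≤ tw l (tlev p sd i) := by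
  obtain ⟨m1, m2, m3, m4⟩ := lab_marks_at_cutoff hp h l hρ
  obtain ⟨-, a1, a2, -, a3⟩ := lab_kap_spec hp i
  obtain ⟨-, b1, b2, -, b3⟩ := lab_kap_spec hp h
  have hn0 := hp.hn0
  -- the two possible positions of `kap h`
  have hcase : (p.kap h = p.kap i ∧ p.tt i ≤ p.tt h + p.b) ∨
      (p.kap h + 1 = p.kap i ∧ p.tt h = p.s ∧ p.tt i = p.b) := by
    rcases hh with rfl | rfl
    · left; exact ⟨rfl, by omega⟩
    · obtain ⟨c1, c2⟩ := lab_kap_succ hp h
      rcases Nat.lt_or_ge (p.tt h) p.s with hlt | hge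
      · obtain ⟨d1, d2⟩ := c2 hlt
        left; exact ⟨d1.symm, by omega⟩
      · obtain ⟨d1, d2⟩ := c1 (by omega)
        right; exact ⟨d1.symm, by omega, d2⟩
  unfold tlev trk at *
  by_cases ho : own sd (p.kap i)
  · rw [if_pos ho] at hpos ⊢
    rw [if_pos ho, show p.kap i - 1 + 1 = p.kap i by omega, lab_aw_cut]
    rcases hcase with ⟨e1, e2⟩ | ⟨e1, e2, e3⟩
    · refine ⟨m4 _ (by omega) (by omega), Or.inr (by omega), ?_⟩
      rw [(m3 (p.kap i - 1) (by omega) (by omega)).2]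
      omega
    · have e4 : p.kap i - 1 = p.kap h := by omega
      rw [e4]
      refine ⟨m4 _ (by omega) le_rfl, Or.inl rfl, ?_⟩
      rw [m2]; omega
  · rw [if_neg ho] at hpos ⊢
    rw [if_neg ho, lab_aw_beyond p _ _ (by omega)]
    rcases hcase with ⟨e1, e2⟩ | ⟨e1, e2, e3⟩
    · rw [← e1]
      refine ⟨m4 _ (by omega) le_rfl, Or.inl rfl, ?_⟩
      rw [m2]; omega
    · omega

/-- the last three gates of a surviving edge are open -/
theorem pr_step_gates (cf : Coef p) (𝔗 : Tab p) (x y : Vtx p) (ls : Label p × Bool)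
    (h : Step cf 𝔗 x y ls) (hx : ¬ GateBad cf 𝔗 x) :
    gate (zipU x y) (p.kap (min x.ht y.ht)) ∧ gate (zipU x y) (p.kap (min x.ht y.ht) - 1) ∧
      gate (zipU x y) (p.kap (min x.ht y.ht) - 2) := by
  obtain ⟨-, hc⟩ := pr_step_common cf 𝔗 x y ls h
  have hnb : ¬ BadGates (min x.ht y.ht) ls.1 (zipU x y) := by
    intro hb
    apply hx
    rcases hc with ⟨-, he⟩ | ⟨-, he⟩
    · exact ⟨_, x, y, ls.1, he, Or.inl rfl, hb⟩
    · exact ⟨_, y, x, ls.1, he, Or.inr rfl, by rwa [pr_zipU_comm]⟩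
  unfold BadGates at hnb
  push Not at hnb
  exact hnb.1

/-- the terminal site of the receiver `x` with the fresh edge `(x, yp)` and the other edge
`(x, ym)` -/
noncomputable def termSite (cf : Coef p) (t : ℕ) (x yp ym : Vtx p) (lp lm : Label p) : TSite p t :=
  ⟨mkSlot cf lp (zipU x yp) t, p.aw x.ht (t + 1), [mkSlot cf lm (zipU x ym) t]⟩

theorem pr_termSite_congr (cf : Coef p) (t : ℕ) (x yp ym x' yp' ym' : Vtx p) (lp lm : Label p)
    (hht : x.ht = x'.ht) (hx : ∀ j, j ≤ t → x.u j = x'.u j) (hp' : ∀ j, j ≤ t → yp.u j = yp'.u j)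
    (hm : ∀ j, j ≤ t → ym.u j = ym'.u j) :
    termSite cf t x yp ym lp lm = termSite cf t x' yp' ym' lp lm := by
  unfold termSite
  rw [pr_mkSlot_congr cf lp (zipU x yp) (zipU x' yp') t
      (fun j hj => by unfold zipU; rw [hx j hj, hp' j hj]),
    pr_mkSlot_congr cf lm (zipU x ym) (zipU x' ym') t
      (fun j hj => by unfold zipU; rw [hx j hj, hm j hj]), hht]

/-- an actual vertex with two incident surviving edges passes its terminal test -/
theorem pr_termSite_mem (hp : p.Adm) (cf : Coef p) (hcf : cf.Sep) (𝔗 : Tab p) (x yp ym : Vtx p)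
    (lp lm : Label p) (σ : Bool) (sp : Step cf 𝔗 x yp (lp, σ)) (sm : Step cf 𝔗 x ym (lm, σ))
    (gx : ¬ GateBad cf 𝔗 x) (gp : ¬ GateBad cf 𝔗 yp) (gm : ¬ GateBad cf 𝔗 ym)
    (hpos : 0 < trk p x.sd x.ht) (t : ℕ) (ht : t = tlev p x.sd x.ht) :
    𝔗 t (termSite cf t x yp ym lp lm).f.key (termSite cf t x yp ym lp lm).arg
      ∈ (termSite cf t x yp ym lp lm).Al cf (𝔗 t) := by
  have ho : own x.sd (t + 1) := by rw [ht]; exact pr_tlev_own hp _ _
  have ht1 : 1 ≤ t := by rw [ht]; exact (pr_tlev_bounds hp _ _).2.2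
  have sdp : x.sd ≠ yp.sd := by
    obtain ⟨a, b⟩ := pr_step_sd cf 𝔗 _ _ _ sp
    rw [a, b]; cases σ <;> simp
  have sdm : x.sd ≠ ym.sd := by
    obtain ⟨a, b⟩ := pr_step_sd cf 𝔗 _ _ _ sm
    rw [a, b]; cases σ <;> simp
  have up := pr_step_univ hp cf hcf 𝔗 _ _ _ sp gx gp
  have um := pr_step_univ hp cf hcf 𝔗 _ _ _ sm gx gm
  apply pr_site_mem cf _ _ (x.u (t + 1)) (x.v (t + 1))
  · -- the fresh table is used
    obtain ⟨hρ, -⟩ := pr_step_common cf 𝔗 _ _ _ sp
    have hle := pr_step_ht_le cf 𝔗 _ _ _ sp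
    obtain ⟨z1, z2, -⟩ := pr_recv hp x.sd x.ht (min x.ht yp.ht) lp hρ (by omega) hpos
    obtain ⟨g1, g2, -⟩ := pr_step_gates cf 𝔗 _ _ _ sp gx
    show ¬ inZone lp t ∧ gate (zipU x yp) t
    rw [ht]
    refine ⟨z1, ?_⟩
    rcases z2 with e | e <;> rw [e]
    · exact g1
    · exact g2
  · have := x.hu (t + 1)
    rwa [if_pos ho] at this
  · have := pr_slot_eq cf 𝔗 lp _ _ t ht1 (up (t + 1))
    rwa [pr_zipU_own _ _ sdp _ ho, pr_zipV_own _ _ sdp _ ho] at this
  · intro σ' hσ'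
    have : σ' = mkSlot cf lm (zipU x ym) t := by simpa [termSite] using hσ'
    subst this
    have := pr_slot_eq cf 𝔗 lm _ _ t ht1 (um (t + 1))
    rwa [pr_zipU_own _ _ sdm _ ho, pr_zipV_own _ _ sdm _ ho] at this

/-- the rank of a terminal site -/
theorem pr_termSite_rank (hp : p.Adm) (cf : Coef p) (𝔗 : Tab p) (x yp ym : Vtx p)
    (lp lm : Label p) (σ : Bool) (sp : Step cf 𝔗 x yp (lp, σ))
    (hpos : 0 < trk p x.sd x.ht) (t : ℕ) (ht : t = tlev p x.sd x.ht) (ω : Lvl p t) :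
    ((termSite cf t x yp ym lp lm).Al cf ω).card * 2 ^ (trk p x.sd x.ht)
      ≤ Fintype.card (Cell p t (termSite cf t x yp ym lp lm).f.key) := by
  obtain ⟨hρ, -⟩ := pr_step_common cf 𝔗 _ _ _ sp
  have hle := pr_step_ht_le cf 𝔗 _ _ _ sp
  obtain ⟨-, -, z3⟩ := pr_recv hp x.sd x.ht (min x.ht yp.ht) lp hρ (by omega) hpos
  apply TSite.rank_pre cf _ ω (lab_tw_le hp _ _) (lab_aw_le hp _ _) (by simp [termSite])
  show trk p x.sd x.ht + p.aw x.ht (t + 1) ≤ tw lp t
  rw [ht]; exact z3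

/-- `lem:pruning-key-prefix`: equal keys at level `t` identify the prefixes of the receivers -/
theorem pr_key_agree_vtx (hp : p.Adm) (cf : Coef p) (hcf : cf.Sep) (𝔗 : Tab p)
    (x y x' y' : Vtx p) (l : Label p) (σ : Bool) (s : Step cf 𝔗 x y (l, σ))
    (s' : Step cf 𝔗 x' y' (l, σ)) (gx : ¬ GateBad cf 𝔗 x) (gy : ¬ GateBad cf 𝔗 y)
    (gx' : ¬ GateBad cf 𝔗 x') (gy' : ¬ GateBad cf 𝔗 y') (t : ℕ)
    (hk : key (zipU x y) t = key (zipU x' y') t) : Agree x x' t := by
  have e := pr_step_univ hp cf hcf 𝔗 _ _ _ s gx gy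
  have e' := pr_step_univ hp cf hcf 𝔗 _ _ _ s' gx' gy'
  obtain ⟨a1, a2⟩ := pr_step_sd cf 𝔗 _ _ _ s
  obtain ⟨b1, b2⟩ := pr_step_sd cf 𝔗 _ _ _ s'
  have hU := (pr_key_eq_iff _ _ t).1 hk
  have hV := pr_key_agree cf 𝔗 l _ _ _ _ t hU (fun j _ => e j) (fun j _ => e' j)
  apply pr_agree_of_zip x y x' y' (by rw [a1, a2]; cases σ <;> simp) (by rw [a1, b1])
    (by rw [a2, b2]) t
  intro j hj
  exact ⟨hU j hj, hV j hj⟩

end Claimed.Agent.R300.Pr
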