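/-
Row 300 / S0553 (INJ paper), Section 03_pruning: probability that a return candidate is realised
(owner: helper59).  `lem:pruning-end-guard`, `eq:pruning-path-rank`, and the probability bound used
in `lem:pruning-return-count`.
-/
import Claimed.Agent.R300.PrTerm

set_option autoImplicit false

namespace Claimed.Agent.R300.Pr

open Claimed.Agent.R300.Lab
open Claimed.Agent.R300.PrProb
open Classical

variable {p : Par}

/-! ### arithmetic of cutoffs -/

theorem pr_kap_add_le (hp : p.Adm) (i n : ℕ) : p.kap (i + n) ≤ p.kap i + 1 + p.b * n / p.s := by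
  have h1 := (pr_kap_bounds hp (i + n)).1
  have h2 := (pr_kap_bounds hp i).2
  rw [pr_H_add] at h1
  have hs := hp.hs
  by_contra hcon
  push Not at hcon
  have h3 : (p.kap i + 1 + p.b * n / p.s + 1) * p.s ≤ p.kap (i + n) * p.s :=
    Nat.mul_le_mul_right _ hcon
  have h4 : p.b * n < (p.b * n / p.s + 1) * p.s := by
    have := Nat.div_add_mod (p.b * n) p.s
    have := Nat.mod_lt (p.b * n) hs
    have e : (p.b * n / p.s + 1) * p.s = p.s * (p.b * n / p.s) + p.s := by ring
    omega
  have e : (p.kap i + 1 + p.b * n / p.s + 1) * p.s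
      = p.kap i * p.s + p.s + (p.b * n / p.s + 1) * p.s := by ring
  omega

theorem pr_own_inj {sd sd' : Bool} {k : ℕ} (h : own sd k) (h' : own sd' k) : sd = sd' := by
  unfold own at h h'
  cases sd <;> cases sd' <;> simp_all

theorem pr_own_sub_two {sd : Bool} {k : ℕ} (h : own sd (k + 2)) : own sd k := by
  unfold own at h ⊢
  rw [← h]
  constructor <;> intro <;> omega

/-! ### the two slots at an interior position -/

/-- the neighbour of position `n` in direction `d` -/
def nbr (n : ℕ) (d : Bool) : ℕ := if d then n + 1 else n - 1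

/-- the label of the edge at position `n` in direction `d` -/
def nlab (lb : ℕ → Label p × Bool) (n : ℕ) (d : Bool) : Label p := if d then (lb n).1 else (lb (n - 1)).1

section walk

variable {cf : Coef p} {𝔗 : Tab p} {S : Vtx p → Prop} {N : ℕ} {vx : ℕ → Vtx p}
  {lb : ℕ → Label p × Bool}

theorem pr_walk_slot (w : IsWalk cf 𝔗 S N vx lb) (n : ℕ) (h1 : 1 ≤ n) (h2 : n < N) (d : Bool) :
    Step cf 𝔗 (vx n) (vx (nbr n d)) (nlab lb n d, !(vx n).sd) := by
  cases d
  · have h := w.step (n - 1) (by omega)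
    rw [show n - 1 + 1 = n by omega] at h
    have hs := (pr_step_sd cf 𝔗 _ _ _ h).2
    have := (pr_step_symm cf 𝔗 _ _ (lb (n - 1)).1 (lb (n - 1)).2).1 h
    rw [← hs] at this
    exact this
  · have h := w.step n h2
    have hs := pr_walk_sign w n h2
    have : lb n = ((lb n).1, !(vx n).sd) := Prod.ext rfl hs
    rw [this] at h
    exact h

theorem pr_nbr_le (n : ℕ) (h2 : n < N) (d : Bool) : nbr n d ≤ N := by
  unfold nbr; cases d <;> simp <;> omega

end walk

/-- the end guard -/
def guardJ (p : Par) (N : ℕ) : ℕ := p.b * N / p.s + 2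

/-- `lem:pruning-end-guard`: all terminal keys tested outside the end guard are distinct. -/
theorem pr_ret_keys (hp : p.Adm) {cf : Coef p} (hcf : cf.Sep) {𝔗 : Tab p} {μ N : ℕ}
    {vx : ℕ → Vtx p} {lb : ℕ → Label p × Bool} (h : IsMinCohRet cf 𝔗 μ N vx lb) (t : ℕ)
    (n n' : ℕ) (hn : guardJ p N ≤ n ∧ n + guardJ p N ≤ N)
    (hn' : guardJ p N ≤ n' ∧ n' + guardJ p N ≤ N)
    (ht : tlev p (vx n).sd (vx n).ht = t) (ht' : tlev p (vx n').sd (vx n').ht = t) (d d' : Bool)
    (hl : nlab lb n d = nlab lb n' d')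
    (hk : key (zipU (vx n) (vx (nbr n d))) t = key (zipU (vx n') (vx (nbr n' d'))) t) :
    n = n' ∧ d = d' := by
  have w := h.1.walk
  have hJ : 2 ≤ guardJ p N := Nat.le_add_left 2 _
  have hG : ∀ m, m ≤ N → ¬ GateBad cf 𝔗 (vx m) := fun m hm => (w.mem m hm).1
  have o1 : own (vx n).sd (t + 1) := by rw [← ht]; exact pr_tlev_own hp _ _
  have o2 : own (vx n').sd (t + 1) := by rw [← ht']; exact pr_tlev_own hp _ _
  have hsd : (vx n).sd = (vx n').sd := pr_own_inj o1 o2
  have s1 := pr_walk_slot w n (by omega) (by omega) d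
  have s2 := pr_walk_slot w n' (by omega) (by omega) d'
  rw [← hsd, ← hl] at s2
  have hag : Agree (vx n) (vx n') t :=
    pr_key_agree_vtx hp cf hcf 𝔗 _ _ _ _ _ _ s1 s2 (hG _ (by omega))
      (hG _ (pr_nbr_le n (by omega) d)) (hG _ (by omega)) (hG _ (pr_nbr_le n' (by omega) d')) t hk
  -- a general statement for `a < a'`
  have main : ∀ a a', guardJ p N ≤ a → a' + guardJ p N ≤ N → a < a' →
      tlev p (vx a).sd (vx a).ht = t → tlev p (vx a').sd (vx a').ht = t →
      (vx a).sd = (vx a').sd → Agree (vx a) (vx a') t → False := by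
    intro a a' ha ha' hlt hta hta' hsda hag
    have b1 := pr_tlev_bounds hp (vx a).sd (vx a).ht
    have b2 := pr_tlev_bounds hp (vx a').sd (vx a').ht
    rw [hta] at b1
    rw [hta'] at b2
    have oa : own (vx a).sd (t + 1) := by rw [← hta]; exact pr_tlev_own hp _ _
    by_cases hthr : (a' - a) + 2 * μ ≤ 2 * t
    · apply h.2 a (a' - a) (by omega) (by omega)
      have e2 : shiftV a vx (a' - a) = vx a' := by unfold shiftV; congr 1; omega
      have e1 : shiftV a vx 0 = vx a := by unfold shiftV; congr 1; omega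
      refine ⟨pr_walk_shift w a (a' - a) (by omega), by omega,
        pr_red_shift h.1.red a (a' - a) (by omega), fun m hm => h.1.band (m + a) (by omega), ?_, ?_⟩
      · rw [e1, e2]; exact hsda
      · rw [e1, e2]
        refine ⟨t, b1.2.2, ?_, hthr, b1.2.1, b2.2.1, hag⟩
        obtain ⟨t', rfl⟩ : ∃ t', t = t' + 1 := ⟨t - 1, by omega⟩
        exact pr_own_sub_two oa
    · obtain ⟨K, -, -, hKN, hKa, -, -⟩ := h.1.depth
      have c1 := (pr_walk_ht_le w 0 a (by omega)).1
      rw [Nat.zero_add] at c1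
      have c2 := pr_kap_mono hp c1
      have c3 := pr_kap_add_le hp (vx a).ht a
      have c4 : p.b * a / p.s ≤ p.b * N / p.s :=
        Nat.div_le_div_right (Nat.mul_le_mul_left _ (by omega))
      unfold guardJ at ha ha'
      generalize p.b * N / p.s = q1 at *
      generalize p.b * a / p.s = q2 at *
      omega
  rcases Nat.lt_trichotomy n n' with hlt | heq | hgt
  · exact (main n n' hn.1 hn'.2 hlt ht ht' hsd hag).elim
  · subst heq
    refine ⟨rfl, ?_⟩
    by_contra hne
    have hne' := pr_walk_label_ne w h.1.red (n - 1) (by omega)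
    rw [show n - 1 + 1 = n by omega] at hne'
    unfold nlab at hl
    cases d <;> cases d' <;> simp_all
  · exact (main n' n hn'.1 hn.2 hgt ht' ht hsd.symm hag.symm).elim

/-! ### sums of ranks -/

theorem pr_sum_pairs (f : ℕ → ℕ) (c a : ℕ) : ∀ m : ℕ,
    (∀ n, a ≤ n → n < a + 2 * m → c ≤ f n + f (n + 1)) →
    m * c ≤ ∑ n ∈ Finset.Ico a (a + 2 * m), f n := by
  intro m
  induction m with
  | zero => intro _; simp
  | succ m ih =>
    intro h
    have h1 := ih (fun n h1 h2 => h n h1 (by omega))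
    have e : a + 2 * (m + 1) = a + 2 * m + 1 + 1 := by ring
    rw [e, Finset.sum_Ico_succ_top (by omega), Finset.sum_Ico_succ_top (by omega)]
    have h2 := h (a + 2 * m) (by omega) (by omega)
    have e2 : (m + 1) * c = m * c + c := by ring
    omega

theorem pr_E_zero {Ω : ℕ → Type} (L : SeqLaw Ω) (t : ℕ) (f : (∀ j, Ω j) → ENNReal) (τ : ∀ j, Ω j)
    (h : ∀ ω, f (Function.update τ t ω) = 0) : L.E t f τ = 0 := by
  unfold SeqLaw.E
  rw [Finset.sum_eq_zero (fun ω _ => h ω)]
  simp

/-- if the history below `t` cannot be extended into `A`, the conditional probability vanishes -/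
theorem pr_E_proj_zero {Ω : ℕ → Type} (L : SeqLaw Ω) (A : (∀ j, Ω j) → Prop) (t : ℕ)
    (τ : ∀ j, Ω j) (h : ¬ ∃ τ', A τ' ∧ ∀ j, j < t → τ' j = τ j) :
    L.E t (SeqLaw.ind (SeqLaw.Proj A (t + 1))) τ = 0 := by
  apply pr_E_zero
  intro ω
  unfold SeqLaw.ind
  rw [if_neg]
  rintro ⟨τ', hA, hag⟩
  exact h ⟨τ', hA, fun j hj => (hag j (by omega)).trans (Function.update_of_ne (by omega) _ _)⟩

/-- **Probability that a return candidate is realised** (`eq:pruning-path-rank` +
`lem:pruning-rank-process`). -/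
theorem pr_ret_prob (hp : p.Adm) {cf : Coef p} (hcf : cf.Sep) {ε : ℝ} (L : PLaw p ε) (hε : 0 ≤ ε)
    (η : RHead) (c : RCand p η) (T : ℕ) (hT : p.kap (η.ht + η.N) < T) (τ₀ : Tab p) :
    L.seq.Eit 0 T (SeqLaw.ind (REv cf η c)) τ₀
      ≤ ENNReal.ofReal (Real.exp (ε * ((2 * η.N : ℕ) : ℝ))
          / 2 ^ ((η.N / 2 - guardJ p η.N) * (p.s - 2 * p.b))) := by
  by_cases hA : ∃ 𝔗, REv cf η c 𝔗
  swap
  · apply L.rank_bound_nat hε (REv cf η c) T (fun _ _ => 0) (fun _ _ => 0)
      (fun _ _ _ _ => rfl) (fun _ _ _ _ => rfl)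
    · intro t _ τ
      refine le_of_eq_of_le (pr_E_proj_zero L.seq (REv cf η c) t τ ?_) zero_le
      rintro ⟨τ', h, -⟩
      exact hA ⟨τ', h⟩
    · intro τ h
      exact (hA ⟨τ, h⟩).elim
  obtain ⟨𝔗s, vs, ls, hs, ms⟩ := hA
  have hJ : 2 ≤ guardJ p η.N := Nat.le_add_left 2 _
  set J := guardJ p η.N with hJdef
  set rk : ℕ → ℕ := fun n => trk p (vs n).sd (vs n).ht with hrk
  set lev : ℕ → ℕ := fun n => tlev p (vs n).sd (vs n).ht with hlev
  set P : Finset ℕ := (Finset.Icc J (η.N - J)).filter (fun n => rk n ≠ 0) with hP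
  set Nt : ℕ → Finset ℕ := fun t => P.filter (fun n => lev n = t) with hNt
  have hPmem : ∀ n ∈ P, J ≤ n ∧ n + J ≤ η.N ∧ 0 < rk n := by
    intro n hn
    rw [hP, Finset.mem_filter, Finset.mem_Icc] at hn
    exact ⟨hn.1.1, by omega, Nat.pos_of_ne_zero hn.2⟩
  have ws := hs.1.walk
  have heven := pr_walk_even ws hs.1.side
  apply L.rank_bound_nat hε (REv cf η c) T (fun t _ => 2 * (Nt t).card)
    (fun t _ => ∑ n ∈ Nt t, rk n) (fun _ _ _ _ => rfl) (fun _ _ _ _ => rfl)
  · -- one level
    intro t _ τ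
    by_cases hex : ∃ 𝔗₀, REv cf η c 𝔗₀ ∧ ∀ j, j < t → 𝔗₀ j = τ j
    swap
    · exact le_of_eq_of_le (pr_E_proj_zero L.seq (REv cf η c) t τ hex) zero_le
    obtain ⟨𝔗₀, ⟨v0, l0, h0, m0⟩, hag0⟩ := hex
    obtain ⟨hshape, hlab⟩ := pr_ret_shape hs.1 ms h0.1 m0
    have w0 := h0.1.walk
    have hNmem : ∀ n ∈ Nt t, J ≤ n ∧ n + J ≤ η.N ∧ 0 < trk p (v0 n).sd (v0 n).ht ∧
        tlev p (v0 n).sd (v0 n).ht = t := by
      intro n hn
      rw [hNt, Finset.mem_filter] at hn
      obtain ⟨a1, a2, a3⟩ := hPmem n hn.1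
      have := hshape n (by omega)
      rw [← this.1, ← this.2]
      exact ⟨a1, a2, a3, hn.2⟩
    have key := pr_sites_bound L hε cf (REv cf η c) t τ (Nt t)
      (fun n => termSite cf t (v0 n) (v0 (n + 1)) (v0 (n - 1)) (l0 n).1 (l0 (n - 1)).1)
      (by
        intro n hn n' hn' hk
        obtain ⟨a1, a2, a3, a4⟩ := hNmem n hn
        obtain ⟨b1, b2, b3, b4⟩ := hNmem n' hn'
        have hk' := Prod.mk.inj hk
        exact (pr_ret_keys hp hcf h0 t n n' ⟨a1, a2⟩ ⟨b1, b2⟩ a4 b4 true true hk'.1 hk'.2).1)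
      (by
        intro n hn n' hn' σ hσ hk
        obtain ⟨a1, a2, a3, a4⟩ := hNmem n hn
        obtain ⟨b1, b2, b3, b4⟩ := hNmem n' hn'
        have : σ = mkSlot cf (l0 (n - 1)).1 (zipU (v0 n) (v0 (n - 1))) t := by
          simpa [termSite] using hσ
        subst this
        have hk' := Prod.mk.inj hk
        have := (pr_ret_keys hp hcf h0 t n n' ⟨a1, a2⟩ ⟨b1, b2⟩ a4 b4 false true hk'.1 hk'.2).2
        simp at this)
      rk
      (by
        intro n hn ω
        obtain ⟨a1, a2, a3, a4⟩ := hNmem n hn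
        have hsh := hshape n (by omega)
        have sp : Step cf 𝔗₀ (v0 n) (v0 (n + 1)) ((l0 n).1, !(v0 n).sd) := by
          simpa [nbr, nlab] using pr_walk_slot w0 n (by omega) (by omega) true
        have := pr_termSite_rank hp cf 𝔗₀ (v0 n) (v0 (n + 1)) (v0 (n - 1)) (l0 n).1
          (l0 (n - 1)).1 _ sp a3 t a4.symm ω
        rw [hrk]
        simp only
        rw [hsh.1, hsh.2]
        exact this)
      (by
        intro 𝔗 ⟨v, l, h, m⟩ hag n hn
        obtain ⟨a1, a2, a3, a4⟩ := hNmem n hn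
        obtain ⟨hshape', hlab'⟩ := pr_ret_shape h.1 m h0.1 m0
        have w := h.1.walk
        have hPU := pr_ret_PU hp hcf t (fun j hj => (hag j hj).trans (hag0 j hj).symm) h m h0 m0
        have hsh := hshape' n (by omega)
        have e : termSite cf t (v0 n) (v0 (n + 1)) (v0 (n - 1)) (l0 n).1 (l0 (n - 1)).1
            = termSite cf t (v n) (v (n + 1)) (v (n - 1)) (l n).1 (l (n - 1)).1 := by
          rw [hlab' n (by omega), hlab' (n - 1) (by omega)]
          exact (pr_termSite_congr cf t _ _ _ _ _ _ _ _ hsh.2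
            (fun j hj => (hPU j hj n (by omega)).1) (fun j hj => (hPU j hj (n + 1) (by omega)).1)
            (fun j hj => (hPU j hj (n - 1) (by omega)).1)).symm
        simp only
        rw [e]
        have sp : Step cf 𝔗 (v n) (v (n + 1)) ((l n).1, !(v n).sd) := by
          simpa [nbr, nlab] using pr_walk_slot w n (by omega) (by omega) true
        have sm : Step cf 𝔗 (v n) (v (n - 1)) ((l (n - 1)).1, !(v n).sd) := by
          simpa [nbr, nlab] using pr_walk_slot w n (by omega) (by omega) false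
        exact pr_termSite_mem hp cf hcf 𝔗 _ _ _ _ _ _ sp sm (w.mem n (by omega)).1
          (w.mem (n + 1) (by omega)).1 (w.mem (n - 1) (by omega)).1
          (by rw [hsh.1, hsh.2]; exact a3) t (by rw [hsh.1, hsh.2]; exact a4.symm))
      2 (by intro n _; simp [termSite])
    exact key
  · -- the totals
    intro τ _
    have hmaps : ∀ n ∈ P, lev n ∈ Finset.range T := by
      intro n hn
      obtain ⟨a1, a2, -⟩ := hPmem n hn
      rw [Finset.mem_range]
      have b1 := (pr_tlev_bounds hp (vs n).sd (vs n).ht).2.1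
      have b2 := (pr_walk_ht_le ws 0 n (by omega)).2
      rw [Nat.zero_add, ms.ht0] at b2
      have b3 : p.kap (vs n).ht ≤ p.kap (η.ht + η.N) := pr_kap_mono hp (by omega)
      have : lev n ≤ p.kap (vs n).ht := b1
      omega
    constructor
    · rw [← Finset.mul_sum, ← Finset.card_eq_sum_card_fiberwise hmaps]
      have h1 : P.card ≤ (Finset.Icc J (η.N - J)).card := Finset.card_filter_le _ _
      rw [Nat.card_Icc] at h1
      omega
    · rw [Finset.sum_fiberwise_of_maps_to hmaps, hP, Finset.sum_filter_ne_zero]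
      have h1 := pr_sum_pairs rk (p.s - 2 * p.b) J (η.N / 2 - J) (by
        intro n h1 h2
        have hn : n < η.N := by omega
        have a1 := pr_walk_sd_ne ws n hn
        have a2 := pr_step_ht_le cf 𝔗s _ _ _ (ws.step n hn)
        have a3 : (vs (n + 1)).sd = !(vs n).sd := by
          cases e1 : (vs n).sd <;> cases e2 : (vs (n + 1)).sd <;> simp_all
        have := pr_trk_pair hp (vs n).sd (vs n).ht (vs (n + 1)).ht a2.1 a2.2
        rw [hrk]
        simp only
        rw [a3]
        omega)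
      refine le_trans h1 (Finset.sum_le_sum_of_subset ?_)
      intro n hn
      rw [Finset.mem_Ico] at hn
      rw [Finset.mem_Icc]
      omega

end Claimed.Agent.R300.Pr
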