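/-
Row 300 / S0553 (INJ paper), Section 03_pruning: every event of the section depends on finitely many
levels of the tables (owner: helper59).  Needed for the selection by conditional expectations.
-/
import Claimed.Agent.R300.PrRetProb

set_option autoImplicit false

namespace Claimed.Agent.R300.Pr

open Claimed.Agent.R300.Lab
open Claimed.Agent.R300.PrProb
open Classical

variable {p : Par}

/-- two systems of tables agree below level `T` -/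
def TabEq (T : ℕ) (𝔗 𝔗' : Tab p) : Prop := ∀ j, j < T → 𝔗 j = 𝔗' j

theorem TabEq.symm {T : ℕ} {𝔗 𝔗' : Tab p} (h : TabEq T 𝔗 𝔗') : TabEq T 𝔗' 𝔗 :=
  fun j hj => (h j hj).symm

theorem TabEq.mono {T T' : ℕ} {𝔗 𝔗' : Tab p} (h : TabEq T 𝔗 𝔗') (hT : T' ≤ T) : TabEq T' 𝔗 𝔗' :=
  fun j hj => h j (by omega)

theorem pr_rule_closed (G : ℕ → Prop) (𝔗 𝔗' : Tab p) (l : Label p) (U : ℕ → BV p.s) (k : ℕ)
    (hg : ¬ gate U k) (hG : ¬ G k) (x : BV p.s) : rule G 𝔗 l U k x = rule G 𝔗' l U k x := by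
  unfold rule
  simp [hg, hG]

/-- the raw u-blocks of an edge vanish beyond the cutoff -/
theorem pr_edge_U_beyond (hp : p.Adm) {cf : Coef p} {𝔗 : Tab p} {h : ℕ} {a b : Vtx p} {l : Label p}
    (he : IsEdge0 cf 𝔗 h a b l) (k : ℕ) (hk : p.kap h + 2 ≤ k) : zipU a b k = 0 := by
  have h1 := (pr_kap_succ_le hp h).2
  have ha : p.kap a.ht ≤ p.kap h + 1 := by
    rw [he.ha]; unfold Par.aHt; split_ifs <;> omega
  have hb : p.kap b.ht ≤ p.kap h + 1 := by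
    rw [he.hb]; unfold Par.bHt; split_ifs <;> omega
  have z : ∀ x : Vtx p, p.kap x.ht ≤ p.kap h + 1 → x.u k = 0 := by
    intro x hx
    have := x.hu k
    split_ifs at this
    · rw [lab_aw_beyond p _ _ (by omega)] at this
      exact (lab_isPre_zero_iff _).1 this
    · exact (lab_isPre_zero_iff _).1 this
  unfold zipU
  rw [z a ha, z b hb, add_zero]

/-- an auxiliary edge depends only on the tables of level `< kap h + 20` -/
theorem pr_edge_dep (hp : p.Adm) {cf : Coef p} {𝔗 𝔗' : Tab p} {h : ℕ} {a b : Vtx p} {l : Label p}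
    (hT : TabEq (p.kap h + 20) 𝔗 𝔗') (he : IsEdge0 cf 𝔗 h a b l) : IsEdge0 cf 𝔗' h a b l := by
  refine ⟨he.sa, he.sb, he.ha, he.hb, he.hrho, he.edn, he.eup, he.eeq, ?_⟩
  intro k
  have := he.aux k
  unfold EqAt at this ⊢
  rw [this]
  by_cases hk : k - 1 < p.kap h + 20
  · exact lab_rhs_congr_tab _ _ 𝔗 𝔗' l _ k (hT _ hk)
  · obtain ⟨k', rfl⟩ : ∃ k', k = k' + 2 := ⟨k - 2, by omega⟩
    rw [lab_rhs_two', lab_rhs_two']
    have hκ := (lab_kap_spec hp h).2.2.2.2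
    have hn0 := hp.hn0
    apply pr_rule_closed
    · apply lab_gate_closed _ _ (by omega)
      intro j h1 _
      exact pr_edge_U_beyond hp he j (by omega)
    · show ¬ (k' + 1 = p.kap h)
      omega

theorem pr_edge_ht_le {cf : Coef p} {𝔗 : Tab p} {h : ℕ} {a b : Vtx p} {l : Label p}
    (he : IsEdge0 cf 𝔗 h a b l) : h ≤ a.ht ∧ h ≤ b.ht := by
  rw [he.ha, he.hb]
  unfold Par.aHt Par.bHt
  constructor <;> split_ifs <;> omega

theorem pr_gateBad_dep (hp : p.Adm) {cf : Coef p} {𝔗 𝔗' : Tab p} {x : Vtx p}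
    (hT : TabEq (p.kap x.ht + 20) 𝔗 𝔗') (h : GateBad cf 𝔗 x) : GateBad cf 𝔗' x := by
  obtain ⟨h0, a, b, l, he, hx, hb⟩ := h
  refine ⟨h0, a, b, l, pr_edge_dep hp (hT.mono ?_) he, hx, hb⟩
  have := pr_edge_ht_le he
  have : h0 ≤ x.ht := by rcases hx with rfl | rfl <;> omega
  have := pr_kap_mono hp this
  omega

theorem pr_good_dep (hp : p.Adm) {cf : Coef p} {𝔗 𝔗' : Tab p} {x : Vtx p}
    (hT : TabEq (p.kap x.ht + 20) 𝔗 𝔗') (h : Good cf 𝔗 x) : Good cf 𝔗' x :=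
  ⟨fun hb => h.1 (pr_gateBad_dep hp hT.symm hb), h.2⟩

theorem pr_step_dep (hp : p.Adm) {cf : Coef p} {𝔗 𝔗' : Tab p} {x y : Vtx p} {ls : Label p × Bool}
    (hT : TabEq (p.kap x.ht + 20) 𝔗 𝔗') (h : Step cf 𝔗 x y ls) : Step cf 𝔗' x y ls := by
  unfold Step at h ⊢
  split_ifs at h ⊢
  · obtain ⟨h0, he⟩ := h
    have := pr_kap_mono hp (pr_edge_ht_le he).1
    exact ⟨h0, pr_edge_dep hp (hT.mono (by omega)) he⟩
  · obtain ⟨h0, he⟩ := h
    have := pr_kap_mono hp (pr_edge_ht_le he).2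
    exact ⟨h0, pr_edge_dep hp (hT.mono (by omega)) he⟩

section walks

variable {cf : Coef p} {𝔗 𝔗' : Tab p} {μ N T : ℕ} {vx : ℕ → Vtx p} {lb : ℕ → Label p × Bool}

theorem pr_walk_good_dep (hp : p.Adm) (hT : TabEq T 𝔗 𝔗') (hh : ∀ n, n ≤ N → p.kap (vx n).ht + 20 ≤ T)
    (w : IsWalk cf 𝔗 (Good cf 𝔗) N vx lb) : IsWalk cf 𝔗' (Good cf 𝔗') N vx lb :=
  ⟨fun n hn => pr_good_dep hp (hT.mono (hh n hn)) (w.mem n hn),
    fun n hn => pr_step_dep hp (hT.mono (hh n hn.le)) (w.step n hn)⟩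

theorem pr_cohRet_dep (hp : p.Adm) (hT : TabEq T 𝔗 𝔗') (hh : ∀ n, n ≤ N → p.kap (vx n).ht + 20 ≤ T)
    (h : IsCohRet cf 𝔗 μ N vx lb) : IsCohRet cf 𝔗' μ N vx lb :=
  ⟨pr_walk_good_dep hp hT hh h.walk, h.pos, h.red, h.band, h.side, h.depth⟩

theorem pr_minCohRet_dep (hp : p.Adm) (hT : TabEq T 𝔗 𝔗')
    (hh : ∀ n, n ≤ N → p.kap (vx n).ht + 20 ≤ T)
    (h : IsMinCohRet cf 𝔗 μ N vx lb) : IsMinCohRet cf 𝔗' μ N vx lb := by
  refine ⟨pr_cohRet_dep hp hT hh h.1, ?_⟩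
  intro a N' h1 h2 h3
  exact h.2 a N' h1 h2 (pr_cohRet_dep hp hT.symm (fun n hn => hh (n + a) (by omega)) h3)

end walks

/-- the event of a return candidate depends on the levels `< kap (ht + N) + 20` -/
theorem pr_REv_dep (hp : p.Adm) (cf : Coef p) (η : RHead) (c : RCand p η) :
    DepBelow (Ω := fun t => ∀ κ : Key p t, Equiv.Perm (Cell p t κ)) (p.kap (η.ht + η.N) + 20)
      (REv cf η c) := by
  have key : ∀ 𝔗 𝔗' : Tab p, TabEq (p.kap (η.ht + η.N) + 20) 𝔗 𝔗' → REv cf η c 𝔗 → REv cf η c 𝔗' := by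
    rintro 𝔗 𝔗' hT ⟨vx, lb, h, m⟩
    refine ⟨vx, lb, pr_minCohRet_dep hp hT ?_ h, m⟩
    intro n hn
    have b2 := (pr_walk_ht_le h.1.walk 0 n (by omega)).2
    rw [Nat.zero_add, m.ht0] at b2
    have := pr_kap_mono hp (show (vx n).ht ≤ η.ht + η.N by omega)
    omega
  intro 𝔗 𝔗' hT
  exact propext ⟨key 𝔗 𝔗' hT, key 𝔗' 𝔗 (fun j hj => (hT j hj).symm)⟩

/-- crude bound: `kap j ≤ H j` -/
theorem pr_kap_le_H (hp : p.Adm) (j : ℕ) : p.kap j ≤ p.H j := by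
  have h1 := (pr_kap_bounds hp j).1
  have hs := hp.hs
  calc p.kap j = p.kap j * 1 := (Nat.mul_one _).symm
    _ ≤ p.kap j * p.s := Nat.mul_le_mul_left _ hs
    _ ≤ p.H j := h1.le

/-- the first deletion at `x` depends on the levels `< 2 H + 20` -/
theorem pr_del1_dep (hp : p.Adm) {cf : Coef p} {𝔗 𝔗' : Tab p} {x : Vtx p}
    (hT : TabEq (2 * p.H x.ht + 20) 𝔗 𝔗') (h : Del1 cf 𝔗 x) : Del1 cf 𝔗' x := by
  obtain ⟨μ, N, vx, lb, hm, n, hn, rfl⟩ := h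
  refine ⟨μ, N, vx, lb, pr_minCohRet_dep hp hT ?_ hm, n, hn, rfl⟩
  intro m hm'
  have b1 := (hm.1.band m hm').2
  have b2 := (hm.1.band n hn).1
  have b3 := pr_kap_le_H hp (vx m).ht
  have e1 : 30 * μ * p.s = 30 * (μ * p.s) := by ring
  have e2 : 21 * μ * p.s = 21 * (μ * p.s) := by ring
  omega

theorem pr_X1_dep (hp : p.Adm) {cf : Coef p} {𝔗 𝔗' : Tab p} {x : Vtx p}
    (hT : TabEq (2 * p.H x.ht + 20) 𝔗 𝔗') (h : X1 cf 𝔗 x) : X1 cf 𝔗' x := by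
  have := pr_kap_le_H hp x.ht
  exact ⟨pr_good_dep hp (hT.mono (by omega)) h.1, fun hd => h.2 (pr_del1_dep hp hT.symm hd)⟩

end Claimed.Agent.R300.Pr
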