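/-
Row 300 / S0553 (INJ paper), Section 03_pruning: `lem:pruning-return-count` (owner: helper59).
The weighted expected number of realised return candidates is at most `800 / 2^(n0+2)`; abstract
counting lemma (deleted vertices are counted by realised candidates).
-/
import Claimed.Agent.R300.PrDep
import Claimed.Agent.R300.LabTower

set_option autoImplicit false

namespace Claimed.Agent.R300.Pr

open Claimed.Agent.R300.Lab
open Claimed.Agent.R300.PrProb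
open Classical
open scoped ENNReal

variable {p : Par}

/-! ### arithmetic -/

/-- headers which can be realised -/
def RHead.Valid (η : RHead) (p : Par) : Prop :=
  2 ≤ η.N ∧ η.N % 2 = 0 ∧ η.K ≤ p.kap η.ht ∧ 21 * η.μ * p.s ≤ p.H η.ht ∧ p.H η.ht ≤ 30 * η.μ * p.s

theorem pr_REv_valid {cf : Coef p} {η : RHead} {c : RCand p η} {𝔗 : Tab p} (h : REv cf η c 𝔗) :
    η.Valid p := by
  obtain ⟨vx, lb, hm, m⟩ := h
  obtain ⟨h1, h2, h3, -, -⟩ := pr_ret_depth hm.1 m.sd0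
  have hb := hm.1.band 0 (Nat.zero_le _)
  rw [m.ht0] at h3 hb
  exact ⟨h1, h2, h3, hb.1, hb.2⟩

theorem pr_trunc_mul (n J s b : ℕ) (hb : 2 * b ≤ s) :
    n * s ≤ (n - J) * (s - 2 * b) + J * s + 2 * (b * n) := by
  rcases Nat.le_total n J with h | h
  · have : n * s ≤ J * s := Nat.mul_le_mul_right _ h
    omega
  · obtain ⟨k, rfl⟩ := Nat.exists_eq_add_of_le h
    obtain ⟨c, rfl⟩ := Nat.exists_eq_add_of_le hb
    simp only [Nat.add_sub_cancel_left]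
    nlinarith [Nat.zero_le (b * J), Nat.zero_le (k * c)]

theorem pr_slope (hp : p.Adm) : 20000000000 * p.b ≤ 10001 * p.s := by
  have h1 := hp.hslope
  have h2 := lab_lq_spec hp
  omega

theorem pr_s_ge (hp : p.Adm) : 20000 ≤ p.s := Nat.le_of_dvd hp.hs hp.h20000

/-- the exponent inequality of `lem:pruning-return-count` -/
theorem pr_ret_arith (hp : p.Adm) (η : RHead) (hv : η.Valid p) (Lb : ℕ)
    (hLb : 1000 * Lb ≤ 1001 * p.s) :
    η.N + Lb * η.N + 2 * (p.s * η.m p) + 3 * η.N + (η.μ + η.N + η.ht / 50 + p.n0 + 2)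
      ≤ (p.H η.ht - p.b * η.N) + (η.N / 2 - guardJ p η.N) * (p.s - 2 * p.b) := by
  obtain ⟨hN2, heven, hK, hb1, hb2⟩ := hv
  obtain ⟨n, hn⟩ : ∃ n, η.N = 2 * n := ⟨η.N / 2, by omega⟩
  have hsl := pr_slope hp
  have hs := pr_s_ge hp
  have hn0 := hp.hn0
  have hb := hp.hb
  have hKl := η.le_K
  have f1 := (pr_kap_bounds hp (η.ht + η.N)).1
  rw [pr_H_add] at f1
  have f4 := (pr_kap_bounds hp η.ht).1
  have hκκ : p.kap η.ht ≤ p.kap (η.ht + η.N) := pr_kap_mono hp (by omega)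
  have hm : 2 * η.m p + η.K ≤ p.kap (η.ht + η.N) + 4 := by unfold RHead.m; omega
  have hH : p.H η.ht = 2 * (p.n0 * p.s) + p.s + p.b * η.ht := by unfold Par.H; ring
  generalize η.m p = m at *
  generalize η.K = K at *
  generalize η.μ = μ at *
  generalize η.ht = ht at *
  generalize η.N = N at *
  subst hn
  rw [show 2 * n / 2 = n by omega] at hKl ⊢
  generalize p.kap (ht + 2 * n) = κ' at *
  generalize p.kap ht = κ at *
  generalize p.H ht = H at *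
  -- products
  have e30 : 30 * μ * p.s = 30 * (p.s * μ) := by ring
  have e21 : 21 * μ * p.s = 21 * (p.s * μ) := by ring
  rw [e30] at hb2
  rw [e21] at hb1
  have hκμ : κ < 30 * μ := by
    by_contra hcon
    push Not at hcon
    have : 30 * μ * p.s ≤ κ * p.s := Nat.mul_le_mul_right _ hcon
    rw [e30] at this
    omega
  have hnμ : n ≤ 29 * μ := by omega
  have x5 : p.s * n + p.s * μ ≤ p.s * K := by
    rw [← Nat.mul_add]; exact Nat.mul_le_mul_left _ hKl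
  have x6 : 2 * (p.s * m) + p.s * K ≤ κ' * p.s + 4 * p.s := by
    have := Nat.mul_le_mul_left p.s hm
    linarith [this]
  have x7 : 1000 * (Lb * n) ≤ 1001 * (p.s * n) := by
    have := Nat.mul_le_mul_right n hLb
    linarith [this]
  have x2 : p.s * n ≤ 29 * (p.s * μ) := by
    have := Nat.mul_le_mul_left p.s hnμ
    linarith [this]
  have x3 : p.b * n ≤ 29 * (p.b * μ) := by
    have := Nat.mul_le_mul_left p.b hnμ
    linarith [this]
  have x11 : 20000000000 * (p.b * μ) ≤ 10001 * (p.s * μ) := by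
    have := Nat.mul_le_mul_right μ hsl
    linarith [this]
  have xμ : 20000 * μ ≤ p.s * μ := Nat.mul_le_mul_right _ hs
  have xht : ht ≤ p.b * ht := Nat.le_mul_of_pos_left _ hb
  have x10 : 20000 * p.n0 ≤ p.n0 * p.s := by
    rw [Nat.mul_comm]; exact Nat.mul_le_mul_left _ hs
  have x10' : 1000000 * p.s ≤ p.n0 * p.s := Nat.mul_le_mul_right _ hn0
  have hq : (p.b * (2 * n) / p.s) * p.s ≤ p.b * (2 * n) := Nat.div_mul_le_self _ _
  have htr := pr_trunc_mul n (guardJ p (2 * n)) p.s p.b (by omega)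
  have hJ : guardJ p (2 * n) * p.s = (p.b * (2 * n) / p.s) * p.s + 2 * p.s := by
    unfold guardJ; ring
  have e1 : p.b * (2 * n) = 2 * (p.b * n) := by ring
  have e2 : Lb * (2 * n) = 2 * (Lb * n) := by ring
  have e3 : n * p.s = p.s * n := by ring
  rw [hJ] at htr
  rw [e1] at hq f1 htr ⊢
  rw [e2]
  rw [e3] at htr
  have h50 : 50 * (ht / 50) ≤ ht := Nat.mul_div_le _ _
  generalize (n - guardJ p (2 * n)) * (p.s - 2 * p.b) = R at *
  generalize (2 * (p.b * n) / p.s) * p.s = Q at *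
  generalize ht / 50 = h5 at *
  generalize p.s * μ = X1 at *
  generalize p.s * n = X2 at *
  generalize p.b * n = X3 at *
  generalize κ' * p.s = X4 at *
  generalize p.s * K = X5 at *
  generalize p.s * m = X6 at *
  generalize Lb * n = X7 at *
  generalize p.b * ht = X9 at *
  generalize p.n0 * p.s = X10 at *
  generalize p.b * μ = X11 at *
  omega

/-! ### `ℝ≥0∞` tools -/

theorem pr_exp_two_le (N k : ℕ) {ε : ℝ} (hε : ε ≤ 1) :
    Real.exp (ε * ((2 * k * N : ℕ) : ℝ)) ≤ 2 ^ (3 * k * N) := by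
  have h1 : Real.exp 1 ≤ 2.7182818286 := Real.exp_one_lt_d9.le
  have h0 : 0 < Real.exp 1 := Real.exp_pos 1
  have h2 : Real.exp (ε * ((2 * k * N : ℕ) : ℝ)) ≤ Real.exp ((2 * k * N : ℕ) : ℝ) :=
    Real.exp_le_exp.2 (mul_le_of_le_one_left (Nat.cast_nonneg _) hε)
  have h3 : Real.exp ((2 * k * N : ℕ) : ℝ) = (Real.exp 1) ^ (2 * k * N) := by
    rw [← Real.exp_nat_mul]; simp
  rw [h3] at h2
  calc _ ≤ (Real.exp 1) ^ (2 * k * N) := h2
    _ = ((Real.exp 1) ^ 2) ^ (k * N) := by rw [← pow_mul]; congr 1; ring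
    _ ≤ 8 ^ (k * N) := pow_le_pow_left₀ (by positivity) (by nlinarith) _
    _ = 2 ^ (3 * k * N) := by
        rw [show (8 : ℝ) = 2 ^ 3 by norm_num, ← pow_mul]; congr 1; ring

theorem pr_ofReal_pow_div (a b : ℕ) :
    ENNReal.ofReal ((2 : ℝ) ^ a / 2 ^ b) = (2 : ℝ≥0∞) ^ a * (2⁻¹ : ℝ≥0∞) ^ b := by
  rw [ENNReal.ofReal_div_of_pos (by positivity), ENNReal.ofReal_pow (by norm_num),
    ENNReal.ofReal_pow (by norm_num), div_eq_mul_inv, ENNReal.inv_pow]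
  norm_num

theorem pr_two_mul_inv_pow (E : ℕ) : (2 : ℝ≥0∞) ^ E * (2⁻¹ : ℝ≥0∞) ^ E = 1 := by
  rw [← mul_pow, ENNReal.mul_inv_cancel (by norm_num) (by norm_num), one_pow]

/-- `a 2^E ≤ 2^Y` gives `a 2^-Y ≤ 2^-E` -/
theorem pr_enn_le (a E Y : ℕ) (h : a * 2 ^ E ≤ 2 ^ Y) :
    (a : ℝ≥0∞) * (2⁻¹ : ℝ≥0∞) ^ Y ≤ (2⁻¹ : ℝ≥0∞) ^ E := by
  have h' : (a : ℝ≥0∞) * 2 ^ E ≤ 2 ^ Y := by exact_mod_cast h
  calc (a : ℝ≥0∞) * (2⁻¹ : ℝ≥0∞) ^ Y
      = ((a : ℝ≥0∞) * 2 ^ E) * (2⁻¹ : ℝ≥0∞) ^ Y * (2⁻¹ : ℝ≥0∞) ^ E := by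
        rw [mul_assoc, mul_assoc, mul_comm ((2⁻¹ : ℝ≥0∞) ^ Y), ← mul_assoc (2 ^ E),
          pr_two_mul_inv_pow, one_mul]
    _ ≤ 2 ^ Y * (2⁻¹ : ℝ≥0∞) ^ Y * (2⁻¹ : ℝ≥0∞) ^ E := by gcongr
    _ = _ := by rw [pr_two_mul_inv_pow, one_mul]

theorem pr_tsum_div (f : ℕ → ℝ≥0∞) (k : ℕ) [NeZero k] :
    ∑' n, f (n / k) = k * ∑' n, f n := by
  have h1 : ∑' n, f (n / k) = ∑' x : ℕ × Fin k, f x.1 :=
    (Nat.divModEquiv k).tsum_eq (fun x : ℕ × Fin k => f x.1)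
  rw [h1, ENNReal.tsum_prod' (f := fun x : ℕ × Fin k => f x.1)]
  simp only [tsum_fintype, Finset.sum_const, Finset.card_univ, Fintype.card_fin, nsmul_eq_mul]
  rw [ENNReal.tsum_mul_left]

theorem pr_tsum_pow_add (e : ℕ) : ∑' n : ℕ, (2⁻¹ : ℝ≥0∞) ^ (n + e) = 2 * (2⁻¹ : ℝ≥0∞) ^ e := by
  simp only [pow_add]
  rw [ENNReal.tsum_mul_right, ENNReal.tsum_geometric_two]

theorem pr_tsum_pow_div_add (e : ℕ) :
    ∑' n : ℕ, (2⁻¹ : ℝ≥0∞) ^ (n / 50 + e) = 100 * (2⁻¹ : ℝ≥0∞) ^ e := by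
  rw [pr_tsum_div (fun n => (2⁻¹ : ℝ≥0∞) ^ (n + e)) 50, pr_tsum_pow_add, ← mul_assoc]
  norm_num

/-- headers as tuples -/
def rheadEquiv : RHead ≃ ℕ × ℕ × Bool × ℕ where
  toFun η := (η.μ, η.N, η.sd, η.ht)
  invFun x := ⟨x.1, x.2.1, x.2.2.1, x.2.2.2⟩
  left_inv _ := rfl
  right_inv _ := rfl

theorem pr_tsum_rhead (e : ℕ) :
    ∑' η : RHead, (2⁻¹ : ℝ≥0∞) ^ (η.μ + η.N + η.ht / 50 + e) = 800 * (2⁻¹ : ℝ≥0∞) ^ e := by
  have h1 : ∑' η : RHead, (2⁻¹ : ℝ≥0∞) ^ (η.μ + η.N + η.ht / 50 + e)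
      = ∑' x : ℕ × ℕ × Bool × ℕ, (2⁻¹ : ℝ≥0∞) ^ (x.1 + x.2.1 + x.2.2.2 / 50 + e) :=
    (rheadEquiv.tsum_eq
      (fun x : ℕ × ℕ × Bool × ℕ => (2⁻¹ : ℝ≥0∞) ^ (x.1 + x.2.1 + x.2.2.2 / 50 + e)))
  rw [h1, ENNReal.tsum_prod']
  simp only
  have h2 : ∀ a : ℕ, ∑' x : ℕ × Bool × ℕ, (2⁻¹ : ℝ≥0∞) ^ (a + x.1 + x.2.2 / 50 + e)
      = 400 * (2⁻¹ : ℝ≥0∞) ^ (a + e) := by
    intro a
    rw [ENNReal.tsum_prod']
    simp only
    have h3 : ∀ b : ℕ, ∑' x : Bool × ℕ, (2⁻¹ : ℝ≥0∞) ^ (a + b + x.2 / 50 + e)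
        = 200 * (2⁻¹ : ℝ≥0∞) ^ (b + (a + e)) := by
      intro b
      rw [ENNReal.tsum_prod']
      simp only [tsum_fintype, Fintype.sum_bool]
      have h4 : ∑' c : ℕ, (2⁻¹ : ℝ≥0∞) ^ (a + b + c / 50 + e)
          = 100 * (2⁻¹ : ℝ≥0∞) ^ (b + (a + e)) := by
        rw [← pr_tsum_pow_div_add]
        congr 1; funext c; congr 1; ring
      rw [h4, ← two_mul, ← mul_assoc]
      norm_num
    simp only [h3]
    rw [ENNReal.tsum_mul_left, pr_tsum_pow_add, ← mul_assoc]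
    norm_num
  simp only [h2]
  rw [ENNReal.tsum_mul_left, pr_tsum_pow_add, ← mul_assoc]
  norm_num

/-! ### abstract counting -/

/-- **Counting deleted vertices by realised candidates.**  Every `x ∈ D` is the `n`-th vertex
(`n < m c`) of the unique realisation of a realised candidate `c`. -/
theorem pr_count {X ι : Type*} (D : Finset X) (w : ι → ℝ≥0∞) (ev : ι → Prop)
    (R : X → ι → ℕ → Prop) (m : ι → ℕ) (a : ℝ≥0∞)
    (htot : ∀ x ∈ D, ∃ c n, R x c n ∧ ev c ∧ n < m c ∧ (m c : ℝ≥0∞) * a ≤ w c)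
    (hfun : ∀ x x' c n, R x c n → R x' c n → x = x') :
    (D.card : ℝ≥0∞) * a ≤ ∑' c, w c * (if ev c then 1 else 0) := by
  choose cc nn h using (fun x : D => htot x.1 x.2)
  set I : Finset ι := Finset.univ.image cc with hI
  have h1 : D.card = ∑ c ∈ I, (Finset.univ.filter (fun x : D => cc x = c)).card := by
    rw [hI, ← Finset.card_eq_sum_card_image]
    simp
  have h2 : ∀ c ∈ I, (Finset.univ.filter (fun x : D => cc x = c)).card ≤ m c := by
    intro c _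
    have := Finset.card_le_card_of_injOn (s := Finset.univ.filter (fun x : D => cc x = c))
      (t := Finset.range (m c)) nn
      (by
        intro x hx
        have hx' : cc x = c := by simpa using hx
        have := (h x).2.2.1
        rw [hx'] at this
        simpa using this)
      (by
        intro x hx x' hx' he
        have e1 : cc x = c := by simpa using hx
        have e2 : cc x' = c := by simpa using hx'
        have r1 := (h x).1
        have r2 := (h x').1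
        rw [e1] at r1
        rw [e2, ← he] at r2
        exact Subtype.ext (hfun _ _ _ _ r1 r2))
    simpa using this
  calc (D.card : ℝ≥0∞) * a
      = ∑ c ∈ I, ((Finset.univ.filter (fun x : D => cc x = c)).card : ℝ≥0∞) * a := by
        rw [h1]; push_cast; rw [Finset.sum_mul]
    _ ≤ ∑ c ∈ I, w c * (if ev c then 1 else 0) := by
        apply Finset.sum_le_sum
        intro c hc
        obtain ⟨x, -, rfl⟩ := Finset.mem_image.1 hc
        rw [if_pos (h x).2.1, mul_one]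
        refine le_trans ?_ (h x).2.2.2
        gcongr
        exact_mod_cast h2 _ hc
    _ ≤ _ := ENNReal.sum_le_tsum I

/-! ### the expected weighted number of returns -/

/-- weight of a header: number of vertices over the size of the smallest layer met -/
noncomputable def rW (p : Par) (η : RHead) : ℝ≥0∞ :=
  ((η.N + 1 : ℕ) : ℝ≥0∞) * (2⁻¹ : ℝ≥0∞) ^ (p.H η.ht - p.b * η.N)

theorem pr_Eit_zero {Ω : ℕ → Type} (L : SeqLaw Ω) (t n : ℕ) (τ : ∀ j, Ω j) :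
    L.Eit t n (fun _ => 0) τ = 0 := by
  have := L.Eit_const_mul t n 0 (fun _ => 0) τ
  simpa using this

theorem pr_card_rcand (η : RHead) :
    Fintype.card (RCand p η)
      = Fintype.card (Label p) ^ η.N * ((2 ^ p.s) ^ η.m p * (2 ^ p.s) ^ η.m p) := by
  simp [RCand, Fintype.card_prod, ZMod.card]

theorem pr_ret_header (hp : p.Adm) {cf : Coef p} (hcf : cf.Sep) {ε : ℝ} (L : PLaw p ε)
    (hε0 : 0 ≤ ε) (hε1 : ε ≤ 1) (Lb : ℕ) (hLb : 1000 * Lb ≤ 1001 * p.s)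
    (hcard : Fintype.card (Label p) ≤ 2 ^ Lb) (η : RHead) (τ₀ : Tab p) :
    ∑ c : RCand p η, rW p η *
        L.seq.Eit 0 (p.kap (η.ht + η.N) + 20) (SeqLaw.ind (REv cf η c)) τ₀
      ≤ (2⁻¹ : ℝ≥0∞) ^ (η.μ + η.N + η.ht / 50 + (p.n0 + 2)) := by
  by_cases hv : η.Valid p
  swap
  · apply le_of_eq_of_le _ zero_le
    apply Finset.sum_eq_zero
    intro c _
    have : SeqLaw.ind (Ω := fun t => ∀ κ : Key p t, Equiv.Perm (Cell p t κ)) (REv cf η c)
        = fun _ => 0 := by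
      funext 𝔗
      exact if_neg (fun h => hv (pr_REv_valid h))
    have h0 : L.seq.Eit 0 (p.kap (η.ht + η.N) + 20) (SeqLaw.ind (REv cf η c)) τ₀ = 0 :=
      (congrArg (fun f => L.seq.Eit 0 (p.kap (η.ht + η.N) + 20) f τ₀) this).trans
        (pr_Eit_zero L.seq _ _ _)
    exact (congrArg (fun z => rW p η * z) h0).trans (mul_zero _)
  set R₀ := (η.N / 2 - guardJ p η.N) * (p.s - 2 * p.b) with hR₀
  set H' := p.H η.ht - p.b * η.N with hH'
  have hterm : ∀ c : RCand p η, rW p η *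
      L.seq.Eit 0 (p.kap (η.ht + η.N) + 20) (SeqLaw.ind (REv cf η c)) τ₀
      ≤ rW p η * ((2 : ℝ≥0∞) ^ (3 * η.N) * (2⁻¹ : ℝ≥0∞) ^ R₀) := by
    intro c
    gcongr
    refine le_trans (pr_ret_prob hp hcf L hε0 η c _ (by omega) τ₀) ?_
    rw [← pr_ofReal_pow_div]
    apply ENNReal.ofReal_le_ofReal
    have := pr_exp_two_le η.N 1 hε1
    simp only [mul_one] at this
    gcongr
  refine le_trans (Finset.sum_le_card_nsmul _ _ _ (fun c _ => hterm c)) ?_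
  have e1 : (Finset.univ : Finset (RCand p η)).card •
      (rW p η * ((2 : ℝ≥0∞) ^ (3 * η.N) * (2⁻¹ : ℝ≥0∞) ^ R₀))
      = ((Fintype.card (RCand p η) * (η.N + 1) * 2 ^ (3 * η.N) : ℕ) : ℝ≥0∞)
        * (2⁻¹ : ℝ≥0∞) ^ (H' + R₀) := by
    rw [Finset.card_univ, nsmul_eq_mul, rW, pow_add]
    push_cast
    ring
  rw [e1]
  apply pr_enn_le
  have harith := pr_ret_arith hp η hv Lb hLb
  have h1 : Fintype.card (RCand p η) ≤ 2 ^ (Lb * η.N + 2 * (p.s * η.m p)) := by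
    rw [pr_card_rcand]
    calc Fintype.card (Label p) ^ η.N * ((2 ^ p.s) ^ η.m p * (2 ^ p.s) ^ η.m p)
        ≤ (2 ^ Lb) ^ η.N * ((2 ^ p.s) ^ η.m p * (2 ^ p.s) ^ η.m p) := by gcongr
      _ = 2 ^ (Lb * η.N + 2 * (p.s * η.m p)) := by
          rw [← pow_mul, ← pow_mul, ← pow_add, ← pow_add]; congr 1; ring
  have h2 : η.N + 1 ≤ 2 ^ η.N := Nat.lt_two_pow_self
  calc Fintype.card (RCand p η) * (η.N + 1) * 2 ^ (3 * η.N)
        * 2 ^ (η.μ + η.N + η.ht / 50 + (p.n0 + 2))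
      ≤ 2 ^ (Lb * η.N + 2 * (p.s * η.m p)) * 2 ^ η.N * 2 ^ (3 * η.N)
        * 2 ^ (η.μ + η.N + η.ht / 50 + (p.n0 + 2)) := by gcongr
    _ = 2 ^ (Lb * η.N + 2 * (p.s * η.m p) + η.N + 3 * η.N
          + (η.μ + η.N + η.ht / 50 + (p.n0 + 2))) := by
        rw [← pow_add, ← pow_add, ← pow_add]
    _ ≤ 2 ^ (H' + R₀) := Nat.pow_le_pow_right (by norm_num) (by omega)

/-- `lem:pruning-return-count`, summed over all headers with the weights `rW`. -/
theorem pr_ret_total (hp : p.Adm) {cf : Coef p} (hcf : cf.Sep) {ε : ℝ} (L : PLaw p ε)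
    (hε0 : 0 ≤ ε) (hε1 : ε ≤ 1) (Lb : ℕ) (hLb : 1000 * Lb ≤ 1001 * p.s)
    (hcard : Fintype.card (Label p) ≤ 2 ^ Lb) (τ₀ : Tab p) :
    ∑' x : (Σ η : RHead, RCand p η), L.seq.Eit 0 (p.kap (x.1.ht + x.1.N) + 20)
        (fun 𝔗 => rW p x.1 * SeqLaw.ind (REv cf x.1 x.2) 𝔗) τ₀
      ≤ 800 * (2⁻¹ : ℝ≥0∞) ^ (p.n0 + 2) := by
  rw [ENNReal.tsum_sigma']
  rw [← pr_tsum_rhead]
  apply ENNReal.tsum_le_tsum
  intro η
  rw [tsum_fintype]
  refine le_trans (le_of_eq ?_) (pr_ret_header hp hcf L hε0 hε1 Lb hLb hcard η τ₀)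
  apply Finset.sum_congr rfl
  intro c _
  exact L.seq.Eit_const_mul _ _ _ _ _

theorem pr_inv_two_pow_le {a b : ℕ} (h : b ≤ a) : (2⁻¹ : ℝ≥0∞) ^ a ≤ (2⁻¹ : ℝ≥0∞) ^ b :=
  pow_le_pow_right_of_le_one' (by simp) h

/-- the fraction of a layer removed by the first deletion is bounded by the weighted number of
realised return candidates -/
theorem pr_del1_frac (hp : p.Adm) {cf : Coef p} (hcf : cf.Sep) (𝔗 : Tab p) (sd : Bool) (i : ℕ) :
    (Nat.card {x : Layer p sd i // Del1 cf 𝔗 x.1} : ℝ≥0∞) * (2⁻¹ : ℝ≥0∞) ^ (p.H i)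
      ≤ ∑' x : (Σ η : RHead, RCand p η), rW p x.1 * SeqLaw.ind (REv cf x.1 x.2) 𝔗 := by
  have := lab_finite_layer hp sd i
  have : Fintype {x : Layer p sd i // Del1 cf 𝔗 x.1} := Fintype.ofFinite _
  have key := pr_count (Finset.univ : Finset {x : Layer p sd i // Del1 cf 𝔗 x.1})
    (fun x : (Σ η : RHead, RCand p η) => rW p x.1) (fun x => REv cf x.1 x.2 𝔗)
    (fun x c n => ∃ vx lb, IsMinCohRet cf 𝔗 c.1.μ c.1.N vx lb ∧ RMatch c.1 c.2 vx lb ∧
      vx n = x.1.1 ∧ n ≤ c.1.N)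
    (fun c => c.1.N + 1) ((2⁻¹ : ℝ≥0∞) ^ (p.H i))
    (by
      rintro ⟨⟨x, hxs, hxi⟩, μ, N, vx, lb, hm, n, hn, hx⟩ -
      simp only at hx
      refine ⟨⟨⟨μ, N, (vx 0).sd, (vx 0).ht⟩, (fun k => (lb k.1).1,
        fun j => (vx 0).u ((⟨μ, N, (vx 0).sd, (vx 0).ht⟩ : RHead).K + 1 + 2 * j.1),
        fun j => (vx N).u ((⟨μ, N, (vx 0).sd, (vx 0).ht⟩ : RHead).K + 1 + 2 * j.1))⟩, n, ⟨vx, lb, hm, ⟨rfl, rfl, fun _ => rfl, fun _ => rfl,
          fun _ => rfl⟩, hx, hn⟩, ⟨vx, lb, hm, ⟨rfl, rfl, fun _ => rfl, fun _ => rfl,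
          fun _ => rfl⟩⟩, Nat.lt_succ_of_le hn, ?_⟩
      unfold rW
      simp only
      apply mul_le_mul_right
      apply pr_inv_two_pow_le
      have h1 := (pr_walk_ht_le hm.1.walk 0 n (by omega)).1
      rw [Nat.zero_add, hx, hxi] at h1
      have h2 := pr_H_mono p h1
      rw [pr_H_add] at h2
      have h3 : p.b * n ≤ p.b * N := Nat.mul_le_mul_left _ hn
      omega)
    (by
      rintro x x' c n ⟨vx, lb, hm, m, hx, hn⟩ ⟨vx', lb', hm', m', hx', -⟩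
      apply Subtype.ext
      apply Subtype.ext
      rw [← hx, ← hx']
      exact pr_ret_unique hp hcf hm m hm' m' n hn)
  rw [Finset.card_univ, ← Nat.card_eq_fintype_card] at key
  exact key

end Claimed.Agent.R300.Pr
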