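/-
Row 300 / S0553 (INJ paper): FINAL ADAPTER of Sections 1-3 to `InjGraphStmt` (owner: helper59).
This file: the model (`igrX0`, `igrOld`) and package IGR-A (structure, cardinalities, degrees).
The `sorry`s are replaced IN PLACE by the owner of the package (table subtask, target row300,
name IGR-A).  Statements are frozen: ask helper59 before changing one.

Dictionary:  `InjGr` vertex = `Lab.Vtx p`;  edge = triple `(a, b, l)` with `∃ h, IsEdge0 cf 𝔗 h a b l`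
(`a` = A endpoint = `src`, `b` = B endpoint = `tgt`);  label = `Lab.Label p`;  type = `Label.ty`.
The dart `(e, false)` runs from `src e` to `tgt e`, i.e. it is the POSITIVE step
`Step cf 𝔗 a b (l, true)`;  the dart `(e, true)` is `Step cf 𝔗 b a (l, false)`.
Tools: `lab_folded`, `lab_edge_determ`, `lab_edge_from_A`, `lab_edge_from_B`, `lab_card_layer`,
`lab_finite_layer`, `Pr.pr_card_label`, `IsEdge0.ha/hb/hrho/edn/eup/eeq`.
-/
import Claimed.Agent.R300.InjGraph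
import Claimed.Agent.R300.PrRetSum

set_option autoImplicit false

namespace Claimed.Agent.R300.Igr

open Claimed.Agent.R300.Lab Claimed.Agent.R300.Pr

variable {p : Par}

/-- the edges of the pre-deletion graph -/
def IgrE (cf : Coef p) (𝔗 : Tab p) : Type :=
  {x : Vtx p × Vtx p × Label p // ∃ h, IsEdge0 cf 𝔗 h x.1 x.2.1 x.2.2}

/-- the pre-deletion graph -/
def igrX0 (cf : Coef p) (𝔗 : Tab p) : InjGr p where
  V := Vtx p
  E := IgrE cf 𝔗
  Lb := Label p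
  sd := fun v => v.sd
  ht := fun v => v.ht
  src := fun e => e.1.1
  tgt := fun e => e.1.2.1
  lab := fun e => e.1.2.2
  ty := fun l => l.ty

/-- the pre-deletion graph with the survivors `S` -/
def igrOld (cf : Coef p) (𝔗 : Tab p) (S : Vtx p → Prop) : InjOld p := ⟨igrX0 cf 𝔗, S⟩

/-! ## IGR-A -/

theorem igr_aHt_inj (τ : Fin p.T) {h h' : ℕ} (e : p.aHt τ h = p.aHt τ h') : h = h' := by
  unfold Par.aHt at e
  split_ifs at e <;> omega

theorem igr_bHt_inj (τ : Fin p.T) {h h' : ℕ} (e : p.bHt τ h = p.bHt τ h') : h = h' := by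
  unfold Par.bHt at e
  split_ifs at e <;> omega

/-- an edge at an A vertex is determined by type, serial and extra value -/
theorem igr_A_unique (hp : p.Adm) (cf : Coef p) (hcf : cf.Sep) (𝔗 : Tab p) {h : ℕ} {a b b' : Vtx p}
    {l l' : Label p} (E : IsEdge0 cf 𝔗 h a b l) (E' : IsEdge0 cf 𝔗 h a b' l') (e1 : l.ty = l'.ty)
    (e2 : l.j = l'.j) (e3 : l.e = l'.e) : b = b' ∧ l = l' := by
  obtain ⟨ty, rho, j, e, h0⟩ := l
  obtain ⟨ty', rho', j', e', h0'⟩ := l'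
  simp only at e1 e2 e3
  subst e1 e2 e3
  have h5 : rho = rho' := Fin.ext (E.hrho.trans E'.hrho.symm)
  subst h5
  have hu := lab_edge_from_A hp cf hcf 𝔗 ty h rho E.hrho a E.sa E.ha j e E.edn E.eeq
  have := hu.unique (y₁ := (b, h0)) (y₂ := (b', h0')) E E'
  simp only [Prod.mk.injEq] at this
  obtain ⟨rfl, rfl⟩ := this
  exact ⟨rfl, rfl⟩

theorem igr_A_exists (hp : p.Adm) (cf : Coef p) (hcf : cf.Sep) (𝔗 : Tab p) (τ : Fin p.T) (h : ℕ)
    (a : Vtx p) (hsa : a.sd = false) (hha : a.ht = p.aHt τ h) (j : Fin p.d) (e : BV p.b)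
    (hdn : p.off τ = Off.dn → xbits τ h a = e) (heq : p.off τ = Off.eq → e = 0) :
    ∃ (b : Vtx p) (l : Label p), IsEdge0 cf 𝔗 h a b l ∧ l.ty = τ ∧ l.j = j ∧ l.e = e := by
  obtain ⟨bh, E, -⟩ := lab_edge_from_A hp cf hcf 𝔗 τ h ⟨h % p.M, Nat.mod_lt _ (lab_M_pos hp)⟩ rfl a
    hsa hha j e hdn heq
  exact ⟨bh.1, _, E, rfl, rfl, rfl⟩

/-- an edge at a B vertex is determined by type, serial, extra value and bucket -/
theorem igr_B_unique (hp : p.Adm) (cf : Coef p) (hcf : cf.Sep) (𝔗 : Tab p) {h : ℕ} {a a' b : Vtx p}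
    {l l' : Label p} (E : IsEdge0 cf 𝔗 h a b l) (E' : IsEdge0 cf 𝔗 h a' b l') (e1 : l.ty = l'.ty)
    (e2 : l.j = l'.j) (e3 : l.e = l'.e) (e4 : l.buck = l'.buck) : a = a' ∧ l = l' := by
  have hu := lab_edge_from_B hp cf hcf 𝔗 l.ty h b E.sb E.hb l.j l.buck l.e E.eup E.eeq
  have := hu.unique (y₁ := (a, l)) (y₂ := (a', l')) ⟨E, rfl, rfl, rfl, rfl⟩
    ⟨E', e1.symm, e2.symm, e3.symm, e4.symm⟩
  simp only [Prod.mk.injEq] at this
  exact this

theorem igr_B_exists (hp : p.Adm) (cf : Coef p) (hcf : cf.Sep) (𝔗 : Tab p) (τ : Fin p.T) (h : ℕ)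
    (b : Vtx p) (hsb : b.sd = true) (hhb : b.ht = p.bHt τ h) (j : Fin p.d)
    (c : BV (2 * p.r - p.s)) (e : BV p.b)
    (hup : p.off τ = Off.up → xbits τ h b = e) (heq : p.off τ = Off.eq → e = 0) :
    ∃ (a : Vtx p) (l : Label p), IsEdge0 cf 𝔗 h a b l ∧ l.ty = τ ∧ l.j = j ∧ l.e = e ∧
      l.buck = c := by
  obtain ⟨al, E, -⟩ := lab_edge_from_B hp cf hcf 𝔗 τ h b hsb hhb j c e hup heq
  exact ⟨al.1, al.2, E⟩

/-- number of admissible extra values -/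
theorem igr_card_allow {n : ℕ} (o o' o'' : Off) (h1 : o' ≠ Off.eq) (h2 : o'' ≠ Off.eq) (h3 : o' ≠ o'')
    (x : BV n) :
    Nat.card {e : BV n // (o = o' → x = e) ∧ (o = Off.eq → e = 0)}
      = 2 ^ (if o = o'' then n else 0) := by
  by_cases ha : o = o'
  · subst ha
    rw [if_neg h3, pow_zero, Nat.card_eq_one_iff_unique]
    refine ⟨⟨?_⟩, ⟨⟨x, fun _ => rfl, fun h => absurd h h1⟩⟩⟩
    rintro ⟨e, he, -⟩ ⟨e', he', -⟩
    exact Subtype.ext ((he rfl).symm.trans (he' rfl))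
  · by_cases hb : o = Off.eq
    · subst hb
      rw [if_neg (Ne.symm h2), pow_zero, Nat.card_eq_one_iff_unique]
      refine ⟨⟨?_⟩, ⟨⟨0, fun h => absurd h ha, fun _ => rfl⟩⟩⟩
      rintro ⟨e, -, he⟩ ⟨e', -, he'⟩
      exact Subtype.ext ((he rfl).trans (he' rfl).symm)
    · have hc : o = o'' := by
        cases o <;> cases o' <;> cases o'' <;> simp_all
      rw [if_pos hc, ← lab_card_BV n]
      exact Nat.card_congr (Equiv.subtypeUnivEquiv fun e =>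
        ⟨fun h => absurd h ha, fun h => absurd h hb⟩)

theorem igr_D_eq (hp : p.Adm) : p.d * 2 ^ (2 * p.r - p.s) = p.D := by
  obtain ⟨c, hc⟩ := hp.h20000
  unfold Par.d Par.D Par.ld Par.lD Par.r
  rw [← pow_add, hc]
  congr 1
  omega

theorem igr_str (hp : p.Adm) (cf : Coef p) (hcf : cf.Sep) (𝔗 : Tab p) : (igrX0 cf 𝔗).Str where
  sd_src := fun e => by
    obtain ⟨h, E⟩ := e.2
    exact E.sa
  sd_tgt := fun e => by
    obtain ⟨h, E⟩ := e.2
    exact E.sb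
  ht_edge := fun e => by
    obtain ⟨h, E⟩ := e.2
    change ((e.1.2.1.ht : ℕ) : ℤ) = (e.1.1.ht : ℕ) + injOff (p.off e.1.2.2.ty)
    rw [E.ha, E.hb]
    unfold Par.aHt Par.bHt
    cases hο : p.off e.1.2.2.ty <;> simp [injOff]
  fold_src := fun e e' h1 h2 => by
    obtain ⟨⟨a, b, l⟩, hE⟩ := e
    obtain ⟨⟨a', b', l'⟩, hE'⟩ := e'
    change a = a' at h1
    change l = l' at h2
    subst h1 h2
    have : b = b' := lab_folded hp cf hcf 𝔗 a b b' (l, true) (by simpa [Step] using hE)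
      (by simpa [Step] using hE')
    subst this
    rfl
  fold_tgt := fun e e' h1 h2 => by
    obtain ⟨⟨a, b, l⟩, hE⟩ := e
    obtain ⟨⟨a', b', l'⟩, hE'⟩ := e'
    change b = b' at h1
    change l = l' at h2
    subst h1 h2
    have : a = a' := lab_folded hp cf hcf 𝔗 b a a' (l, false) (by simpa [Step] using hE)
      (by simpa [Step] using hE')
    subst this
    rfl
  fin_lb := (inferInstance : Finite (Label p))
  fin_layer := fun s i => lab_finite_layer hp s i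

theorem igr_cardB (hp : p.Adm) (cf : Coef p) (𝔗 : Tab p) (i : ℕ) :
    Nat.card {v : (igrX0 cf 𝔗).V // (igrX0 cf 𝔗).sd v = true ∧ (igrX0 cf 𝔗).ht v = i}
      = 2 ^ p.H i :=
  (lab_card_layer hp i).1

theorem igr_cardA (hp : p.Adm) (cf : Coef p) (𝔗 : Tab p) (i : ℕ) :
    Nat.card {v : (igrX0 cf 𝔗).V // (igrX0 cf 𝔗).sd v = false ∧ (igrX0 cf 𝔗).ht v = i}
      = 2 ^ (p.H i + 2 * p.r - p.s) :=
  (lab_card_layer hp i).2

/-- exact A-degrees: the slots at `a` of type `τ` are `(j, e)`, `e` free only for `up` -/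
theorem igr_degA (hp : p.Adm) (cf : Coef p) (hcf : cf.Sep) (𝔗 : Tab p) (τ : Fin p.T)
    (a : (igrX0 cf 𝔗).V) (hsd : (igrX0 cf 𝔗).sd a = false)
    (h0 : 0 ≤ ((igrX0 cf 𝔗).ht a : ℤ) + injOff (p.off τ)) :
    Nat.card {e : (igrX0 cf 𝔗).E // (igrX0 cf 𝔗).src e = a ∧ (igrX0 cf 𝔗).ety e = τ}
      = InjGr.dA p τ := by
  change Vtx p at a
  change a.sd = false at hsd
  change 0 ≤ ((a.ht : ℕ) : ℤ) + injOff (p.off τ) at h0
  change Nat.card {e : IgrE cf 𝔗 // e.1.1 = a ∧ e.1.2.2.ty = τ} = _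
  -- the common height
  obtain ⟨h, hh⟩ : ∃ h, a.ht = p.aHt τ h := by
    unfold Par.aHt
    by_cases ho : p.off τ = Off.dn
    · rw [ho] at h0
      simp only [injOff] at h0
      exact ⟨a.ht - 1, by rw [if_pos ho]; omega⟩
    · exact ⟨a.ht, by rw [if_neg ho]⟩
  have hE : ∀ e : {e : IgrE cf 𝔗 // e.1.1 = a ∧ e.1.2.2.ty = τ},
      IsEdge0 cf 𝔗 h a e.1.1.2.1 e.1.1.2.2 := by
    rintro ⟨⟨⟨a', b, l⟩, h', E⟩, h1, h2⟩
    simp only at h1 h2 E ⊢
    subst h1 h2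
    have : h' = h := igr_aHt_inj l.ty (E.ha.symm.trans hh)
    rw [← this]
    exact E
  have key : ∀ (l : Label p) (b : Vtx p), IsEdge0 cf 𝔗 h a b l → l.ty = τ →
      (p.off τ = Off.dn → xbits τ h a = l.e) ∧ (p.off τ = Off.eq → l.e = 0) := by
    intro l b E h2
    subst h2
    exact ⟨E.edn, E.eeq⟩
  let f : {e : IgrE cf 𝔗 // e.1.1 = a ∧ e.1.2.2.ty = τ} →
      Fin p.d × {e : BV p.b // (p.off τ = Off.dn → xbits τ h a = e) ∧ (p.off τ = Off.eq → e = 0)} :=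
    fun e => (e.1.1.2.2.j, ⟨e.1.1.2.2.e, key _ _ (hE e) e.2.2⟩)
  have hf : Function.Bijective f := by
    constructor
    · intro e e' hee
      have E := hE e
      have E' := hE e'
      obtain ⟨⟨⟨a1, b, l⟩, hx⟩, h1, h2⟩ := e
      obtain ⟨⟨⟨a2, b', l'⟩, hx'⟩, h1', h2'⟩ := e'
      simp only at h1 h2 h1' h2' E E'
      simp only [f, Prod.mk.injEq, Subtype.mk.injEq] at hee
      subst h1 h1'
      obtain ⟨rfl, rfl⟩ := igr_A_unique hp cf hcf 𝔗 E E' (h2.trans h2'.symm) hee.1 hee.2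
      rfl
    · rintro ⟨j, e, hdn, heq⟩
      obtain ⟨b, l, E, e1, e2, e3⟩ := igr_A_exists hp cf hcf 𝔗 τ h a hsd hh j e hdn heq
      refine ⟨⟨⟨(a, b, l), h, E⟩, rfl, e1⟩, ?_⟩
      simp only [f, Prod.mk.injEq, Subtype.mk.injEq]
      exact ⟨e2, e3⟩
  rw [Nat.card_congr (Equiv.ofBijective f hf), Nat.card_prod,
    igr_card_allow (p.off τ) Off.dn Off.up (by simp) (by simp) (by simp)]
  simp [InjGr.dA]

/-- exact B-degrees: the slots at `b` of type `τ` are `(j, c, e)`, `e` free only for `dn` -/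
theorem igr_degB (hp : p.Adm) (cf : Coef p) (hcf : cf.Sep) (𝔗 : Tab p) (τ : Fin p.T)
    (b : (igrX0 cf 𝔗).V) (hsd : (igrX0 cf 𝔗).sd b = true)
    (h0 : 0 ≤ ((igrX0 cf 𝔗).ht b : ℤ) - injOff (p.off τ)) :
    Nat.card {e : (igrX0 cf 𝔗).E // (igrX0 cf 𝔗).tgt e = b ∧ (igrX0 cf 𝔗).ety e = τ}
      = InjGr.dB p τ := by
  change Vtx p at b
  change b.sd = true at hsd
  change 0 ≤ ((b.ht : ℕ) : ℤ) - injOff (p.off τ) at h0
  change Nat.card {e : IgrE cf 𝔗 // e.1.2.1 = b ∧ e.1.2.2.ty = τ} = _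
  obtain ⟨h, hh⟩ : ∃ h, b.ht = p.bHt τ h := by
    unfold Par.bHt
    by_cases ho : p.off τ = Off.up
    · rw [ho] at h0
      simp only [injOff] at h0
      exact ⟨b.ht - 1, by rw [if_pos ho]; omega⟩
    · exact ⟨b.ht, by rw [if_neg ho]⟩
  have hE : ∀ e : {e : IgrE cf 𝔗 // e.1.2.1 = b ∧ e.1.2.2.ty = τ},
      IsEdge0 cf 𝔗 h e.1.1.1 b e.1.1.2.2 := by
    rintro ⟨⟨⟨a, b', l⟩, h', E⟩, h1, h2⟩
    simp only at h1 h2 E ⊢
    subst h1 h2
    have : h' = h := igr_bHt_inj l.ty (E.hb.symm.trans hh)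
    rw [← this]
    exact E
  have key : ∀ (l : Label p) (a : Vtx p), IsEdge0 cf 𝔗 h a b l → l.ty = τ →
      (p.off τ = Off.up → xbits τ h b = l.e) ∧ (p.off τ = Off.eq → l.e = 0) := by
    intro l a E h2
    subst h2
    exact ⟨E.eup, E.eeq⟩
  let f : {e : IgrE cf 𝔗 // e.1.2.1 = b ∧ e.1.2.2.ty = τ} →
      (Fin p.d × BV (2 * p.r - p.s)) ×
        {e : BV p.b // (p.off τ = Off.up → xbits τ h b = e) ∧ (p.off τ = Off.eq → e = 0)} :=
    fun e => ((e.1.1.2.2.j, e.1.1.2.2.buck), ⟨e.1.1.2.2.e, key _ _ (hE e) e.2.2⟩)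
  have hf : Function.Bijective f := by
    constructor
    · intro e e' hee
      have E := hE e
      have E' := hE e'
      obtain ⟨⟨⟨a, b1, l⟩, hx⟩, h1, h2⟩ := e
      obtain ⟨⟨⟨a', b2, l'⟩, hx'⟩, h1', h2'⟩ := e'
      simp only at h1 h2 h1' h2' E E'
      simp only [f, Prod.mk.injEq, Subtype.mk.injEq] at hee
      subst h1 h1'
      obtain ⟨rfl, rfl⟩ := igr_B_unique hp cf hcf 𝔗 E E' (h2.trans h2'.symm) hee.1.1 hee.2 hee.1.2
      rfl
    · rintro ⟨⟨j, c⟩, e, hup, heq⟩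
      obtain ⟨a, l, E, e1, e2, e3, e4⟩ := igr_B_exists hp cf hcf 𝔗 τ h b hsd hh j c e hup heq
      refine ⟨⟨⟨(a, b, l), h, E⟩, rfl, e1⟩, ?_⟩
      simp only [f, Prod.mk.injEq, Subtype.mk.injEq]
      exact ⟨⟨e2, e4⟩, e3⟩
  rw [Nat.card_congr (Equiv.ofBijective f hf), Nat.card_prod, Nat.card_prod, lab_card_BV,
    igr_card_allow (p.off τ) Off.up Off.dn (by simp) (by simp) (by simp)]
  simp [InjGr.dB, igr_D_eq hp]

theorem igr_card_lb (cf : Coef p) (𝔗 : Tab p) :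
    Nat.card (igrX0 cf 𝔗).Lb = p.T * p.M * p.d * 2 ^ p.b * 2 ^ p.r := by
  change Nat.card (Label p) = _
  rw [Nat.card_eq_fintype_card, pr_card_label]
  ring

/-- number of edges of one slice at an A vertex (used by IGR-B) -/
theorem igr_degA_slice (hp : p.Adm) (cf : Coef p) (hcf : cf.Sep) (𝔗 : Tab p) (τ : Fin p.T) (h : ℕ)
    (e : BV p.b) (a : Vtx p) (hsa : a.sd = false) (hha : a.ht = p.aHt τ h)
    (hdn : p.off τ = Off.dn → xbits τ h a = e) (heq : p.off τ = Off.eq → e = 0) :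
    Nat.card {x : Vtx p × Label p // IsEdge0 cf 𝔗 h a x.1 x.2 ∧ x.2.ty = τ ∧ x.2.e = e} = p.d := by
  let f : {x : Vtx p × Label p // IsEdge0 cf 𝔗 h a x.1 x.2 ∧ x.2.ty = τ ∧ x.2.e = e} → Fin p.d :=
    fun x => x.1.2.j
  have hf : Function.Bijective f := by
    constructor
    · rintro ⟨⟨b, l⟩, E, h1, h2⟩ ⟨⟨b', l'⟩, E', h1', h2'⟩ hee
      simp only at E h1 h2 E' h1' h2'
      simp only [f] at hee
      obtain ⟨rfl, rfl⟩ := igr_A_unique hp cf hcf 𝔗 E E' (h1.trans h1'.symm) hee (h2.trans h2'.symm)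
      rfl
    · intro j
      obtain ⟨b, l, E, e1, e2, e3⟩ := igr_A_exists hp cf hcf 𝔗 τ h a hsa hha j e hdn heq
      exact ⟨⟨(b, l), E, e1, e3⟩, e2⟩
  rw [Nat.card_congr (Equiv.ofBijective f hf)]
  simp

/-- number of edges of one slice at a B vertex (used by IGR-B) -/
theorem igr_degB_slice (hp : p.Adm) (cf : Coef p) (hcf : cf.Sep) (𝔗 : Tab p) (τ : Fin p.T) (h : ℕ)
    (e : BV p.b) (b : Vtx p) (hsb : b.sd = true) (hhb : b.ht = p.bHt τ h)
    (hup : p.off τ = Off.up → xbits τ h b = e) (heq : p.off τ = Off.eq → e = 0) :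
    Nat.card {x : Vtx p × Label p // IsEdge0 cf 𝔗 h x.1 b x.2 ∧ x.2.ty = τ ∧ x.2.e = e} = p.D := by
  let f : {x : Vtx p × Label p // IsEdge0 cf 𝔗 h x.1 b x.2 ∧ x.2.ty = τ ∧ x.2.e = e} →
      Fin p.d × BV (2 * p.r - p.s) := fun x => (x.1.2.j, x.1.2.buck)
  have hf : Function.Bijective f := by
    constructor
    · rintro ⟨⟨a, l⟩, E, h1, h2⟩ ⟨⟨a', l'⟩, E', h1', h2'⟩ hee
      simp only at E h1 h2 E' h1' h2'
      simp only [f, Prod.mk.injEq] at hee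
      obtain ⟨rfl, rfl⟩ := igr_B_unique hp cf hcf 𝔗 E E' (h1.trans h1'.symm) hee.1
        (h2.trans h2'.symm) hee.2
      rfl
    · rintro ⟨j, c⟩
      obtain ⟨a, l, E, e1, e2, e3, e4⟩ := igr_B_exists hp cf hcf 𝔗 τ h b hsb hhb j c e hup heq
      refine ⟨⟨(a, l), E, e1, e3⟩, ?_⟩
      simp only [f, Prod.mk.injEq]
      exact ⟨e2, e4⟩
  rw [Nat.card_congr (Equiv.ofBijective f hf), Nat.card_prod, lab_card_BV, ← igr_D_eq hp]
  simp

end Claimed.Agent.R300.Igr
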