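/-
Row 300 / S0553 (INJ paper): final adapter of Sections 1-3, package IGR-B (owner of the adapter:
helper59): the centred gap of the UNSLICED blocks from the gap of the slices.
The `sorry` is replaced IN PLACE by the owner of the package (table subtask, target row300, IGR-B).

PROOF.  Fix `τ`, `k`, `f` (supported on `B_k`, sum zero).  Edges of type `τ` with B end at height `k`
have a well defined common height `h` (`k = p.bHt τ h`; if `off τ = up` and `k = 0` there is no edge and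
the left side vanishes).  The label of an edge has an extra value `e = l.e`.
* `eq`:  all edges have `e = 0`: the block IS the slice `e = 0`; `dA dB = d D`.
* `dn`:  (`A_(h+1)`, `B_h`) the A vertices are partitioned by `e = xbits τ h a` and all edges at `a` have
  `l.e = e` (`IsEdge0.edn`): `∑_a (M f a)^2 = ∑_e ∑_(a in slice e) (M_e f a)^2 ≤ 2^b ρ² d D ‖f‖²`,
  and `dA dB = d (D 2^b)`.  (`SliceGap` is applied to the same `f` for every `e`.)
* `up`:  (`A_h`, `B_(h+1)`) the B vertices are partitioned by `e = xbits τ h b` (`IsEdge0.eup`).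
  `f = ∑_e f_e`, `f_e = g_e + c_e 1_(slice e)`, `c_e` = mean of `f` over the slice `e`.  All slices have the
  same cardinality (double counting with `igr_degA_slice`, `igr_degB_slice`:
  `|slice e| D = |A_h| d`), so `∑_e c_e = 0`; `M_e 1_(slice e) = d` on `A_h` (`igr_degA_slice`).  Hence
  `M f = ∑_e M_e g_e`, `(∑_e x_e)^2 ≤ 2^b ∑_e x_e^2`, `SliceGap` for `g_e`, `‖g_e‖ ≤ ‖f_e‖`,
  `∑_e ‖f_e‖² = ‖f‖²`, `dA dB = (d 2^b) D`.
All sums are finite (`lab_finite_layer`, finitely many labels): first pass from `finsum` to `Finset`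
sums over `Fintype` instances of the layers.
-/
import Claimed.Agent.R300.IgrModel

set_option autoImplicit false
set_option linter.unusedVariables false

namespace Claimed.Agent.R300.Igr

open Claimed.Agent.R300.Lab Claimed.Agent.R300.Pr

variable {p : Par}

theorem igr_finsum_kernel {V L : Type*} [Fintype L] (Q : V → L → Prop) [∀ b l, Decidable (Q b l)]
    (sB : Finset V) (f : V → ℝ) (hf : ∀ v, f v ≠ 0 → v ∈ sB) :
    ∑ᶠ x : {x : V × L // Q x.1 x.2}, f x.1.1
      = ∑ b ∈ sB, (∑ l, if Q b l then (1 : ℝ) else 0) * f b := by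
  classical
  rw [finsum_subtype_eq_finsum_cond (f := fun x : V × L => f x.1) (fun x => Q x.1 x.2),
    finsum_cond_eq_sum_of_cond_iff (fun x : V × L => f x.1) (p := fun x => Q x.1 x.2)
      (t := (sB ×ˢ Finset.univ).filter (fun x => Q x.1 x.2))]
  · rw [Finset.sum_filter, Finset.sum_product]
    refine Finset.sum_congr rfl fun b _ => ?_
    rw [Finset.sum_mul]
    refine Finset.sum_congr rfl fun l _ => ?_
    split_ifs <;> simp
  · intro x hx
    simp [hf x.1 hx]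

theorem igr_card_kernel {V L : Type*} [Fintype L] (Q : V → L → Prop) [∀ b l, Decidable (Q b l)]
    (sB : Finset V) (hQ : ∀ b l, Q b l → b ∈ sB) :
    (Nat.card {x : V × L // Q x.1 x.2} : ℝ) = ∑ b ∈ sB, ∑ l, if Q b l then (1 : ℝ) else 0 := by
  classical
  rw [Nat.subtype_card ((sB ×ˢ Finset.univ).filter (fun x : V × L => Q x.1 x.2)) (by
    intro x
    simp only [Finset.mem_filter, Finset.mem_product, Finset.mem_univ, and_true]
    exact ⟨fun h => h.2, fun h => ⟨hQ x.1 x.2 h, h⟩⟩)]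
  rw [Finset.card_filter, Nat.cast_sum, Finset.sum_product]
  simp

/-- a layer as a finset -/
noncomputable def igrLayer (hp : p.Adm) (sd : Bool) (i : ℕ) : Finset (Vtx p) :=
  (Set.finite_coe_iff.mp (lab_finite_layer hp sd i) :
    {v : Vtx p | v.sd = sd ∧ v.ht = i}.Finite).toFinset

theorem mem_igrLayer (hp : p.Adm) (sd : Bool) (i : ℕ) (v : Vtx p) :
    v ∈ igrLayer hp sd i ↔ v.sd = sd ∧ v.ht = i := by
  unfold igrLayer
  rw [Set.Finite.mem_toFinset]
  rfl

/-- the edges of type `τ` at `a`, as pairs (other end, label) -/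
def igrEdgeEquiv (cf : Coef p) (𝔗 : Tab p) (τ : Fin p.T) (a : Vtx p) :
    {e : (igrX0 cf 𝔗).E // (igrX0 cf 𝔗).src e = a ∧ (igrX0 cf 𝔗).ety e = τ} ≃
      {x : Vtx p × Label p // (∃ h, IsEdge0 cf 𝔗 h a x.1 x.2) ∧ x.2.ty = τ} where
  toFun e := ⟨(e.1.1.2.1, e.1.1.2.2), by
    obtain ⟨h, hh⟩ := e.1.2
    have h1 : e.1.1.1 = a := e.2.1
    rw [h1] at hh
    exact ⟨⟨h, hh⟩, e.2.2⟩⟩
  invFun x := ⟨⟨(a, x.1.1, x.1.2), x.2.1⟩, rfl, x.2.2⟩
  left_inv e := by
    have h1 : e.1.1.1 = a := e.2.1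
    apply Subtype.ext
    apply Subtype.ext
    exact Prod.ext h1.symm rfl
  right_inv x := rfl

theorem igr_tot_kernel (cf : Coef p) (𝔗 : Tab p) (τ : Fin p.T) (a : Vtx p) (sB : Finset (Vtx p))
    (f : Vtx p → ℝ) (hf : ∀ v, f v ≠ 0 → v ∈ sB)
    [∀ (b : Vtx p) (l : Label p), Decidable ((∃ h, IsEdge0 cf 𝔗 h a b l) ∧ l.ty = τ)] :
    ∑ᶠ e : {e : (igrX0 cf 𝔗).E // (igrX0 cf 𝔗).src e = a ∧ (igrX0 cf 𝔗).ety e = τ},
        f ((igrX0 cf 𝔗).tgt e.1)
      = ∑ b ∈ sB, (∑ l : Label p,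
          if ((∃ h, IsEdge0 cf 𝔗 h a b l) ∧ l.ty = τ) then (1 : ℝ) else 0) * f b := by
  rw [← igr_finsum_kernel (fun (b : Vtx p) (l : Label p) => (∃ h, IsEdge0 cf 𝔗 h a b l) ∧ l.ty = τ)
    sB f hf, ← finsum_comp_equiv (igrEdgeEquiv cf 𝔗 τ a)]
  rfl


open Classical in
/-- the kernel of the slice `(τ, h, e)`: number of labels of edges from `a` to `b` -/
noncomputable def igrN (cf : Coef p) (𝔗 : Tab p) (τ : Fin p.T) (h : ℕ) (e : BV p.b)
    (a b : Vtx p) : ℝ :=
  ∑ l : Label p, if (IsEdge0 cf 𝔗 h a b l ∧ l.ty = τ ∧ l.e = e) then (1 : ℝ) else 0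

theorem igrN_exists {cf : Coef p} {𝔗 : Tab p} {τ : Fin p.T} {h : ℕ} {e : BV p.b} {a b : Vtx p}
    (hN : igrN cf 𝔗 τ h e a b ≠ 0) : ∃ l, IsEdge0 cf 𝔗 h a b l ∧ l.ty = τ ∧ l.e = e := by
  classical
  by_contra hcon
  push Not at hcon
  apply hN
  unfold igrN
  refine Finset.sum_eq_zero fun l _ => ?_
  rw [if_neg]
  rintro ⟨h1, h2, h3⟩
  exact hcon l h1 h2 h3

theorem igr_slice_kernel (cf : Coef p) (𝔗 : Tab p) (τ : Fin p.T) (h : ℕ) (e : BV p.b) (a : Vtx p)
    (sB : Finset (Vtx p)) (g : Vtx p → ℝ) (hg : ∀ v, g v ≠ 0 → v ∈ sB) :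
    ∑ᶠ x : {x : Vtx p × Label p // IsEdge0 cf 𝔗 h a x.1 x.2 ∧ x.2.ty = τ ∧ x.2.e = e}, g x.1.1
      = ∑ b ∈ sB, igrN cf 𝔗 τ h e a b * g b := by
  classical
  exact igr_finsum_kernel
    (fun (b : Vtx p) (l : Label p) => IsEdge0 cf 𝔗 h a b l ∧ l.ty = τ ∧ l.e = e) sB g hg

theorem igr_slice_gap_kernel (hp : p.Adm) {cf : Coef p} {𝔗 : Tab p} {ρ : ℝ}
    (hg : SliceGap cf 𝔗 ρ) (τ : Fin p.T) (h : ℕ) (e : BV p.b) (g : Vtx p → ℝ)
    (hgs : ∀ v, g v ≠ 0 → v ∈ igrLayer hp true (p.bHt τ h) ∧ (p.off τ = Off.up → xbits τ h v = e))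
    (h0 : ∑ b ∈ igrLayer hp true (p.bHt τ h), g b = 0) :
    ∑ a ∈ igrLayer hp false (p.aHt τ h),
        (∑ b ∈ igrLayer hp true (p.bHt τ h), igrN cf 𝔗 τ h e a b * g b) ^ 2
      ≤ ρ ^ 2 * ((p.d : ℝ) * p.D) * ∑ b ∈ igrLayer hp true (p.bHt τ h), g b ^ 2 := by
  have hsupp : ∀ v, g v ≠ 0 → v ∈ igrLayer hp true (p.bHt τ h) := fun v hv => (hgs v hv).1
  have h1 := hg τ h e g (fun v hv => by
    obtain ⟨h2, h3⟩ := hgs v hv
    rw [mem_igrLayer] at h2
    exact ⟨h2.1, h2.2, h3⟩) (by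
    rw [finsum_eq_sum_of_support_subset g (s := igrLayer hp true (p.bHt τ h))
      (fun v hv => hsupp v hv), h0])
  rw [finsum_eq_sum_of_support_subset (fun v => g v ^ 2) (s := igrLayer hp true (p.bHt τ h))
    (fun v hv => hsupp v (fun h0 => hv (by simp [h0])))] at h1
  simp_rw [igr_slice_kernel cf 𝔗 τ h e _ (igrLayer hp true (p.bHt τ h)) g hsupp] at h1
  rw [finsum_eq_sum_of_support_subset _ (s := igrLayer hp false (p.aHt τ h))] at h1
  · exact h1
  · intro a ha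
    by_contra hcon
    apply ha
    have : ∑ b ∈ igrLayer hp true (p.bHt τ h), igrN cf 𝔗 τ h e a b * g b = 0 := by
      refine Finset.sum_eq_zero fun b _ => ?_
      have : igrN cf 𝔗 τ h e a b = 0 := by
        by_contra hN
        obtain ⟨l, hl, hty, -⟩ := igrN_exists hN
        apply hcon
        rw [Finset.mem_coe, mem_igrLayer]
        exact ⟨hl.sa, hty ▸ hl.ha⟩
      rw [this, zero_mul]
    simp [this]

theorem igr_tot_eq_sum (cf : Coef p) (𝔗 : Tab p) (τ : Fin p.T) (h : ℕ) (a b : Vtx p)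
    (hb : b.ht = p.bHt τ h)
    [∀ (l : Label p), Decidable ((∃ h, IsEdge0 cf 𝔗 h a b l) ∧ l.ty = τ)] :
    (∑ l : Label p, if ((∃ h, IsEdge0 cf 𝔗 h a b l) ∧ l.ty = τ) then (1 : ℝ) else 0)
      = ∑ e, igrN cf 𝔗 τ h e a b := by
  classical
  unfold igrN
  rw [Finset.sum_comm]
  refine Finset.sum_congr rfl fun l _ => ?_
  rw [Finset.sum_eq_single l.e]
  · refine if_congr ?_ rfl rfl
    constructor
    · rintro ⟨⟨h', hh'⟩, hty⟩
      have : h' = h := by
        apply igr_bHt_inj τ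
        rw [← hb, ← hty]
        exact hh'.hb.symm
      exact ⟨this ▸ hh', hty, rfl⟩
    · rintro ⟨h1, h2, -⟩
      exact ⟨⟨h, h1⟩, h2⟩
  · intro e _ he
    rw [if_neg]
    rintro ⟨-, -, h3⟩
    exact he h3.symm
  · intro hh
    exact absurd (Finset.mem_univ _) hh

theorem igr_abs_dn {A B I : Type*} [Fintype I] [DecidableEq I] (sA : Finset A) (sB : Finset B)
    (N : I → A → B → ℝ) (ε : A → I) (hN : ∀ e a b, ε a ≠ e → N e a b = 0) (f : B → ℝ) (c : ℝ)
    (hgap : ∀ e, ∑ a ∈ sA, (∑ b ∈ sB, N e a b * f b) ^ 2 ≤ c * ∑ b ∈ sB, f b ^ 2) :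
    ∑ a ∈ sA, (∑ b ∈ sB, (∑ e, N e a b) * f b) ^ 2
      ≤ (Fintype.card I : ℝ) * c * ∑ b ∈ sB, f b ^ 2 := by
  have h1 : ∀ a, ∑ b ∈ sB, (∑ e, N e a b) * f b = ∑ b ∈ sB, N (ε a) a b * f b := by
    intro a
    refine Finset.sum_congr rfl fun b _ => ?_
    rw [Finset.sum_eq_single (ε a) (fun e _ he => hN e a b (Ne.symm he))
      (fun h => absurd (Finset.mem_univ _) h)]
  calc ∑ a ∈ sA, (∑ b ∈ sB, (∑ e, N e a b) * f b) ^ 2
      = ∑ a ∈ sA, (∑ b ∈ sB, N (ε a) a b * f b) ^ 2 := by simp_rw [h1]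
    _ ≤ ∑ a ∈ sA, ∑ e, (∑ b ∈ sB, N e a b * f b) ^ 2 := by
        refine Finset.sum_le_sum fun a _ => ?_
        exact Finset.single_le_sum (f := fun e => (∑ b ∈ sB, N e a b * f b) ^ 2)
          (fun e _ => sq_nonneg _) (Finset.mem_univ (ε a))
    _ = ∑ e, ∑ a ∈ sA, (∑ b ∈ sB, N e a b * f b) ^ 2 := Finset.sum_comm
    _ ≤ ∑ _e : I, c * ∑ b ∈ sB, f b ^ 2 := Finset.sum_le_sum fun e _ => hgap e
    _ = _ := by rw [Finset.sum_const, Finset.card_univ, nsmul_eq_mul, mul_assoc]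

theorem igr_abs_up {A B I : Type*} [Fintype I] [DecidableEq I] [DecidableEq B] (sA : Finset A)
    (sB : Finset B)
    (N : I → A → B → ℝ) (ε : B → I) (hN : ∀ e a b, ε b ≠ e → N e a b = 0) (d D : ℝ) (hD : D ≠ 0)
    (hrow : ∀ e, ∀ a ∈ sA, ∑ b ∈ sB, N e a b = d)
    (hcol : ∀ e, ∀ b ∈ sB, ε b = e → ∑ a ∈ sA, N e a b = D)
    (c : ℝ) (hc : 0 ≤ c)
    (hgap : ∀ e (g : B → ℝ), (∀ b, g b ≠ 0 → b ∈ sB ∧ ε b = e) → ∑ b ∈ sB, g b = 0 →
      ∑ a ∈ sA, (∑ b ∈ sB, N e a b * g b) ^ 2 ≤ c * ∑ b ∈ sB, g b ^ 2)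
    (f : B → ℝ) (h0 : ∑ b ∈ sB, f b = 0) :
    ∑ a ∈ sA, (∑ b ∈ sB, (∑ e, N e a b) * f b) ^ 2
      ≤ (Fintype.card I : ℝ) * c * ∑ b ∈ sB, f b ^ 2 := by
  rcases sB.eq_empty_or_nonempty with rfl | ⟨b₀, hb₀⟩
  · simp
  set σ : ℝ := sA.card * d / D with hσ
  -- double counting
  have hcard : ∀ e, ((sB.filter (fun b => ε b = e)).card : ℝ) = σ := by
    intro e
    have h1 : ∑ a ∈ sA, ∑ b ∈ sB, N e a b = sA.card * d := by
      rw [Finset.sum_congr rfl (hrow e), Finset.sum_const, nsmul_eq_mul]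
    have h2 : ∑ b ∈ sB, ∑ a ∈ sA, N e a b = (sB.filter (fun b => ε b = e)).card * D := by
      rw [← nsmul_eq_mul, ← Finset.sum_const, Finset.sum_filter]
      refine Finset.sum_congr rfl fun b hb => ?_
      by_cases hbe : ε b = e
      · rw [if_pos hbe, hcol e b hb hbe]
      · rw [if_neg hbe]
        exact Finset.sum_eq_zero fun a _ => hN e a b hbe
    rw [Finset.sum_comm, h2] at h1
    rw [hσ, ← h1, mul_div_cancel_right₀ _ hD]
  have hσpos : 0 < σ := by
    rw [← hcard (ε b₀)]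
    have : 0 < (sB.filter (fun b => ε b = ε b₀)).card :=
      Finset.card_pos.2 ⟨b₀, Finset.mem_filter.2 ⟨hb₀, rfl⟩⟩
    exact_mod_cast this
  -- slice sums and means
  set μ : I → ℝ := fun e => ∑ b ∈ sB.filter (fun b => ε b = e), f b with hμ
  have hμsum : ∑ e, μ e = 0 := by
    rw [hμ, ← h0]
    exact Finset.sum_fiberwise sB ε f
  set g : I → B → ℝ := fun e b => if b ∈ sB ∧ ε b = e then f b - μ e / σ else 0 with hg
  have hgsupp : ∀ e b, g e b ≠ 0 → b ∈ sB ∧ ε b = e := by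
    intro e b hb
    by_contra hcon
    exact hb (if_neg hcon)
  have hgfil : ∀ (e : I) (F : ℝ → ℝ), F 0 = 0 → ∑ b ∈ sB, F (g e b)
      = ∑ b ∈ sB.filter (fun b => ε b = e), F (f b - μ e / σ) := by
    intro e F hF
    rw [Finset.sum_filter]
    refine Finset.sum_congr rfl fun b hb => ?_
    by_cases hbe : ε b = e
    · rw [if_pos hbe, hg]
      simp only
      rw [if_pos ⟨hb, hbe⟩]
    · rw [if_neg hbe, hg]
      simp only
      rw [if_neg (fun h => hbe h.2), hF]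
  have hgsum : ∀ e, ∑ b ∈ sB, g e b = 0 := by
    intro e
    have := hgfil e id rfl
    simp only [id] at this
    rw [this, Finset.sum_sub_distrib, Finset.sum_const, nsmul_eq_mul, hcard e,
      mul_div_cancel₀ _ hσpos.ne']
    exact sub_self _
  have hgnorm : ∀ e, ∑ b ∈ sB, g e b ^ 2 ≤ ∑ b ∈ sB.filter (fun b => ε b = e), f b ^ 2 := by
    intro e
    rw [hgfil e (fun x => x ^ 2) (by norm_num)]
    have h1 : ∑ b ∈ sB.filter (fun b => ε b = e), (f b - μ e / σ) ^ 2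
        = ∑ b ∈ sB.filter (fun b => ε b = e), f b ^ 2 - μ e ^ 2 / σ := by
      have h2 : ∀ b, (f b - μ e / σ) ^ 2 = f b ^ 2 - (2 * (μ e / σ)) * f b + (μ e / σ) ^ 2 := by
        intro b; ring
      simp_rw [h2]
      rw [Finset.sum_add_distrib, Finset.sum_sub_distrib, ← Finset.mul_sum, Finset.sum_const,
        nsmul_eq_mul, hcard e]
      change _ - 2 * (μ e / σ) * μ e + _ = _
      field_simp
      ring
    rw [h1]
    have : 0 ≤ μ e ^ 2 / σ := by positivity
    linarith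
  have hkey : ∀ a ∈ sA, ∑ b ∈ sB, (∑ e, N e a b) * f b = ∑ e, ∑ b ∈ sB, N e a b * g e b := by
    intro a ha
    have h1 : ∀ e, ∑ b ∈ sB, N e a b * g e b = ∑ b ∈ sB, N e a b * f b - d * (μ e / σ) := by
      intro e
      rw [← hrow e a ha, Finset.sum_mul, ← Finset.sum_sub_distrib]
      refine Finset.sum_congr rfl fun b hb => ?_
      by_cases hbe : ε b = e
      · rw [hg]
        simp only
        rw [if_pos ⟨hb, hbe⟩]
        ring
      · rw [hN e a b hbe]
        ring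
    simp_rw [h1]
    rw [Finset.sum_sub_distrib, ← Finset.mul_sum, ← Finset.sum_div, hμsum, zero_div, mul_zero,
      sub_zero, Finset.sum_comm]
    exact Finset.sum_congr rfl fun b _ => Finset.sum_mul _ _ _
  calc ∑ a ∈ sA, (∑ b ∈ sB, (∑ e, N e a b) * f b) ^ 2
      = ∑ a ∈ sA, (∑ e, ∑ b ∈ sB, N e a b * g e b) ^ 2 :=
        Finset.sum_congr rfl fun a ha => by rw [hkey a ha]
    _ ≤ ∑ a ∈ sA, (Fintype.card I : ℝ) * ∑ e, (∑ b ∈ sB, N e a b * g e b) ^ 2 := by
        refine Finset.sum_le_sum fun a _ => ?_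
        have := sq_sum_le_card_mul_sum_sq (s := (Finset.univ : Finset I))
          (f := fun e => ∑ b ∈ sB, N e a b * g e b)
        rwa [Finset.card_univ] at this
    _ = (Fintype.card I : ℝ) * ∑ e, ∑ a ∈ sA, (∑ b ∈ sB, N e a b * g e b) ^ 2 := by
        rw [← Finset.mul_sum, Finset.sum_comm]
    _ ≤ (Fintype.card I : ℝ) * ∑ e, c * ∑ b ∈ sB.filter (fun b => ε b = e), f b ^ 2 := by
        refine mul_le_mul_of_nonneg_left ?_ (Nat.cast_nonneg _)
        refine Finset.sum_le_sum fun e _ => ?_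
        exact (hgap e (g e) (hgsupp e) (hgsum e)).trans
          (mul_le_mul_of_nonneg_left (hgnorm e) hc)
    _ = (Fintype.card I : ℝ) * c * ∑ b ∈ sB, f b ^ 2 := by
        rw [← Finset.mul_sum, Finset.sum_fiberwise sB ε (fun b => f b ^ 2), mul_assoc]


theorem igr_card_BV (n : ℕ) : (Fintype.card (BV n) : ℝ) = 2 ^ n := by
  simp [BV]

theorem igr_gap_aux (hp : p.Adm) (cf : Coef p) (hcf : cf.Sep) (𝔗 : Tab p) (ρ : ℝ)
    (hg : SliceGap cf 𝔗 ρ) (τ : Fin p.T) (k : ℕ) (f : Vtx p → ℝ)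
    (hf : ∀ v, f v ≠ 0 → v.sd = true ∧ v.ht = k)
    (h0 : ∑ᶠ v, f v = 0) :
    ∑ᶠ a : Vtx p, (∑ᶠ e : {e : (igrX0 cf 𝔗).E // (igrX0 cf 𝔗).src e = a ∧ (igrX0 cf 𝔗).ety e = τ},
        f ((igrX0 cf 𝔗).tgt e.1)) ^ 2
      ≤ ρ ^ 2 * (InjGr.dA p τ * InjGr.dB p τ) * ∑ᶠ v, f v ^ 2 := by
  classical
  have hfB : ∀ v, f v ≠ 0 → v ∈ igrLayer hp true k := fun v hv => (mem_igrLayer hp true k v).2 (hf v hv)
  have h0' : ∑ b ∈ igrLayer hp true k, f b = 0 := by
    rw [← finsum_eq_sum_of_support_subset f (s := igrLayer hp true k) (fun v hv => hfB v hv), h0]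
  rw [finsum_eq_sum_of_support_subset (fun v => f v ^ 2) (s := igrLayer hp true k)
    (fun v hv => hfB v (fun h0 => hv (by simp [h0])))]
  simp_rw [igr_tot_kernel cf 𝔗 τ _ (igrLayer hp true k) f hfB]
  by_cases hk : ∃ h, k = p.bHt τ h
  · obtain ⟨h, rfl⟩ := hk
    have hker : ∀ a, ∑ b ∈ igrLayer hp true (p.bHt τ h), (∑ l : Label p,
          if ((∃ h, IsEdge0 cf 𝔗 h a b l) ∧ l.ty = τ) then (1 : ℝ) else 0) * f b
        = ∑ b ∈ igrLayer hp true (p.bHt τ h), (∑ e, igrN cf 𝔗 τ h e a b) * f b := fun a =>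
      Finset.sum_congr rfl fun b hb => by
        rw [igr_tot_eq_sum cf 𝔗 τ h a b ((mem_igrLayer _ _ _ _).1 hb).2]
    simp_rw [hker]
    rw [finsum_eq_sum_of_support_subset _ (s := igrLayer hp false (p.aHt τ h))]
    · rcases hoff : p.off τ with _ | _ | _
      · -- dn
        have h1 := igr_abs_dn (igrLayer hp false (p.aHt τ h)) (igrLayer hp true (p.bHt τ h))
          (fun e a b => igrN cf 𝔗 τ h e a b) (fun a => xbits τ h a) (by
            intro e a b hne
            by_contra hN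
            obtain ⟨l, hl, hty, he⟩ := igrN_exists hN
            apply hne
            rw [← he, ← hty]
            exact hl.edn (by rw [hty, hoff])) f (ρ ^ 2 * ((p.d : ℝ) * p.D)) (fun e =>
            igr_slice_gap_kernel hp hg τ h e f (fun v hv => ⟨hfB v hv, fun hu => by
              rw [hoff] at hu; exact absurd hu (by decide)⟩) h0')
        refine h1.trans (le_of_eq ?_)
        rw [igr_card_BV]
        simp only [InjGr.dA, InjGr.dB, hoff, reduceCtorEq, if_false, if_true, pow_zero, mul_one]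
        push_cast
        ring
      · -- eq
        have h1 := igr_slice_gap_kernel hp hg τ h 0 f (fun v hv => ⟨hfB v hv, fun hu => by
              rw [hoff] at hu; exact absurd hu (by decide)⟩) h0'
        have h2 : ∀ a b, ∑ e, igrN cf 𝔗 τ h e a b = igrN cf 𝔗 τ h 0 a b := by
          intro a b
          refine Finset.sum_eq_single 0 ?_ (fun hh => absurd (Finset.mem_univ _) hh)
          intro e _ he
          by_contra hN
          obtain ⟨l, hl, hty, hle⟩ := igrN_exists hN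
          apply he
          rw [← hle]
          exact hl.eeq (by rw [hty, hoff])
        simp_rw [h2]
        refine h1.trans (le_of_eq ?_)
        simp only [InjGr.dA, InjGr.dB, hoff]
        simp
      · -- up
        have h1 := igr_abs_up (igrLayer hp false (p.aHt τ h)) (igrLayer hp true (p.bHt τ h))
          (fun e a b => igrN cf 𝔗 τ h e a b) (fun b => xbits τ h b) (by
            intro e a b hne
            by_contra hN
            obtain ⟨l, hl, hty, he⟩ := igrN_exists hN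
            apply hne
            rw [← he, ← hty]
            exact hl.eup (by rw [hty, hoff])) (p.d : ℝ) (p.D : ℝ) (by
            have : 0 < p.D := by unfold Par.D; positivity
            exact_mod_cast this.ne') (by
            intro e a ha
            rw [mem_igrLayer] at ha
            rw [← igr_degA_slice hp cf hcf 𝔗 τ h e a ha.1 ha.2
              (fun hd => by rw [hoff] at hd; exact absurd hd (by decide))
              (fun hd => by rw [hoff] at hd; exact absurd hd (by decide))]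
            rw [igr_card_kernel (fun (b : Vtx p) (l : Label p) =>
              IsEdge0 cf 𝔗 h a b l ∧ l.ty = τ ∧ l.e = e) (igrLayer hp true (p.bHt τ h)) (by
                rintro b l ⟨hl, hty, -⟩
                rw [mem_igrLayer]
                exact ⟨hl.sb, hty ▸ hl.hb⟩)]
            rfl) (by
            intro e b hb hbe
            rw [mem_igrLayer] at hb
            rw [← igr_degB_slice hp cf hcf 𝔗 τ h e b hb.1 hb.2 (fun _ => hbe)
              (fun hd => by rw [hoff] at hd; exact absurd hd (by decide))]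
            rw [igr_card_kernel (fun (a : Vtx p) (l : Label p) =>
              IsEdge0 cf 𝔗 h a b l ∧ l.ty = τ ∧ l.e = e) (igrLayer hp false (p.aHt τ h)) (by
                rintro a l ⟨hl, hty, -⟩
                rw [mem_igrLayer]
                exact ⟨hl.sa, hty ▸ hl.ha⟩)]
            rfl) (ρ ^ 2 * ((p.d : ℝ) * p.D)) (by positivity) (fun e g hgs hg0 =>
            igr_slice_gap_kernel hp hg τ h e g (fun v hv => ⟨(hgs v hv).1, fun _ => (hgs v hv).2⟩)
              hg0) f h0'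
        refine h1.trans (le_of_eq ?_)
        rw [igr_card_BV]
        simp only [InjGr.dA, InjGr.dB, hoff, reduceCtorEq, if_false, if_true, pow_zero, mul_one]
        push_cast
        ring
    · intro a ha
      by_contra hcon
      apply ha
      have : ∑ b ∈ igrLayer hp true (p.bHt τ h), (∑ e, igrN cf 𝔗 τ h e a b) * f b = 0 := by
        refine Finset.sum_eq_zero fun b _ => ?_
        have : ∑ e, igrN cf 𝔗 τ h e a b = 0 := by
          refine Finset.sum_eq_zero fun e _ => ?_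
          by_contra hN
          obtain ⟨l, hl, hty, -⟩ := igrN_exists hN
          apply hcon
          rw [Finset.mem_coe, mem_igrLayer]
          exact ⟨hl.sa, hty ▸ hl.ha⟩
        rw [this, zero_mul]
      simp [this]
  · have hz : ∀ a : Vtx p, ∑ b ∈ igrLayer hp true k, (∑ l : Label p,
          if ((∃ h, IsEdge0 cf 𝔗 h a b l) ∧ l.ty = τ) then (1 : ℝ) else 0) * f b = 0 := by
      intro a
      refine Finset.sum_eq_zero fun b hb => ?_
      rw [mem_igrLayer] at hb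
      have : (∑ l : Label p,
          if ((∃ h, IsEdge0 cf 𝔗 h a b l) ∧ l.ty = τ) then (1 : ℝ) else 0) = 0 := by
        refine Finset.sum_eq_zero fun l _ => ?_
        rw [if_neg]
        rintro ⟨⟨h', hh'⟩, hty⟩
        exact hk ⟨h', by rw [← hb.2, ← hty]; exact hh'.hb⟩
      rw [this, zero_mul]
    simp_rw [hz]
    simp only [ne_eq, OfNat.ofNat_ne_zero, not_false_eq_true, zero_pow, finsum_zero]
    positivity

/-! ## IGR-B -/

theorem igr_gap (hp : p.Adm) (cf : Coef p) (hcf : cf.Sep) (𝔗 : Tab p) (ρ : ℝ) (hρ : 0 ≤ ρ)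
    (hg : SliceGap cf 𝔗 ρ) (τ : Fin p.T) (k : ℕ) (f : (igrX0 cf 𝔗).V → ℝ)
    (hf : ∀ v, f v ≠ 0 → (igrX0 cf 𝔗).sd v = true ∧ (igrX0 cf 𝔗).ht v = k)
    (h0 : ∑ᶠ v, f v = 0) :
    ∑ᶠ a, (∑ᶠ e : {e : (igrX0 cf 𝔗).E // (igrX0 cf 𝔗).src e = a ∧ (igrX0 cf 𝔗).ety e = τ},
        f ((igrX0 cf 𝔗).tgt e.1)) ^ 2
      ≤ ρ ^ 2 * (InjGr.dA p τ * InjGr.dB p τ) * ∑ᶠ v, f v ^ 2 :=
  igr_gap_aux hp cf hcf 𝔗 ρ hg τ k f hf h0

end Claimed.Agent.R300.Igr
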