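/-
Row 300 / S0553 (INJ paper), Section 03_pruning, THETA PART (owner: helper59).
This file: definitions of theta candidates + package PRT-A (operations on walks, elementary facts
about thetas, short paths inside a theta).
The `sorry`s are replaced IN PLACE by the owner of the package (table subtask, target row300, PRT-A).
Statements are frozen: ask helper59 before changing one (adding lemmas/definitions is free).

HINTS.  `pr_theta_red`: if `lb i (n+1)` is the inverse of `lb i n` then `lab_folded` gives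
`vx i (n+2) = vx i n`, which contradicts `inj` / `inner` / `ne`.  `pr_theta_last_ne`: equal last labels
give (`lab_folded` at `x₂`, signs are equal by `pr_step_sd`) `vx i (N i - 1) = vx j (N j - 1)`:
contradiction with `inj` / `inner` / `first`.
`pr_theta_path`: for `i ≠ j` let `C = catV (branch i) (rev (branch j))` (closed at `x₁`, length
`L = N i + N j ≤ e`), `CC = cat C C` (length `2 L`, reduced by `pr_theta_red`, `pr_theta_first_ne`,
`pr_theta_last_ne`; signs by `pr_walk_sign`).  Two vertices at positions `a < a' ≤ L`, `a' - a < L` of `C`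
are joined by the two arcs `shiftV a CC` (length `a' - a`) and `shiftV a' CC` (length `L - (a' - a)`, it
ends at position `a + L`, the same vertex as position `a`); one of them has length `≤ L / 2`.
`vx i n` is at position `n`, `vx j m` at position `L - m`.  Two vertices of the same branch `i`: use any
`j ≠ i`.  Tools: `pr_walk_shift`, `pr_red_shift`, `pr_step_symm`, `pr_step_sd`, `pr_walk_sign`.
-/
import Claimed.Agent.R300.PrRetSum

set_option autoImplicit false

namespace Claimed.Agent.R300.Pr

open Claimed.Agent.R300.Lab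

variable {p : Par}

/-! ### theta candidates -/

/-- header of a theta candidate: branch lengths, side and height of the first branch vertex -/
structure THead where
  N : Fin 3 → ℕ
  sd : Bool
  ht : ℕ

/-- number of edges -/
def THead.e (θ : THead) : ℕ := θ.N 0 + θ.N 1 + θ.N 2

/-- a theta candidate: the labels of the three branches (no free bits) -/
abbrev TCand (p : Par) (θ : THead) : Type := (i : Fin 3) → Fin (θ.N i) → Label p

structure TMatch (θ : THead) (c : TCand p θ) (vx : Fin 3 → ℕ → Vtx p)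
    (lb : Fin 3 → ℕ → Label p × Bool) : Prop where
  sd0 : (vx 0 0).sd = θ.sd
  ht0 : (vx 0 0).ht = θ.ht
  lab : ∀ (i : Fin 3) (n : Fin (θ.N i)), (lb i n.1).1 = c i n

/-- `(vx, lb)` is a short theta of `X^(1)` with the data of the candidate `c` -/
structure TReal (cf : Coef p) (θ : THead) (c : TCand p θ) (𝔗 : Tab p) (vx : Fin 3 → ℕ → Vtx p)
    (lb : Fin 3 → ℕ → Label p × Bool) : Prop where
  th : IsThetaW cf 𝔗 (X1 cf 𝔗) θ.N vx lb
  m : TMatch θ c vx lb
  short : ∃ i n, n ≤ θ.N i ∧ 100 * (θ.e * p.lq) < 152 * p.H (vx i n).ht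

/-- the event: the candidate is realised -/
def TEv (cf : Coef p) (θ : THead) (c : TCand p θ) (𝔗 : Tab p) : Prop :=
  ∃ vx lb, TReal cf θ c 𝔗 vx lb

/-! ### operations on walks -/

/-- the reversed walk -/
def revV (N : ℕ) (vx : ℕ → Vtx p) : ℕ → Vtx p := fun n => vx (N - n)
def revL (N : ℕ) (lb : ℕ → Label p × Bool) : ℕ → Label p × Bool :=
  fun n => ((lb (N - 1 - n)).1, !(lb (N - 1 - n)).2)

/-- concatenation -/
def catV (N : ℕ) (vx vx' : ℕ → Vtx p) : ℕ → Vtx p := fun n => if n ≤ N then vx n else vx' (n - N)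
def catL (N : ℕ) (lb lb' : ℕ → Label p × Bool) : ℕ → Label p × Bool :=
  fun n => if n < N then lb n else lb' (n - N)

section ops

variable {cf : Coef p} {𝔗 : Tab p} {S : Vtx p → Prop} {N N' : ℕ} {vx vx' : ℕ → Vtx p}
  {lb lb' : ℕ → Label p × Bool}

theorem pr_walk_rev (w : IsWalk cf 𝔗 S N vx lb) : IsWalk cf 𝔗 S N (revV N vx) (revL N lb) := by
  refine ⟨fun n _ => w.mem (N - n) (by omega), fun n hn => ?_⟩
  have h := w.step (N - 1 - n) (by omega)
  unfold revV revL
  rw [show N - n = N - 1 - n + 1 by omega, show N - (n + 1) = N - 1 - n by omega]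
  exact (pr_step_symm cf 𝔗 _ _ _ _).1 h

theorem pr_red_rev (hr : Reduced N lb) : Reduced N (revL N lb) := by
  intro n hn hcon
  have h := hr (N - 1 - (n + 1)) (by omega)
  unfold revL at hcon
  rw [show N - 1 - n = N - 1 - (n + 1) + 1 by omega] at hcon
  apply h
  obtain ⟨c1, c2⟩ := hcon
  simp only at c1 c2
  refine ⟨c1.symm, ?_⟩
  revert c2
  cases (lb (N - 1 - (n + 1) + 1)).2 <;> cases (lb (N - 1 - (n + 1))).2 <;> simp

theorem pr_walk_cat (w : IsWalk cf 𝔗 S N vx lb) (w' : IsWalk cf 𝔗 S N' vx' lb')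
    (h : vx N = vx' 0) : IsWalk cf 𝔗 S (N + N') (catV N vx vx') (catL N lb lb') := by
  refine ⟨fun n hn => ?_, fun n hn => ?_⟩
  · unfold catV
    split_ifs with h1
    · exact w.mem n h1
    · exact w'.mem (n - N) (by omega)
  · unfold catV catL
    by_cases h1 : n < N
    · rw [if_pos (by omega : n ≤ N), if_pos (by omega : n + 1 ≤ N), if_pos h1]
      exact w.step n h1
    · rw [if_neg (by omega : ¬ n + 1 ≤ N), if_neg h1]
      have h2 := w'.step (n - N) (by omega)
      rw [show n - N + 1 = n + 1 - N by omega] at h2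
      split_ifs with h3
      · have : n = N := by omega
        subst this
        rw [h]
        simpa using h2
      · exact h2

theorem pr_red_cat (hr : Reduced N lb) (hr' : Reduced N' lb')
    (hj : 0 < N → 0 < N' → ¬ ((lb' 0).1 = (lb (N - 1)).1 ∧ (lb' 0).2 = !(lb (N - 1)).2)) :
    Reduced (N + N') (catL N lb lb') := by
  intro n hn
  unfold catL
  by_cases h1 : n + 1 < N
  · rw [if_pos h1, if_pos (by omega : n < N)]
    exact hr n h1
  · rw [if_neg h1]
    by_cases h2 : n < N
    · rw [if_pos h2]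
      have : n + 1 = N := by omega
      rw [show n + 1 - N = 0 by omega, show n = N - 1 by omega]
      exact hj (by omega) (by omega)
    · rw [if_neg h2, show n + 1 - N = n - N + 1 by omega]
      exact hr' (n - N) (by omega)

end ops

/-! ### elementary facts about thetas -/

section theta

variable {cf : Coef p} {𝔗 : Tab p} {S : Vtx p → Prop} {N : Fin 3 → ℕ} {vx : Fin 3 → ℕ → Vtx p}
  {lb : Fin 3 → ℕ → Label p × Bool}

theorem pr_theta_mono {S' : Vtx p → Prop} (th : IsThetaW cf 𝔗 S N vx lb) (h : ∀ x, S x → S' x) :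
    IsThetaW cf 𝔗 S' N vx lb :=
  ⟨fun i => pr_walk_mono (th.walk i) h, th.pos, th.start, th.stop, th.ne, th.inj, th.inner, th.first⟩

/-- the branches are reduced -/
theorem pr_theta_red (hp : p.Adm) (hcf : cf.Sep) (th : IsThetaW cf 𝔗 S N vx lb) (i : Fin 3) :
    Reduced (N i) (lb i) := by
  intro n hn hcon
  have s1 := (th.walk i).step n (by omega)
  have s2 := (th.walk i).step (n + 1) hn
  have s1' : Step cf 𝔗 (vx i (n + 1)) (vx i n) (lb i (n + 1)) := by
    have := (pr_step_symm cf 𝔗 _ _ (lb i n).1 (lb i n).2).1 s1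
    rwa [show ((lb i n).1, !(lb i n).2) = lb i (n + 1) from Prod.ext hcon.1.symm hcon.2.symm] at this
  have e : vx i n = vx i (n + 1 + 1) := lab_folded hp cf hcf 𝔗 _ _ _ _ s1' s2
  by_cases h0 : n = 0
  · subst h0
    by_cases hN : 0 + 1 + 1 = N i
    · rw [hN, th.start, th.stop] at e
      exact th.ne e
    · rw [th.start] at e
      exact (th.inner i (0 + 1 + 1) (by omega) (by omega)).1 e.symm
  · by_cases hN : n + 1 + 1 = N i
    · rw [hN, th.stop] at e
      exact (th.inner i n (by omega) (by omega)).2 e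
    · have := (th.inj i i n (n + 1 + 1) (by omega) (by omega) (by omega) (by omega) e).2
      omega

theorem pr_theta_first_ne (th : IsThetaW cf 𝔗 S N vx lb) (i j : Fin 3) (hij : i ≠ j) :
    (lb i 0).1 ≠ (lb j 0).1 := by
  intro h
  apply th.first i j hij
  refine Prod.ext h ?_
  rw [pr_walk_sign (th.walk i) 0 (th.pos i), pr_walk_sign (th.walk j) 0 (th.pos j), th.start i,
    th.start j]

theorem pr_theta_last_ne (hp : p.Adm) (hcf : cf.Sep) (th : IsThetaW cf 𝔗 S N vx lb) (i j : Fin 3)
    (hij : i ≠ j) : (lb i (N i - 1)).1 ≠ (lb j (N j - 1)).1 := by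
  intro h
  have pi := th.pos i
  have pj := th.pos j
  have s1 := (th.walk i).step (N i - 1) (by omega)
  have s2 := (th.walk j).step (N j - 1) (by omega)
  rw [show N i - 1 + 1 = N i by omega, th.stop] at s1
  rw [show N j - 1 + 1 = N j by omega, th.stop] at s2
  have hl : lb i (N i - 1) = lb j (N j - 1) := by
    refine Prod.ext h ?_
    rw [← (pr_step_sd cf 𝔗 _ _ _ s1).2, ← (pr_step_sd cf 𝔗 _ _ _ s2).2]
  rw [← hl] at s2
  have e : vx i (N i - 1) = vx j (N j - 1) := lab_folded hp cf hcf 𝔗 _ _ _ _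
    ((pr_step_symm cf 𝔗 _ _ _ _).1 s1) ((pr_step_symm cf 𝔗 _ _ _ _).1 s2)
  by_cases hi : N i = 1
  · by_cases hj : N j = 1
    · rw [hi, hj] at hl
      exact th.first i j hij hl
    · rw [hi, show 1 - 1 = 0 from rfl, th.start] at e
      exact (th.inner j (N j - 1) (by omega) (by omega)).1 e.symm
  · by_cases hj : N j = 1
    · rw [hj, show 1 - 1 = 0 from rfl, th.start j] at e
      exact (th.inner i (N i - 1) (by omega) (by omega)).1 e
    · exact hij (th.inj i j _ _ (by omega) (by omega) (by omega) (by omega) e).1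

/-- heights of the vertices of a theta -/
theorem pr_theta_ht (th : IsThetaW cf 𝔗 S N vx lb) (i : Fin 3) (n : ℕ) (hn : n ≤ N i) :
    (vx 0 0).ht ≤ (vx i n).ht + n ∧ (vx i n).ht ≤ (vx 0 0).ht + n := by
  have := pr_walk_ht_le (th.walk i) 0 n (by omega)
  rwa [th.start, Nat.zero_add] at this

/-- sides of the vertices of a theta -/
theorem pr_theta_sd (th : IsThetaW cf 𝔗 S N vx lb) (i : Fin 3) (n : ℕ) (hn : n ≤ N i) :
    (vx i n).sd = sdAt (vx 0 0).sd n := by
  rw [pr_walk_sd (th.walk i) n hn, th.start]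

/-- two positions on a cyclically reduced closed walk are joined by a reduced arc of at most half the length -/
theorem pr_cycle_arc {L : ℕ} {cv : ℕ → Vtx p} {cl : ℕ → Label p × Bool}
    (w : IsWalk cf 𝔗 S L cv cl) (hcl : cv L = cv 0) (hr : Reduced L cl)
    (hc : ¬ ((cl 0).1 = (cl (L - 1)).1 ∧ (cl 0).2 = !(cl (L - 1)).2))
    (a a' : ℕ) (h1 : a < a') (h2 : a' ≤ L) (h3 : a' - a < L) :
    ∃ (P : ℕ) (wv : ℕ → Vtx p) (wl : ℕ → Label p × Bool), IsWalk cf 𝔗 S P wv wl ∧ Reduced P wl ∧
      0 < P ∧ 2 * P ≤ L ∧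
      ((wv 0 = cv a ∧ wv P = cv a') ∨ (wv 0 = cv a' ∧ wv P = cv a)) := by
  have W := pr_walk_cat w w hcl
  have R := pr_red_cat hr hr (fun _ _ => hc)
  by_cases hh : 2 * (a' - a) ≤ L
  · refine ⟨a' - a, _, _, pr_walk_shift W a (a' - a) (by omega), pr_red_shift R a (a' - a) (by omega),
      by omega, hh, Or.inl ⟨?_, ?_⟩⟩
    · unfold shiftV catV
      rw [Nat.zero_add, if_pos (by omega)]
    · unfold shiftV catV
      rw [show a' - a + a = a' by omega, if_pos h2]
  · refine ⟨L - (a' - a), _, _, pr_walk_shift W a' (L - (a' - a)) (by omega),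
      pr_red_shift R a' (L - (a' - a)) (by omega), by omega, by omega, Or.inr ⟨?_, ?_⟩⟩
    · unfold shiftV catV
      rw [Nat.zero_add, if_pos h2]
    · unfold shiftV catV
      rw [show L - (a' - a) + a' = a + L by omega]
      split_ifs with h4
      · have : a = 0 := by omega
        subst this
        rw [Nat.zero_add, hcl]
      · rw [show a + L - L = a by omega]

/-- the cycle formed by two branches of a theta -/
theorem pr_theta_cycle (hp : p.Adm) (hcf : cf.Sep) (th : IsThetaW cf 𝔗 S N vx lb) (i j : Fin 3)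
    (hij : i ≠ j) :
    ∃ (cv : ℕ → Vtx p) (cl : ℕ → Label p × Bool), IsWalk cf 𝔗 S (N i + N j) cv cl ∧
      cv (N i + N j) = cv 0 ∧ Reduced (N i + N j) cl ∧
      ¬ ((cl 0).1 = (cl (N i + N j - 1)).1 ∧ (cl 0).2 = !(cl (N i + N j - 1)).2) ∧
      (∀ n, n ≤ N i → cv n = vx i n) ∧ (∀ m, m ≤ N j → cv (N i + N j - m) = vx j m) := by
  have pi := th.pos i
  have pj := th.pos j
  refine ⟨catV (N i) (vx i) (revV (N j) (vx j)), catL (N i) (lb i) (revL (N j) (lb j)),
    pr_walk_cat (th.walk i) (pr_walk_rev (th.walk j)) ?_, ?_,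
    pr_red_cat (pr_theta_red hp hcf th i) (pr_red_rev (pr_theta_red hp hcf th j)) ?_, ?_, ?_, ?_⟩
  · unfold revV
    rw [Nat.sub_zero, th.stop i, th.stop j]
  · unfold catV revV
    rw [if_neg (by omega), if_pos (by omega), show N j - (N i + N j - N i) = 0 by omega, th.start j,
      th.start i]
  · intro _ _ hcon
    unfold revL at hcon
    exact pr_theta_last_ne hp hcf th j i (Ne.symm hij) hcon.1
  · intro hcon
    unfold catL revL at hcon
    rw [if_pos pi, if_neg (by omega),
      show N j - 1 - (N i + N j - 1 - N i) = 0 by omega] at hcon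
    exact pr_theta_first_ne th i j hij hcon.1
  · intro n hn
    unfold catV
    rw [if_pos hn]
  · intro m hm
    unfold catV revV
    split_ifs with h
    · have : m = N j := by omega
      subst this
      rw [show N i + N j - N j = N i by omega, th.stop i, th.stop j]
    · rw [show N j - (N i + N j - m - N i) = m by omega]

theorem pr_theta_two_le (N : Fin 3 → ℕ) (i j : Fin 3) (hij : i ≠ j) :
    N i + N j ≤ N 0 + N 1 + N 2 := by
  fin_cases i <;> fin_cases j <;> simp_all <;> omega

/-- **two distinct vertices of a theta are joined inside the theta by a reduced walk of length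
at most `e / 2`** -/
theorem pr_theta_path (hp : p.Adm) (hcf : cf.Sep) (th : IsThetaW cf 𝔗 S N vx lb) (i j : Fin 3)
    (n m : ℕ) (hn : n ≤ N i) (hm : m ≤ N j) (hne : vx i n ≠ vx j m) :
    ∃ (P : ℕ) (wv : ℕ → Vtx p) (wl : ℕ → Label p × Bool), IsWalk cf 𝔗 S P wv wl ∧ Reduced P wl ∧
      0 < P ∧ 2 * P ≤ N 0 + N 1 + N 2 ∧
      ((wv 0 = vx i n ∧ wv P = vx j m) ∨ (wv 0 = vx j m ∧ wv P = vx i n)) := by
  by_cases hij : i = j
  · subst hij
    obtain ⟨k, hk⟩ : ∃ k : Fin 3, i ≠ k := ⟨i + 1, by fin_cases i <;> simp⟩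
    obtain ⟨cv, cl, W, hcl, R, hc, hv, -⟩ := pr_theta_cycle hp hcf th i k hk
    have pk := th.pos k
    have hle := pr_theta_two_le N i k hk
    have hnm : n ≠ m := fun h => hne (by rw [h])
    rcases Nat.lt_or_gt_of_ne hnm with h | h
    · obtain ⟨P, wv, wl, h1, h2, h3, h4, h5⟩ := pr_cycle_arc W hcl R hc n m h (by omega) (by omega)
      rw [hv n hn, hv m hm] at h5
      exact ⟨P, wv, wl, h1, h2, h3, by omega, h5⟩
    · obtain ⟨P, wv, wl, h1, h2, h3, h4, h5⟩ := pr_cycle_arc W hcl R hc m n h (by omega) (by omega)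
      rw [hv n hn, hv m hm] at h5
      exact ⟨P, wv, wl, h1, h2, h3, by omega, h5.symm⟩
  · obtain ⟨cv, cl, W, hcl, R, hc, hv, hv'⟩ := pr_theta_cycle hp hcf th i j hij
    have hle := pr_theta_two_le N i j hij
    have h1 : n < N i + N j - m := by
      by_contra hcon
      have e1 : n = N i := by omega
      have e2 : m = N j := by omega
      apply hne
      rw [e1, e2, th.stop i, th.stop j]
    have h3 : N i + N j - m - n < N i + N j := by
      by_contra hcon
      have e1 : n = 0 := by omega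
      have e2 : m = 0 := by omega
      apply hne
      rw [e1, e2, th.start i, th.start j]
    obtain ⟨P, wv, wl, g1, g2, g3, g4, g5⟩ :=
      pr_cycle_arc W hcl R hc n (N i + N j - m) h1 (by omega) h3
    rw [hv n hn, hv' m hm] at g5
    exact ⟨P, wv, wl, g1, g2, g3, by omega, g5⟩

end theta

end Claimed.Agent.R300.Pr
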