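/-
Row 300 / S0553 (INJ paper), Section 03_pruning, THETA PART, package PRT-B (section owner: helper59):
`lem:pruning-reconstruction` for thetas in the form PU ("predictability + uniqueness").
The `sorry`s are replaced IN PLACE by the owner of the package (table subtask, target row300, PRT-B).
Statements are frozen: ask helper59 before changing one (adding lemmas/definitions is free).

HINTS.  `pr_cfg_PU` is the interior case of `pr_ret_PU` (file PrRetCand.lean) in general form: strong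
induction on `k`; if `v a` owns the block `k` apply `pr_two_eval` to the two edges
`(v a, v (nb₁ a))`, `(v a, v (nb₂ a))` (`UnivEq` from `pr_step_univ`, `NameNe` from `lab_names_ne`, low blocks
by the induction hypothesis at `a`, `nb₁ a`, `nb₂ a`), otherwise both blocks vanish (`pr_u_not_own`).
`pr_theta_PU`: apply `pr_cfg_PU` with `ι := Fin 3 × ℕ`, `Vd a := a.2 ≤ θ.N a.1`,
  interior `0 < n < N i`: neighbours `(i, n+1)`, `(i, n-1)`, labels `c i n`, `c i (n-1)` (`pr_walk_slot`,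
     different by `pr_theta_red` + `pr_walk_label_ne`);
  `n = 0`: neighbours `(i, 1)`, `(i+1, 1)`, first labels (`th.start`, `pr_theta_first_ne`);
  `n = N i`: neighbours `(i, N i - 1)`, `(i+1, N (i+1) - 1)`, last labels (`th.stop`, `pr_theta_last_ne`).
`pr_theta_shape`: as `pr_ret_shape` (`pr_theta_sd`, `pr_walk_sign`, `pr_step_ht`, `th.start`).
-/
import Claimed.Agent.R300.PrThOps

set_option autoImplicit false

namespace Claimed.Agent.R300.Pr

open Claimed.Agent.R300.Lab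

variable {p : Par}

/-! ## PRT-B -/

/-- **PU for configurations**: a family of vertices each of which has two designated incident edges
with different labels, leading to vertices of the family. -/
theorem pr_cfg_PU (hp : p.Adm) {cf : Coef p} (hcf : cf.Sep) {ι : Type} (Vd : ι → Prop)
    (nb₁ nb₂ : ι → ι) (hnb : ∀ a, Vd a → Vd (nb₁ a) ∧ Vd (nb₂ a)) (l₁ l₂ : ι → Label p)
    (hl : ∀ a, Vd a → l₁ a ≠ l₂ a) {𝔗 𝔗' : Tab p} (t : ℕ) (hT : TabEq t 𝔗 𝔗') (v v' : ι → Vtx p)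
    (hsd : ∀ a, Vd a → (v a).sd = (v' a).sd)
    (s₁ : ∀ a, Vd a → Step cf 𝔗 (v a) (v (nb₁ a)) (l₁ a, !(v a).sd))
    (s₂ : ∀ a, Vd a → Step cf 𝔗 (v a) (v (nb₂ a)) (l₂ a, !(v a).sd))
    (s₁' : ∀ a, Vd a → Step cf 𝔗' (v' a) (v' (nb₁ a)) (l₁ a, !(v' a).sd))
    (s₂' : ∀ a, Vd a → Step cf 𝔗' (v' a) (v' (nb₂ a)) (l₂ a, !(v' a).sd))
    (g : ∀ a, Vd a → ¬ GateBad cf 𝔗 (v a)) (g' : ∀ a, Vd a → ¬ GateBad cf 𝔗' (v' a)) :
    ∀ k, k ≤ t → ∀ a, Vd a → (v a).u k = (v' a).u k ∧ (v a).v k = (v' a).v k := by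
  intro k
  induction k using Nat.strong_induction_on with
  | _ k ih =>
  intro hk a ha
  have hTk : 0 < k → 𝔗 (k - 1) = 𝔗' (k - 1) := fun h0 => hT _ (by omega)
  have hlowU : ∀ a b, Vd a → Vd b → ∀ j, j < k →
      zipU (v a) (v b) j = zipU (v' a) (v' b) j := by
    intro a b ha hb j hj
    unfold zipU
    rw [(ih j hj (by omega) a ha).1, (ih j hj (by omega) b hb).1]
  by_cases ho : own (v a).sd k
  · have ho' : own (v' a).sd k := by rw [← hsd a ha]; exact ho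
    obtain ⟨hb1, hb2⟩ := hnb a ha
    have S1 := s₁ a ha
    have S2 := s₂ a ha
    have S1' := s₁' a ha
    have S2' := s₂' a ha
    have sd1 := (lab_step_ht cf 𝔗 _ _ _ S1).1
    have sd2 := (lab_step_ht cf 𝔗 _ _ _ S2).1
    have sd1' := (lab_step_ht cf 𝔗' _ _ _ S1').1
    have sd2' := (lab_step_ht cf 𝔗' _ _ _ S2').1
    have u1 := pr_step_univ hp cf hcf 𝔗 _ _ _ S1 (g a ha) (g _ hb1)
    have u2 := pr_step_univ hp cf hcf 𝔗 _ _ _ S2 (g a ha) (g _ hb2)
    have u1' := pr_step_univ hp cf hcf 𝔗' _ _ _ S1' (g' a ha) (g' _ hb1)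
    have u2' := pr_step_univ hp cf hcf 𝔗' _ _ _ S2' (g' a ha) (g' _ hb2)
    have hname : NameNe (l₁ a) (l₂ a) k := by
      have := lab_names_ne hp cf hcf 𝔗 (v (nb₁ a)) (v a) (v (nb₂ a)) (l₁ a) (l₂ a) (!(v a).sd) S1 S2
        (hl a ha)
      unfold own at ho
      constructor
      · intro hk0
        apply this.1
        cases hh : (v a).sd
        · rfl
        · rw [hh] at ho; simp at ho; omega
      · intro hk1
        apply this.2
        cases hh : (v a).sd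
        · rw [hh] at ho; simp at ho; omega
        · rfl
    have := pr_two_eval cf hcf 𝔗 𝔗' k hTk (l₁ a) (l₂ a) hname
      _ _ _ _ _ _ _ _ (u1 k) (u2 k) (u1' k) (u2' k)
      (hlowU a (nb₁ a) ha hb1) (hlowU a (nb₂ a) ha hb2)
      (by rw [pr_zipU_own _ _ sd1 k ho, pr_zipU_own _ _ sd2 k ho])
      (by rw [pr_zipV_own _ _ sd1 k ho, pr_zipV_own _ _ sd2 k ho])
      (by rw [pr_zipU_own _ _ sd1' k ho', pr_zipU_own _ _ sd2' k ho'])
      (by rw [pr_zipV_own _ _ sd1' k ho', pr_zipV_own _ _ sd2' k ho'])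
      (fun hk0 => by subst hk0; exact ⟨pr_zipU_zero_pre hp _ _, pr_zipU_zero_pre hp _ _⟩)
    rwa [pr_zipU_own _ _ sd1 k ho, pr_zipV_own _ _ sd1 k ho, pr_zipU_own _ _ sd1' k ho',
      pr_zipV_own _ _ sd1' k ho'] at this
  · have ho' : ¬ own (v' a).sd k := by rw [← hsd a ha]; exact ho
    rw [pr_u_not_own _ k ho, pr_u_not_own _ k ho', pr_v_not_own _ k ho, pr_v_not_own _ k ho']
    exact ⟨rfl, rfl⟩

/-! ### the two designated edges at a vertex of a theta -/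

/-- first neighbour -/
def prThNb₁ (N : Fin 3 → ℕ) (a : Fin 3 × ℕ) : Fin 3 × ℕ :=
  if a.2 = 0 then (a.1, 1) else if a.2 < N a.1 then (a.1, a.2 + 1) else (a.1, a.2 - 1)

/-- second neighbour -/
def prThNb₂ (N : Fin 3 → ℕ) (a : Fin 3 × ℕ) : Fin 3 × ℕ :=
  if a.2 = 0 then (a.1 + 1, 1) else if a.2 < N a.1 then (a.1, a.2 - 1)
  else (a.1 + 1, N (a.1 + 1) - 1)

/-- label of the first edge -/
def prThL₁ (N : Fin 3 → ℕ) (lb : Fin 3 → ℕ → Label p × Bool) (a : Fin 3 × ℕ) : Label p :=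
  if a.2 = 0 then (lb a.1 0).1 else if a.2 < N a.1 then (lb a.1 a.2).1 else (lb a.1 (a.2 - 1)).1

/-- label of the second edge -/
def prThL₂ (N : Fin 3 → ℕ) (lb : Fin 3 → ℕ → Label p × Bool) (a : Fin 3 × ℕ) : Label p :=
  if a.2 = 0 then (lb (a.1 + 1) 0).1 else if a.2 < N a.1 then (lb a.1 (a.2 - 1)).1
  else (lb (a.1 + 1) (N (a.1 + 1) - 1)).1

/-- forces the on-demand equation lemmas of the four definitions above to live here (RULES.md, rule 6) -/
theorem pr_thPU_eqns : True := by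
  have := @prThNb₁.eq_1
  have := @prThNb₁.congr_simp
  have := @prThNb₂.eq_1
  have := @prThNb₂.congr_simp
  have := @prThL₁.eq_1
  have := @prThL₁.congr_simp
  have := @prThL₂.eq_1
  have := @prThL₂.congr_simp
  trivial

theorem pr_walk_fwd {cf : Coef p} {𝔗 : Tab p} {S : Vtx p → Prop} {N : ℕ} {vx : ℕ → Vtx p}
    {lb : ℕ → Label p × Bool} (w : IsWalk cf 𝔗 S N vx lb) (n : ℕ) (hn : n < N) :
    Step cf 𝔗 (vx n) (vx (n + 1)) ((lb n).1, !(vx n).sd) := by
  have h := w.step n hn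
  have : lb n = ((lb n).1, !(vx n).sd) := Prod.ext rfl (pr_walk_sign w n hn)
  rwa [this] at h

theorem pr_walk_bwd {cf : Coef p} {𝔗 : Tab p} {S : Vtx p → Prop} {N : ℕ} {vx : ℕ → Vtx p}
    {lb : ℕ → Label p × Bool} (w : IsWalk cf 𝔗 S N vx lb) (n : ℕ) (h1 : 1 ≤ n) (hn : n ≤ N) :
    Step cf 𝔗 (vx n) (vx (n - 1)) ((lb (n - 1)).1, !(vx n).sd) := by
  have h := w.step (n - 1) (by omega)
  rw [show n - 1 + 1 = n by omega] at h
  have hs := (pr_step_sd cf 𝔗 _ _ _ h).2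
  have := (pr_step_symm cf 𝔗 _ _ (lb (n - 1)).1 (lb (n - 1)).2).1 h
  rwa [← hs] at this

theorem pr_fin3_ne_succ (i : Fin 3) : i ≠ i + 1 := by
  fin_cases i <;> simp

theorem pr_theta_nb {cf : Coef p} {𝔗 : Tab p} {S : Vtx p → Prop} {N : Fin 3 → ℕ}
    {vx : Fin 3 → ℕ → Vtx p} {lb : Fin 3 → ℕ → Label p × Bool} (th : IsThetaW cf 𝔗 S N vx lb)
    (a : Fin 3 × ℕ) (ha : a.2 ≤ N a.1) :
    (prThNb₁ N a).2 ≤ N (prThNb₁ N a).1 ∧ (prThNb₂ N a).2 ≤ N (prThNb₂ N a).1 := by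
  obtain ⟨i, n⟩ := a
  simp only at ha
  have p1 := th.pos i
  have p2 := th.pos (i + 1)
  unfold prThNb₁ prThNb₂
  simp only
  split_ifs <;> simp only <;> constructor <;> omega

theorem pr_theta_steps {cf : Coef p} {𝔗 : Tab p} {S : Vtx p → Prop} {N : Fin 3 → ℕ}
    {vx : Fin 3 → ℕ → Vtx p} {lb : Fin 3 → ℕ → Label p × Bool} (th : IsThetaW cf 𝔗 S N vx lb)
    (a : Fin 3 × ℕ) (ha : a.2 ≤ N a.1) :
    Step cf 𝔗 (vx a.1 a.2) (vx (prThNb₁ N a).1 (prThNb₁ N a).2) (prThL₁ N lb a, !(vx a.1 a.2).sd) ∧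
    Step cf 𝔗 (vx a.1 a.2) (vx (prThNb₂ N a).1 (prThNb₂ N a).2)
      (prThL₂ N lb a, !(vx a.1 a.2).sd) := by
  obtain ⟨i, n⟩ := a
  simp only at ha
  have p1 := th.pos i
  have p2 := th.pos (i + 1)
  unfold prThNb₁ prThNb₂ prThL₁ prThL₂
  simp only
  by_cases h0 : n = 0
  · subst h0
    simp only [if_true]
    refine ⟨pr_walk_fwd (th.walk i) 0 p1, ?_⟩
    have := pr_walk_fwd (th.walk (i + 1)) 0 p2
    rwa [th.start (i + 1), ← th.start i] at this
  · rw [if_neg h0, if_neg h0, if_neg h0, if_neg h0]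
    by_cases h1 : n < N i
    · rw [if_pos h1, if_pos h1, if_pos h1, if_pos h1]
      exact ⟨pr_walk_fwd (th.walk i) n h1, pr_walk_bwd (th.walk i) n (by omega) ha⟩
    · rw [if_neg h1, if_neg h1, if_neg h1, if_neg h1]
      refine ⟨pr_walk_bwd (th.walk i) n (by omega) ha, ?_⟩
      have hn : n = N i := by omega
      have := pr_walk_bwd (th.walk (i + 1)) (N (i + 1)) p2 le_rfl
      rwa [th.stop (i + 1), ← th.stop i, ← hn] at this

theorem pr_theta_lne (hp : p.Adm) {cf : Coef p} (hcf : cf.Sep) {𝔗 : Tab p} {S : Vtx p → Prop}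
    {N : Fin 3 → ℕ} {vx : Fin 3 → ℕ → Vtx p} {lb : Fin 3 → ℕ → Label p × Bool}
    (th : IsThetaW cf 𝔗 S N vx lb) (a : Fin 3 × ℕ) (ha : a.2 ≤ N a.1) :
    prThL₁ N lb a ≠ prThL₂ N lb a := by
  obtain ⟨i, n⟩ := a
  simp only at ha
  unfold prThL₁ prThL₂
  simp only
  by_cases h0 : n = 0
  · subst h0
    simp only [if_true]
    exact pr_theta_first_ne th i (i + 1) (pr_fin3_ne_succ i)
  · rw [if_neg h0, if_neg h0]
    by_cases h1 : n < N i
    · rw [if_pos h1, if_pos h1]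
      have := pr_walk_label_ne (th.walk i) (pr_theta_red hp hcf th i) (n - 1) (by omega)
      rwa [show n - 1 + 1 = n by omega] at this
    · rw [if_neg h1, if_neg h1]
      have hn : n = N i := by omega
      rw [hn]
      exact pr_theta_last_ne hp hcf th i (i + 1) (pr_fin3_ne_succ i)

theorem pr_theta_L_congr {N : Fin 3 → ℕ} {lb lb' : Fin 3 → ℕ → Label p × Bool}
    (hpos : ∀ i, 0 < N i) (h : ∀ i n, n < N i → lb i n = lb' i n) (a : Fin 3 × ℕ)
    (ha : a.2 ≤ N a.1) : prThL₁ N lb a = prThL₁ N lb' a ∧ prThL₂ N lb a = prThL₂ N lb' a := by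
  obtain ⟨i, n⟩ := a
  simp only at ha
  have p1 := hpos i
  have p2 := hpos (i + 1)
  unfold prThL₁ prThL₂
  simp only
  split_ifs with h0 h1
  · exact ⟨by rw [h i 0 p1], by rw [h (i + 1) 0 p2]⟩
  · exact ⟨by rw [h i n h1], by rw [h i (n - 1) (by omega)]⟩
  · exact ⟨by rw [h i (n - 1) (by omega)], by rw [h (i + 1) (N (i + 1) - 1) (by omega)]⟩

section

variable {cf : Coef p} {θ : THead} {c : TCand p θ} {𝔗 𝔗' : Tab p}
  {vx vx' : Fin 3 → ℕ → Vtx p} {lb lb' : Fin 3 → ℕ → Label p × Bool}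

/-- sides, heights, signed labels of two realisations coincide -/
theorem pr_theta_shape (r : TReal cf θ c 𝔗 vx lb) (r' : TReal cf θ c 𝔗' vx' lb') :
    (∀ i n, n ≤ θ.N i → (vx i n).sd = (vx' i n).sd ∧ (vx i n).ht = (vx' i n).ht) ∧
      ∀ i n, n < θ.N i → lb i n = lb' i n := by
  have hsd : ∀ i n, n ≤ θ.N i → (vx i n).sd = (vx' i n).sd := by
    intro i n hn
    rw [pr_theta_sd r.th i n hn, pr_theta_sd r'.th i n hn, r.m.sd0, r'.m.sd0]
  have hlb : ∀ i n, n < θ.N i → lb i n = lb' i n := by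
    intro i n hn
    apply Prod.ext
    · rw [r.m.lab i ⟨n, hn⟩, r'.m.lab i ⟨n, hn⟩]
    · rw [pr_walk_sign (r.th.walk i) n hn, pr_walk_sign (r'.th.walk i) n hn, hsd i n hn.le]
  refine ⟨fun i n hn => ⟨hsd i n hn, ?_⟩, hlb⟩
  induction n with
  | zero => rw [r.th.start, r'.th.start, r.m.ht0, r'.m.ht0]
  | succ n ih =>
    rw [pr_step_ht cf 𝔗 _ _ _ ((r.th.walk i).step n (by omega)),
      pr_step_ht cf 𝔗' _ _ _ ((r'.th.walk i).step n (by omega)), hlb i n (by omega),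
      hsd i n (by omega), ih (by omega)]

/-- **PU** for thetas -/
theorem pr_theta_PU (hp : p.Adm) (hcf : cf.Sep) (t : ℕ) (hT : TabEq t 𝔗 𝔗')
    (r : TReal cf θ c 𝔗 vx lb) (r' : TReal cf θ c 𝔗' vx' lb') :
    ∀ k, k ≤ t → ∀ i n, n ≤ θ.N i →
      (vx i n).u k = (vx' i n).u k ∧ (vx i n).v k = (vx' i n).v k := by
  obtain ⟨hshape, hlb⟩ := pr_theta_shape r r'
  intro k hk i n hn
  exact pr_cfg_PU hp hcf (fun a : Fin 3 × ℕ => a.2 ≤ θ.N a.1) (prThNb₁ θ.N) (prThNb₂ θ.N)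
    (fun a ha => pr_theta_nb r.th a ha) (prThL₁ θ.N lb) (prThL₂ θ.N lb)
    (fun a ha => pr_theta_lne hp hcf r.th a ha) t hT (fun a => vx a.1 a.2) (fun a => vx' a.1 a.2)
    (fun a ha => (hshape a.1 a.2 ha).1)
    (fun a ha => (pr_theta_steps r.th a ha).1) (fun a ha => (pr_theta_steps r.th a ha).2)
    (fun a ha => by
      rw [(pr_theta_L_congr r.th.pos hlb a ha).1]; exact (pr_theta_steps r'.th a ha).1)
    (fun a ha => by
      rw [(pr_theta_L_congr r.th.pos hlb a ha).2]; exact (pr_theta_steps r'.th a ha).2)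
    (fun a ha => ((r.th.walk a.1).mem a.2 ha).1.1) (fun a ha => ((r'.th.walk a.1).mem a.2 ha).1.1)
    k hk (i, n) hn

/-- uniqueness of the realisation -/
theorem pr_theta_unique (hp : p.Adm) (hcf : cf.Sep) (r : TReal cf θ c 𝔗 vx lb)
    (r' : TReal cf θ c 𝔗 vx' lb') : ∀ i n, n ≤ θ.N i → vx i n = vx' i n := by
  intro i n hn
  obtain ⟨hshape, -⟩ := pr_theta_shape r r'
  apply Vtx.ext (hshape i n hn).1 (hshape i n hn).2
  · funext k
    exact (pr_theta_PU hp hcf k (fun _ _ => rfl) r r' k le_rfl i n hn).1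
  · funext k
    exact (pr_theta_PU hp hcf k (fun _ _ => rfl) r r' k le_rfl i n hn).2

end

end Claimed.Agent.R300.Pr
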