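/-
Row 300 / S0553 (INJ paper), Section 03_pruning, THETA PART, package PRT-C (section owner: helper59):
`lem:pruning-theta-keys`: separation of prefixes in a short theta of `X^(1)`.
The `sorry`s are replaced IN PLACE by the owner of the package (table subtask, target row300, PRT-C).
Statements are frozen: ask helper59 before changing one (adding lemmas/definitions is free).

PROOFS.
`pr_X1_no_ret`: with `μ := H / (25 s)`, `H := p.H (vx 0).ht`, the walk is a coherent return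
  (`IsCohRet cf 𝔗 μ P vx lb`; the band `21 μ s ≤ H(vx n) ≤ 30 μ s` exactly as in `pr_closed_cohRet`, file
  PrRetDet.lean: `|H(vx n) - H| ≤ b P ≤ H / 10` by `pr_walk_H`, `25 s μ ≤ H < 25 s (μ+1)`, `H ≥ 2·10^6 s`);
  it contains a minimal one (`pr_exists_min`), whose vertices are in `Del1`: contradiction as in `pr_girth`.
`pr_theta_term_sep`: suppose `v := vx i n ≠ v' := vx j m`.  `pr_theta_path` gives a reduced walk of length
  `P ≤ e / 2` between them; apply `pr_X1_no_ret` with `K := t` (start `w ∈ {v, v'}`; `Agree` or `Agree.symm`):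
  `1 ≤ t`, `t ≤ kap`, `kap ≤ t + 1` by `pr_tlev_bounds`; `own (t+1)` by `pr_tlev_own` (so equal sides by
  `pr_own_inj` and `own (t-1)` by `pr_own_sub_two`).  Arithmetic: all heights of the theta differ by at most
  `2 e` (`pr_theta_ht`), so `short` gives `100 e lq < 152 (H_w + 2 b e)`; `20000 lq = 10001 s`
  (`lab_lq_spec`), `10^6 b ≤ lq`; hence `e s < 3.04 (H_w + 2 b e)`, `b e < 2·10^-6 H_w`;
  `(P + 2 μ) s ≤ e s / 2 + 0.08 H_w < 1.61 H_w ≤ 2 H_w - 4 s ≤ 2 t s` (`pr_kap_bounds`: `H_w ≤ kap s + s`).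
`pr_theta_branch_sep`: a shortest branch `i₀` (`3 N i₀ ≤ e`) is a reduced walk (`pr_theta_red`) from `x₁` to
  `x₂`; `pr_X1_no_ret` with `K := t`:  `(N i₀ + 2 μ) s ≤ e s / 3 + 0.08 H < 1.1 H ≤ 1.3 H ≤ 2 t s`.
-/
import Claimed.Agent.R300.PrThPU

set_option autoImplicit false

namespace Claimed.Agent.R300.Pr

open Claimed.Agent.R300.Lab

variable {p : Par}

/-! ## PRT-C -/

/-- no reduced walk of `X^(1)` is a coherent return -/
theorem pr_X1_no_ret (hp : p.Adm) {cf : Coef p} {𝔗 : Tab p} {P : ℕ} {vx : ℕ → Vtx p}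
    {lb : ℕ → Label p × Bool} (w : IsWalk cf 𝔗 (X1 cf 𝔗) P vx lb) (hP : 0 < P) (hr : Reduced P lb)
    (hside : (vx 0).sd = (vx P).sd) (K : ℕ) (hK1 : 1 ≤ K) (hKo : own (vx 0).sd (K - 1))
    (hKa : K ≤ p.kap (vx 0).ht) (hKb : K ≤ p.kap (vx P).ht) (hag : Agree (vx 0) (vx P) K)
    (hb : 10 * (p.b * P) ≤ p.H (vx 0).ht)
    (hthr : P + 2 * (p.H (vx 0).ht / (25 * p.s)) ≤ 2 * K) : False := by
  set H := p.H (vx 0).ht with hH
  set μ := H / (25 * p.s) with hμ
  have hs := hp.hs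
  have hn0 := hp.hn0
  have hHbig : 2000000 * p.s ≤ H := by
    rw [hH]; unfold Par.H
    have : 2000000 * p.s ≤ (2 * p.n0 + 1) * p.s := Nat.mul_le_mul_right _ (by omega)
    omega
  have hμ1 : 25 * p.s * μ ≤ H := Nat.mul_div_le H (25 * p.s)
  have hμ2 : H < 25 * p.s * (μ + 1) := Nat.lt_mul_div_succ H (by omega)
  have e3 : 25 * p.s * μ = 25 * (μ * p.s) := by ring
  have e4 : 25 * p.s * (μ + 1) = 25 * (μ * p.s) + 25 * p.s := by ring
  rw [e3] at hμ1
  rw [e4] at hμ2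
  have hc : IsCohRet cf 𝔗 μ P vx lb := by
    refine ⟨pr_walk_mono w (fun x hx => hx.1), hP, hr, ?_, hside, K, hK1, hKo, hthr, hKa, hKb, hag⟩
    intro n hn
    obtain ⟨a1, a2⟩ := pr_walk_H w n hn
    rw [← hH] at a1 a2
    have hbn : p.b * n ≤ p.b * P := Nat.mul_le_mul_left _ hn
    have e5 : 21 * μ * p.s = 21 * (μ * p.s) := by ring
    have e6 : 30 * μ * p.s = 30 * (μ * p.s) := by ring
    rw [e5, e6]
    constructor <;> omega
  obtain ⟨a, N', h1, h2⟩ := pr_exists_min P vx lb hc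
  have h3 : Del1 cf 𝔗 (vx a) := ⟨_, N', _, _, h2, 0, by omega, by simp [shiftV]⟩
  exact (w.mem a (by omega)).2 h3

/-- the arithmetic of a short theta, seen from a vertex `w` whose height differs by at most `D ≤ 2 e`
from the height of the vertex in `short` -/
theorem pr_thsep_arith (hp : p.Adm) (e Hw Hz : ℕ) (hz : Hz ≤ Hw + 2 * (p.b * e))
    (hshort : 100 * (e * p.lq) < 152 * Hz) :
    1000 * (e * p.s) < 3041 * Hw ∧ 100000 * (p.b * e) < Hw := by
  have hlq := lab_lq_spec hp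
  have hslope := hp.hslope
  have h1 : 20000 * (e * p.lq) = 10001 * (e * p.s) := by
    calc 20000 * (e * p.lq) = e * (20000 * p.lq) := by ring
      _ = e * (10001 * p.s) := by rw [hlq]
      _ = _ := by ring
  have h2 : 1000000 * (p.b * e) ≤ e * p.lq := by
    calc 1000000 * (p.b * e) = (1000000 * p.b) * e := by ring
      _ ≤ p.lq * e := Nat.mul_le_mul_right _ hslope
      _ = _ := Nat.mul_comm _ _
  constructor <;> linarith

theorem pr_H_big (hp : p.Adm) (h : ℕ) : 2000000 * p.s ≤ p.H h := by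
  have hn0 := hp.hn0
  unfold Par.H
  have : 2000000 * p.s ≤ (2 * p.n0 + 1) * p.s := Nat.mul_le_mul_right _ (by omega)
  omega

theorem pr_H_le_of_ht (p : Par) {h h' D : ℕ} (hh : h ≤ h' + D) : p.H h ≤ p.H h' + p.b * D := by
  calc p.H h ≤ p.H (h' + D) := pr_H_mono p hh
    _ = _ := pr_H_add p _ _

section

variable {cf : Coef p} {θ : THead} {c : TCand p θ} {𝔗 : Tab p}
  {vx : Fin 3 → ℕ → Vtx p} {lb : Fin 3 → ℕ → Label p × Bool}

/-- two vertices of a short theta of `X^(1)` with the same terminal level `t` whose prefixes agree to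
depth `t` coincide -/
theorem pr_theta_term_sep (hp : p.Adm) (hcf : cf.Sep) (r : TReal cf θ c 𝔗 vx lb) (i j : Fin 3)
    (n m : ℕ) (hn : n ≤ θ.N i) (hm : m ≤ θ.N j) (t : ℕ)
    (ht : tlev p (vx i n).sd (vx i n).ht = t) (ht' : tlev p (vx j m).sd (vx j m).ht = t)
    (hag : Agree (vx i n) (vx j m) t) : vx i n = vx j m := by
  by_contra hne
  obtain ⟨P, wv, wl, w, hr, hP, h2P, hends⟩ := pr_theta_path hp hcf r.th i j n m hn hm hne
  have hs := hp.hs
  -- facts valid for both vertices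
  have o1 : own (vx i n).sd (t + 1) := by
    have := pr_tlev_own hp (vx i n).sd (vx i n).ht
    rwa [ht] at this
  have o2 : own (vx j m).sd (t + 1) := by
    have := pr_tlev_own hp (vx j m).sd (vx j m).ht
    rwa [ht'] at this
  have b1 := pr_tlev_bounds hp (vx i n).sd (vx i n).ht
  have b2 := pr_tlev_bounds hp (vx j m).sd (vx j m).ht
  rw [ht] at b1
  rw [ht'] at b2
  have hsd : (vx i n).sd = (vx j m).sd := pr_own_inj o1 o2
  obtain ⟨t', rfl⟩ : ∃ t', t = t' + 1 := ⟨t - 1, by omega⟩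
  have o1' : own (vx i n).sd (t' + 1 - 1) := by
    rw [Nat.add_sub_cancel]; exact pr_own_sub_two o1
  have o2' : own (vx j m).sd (t' + 1 - 1) := by
    rw [Nat.add_sub_cancel]; exact pr_own_sub_two o2
  obtain ⟨i0, n0, hn0, hshort⟩ := r.short
  have hN : ∀ a : Fin 3, θ.N a ≤ θ.e := by
    intro a
    unfold THead.e
    fin_cases a <;> simp <;> omega
  have he : θ.N 0 + θ.N 1 + θ.N 2 = θ.e := rfl
  -- the general estimate from a vertex of the theta
  have main : ∀ (a : Fin 3) (l : ℕ), l ≤ θ.N a → p.kap (vx a l).ht ≤ t' + 1 + 1 →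
      10 * (p.b * P) ≤ p.H (vx a l).ht ∧
        P + 2 * (p.H (vx a l).ht / (25 * p.s)) ≤ 2 * (t' + 1) := by
    intro a l hl hkap
    have c1 := pr_theta_ht r.th a l hl
    have c2 := pr_theta_ht r.th i0 n0 hn0
    have d1 := hN a
    have d2 := hN i0
    have hz : p.H (vx i0 n0).ht ≤ p.H (vx a l).ht + 2 * (p.b * θ.e) := by
      have := pr_H_le_of_ht p (h := (vx i0 n0).ht) (h' := (vx a l).ht) (D := 2 * θ.e) (by omega)
      calc p.H (vx i0 n0).ht ≤ p.H (vx a l).ht + p.b * (2 * θ.e) := this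
        _ = _ := by ring
    obtain ⟨f1, f2⟩ := pr_thsep_arith hp θ.e _ _ hz hshort
    have hbig := pr_H_big hp (vx a l).ht
    obtain ⟨k1, k2⟩ := pr_kap_bounds hp (vx a l).ht
    set Hw := p.H (vx a l).ht with hHw
    set μ := Hw / (25 * p.s) with hμ
    have hμ1 : 25 * p.s * μ ≤ Hw := Nat.mul_div_le Hw (25 * p.s)
    have e3 : 25 * p.s * μ = 25 * (μ * p.s) := by ring
    rw [e3] at hμ1
    have g1 : 2 * (p.b * P) ≤ p.b * θ.e := by
      calc 2 * (p.b * P) = p.b * (2 * P) := by ring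
        _ ≤ p.b * θ.e := Nat.mul_le_mul_left _ (by omega)
    have g2 : 2 * (P * p.s) ≤ θ.e * p.s := by
      calc 2 * (P * p.s) = (2 * P) * p.s := by ring
        _ ≤ θ.e * p.s := Nat.mul_le_mul_right _ (by omega)
    have g3 : p.kap (vx a l).ht * p.s ≤ t' * p.s + 2 * p.s := by
      calc p.kap (vx a l).ht * p.s ≤ (t' + 1 + 1) * p.s := Nat.mul_le_mul_right _ hkap
        _ = _ := by ring
    refine ⟨by omega, ?_⟩
    have h1 : (P + 2 * μ) * p.s ≤ (2 * (t' + 1)) * p.s := by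
      have e7 : (P + 2 * μ) * p.s = P * p.s + 2 * (μ * p.s) := by ring
      have e8 : (2 * (t' + 1)) * p.s = 2 * (t' * p.s) + 2 * p.s := by ring
      rw [e7, e8]
      omega
    exact Nat.le_of_mul_le_mul_right h1 hs
  rcases hends with ⟨h0, hPe⟩ | ⟨h0, hPe⟩
  · obtain ⟨m1, m2⟩ := main i n hn b1.1
    refine pr_X1_no_ret hp w hP hr (by rw [h0, hPe]; exact hsd) (t' + 1) (by omega)
      (by rw [h0]; exact o1') (by rw [h0]; exact b1.2.1) (by rw [hPe]; exact b2.2.1)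
      (by rw [h0, hPe]; exact hag) (by rw [h0]; exact m1) (by rw [h0]; exact m2)
  · obtain ⟨m1, m2⟩ := main j m hm b2.1
    refine pr_X1_no_ret hp w hP hr (by rw [h0, hPe]; exact hsd.symm) (t' + 1) (by omega)
      (by rw [h0]; exact o2') (by rw [h0]; exact b2.2.1) (by rw [hPe]; exact b1.2.1)
      (by rw [h0, hPe]; exact hag.symm) (by rw [h0]; exact m1) (by rw [h0]; exact m2)

/-- the prefixes of the two branch vertices do not agree to a depth beyond `.65 H` -/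
theorem pr_theta_branch_sep (hp : p.Adm) (hcf : cf.Sep) (r : TReal cf θ c 𝔗 vx lb) (t : ℕ)
    (h65 : 65 * p.H θ.ht ≤ 100 * (t * p.s)) (hk1 : t ≤ p.kap (vx 0 0).ht)
    (hk2 : t ≤ p.kap (vx 0 (θ.N 0)).ht) (o1 : own (vx 0 0).sd (t + 1))
    (o2 : own (vx 0 (θ.N 0)).sd (t + 1)) (hag : Agree (vx 0 0) (vx 0 (θ.N 0)) t) : False := by
  have hs := hp.hs
  have hsd : (vx 0 0).sd = (vx 0 (θ.N 0)).sd := pr_own_inj o1 o2
  have hbig := pr_H_big hp θ.ht
  have ht1 : 1 ≤ t := by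
    by_contra h
    have : t = 0 := by omega
    subst this
    omega
  obtain ⟨t', rfl⟩ : ∃ t', t = t' + 1 := ⟨t - 1, by omega⟩
  have o1' : own (vx 0 0).sd (t' + 1 - 1) := by
    rw [Nat.add_sub_cancel]; exact pr_own_sub_two o1
  obtain ⟨i0, n0, hn0, hshort⟩ := r.short
  have hN : ∀ a : Fin 3, θ.N a ≤ θ.e := by
    intro a
    unfold THead.e
    fin_cases a <;> simp <;> omega
  -- a shortest branch
  obtain ⟨a, ha⟩ : ∃ a : Fin 3, 3 * θ.N a ≤ θ.e := by
    unfold THead.e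
    by_cases h0 : θ.N 0 ≤ θ.N 1 ∧ θ.N 0 ≤ θ.N 2
    · exact ⟨0, by omega⟩
    · by_cases h1 : θ.N 1 ≤ θ.N 0 ∧ θ.N 1 ≤ θ.N 2
      · exact ⟨1, by omega⟩
      · exact ⟨2, by omega⟩
  have c2 := pr_theta_ht r.th i0 n0 hn0
  have d2 := hN i0
  have hht := r.m.ht0
  have hz : p.H (vx i0 n0).ht ≤ p.H θ.ht + 2 * (p.b * θ.e) := by
    have := pr_H_le_of_ht p (h := (vx i0 n0).ht) (h' := θ.ht) (D := 2 * θ.e) (by omega)
    calc p.H (vx i0 n0).ht ≤ p.H θ.ht + p.b * (2 * θ.e) := this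
      _ = _ := by ring
  obtain ⟨f1, f2⟩ := pr_thsep_arith hp θ.e _ _ hz hshort
  set Hw := p.H θ.ht with hHw
  set μ := Hw / (25 * p.s) with hμ
  have hμ1 : 25 * p.s * μ ≤ Hw := Nat.mul_div_le Hw (25 * p.s)
  have e3 : 25 * p.s * μ = 25 * (μ * p.s) := by ring
  rw [e3] at hμ1
  have g1 : 3 * (p.b * θ.N a) ≤ p.b * θ.e := by
    calc 3 * (p.b * θ.N a) = p.b * (3 * θ.N a) := by ring
      _ ≤ p.b * θ.e := Nat.mul_le_mul_left _ ha
  have g2 : 3 * (θ.N a * p.s) ≤ θ.e * p.s := by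
    calc 3 * (θ.N a * p.s) = (3 * θ.N a) * p.s := by ring
      _ ≤ θ.e * p.s := Nat.mul_le_mul_right _ ha
  have e9 : (t' + 1) * p.s = t' * p.s + p.s := by ring
  rw [e9] at h65
  have hthr : θ.N a + 2 * μ ≤ 2 * (t' + 1) := by
    have h1 : (θ.N a + 2 * μ) * p.s ≤ (2 * (t' + 1)) * p.s := by
      have e7 : (θ.N a + 2 * μ) * p.s = θ.N a * p.s + 2 * (μ * p.s) := by ring
      have e8 : (2 * (t' + 1)) * p.s = 2 * (t' * p.s) + 2 * p.s := by ring
      rw [e7, e8]
      omega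
    exact Nat.le_of_mul_le_mul_right h1 hs
  have s0 := r.th.start a
  have s1 := r.th.stop a
  refine pr_X1_no_ret hp (r.th.walk a) (r.th.pos a) (pr_theta_red hp hcf r.th a)
    (by rw [s0, s1]; exact hsd) (t' + 1) (by omega) (by rw [s0]; exact o1') (by rw [s0]; exact hk1)
    (by rw [s1]; exact hk2) (by rw [s0, s1]; exact hag) ?_ ?_
  · rw [s0, hht]; omega
  · rw [s0, hht]; exact hthr

end

end Claimed.Agent.R300.Pr
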