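/-
Row 300 / S0553 (INJ paper), Section 03_pruning, THETA PART, package PRT-E (section owner: helper59):
branch sites (`lem:pruning-triple-ranks`) and the number of available updates
(`eq:pruning-branch-budget`).
The `sorry`s are replaced IN PLACE by the owner of the package (table subtask, target row300, PRT-E).
Statements are frozen: ask helper59 before changing one (adding lemmas/definitions is free).

HINTS.  The three `brSite` lemmas are the analogues of `pr_termSite_congr`, `pr_termSite_mem`,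
`pr_termSite_rank` (file PrTerm.lean; copy the proofs): `pr_site_mem` with `u := x.u (t+1)`, `v := x.v (t+1)`,
`IsPre p.s` is `lab_isPre_full`; rank: `TSite.rank_one` + `tw l0 t = p.s` (unfold `tw`, `Par.wd`);
`NameNe l1 l2 (t+1)` from `lab_names_ne` and `own x.sd (t+1)` (see the end of `lab_walk_nameNe`, LabRec.lean).
`pr_avail_count`: let `par` be the parity of the `t` with `own sd (t+1)`.  `#{t ∈ [lo,hi) : t % 2 = par} ≥
(hi-lo)/2`;  `lab_avail` (for the edge given by `pr_step_common`; `pr_zipU_comm` if the step is negative):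
`1000 #{k ∈ [1, kap h) : k % 2 = par ∧ (¬ gate ∨ isCut ∨ inZone)} < 5 #{k ∈ [1, kap h) : k % 2 = par} ≤ 5 κ'`.
-/
import Claimed.Agent.R300.PrThSep

set_option autoImplicit false

namespace Claimed.Agent.R300.Pr

open Claimed.Agent.R300.Lab
open Claimed.Agent.R300.PrProb
open Classical

variable {p : Par}

/-! ## PRT-E -/

/-- the branch site of the vertex `x`: fresh edge `(x, y0)`, other edges `(x, y1)`, `(x, y2)` -/
noncomputable def brSite (cf : Coef p) (t : ℕ) (x y0 y1 y2 : Vtx p) (l0 l1 l2 : Label p) :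
    TSite p t :=
  ⟨mkSlot cf l0 (zipU x y0) t, p.s, [mkSlot cf l1 (zipU x y1) t, mkSlot cf l2 (zipU x y2) t]⟩

theorem pr_brSite_congr (cf : Coef p) (t : ℕ) (x y0 y1 y2 x' y0' y1' y2' : Vtx p)
    (l0 l1 l2 : Label p) (hx : ∀ j, j ≤ t → x.u j = x'.u j) (h0 : ∀ j, j ≤ t → y0.u j = y0'.u j)
    (h1 : ∀ j, j ≤ t → y1.u j = y1'.u j) (h2 : ∀ j, j ≤ t → y2.u j = y2'.u j) :
    brSite cf t x y0 y1 y2 l0 l1 l2 = brSite cf t x' y0' y1' y2' l0 l1 l2 := by
  unfold brSite
  rw [pr_mkSlot_congr cf l0 (zipU x y0) (zipU x' y0') t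
      (fun j hj => by unfold zipU; rw [hx j hj, h0 j hj]),
    pr_mkSlot_congr cf l1 (zipU x y1) (zipU x' y1') t
      (fun j hj => by unfold zipU; rw [hx j hj, h1 j hj]),
    pr_mkSlot_congr cf l2 (zipU x y2) (zipU x' y2') t
      (fun j hj => by unfold zipU; rw [hx j hj, h2 j hj])]

/-- an actual vertex with three incident surviving edges passes its branch test -/
theorem pr_brSite_mem (hp : p.Adm) (cf : Coef p) (hcf : cf.Sep) (𝔗 : Tab p) (x y0 y1 y2 : Vtx p)
    (l0 l1 l2 : Label p) (σ : Bool) (s0 : Step cf 𝔗 x y0 (l0, σ)) (s1 : Step cf 𝔗 x y1 (l1, σ))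
    (s2 : Step cf 𝔗 x y2 (l2, σ)) (gx : ¬ GateBad cf 𝔗 x) (g0 : ¬ GateBad cf 𝔗 y0)
    (g1 : ¬ GateBad cf 𝔗 y1) (g2 : ¬ GateBad cf 𝔗 y2) (t : ℕ) (ht : 1 ≤ t)
    (ho : own x.sd (t + 1)) (hz : ¬ inZone l0 t) (hg : gate (zipU x y0) t) :
    𝔗 t (brSite cf t x y0 y1 y2 l0 l1 l2).f.key (brSite cf t x y0 y1 y2 l0 l1 l2).arg
      ∈ (brSite cf t x y0 y1 y2 l0 l1 l2).Al cf (𝔗 t) := by
  have sd0 : x.sd ≠ y0.sd := by
    obtain ⟨a, b⟩ := pr_step_sd cf 𝔗 _ _ _ s0
    rw [a, b]; cases σ <;> simp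
  have sd1 : x.sd ≠ y1.sd := by
    obtain ⟨a, b⟩ := pr_step_sd cf 𝔗 _ _ _ s1
    rw [a, b]; cases σ <;> simp
  have sd2 : x.sd ≠ y2.sd := by
    obtain ⟨a, b⟩ := pr_step_sd cf 𝔗 _ _ _ s2
    rw [a, b]; cases σ <;> simp
  have u0 := pr_step_univ hp cf hcf 𝔗 _ _ _ s0 gx g0
  have u1 := pr_step_univ hp cf hcf 𝔗 _ _ _ s1 gx g1
  have u2 := pr_step_univ hp cf hcf 𝔗 _ _ _ s2 gx g2
  apply pr_site_mem cf _ _ (x.u (t + 1)) (x.v (t + 1))
  · exact ⟨hz, hg⟩
  · exact lab_isPre_full le_rfl _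
  · have := pr_slot_eq cf 𝔗 l0 _ _ t ht (u0 (t + 1))
    rwa [pr_zipU_own _ _ sd0 _ ho, pr_zipV_own _ _ sd0 _ ho] at this
  · intro σ' hσ'
    have hc : σ' = mkSlot cf l1 (zipU x y1) t ∨ σ' = mkSlot cf l2 (zipU x y2) t := by
      simpa [brSite] using hσ'
    rcases hc with rfl | rfl
    · have := pr_slot_eq cf 𝔗 l1 _ _ t ht (u1 (t + 1))
      rwa [pr_zipU_own _ _ sd1 _ ho, pr_zipV_own _ _ sd1 _ ho] at this
    · have := pr_slot_eq cf 𝔗 l2 _ _ t ht (u2 (t + 1))
      rwa [pr_zipU_own _ _ sd2 _ ho, pr_zipV_own _ _ sd2 _ ho] at this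

/-- the rank of a branch site at an ordinary block is `s` -/
theorem pr_brSite_rank (hp : p.Adm) (cf : Coef p) (hcf : cf.Sep) (𝔗 : Tab p) (x y0 y1 y2 : Vtx p)
    (l0 l1 l2 : Label p) (σ : Bool) (s1 : Step cf 𝔗 x y1 (l1, σ)) (s2 : Step cf 𝔗 x y2 (l2, σ))
    (hne : l1 ≠ l2) (t : ℕ) (ht : 1 ≤ t) (ho : own x.sd (t + 1)) (hc : ¬ isCut l0 t)
    (ω : Lvl p t) :
    ((brSite cf t x y0 y1 y2 l0 l1 l2).Al cf ω).card * 2 ^ p.s
      ≤ Fintype.card (Cell p t (brSite cf t x y0 y1 y2 l0 l1 l2).f.key) := by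
  have htw : tw l0 t = p.s := by
    unfold tw Par.wd
    rw [if_neg hc, if_neg (by omega)]
  have hnn : NameNe l1 l2 (t + 1) := by
    have hn := lab_names_ne hp cf hcf 𝔗 y1 x y2 l1 l2 σ s1 s2 hne
    have hsd : x.sd = !σ := (pr_step_sd cf 𝔗 _ _ _ s1).1
    unfold own at ho
    rw [hsd] at ho
    constructor
    · intro hk0
      apply hn.1
      cases σ
      · simp at ho; omega
      · rfl
    · intro hk1
      apply hn.2
      cases σ
      · rfl
      · simp at ho; omega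
  have h := TSite.rank_one cf hcf (brSite cf t x y0 y1 y2 l0 l1 l2) ω (lab_tw_le hp _ _)
    (mkSlot cf l1 (zipU x y1) t) (mkSlot cf l2 (zipU x y2) t) (by simp [brSite])
    (by simp [brSite]) hnn
  have h' : tw (brSite cf t x y0 y1 y2 l0 l1 l2).f.l t = p.s := htw
  calc ((brSite cf t x y0 y1 y2 l0 l1 l2).Al cf ω).card * 2 ^ p.s
      = ((brSite cf t x y0 y1 y2 l0 l1 l2).Al cf ω).card
          * 2 ^ tw (brSite cf t x y0 y1 y2 l0 l1 l2).f.l t := by
        exact congrArg (fun n => ((brSite cf t x y0 y1 y2 l0 l1 l2).Al cf ω).card * 2 ^ n) h'.symm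
    _ ≤ _ := h

/-- the number of integers of one parity in an interval -/
theorem pr_ths_parity (lo hi par : ℕ) (hpar : par < 2) :
    (hi - lo) / 2 ≤ ((Finset.Ico lo hi).filter (fun k => k % 2 = par)).card := by
  have := Finset.card_le_card_of_injOn (s := Finset.range ((hi - lo) / 2))
    (t := (Finset.Ico lo hi).filter (fun k => k % 2 = par))
    (fun j => lo + 2 * j + (if lo % 2 = par then 0 else 1))
    (by
      intro j hj
      have hj' := Finset.mem_range.1 (Finset.mem_coe.1 hj)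
      simp only [Finset.coe_filter, Finset.mem_Ico, Set.mem_ofPred_eq]
      split_ifs <;> omega)
    (by
      intro j _ j' _ hjj
      simp only at hjj
      omega)
  simpa using this

/-- `lab_avail` for a step -/
theorem pr_ths_avail (hp : p.Adm) (cf : Coef p) (𝔗 : Tab p) (x y : Vtx p) (l : Label p) (σ : Bool)
    (s : Step cf 𝔗 x y (l, σ)) (gx : ¬ GateBad cf 𝔗 x) (gy : ¬ GateBad cf 𝔗 y)
    (par : ℕ) (hpar : par < 2) :
    1000 * ((Finset.Ico 1 (p.kap (min x.ht y.ht))).filter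
        (fun k => k % 2 = par ∧ (¬ gate (zipU x y) k ∨ isCut l k ∨ inZone l k))).card <
      5 * ((Finset.Ico 1 (p.kap (min x.ht y.ht))).filter (fun k => k % 2 = par)).card := by
  obtain ⟨-, hc⟩ := pr_step_common cf 𝔗 x y _ s
  rcases hc with ⟨-, he⟩ | ⟨-, he⟩
  · exact lab_avail hp cf 𝔗 _ x y l he gx par hpar
  · rw [pr_zipU_comm]
    exact lab_avail hp cf 𝔗 _ y x l he gy par hpar

/-- number of available updates of one parity on a surviving edge -/
theorem pr_avail_count (hp : p.Adm) (cf : Coef p) (𝔗 : Tab p) (x y : Vtx p) (l : Label p) (σ : Bool)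
    (s : Step cf 𝔗 x y (l, σ)) (gx : ¬ GateBad cf 𝔗 x) (gy : ¬ GateBad cf 𝔗 y) (sd : Bool)
    (lo hi T κ' : ℕ) (hlo : 1 ≤ lo) (hhi : hi ≤ p.kap (min x.ht y.ht)) (hT : hi ≤ T)
    (hκ : p.kap (min x.ht y.ht) ≤ κ') :
    (hi - lo) / 2 - κ' / 200 ≤ ((Finset.range T).filter (fun t => lo ≤ t ∧ t < hi ∧
      own sd (t + 1) ∧ ¬ isCut l t ∧ ¬ inZone l t ∧ gate (zipU x y) t)).card := by
  obtain ⟨par, hpar, hown⟩ : ∃ par, par < 2 ∧ ∀ t, t % 2 = par → own sd (t + 1) := by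
    cases sd
    · refine ⟨1, by norm_num, fun t ht => ?_⟩
      unfold own
      simp
      omega
    · refine ⟨0, by norm_num, fun t ht => ?_⟩
      unfold own
      simp
      omega
  have hA := pr_ths_parity lo hi par hpar
  have hB := pr_ths_avail hp cf 𝔗 x y l σ s gx gy par hpar
  have hC : ((Finset.Ico 1 (p.kap (min x.ht y.ht))).filter (fun k => k % 2 = par)).card
      ≤ p.kap (min x.ht y.ht) := by
    refine (Finset.card_filter_le _ _).trans ?_
    rw [Nat.card_Ico]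
    omega
  have hsub : (Finset.Ico lo hi).filter (fun k => k % 2 = par) ⊆
      ((Finset.range T).filter (fun t => lo ≤ t ∧ t < hi ∧
        own sd (t + 1) ∧ ¬ isCut l t ∧ ¬ inZone l t ∧ gate (zipU x y) t)) ∪
      ((Finset.Ico 1 (p.kap (min x.ht y.ht))).filter
        (fun k => k % 2 = par ∧ (¬ gate (zipU x y) k ∨ isCut l k ∨ inZone l k))) := by
    intro k hk
    obtain ⟨hk1, hk2⟩ := Finset.mem_filter.1 hk
    obtain ⟨hk3, hk4⟩ := Finset.mem_Ico.1 hk1
    rw [Finset.mem_union]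
    by_cases hbad : ¬ gate (zipU x y) k ∨ isCut l k ∨ inZone l k
    · exact Or.inr (Finset.mem_filter.2 ⟨Finset.mem_Ico.2 ⟨by omega, by omega⟩, hk2, hbad⟩)
    · push Not at hbad
      exact Or.inl (Finset.mem_filter.2 ⟨Finset.mem_range.2 (by omega), hk3, hk4, hown k hk2,
        hbad.2.1, hbad.2.2, hbad.1⟩)
  have hD := (Finset.card_le_card hsub).trans (Finset.card_union_le _ _)
  omega

end Claimed.Agent.R300.Pr
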