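/-
Row 300 / S0553 (INJ paper), Section 03_pruning, THETA PART (owner: helper59): probability that a theta
candidate is realised (`eq:pruning-branch-budget`, `eq:pruning-theta-terminal`,
`lem:pruning-rank-process`).
-/
import Claimed.Agent.R300.PrThSite

set_option autoImplicit false

namespace Claimed.Agent.R300.Pr

open Claimed.Agent.R300.Lab
open Claimed.Agent.R300.PrProb
open Classical

variable {p : Par}

/-- first level of the terminal window: all terminal tests happen at levels `≥ tmin`, all branch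
tests at levels `< tmin` -/
def THead.tmin (θ : THead) (p : Par) : ℕ := p.kap (θ.ht - θ.e) - 1

/-- first level at which both branch vertices are charged -/
def THead.t65 (θ : THead) (p : Par) : ℕ := 65 * p.H θ.ht / (100 * p.s) + 1

/-- guaranteed number of branch updates -/
def THead.B0 (θ : THead) (p : Par) : ℕ :=
  ((θ.tmin p - 10) / 2 - p.kap (θ.ht + θ.e) / 200)
    + ((θ.tmin p - θ.t65 p) / 2 - p.kap (θ.ht + θ.e) / 200)

/-- guaranteed accumulated rank -/
def THead.R0 (θ : THead) (p : Par) : ℕ :=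
  ((θ.N 0 - 1) / 2 + (θ.N 1 - 1) / 2 + (θ.N 2 - 1) / 2) * (p.s - 2 * p.b) + p.s * θ.B0 p

/-! ### the slots at the two branch vertices -/

/-- the branch vertices: `false ↦ x₁`, `true ↦ x₂` -/
def thX (N : Fin 3 → ℕ) (vx : Fin 3 → ℕ → Vtx p) (b : Bool) : Vtx p :=
  if b then vx 0 (N 0) else vx 0 0

/-- the neighbour of a branch vertex on the branch `j` -/
def thY (N : Fin 3 → ℕ) (vx : Fin 3 → ℕ → Vtx p) (b : Bool) (j : Fin 3) : Vtx p :=
  if b then vx j (N j - 1) else vx j 1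

/-- the label of the edge at a branch vertex on the branch `j` -/
def thL (N : Fin 3 → ℕ) (lb : Fin 3 → ℕ → Label p × Bool) (b : Bool) (j : Fin 3) : Label p :=
  if b then (lb j (N j - 1)).1 else (lb j 0).1

section theta

variable {cf : Coef p} {𝔗 : Tab p} {S : Vtx p → Prop} {N : Fin 3 → ℕ} {vx : Fin 3 → ℕ → Vtx p}
  {lb : Fin 3 → ℕ → Label p × Bool}

theorem pr_thX_mem (th : IsThetaW cf 𝔗 S N vx lb) (b : Bool) : S (thX N vx b) := by
  cases b
  · exact (th.walk 0).mem 0 (Nat.zero_le _)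
  · exact (th.walk 0).mem (N 0) le_rfl

theorem pr_thY_mem (th : IsThetaW cf 𝔗 S N vx lb) (b : Bool) (j : Fin 3) : S (thY N vx b j) := by
  have := th.pos j
  cases b
  · exact (th.walk j).mem 1 (by omega)
  · exact (th.walk j).mem (N j - 1) (by omega)

theorem pr_th_step (th : IsThetaW cf 𝔗 S N vx lb) (b : Bool) (j : Fin 3) :
    Step cf 𝔗 (thX N vx b) (thY N vx b j) (thL N lb b j, !(thX N vx b).sd) := by
  have hpos := th.pos j
  cases b
  · have h := (th.walk j).step 0 hpos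
    have hs := pr_walk_sign (th.walk j) 0 hpos
    have e : lb j 0 = ((lb j 0).1, !(vx j 0).sd) := Prod.ext rfl hs
    rw [e, th.start j] at h
    exact h
  · have h := (th.walk j).step (N j - 1) (by omega)
    rw [show N j - 1 + 1 = N j by omega] at h
    have hs := (pr_step_sd cf 𝔗 _ _ _ h).2
    have h2 := (pr_step_symm cf 𝔗 _ _ (lb j (N j - 1)).1 (lb j (N j - 1)).2).1 h
    rw [← hs, th.stop j] at h2
    exact h2

theorem pr_thL_ne (hp : p.Adm) (hcf : cf.Sep) (th : IsThetaW cf 𝔗 S N vx lb) (b : Bool)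
    (j j' : Fin 3) (h : j ≠ j') : thL N lb b j ≠ thL N lb b j' := by
  cases b
  · exact pr_theta_first_ne th j j' h
  · exact pr_theta_last_ne hp hcf th j j' h

end theta

theorem pr_th_N_le (θ : THead) (i : Fin 3) : θ.N i ≤ θ.e := by
  unfold THead.e
  fin_cases i <;> simp <;> omega

section real

variable {cf : Coef p} {θ : THead} {c : TCand p θ} {𝔗 𝔗' : Tab p}
  {vx vx' : Fin 3 → ℕ → Vtx p} {lb lb' : Fin 3 → ℕ → Label p × Bool}

/-- cutoffs of the vertices of a realisation -/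
theorem pr_th_kap (hp : p.Adm) (r : TReal cf θ c 𝔗 vx lb) (i : Fin 3) (n : ℕ) (hn : n ≤ θ.N i) :
    p.kap (θ.ht - θ.e) ≤ p.kap (vx i n).ht ∧ p.kap (vx i n).ht ≤ p.kap (θ.ht + θ.e) := by
  have h1 := pr_theta_ht r.th i n hn
  rw [r.m.ht0] at h1
  have h2 := pr_th_N_le θ i
  exact ⟨pr_kap_mono hp (by omega), pr_kap_mono hp (by omega)⟩

theorem pr_thX_kap (hp : p.Adm) (r : TReal cf θ c 𝔗 vx lb) (b : Bool) :
    p.kap (θ.ht - θ.e) ≤ p.kap (thX θ.N vx b).ht ∧
      p.kap (thX θ.N vx b).ht ≤ p.kap (θ.ht + θ.e) := by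
  cases b
  · exact pr_th_kap hp r 0 0 (Nat.zero_le _)
  · exact pr_th_kap hp r 0 (θ.N 0) le_rfl

theorem pr_thY_kap (hp : p.Adm) (r : TReal cf θ c 𝔗 vx lb) (b : Bool) (j : Fin 3) :
    p.kap (θ.ht - θ.e) ≤ p.kap (thY θ.N vx b j).ht ∧
      p.kap (thY θ.N vx b j).ht ≤ p.kap (θ.ht + θ.e) := by
  have := r.th.pos j
  cases b
  · exact pr_th_kap hp r j 1 (by omega)
  · exact pr_th_kap hp r j (θ.N j - 1) (by omega)

theorem pr_th_gx (r : TReal cf θ c 𝔗 vx lb) (b : Bool) : ¬ GateBad cf 𝔗 (thX θ.N vx b) :=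
  (pr_thX_mem r.th b).1.1

theorem pr_th_gy (r : TReal cf θ c 𝔗 vx lb) (b : Bool) (j : Fin 3) :
    ¬ GateBad cf 𝔗 (thY θ.N vx b j) :=
  (pr_thY_mem r.th b j).1.1

/-- the shape of the slots at the branch vertices does not depend on the realisation -/
theorem pr_th_shape (r : TReal cf θ c 𝔗 vx lb) (r' : TReal cf θ c 𝔗' vx' lb') (b : Bool) :
    (thX θ.N vx b).sd = (thX θ.N vx' b).sd ∧ ∀ j, thL θ.N lb b j = thL θ.N lb' b j := by
  obtain ⟨h1, h2⟩ := pr_theta_shape r r'
  cases b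
  · exact ⟨(h1 0 0 (Nat.zero_le _)).1, fun j => congrArg Prod.fst (h2 j 0 (r.th.pos j))⟩
  · refine ⟨(h1 0 (θ.N 0) le_rfl).1, fun j => congrArg Prod.fst (h2 j (θ.N j - 1) ?_)⟩
    have := r.th.pos j
    omega

/-- PU for the slots at the branch vertices -/
theorem pr_th_PU (hp : p.Adm) (hcf : cf.Sep) (t : ℕ) (hT : TabEq t 𝔗 𝔗')
    (r : TReal cf θ c 𝔗 vx lb) (r' : TReal cf θ c 𝔗' vx' lb') (b : Bool) :
    (∀ k, k ≤ t → (thX θ.N vx b).u k = (thX θ.N vx' b).u k) ∧
      ∀ j k, k ≤ t → (thY θ.N vx b j).u k = (thY θ.N vx' b j).u k := by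
  have h := pr_theta_PU hp hcf t hT r r'
  cases b
  · refine ⟨fun k hk => (h k hk 0 0 (Nat.zero_le _)).1, fun j k hk => (h k hk j 1 ?_).1⟩
    have := r.th.pos j
    omega
  · exact ⟨fun k hk => (h k hk 0 (θ.N 0) le_rfl).1,
      fun j k hk => (h k hk j (θ.N j - 1) (Nat.sub_le _ _)).1⟩

/-- `lem:pruning-theta-keys`, branch part: the keys read at the branch vertices are distinct -/
theorem pr_theta_br_keys (hp : p.Adm) (hcf : cf.Sep) (r : TReal cf θ c 𝔗 vx lb) (t : ℕ)
    (b b' : Bool) (j j' : Fin 3) (ht : t < θ.tmin p) (h65 : b ≠ b' → θ.t65 p ≤ t)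
    (o : own (thX θ.N vx b).sd (t + 1)) (o' : own (thX θ.N vx b').sd (t + 1))
    (hl : thL θ.N lb b j = thL θ.N lb b' j')
    (hk : key (zipU (thX θ.N vx b) (thY θ.N vx b j)) t
      = key (zipU (thX θ.N vx b') (thY θ.N vx b' j')) t) : b = b' ∧ j = j' := by
  have hsd : (thX θ.N vx b).sd = (thX θ.N vx b').sd := pr_own_inj o o'
  have s1 := pr_th_step r.th b j
  have s2 := pr_th_step r.th b' j'
  rw [← hsd, ← hl] at s2
  have hag : Agree (thX θ.N vx b) (thX θ.N vx b') t :=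
    pr_key_agree_vtx hp cf hcf 𝔗 _ _ _ _ _ _ s1 s2 (pr_th_gx r b) (pr_th_gy r b j)
      (pr_th_gx r b') (pr_th_gy r b' j') t hk
  by_cases hb : b = b'
  · subst hb
    refine ⟨rfl, ?_⟩
    by_contra hj
    exact pr_thL_ne hp hcf r.th b j j' hj hl
  · exfalso
    have h1 := h65 hb
    have hs := hp.hs
    have h2 : 65 * p.H θ.ht ≤ 100 * (t * p.s) := by
      unfold THead.t65 at h1
      have h3 : 65 * p.H θ.ht < (100 * p.s) * (65 * p.H θ.ht / (100 * p.s) + 1) :=
        Nat.lt_mul_div_succ _ (by omega)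
      have h4 : (100 * p.s) * (65 * p.H θ.ht / (100 * p.s) + 1) ≤ (100 * p.s) * t :=
        Nat.mul_le_mul_left _ h1
      have e : 100 * (t * p.s) = (100 * p.s) * t := by ring
      omega
    have k1 := (pr_thX_kap hp r false).1
    have k2 := (pr_thX_kap hp r true).1
    unfold THead.tmin at ht
    cases b <;> cases b'
    · exact hb rfl
    · exact pr_theta_branch_sep hp hcf r t h2 (le_trans (by omega) k1) (le_trans (by omega) k2)
        o o' hag
    · exact pr_theta_branch_sep hp hcf r t h2 (le_trans (by omega) k1) (le_trans (by omega) k2)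
        o' o hag.symm
    · exact hb rfl

/-- `lem:pruning-theta-keys`, terminal part: the keys read at the interior vertices are distinct -/
theorem pr_theta_term_keys (hp : p.Adm) (hcf : cf.Sep) (r : TReal cf θ c 𝔗 vx lb) (t : ℕ)
    (i i' : Fin 3) (n n' : ℕ) (hn : 1 ≤ n ∧ n < θ.N i) (hn' : 1 ≤ n' ∧ n' < θ.N i')
    (ht : tlev p (vx i n).sd (vx i n).ht = t) (ht' : tlev p (vx i' n').sd (vx i' n').ht = t)
    (d d' : Bool) (hl : nlab (lb i) n d = nlab (lb i') n' d')
    (hk : key (zipU (vx i n) (vx i (nbr n d))) t = key (zipU (vx i' n') (vx i' (nbr n' d'))) t) :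
    (i = i' ∧ n = n') ∧ d = d' := by
  have w := r.th.walk i
  have w' := r.th.walk i'
  have o1 : own (vx i n).sd (t + 1) := by rw [← ht]; exact pr_tlev_own hp _ _
  have o2 : own (vx i' n').sd (t + 1) := by rw [← ht']; exact pr_tlev_own hp _ _
  have hsd : (vx i n).sd = (vx i' n').sd := pr_own_inj o1 o2
  have s1 := pr_walk_slot w n hn.1 hn.2 d
  have s2 := pr_walk_slot w' n' hn'.1 hn'.2 d'
  rw [← hsd, ← hl] at s2
  have hag : Agree (vx i n) (vx i' n') t :=
    pr_key_agree_vtx hp cf hcf 𝔗 _ _ _ _ _ _ s1 s2 (w.mem n (by omega)).1.1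
      (w.mem _ (pr_nbr_le n hn.2 d)).1.1 (w'.mem n' (by omega)).1.1
      (w'.mem _ (pr_nbr_le n' hn'.2 d')).1.1 t hk
  have he := pr_theta_term_sep hp hcf r i i' n n' (by omega) (by omega) t ht ht' hag
  obtain ⟨rfl, rfl⟩ := r.th.inj i i' n n' (by omega) hn.2 (by omega) hn'.2 he
  refine ⟨⟨rfl, rfl⟩, ?_⟩
  by_contra hne
  have hne' := pr_walk_label_ne w (pr_theta_red hp hcf r.th i) (n - 1) (by omega)
  rw [show n - 1 + 1 = n by omega] at hne'
  unfold nlab at hl
  cases d <;> cases d' <;> simp_all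

end real

section level

variable {cf : Coef p} {θ : THead} {c : TCand p θ} {𝔗 : Tab p}
  {vx : Fin 3 → ℕ → Vtx p} {lb : Fin 3 → ℕ → Label p × Bool}

/-- the branch site at the branch vertex `b` of a realisation -/
noncomputable def thSite (cf : Coef p) (N : Fin 3 → ℕ) (t : ℕ) (vx : Fin 3 → ℕ → Vtx p)
    (lb : Fin 3 → ℕ → Label p × Bool) (b : Bool) : TSite p t :=
  brSite cf t (thX N vx b) (thY N vx b 0) (thY N vx b 1) (thY N vx b 2) (thL N lb b 0)
    (thL N lb b 1) (thL N lb b 2)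

/-- one level of the branch window -/
theorem pr_theta_level_br (hp : p.Adm) (hcf : cf.Sep) {ε : ℝ} (L : PLaw p ε) (hε : 0 ≤ ε)
    (t : ℕ) (τ : Tab p) (r0 : TReal cf θ c 𝔗 vx lb) (hag0 : TabEq t 𝔗 τ) (B : Finset Bool)
    (hB : ∀ b ∈ B, 1 ≤ t ∧ t < θ.tmin p ∧ own (thX θ.N vx b).sd (t + 1) ∧
      ¬ isCut (thL θ.N lb b 0) t ∧ ¬ inZone (thL θ.N lb b 0) t ∧
      gate (zipU (thX θ.N vx b) (thY θ.N vx b 0)) t)
    (h65 : true ∈ B → θ.t65 p ≤ t) :
    L.seq.E t (SeqLaw.ind (SeqLaw.Proj (TEv cf θ c) (t + 1))) τ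
      ≤ ENNReal.ofReal (Real.exp (ε * ((3 * B.card : ℕ) : ℝ)) / 2 ^ (∑ _b ∈ B, p.s)) := by
  have h65' : ∀ b ∈ B, ∀ b' ∈ B, b ≠ b' → θ.t65 p ≤ t := by
    intro b hb b' hb' hne
    apply h65
    cases b <;> cases b' <;> simp_all
  apply pr_sites_bound L hε cf (TEv cf θ c) t τ B (thSite cf θ.N t vx lb)
  · intro b hb b' hb' hk
    obtain ⟨-, a2, a3, -⟩ := hB b hb
    obtain ⟨-, -, b3, -⟩ := hB b' hb'
    have hk' := Prod.mk.inj hk
    exact (pr_theta_br_keys hp hcf r0 t b b' 0 0 a2 (h65' b hb b' hb') a3 b3 hk'.1 hk'.2).1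
  · intro b hb b' hb' σ hσ hk
    obtain ⟨-, a2, a3, -⟩ := hB b hb
    obtain ⟨-, -, b3, -⟩ := hB b' hb'
    have hc : σ = mkSlot cf (thL θ.N lb b 1) (zipU (thX θ.N vx b) (thY θ.N vx b 1)) t ∨
        σ = mkSlot cf (thL θ.N lb b 2) (zipU (thX θ.N vx b) (thY θ.N vx b 2)) t := by
      simpa [thSite, brSite] using hσ
    rcases hc with rfl | rfl
    · have hk' := Prod.mk.inj hk
      have := (pr_theta_br_keys hp hcf r0 t b b' 1 0 a2 (h65' b hb b' hb') a3 b3 hk'.1 hk'.2).2
      simp at this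
    · have hk' := Prod.mk.inj hk
      have := (pr_theta_br_keys hp hcf r0 t b b' 2 0 a2 (h65' b hb b' hb') a3 b3 hk'.1 hk'.2).2
      simp at this
  · intro b hb ω
    obtain ⟨a1, a2, a3, a4, -⟩ := hB b hb
    exact pr_brSite_rank hp cf hcf 𝔗 _ _ _ _ _ _ _ _ (pr_th_step r0.th b 1) (pr_th_step r0.th b 2)
      (pr_thL_ne hp hcf r0.th b 1 2 (by simp)) t a1 a3 a4 ω
  · intro 𝔗' ⟨v, l, r⟩ hag b hb
    obtain ⟨a1, a2, a3, a4, a5, a6⟩ := hB b hb
    obtain ⟨hsd, hlab⟩ := pr_th_shape r r0 b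
    obtain ⟨hX, hY⟩ := pr_th_PU hp hcf t (fun j hj => (hag j hj).trans (hag0 j hj).symm) r r0 b
    have e : thSite cf θ.N t vx lb b = thSite cf θ.N t v l b := by
      unfold thSite
      rw [hlab 0, hlab 1, hlab 2]
      exact (pr_brSite_congr cf t _ _ _ _ _ _ _ _ _ _ _ hX (hY 0) (hY 1) (hY 2)).symm
    rw [e]
    refine pr_brSite_mem hp cf hcf 𝔗' _ _ _ _ _ _ _ _ (pr_th_step r.th b 0) (pr_th_step r.th b 1)
      (pr_th_step r.th b 2) (pr_th_gx r b) (pr_th_gy r b 0) (pr_th_gy r b 1) (pr_th_gy r b 2) t a1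
      (by rw [hsd]; exact a3) (by rw [hlab 0]; exact a5) ?_
    refine (lab_gate_congr _ _ t ?_).2 a6
    intro j hj
    unfold zipU
    rw [hX j (by omega), hY 0 j (by omega)]
  · intro b _
    simp [thSite, brSite]

/-- one level of the terminal window -/
theorem pr_theta_level_term (hp : p.Adm) (hcf : cf.Sep) {ε : ℝ} (L : PLaw p ε) (hε : 0 ≤ ε)
    (t : ℕ) (τ : Tab p) (r0 : TReal cf θ c 𝔗 vx lb) (hag0 : TabEq t 𝔗 τ)
    (Nt : Finset (Σ _ : Fin 3, ℕ))
    (hN : ∀ a ∈ Nt, 1 ≤ a.2 ∧ a.2 < θ.N a.1 ∧ 0 < trk p (vx a.1 a.2).sd (vx a.1 a.2).ht ∧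
      tlev p (vx a.1 a.2).sd (vx a.1 a.2).ht = t) :
    L.seq.E t (SeqLaw.ind (SeqLaw.Proj (TEv cf θ c) (t + 1))) τ
      ≤ ENNReal.ofReal (Real.exp (ε * ((2 * Nt.card : ℕ) : ℝ))
          / 2 ^ (∑ a ∈ Nt, trk p (vx a.1 a.2).sd (vx a.1 a.2).ht)) := by
  apply pr_sites_bound L hε cf (TEv cf θ c) t τ Nt
    (fun a => termSite cf t (vx a.1 a.2) (vx a.1 (a.2 + 1)) (vx a.1 (a.2 - 1)) (lb a.1 a.2).1
      (lb a.1 (a.2 - 1)).1)
  · rintro ⟨i, n⟩ hn ⟨i', n'⟩ hn' hk
    obtain ⟨a1, a2, a3, a4⟩ := hN _ hn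
    obtain ⟨b1, b2, b3, b4⟩ := hN _ hn'
    have hk' := Prod.mk.inj hk
    obtain ⟨⟨rfl, rfl⟩, -⟩ := pr_theta_term_keys hp hcf r0 t i i' n n' ⟨a1, a2⟩ ⟨b1, b2⟩ a4 b4
      true true hk'.1 hk'.2
    rfl
  · rintro ⟨i, n⟩ hn ⟨i', n'⟩ hn' σ hσ hk
    obtain ⟨a1, a2, a3, a4⟩ := hN _ hn
    obtain ⟨b1, b2, b3, b4⟩ := hN _ hn'
    have : σ = mkSlot cf (lb i (n - 1)).1 (zipU (vx i n) (vx i (n - 1))) t := by
      simpa [termSite] using hσ
    subst this
    have hk' := Prod.mk.inj hk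
    have := (pr_theta_term_keys hp hcf r0 t i i' n n' ⟨a1, a2⟩ ⟨b1, b2⟩ a4 b4
      false true hk'.1 hk'.2).2
    simp at this
  · rintro ⟨i, n⟩ hn ω
    obtain ⟨a1, a2, a3, a4⟩ := hN _ hn
    have sp : Step cf 𝔗 (vx i n) (vx i (n + 1)) ((lb i n).1, !(vx i n).sd) := by
      simpa [nbr, nlab] using pr_walk_slot (r0.th.walk i) n a1 a2 true
    exact pr_termSite_rank hp cf 𝔗 (vx i n) (vx i (n + 1)) (vx i (n - 1)) (lb i n).1
      (lb i (n - 1)).1 _ sp a3 t a4.symm ω
  · rintro 𝔗' ⟨v, l, r⟩ hag ⟨i, n⟩ hn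
    obtain ⟨a1, a2, a3, a4⟩ := hN _ hn
    simp only at a1 a2 a3 a4
    obtain ⟨hshape', hlab'⟩ := pr_theta_shape r r0
    have w := r.th.walk i
    have hPU := pr_theta_PU hp hcf t (fun j hj => (hag j hj).trans (hag0 j hj).symm) r r0
    have hsh := hshape' i n (by omega)
    have e : termSite cf t (vx i n) (vx i (n + 1)) (vx i (n - 1)) (lb i n).1 (lb i (n - 1)).1
        = termSite cf t (v i n) (v i (n + 1)) (v i (n - 1)) (l i n).1 (l i (n - 1)).1 := by
      rw [hlab' i n (by omega), hlab' i (n - 1) (by omega)]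
      exact (pr_termSite_congr cf t _ _ _ _ _ _ _ _ hsh.2
        (fun j hj => (hPU j hj i n (by omega)).1) (fun j hj => (hPU j hj i (n + 1) (by omega)).1)
        (fun j hj => (hPU j hj i (n - 1) (by omega)).1)).symm
    simp only
    rw [e]
    have sp : Step cf 𝔗' (v i n) (v i (n + 1)) ((l i n).1, !(v i n).sd) := by
      simpa [nbr, nlab] using pr_walk_slot w n (by omega) (by omega) true
    have sm : Step cf 𝔗' (v i n) (v i (n - 1)) ((l i (n - 1)).1, !(v i n).sd) := by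
      simpa [nbr, nlab] using pr_walk_slot w n (by omega) (by omega) false
    exact pr_termSite_mem hp cf hcf 𝔗' _ _ _ _ _ _ sp sm (w.mem n (by omega)).1.1
      (w.mem (n + 1) (by omega)).1.1 (w.mem (n - 1) (by omega)).1.1
      (by rw [hsh.1, hsh.2]; exact a3) t (by rw [hsh.1, hsh.2]; exact a4.symm)
  · intro a _
    simp [termSite]

end level

/-! ### the rank process of a theta candidate -/

/-- the gate of the fresh edge at the branch vertex `b` is open at the level `t`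
(a function of the tables below `t`) -/
def thGate (cf : Coef p) (θ : THead) (c : TCand p θ) (t : ℕ) (b : Bool) (τ : Tab p) : Prop :=
  ∃ 𝔗₁ v l, TReal cf θ c 𝔗₁ v l ∧ TabEq t 𝔗₁ τ ∧ gate (zipU (thX θ.N v b) (thY θ.N v b 0)) t

theorem pr_thGate_congr (cf : Coef p) (θ : THead) (c : TCand p θ) (t : ℕ) (b : Bool) {τ τ' : Tab p}
    (h : ∀ j, j < t → τ j = τ' j) : thGate cf θ c t b τ ↔ thGate cf θ c t b τ' := by
  constructor
  · rintro ⟨𝔗₁, v, l, r, hag, g⟩
    exact ⟨𝔗₁, v, l, r, fun j hj => (hag j hj).trans (h j hj), g⟩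
  · rintro ⟨𝔗₁, v, l, r, hag, g⟩
    exact ⟨𝔗₁, v, l, r, fun j hj => (hag j hj).trans (h j hj).symm, g⟩

/-- first level of the branch tests at the branch vertex `b` -/
def thLo (θ : THead) (p : Par) (b : Bool) : ℕ := if b then θ.t65 p else 10

theorem pr_thLo_pos (θ : THead) (b : Bool) : 1 ≤ thLo θ p b := by
  unfold thLo THead.t65
  cases b <;> simp

/-- the deterministic conditions for a branch test -/
def thC (θ : THead) (vs : Fin 3 → ℕ → Vtx p) (ls : Fin 3 → ℕ → Label p × Bool) (b : Bool) (t : ℕ) :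
    Prop :=
  thLo θ p b ≤ t ∧ t < θ.tmin p ∧ own (thX θ.N vs b).sd (t + 1) ∧ ¬ isCut (thL θ.N ls b 0) t ∧
    ¬ inZone (thL θ.N ls b 0) t

/-- the branch vertices tested at the level `t` -/
noncomputable def thB (cf : Coef p) (θ : THead) (c : TCand p θ) (vs : Fin 3 → ℕ → Vtx p)
    (ls : Fin 3 → ℕ → Label p × Bool) (t : ℕ) (τ : Tab p) : Finset Bool :=
  Finset.univ.filter (fun b => thC θ vs ls b t ∧ thGate cf θ c t b τ)

theorem pr_thB_congr (cf : Coef p) (θ : THead) (c : TCand p θ) (vs : Fin 3 → ℕ → Vtx p)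
    (ls : Fin 3 → ℕ → Label p × Bool) (t : ℕ) {τ τ' : Tab p} (h : ∀ j, j < t → τ j = τ' j) :
    thB cf θ c vs ls t τ = thB cf θ c vs ls t τ' := by
  unfold thB
  exact Finset.filter_congr (fun b _ => by rw [pr_thGate_congr cf θ c t b h])

theorem pr_thB_sum (cf : Coef p) (θ : THead) (c : TCand p θ) (vs : Fin 3 → ℕ → Vtx p)
    (ls : Fin 3 → ℕ → Label p × Bool) (T : ℕ) (τ : Tab p) :
    ∑ t ∈ Finset.range T, (thB cf θ c vs ls t τ).card
      = ∑ b : Bool, ((Finset.range T).filter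
          (fun t => thC θ vs ls b t ∧ thGate cf θ c t b τ)).card := by
  unfold thB
  simp only [Finset.card_filter]
  exact Finset.sum_comm

/-- **Probability that a theta candidate is realised.** -/
theorem pr_theta_prob (hp : p.Adm) {cf : Coef p} (hcf : cf.Sep) {ε : ℝ} (L : PLaw p ε) (hε : 0 ≤ ε)
    (θ : THead) (c : TCand p θ) (T : ℕ) (hT : p.kap (θ.ht + θ.e) < T) (τ₀ : Tab p) :
    L.seq.Eit 0 T (SeqLaw.ind (TEv cf θ c)) τ₀
      ≤ ENNReal.ofReal (Real.exp (ε * ((2 * (θ.e + 3 * p.kap θ.ht) : ℕ) : ℝ)) / 2 ^ (θ.R0 p)) := by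
  by_cases hA : ∃ 𝔗, TEv cf θ c 𝔗
  swap
  · apply L.rank_bound_nat hε (TEv cf θ c) T (fun _ _ => 0) (fun _ _ => 0)
      (fun _ _ _ _ => rfl) (fun _ _ _ _ => rfl)
    · intro t _ τ
      refine le_of_eq_of_le (pr_E_proj_zero L.seq (TEv cf θ c) t τ ?_) zero_le
      rintro ⟨τ', h, -⟩
      exact hA ⟨τ', h⟩
    · intro τ h
      exact (hA ⟨τ, h⟩).elim
  obtain ⟨𝔗s, vs, ls, rs⟩ := hA
  set rk : (Σ _ : Fin 3, ℕ) → ℕ := fun a => trk p (vs a.1 a.2).sd (vs a.1 a.2).ht with hrk
  set lev : (Σ _ : Fin 3, ℕ) → ℕ := fun a => tlev p (vs a.1 a.2).sd (vs a.1 a.2).ht with hlev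
  set P0 : Finset (Σ _ : Fin 3, ℕ) :=
    (Finset.univ : Finset (Fin 3)).sigma (fun i => Finset.Ico 1 (θ.N i)) with hP0
  set P : Finset (Σ _ : Fin 3, ℕ) := P0.filter (fun a => rk a ≠ 0) with hP
  set Nt : ℕ → Finset (Σ _ : Fin 3, ℕ) := fun t => P.filter (fun a => lev a = t) with hNt
  have hPmem : ∀ a ∈ P, 1 ≤ a.2 ∧ a.2 < θ.N a.1 ∧ 0 < rk a := by
    intro a ha
    rw [hP, Finset.mem_filter, hP0, Finset.mem_sigma, Finset.mem_Ico] at ha
    exact ⟨ha.1.2.1, ha.1.2.2, Nat.pos_of_ne_zero ha.2⟩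
  have hlevP : ∀ a ∈ P, θ.tmin p ≤ lev a ∧ lev a < T := by
    intro a ha
    obtain ⟨a1, a2, -⟩ := hPmem a ha
    have b1 := pr_tlev_bounds hp (vs a.1 a.2).sd (vs a.1 a.2).ht
    have b2 := pr_th_kap hp rs a.1 a.2 (by omega)
    have e : lev a = tlev p (vs a.1 a.2).sd (vs a.1 a.2).ht := rfl
    unfold THead.tmin
    omega
  have htmin : θ.tmin p ≤ p.kap θ.ht := by
    unfold THead.tmin
    have := pr_kap_mono hp (Nat.sub_le θ.ht θ.e)
    omega
  have htminT : θ.tmin p ≤ T := by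
    have := pr_kap_mono hp (Nat.le_add_right θ.ht θ.e)
    omega
  apply L.rank_bound_nat hε (TEv cf θ c) T
    (fun t τ => 3 * (thB cf θ c vs ls t τ).card + 2 * (Nt t).card)
    (fun t τ => p.s * (thB cf θ c vs ls t τ).card + ∑ a ∈ Nt t, rk a)
  · intro t τ τ' h
    simp only
    rw [pr_thB_congr cf θ c vs ls t h]
  · intro t τ τ' h
    simp only
    rw [pr_thB_congr cf θ c vs ls t h]
  · -- one level
    intro t _ τ
    by_cases hex : ∃ 𝔗₀, TEv cf θ c 𝔗₀ ∧ ∀ j, j < t → 𝔗₀ j = τ j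
    swap
    · exact le_of_eq_of_le (pr_E_proj_zero L.seq (TEv cf θ c) t τ hex) zero_le
    obtain ⟨𝔗₀, ⟨v0, l0, r0⟩, hag0⟩ := hex
    by_cases htm : t < θ.tmin p
    · have hNe : Nt t = ∅ := by
        rw [Finset.eq_empty_iff_forall_notMem]
        intro a ha
        rw [hNt, Finset.mem_filter] at ha
        have := (hlevP a ha.1).1
        omega
      have h := pr_theta_level_br hp hcf L hε t τ r0 hag0 (thB cf θ c vs ls t τ) (by
          intro b hb
          unfold thB at hb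
          rw [Finset.mem_filter] at hb
          obtain ⟨-, ⟨c1, c2, c3, c4, c5⟩, 𝔗₁, v1, l1, r1, hag1, g1⟩ := hb
          obtain ⟨hsd, hlab⟩ := pr_th_shape r0 rs b
          obtain ⟨hX, hY⟩ := pr_th_PU hp hcf t (fun j hj => (hag0 j hj).trans (hag1 j hj).symm)
            r0 r1 b
          have := pr_thLo_pos (p := p) θ b
          refine ⟨by omega, c2, by rw [hsd]; exact c3, by rw [hlab 0]; exact c4,
            by rw [hlab 0]; exact c5, (lab_gate_congr _ _ t ?_).2 g1⟩
          intro j hj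
          unfold zipU
          rw [hX j (by omega), hY 0 j (by omega)])
        (by
          intro hb
          unfold thB at hb
          rw [Finset.mem_filter] at hb
          exact hb.2.1.1)
      rw [Finset.sum_const, smul_eq_mul, Nat.mul_comm _ p.s] at h
      simp only [hNe, Finset.card_empty, Finset.sum_empty, mul_zero, add_zero]
      exact h
    · have hBe : thB cf θ c vs ls t τ = ∅ := by
        rw [Finset.eq_empty_iff_forall_notMem]
        intro b hb
        unfold thB at hb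
        rw [Finset.mem_filter] at hb
        exact htm hb.2.1.2.1
      obtain ⟨hshape, -⟩ := pr_theta_shape rs r0
      have h := pr_theta_level_term hp hcf L hε t τ r0 hag0 (Nt t) (by
          intro a ha
          rw [hNt, Finset.mem_filter] at ha
          obtain ⟨a1, a2, a3⟩ := hPmem a ha.1
          have := hshape a.1 a.2 (by omega)
          rw [← this.1, ← this.2]
          exact ⟨a1, a2, a3, ha.2⟩)
      have e : ∑ a ∈ Nt t, trk p (v0 a.1 a.2).sd (v0 a.1 a.2).ht = ∑ a ∈ Nt t, rk a := by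
        refine Finset.sum_congr rfl fun a ha => ?_
        rw [hNt, Finset.mem_filter] at ha
        obtain ⟨a1, a2, a3⟩ := hPmem a ha.1
        have := hshape a.1 a.2 (by omega)
        rw [← this.1, ← this.2]
      rw [e] at h
      simp only [hBe, Finset.card_empty, mul_zero, zero_add]
      exact h
  · -- the totals
    rintro τ ⟨v, l, r⟩
    have hmaps : ∀ a ∈ P, lev a ∈ Finset.range T := fun a ha =>
      Finset.mem_range.2 (hlevP a ha).2
    have hBs := pr_thB_sum cf θ c vs ls T τ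
    rw [Fintype.sum_bool] at hBs
    constructor
    · rw [Finset.sum_add_distrib, ← Finset.mul_sum, ← Finset.mul_sum,
        ← Finset.card_eq_sum_card_fiberwise hmaps, hBs]
      have h1 : P.card ≤ P0.card := Finset.card_filter_le _ _
      have h2 : P0.card ≤ θ.e := by
        rw [hP0, Finset.card_sigma, Fin.sum_univ_three]
        simp only [Nat.card_Ico]
        unfold THead.e
        omega
      have h3 : ∀ b, ((Finset.range T).filter
          (fun t => thC θ vs ls b t ∧ thGate cf θ c t b τ)).card ≤ θ.tmin p := by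
        intro b
        have : (Finset.range T).filter (fun t => thC θ vs ls b t ∧ thGate cf θ c t b τ)
            ⊆ Finset.range (θ.tmin p) := by
          intro t ht
          rw [Finset.mem_filter] at ht
          exact Finset.mem_range.2 ht.2.1.2.1
        simpa using Finset.card_le_card this
      have h4 := h3 true
      have h5 := h3 false
      omega
    · rw [Finset.sum_add_distrib, ← Finset.mul_sum, hBs,
        Finset.sum_fiberwise_of_maps_to hmaps, hP, Finset.sum_filter_ne_zero, hP0,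
        Finset.sum_sigma, Fin.sum_univ_three]
      -- the branch part
      have hbr : ∀ b, (θ.tmin p - thLo θ p b) / 2 - p.kap (θ.ht + θ.e) / 200
          ≤ ((Finset.range T).filter
            (fun t => thC θ vs ls b t ∧ thGate cf θ c t b τ)).card := by
        intro b
        obtain ⟨hsd, hlab⟩ := pr_th_shape r rs b
        have k1 := pr_thX_kap hp r b
        have k2 := pr_thY_kap hp r b 0
        have k3 : p.kap (θ.ht - θ.e) ≤ p.kap (min (thX θ.N v b).ht (thY θ.N v b 0).ht) ∧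
            p.kap (min (thX θ.N v b).ht (thY θ.N v b 0).ht) ≤ p.kap (θ.ht + θ.e) := by
          rcases min_choice (thX θ.N v b).ht (thY θ.N v b 0).ht with h | h <;> rw [h]
          · exact k1
          · exact k2
        have h1 := pr_avail_count hp cf τ _ _ _ _ (pr_th_step r.th b 0) (pr_th_gx r b)
          (pr_th_gy r b 0) (thX θ.N vs b).sd (thLo θ p b) (θ.tmin p) T (p.kap (θ.ht + θ.e))
          (pr_thLo_pos θ b) (by unfold THead.tmin; omega) htminT k3.2
        refine le_trans h1 (Finset.card_le_card ?_)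
        intro t ht
        rw [Finset.mem_filter] at ht ⊢
        obtain ⟨t0, t1, t2, t3, t4, t5, t6⟩ := ht
        rw [hlab 0] at t4 t5
        exact ⟨t0, ⟨t1, t2, t3, t4, t5⟩, τ, v, l, r, fun _ _ => rfl, t6⟩
      have hb1 := hbr true
      have hb0 := hbr false
      have e1 : thLo θ p true = θ.t65 p := rfl
      have e0 : thLo θ p false = 10 := rfl
      rw [e1] at hb1
      rw [e0] at hb0
      -- the terminal part
      have htm : ∀ i : Fin 3, (θ.N i - 1) / 2 * (p.s - 2 * p.b)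
          ≤ ∑ n ∈ Finset.Ico 1 (θ.N i), rk ⟨i, n⟩ := by
        intro i
        have ws := rs.th.walk i
        have h1 := pr_sum_pairs (fun n => rk ⟨i, n⟩) (p.s - 2 * p.b) 1 ((θ.N i - 1) / 2) (by
          intro n h1 h2
          have hn : n < θ.N i := by omega
          have a1 := pr_walk_sd_ne ws n hn
          have a2 := pr_step_ht_le cf 𝔗s _ _ _ (ws.step n hn)
          have a3 : (vs i (n + 1)).sd = !(vs i n).sd := by
            cases e1 : (vs i n).sd <;> cases e2 : (vs i (n + 1)).sd <;> simp_all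
          have := pr_trk_pair hp (vs i n).sd (vs i n).ht (vs i (n + 1)).ht a2.1 a2.2
          rw [hrk]
          simp only
          rw [a3]
          omega)
        refine le_trans h1 (Finset.sum_le_sum_of_subset ?_)
        intro n hn
        rw [Finset.mem_Ico] at hn ⊢
        omega
      have t0 := htm 0
      have t1 := htm 1
      have t2 := htm 2
      unfold THead.R0 THead.B0
      have hmul : p.s * ((θ.tmin p - 10) / 2 - p.kap (θ.ht + θ.e) / 200
          + ((θ.tmin p - θ.t65 p) / 2 - p.kap (θ.ht + θ.e) / 200))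
          ≤ p.s * (((Finset.range T).filter
            (fun t => thC θ vs ls true t ∧ thGate cf θ c t true τ)).card + ((Finset.range T).filter
            (fun t => thC θ vs ls false t ∧ thGate cf θ c t false τ)).card) :=
        Nat.mul_le_mul_left _ (by omega)
      rw [Nat.add_mul, Nat.add_mul]
      omega

end Claimed.Agent.R300.Pr
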