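/-
Row 300 / S0553 (INJ paper), Section 03_pruning, THETA PART, package PRT-D (section owner: helper59):
`lem:pruning-theta-count`: the weighted expected number of realised theta candidates, dependence on
finitely many levels, the fraction removed by the second deletion.
The `sorry`s are replaced IN PLACE by the owner of the package (table subtask, target row300, PRT-D).
Statements are frozen: ask helper59 before changing one (adding lemmas/definitions is free).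

THIS FILE IS THE EXACT ANALOGUE OF PrRetSum.lean / PrDep.lean (returns, sorry-free, on main): copy the proofs.
  pr_TEv_valid    ~ pr_REv_valid    (`pr_theta_ht`: all heights are `≤ θ.ht + e`; `pr_H_add`, `pr_H_mono`)
  pr_theta_arith  ~ pr_ret_arith    (see the computation below)
  pr_TEv_dep      ~ pr_REv_dep      (`pr_X1_dep`, `pr_step_dep`, `pr_kap_le_H`)
  pr_theta_header ~ pr_ret_header   (`pr_theta_prob` as a black box, `pr_exp_two_le (θ.e + 3 κ) 1`, `pr_enn_le`)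
  pr_theta_total  ~ pr_ret_total    (`pr_tsum_pow_add`, `pr_tsum_pow_div_add`; THead ≃ (ℕ × ℕ × ℕ) × Bool × ℕ)
  pr_del2_frac    ~ pr_del1_frac    (`pr_count`; position code `i * (e+1) + n < 3 (e+1)`; `pr_theta_unique`)
ARITHMETIC of `pr_theta_arith`.  `H = p.H θ.ht`, `e = θ.e`, `κ = kap θ.ht`, `κ⁺ = kap (θ.ht + e)`,
`κ⁻ = kap (θ.ht - e)`, `tmin = κ⁻ - 1`.  Facts: `20000 lq = 10001 s`, `10^6 b ≤ lq`, `s ≥ 20000`, `n0 ≥ 10^6`,
`H = (2 n0 + 1) s + b ht`; valid: `100 e lq < 152 (H + b e)`, hence `10^8 b e < 152 (H + b e)`, `b e < 2·10^-6 H`,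
`e s < 3.0398 H`;  `κ s < H`, `κ⁺ s < H + b e`, `H(θ.ht - e) ≥ H - b e`, `H(θ.ht - e) ≤ κ⁻ s + s` (`pr_kap_bounds`);
`t65 s ≤ .65 H + s`.  So `s B0 ≥ s (tmin - 5 - t65 / 2 - κ⁺ / 100 - 2) ≥ (1 - .325 - .01) H - 12 s - 2 b e`,
`R_term ≥ (e / 2 - 3)(s - 2 b) ≥ e s / 2 - b e - 3 s`.  Needed:
`.501 e s + 5 e + 9 κ + ht / 50 + n0 + 6 + 4 b e + 15 s ≤ 1.665 H`;  `.501 e s ≤ 1.523 H`, `ht / 50 ≤ .02 H`,
everything else is `≤ 10^-4 H`.  Technique: as in `pr_ret_arith`: name the products, `generalize`, `omega`.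
-/
import Claimed.Agent.R300.PrThProb

set_option autoImplicit false

namespace Claimed.Agent.R300.Pr

open Claimed.Agent.R300.Lab
open Claimed.Agent.R300.PrProb
open Classical
open scoped ENNReal

variable {p : Par}

/-! ## PRT-D -/

/-- headers which can be realised -/
def THead.Valid (θ : THead) (p : Par) : Prop :=
  (∀ i, 1 ≤ θ.N i) ∧ 100 * (θ.e * p.lq) < 152 * (p.H θ.ht + p.b * θ.e)

theorem THead.N_le_e (θ : THead) (i : Fin 3) : θ.N i ≤ θ.e := by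
  unfold THead.e
  fin_cases i <;> simp <;> omega

/-- all heights of a realisation are at most `θ.ht + θ.e` -/
theorem pr_treal_ht_le {cf : Coef p} {θ : THead} {c : TCand p θ} {𝔗 : Tab p}
    {vx : Fin 3 → ℕ → Vtx p} {lb : Fin 3 → ℕ → Label p × Bool} (r : TReal cf θ c 𝔗 vx lb)
    (i : Fin 3) (n : ℕ) (hn : n ≤ θ.N i) : (vx i n).ht ≤ θ.ht + θ.e := by
  have h1 := (pr_theta_ht r.th i n hn).2
  rw [r.m.ht0] at h1
  have := θ.N_le_e i
  omega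

theorem pr_treal_H_le {cf : Coef p} {θ : THead} {c : TCand p θ} {𝔗 : Tab p}
    {vx : Fin 3 → ℕ → Vtx p} {lb : Fin 3 → ℕ → Label p × Bool} (r : TReal cf θ c 𝔗 vx lb)
    (i : Fin 3) (n : ℕ) (hn : n ≤ θ.N i) : p.H (vx i n).ht ≤ p.H θ.ht + p.b * θ.e := by
  rw [← pr_H_add]
  exact pr_H_mono p (pr_treal_ht_le r i n hn)

theorem pr_TEv_valid {cf : Coef p} {θ : THead} {c : TCand p θ} {𝔗 : Tab p} (h : TEv cf θ c 𝔗) :
    θ.Valid p := by
  obtain ⟨vx, lb, r⟩ := h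
  refine ⟨fun i => r.th.pos i, ?_⟩
  obtain ⟨i, n, hn, hs⟩ := r.short
  have := pr_treal_H_le r i n hn
  omega

/-- lower bound for `s * ((a - c) / 2 - k / 200)` -/
theorem pr_th_half (s a c k : ℕ) :
    100 * (s * a) ≤ 200 * (s * ((a - c) / 2 - k / 200)) + s * k + 100 * s + 100 * (s * c) := by
  have h : 100 * a ≤ 200 * ((a - c) / 2 - k / 200) + k + 100 + 100 * c := by omega
  have := Nat.mul_le_mul_left s h
  linarith [this]

theorem pr_th_two_b {s b : ℕ} (hsl : 20000000000 * b ≤ 10001 * s) : 2 * b ≤ s := by omega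

theorem pr_th_rr (N0 N1 N2 : ℕ) :
    N0 + N1 + N2 ≤ 2 * ((N0 - 1) / 2 + (N1 - 1) / 2 + (N2 - 1) / 2) + 6 := by omega

theorem pr_th_term (s b e rr : ℕ) (h2b : 2 * b ≤ s) (hr1 : e ≤ 2 * rr + 6) :
    s * e ≤ 2 * (rr * (s - 2 * b)) + 6 * s + 2 * (b * e) := by
  obtain ⟨c, hc⟩ := Nat.exists_eq_add_of_le h2b
  rw [hc, Nat.add_sub_cancel_left]
  have := Nat.mul_le_mul_right c hr1
  nlinarith [this, Nat.zero_le (b * e), Nat.zero_le b]

/-- the exponent inequality, abstract form -/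
theorem pr_theta_arith_aux (s b n0 lq Lb ht N0 N1 N2 e κ κp κm H Hm q65 : ℕ)
    (hs : 20000 ≤ s) (hn0 : 1000000 ≤ n0) (hb : 1 ≤ b) (hlq : 20000 * lq = 10001 * s)
    (hsl : 20000000000 * b ≤ 10001 * s) (hLb : 1000 * Lb ≤ 1001 * s)
    (he : e = N0 + N1 + N2)
    (hval : 100 * (e * lq) < 152 * (H + b * e))
    (f1 : κ * s < H) (f2 : κp * s < H + b * e) (f3 : Hm ≤ κm * s + s) (f4 : H ≤ Hm + b * e)
    (f5 : q65 * (100 * s) ≤ 65 * H) (hH : H = 2 * (n0 * s) + s + b * ht) :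
    (e + 2) + Lb * e + 3 * (e + 3 * κ) + (N0 + N1 + N2 + ht / 50 + n0 + 2)
      ≤ (H - b * e) + (((N0 - 1) / 2 + (N1 - 1) / 2 + (N2 - 1) / 2) * (s - 2 * b)
        + s * (((κm - 1 - 10) / 2 - κp / 200) + ((κm - 1 - (q65 + 1)) / 2 - κp / 200))) := by
  have a1 := pr_th_half s (κm - 1) 10 κp
  have a2 := pr_th_half s (κm - 1) (q65 + 1) κp
  have a3 : s * κm ≤ s * (κm - 1) + s := by
    rw [← Nat.mul_succ]; exact Nat.mul_le_mul_left _ (Nat.le_succ_of_pred_le le_rfl)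
  have r1 := pr_th_term s b e _ (pr_th_two_b hsl) (he ▸ pr_th_rr N0 N1 N2)
  have x1 : 20000 * (e * lq) = 10001 * (s * e) := by
    have : e * (20000 * lq) = e * (10001 * s) := by rw [hlq]
    linarith [this]
  have x2 : 20000000000 * (b * e) ≤ 10001 * (s * e) := by
    have := Nat.mul_le_mul_right e hsl
    linarith [this]
  have x3 : 1000 * (Lb * e) ≤ 1001 * (s * e) := by
    have := Nat.mul_le_mul_right e hLb
    linarith [this]
  have x4 : 20000 * e ≤ s * e := Nat.mul_le_mul_right _ hs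
  have x5 : 20000 * κ ≤ s * κ := Nat.mul_le_mul_right _ hs
  have x6 : ht ≤ b * ht := Nat.le_mul_of_pos_left _ hb
  have x7 : 20000 * n0 ≤ s * n0 := Nat.mul_le_mul_right _ hs
  have x8 : 1000000 * s ≤ n0 * s := Nat.mul_le_mul_right _ hn0
  have h50 : 50 * (ht / 50) ≤ ht := Nat.mul_div_le _ _
  have hsub : H ≤ (H - b * e) + b * e := le_tsub_add
  rw [Nat.mul_add s]
  generalize s * ((κm - 1 - 10) / 2 - κp / 200) = SA1 at *
  generalize s * ((κm - 1 - (q65 + 1)) / 2 - κp / 200) = SA2 at *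
  generalize ((N0 - 1) / 2 + (N1 - 1) / 2 + (N2 - 1) / 2) * (s - 2 * b) = RR at *
  generalize H - b * e = Hs at *
  generalize s * (κm - 1) = Stm at *
  generalize ht / 50 = h5 at *
  rw [← he]
  linarith [a1, a2, a3, r1, x1, x2, x3, x4, x5, x6, x7, x8, h50, hsub]

/-- the exponent inequality of `lem:pruning-theta-count` -/
theorem pr_theta_arith (hp : p.Adm) (θ : THead) (hv : θ.Valid p) (Lb : ℕ)
    (hLb : 1000 * Lb ≤ 1001 * p.s) :
    (θ.e + 2) + Lb * θ.e + 3 * (θ.e + 3 * p.kap θ.ht)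
        + (θ.N 0 + θ.N 1 + θ.N 2 + θ.ht / 50 + p.n0 + 2)
      ≤ (p.H θ.ht - p.b * θ.e) + θ.R0 p := by
  obtain ⟨hN, hval⟩ := hv
  have f2 := (pr_kap_bounds hp (θ.ht + θ.e)).1
  rw [pr_H_add] at f2
  have f4 : p.H θ.ht ≤ p.H (θ.ht - θ.e) + p.b * θ.e := by
    rw [← pr_H_add]; exact pr_H_mono p (by omega)
  exact pr_theta_arith_aux p.s p.b p.n0 p.lq Lb θ.ht (θ.N 0) (θ.N 1) (θ.N 2) θ.e (p.kap θ.ht)
    (p.kap (θ.ht + θ.e)) (p.kap (θ.ht - θ.e)) (p.H θ.ht) (p.H (θ.ht - θ.e))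
    (65 * p.H θ.ht / (100 * p.s)) (pr_s_ge hp) hp.hn0 hp.hb (lab_lq_spec hp) (pr_slope hp) hLb
    rfl hval (pr_kap_bounds hp θ.ht).1 f2 (pr_kap_bounds hp (θ.ht - θ.e)).2 f4
    (Nat.div_mul_le_self _ _) (by unfold Par.H; ring)

/-- the level below which the event of a theta candidate is decided -/
def THead.T (θ : THead) (p : Par) : ℕ := 2 * (p.H θ.ht + p.b * θ.e) + 20

theorem pr_treal_dep (hp : p.Adm) {cf : Coef p} {θ : THead} {c : TCand p θ} {𝔗 𝔗' : Tab p}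
    {vx : Fin 3 → ℕ → Vtx p} {lb : Fin 3 → ℕ → Label p × Bool} (hT : TabEq (θ.T p) 𝔗 𝔗')
    (r : TReal cf θ c 𝔗 vx lb) : TReal cf θ c 𝔗' vx lb := by
  have hH : ∀ i n, n ≤ θ.N i → 2 * p.H (vx i n).ht + 20 ≤ θ.T p := by
    intro i n hn
    have := pr_treal_H_le r i n hn
    unfold THead.T
    omega
  refine ⟨⟨fun i => ⟨fun n hn => ?_, fun n hn => ?_⟩, r.th.pos, r.th.start, r.th.stop, r.th.ne,
    r.th.inj, r.th.inner, r.th.first⟩, r.m, r.short⟩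
  · exact pr_X1_dep hp (hT.mono (hH i n hn)) ((r.th.walk i).mem n hn)
  · have h1 := hH i n hn.le
    have h2 := pr_kap_le_H hp (vx i n).ht
    exact pr_step_dep hp (hT.mono (by omega)) ((r.th.walk i).step n hn)

theorem pr_TEv_dep (hp : p.Adm) (cf : Coef p) (θ : THead) (c : TCand p θ) :
    DepBelow (Ω := fun t => ∀ κ : Key p t, Equiv.Perm (Cell p t κ)) (θ.T p) (TEv cf θ c) := by
  have key : ∀ 𝔗 𝔗' : Tab p, TabEq (θ.T p) 𝔗 𝔗' → TEv cf θ c 𝔗 → TEv cf θ c 𝔗' := by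
    rintro 𝔗 𝔗' hT ⟨vx, lb, r⟩
    exact ⟨vx, lb, pr_treal_dep hp hT r⟩
  intro 𝔗 𝔗' hT
  exact propext ⟨key 𝔗 𝔗' hT, key 𝔗' 𝔗 (fun j hj => (hT j hj).symm)⟩

/-- weight of a header: number of vertex positions over the size of the smallest layer met -/
noncomputable def tW (p : Par) (θ : THead) : ℝ≥0∞ :=
  ((3 * (θ.e + 1) : ℕ) : ℝ≥0∞) * (2⁻¹ : ℝ≥0∞) ^ (p.H θ.ht - p.b * θ.e)

theorem pr_card_tcand (θ : THead) : Fintype.card (TCand p θ) = Fintype.card (Label p) ^ θ.e := by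
  simp only [TCand, Fintype.card_pi, Finset.prod_const, Finset.card_univ, Fintype.card_fin]
  rw [Fin.prod_univ_three, ← pow_add, ← pow_add]
  rfl

theorem pr_theta_header (hp : p.Adm) {cf : Coef p} (hcf : cf.Sep) {ε : ℝ} (L : PLaw p ε)
    (hε0 : 0 ≤ ε) (hε1 : ε ≤ 1) (Lb : ℕ) (hLb : 1000 * Lb ≤ 1001 * p.s)
    (hcard : Fintype.card (Label p) ≤ 2 ^ Lb) (θ : THead) (τ₀ : Tab p) :
    ∑ c : TCand p θ, tW p θ * L.seq.Eit 0 (θ.T p) (SeqLaw.ind (TEv cf θ c)) τ₀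
      ≤ (2⁻¹ : ℝ≥0∞) ^ (θ.N 0 + θ.N 1 + θ.N 2 + θ.ht / 50 + (p.n0 + 2)) := by
  by_cases hv : θ.Valid p
  swap
  · apply le_of_eq_of_le _ zero_le
    apply Finset.sum_eq_zero
    intro c _
    have : SeqLaw.ind (Ω := fun t => ∀ κ : Key p t, Equiv.Perm (Cell p t κ)) (TEv cf θ c)
        = fun _ => 0 := by
      funext 𝔗
      exact if_neg (fun h => hv (pr_TEv_valid h))
    have h0 : L.seq.Eit 0 (θ.T p) (SeqLaw.ind (TEv cf θ c)) τ₀ = 0 :=
      (congrArg (fun f => L.seq.Eit 0 (θ.T p) f τ₀) this).trans (pr_Eit_zero L.seq _ _ _)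
    exact (congrArg (fun z => tW p θ * z) h0).trans (mul_zero _)
  set R₀ := θ.R0 p with hR₀
  set H' := p.H θ.ht - p.b * θ.e with hH'
  set E3 := θ.e + 3 * p.kap θ.ht with hE3
  have hTlt : p.kap (θ.ht + θ.e) < θ.T p := by
    have := pr_kap_le_H hp (θ.ht + θ.e)
    rw [pr_H_add] at this
    unfold THead.T
    omega
  have hterm : ∀ c : TCand p θ, tW p θ * L.seq.Eit 0 (θ.T p) (SeqLaw.ind (TEv cf θ c)) τ₀
      ≤ tW p θ * ((2 : ℝ≥0∞) ^ (3 * E3) * (2⁻¹ : ℝ≥0∞) ^ R₀) := by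
    intro c
    gcongr
    refine le_trans (pr_theta_prob hp hcf L hε0 θ c _ hTlt τ₀) ?_
    rw [← pr_ofReal_pow_div]
    apply ENNReal.ofReal_le_ofReal
    have := pr_exp_two_le E3 1 hε1
    simp only [mul_one] at this
    gcongr
  refine le_trans (Finset.sum_le_card_nsmul _ _ _ (fun c _ => hterm c)) ?_
  have e1 : (Finset.univ : Finset (TCand p θ)).card •
      (tW p θ * ((2 : ℝ≥0∞) ^ (3 * E3) * (2⁻¹ : ℝ≥0∞) ^ R₀))
      = ((Fintype.card (TCand p θ) * (3 * (θ.e + 1)) * 2 ^ (3 * E3) : ℕ) : ℝ≥0∞)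
        * (2⁻¹ : ℝ≥0∞) ^ (H' + R₀) := by
    rw [Finset.card_univ, nsmul_eq_mul, tW, pow_add]
    push_cast
    ring
  rw [e1]
  apply pr_enn_le
  have harith := pr_theta_arith hp θ hv Lb hLb
  have h1 : Fintype.card (TCand p θ) ≤ 2 ^ (Lb * θ.e) := by
    rw [pr_card_tcand, pow_mul]
    exact Nat.pow_le_pow_left hcard _
  have h2 : 3 * (θ.e + 1) ≤ 2 ^ (θ.e + 2) := by
    have h3 : θ.e + 1 ≤ 2 ^ θ.e := Nat.lt_two_pow_self
    rw [pow_add]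
    omega
  calc Fintype.card (TCand p θ) * (3 * (θ.e + 1)) * 2 ^ (3 * E3)
        * 2 ^ (θ.N 0 + θ.N 1 + θ.N 2 + θ.ht / 50 + (p.n0 + 2))
      ≤ 2 ^ (Lb * θ.e) * 2 ^ (θ.e + 2) * 2 ^ (3 * E3)
        * 2 ^ (θ.N 0 + θ.N 1 + θ.N 2 + θ.ht / 50 + (p.n0 + 2)) := by gcongr
    _ = 2 ^ (Lb * θ.e + (θ.e + 2) + 3 * E3
          + (θ.N 0 + θ.N 1 + θ.N 2 + θ.ht / 50 + (p.n0 + 2))) := by
        rw [← pow_add, ← pow_add, ← pow_add]
    _ ≤ 2 ^ (H' + R₀) := Nat.pow_le_pow_right (by norm_num) (by omega)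

/-- headers as tuples -/
def theadEquiv : THead ≃ ℕ × ℕ × ℕ × Bool × ℕ where
  toFun θ := (θ.N 0, θ.N 1, θ.N 2, θ.sd, θ.ht)
  invFun x := ⟨![x.1, x.2.1, x.2.2.1], x.2.2.2.1, x.2.2.2.2⟩
  left_inv θ := by
    cases θ with
    | mk N sd ht =>
      simp only [THead.mk.injEq, and_true]
      funext i
      fin_cases i <;> rfl
  right_inv _ := rfl

theorem pr_tsum_thead (e : ℕ) :
    ∑' θ : THead, (2⁻¹ : ℝ≥0∞) ^ (θ.N 0 + θ.N 1 + θ.N 2 + θ.ht / 50 + e)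
      = 1600 * (2⁻¹ : ℝ≥0∞) ^ e := by
  have h1 : ∑' θ : THead, (2⁻¹ : ℝ≥0∞) ^ (θ.N 0 + θ.N 1 + θ.N 2 + θ.ht / 50 + e)
      = ∑' x : ℕ × ℕ × ℕ × Bool × ℕ,
          (2⁻¹ : ℝ≥0∞) ^ (x.1 + x.2.1 + x.2.2.1 + x.2.2.2.2 / 50 + e) :=
    (theadEquiv.tsum_eq (fun x : ℕ × ℕ × ℕ × Bool × ℕ =>
      (2⁻¹ : ℝ≥0∞) ^ (x.1 + x.2.1 + x.2.2.1 + x.2.2.2.2 / 50 + e)))
  rw [h1, ENNReal.tsum_prod']
  simp only
  have h2 : ∀ a : ℕ, ∑' x : ℕ × ℕ × Bool × ℕ, (2⁻¹ : ℝ≥0∞) ^ (a + x.1 + x.2.1 + x.2.2.2 / 50 + e)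
      = 800 * (2⁻¹ : ℝ≥0∞) ^ (a + e) := by
    intro a
    have h3 : ∑' x : ℕ × ℕ × Bool × ℕ, (2⁻¹ : ℝ≥0∞) ^ (a + x.1 + x.2.1 + x.2.2.2 / 50 + e)
        = ∑' η : RHead, (2⁻¹ : ℝ≥0∞) ^ (η.μ + η.N + η.ht / 50 + (a + e)) := by
      rw [← rheadEquiv.tsum_eq (fun x : ℕ × ℕ × Bool × ℕ =>
        (2⁻¹ : ℝ≥0∞) ^ (a + x.1 + x.2.1 + x.2.2.2 / 50 + e))]
      refine tsum_congr fun η => ?_
      show (2⁻¹ : ℝ≥0∞) ^ (a + η.μ + η.N + η.ht / 50 + e) = _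
      congr 1
      ring
    rw [h3, pr_tsum_rhead]
  simp only [h2]
  rw [ENNReal.tsum_mul_left, pr_tsum_pow_add, ← mul_assoc]
  norm_num

/-- `lem:pruning-theta-count`, summed over all headers with the weights `tW`. -/
theorem pr_theta_total (hp : p.Adm) {cf : Coef p} (hcf : cf.Sep) {ε : ℝ} (L : PLaw p ε)
    (hε0 : 0 ≤ ε) (hε1 : ε ≤ 1) (Lb : ℕ) (hLb : 1000 * Lb ≤ 1001 * p.s)
    (hcard : Fintype.card (Label p) ≤ 2 ^ Lb) (τ₀ : Tab p) :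
    ∑' x : (Σ θ : THead, TCand p θ), L.seq.Eit 0 (x.1.T p)
        (fun 𝔗 => tW p x.1 * SeqLaw.ind (TEv cf x.1 x.2) 𝔗) τ₀
      ≤ 1600 * (2⁻¹ : ℝ≥0∞) ^ (p.n0 + 2) := by
  rw [ENNReal.tsum_sigma']
  rw [← pr_tsum_thead]
  apply ENNReal.tsum_le_tsum
  intro θ
  rw [tsum_fintype]
  refine le_trans (le_of_eq ?_) (pr_theta_header hp hcf L hε0 hε1 Lb hLb hcard θ τ₀)
  apply Finset.sum_congr rfl
  intro c _
  exact L.seq.Eit_const_mul _ _ _ _ _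

/-- decoding of the position code -/
theorem pr_th_code {e i i' n n' : ℕ} (hn : n ≤ e) (hn' : n' ≤ e)
    (h : i * (e + 1) + n = i' * (e + 1) + n') : i = i' ∧ n = n' := by
  have h1 : (i * (e + 1) + n) / (e + 1) = i := by
    rw [Nat.add_comm, Nat.add_mul_div_right _ _ (Nat.succ_pos e), Nat.div_eq_of_lt (by omega),
      Nat.zero_add]
  have h2 : (i' * (e + 1) + n') / (e + 1) = i' := by
    rw [Nat.add_comm, Nat.add_mul_div_right _ _ (Nat.succ_pos e), Nat.div_eq_of_lt (by omega),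
      Nat.zero_add]
  have h3 : i = i' := by rw [← h1, h, h2]
  subst h3
  exact ⟨rfl, by omega⟩

/-- the fraction of a layer removed by the second deletion is bounded by the weighted number of
realised theta candidates -/
theorem pr_del2_frac (hp : p.Adm) {cf : Coef p} (hcf : cf.Sep) (𝔗 : Tab p) (sd : Bool) (i : ℕ) :
    (Nat.card {x : Layer p sd i // Del2 cf 𝔗 x.1} : ℝ≥0∞) * (2⁻¹ : ℝ≥0∞) ^ (p.H i)
      ≤ ∑' x : (Σ θ : THead, TCand p θ), tW p x.1 * SeqLaw.ind (TEv cf x.1 x.2) 𝔗 := by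
  have := lab_finite_layer hp sd i
  have : Fintype {x : Layer p sd i // Del2 cf 𝔗 x.1} := Fintype.ofFinite _
  have key := pr_count (Finset.univ : Finset {x : Layer p sd i // Del2 cf 𝔗 x.1})
    (fun x : (Σ θ : THead, TCand p θ) => tW p x.1) (fun x => TEv cf x.1 x.2 𝔗)
    (fun x c k => ∃ vx lb, TReal cf c.1 c.2 𝔗 vx lb ∧ ∃ (j : Fin 3) (n : ℕ), n ≤ c.1.N j ∧
      k = j.1 * (c.1.e + 1) + n ∧ vx j n = x.1.1)
    (fun c => 3 * (c.1.e + 1)) ((2⁻¹ : ℝ≥0∞) ^ (p.H i))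
    (by
      rintro ⟨⟨x, hxs, hxi⟩, N, vx, lb, th, ⟨j, n, hn, hx⟩, hshort⟩ -
      simp only at hx
      have r : TReal cf ⟨N, (vx 0 0).sd, (vx 0 0).ht⟩ (fun a b => (lb a b.1).1) 𝔗 vx lb :=
        ⟨th, ⟨rfl, rfl, fun _ _ => rfl⟩, hshort⟩
      have hne : n ≤ (⟨N, (vx 0 0).sd, (vx 0 0).ht⟩ : THead).e :=
        hn.trans (THead.N_le_e ⟨N, (vx 0 0).sd, (vx 0 0).ht⟩ j)
      refine ⟨⟨⟨N, (vx 0 0).sd, (vx 0 0).ht⟩, fun a b => (lb a b.1).1⟩,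
        j.1 * ((⟨N, (vx 0 0).sd, (vx 0 0).ht⟩ : THead).e + 1) + n,
        ⟨vx, lb, r, j, n, hn, rfl, hx⟩, ⟨vx, lb, r⟩, ?_, ?_⟩
      · simp only
        have hj : j.1 ≤ 2 := by omega
        have := Nat.mul_le_mul_right ((⟨N, (vx 0 0).sd, (vx 0 0).ht⟩ : THead).e + 1) hj
        omega
      · unfold tW
        simp only
        apply mul_le_mul_right
        apply pr_inv_two_pow_le
        have h1 := (pr_theta_ht th j n hn).1
        rw [hx, hxi] at h1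
        have h2 := pr_H_mono p h1
        rw [pr_H_add] at h2
        have h3 : p.b * n ≤ p.b * (⟨N, (vx 0 0).sd, (vx 0 0).ht⟩ : THead).e :=
          Nat.mul_le_mul_left _ hne
        omega)
    (by
      rintro x x' c k ⟨vx, lb, r, j, n, hn, hk, hx⟩ ⟨vx', lb', r', j', n', hn', hk', hx'⟩
      apply Subtype.ext
      apply Subtype.ext
      rw [← hx, ← hx']
      obtain ⟨e1, e2⟩ := pr_th_code (hn.trans (c.1.N_le_e j)) (hn'.trans (c.1.N_le_e j'))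
        (hk.symm.trans hk')
      have e3 : j = j' := Fin.ext e1
      subst e3
      subst e2
      exact pr_theta_unique hp hcf r r' j n hn)
  rw [Finset.card_univ, ← Nat.card_eq_fintype_card] at key
  exact key

end Claimed.Agent.R300.Pr
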