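/-
Row 300 / S0553 (INJ paper), Section 03_pruning: SELECTION of the tables (method of conditional expectations) and the
deleted fraction of every layer.     helper145.
-/
import Claimed.Agent.R300.PrThSum
import Claimed.Agent.R300.IgrModel

set_option autoImplicit false

namespace Claimed.Agent.R300.Igr

open Claimed.Agent.R300.Lab Claimed.Agent.R300.Pr
open Claimed.Agent.R300.PrProb
open scoped ENNReal

variable {p : Par}

theorem igr_ind_dep {Ω : ℕ → Type} {T : ℕ} {A : (∀ j, Ω j) → Prop} (h : DepBelow T A) (w : ℝ≥0∞) :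
    DepBelow T (fun τ => w * SeqLaw.ind A τ) := by
  intro τ τ' hτ
  have h1 : A τ ↔ A τ' := by rw [h τ τ' hτ]
  have h2 : SeqLaw.ind A τ = SeqLaw.ind A τ' := by
    unfold SeqLaw.ind
    by_cases hA : A τ
    · rw [if_pos hA, if_pos (h1.1 hA)]
    · rw [if_neg hA, if_neg (fun hh => hA (h1.2 hh))]
  show w * SeqLaw.ind A τ = w * SeqLaw.ind A τ'
  rw [h2]

/-- **Selection**: a system of tables in the support of the law for which the weighted numbers of realised return and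
theta candidates are small. -/
theorem igr_select (hp : p.Adm) {cf : Coef p} (hcf : cf.Sep) {ε : ℝ} (L : PLaw p ε)
    (hε0 : 0 ≤ ε) (hε1 : ε ≤ 1) (Lb : ℕ) (hLb : 1000 * Lb ≤ 1001 * p.s)
    (hcard : Fintype.card (Label p) ≤ 2 ^ Lb) :
    ∃ 𝔗 : Tab p, (∀ t, 𝔗 t ∈ L.seq.G t 𝔗) ∧
      (∑' x : (Σ η : RHead, RCand p η), rW p x.1 * SeqLaw.ind (REv cf x.1 x.2) 𝔗)
        + (∑' x : (Σ θ : THead, TCand p θ), tW p x.1 * SeqLaw.ind (TEv cf x.1 x.2) 𝔗)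
        ≤ 2400 * (2⁻¹ : ℝ≥0∞) ^ (p.n0 + 2) := by
  let τ₀ : Tab p := fun _ _ => 1
  let f : ((Σ η : RHead, RCand p η) ⊕ (Σ θ : THead, TCand p θ)) → Tab p → ℝ≥0∞ :=
    Sum.elim (fun x 𝔗 => rW p x.1 * SeqLaw.ind (REv cf x.1 x.2) 𝔗)
      (fun x 𝔗 => tW p x.1 * SeqLaw.ind (TEv cf x.1 x.2) 𝔗)
  let T : ((Σ η : RHead, RCand p η) ⊕ (Σ θ : THead, TCand p θ)) → ℕ :=
    Sum.elim (fun x => p.kap (x.1.ht + x.1.N) + 20) (fun x => x.1.T p)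
  have hf : ∀ c, DepBelow (Ω := fun t => ∀ κ : Key p t, Equiv.Perm (Cell p t κ)) (T c) (f c) := by
    rintro (x | x)
    · exact igr_ind_dep (pr_REv_dep hp cf x.1 x.2) _
    · exact igr_ind_dep (pr_TEv_dep hp cf x.1 x.2) _
  obtain ⟨𝔗, hG, hle⟩ := L.seq.select f T hf τ₀
  refine ⟨𝔗, hG, ?_⟩
  rw [Summable.tsum_sum ENNReal.summable ENNReal.summable,
    Summable.tsum_sum ENNReal.summable ENNReal.summable] at hle
  refine hle.trans ?_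
  have h1 := pr_ret_total hp hcf L hε0 hε1 Lb hLb hcard τ₀
  have h2 := pr_theta_total hp hcf L hε0 hε1 Lb hLb hcard τ₀
  calc _ ≤ 800 * (2⁻¹ : ℝ≥0∞) ^ (p.n0 + 2) + 1600 * (2⁻¹ : ℝ≥0∞) ^ (p.n0 + 2) := add_le_add h1 h2
    _ = 2400 * (2⁻¹ : ℝ≥0∞) ^ (p.n0 + 2) := by rw [← add_mul]; norm_num

/-- from the weighted form to natural numbers -/
theorem igr_enn_nat (c H n : ℕ) (h : (c : ℝ≥0∞) * (2⁻¹ : ℝ≥0∞) ^ H ≤ 2400 * (2⁻¹ : ℝ≥0∞) ^ n) :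
    c * 2 ^ n ≤ 2400 * 2 ^ H := by
  have h1 : (c : ℝ≥0∞) * 2 ^ n ≤ 2400 * 2 ^ H := by
    calc (c : ℝ≥0∞) * 2 ^ n = ((c : ℝ≥0∞) * (2⁻¹ : ℝ≥0∞) ^ H) * (2 ^ H * 2 ^ n) := by
          rw [mul_assoc, ← mul_assoc ((2⁻¹ : ℝ≥0∞) ^ H), mul_comm ((2⁻¹ : ℝ≥0∞) ^ H),
            pr_two_mul_inv_pow, one_mul]
      _ ≤ (2400 * (2⁻¹ : ℝ≥0∞) ^ n) * (2 ^ H * 2 ^ n) := by gcongr
      _ = 2400 * 2 ^ H := by
          rw [mul_assoc, mul_comm ((2 : ℝ≥0∞) ^ H), ← mul_assoc ((2⁻¹ : ℝ≥0∞) ^ n),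
            mul_comm ((2⁻¹ : ℝ≥0∞) ^ n), pr_two_mul_inv_pow, one_mul]
  exact_mod_cast h1

/-- the two deletions in a layer -/
theorem igr_del12 (hp : p.Adm) {cf : Coef p} (hcf : cf.Sep) (𝔗 : Tab p)
    (h : (∑' x : (Σ η : RHead, RCand p η), rW p x.1 * SeqLaw.ind (REv cf x.1 x.2) 𝔗)
        + (∑' x : (Σ θ : THead, TCand p θ), tW p x.1 * SeqLaw.ind (TEv cf x.1 x.2) 𝔗)
        ≤ 2400 * (2⁻¹ : ℝ≥0∞) ^ (p.n0 + 2)) (sd : Bool) (i : ℕ) :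
    (Nat.card {x : Layer p sd i // Del1 cf 𝔗 x.1} + Nat.card {x : Layer p sd i // Del2 cf 𝔗 x.1})
      * 2 ^ (p.n0 + 2) ≤ 2400 * 2 ^ p.H i := by
  apply igr_enn_nat
  push_cast
  rw [add_mul]
  exact (add_le_add (pr_del1_frac hp hcf 𝔗 sd i) (pr_del2_frac hp hcf 𝔗 sd i)).trans h

/-- the deleted vertices of a layer -/
theorem igr_del_count (hp : p.Adm) (cf : Coef p) (𝔗 : Tab p) (sd : Bool) (i : ℕ) :
    Nat.card {x : Layer p sd i // ¬ Xold cf 𝔗 x.1}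
      ≤ Nat.card {x : Layer p sd i // GateBad cf 𝔗 x.1} + Nat.card {x : Layer p sd i // SepBad x.1}
        + (Nat.card {x : Layer p sd i // Del1 cf 𝔗 x.1} + Nat.card {x : Layer p sd i // Del2 cf 𝔗 x.1}) := by
  have := lab_finite_layer hp sd i
  have h1 : Nat.card {x : Layer p sd i // ¬ Xold cf 𝔗 x.1}
      ≤ Nat.card {x : Layer p sd i // (GateBad cf 𝔗 x.1 ∨ SepBad x.1) ∨ (Del1 cf 𝔗 x.1 ∨ Del2 cf 𝔗 x.1)} := by
    apply lab_ncard_mono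
    intro x hx
    by_contra hcon
    push Not at hcon
    exact hx ⟨⟨⟨hcon.1.1, hcon.1.2⟩, hcon.2.1⟩, hcon.2.2⟩
  refine h1.trans ((lab_ncard_or _ _).trans ?_)
  exact add_le_add (lab_ncard_or _ _) (lab_ncard_or _ _)

theorem igr_layer_ge (hp : p.Adm) (sd : Bool) (i : ℕ) : 2 ^ p.H i ≤ Nat.card (Layer p sd i) := by
  cases sd
  · rw [(lab_card_layer hp i).2]
    apply Nat.pow_le_pow_right (by norm_num)
    have : p.s ≤ 2 * p.r := by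
      obtain ⟨c, hc⟩ := hp.h20000
      unfold Par.r
      omega
    omega
  · rw [(lab_card_layer hp i).1]

/-- **The deleted fraction** of every layer, with the three budgets as hypotheses. -/
theorem igr_del_frac (hp : p.Adm) {cf : Coef p} (hcf : cf.Sep) (𝔗 : Tab p)
    (h : (∑' x : (Σ η : RHead, RCand p η), rW p x.1 * SeqLaw.ind (REv cf x.1 x.2) 𝔗)
        + (∑' x : (Σ θ : THead, TCand p θ), tW p x.1 * SeqLaw.ind (TEv cf x.1 x.2) 𝔗)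
        ≤ 2400 * (2⁻¹ : ℝ≥0∞) ^ (p.n0 + 2)) (ε : ℝ)
    (hgate : (600 * p.T * 2 ^ p.b * p.D : ℝ) ≤ ε / 4 * 2 ^ (8 * p.s))
    (hsep : 2 * ((2 : ℝ) ^ (-((p.M * p.b : ℝ) / 2)) / (1 - (2 : ℝ) ^ (-((p.M * p.b : ℝ) / 2)))
        + (2 : ℝ) ^ (-((p.H 0 : ℝ) / 2500)) / (1 - (2 : ℝ) ^ (-((p.b : ℝ) / 2500)))) ≤ ε / 4)
    (hdel : (2400 : ℝ) ≤ ε / 4 * 2 ^ (p.n0 + 2)) (sd : Bool) (i : ℕ) :
    (Nat.card {x : Layer p sd i // ¬ Xold cf 𝔗 x.1} : ℝ) ≤ ε * Nat.card (Layer p sd i) := by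
  have hN : (0 : ℝ) ≤ Nat.card (Layer p sd i) := by positivity
  have h0 : (Nat.card {x : Layer p sd i // ¬ Xold cf 𝔗 x.1} : ℝ)
      ≤ Nat.card {x : Layer p sd i // GateBad cf 𝔗 x.1} + Nat.card {x : Layer p sd i // SepBad x.1}
        + (Nat.card {x : Layer p sd i // Del1 cf 𝔗 x.1} + Nat.card {x : Layer p sd i // Del2 cf 𝔗 x.1}) := by
    exact_mod_cast igr_del_count hp cf 𝔗 sd i
  have h1 : (Nat.card {x : Layer p sd i // GateBad cf 𝔗 x.1} : ℝ) ≤ ε / 4 * Nat.card (Layer p sd i) := by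
    have hg : (2 : ℝ) ^ (8 * p.s) * Nat.card {x : Layer p sd i // GateBad cf 𝔗 x.1} ≤
        600 * p.T * 2 ^ p.b * p.D * Nat.card (Layer p sd i) := by
      exact_mod_cast lab_gate_budget hp cf hcf 𝔗 sd i
    have hpos : (0 : ℝ) < 2 ^ (8 * p.s) := by positivity
    have h2 : (2 : ℝ) ^ (8 * p.s) * Nat.card {x : Layer p sd i // GateBad cf 𝔗 x.1}
        ≤ 2 ^ (8 * p.s) * (ε / 4 * Nat.card (Layer p sd i)) := by
      calc _ ≤ 600 * p.T * 2 ^ p.b * p.D * (Nat.card (Layer p sd i) : ℝ) := hg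
        _ ≤ (ε / 4 * 2 ^ (8 * p.s)) * Nat.card (Layer p sd i) := mul_le_mul_of_nonneg_right hgate hN
        _ = _ := by ring
    exact le_of_mul_le_mul_left h2 hpos
  have h2 : (Nat.card {x : Layer p sd i // SepBad x.1} : ℝ) ≤ ε / 4 * Nat.card (Layer p sd i) :=
    (lab_sep_budget hp sd i).trans (mul_le_mul_of_nonneg_right hsep hN)
  have h3 : ((Nat.card {x : Layer p sd i // Del1 cf 𝔗 x.1} : ℝ)
      + Nat.card {x : Layer p sd i // Del2 cf 𝔗 x.1}) ≤ ε / 4 * Nat.card (Layer p sd i) := by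
    have hd : ((Nat.card {x : Layer p sd i // Del1 cf 𝔗 x.1} : ℝ)
        + Nat.card {x : Layer p sd i // Del2 cf 𝔗 x.1}) * 2 ^ (p.n0 + 2) ≤ 2400 * 2 ^ p.H i := by
      exact_mod_cast igr_del12 hp hcf 𝔗 h sd i
    have hl : (2 : ℝ) ^ p.H i ≤ Nat.card (Layer p sd i) := by exact_mod_cast igr_layer_ge hp sd i
    have hpos : (0 : ℝ) < 2 ^ (p.n0 + 2) := by positivity
    have hH : (0 : ℝ) < 2 ^ p.H i := by positivity
    have h4 : ((Nat.card {x : Layer p sd i // Del1 cf 𝔗 x.1} : ℝ)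
        + Nat.card {x : Layer p sd i // Del2 cf 𝔗 x.1}) * 2 ^ (p.n0 + 2)
        ≤ (ε / 4 * Nat.card (Layer p sd i)) * 2 ^ (p.n0 + 2) := by
      have hε : 0 ≤ ε / 4 * 2 ^ (p.n0 + 2) := le_trans (by norm_num) hdel
      calc _ ≤ 2400 * (2 : ℝ) ^ p.H i := hd
        _ ≤ (ε / 4 * 2 ^ (p.n0 + 2)) * 2 ^ p.H i := mul_le_mul_of_nonneg_right hdel hH.le
        _ ≤ (ε / 4 * 2 ^ (p.n0 + 2)) * Nat.card (Layer p sd i) := mul_le_mul_of_nonneg_left hl hε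
        _ = _ := by ring
    exact le_of_mul_le_mul_right h4 hpos
  have hε : 0 ≤ ε := by
    have hpos : (0 : ℝ) < 2 ^ (p.n0 + 2) := by positivity
    by_contra hc
    push Not at hc
    have : ε / 4 * 2 ^ (p.n0 + 2) < 0 := mul_neg_of_neg_of_pos (by linarith) hpos
    linarith
  nlinarith

end Claimed.Agent.R300.Igr
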