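/-
Row 300 / S0553 (INJ paper): final adapter of Sections 1-3, package IGR-C (owner of the adapter:
helper59): walks given by LISTS OF DARTS of `(igrOld cf 𝔗 S).sub` versus walks given by FUNCTIONS
(`Lab.IsWalk cf 𝔗 S N vx lb`); girth and word uniqueness in the language of `InjGr`.
The `sorry`s are replaced IN PLACE by the owner of the package (table subtask, target row300, IGR-C).
Statements are frozen: ask helper59 before changing one (adding lemmas is free).

Dictionary: the dart `(e, β)` has the signed label `igrLs (e, β) = (label of e, !β)`; `(e, false)` is the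
positive step from the A end to the B end.  `dg.src (e,false) = src e`, `dg.src (e,true) = tgt e`,
`dg.inv (e,β) = (e,!β)`.
-/
import Claimed.Agent.R300.IgrModel

set_option autoImplicit false

namespace Claimed.Agent.R300.Igr

open Claimed.Agent.R300.Lab Claimed.Agent.R300.Pr

variable {p : Par} {cf : Coef p} {𝔗 : Tab p} {S : Vtx p → Prop}

/-- the signed label of a dart -/
def igrLs (d : (igrOld cf 𝔗 S).sub.E × Bool) : Label p × Bool := (d.1.1.1.2.2, !d.2)

/-! ## IGR-C -/

/-- a dart is a step -/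
theorem igr_dart_step (d : (igrOld cf 𝔗 S).sub.E × Bool) :
    Step cf 𝔗 ((igrOld cf 𝔗 S).sub.dg.src d).1 ((igrOld cf 𝔗 S).sub.dg.tgt d).1 (igrLs d) := by
  obtain ⟨e, β⟩ := d
  have hE : ∃ h, IsEdge0 cf 𝔗 h e.1.1.1 e.1.1.2.1 e.1.1.2.2 := e.1.2
  cases β
  · change Step cf 𝔗 e.1.1.1 e.1.1.2.1 (e.1.1.2.2, true)
    simpa [Step] using hE
  · change Step cf 𝔗 e.1.1.2.1 e.1.1.1 (e.1.1.2.2, false)
    simpa [Step] using hE

/-- a dart is determined by its source and its signed label (foldedness) -/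
theorem igr_dart_ext (hp : p.Adm) (hcf : cf.Sep) (d d' : (igrOld cf 𝔗 S).sub.E × Bool)
    (h1 : (igrOld cf 𝔗 S).sub.dg.src d = (igrOld cf 𝔗 S).sub.dg.src d') (h2 : igrLs d = igrLs d') :
    d = d' := by
  obtain ⟨e, β⟩ := d
  obtain ⟨e', β'⟩ := d'
  have hl : e.1.1.2.2 = e'.1.1.2.2 := congrArg Prod.fst h2
  have hβ : β = β' := by
    have : (!β) = !β' := congrArg Prod.snd h2
    simpa using this
  subst hβ
  have hstr := igr_str hp cf hcf 𝔗
  have h1' := congrArg Subtype.val h1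
  have : e.1 = e'.1 := by
    cases β
    · exact hstr.fold_src e.1 e'.1 h1' hl
    · exact hstr.fold_tgt e.1 e'.1 h1' hl
  rw [Subtype.ext this]

theorem igr_exists_lb (W : List ((igrOld cf 𝔗 S).sub.E × Bool)) (hne : W ≠ []) :
    ∃ lb : ℕ → Label p × Bool, ∀ n (hn : n < W.length), lb n = igrLs W[n] :=
  ⟨fun n => if h : n < W.length then igrLs W[n] else igrLs (W.head hne), fun n hn => by
    simp only [dif_pos hn]⟩

/-- the vertices of a walk given by a list of darts -/
theorem igr_walk_idx {V D : Type*} (G : HeisLaw.HlGraph V D) : ∀ (W : List D) (a c : V),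
    G.IsWalk a W c → ∃ vx : ℕ → V, vx 0 = a ∧ vx W.length = c ∧
      ∀ n (hn : n < W.length), vx n = G.src W[n] ∧ vx (n + 1) = G.tgt W[n] := by
  intro W
  induction W with
  | nil =>
    intro a c h
    exact ⟨fun _ => a, rfl, h, fun n hn => absurd hn (by simp)⟩
  | cons d W ih =>
    intro a c h
    obtain ⟨h1, h2⟩ := h
    obtain ⟨vx, v0, vN, hv⟩ := ih _ _ h2
    refine ⟨fun n => Nat.casesOn n a vx, rfl, vN, ?_⟩
    intro n hn
    cases n with
    | zero => exact ⟨h1.symm, v0⟩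
    | succ n => exact hv n (by simpa using hn)

/-- **lists of darts → functions** -/
theorem igr_walk_fun (hp : p.Adm) (hcf : cf.Sep) (a c : (igrOld cf 𝔗 S).sub.V)
    (W : List ((igrOld cf 𝔗 S).sub.E × Bool)) (hW : (igrOld cf 𝔗 S).sub.dg.IsWalk a W c)
    (lb : ℕ → Label p × Bool) (hlb : ∀ n (hn : n < W.length), lb n = igrLs W[n]) :
    ∃ vx : ℕ → Vtx p, IsWalk cf 𝔗 S W.length vx lb ∧ vx 0 = a.1 ∧ vx W.length = c.1 ∧
      (∀ n (hn : n < W.length), vx n = ((igrOld cf 𝔗 S).sub.dg.src W[n]).1 ∧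
        vx (n + 1) = ((igrOld cf 𝔗 S).sub.dg.tgt W[n]).1) ∧
      ((igrOld cf 𝔗 S).sub.dg.Reduced W → Reduced W.length lb) := by
  obtain ⟨vx, v0, vN, hv⟩ := igr_walk_idx _ W a c hW
  refine ⟨fun n => (vx n).1, ⟨fun n _ => (vx n).2, fun n hn => ?_⟩, congrArg _ v0, congrArg _ vN,
    fun n hn => ⟨congrArg _ (hv n hn).1, congrArg _ (hv n hn).2⟩, ?_⟩
  · rw [(hv n hn).1, (hv n hn).2, hlb n hn]
    exact igr_dart_step _
  · intro hred n hn hcon
    have hn0 : n < W.length := by omega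
    rw [HeisLaw.HlGraph.Reduced, List.isChain_iff_getElem] at hred
    apply hred n hn
    apply igr_dart_ext hp hcf
    · rw [HeisLaw.HlGraph.src_inv, ← (hv n hn0).2, (hv (n + 1) hn).1]
    · rw [hlb n hn0, hlb (n + 1) hn] at hcon
      obtain ⟨c1, c2⟩ := hcon
      refine Prod.ext c1 ?_
      rw [c2]
      rfl

/-- heights along a walk: every dart of a walk starting at `a` starts at height
`≥ ht a - |W|` and `≤ ht a + |W|` -/
theorem igr_walk_ht (hp : p.Adm) (hcf : cf.Sep) (a c : (igrOld cf 𝔗 S).sub.V)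
    (W : List ((igrOld cf 𝔗 S).sub.E × Bool)) (hW : (igrOld cf 𝔗 S).sub.dg.IsWalk a W c)
    (d : (igrOld cf 𝔗 S).sub.E × Bool) (hd : d ∈ W) :
    a.1.ht ≤ ((igrOld cf 𝔗 S).sub.dg.src d).1.ht + W.length ∧
      ((igrOld cf 𝔗 S).sub.dg.src d).1.ht ≤ a.1.ht + W.length := by
  have hne : W ≠ [] := List.ne_nil_of_mem hd
  obtain ⟨lb, hlb⟩ := igr_exists_lb W hne
  obtain ⟨vx, w, v0, -, hv, -⟩ := igr_walk_fun hp hcf a c W hW lb hlb
  obtain ⟨n, hn, rfl⟩ := List.getElem_of_mem hd
  rw [← (hv n hn).1, ← v0]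
  have key : ∀ m, m ≤ W.length → (vx 0).ht ≤ (vx m).ht + m ∧ (vx m).ht ≤ (vx 0).ht + m := by
    intro m
    induction m with
    | zero => intro _; omega
    | succ m ih =>
      intro hm
      have h1 := ih (by omega)
      have h2 := lab_step_ht cf 𝔗 _ _ _ (w.step m (by omega))
      omega
  have := key n hn.le
  omega

/-- (P2), from `Pr.pr_girth` -/
theorem igr_girth (hp : p.Adm) (hcf : cf.Sep) (hS : ∀ x, S x → X1 cf 𝔗 x) :
    (igrOld cf 𝔗 S).sub.Girth93 := by
  intro a W hW hne hcr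
  obtain ⟨lb, hlb⟩ := igr_exists_lb W hne
  obtain ⟨vx, w, v0, vN, -, hred⟩ := igr_walk_fun hp hcf a a W hW lb hlb
  have := pr_girth hp (pr_walk_mono w hS) (List.length_pos_iff.2 hne) (vN.trans v0.symm)
    (hred hcr.1)
  rw [v0] at this
  exact this

/-- word uniqueness, from `Lab.lab_word_unique` and `igr_dart_ext` -/
theorem igr_wordUnique (hp : p.Adm) (hcf : cf.Sep) (hS : ∀ x, S x → Good cf 𝔗 x) :
    (igrOld cf 𝔗 S).sub.WordUnique := by
  intro a a' c c' W W' hW hW' hred hmap hlen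
  have hl : W.length = W'.length := by
    have := congrArg List.length hmap
    simpa using this
  by_cases hne : W = []
  · subst hne
    simp only [List.length_nil] at hl
    exact (List.length_eq_zero_iff.1 hl.symm).symm
  obtain ⟨lb, hlb⟩ := igr_exists_lb W hne
  have hls : ∀ n (hn : n < W.length) (hn' : n < W'.length), igrLs W[n] = igrLs W'[n] := by
    intro n hn hn'
    have h1 : (W.map (igrOld cf 𝔗 S).sub.dlab)[n]'(by simpa using hn)
        = (W'.map (igrOld cf 𝔗 S).sub.dlab)[n]'(by simpa using hn') := by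
      simp only [hmap]
    rw [List.getElem_map, List.getElem_map] at h1
    have h2 : W[n].1.1.1.2.2 = W'[n].1.1.1.2.2 := congrArg Prod.fst h1
    have h3 : W[n].2 = W'[n].2 :=
      congrArg (Prod.snd : (igrOld cf 𝔗 S).sub.Lb × Bool → Bool) h1
    exact Prod.ext h2 (congrArg (fun β : Bool => !β) h3)
  have hlb' : ∀ n (hn : n < W'.length), lb n = igrLs W'[n] := fun n hn => by
    rw [hlb n (hl ▸ hn), hls n (hl ▸ hn) hn]
  obtain ⟨vx, w, v0, -, hv, hr⟩ := igr_walk_fun hp hcf a c W hW lb hlb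
  obtain ⟨vx', w', -, -, hv', -⟩ := igr_walk_fun hp hcf a' c' W' hW' lb hlb'
  rw [← hl] at w'
  have huniq := lab_word_unique hp cf hcf 𝔗 W.length vx vx' lb (pr_walk_mono w hS)
    (pr_walk_mono w' hS) (hr hred) (by rw [v0]; exact hlen)
  refine List.ext_getElem hl fun n hn hn' => ?_
  apply igr_dart_ext hp hcf _ _ _ (hls n hn hn')
  apply Subtype.ext
  rw [← (hv n hn).1, ← (hv' n hn').1]
  exact huniq n hn.le

end Claimed.Agent.R300.Igr
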