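/-
Row 300 / S0553 (INJ paper): final adapter of Sections 1-3, package IGR-D (owner of the adapter:
helper59): thetas given by lists of darts (`HeisLaw.HlGraph.IsTheta`) versus `Pr.IsThetaW`; (P3)
`NonLaw604` from `HeisLaw.hl_nonlaw`, the girth and the second deletion.
The `sorry`s are replaced IN PLACE by the owner of the package (table subtask, target row300, IGR-D).
Statements are frozen: ask helper59 before changing one (adding lemmas is free).

PROOF of `igr_nonlaw`.  Let `W` be closed at `a`, cyclically reduced, `100 |W| lq ≤ 604 H(a)`.  Apply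
`hl_nonlaw` with `x := InjHeis.x`, `y := InjHeis.y` (`x y x⁻¹ y⁻¹ = z` is central of infinite order).
Put `H = p.H a.ht`.  From `hp.hslope : 10^6 b ≤ lq`:  `10^8 b |W| ≤ 100 |W| lq ≤ 604 H`.  Every dart of `W`
starts at height `≥ a.ht - |W|` (`igr_walk_ht`), so its scale is `≥ H - b |W|` (`pr_H_add`, `pr_H_mono`).
* `hcyc`: `C` closed at `q`, nonempty, cyclically reduced, darts in `W`: `q` is the source of the first dart
  of `C`; `igr_girth`: `93 H(q) < 100 |C| lq`; if `8 |C| ≤ |W|` then `744 H(q) < 800 |C| lq ≤ 100 |W| lq ≤ 604 H`,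
  contradiction with `H(q) ≥ H - b |W|`.
* `htheta`: a theta with darts in `W`, `e` = its length; if `4 e ≤ |W|` then `100 e lq ≤ 151 H < 152 H(q)`,
  `q` = first branch vertex (source of the first dart of `P₁`); by `igr_theta_fun` (+ monotonicity of
  `IsThetaW` in the vertex set, `Xold ⊆ X1`) `Del2 cf 𝔗 q`, but `q` survives: contradiction.
-/
import Claimed.Agent.R300.IgrWalk
import Claimed.Agent.R300.DomHeis

set_option autoImplicit false

namespace Claimed.Agent.R300.Igr

open Claimed.Agent.R300.Lab Claimed.Agent.R300.Pr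

variable {p : Par} {cf : Coef p} {𝔗 : Tab p} {S : Vtx p → Prop}

/-! ## IGR-D -/

/-- three lists whose concatenation has no repetition -/
theorem igr_nodup3 {α : Type*} (L : Fin 3 → List α) (h : (L 0 ++ L 1 ++ L 2).Nodup) :
    (∀ i, (L i).Nodup) ∧ ∀ i j, i ≠ j → ∀ x ∈ L i, x ∉ L j := by
  rw [List.nodup_append, List.nodup_append] at h
  obtain ⟨⟨h0, h1, h01⟩, h2, h012⟩ := h
  have h02 : ∀ x ∈ L 0, ∀ y ∈ L 2, x ≠ y := fun x hx => h012 x (List.mem_append_left _ hx)
  have h12 : ∀ x ∈ L 1, ∀ y ∈ L 2, x ≠ y := fun x hx => h012 x (List.mem_append_right _ hx)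
  refine ⟨?_, ?_⟩
  · intro i
    fin_cases i
    · exact h0
    · exact h1
    · exact h2
  · intro i j hij x hx hx'
    fin_cases i <;> fin_cases j
    · exact hij rfl
    · exact h01 x hx x hx' rfl
    · exact h02 x hx x hx' rfl
    · exact h01 x hx' x hx rfl
    · exact hij rfl
    · exact h12 x hx x hx' rfl
    · exact h02 x hx' x hx rfl
    · exact h12 x hx' x hx rfl
    · exact hij rfl

/-- the inner vertices of a walk, by index -/
theorem igr_inner_getElem {V D : Type*} (G : HeisLaw.HlGraph V D) (W : List D) (n : ℕ) (h0 : 0 < n)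
    (hn : n < W.length) :
    ∃ h : n - 1 < (G.inner W).length, (G.inner W)[n - 1] = G.src W[n] := by
  have h1 : n - 1 < (G.inner W).length := by
    unfold HeisLaw.HlGraph.inner
    rw [List.length_map, List.length_tail]
    omega
  have key : ∀ (L : List V), L = W.tail.map G.src → ∀ h : n - 1 < L.length,
      L[n - 1] = G.src W[n] := by
    rintro L rfl h
    rw [List.getElem_map, List.getElem_tail]
    have e : n - 1 + 1 = n := by omega
    simp only [e]
  exact ⟨h1, key _ rfl h1⟩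

theorem igr_theta_mono {S S' : Vtx p → Prop} (hS : ∀ x, S x → S' x) {N : Fin 3 → ℕ}
    {vx : Fin 3 → ℕ → Vtx p} {lb : Fin 3 → ℕ → Label p × Bool} (h : IsThetaW cf 𝔗 S N vx lb) :
    IsThetaW cf 𝔗 S' N vx lb :=
  { h with walk := fun i => ⟨fun n hn => hS _ ((h.walk i).mem n hn), (h.walk i).step⟩ }

/-- **thetas: lists of darts → functions** -/
theorem igr_theta_fun (hp : p.Adm) (hcf : cf.Sep) (a b : (igrOld cf 𝔗 S).sub.V)
    (P₁ P₂ P₃ : List ((igrOld cf 𝔗 S).sub.E × Bool))
    (h : (igrOld cf 𝔗 S).sub.dg.IsTheta a b P₁ P₂ P₃) :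
    ∃ (N : Fin 3 → ℕ) (vx : Fin 3 → ℕ → Vtx p) (lb : Fin 3 → ℕ → Label p × Bool),
      IsThetaW cf 𝔗 S N vx lb ∧ N 0 = P₁.length ∧ N 1 = P₂.length ∧ N 2 = P₃.length ∧
        vx 0 0 = a.1 := by
  obtain ⟨P, hP⟩ : ∃ P : Fin 3 → List ((igrOld cf 𝔗 S).sub.E × Bool), P = ![P₁, P₂, P₃] := ⟨_, rfl⟩
  have hP0 : P 0 = P₁ := by rw [hP]; rfl
  have hP1 : P 1 = P₂ := by rw [hP]; rfl
  have hP2 : P 2 = P₃ := by rw [hP]; rfl
  have hwalk : ∀ i, (igrOld cf 𝔗 S).sub.dg.IsWalk a (P i) b := by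
    intro i
    fin_cases i
    · show (igrOld cf 𝔗 S).sub.dg.IsWalk a (P 0) b
      rw [hP0]; exact h.walk₁
    · show (igrOld cf 𝔗 S).sub.dg.IsWalk a (P 1) b
      rw [hP1]; exact h.walk₂
    · show (igrOld cf 𝔗 S).sub.dg.IsWalk a (P 2) b
      rw [hP2]; exact h.walk₃
  have hv := h.nodup_verts
  rw [List.nodup_cons, List.nodup_cons] at hv
  obtain ⟨ha, hb, hin⟩ := hv
  have hab : a ≠ b := fun e => ha (by rw [e]; exact List.mem_cons_self)
  have hin' : ((fun i => (igrOld cf 𝔗 S).sub.dg.inner (P i)) 0 ++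
      (fun i => (igrOld cf 𝔗 S).sub.dg.inner (P i)) 1 ++
      (fun i => (igrOld cf 𝔗 S).sub.dg.inner (P i)) 2).Nodup := by
    simp only [hP0, hP1, hP2]
    exact hin
  obtain ⟨hI1, hI2⟩ := igr_nodup3 (fun i => (igrOld cf 𝔗 S).sub.dg.inner (P i)) hin'
  have hmemI : ∀ i, ∀ v ∈ (igrOld cf 𝔗 S).sub.dg.inner (P i),
      v ∈ (igrOld cf 𝔗 S).sub.dg.inner P₁ ++ (igrOld cf 𝔗 S).sub.dg.inner P₂ ++
        (igrOld cf 𝔗 S).sub.dg.inner P₃ := by
    intro i v hv
    fin_cases i
    · have hv' : v ∈ (igrOld cf 𝔗 S).sub.dg.inner (P 0) := hv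
      rw [hP0] at hv'
      exact List.mem_append_left _ (List.mem_append_left _ hv')
    · have hv' : v ∈ (igrOld cf 𝔗 S).sub.dg.inner (P 1) := hv
      rw [hP1] at hv'
      exact List.mem_append_left _ (List.mem_append_right _ hv')
    · have hv' : v ∈ (igrOld cf 𝔗 S).sub.dg.inner (P 2) := hv
      rw [hP2] at hv'
      exact List.mem_append_right _ hv'
  have hd' : (P 0 ++ P 1 ++ P 2).Nodup := by
    rw [hP0, hP1, hP2]
    exact h.nodup_darts
  obtain ⟨-, hD2⟩ := igr_nodup3 P hd'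
  have hne : ∀ i, P i ≠ [] := by
    intro i e
    have := hwalk i
    rw [e] at this
    exact hab this
  choose lb hlb using fun i => igr_exists_lb (P i) (hne i)
  choose vx hvx using fun i => igr_walk_fun hp hcf a b (P i) (hwalk i) (lb i) (hlb i)
  have hpos : ∀ i, 0 < (P i).length := fun i => List.length_pos_iff.2 (hne i)
  have hsrc : ∀ i n, 0 < n → ∀ hn : n < (P i).length,
      ∃ v ∈ (igrOld cf 𝔗 S).sub.dg.inner (P i), vx i n = v.1 := by
    intro i n h0 hn
    obtain ⟨h1, h2⟩ := igr_inner_getElem (igrOld cf 𝔗 S).sub.dg (P i) n h0 hn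
    exact ⟨_, List.getElem_mem h1, by rw [h2]; exact ((hvx i).2.2.2.1 n hn).1⟩
  refine ⟨fun i => (P i).length, vx, lb, ?_, congrArg List.length hP0, congrArg List.length hP1,
    congrArg List.length hP2, (hvx 0).2.1⟩
  refine ⟨fun i => (hvx i).1, hpos, fun i => (hvx i).2.1.trans (hvx 0).2.1.symm,
    fun i => (hvx i).2.2.1.trans (hvx 0).2.2.1.symm, ?_, ?_, ?_, ?_⟩
  · rw [(hvx 0).2.1, (hvx 0).2.2.1]
    exact fun e => hab (Subtype.ext e)
  · intro i j n m hn0 hn hm0 hm e
    obtain ⟨h1, h2⟩ := igr_inner_getElem (igrOld cf 𝔗 S).sub.dg (P i) n hn0 hn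
    obtain ⟨h1', h2'⟩ := igr_inner_getElem (igrOld cf 𝔗 S).sub.dg (P j) m hm0 hm
    have e1 : (igrOld cf 𝔗 S).sub.dg.src (P i)[n] = (igrOld cf 𝔗 S).sub.dg.src (P j)[m] := by
      apply Subtype.ext
      rw [← ((hvx i).2.2.2.1 n hn).1, ← ((hvx j).2.2.2.1 m hm).1]
      exact e
    rw [← h2, ← h2'] at e1
    by_cases hij : i = j
    · subst hij
      refine ⟨rfl, ?_⟩
      have := (List.Nodup.getElem_inj_iff (hI1 i)).1 e1
      omega
    · exfalso
      refine hI2 i j hij _ (List.getElem_mem h1) ?_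
      rw [e1]
      exact List.getElem_mem h1'
  · intro i n hn0 hn
    obtain ⟨v, hv, e⟩ := hsrc i n hn0 hn
    rw [e, (hvx 0).2.1, (hvx 0).2.2.1]
    constructor
    · intro e'
      have : v = a := Subtype.ext e'
      rw [this] at hv
      exact ha (List.mem_cons_of_mem _ (hmemI i a hv))
    · intro e'
      have : v = b := Subtype.ext e'
      rw [this] at hv
      exact hb (hmemI i b hv)
  · intro i j hij e
    rw [hlb i 0 (hpos i), hlb j 0 (hpos j)] at e
    have s1 : (igrOld cf 𝔗 S).sub.dg.src ((P i)[0]'(hpos i)) =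
        (igrOld cf 𝔗 S).sub.dg.src ((P j)[0]'(hpos j)) := by
      apply Subtype.ext
      rw [← ((hvx i).2.2.2.1 0 (hpos i)).1, ← ((hvx j).2.2.2.1 0 (hpos j)).1, (hvx i).2.1,
        (hvx j).2.1]
    have := igr_dart_ext hp hcf _ _ s1 e
    refine hD2 i j hij _ (List.getElem_mem (hpos i)) ?_
    rw [this]
    exact List.getElem_mem (hpos j)

/-- (P3) -/
theorem igr_nonlaw (hp : p.Adm) (hcf : cf.Sep) :
    (igrOld cf 𝔗 (Xold cf 𝔗)).sub.NonLaw604 := by
  intro a W hW hne hcr hlen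
  have hz' : InjHeis.x * InjHeis.y * InjHeis.x⁻¹ * InjHeis.y⁻¹ = InjHeis.z := by
    ext <;> simp [InjHeis.x, InjHeis.y, InjHeis.z]
  have hlen' : 100 * (W.length * p.lq) ≤ 604 * p.H a.1.ht := hlen
  have hslope : 1000000 * (p.b * W.length) ≤ W.length * p.lq := by
    have := Nat.mul_le_mul_right W.length hp.hslope
    calc 1000000 * (p.b * W.length) = 1000000 * p.b * W.length := by ring
      _ ≤ p.lq * W.length := this
      _ = W.length * p.lq := Nat.mul_comm _ _
  have hH : ∀ d ∈ W, p.H a.1.ht ≤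
      p.H ((igrOld cf 𝔗 (Xold cf 𝔗)).sub.dg.src d).1.ht + p.b * W.length := by
    intro d hd
    have h1 := (igr_walk_ht hp hcf a a W hW d hd).1
    calc p.H a.1.ht ≤ p.H (((igrOld cf 𝔗 (Xold cf 𝔗)).sub.dg.src d).1.ht + W.length) :=
          pr_H_mono p h1
      _ = _ := pr_H_add p _ _
  refine HeisLaw.hl_nonlaw _ InjHeis.x InjHeis.y ?_ ?_ ?_ W a hW hne hcr.1 ?_ ?_
  · rw [hz']
    show InjHeis.z * InjHeis.x = InjHeis.x * InjHeis.z
    ext <;> simp [InjHeis.x, InjHeis.z]
  · rw [hz']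
    show InjHeis.z * InjHeis.y = InjHeis.y * InjHeis.z
    ext <;> simp [InjHeis.y, InjHeis.z]
  · intro n hn
    rw [hz'] at hn
    by_contra h0
    have h1 := InjHeis.torsion_free InjHeis.z (isOfFinOrder_iff_zpow_eq_one.2 ⟨n, h0, hn⟩)
    have h2 := congrArg InjHeis.c h1
    simp [InjHeis.z] at h2
  · intro q C hC hCne hCc hCW
    obtain ⟨d₀, C', rfl⟩ := List.exists_cons_of_ne_nil hCne
    have hq : (igrOld cf 𝔗 (Xold cf 𝔗)).sub.dg.src d₀ = q := hC.1
    have hg : 93 * p.H q.1.ht < 100 * ((d₀ :: C').length * p.lq) :=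
      igr_girth hp hcf (fun x hx => hx.1) q (d₀ :: C') hC hCne hCc
    have h2 := hH d₀ (hCW d₀ List.mem_cons_self)
    rw [hq] at h2
    by_contra hcon
    have hcon' : 8 * (d₀ :: C').length ≤ W.length := not_lt.1 hcon
    have h3 : 8 * ((d₀ :: C').length * p.lq) ≤ W.length * p.lq := by
      rw [← Nat.mul_assoc]
      exact Nat.mul_le_mul_right _ hcon'
    generalize (d₀ :: C').length * p.lq = v at *
    generalize W.length * p.lq = u at *
    generalize p.b * W.length = t at *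
    omega
  · intro q q' P₁ P₂ P₃ hth hmem
    by_contra hcon
    have hcon' : 4 * (P₁.length + P₂.length + P₃.length) ≤ W.length := not_lt.1 hcon
    obtain ⟨N, vx, lb, hT, h0, h1, h2, hv⟩ := igr_theta_fun hp hcf q q' P₁ P₂ P₃ hth
    have hP1 : P₁ ≠ [] := by
      intro e
      have := hT.pos 0
      rw [h0, e] at this
      simp at this
    obtain ⟨d₀, P', rfl⟩ := List.exists_cons_of_ne_nil hP1
    have hq : (igrOld cf 𝔗 (Xold cf 𝔗)).sub.dg.src d₀ = q := hth.walk₁.1
    have h3 := hH d₀ (hmem d₀ (by simp))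
    rw [hq] at h3
    have hq2 : Xold cf 𝔗 q.1 := q.2
    apply hq2.2
    refine ⟨N, vx, lb, igr_theta_mono (fun x hx => hx.1) hT, ⟨0, 0, Nat.zero_le _, hv⟩, 0, 0,
      Nat.zero_le _, ?_⟩
    rw [hv, h0, h1, h2]
    have hHpos : 0 < p.H q.1.ht := by
      unfold Par.H
      have := hp.hs
      positivity
    have h4 : 4 * (((d₀ :: P').length + P₂.length + P₃.length) * p.lq) ≤ W.length * p.lq := by
      rw [← Nat.mul_assoc]
      exact Nat.mul_le_mul_right _ hcon'
    generalize ((d₀ :: P').length + P₂.length + P₃.length) * p.lq = v at *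
    generalize W.length * p.lq = u at *
    generalize p.b * W.length = t at *
    omega

end Claimed.Agent.R300.Igr
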