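/-
Row 300 / S0553 (INJ paper), Section 01_labeling, package L2 (LabCoef), combinatorial core.
Abstract "pool" lemma: in a finite abelian group `F` with a translation closed family of small
classes there are many pairwise disjoint `d`-element pools, each of which meets every class in at
most `k` points.  (Random `n`-set by an exponential moment bound, then greedy translates.)
-/
import Mathlib

set_option autoImplicit false

namespace Claimed.Agent.R300.Lab

open Finset

section pool

variable {F : Type*} [Fintype F] [DecidableEq F]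

/-- exponential moment of the number of hits of a uniformly random function -/
theorem labp_mgf (n : ℕ) (S : Finset F) :
    ∑ f : Fin n → F, 2 ^ (univ.filter fun t => f t ∈ S).card
      = (Fintype.card F + S.card) ^ n := by
  have h1 : ∀ f : Fin n → F, 2 ^ (univ.filter fun t => f t ∈ S).card
      = ∏ t, (if f t ∈ S then 2 else 1 : ℕ) := by
    intro f
    rw [Finset.prod_ite, Finset.prod_const, Finset.prod_const_one, mul_one]
  simp_rw [h1]
  have h2 := Finset.prod_univ_sum (fun _ : Fin n => (univ : Finset F))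
    (fun _ x => (if x ∈ S then 2 else 1 : ℕ))
  rw [Fintype.piFinset_univ] at h2
  rw [← h2, Finset.prod_const, Finset.card_univ, Fintype.card_fin]
  congr 1
  have h3 : ∀ x : F, (if x ∈ S then 2 else 1 : ℕ) = 1 + (if x ∈ S then 1 else 0) := by
    intro x; split_ifs <;> rfl
  simp_rw [h3]
  rw [Finset.sum_add_distrib, ← Finset.card_filter]
  simp

/-- Markov -/
theorem labp_markov (n k : ℕ) (S : Finset F) :
    2 ^ (k + 1) * (univ.filter fun f : Fin n → F =>
        k + 1 ≤ (univ.filter fun t => f t ∈ S).card).card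
      ≤ (Fintype.card F + S.card) ^ n := by
  rw [← labp_mgf n S]
  calc 2 ^ (k + 1) * (univ.filter fun f : Fin n → F =>
        k + 1 ≤ (univ.filter fun t => f t ∈ S).card).card
      = (univ.filter fun f : Fin n → F =>
        k + 1 ≤ (univ.filter fun t => f t ∈ S).card).card • 2 ^ (k + 1) := by
        rw [smul_eq_mul, mul_comm]
    _ ≤ ∑ f ∈ (univ.filter fun f : Fin n → F =>
        k + 1 ≤ (univ.filter fun t => f t ∈ S).card),
          2 ^ (univ.filter fun t => f t ∈ S).card := by
        apply Finset.card_nsmul_le_sum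
        intro f hf
        exact Nat.pow_le_pow_right (by norm_num) (Finset.mem_filter.1 hf).2
    _ ≤ _ := Finset.sum_le_sum_of_subset (Finset.filter_subset _ _)

/-- collisions at two fixed places -/
theorem labp_coll (n : ℕ) (t t' : Fin n) (h : t ≠ t') :
    (univ.filter fun f : Fin n → F => f t = f t').card * Fintype.card F
      ≤ Fintype.card F ^ n := by
  have h1 : ((univ.filter fun f : Fin n → F => f t = f t') ×ˢ (univ : Finset F)).card
      ≤ (univ : Finset (Fin n → F)).card := by
    apply Finset.card_le_card_of_injOn (fun x => Function.update x.1 t x.2)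
    · intro x _; exact Finset.mem_coe.2 (Finset.mem_univ _)
    · rintro ⟨f, y⟩ hf ⟨f', y'⟩ hf' heq
      simp only [Finset.coe_product, Set.mem_prod, Finset.mem_coe, Finset.mem_filter,
        Finset.mem_univ, true_and, and_true] at hf hf'
      simp only at heq
      have hy : y = y' := by
        have := congrFun heq t
        simpa using this
      have hne : ∀ u, u ≠ t → f u = f' u := by
        intro u hu
        have := congrFun heq u
        simpa [Function.update_of_ne hu] using this
      have hff : f = f' := by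
        funext u
        by_cases hu : u = t
        · subst hu
          rw [hf, hf']
          exact hne _ (Ne.symm h)
        · exact hne u hu
      rw [hy, hff]
  rw [Finset.card_product, Finset.card_univ, Finset.card_univ] at h1
  simpa using h1

/-- number of non injective functions -/
theorem labp_noninj (n : ℕ) :
    (univ.filter fun f : Fin n → F => ¬ Function.Injective f).card * Fintype.card F
      ≤ n ^ 2 * Fintype.card F ^ n := by
  have hsub : (univ.filter fun f : Fin n → F => ¬ Function.Injective f) ⊆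
      ((univ : Finset (Fin n × Fin n)).filter fun x => x.1 ≠ x.2).biUnion
        (fun x => univ.filter fun f : Fin n → F => f x.1 = f x.2) := by
    intro f hf
    have hf' := (Finset.mem_filter.1 hf).2
    simp only [Function.Injective, not_forall] at hf'
    obtain ⟨t, t', h1, h2⟩ := hf'
    refine Finset.mem_biUnion.2 ⟨(t, t'), ?_, ?_⟩
    · simpa using h2
    · simpa using h1
  calc (univ.filter fun f : Fin n → F => ¬ Function.Injective f).card * Fintype.card F
      ≤ (∑ x ∈ ((univ : Finset (Fin n × Fin n)).filter fun x => x.1 ≠ x.2),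
          (univ.filter fun f : Fin n → F => f x.1 = f x.2).card) * Fintype.card F :=
        Nat.mul_le_mul_right _ ((Finset.card_le_card hsub).trans Finset.card_biUnion_le)
    _ = ∑ x ∈ ((univ : Finset (Fin n × Fin n)).filter fun x => x.1 ≠ x.2),
          (univ.filter fun f : Fin n → F => f x.1 = f x.2).card * Fintype.card F :=
        Finset.sum_mul _ _ _
    _ ≤ ∑ _x ∈ ((univ : Finset (Fin n × Fin n)).filter fun x => x.1 ≠ x.2),
          Fintype.card F ^ n := by
        apply Finset.sum_le_sum
        intro x hx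
        exact labp_coll n x.1 x.2 (Finset.mem_filter.1 hx).2
    _ = ((univ : Finset (Fin n × Fin n)).filter fun x => x.1 ≠ x.2).card
          * Fintype.card F ^ n := by
        rw [Finset.sum_const, smul_eq_mul]
    _ ≤ n ^ 2 * Fintype.card F ^ n := by
        apply Nat.mul_le_mul_right
        calc ((univ : Finset (Fin n × Fin n)).filter fun x => x.1 ≠ x.2).card
            ≤ (univ : Finset (Fin n × Fin n)).card := Finset.card_le_card (Finset.filter_subset _ _)
          _ = n ^ 2 := by simp [sq]

/-- Step 1: a random injective `n`-tuple meets every class at most `k` times -/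
theorem labp_step1 {ι : Type*} [Fintype ι] [Nonempty F] (C : ι → Finset F) (B n k : ℕ)
    (hB : 0 < B) (hC : ∀ i, B * (C i).card ≤ Fintype.card F)
    (hι : 2 * Fintype.card ι * (B + 1) ^ n ≤ 2 ^ (k + 1) * B ^ n)
    (hN : 2 * n ^ 2 < Fintype.card F) :
    ∃ f : Fin n → F, Function.Injective f ∧
      ∀ i, (univ.filter fun t => f t ∈ C i).card ≤ k := by
  classical
  set N := Fintype.card F with hNdef
  have hNpos : 0 < N := Fintype.card_pos
  by_contra hcon
  push Not at hcon
  set bad : ι → Finset (Fin n → F) := fun i => univ.filter fun f : Fin n → F =>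
        k + 1 ≤ (univ.filter fun t => f t ∈ C i).card with hbad
  set nin : Finset (Fin n → F) := univ.filter fun f : Fin n → F => ¬ Function.Injective f
    with hnin
  have hcover : (univ : Finset (Fin n → F)) ⊆ nin ∪ univ.biUnion bad := by
    intro f _
    by_cases hf : Function.Injective f
    · obtain ⟨i, hi⟩ := hcon f hf
      refine Finset.mem_union_right _ (Finset.mem_biUnion.2 ⟨i, Finset.mem_univ _, ?_⟩)
      exact Finset.mem_filter.2 ⟨Finset.mem_univ _, hi⟩
    · exact Finset.mem_union_left _ (Finset.mem_filter.2 ⟨Finset.mem_univ _, hf⟩)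
  have hcard : N ^ n ≤ nin.card + ∑ i, (bad i).card := by
    calc N ^ n = (univ : Finset (Fin n → F)).card := by simp [hNdef]
      _ ≤ (nin ∪ univ.biUnion bad).card := Finset.card_le_card hcover
      _ ≤ nin.card + (univ.biUnion bad).card := Finset.card_union_le _ _
      _ ≤ nin.card + ∑ i, (bad i).card := Nat.add_le_add_left Finset.card_biUnion_le _
  have hNn : 0 < N ^ n := pow_pos hNpos n
  -- non injective part
  have h1 : 2 * nin.card < N ^ n := by
    have := labp_noninj (F := F) n
    have h2 : 2 * nin.card * N < N ^ n * N := by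
      calc 2 * nin.card * N = 2 * (nin.card * N) := by ring
        _ ≤ 2 * (n ^ 2 * N ^ n) := Nat.mul_le_mul_left _ this
        _ = (2 * n ^ 2) * N ^ n := by ring
        _ < N * N ^ n := Nat.mul_lt_mul_of_pos_right hN hNn
        _ = N ^ n * N := by ring
    exact Nat.lt_of_mul_lt_mul_right h2
  -- bad classes
  have h3 : ∀ i, B ^ n * (2 ^ (k + 1) * (bad i).card) ≤ (B + 1) ^ n * N ^ n := by
    intro i
    calc B ^ n * (2 ^ (k + 1) * (bad i).card) ≤ B ^ n * (N + (C i).card) ^ n :=
          Nat.mul_le_mul_left _ (labp_markov n k (C i))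
      _ = (B * N + B * (C i).card) ^ n := by rw [← mul_pow, mul_add]
      _ ≤ (B * N + N) ^ n := Nat.pow_le_pow_left (Nat.add_le_add_left (hC i) _) n
      _ = (B + 1) ^ n * N ^ n := by rw [← mul_pow]; ring
  have h4 : (2 ^ (k + 1) * B ^ n) * (2 * ∑ i, (bad i).card) ≤ (2 ^ (k + 1) * B ^ n) * N ^ n := by
    calc (2 ^ (k + 1) * B ^ n) * (2 * ∑ i, (bad i).card)
        = 2 * ∑ i, B ^ n * (2 ^ (k + 1) * (bad i).card) := by
          rw [Finset.mul_sum, Finset.mul_sum, Finset.mul_sum]
          apply Finset.sum_congr rfl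
          intro i _; ring
      _ ≤ 2 * ∑ _i : ι, (B + 1) ^ n * N ^ n :=
          Nat.mul_le_mul_left _ (Finset.sum_le_sum fun i _ => h3 i)
      _ = (2 * Fintype.card ι * (B + 1) ^ n) * N ^ n := by
          rw [Finset.sum_const, Finset.card_univ, smul_eq_mul]; ring
      _ ≤ (2 ^ (k + 1) * B ^ n) * N ^ n := Nat.mul_le_mul_right _ hι
  have h5 : 2 * ∑ i, (bad i).card ≤ N ^ n :=
    Nat.le_of_mul_le_mul_left h4 (by positivity)
  omega

/-- Step 2a: some translate of the `n`-tuple has `d` entries outside a given small set -/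
theorem labp_translate [AddCommGroup F] (n d : ℕ) (hdn : d ≤ n) (f : Fin n → F) (Y : Finset F)
    (hY : Y.card * n ≤ (n - d) * Fintype.card F) :
    ∃ (a : F) (g : Fin d → Fin n), Function.Injective g ∧ ∀ j, f (g j) + a ∉ Y := by
  classical
  have hNpos : 0 < Fintype.card F := Fintype.card_pos_iff.2 ⟨0⟩
  -- double counting
  have hsum : ∑ a : F, (univ.filter fun t : Fin n => f t + a ∈ Y).card ≤ n * Y.card := by
    simp_rw [Finset.card_filter]
    rw [Finset.sum_comm]
    calc ∑ t : Fin n, ∑ a : F, (if f t + a ∈ Y then 1 else 0)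
        ≤ ∑ _t : Fin n, Y.card := by
          apply Finset.sum_le_sum
          intro t _
          rw [← Finset.card_filter]
          apply Finset.card_le_card_of_injOn (fun a => f t + a)
          · intro a ha
            exact Finset.mem_coe.2 (Finset.mem_filter.1 (Finset.mem_coe.1 ha)).2
          · intro a _ a' _ h
            exact add_left_cancel h
      _ = n * Y.card := by simp
  have hex : ∃ a : F, (univ.filter fun t : Fin n => f t + a ∈ Y).card ≤ n - d := by
    by_contra hcon
    push Not at hcon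
    have h1 : Fintype.card F * (n - d + 1)
        ≤ ∑ a : F, (univ.filter fun t : Fin n => f t + a ∈ Y).card := by
      calc Fintype.card F * (n - d + 1) = ∑ _a : F, (n - d + 1) := by simp
        _ ≤ _ := Finset.sum_le_sum fun a _ => hcon a
    have h2 : Fintype.card F * (n - d + 1) ≤ (n - d) * Fintype.card F := by
      calc _ ≤ n * Y.card := h1.trans hsum
        _ = Y.card * n := mul_comm _ _
        _ ≤ _ := hY
    nlinarith
  obtain ⟨a, ha⟩ := hex
  have hW : d ≤ (univ.filter fun t : Fin n => ¬ (f t + a ∈ Y)).card := by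
    have := Finset.card_filter_add_card_filter_not (s := (univ : Finset (Fin n)))
      (fun t : Fin n => f t + a ∈ Y)
    rw [Finset.card_univ, Fintype.card_fin] at this
    omega
  obtain ⟨W, hWsub, hWcard⟩ := Finset.exists_subset_card_eq hW
  refine ⟨a, fun j => W.orderEmbOfFin hWcard j, (W.orderEmbOfFin hWcard).injective, ?_⟩
  intro j
  exact (Finset.mem_filter.1 (hWsub (Finset.orderEmbOfFin_mem W hWcard j))).2

end pool

/-- Step 2b: greedy choice of pairwise disjoint pools -/
theorem labp_greedy {F Φ : Type*} [DecidableEq F] [Fintype Φ] (d L : ℕ)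
    (Q : (Fin d → F) → Prop)
    (hex : ∀ Y : Finset F, Y.card ≤ L →
      ∃ h : Fin d → F, Function.Injective h ∧ Q h ∧ ∀ j, h j ∉ Y)
    (hΦ : Fintype.card Φ * d ≤ L) :
    ∃ κ : Φ → Fin d → F, Function.Injective (fun x : Φ × Fin d => κ x.1 x.2) ∧
      ∀ φ, Q (κ φ) := by
  classical
  have key : ∀ S : Finset Φ, ∃ κ : Φ → Fin d → F,
      (∀ φ ∈ S, Function.Injective (κ φ) ∧ Q (κ φ)) ∧
      ∀ φ ∈ S, ∀ φ' ∈ S, φ ≠ φ' → ∀ j j', κ φ j ≠ κ φ' j' := by
    intro S
    induction S using Finset.induction_on with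
    | empty =>
      obtain ⟨h, -, -, -⟩ := hex ∅ (by simp)
      exact ⟨fun _ => h, by simp, by simp⟩
    | insert φ₀ S hφ₀ ih =>
      obtain ⟨κ, hκ1, hκ2⟩ := ih
      set Y : Finset F := S.biUnion fun φ => univ.image (κ φ) with hYdef
      have hYcard : Y.card ≤ L := by
        calc Y.card ≤ ∑ φ ∈ S, (univ.image (κ φ)).card := Finset.card_biUnion_le
          _ ≤ ∑ _φ ∈ S, d := by
              apply Finset.sum_le_sum
              intro φ _
              exact Finset.card_image_le.trans (by simp)
          _ = S.card * d := by simp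
          _ ≤ Fintype.card Φ * d := Nat.mul_le_mul_right _ (Finset.card_le_univ S)
          _ ≤ L := hΦ
      obtain ⟨h, hinj, hQ, hY⟩ := hex Y hYcard
      have hmemY : ∀ φ ∈ S, ∀ j, κ φ j ∈ Y := by
        intro φ hφ j
        exact Finset.mem_biUnion.2 ⟨φ, hφ, Finset.mem_image_of_mem _ (Finset.mem_univ j)⟩
      have hne : ∀ φ ∈ S, φ ≠ φ₀ := by
        intro φ hφ he
        exact hφ₀ (he ▸ hφ)
      refine ⟨Function.update κ φ₀ h, ?_, ?_⟩
      · intro φ hφ
        rcases Finset.mem_insert.1 hφ with rfl | hφ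
        · rw [Function.update_self]; exact ⟨hinj, hQ⟩
        · rw [Function.update_of_ne (hne φ hφ)]; exact hκ1 φ hφ
      · intro φ hφ φ' hφ' hd j j'
        by_cases h1 : φ = φ₀
        · by_cases h2 : φ' = φ₀
          · exact absurd (h1.trans h2.symm) hd
          · have hS' : φ' ∈ S := (Finset.mem_insert.1 hφ').resolve_left h2
            rw [h1, Function.update_self, Function.update_of_ne h2]
            intro he
            exact hY j (he ▸ hmemY φ' hS' j')
        · have hS : φ ∈ S := (Finset.mem_insert.1 hφ).resolve_left h1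
          by_cases h2 : φ' = φ₀
          · rw [h2, Function.update_self, Function.update_of_ne h1]
            intro he
            exact hY j' (he ▸ hmemY φ hS j)
          · have hS' : φ' ∈ S := (Finset.mem_insert.1 hφ').resolve_left h2
            rw [Function.update_of_ne h1, Function.update_of_ne h2]
            exact hκ2 φ hS φ' hS' hd j j'
  obtain ⟨κ, hκ1, hκ2⟩ := key univ
  refine ⟨κ, ?_, fun φ => (hκ1 φ (Finset.mem_univ _)).2⟩
  rintro ⟨φ, j⟩ ⟨φ', j'⟩ he
  simp only at he
  by_cases hd : φ = φ'
  · subst hd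
    rw [(hκ1 φ (Finset.mem_univ _)).1 he]
  · exact absurd he (hκ2 φ (Finset.mem_univ _) φ' (Finset.mem_univ _) hd j j')

/-- The pool lemma. -/
theorem labp_main {F ι Φ : Type*} [AddCommGroup F] [Fintype F] [DecidableEq F] [Fintype ι]
    [Fintype Φ] (C : ι → Finset F)
    (htr : ∀ i a, ∃ i', ∀ x, x + a ∈ C i → x ∈ C i')
    (B n d k : ℕ) (hB : 0 < B) (hdn : d ≤ n)
    (hC : ∀ i, B * (C i).card ≤ Fintype.card F)
    (hι : 2 * Fintype.card ι * (B + 1) ^ n ≤ 2 ^ (k + 1) * B ^ n)
    (hN : 2 * n ^ 2 < Fintype.card F)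
    (hΦ : Fintype.card Φ * d * n ≤ (n - d) * Fintype.card F) :
    ∃ κ : Φ → Fin d → F, Function.Injective (fun x : Φ × Fin d => κ x.1 x.2) ∧
      ∀ φ i, (univ.filter fun j => κ φ j ∈ C i).card ≤ k := by
  classical
  have : Nonempty F := ⟨0⟩
  obtain ⟨f, hf, hfk⟩ := labp_step1 C B n k hB hC hι hN
  apply labp_greedy d (Fintype.card Φ * d)
    (fun h => ∀ i, (univ.filter fun j => h j ∈ C i).card ≤ k) _ le_rfl
  intro Y hY
  obtain ⟨a, g, hg, hgY⟩ := labp_translate n d hdn f Y
    ((Nat.mul_le_mul_right n hY).trans hΦ)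
  refine ⟨fun j => f (g j) + a, ?_, ?_, hgY⟩
  · intro j j' h
    exact hg (hf (add_right_cancel h))
  · intro i
    obtain ⟨i', hi'⟩ := htr i a
    refine le_trans ?_ (hfk i')
    apply Finset.card_le_card_of_injOn g
    · intro j hj
      have := (Finset.mem_filter.1 (Finset.mem_coe.1 hj)).2
      exact Finset.mem_coe.2 (Finset.mem_filter.2 ⟨Finset.mem_univ _, hi' _ this⟩)
    · intro j _ j' _ h
      exact hg h

/-- `(1 + 1/B)^B < 3` -/
theorem labp_e (B : ℕ) (hB : 0 < B) : (B + 1) ^ B ≤ 3 * B ^ B := by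
  have hB' : (0 : ℝ) < B := by exact_mod_cast hB
  have h1 : (1 / (B : ℝ) + 1) ^ B ≤ Real.exp 1 := by
    calc (1 / (B : ℝ) + 1) ^ B ≤ (Real.exp (1 / (B : ℝ))) ^ B :=
          pow_le_pow_left₀ (by positivity) (Real.add_one_le_exp _) B
      _ = Real.exp (B * (1 / (B : ℝ))) := (Real.exp_nat_mul _ _).symm
      _ = Real.exp 1 := by rw [mul_one_div_cancel hB'.ne']
  have h2 : Real.exp 1 < 3 := lt_trans Real.exp_one_lt_d9 (by norm_num)
  have h3 : ((B : ℝ) + 1) ^ B = (1 / (B : ℝ) + 1) ^ B * (B : ℝ) ^ B := by
    rw [← mul_pow]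
    congr 1
    field_simp
    ring
  have h4 : ((B : ℝ) + 1) ^ B ≤ 3 * (B : ℝ) ^ B := by
    rw [h3]
    exact mul_le_mul_of_nonneg_right (h1.trans h2.le) (by positivity)
  exact_mod_cast h4

/-- the numerical hypothesis of `labp_main` -/
theorem labp_num (B m s c : ℕ) (hB : 0 < B) (hc : c ≤ 4 ^ s) (hm : 28 * s ≤ m) :
    2 * c * (B + 1) ^ (5 * m * B) ≤ 2 ^ (8 * m + 1) * B ^ (5 * m * B) := by
  have h1 : (B + 1) ^ (5 * m * B) ≤ 243 ^ m * B ^ (5 * m * B) := by
    calc (B + 1) ^ (5 * m * B) = ((B + 1) ^ B) ^ (5 * m) := by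
          rw [← pow_mul]; congr 1; ring
      _ ≤ (3 * B ^ B) ^ (5 * m) := Nat.pow_le_pow_left (labp_e B hB) _
      _ = 243 ^ m * B ^ (5 * m * B) := by
          rw [mul_pow, ← pow_mul, pow_mul 3 5 m, show B * (5 * m) = 5 * m * B by ring]
          norm_num
  have h2 : 4 ^ s * 243 ^ m ≤ 256 ^ m := by
    obtain ⟨m', rfl⟩ := Nat.exists_eq_add_of_le hm
    have h28 : 4 * 243 ^ 28 ≤ 256 ^ 28 := by norm_num
    calc 4 ^ s * 243 ^ (28 * s + m') = (4 * 243 ^ 28) ^ s * 243 ^ m' := by
          rw [mul_pow, ← pow_mul, pow_add]; ring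
      _ ≤ (256 ^ 28) ^ s * 256 ^ m' :=
          Nat.mul_le_mul (Nat.pow_le_pow_left h28 s) (Nat.pow_le_pow_left (by norm_num) m')
      _ = 256 ^ (28 * s + m') := by rw [← pow_mul, pow_add]
  calc 2 * c * (B + 1) ^ (5 * m * B) ≤ 2 * 4 ^ s * (243 ^ m * B ^ (5 * m * B)) :=
        Nat.mul_le_mul (Nat.mul_le_mul_left _ hc) h1
    _ = 2 * (4 ^ s * 243 ^ m) * B ^ (5 * m * B) := by ring
    _ ≤ 2 * 256 ^ m * B ^ (5 * m * B) :=
        Nat.mul_le_mul_right _ (Nat.mul_le_mul_left _ h2)
    _ = 2 ^ (8 * m + 1) * B ^ (5 * m * B) := by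
        rw [pow_succ, pow_mul 2 8 m, show (2 : ℕ) ^ 8 = 256 by norm_num]; ring

end Claimed.Agent.R300.Lab
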