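/-
Row 300 / S0553 (INJ paper), Section 01_labeling, package L2 (LabCoef), field model.
Multiplication operators of a field `K` with `BV s ≃ₗ K`; classes of coefficients with the same
restricted functional; their size and translation invariance.
-/
import Claimed.Agent.R300.LabDefs
import Claimed.Agent.R300.LabPool

set_option autoImplicit false

namespace Claimed.Agent.R300.Lab

open Classical

/-- truncation / zero extension between bit vectors of different lengths -/
noncomputable def labfCast (n n' : ℕ) : BV n →ₗ[ZMod 2] BV n' where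
  toFun x := fun m => ext0 x m.1
  map_add' x y := by
    funext m
    simp only [ext0, Pi.add_apply]
    split_ifs <;> simp
  map_smul' c x := by
    funext m
    simp only [ext0, Pi.smul_apply, RingHom.id_apply]
    split_ifs <;> simp

theorem labfCast_apply (n n' : ℕ) (x : BV n) (m : Fin n') : labfCast n n' x m = ext0 x m.1 := rfl

theorem labfCast_isPre (n n' : ℕ) (x : BV n) : IsPre n (labfCast n n' x) := by
  intro m hm
  rw [labfCast_apply, ext0, dif_neg (by omega)]

theorem labfCast_cast {n n' : ℕ} (h : n ≤ n') (x : BV n) :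
    labfCast n' n (labfCast n n' x) = x := by
  funext m
  have h1 : m.1 < n' := lt_of_lt_of_le m.2 h
  rw [labfCast_apply, ext0, dif_pos h1, labfCast_apply, ext0, dif_pos m.2]

theorem labfCast_cast' {n n' : ℕ} (x : BV n') (hx : IsPre n x) :
    labfCast n n' (labfCast n' n x) = x := by
  funext m
  rw [labfCast_apply, ext0]
  split_ifs with h1
  · rw [labfCast_apply, ext0, dif_pos m.2]
  · exact (hx m (by omega)).symm

theorem labfCast_inj {n n' : ℕ} (h : n ≤ n') : Function.Injective (labfCast n n') :=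
  Function.LeftInverse.injective (labfCast_cast h)

section fld

variable {s : ℕ} {K : Type} [Field K] [Algebra (ZMod 2) K] (e : BV s ≃ₗ[ZMod 2] K)

/-- multiplication by `κ`, transported to `BV s` -/
noncomputable def labfMul (κ : K) : BV s →ₗ[ZMod 2] BV s :=
  e.symm.toLinearMap ∘ₗ (LinearMap.mulLeft (ZMod 2) κ) ∘ₗ e.toLinearMap

theorem labfMul_apply (κ : K) (x : BV s) : labfMul e κ x = e.symm (κ * e x) := rfl

theorem labfMul_sub_bij (κ κ' : K) (h : κ ≠ κ') :
    Function.Bijective (fun x => labfMul e κ x - labfMul e κ' x) := by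
  have h1 : (fun x => labfMul e κ x - labfMul e κ' x)
      = e.symm ∘ (fun y => (κ - κ') * y) ∘ e := by
    funext x
    simp [labfMul_apply, sub_mul]
  rw [h1]
  exact e.symm.bijective.comp ((mulLeft_bijective₀ _ (sub_ne_zero.2 h)).comp e.bijective)

theorem labfMul_add (κ κ' : K) (x : BV s) :
    labfMul e (κ + κ') x = labfMul e κ x + labfMul e κ' x := by
  simp [labfMul_apply, add_mul]

theorem labfMul_sub (κ κ' : K) (x : BV s) :
    labfMul e (κ - κ') x = labfMul e κ x - labfMul e κ' x := by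
  simp [labfMul_apply, sub_mul]

/-- the restricted functionals `x ↦ ζ (κ x)` on `b`-prefixes exhaust all functionals -/
theorem labf_surj {b : ℕ} (hbs : b ≤ s) (ζ : BV s →ₗ[ZMod 2] ZMod 2) (hζ : ζ ≠ 0)
    (v : BV b) : ∃ κ : K, ∀ i : Fin b,
      ζ (labfMul e κ (labfCast b s (Pi.single i 1))) = v i := by
  let P : K →ₗ[ZMod 2] BV b →ₗ[ZMod 2] ZMod 2 :=
    ((LinearMap.mul (ZMod 2) K).compr₂ (ζ ∘ₗ e.symm.toLinearMap)).compl₂
      (e.toLinearMap ∘ₗ labfCast b s)
  have hP : ∀ κ x, P κ x = ζ (labfMul e κ (labfCast b s x)) := fun κ x => rfl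
  have hinj : Function.Injective P.flip := by
    rw [injective_iff_map_eq_zero]
    intro x hx
    by_contra hx0
    apply hζ
    apply LinearMap.ext
    intro y
    have hne : e (labfCast b s x) ≠ 0 := by
      intro h0
      apply hx0
      apply labfCast_inj hbs
      rw [map_zero]
      exact e.injective (by rw [h0, map_zero])
    have h1 : P.flip x (e y / e (labfCast b s x)) = 0 := by rw [hx]; rfl
    rw [LinearMap.flip_apply, hP, labfMul_apply, div_mul_cancel₀ _ hne,
      LinearEquiv.symm_apply_apply] at h1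
    rw [h1]; rfl
  have hsurj : Function.Surjective P := LinearMap.flip_injective_iff₂.1 hinj
  obtain ⟨κ, hκ⟩ := hsurj ((Pi.basisFun (ZMod 2) (Fin b)).constr (ZMod 2) v)
  refine ⟨κ, fun i => ?_⟩
  rw [← hP, hκ, ← Pi.basisFun_apply, Module.Basis.constr_basis]

/-- index type of the classes -/
abbrev LabfIdx (s : ℕ) (K : Type) : Type := {ζ : BV s →ₗ[ZMod 2] ZMod 2 // ζ ≠ 0} × K

/-- the class of all coefficients with the same restricted functional as `i.2` -/
noncomputable def labfClass [Fintype K] (b : ℕ) (i : LabfIdx s K) : Finset K :=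
  Finset.univ.filter fun κ => ∀ x, IsPre b x → i.1.1 (labfMul e κ x) = i.1.1 (labfMul e i.2 x)

theorem labfClass_card [Fintype K] {b : ℕ} (hbs : b ≤ s) (i : LabfIdx s K) :
    2 ^ b * (labfClass e b i).card ≤ Fintype.card K := by
  obtain ⟨⟨ζ, hζ⟩, κ₀⟩ := i
  choose σ hσ using labf_surj e hbs ζ hζ
  have h1 : ((Finset.univ : Finset (BV b)) ×ˢ labfClass e b (⟨ζ, hζ⟩, κ₀)).card
      ≤ (Finset.univ : Finset K).card := by
    apply Finset.card_le_card_of_injOn (fun x => x.2 + σ x.1)
    · intro x _; exact Finset.mem_coe.2 (Finset.mem_univ _)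
    · rintro ⟨v, κ⟩ h ⟨v', κ'⟩ h' heq
      have hk : κ ∈ labfClass e b (⟨ζ, hζ⟩, κ₀) := (Finset.mem_product.1 (Finset.mem_coe.1 h)).2
      have hk' : κ' ∈ labfClass e b (⟨ζ, hζ⟩, κ₀) :=
        (Finset.mem_product.1 (Finset.mem_coe.1 h')).2
      have hk2 := (Finset.mem_filter.1 hk).2
      have hk2' := (Finset.mem_filter.1 hk').2
      simp only at heq hk2 hk2'
      have hv : v = v' := by
        funext i
        have h3 := congrArg (fun κ => ζ (labfMul e κ (labfCast b s (Pi.single i 1)))) heq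
        simp only [labfMul_add, map_add, hσ] at h3
        rw [hk2 _ (labfCast_isPre b s _), hk2' _ (labfCast_isPre b s _)] at h3
        exact add_left_cancel h3
      subst hv
      rw [add_right_cancel heq]
  rw [Finset.card_product, Finset.card_univ, Finset.card_univ] at h1
  simpa using h1

theorem labfClass_trans [Fintype K] (b : ℕ) (i : LabfIdx s K) (a : K) :
    ∃ i' : LabfIdx s K, ∀ x, x + a ∈ labfClass e b i → x ∈ labfClass e b i' := by
  refine ⟨(i.1, i.2 - a), fun κ hκ => ?_⟩
  have h1 := (Finset.mem_filter.1 hκ).2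
  refine Finset.mem_filter.2 ⟨Finset.mem_univ _, fun x hx => ?_⟩
  have h2 := h1 x hx
  simp only [labfMul_add, labfMul_sub, map_add, map_sub] at h2 ⊢
  rw [← h2]; ring

instance labf_finite_dual : Finite (BV s →ₗ[ZMod 2] ZMod 2) :=
  Finite.of_injective (fun ζ => (ζ : BV s → ZMod 2)) DFunLike.coe_injective

omit [Field K] [Algebra (ZMod 2) K] in
theorem labf_idx_card [Fintype K] (hK : Fintype.card K = 2 ^ s) [Fintype (LabfIdx s K)] :
    Fintype.card (LabfIdx s K) ≤ 4 ^ s := by
  have h1 : Fintype.card (LabfIdx s K) ≤ Fintype.card (BV s × K) := by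
    apply Fintype.card_le_of_injective
      (fun i : LabfIdx s K => ((fun m => i.1.1 (Pi.single m 1) : BV s), i.2))
    rintro ⟨⟨ζ, hζ⟩, κ⟩ ⟨⟨ζ', hζ'⟩, κ'⟩ h
    simp only [Prod.mk.injEq] at h
    have h2 : ζ = ζ' := by
      apply (Pi.basisFun (ZMod 2) (Fin s)).ext
      intro m
      rw [Pi.basisFun_apply]
      exact congrFun h.1 m
    subst h2
    rw [h.2]
  refine h1.trans ?_
  rw [Fintype.card_prod, hK]
  have : Fintype.card (BV s) = 2 ^ s := by simp
  rw [this, ← mul_pow]
  norm_num

/-- The pools in the field model. -/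
theorem labf_pools [Fintype K] (hK : Fintype.card K = 2 ^ s) {Φ : Type} [Fintype Φ]
    (b ld d : ℕ) (hd : d = 2 ^ ld) (hb2 : b + 2 ≤ ld) (hbs : b ≤ s)
    (hm : 28 * s ≤ 2 ^ (ld - b - 2)) (h2 : 2 * ld + 2 ≤ s)
    (hΦ : 5 * Fintype.card Φ * 2 ^ ld ≤ 2 ^ s) :
    ∃ κ : Φ → Fin d → K, Function.Injective (fun x : Φ × Fin d => κ x.1 x.2) ∧
      ∀ φ (ζ : BV s →ₗ[ZMod 2] ZMod 2), ζ ≠ 0 → ∀ t, b ≤ t → ∀ ψ : BV s → ZMod 2,
        2 ^ b * Nat.card {j : Fin d // ∀ x, IsPre t x → ζ (labfMul e (κ φ j) x) = ψ x}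
          ≤ 2 * d := by
  let _ : Fintype (LabfIdx s K) := Fintype.ofFinite _
  set m := 2 ^ (ld - b - 2) with hmdef
  set B := 2 ^ b with hBdef
  have hB : 0 < B := by positivity
  have hd4 : d = 4 * (m * B) := by
    rw [hd, hmdef, hBdef, ← pow_add, show (4 : ℕ) = 2 ^ 2 by norm_num, ← pow_add]
    congr 1; omega
  obtain ⟨κ, hκ1, hκ2⟩ := labp_main (Φ := Φ) (labfClass e b) (labfClass_trans e b) B (5 * m * B) d
    (8 * m) hB (by rw [hd4]; nlinarith [Nat.zero_le (m * B)]) (labfClass_card e hbs)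
    (labp_num B m s _ hB (labf_idx_card hK) hm)
    (by
      rw [hK]
      have h3 : (4 * (m * B)) ^ 2 * 4 ≤ 2 ^ s := by
        rw [← hd4, hd, ← pow_mul, show (4 : ℕ) = 2 ^ 2 by norm_num, ← pow_add]
        exact Nat.pow_le_pow_right (by norm_num) (by omega)
      have h4 : 0 < m * B := by positivity
      nlinarith)
    (by
      rw [hK]
      have h3 : 5 * Fintype.card Φ * (4 * (m * B)) ≤ 2 ^ s := by rw [← hd4, hd]; exact hΦ
      have h4 : 5 * m * B - d = m * B := by rw [hd4]; have := Nat.zero_le (m * B); 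
                                            have h5 : 5 * m * B = 5 * (m * B) := by ring
                                            omega
      rw [h4, hd4]
      calc Fintype.card Φ * (4 * (m * B)) * (5 * m * B)
          = (m * B) * (5 * Fintype.card Φ * (4 * (m * B))) := by ring
        _ ≤ (m * B) * 2 ^ s := Nat.mul_le_mul_left _ h3)
  refine ⟨κ, hκ1, ?_⟩
  intro φ ζ hζ t hbt ψ
  by_cases hemp : IsEmpty {j : Fin d // ∀ x, IsPre t x → ζ (labfMul e (κ φ j) x) = ψ x}
  · rw [Nat.card_of_isEmpty]; simp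
  · rw [not_isEmpty_iff] at hemp
    obtain ⟨j₀, hj₀⟩ := hemp
    have h5 : Nat.card {j : Fin d // ∀ x, IsPre t x → ζ (labfMul e (κ φ j) x) = ψ x}
        ≤ 8 * m := by
      refine le_trans ?_ (hκ2 φ (⟨ζ, hζ⟩, κ φ j₀))
      rw [Nat.card_eq_fintype_card, Fintype.card_subtype]
      apply Finset.card_le_card
      intro j hj
      have hj' := (Finset.mem_filter.1 hj).2
      refine Finset.mem_filter.2 ⟨Finset.mem_univ _, Finset.mem_filter.2 ⟨Finset.mem_univ _, ?_⟩⟩
      intro x hx
      have hx' : IsPre t x := fun i hi => hx i (le_trans hbt hi)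
      simp only
      rw [hj' x hx', hj₀ x hx']
    calc B * Nat.card {j : Fin d // ∀ x, IsPre t x → ζ (labfMul e (κ φ j) x) = ψ x}
        ≤ B * (8 * m) := Nat.mul_le_mul_left _ h5
      _ = 2 * d := by rw [hd4]; ring

end fld

/-- the field model -/
theorem labf_model (n : ℕ) (hn : n ≠ 0) :
    ∃ (K : Type) (_ : Field K) (_ : Algebra (ZMod 2) K) (_ : Fintype K)
      (_ : BV n ≃ₗ[ZMod 2] K), Fintype.card K = 2 ^ n := by
  have : Fact (Nat.Prime 2) := ⟨Nat.prime_two⟩
  let _ : Fintype (GaloisField 2 n) := Fintype.ofFinite _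
  refine ⟨GaloisField 2 n, inferInstance, inferInstance, inferInstance, ?_, ?_⟩
  · apply LinearEquiv.ofFinrankEq
    rw [GaloisField.finrank 2 hn]
    simp
  · rw [← Nat.card_eq_fintype_card, GaloisField.card 2 n hn]

end Claimed.Agent.R300.Lab
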