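/-
Row 300 / S0553 (INJ paper), Section 01_labeling, package L2 (LabCoef).  Section owner: helper31.
The `sorry`s of this file are replaced IN PLACE by the owner of the package (see table subtask,
target row300, name LAB-L2).  Statements are frozen: ask helper31 before changing one.
Proof (helper20): field model `GF(2^s)` (LabFld), pools = greedy translates of one random set
(LabPool); the A pools are the bucket `c = 0` of the B pools; `K0` uses `GF(2^r)` on the prefix.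
-/
import Claimed.Agent.R300.LabDefs
import Claimed.Agent.R300.LabFld

set_option autoImplicit false

namespace Claimed.Agent.R300.Lab

open Classical

variable {p : Par}

/-! ## L2: Lemma `coefficient-pools` -/

/-- the coefficients of block 0 -/
theorem labc_K0 (p : Par) (hr : p.r ≠ 0) (hrs : p.r ≤ p.s)
    (hcard : p.T * (p.M * (p.d * 2 ^ p.b)) ≤ 2 ^ p.r) :
    ∃ K0 : NameA p → (BV p.s →ₗ[ZMod 2] BV p.s),
      (∀ ν x, IsPre p.r x → IsPre p.r (K0 ν x)) ∧
      (∀ ν ν', ν ≠ ν' → ∀ x, IsPre p.r x → K0 ν x = K0 ν' x → x = 0) := by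
  obtain ⟨K, _, _, _, e, hK⟩ := labf_model p.r hr
  have h1 : Fintype.card (Fin p.T × Fin p.M × Fin p.d × BV p.b) ≤ Fintype.card K := by
    rw [hK]
    simpa using hcard
  obtain ⟨g⟩ := Function.Embedding.nonempty_of_card_le h1
  refine ⟨fun ν => labfCast p.r p.s ∘ₗ labfMul e (g (ν.ty, ν.rho, ν.j, ν.e)) ∘ₗ labfCast p.s p.r,
    ?_, ?_⟩
  · intro ν x _
    exact labfCast_isPre _ _ _
  · intro ν ν' hne x hx heq
    simp only [LinearMap.comp_apply] at heq
    have h2 := labfCast_inj hrs heq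
    have hg : g (ν.ty, ν.rho, ν.j, ν.e) ≠ g (ν'.ty, ν'.rho, ν'.j, ν'.e) := by
      intro h
      have h3 := g.injective h
      simp only [Prod.mk.injEq] at h3
      exact hne (NameA.ext h3.1 h3.2.1 h3.2.2.1 h3.2.2.2)
    have h4 := (labfMul_sub_bij e _ _ hg).1
    have h5 : labfCast p.s p.r x = 0 := by
      apply h4
      simp only [map_zero, sub_zero]
      rw [h2, sub_self]
    rw [← labfCast_cast' x hx, h5, map_zero]

/-- summing the pool bound over the buckets -/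
theorem labc_sum {A C : Type} [Fintype A] [Fintype C] (P : A → C → Prop) (B k : ℕ)
    (h : ∀ c, B * Nat.card {j : A // P j c} ≤ k) :
    B * Nat.card {jc : A × C // P jc.1 jc.2} ≤ Fintype.card C * k := by
  have h1 : Nat.card {jc : A × C // P jc.1 jc.2} ≤ ∑ c : C, Nat.card {j : A // P j c} := by
    rw [Nat.card_eq_fintype_card, Fintype.card_subtype,
      Finset.card_eq_sum_card_fiberwise (f := fun jc : A × C => jc.2) (t := Finset.univ)
        (fun _ _ => Finset.mem_coe.2 (Finset.mem_univ _))]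
    apply Finset.sum_le_sum
    intro c _
    rw [Nat.card_eq_fintype_card, Fintype.card_subtype]
    apply Finset.card_le_card_of_injOn (fun jc => jc.1)
    · intro jc hjc
      have h2 := Finset.mem_filter.1 (Finset.mem_coe.1 hjc)
      have h3 := (Finset.mem_filter.1 h2.1).2
      refine Finset.mem_coe.2 (Finset.mem_filter.2 ⟨Finset.mem_univ _, ?_⟩)
      rw [← h2.2]; exact h3
    · intro jc hjc jc' hjc' he
      have h2 := (Finset.mem_filter.1 (Finset.mem_coe.1 hjc)).2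
      have h2' := (Finset.mem_filter.1 (Finset.mem_coe.1 hjc')).2
      exact Prod.ext he (h2.trans h2'.symm)
  calc B * Nat.card {jc : A × C // P jc.1 jc.2}
      ≤ B * ∑ c : C, Nat.card {j : A // P j c} := Nat.mul_le_mul_left _ h1
    _ = ∑ c : C, B * Nat.card {j : A // P j c} := Finset.mul_sum _ _ _
    _ ≤ ∑ _c : C, k := Finset.sum_le_sum fun c _ => h c
    _ = Fintype.card C * k := by simp

/-- Lemma `lem:coefficient-pools` -/
theorem lab_coef_exists (b T : ℕ) (hb : 1 ≤ b) :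
    ∃ s0 : ℕ, ∀ p : Par, p.b = b → p.T = T → p.Adm → s0 ≤ p.s →
      ∃ cf : Coef p, cf.Sep ∧ cf.Mult := by
  refine ⟨T, ?_⟩
  intro p _ hT hA hs0
  obtain ⟨s', hs'⟩ := hA.h20000
  have hs'pos : 1 ≤ s' := by have := hA.hs; omega
  have hr : p.r = 12000 * s' := by unfold Par.r; omega
  have hld : p.ld = 8001 * s' := by unfold Par.ld; omega
  have hlD : p.lD = 12001 * s' := by unfold Par.lD; omega
  have hlq : p.lq = 10001 * s' := by unfold Par.lq; omega
  have hbs' : p.b ≤ s' := by have := hA.hslope; omega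
  have hc : 2 * p.r - p.s = 4000 * s' := by omega
  have hs2 : s' ≤ 2 ^ s' := Nat.lt_two_pow_self.le
  -- `T * M ≤ 2 ^ (50 + 2 s')`
  have hTM : p.T * p.M ≤ 2 ^ (50 + 2 * s') := by
    have h1 : p.T ≤ 20000 * s' := by omega
    have h2 : p.M = 2000000 * (20000 * s') := by unfold Par.M; rw [hs']
    calc p.T * p.M ≤ (20000 * s') * (2000000 * (20000 * s')) := by
          rw [h2]; exact Nat.mul_le_mul_right _ h1
      _ = 800000000000000 * (s' * s') := by ring
      _ ≤ 2 ^ 50 * (2 ^ s' * 2 ^ s') :=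
          Nat.mul_le_mul (by norm_num) (Nat.mul_le_mul hs2 hs2)
      _ = 2 ^ (50 + 2 * s') := by rw [← pow_add, ← pow_add]; congr 1; omega
  -- block 0
  obtain ⟨K0, hK0a, hK0b⟩ := labc_K0 p (by omega) (by omega) (by
    calc p.T * (p.M * (p.d * 2 ^ p.b)) = (p.T * p.M) * (2 ^ p.ld * 2 ^ p.b) := by
          unfold Par.d; ring
      _ ≤ 2 ^ (50 + 2 * s') * (2 ^ p.ld * 2 ^ p.b) := Nat.mul_le_mul_right _ hTM
      _ = 2 ^ (50 + 2 * s' + (p.ld + p.b)) := by rw [← pow_add, ← pow_add]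
      _ ≤ 2 ^ p.r := Nat.pow_le_pow_right (by norm_num) (by omega))
  -- the field model and the pools
  obtain ⟨K, _, _, _, e, hK⟩ := labf_model p.s (by have := hA.hs; omega)
  obtain ⟨κ, hκ1, hκ2⟩ := labf_pools e hK
    (Φ := Fin p.T × Fin p.M × BV p.b × BV (2 * p.r - p.s)) p.b p.ld p.d rfl
    (by omega) (by omega)
    (by
      calc 28 * p.s = 560000 * s' := by omega
        _ ≤ 2 ^ 20 * 2 ^ s' := Nat.mul_le_mul (by norm_num) hs2
        _ = 2 ^ (20 + s') := by rw [← pow_add]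
        _ ≤ 2 ^ (p.ld - p.b - 2) := Nat.pow_le_pow_right (by norm_num) (by omega))
    (by omega)
    (by
      have h1 : Fintype.card (Fin p.T × Fin p.M × BV p.b × BV (2 * p.r - p.s))
          = p.T * (p.M * (2 ^ p.b * 2 ^ (2 * p.r - p.s))) := by simp
      rw [h1]
      calc 5 * (p.T * (p.M * (2 ^ p.b * 2 ^ (2 * p.r - p.s)))) * 2 ^ p.ld
          = 5 * (p.T * p.M) * (2 ^ p.b * 2 ^ (2 * p.r - p.s) * 2 ^ p.ld) := by ring
        _ ≤ 2 ^ 3 * 2 ^ (50 + 2 * s') * (2 ^ p.b * 2 ^ (2 * p.r - p.s) * 2 ^ p.ld) :=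
            Nat.mul_le_mul_right _ (Nat.mul_le_mul (by norm_num) hTM)
        _ = 2 ^ (3 + (50 + 2 * s') + (p.b + (2 * p.r - p.s) + p.ld)) := by
            rw [← pow_add, ← pow_add, ← pow_add, ← pow_add]
        _ ≤ 2 ^ p.s := Nat.pow_le_pow_right (by norm_num) (by omega))
  refine ⟨⟨K0, fun ν => labfMul e (κ (ν.ty, ν.rho, ν.e, 0) ν.j),
    fun ν => labfMul e (κ (ν.ty, ν.rho, ν.e, ν.c) ν.j)⟩, ⟨hK0a, hK0b, ?_, ?_⟩, ⟨?_, ?_⟩⟩
  · intro ν ν' hne
    apply labfMul_sub_bij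
    intro h
    have h3 := @hκ1 ((ν.ty, ν.rho, ν.e, 0), ν.j) ((ν'.ty, ν'.rho, ν'.e, 0), ν'.j) h
    simp only [Prod.mk.injEq, and_true] at h3
    exact hne (NameA.ext h3.1.1 h3.1.2.1 h3.2 h3.1.2.2)
  · intro ν ν' hne
    apply labfMul_sub_bij
    intro h
    have h3 := @hκ1 ((ν.ty, ν.rho, ν.e, ν.c), ν.j) ((ν'.ty, ν'.rho, ν'.e, ν'.c), ν'.j) h
    simp only [Prod.mk.injEq] at h3
    exact hne (NameB.ext h3.1.1 h3.1.2.1 h3.2 h3.1.2.2.1 h3.1.2.2.2)
  · intro τ ρ ee ζ hζ t hbt _ φ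
    exact hκ2 (τ, ρ, ee, 0) ζ hζ t hbt φ
  · intro τ ρ ee ζ hζ t hbt _ φ
    have h1 := labc_sum (A := Fin p.d) (C := BV (2 * p.r - p.s))
      (fun j c => ∀ x : BV p.s, IsPre t x → ζ (labfMul e (κ (τ, ρ, ee, c) j) x) = φ x)
      (2 ^ p.b) (2 * p.d) (fun c => hκ2 (τ, ρ, ee, c) ζ hζ t hbt φ)
    refine h1.trans (le_of_eq ?_)
    have h2 : Fintype.card (BV (2 * p.r - p.s)) = 2 ^ (2 * p.r - p.s) := by simp
    rw [h2]
    unfold Par.d Par.D
    rw [show p.lD = (2 * p.r - p.s) + p.ld by omega, pow_add]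
    ring

end Claimed.Agent.R300.Lab
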