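/-
Row 300 / S0553 (INJ paper): `igr_main : InjGraphStmt` = output of Sections 1-3 (tower labels, sequential law, pruning).
Assembly from `El.exp_law`, `lab_coef_exists`, `igr_select`, `igr_del_frac` and the adapter lemmas `Igr*`.     helper145.
-/
import Claimed.Agent.R300.IgrSel
import Claimed.Agent.R300.IgrGap
import Claimed.Agent.R300.IgrTheta
import Claimed.Agent.R300.ElTop
import Claimed.Agent.R300.LabCoef

set_option autoImplicit false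

namespace Claimed.Agent.R300.Igr

open Claimed.Agent.R300.Lab Claimed.Agent.R300.Pr
open Claimed.Agent.R300.PrProb
open scoped ENNReal

/-! ### numerics -/

theorem igr_num_gate (T b : ℕ) (ε : ℝ) (hε : 0 < ε) : ∃ s0 : ℕ, ∀ s l : ℕ, s0 ≤ s → b ≤ s → l ≤ s →
    (600 * T * 2 ^ b * ((2 ^ l : ℕ) : ℝ) : ℝ) ≤ ε / 4 * 2 ^ (8 * s) := by
  obtain ⟨n, hn⟩ := pow_unbounded_of_one_lt (2400 * (T : ℝ) / ε) one_lt_two
  refine ⟨n, fun s l hs hb hl => ?_⟩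
  have h1 : (2 : ℝ) ^ n ≤ 2 ^ (6 * s) := pow_le_pow_right₀ one_le_two (by omega)
  have h2 : (2 : ℝ) ^ b ≤ 2 ^ s := pow_le_pow_right₀ one_le_two hb
  have h3 : (2 : ℝ) ^ l ≤ 2 ^ s := pow_le_pow_right₀ one_le_two hl
  have h4 : 600 * (T : ℝ) ≤ ε / 4 * 2 ^ (6 * s) := by
    rw [div_lt_iff₀ hε] at hn
    nlinarith
  have e : (2 : ℝ) ^ (8 * s) = 2 ^ (6 * s) * 2 ^ s * 2 ^ s := by
    rw [← pow_add, ← pow_add]; congr 1; omega
  push_cast
  rw [e]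
  have hs0 : (0 : ℝ) < 2 ^ s := by positivity
  have hb0 : (0 : ℝ) < 2 ^ b := by positivity
  have hl0 : (0 : ℝ) < 2 ^ l := by positivity
  have hT : (0 : ℝ) ≤ 600 * T := by positivity
  calc 600 * (T : ℝ) * 2 ^ b * 2 ^ l ≤ 600 * (T : ℝ) * 2 ^ s * 2 ^ s := by gcongr
    _ ≤ (ε / 4 * 2 ^ (6 * s)) * 2 ^ s * 2 ^ s := by gcongr
    _ = _ := by ring

theorem igr_num_sep_abs (x y u cz ε : ℝ) (hx0 : 0 ≤ x) (hx : x ≤ u) (hy : y ≤ u) (hu : u ≤ 1 / 2)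
    (hcz : 0 < cz) (h : u * (4 + 2 / cz) ≤ ε / 4) : 2 * (x / (1 - x) + y / cz) ≤ ε / 4 := by
  have h1 : x / (1 - x) ≤ 2 * u := by
    rw [div_le_iff₀ (by linarith)]
    nlinarith
  have h2 : y / cz ≤ u / cz := div_le_div_of_nonneg_right hy hcz.le
  have e : u * (4 + 2 / cz) = 2 * (2 * u + u / cz) := by ring
  linarith

theorem igr_num_sep (b : ℕ) (hb : 1 ≤ b) (ε : ℝ) (hε : 0 < ε) : ∃ s0 : ℕ, ∀ (s : ℕ) (Mb H0 : ℝ), s0 ≤ s →
    (s : ℝ) ≤ Mb / 2 → (s : ℝ) ≤ H0 / 2500 →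
    2 * ((2 : ℝ) ^ (-(Mb / 2)) / (1 - (2 : ℝ) ^ (-(Mb / 2)))
        + (2 : ℝ) ^ (-(H0 / 2500)) / (1 - (2 : ℝ) ^ (-((b : ℝ) / 2500)))) ≤ ε / 4 := by
  have hcz : 0 < 1 - (2 : ℝ) ^ (-((b : ℝ) / 2500)) := by
    have hb' : (0 : ℝ) < b := by exact_mod_cast hb
    have : (2 : ℝ) ^ (-((b : ℝ) / 2500)) < 1 :=
      Real.rpow_lt_one_of_one_lt_of_neg one_lt_two (by
        have : 0 < (b : ℝ) / 2500 := by positivity
        linarith)
    linarith
  obtain ⟨n, hn⟩ := pow_unbounded_of_one_lt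
    ((4 + 2 / (1 - (2 : ℝ) ^ (-((b : ℝ) / 2500)))) / (ε / 4)) one_lt_two
  refine ⟨n + 1, fun s Mb H0 hs h1 h2 => ?_⟩
  have hu : (2 : ℝ) ^ (-(s : ℝ)) = ((2 : ℝ) ^ s)⁻¹ := by
    rw [Real.rpow_neg two_pos.le, Real.rpow_natCast]
  refine igr_num_sep_abs _ _ ((2 : ℝ) ^ (-(s : ℝ))) _ ε (Real.rpow_pos_of_pos two_pos _).le
    (Real.rpow_le_rpow_of_exponent_le one_le_two (by linarith))
    (Real.rpow_le_rpow_of_exponent_le one_le_two (by linarith)) ?_ hcz ?_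
  · rw [hu, one_div]
    apply inv_anti₀ two_pos
    calc (2 : ℝ) = 2 ^ 1 := (pow_one _).symm
      _ ≤ 2 ^ s := pow_le_pow_right₀ one_le_two (by omega)
  · rw [hu]
    have hpos : (0 : ℝ) < 2 ^ s := by positivity
    have h3 : (2 : ℝ) ^ n ≤ 2 ^ s := pow_le_pow_right₀ one_le_two (by omega)
    rw [div_lt_iff₀ (by positivity)] at hn
    rw [inv_mul_le_iff₀ hpos]
    nlinarith

theorem igr_num_label (T b s' : ℕ) (hT : T ≤ s') (hb : b ≤ s') (hs' : 3 ≤ s') :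
    T * (2000000 * (20000 * s') * (2 ^ (8001 * s') * (2 ^ b * 2 ^ (12000 * s')))) ≤ 2 ^ (20020 * s') := by
  have h1 : s' ≤ 2 ^ s' := Nat.lt_two_pow_self.le
  have h2 : 2 ^ b ≤ 2 ^ s' := Nat.pow_le_pow_right (by norm_num) hb
  calc T * (2000000 * (20000 * s') * (2 ^ (8001 * s') * (2 ^ b * 2 ^ (12000 * s'))))
      ≤ 2 ^ s' * (2 ^ 36 * 2 ^ s' * (2 ^ (8001 * s') * (2 ^ s' * 2 ^ (12000 * s')))) := by
        apply Nat.mul_le_mul (hT.trans h1)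
        apply Nat.mul_le_mul
        · calc 2000000 * (20000 * s') = 40000000000 * s' := by ring
            _ ≤ 2 ^ 36 * 2 ^ s' := Nat.mul_le_mul (by norm_num) h1
        · exact Nat.mul_le_mul le_rfl (Nat.mul_le_mul h2 le_rfl)
    _ = 2 ^ (s' + (36 + s' + (8001 * s' + (s' + 12000 * s')))) := by
        simp only [pow_add]
    _ ≤ 2 ^ (20020 * s') := Nat.pow_le_pow_right (by norm_num) (by omega)

variable {p : Par}

theorem igr_card_del (S : Vtx p → Prop) (sd : Bool) (i : ℕ) :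
    Nat.card {v : Vtx p // v.sd = sd ∧ v.ht = i ∧ ¬ S v} = Nat.card {x : Layer p sd i // ¬ S x.1} :=
  Nat.card_congr ⟨fun v => ⟨⟨v.1, v.2.1, v.2.2.1⟩, v.2.2.2⟩, fun x => ⟨x.1.1, x.1.2.1, x.1.2.2, x.2⟩,
    fun _ => rfl, fun _ => rfl⟩

/-- the graph of a selected system of tables -/
theorem igr_of_tab (hp : p.Adm) {cf : Coef p} (hcf : cf.Sep) (𝔗 : Tab p) (ρ ε : ℝ) (hρ : 0 ≤ ρ)
    (hgap : SliceGap cf 𝔗 ρ)
    (hdel : ∀ sd i, (Nat.card {x : Layer p sd i // ¬ Xold cf 𝔗 x.1} : ℝ) ≤ ε * Nat.card (Layer p sd i)) :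
    (igrOld cf 𝔗 (Xold cf 𝔗)).Exp ε ρ ∧ (igrOld cf 𝔗 (Xold cf 𝔗)).sub.Girth93 ∧
      (igrOld cf 𝔗 (Xold cf 𝔗)).sub.NonLaw604 ∧ (igrOld cf 𝔗 (Xold cf 𝔗)).sub.WordUnique := by
  refine ⟨⟨igr_str hp cf hcf 𝔗, igr_cardB hp cf 𝔗, igr_cardA hp cf 𝔗, ?_, ?_, ?_, ?_⟩,
    igr_girth hp hcf (fun x h => h.1), igr_nonlaw hp hcf, igr_wordUnique hp hcf (fun x h => h.1.1)⟩
  · intro τ a h1 h2
    exact igr_degA hp cf hcf 𝔗 τ a h1 h2
  · intro τ b h1 h2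
    exact igr_degB hp cf hcf 𝔗 τ b h1 h2
  · intro τ k f hf h0
    exact igr_gap hp cf hcf 𝔗 ρ hρ hgap τ k f hf h0
  · intro sd i
    have := hdel sd i
    rw [← igr_card_del] at this
    exact this

/-- **Output of Sections 1-3.** -/
theorem igr_main : InjGraphStmt := by
  obtain ⟨b, hb, ρ, hρ0, hρ1, hE⟩ := El.exp_law
  refine ⟨b, hb, ρ, hρ0, hρ1, ?_⟩
  intro T off ε hε
  obtain ⟨s1, hs1⟩ := hE T off
  obtain ⟨s2, hs2⟩ := lab_coef_exists b T hb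
  obtain ⟨s3, hs3⟩ := igr_num_gate T b ε hε
  obtain ⟨s4, hs4⟩ := igr_num_sep b hb ε hε
  refine ⟨max (max s1 s2) (max (max s3 s4) (max (2000000 * b) (20000 * (T + 3)))), ?_⟩
  intro s hs h2 h5
  have hss1 : s1 ≤ s := le_trans (le_trans (le_max_left _ _) (le_max_left _ _)) hs
  have hss2 : s2 ≤ s := le_trans (le_trans (le_max_right _ _) (le_max_left _ _)) hs
  have hss3 : s3 ≤ s :=
    le_trans (le_trans (le_trans (le_max_left _ _) (le_max_left _ _)) (le_max_right _ _)) hs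
  have hss4 : s4 ≤ s :=
    le_trans (le_trans (le_trans (le_max_right _ _) (le_max_left _ _)) (le_max_right _ _)) hs
  have hss5 : 2000000 * b ≤ s :=
    le_trans (le_trans (le_trans (le_max_left _ _) (le_max_right _ _)) (le_max_right _ _)) hs
  have hss6 : 20000 * (T + 3) ≤ s :=
    le_trans (le_trans (le_trans (le_max_right _ _) (le_max_right _ _)) (le_max_right _ _)) hs
  obtain ⟨n1, hn1⟩ := hs1 s hss1 h2 h5
  obtain ⟨n2, hn2⟩ := pow_unbounded_of_one_lt (2400 / (ε / 4)) one_lt_two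
  refine ⟨max (max n1 n2) 1000000, ?_⟩
  intro n0 hn0
  have hnn1 : n1 ≤ n0 := le_trans (le_trans (le_max_left _ _) (le_max_left _ _)) hn0
  have hnn2 : n2 ≤ n0 := le_trans (le_trans (le_max_right _ _) (le_max_left _ _)) hn0
  have hnn3 : 1000000 ≤ n0 := le_trans (le_max_right _ _) hn0
  obtain ⟨s', hs'⟩ := h2
  have hp : (⟨b, s, n0, T, off⟩ : Par).Adm :=
    { hb := hb
      hs := by show 0 < s; omega
      h20000 := ⟨s', hs'⟩
      h5b := h5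
      hn0 := hnn3
      hslope := by
        show 1000000 * b ≤ 10001 * s / 20000
        omega }
  obtain ⟨cf, hsep, hmult⟩ := hs2 ⟨b, s, n0, T, off⟩ rfl rfl hp hss2
  obtain ⟨L, hL⟩ := hn1 n0 hnn1 cf hsep hmult
  have hcard : Fintype.card (Label ⟨b, s, n0, T, off⟩) ≤ 2 ^ (20020 * s') := by
    rw [pr_card_label]
    have e1 : (⟨b, s, n0, T, off⟩ : Par).M = 2000000 * (20000 * s') := by
      show 2000000 * s = _; rw [hs']
    have e2 : (⟨b, s, n0, T, off⟩ : Par).d = 2 ^ (8001 * s') := by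
      show 2 ^ (8001 * s / 20000) = _; congr 1; omega
    have e3 : (⟨b, s, n0, T, off⟩ : Par).r = 12000 * s' := by
      show 3 * s / 5 = _; omega
    rw [e1, e2, e3]
    exact igr_num_label T b s' (by omega) (by omega) (by omega)
  obtain ⟨𝔗, hG, hsum⟩ := igr_select hp hsep L zero_le_one le_rfl (20020 * s')
    (by show 1000 * (20020 * s') ≤ 1001 * s; omega) hcard
  have hdel := igr_del_frac hp hsep 𝔗 hsum ε
    (by
      have := hs3 s (12001 * s / 20000) hss3 (by omega) (by omega)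
      exact this)
    (by
      refine hs4 s _ _ hss4 ?_ ?_
      · show (s : ℝ) ≤ (((2000000 * s : ℕ) : ℝ) * (b : ℝ)) / 2
        have hb' : (1 : ℝ) ≤ b := by exact_mod_cast hb
        have hs0 : (0 : ℝ) ≤ s := by positivity
        push_cast
        nlinarith
      · show (s : ℝ) ≤ ((((2 * n0 + 1) * s + b * 0 : ℕ) : ℝ)) / 2500
        have hn' : (1000000 : ℝ) ≤ n0 := by exact_mod_cast hnn3
        have hs0 : (0 : ℝ) ≤ s := by positivity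
        push_cast
        nlinarith)
    (by
      show (2400 : ℝ) ≤ ε / 4 * 2 ^ (n0 + 2)
      rw [div_lt_iff₀ (by positivity)] at hn2
      have h3 : (2 : ℝ) ^ n2 ≤ 2 ^ (n0 + 2) := pow_le_pow_right₀ one_le_two (by omega)
      nlinarith)
  obtain ⟨g1, g2, g3, g4⟩ := igr_of_tab hp hsep 𝔗 ρ ε hρ0.le (hL 𝔗 hG) hdel
  refine ⟨igrOld cf 𝔗 (Xold cf 𝔗), g1, g2, g3, g4, ?_⟩
  exact (igr_card_lb cf 𝔗).le

end Claimed.Agent.R300.Igr
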