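import Claimed.Agent.R300.ScAmp

/-!
# Row 300, shared front end: translations, the reduced group C*-algebra, the canonical trace
-/

set_option autoImplicit false

namespace Claimed.Agent.R300

open scoped ENNReal ComplexConjugate InnerProductSpace

variable {G : Type} [Group G]

/-! ### Translations -/

/-- The left translation operator `λ(g)`. -/
noncomputable def scLam (g : G) : ScL2 G →L[ℂ] ScL2 G :=
  scPull (fun x => g⁻¹ * x) (mul_right_injective _)

@[simp] theorem scLam_apply (g : G) (ξ : ScL2 G) (x : G) : scLam g ξ x = ξ (g⁻¹ * x) := rfl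

/-- The right translation operator `ρ(g)`, `(ρ(g)ξ)(x) = ξ(xg)`. -/
noncomputable def scRho (g : G) : ScL2 G →L[ℂ] ScL2 G :=
  scPull (fun x => x * g) (mul_left_injective _)

@[simp] theorem scRho_apply (g : G) (ξ : ScL2 G) (x : G) : scRho g ξ x = ξ (x * g) := rfl

theorem scLam_delta (g x : G) : scLam g (scDelta x) = scDelta (g * x) := by
  have := scPull_delta (fun x => g⁻¹ * x) (mul_right_injective _) (g * x)
  simpa [scLam] using this

theorem scRho_delta (g x : G) : scRho g (scDelta x) = scDelta (x * g⁻¹) := by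
  have := scPull_delta (fun x => x * g) (mul_left_injective _) (x * g⁻¹)
  simpa [scRho] using this

theorem scLam_one : scLam (1 : G) = 1 := by
  ext ξ x; simp

theorem scLam_mul (g h : G) : scLam (g * h) = scLam g * scLam h := by
  ext ξ x; simp [mul_assoc]

theorem scLam_norm (g : G) (ξ : ScL2 G) : ‖scLam g ξ‖ = ‖ξ‖ :=
  scPull_norm_of_bijective _ (Group.mulLeft_bijective g⁻¹) ξ

theorem scLam_star (g : G) : star (scLam g) = scLam g⁻¹ := by
  classical
  refine scOp_ext fun x => ?_
  ext y
  rw [sc_star_delta_apply, scLam_delta, scLam_delta, scDelta_apply, scDelta_apply]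
  have : x = g * y ↔ y = g⁻¹ * x := by
    constructor
    · rintro rfl; simp
    · rintro rfl; simp
  simp [this]

theorem scLam_rho_comm (g h : G) (ξ : ScL2 G) : scLam g (scRho h ξ) = scRho h (scLam g ξ) := by
  ext x; simp [mul_assoc]

theorem scLam_star_mul_self (g : G) : star (scLam g) * scLam g = 1 := by
  rw [scLam_star, ← scLam_mul, inv_mul_cancel, scLam_one]

theorem scLam_mul_star_self (g : G) : scLam g * star (scLam g) = 1 := by
  rw [scLam_star, ← scLam_mul, mul_inv_cancel, scLam_one]

/-! ### The reduced group C*-algebra -/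

/-- The linear span of the left translations, as a star subalgebra. -/
noncomputable def scGroupRing (G : Type) [Group G] : StarSubalgebra ℂ (ScL2 G →L[ℂ] ScL2 G) where
  toSubalgebra := (Submodule.span ℂ (Set.range (scLam (G := G)))).toSubalgebra
    (Submodule.subset_span ⟨1, scLam_one⟩) (by
      intro x y hx hy
      have h := Submodule.mul_mem_mul hx hy
      rw [Submodule.span_mul_span] at h
      refine Submodule.span_mono ?_ h
      rintro _ ⟨_, ⟨g, rfl⟩, _, ⟨h, rfl⟩, rfl⟩
      exact ⟨g * h, scLam_mul g h⟩)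
  star_mem' := by
    intro x hx
    change x ∈ Submodule.span ℂ (Set.range (scLam (G := G))) at hx
    change star x ∈ Submodule.span ℂ (Set.range (scLam (G := G)))
    induction hx using Submodule.span_induction with
    | mem x hx =>
      obtain ⟨g, rfl⟩ := hx
      exact Submodule.subset_span ⟨g⁻¹, (scLam_star g).symm⟩
    | zero => simp
    | add x y _ _ hx hy => rw [star_add]; exact Submodule.add_mem _ hx hy
    | smul c x _ hx => rw [star_smul]; exact Submodule.smul_mem _ _ hx

theorem scGroupRing_coe (G : Type) [Group G] :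
    (scGroupRing G : Set (ScL2 G →L[ℂ] ScL2 G)) =
      (Submodule.span ℂ (Set.range (scLam (G := G))) : Set (ScL2 G →L[ℂ] ScL2 G)) := rfl

/-- The reduced group C*-algebra as a closed star subalgebra of `B(ℓ²(G))`. -/
noncomputable def scRed (G : Type) [Group G] : StarSubalgebra ℂ (ScL2 G →L[ℂ] ScL2 G) :=
  (scGroupRing G).topologicalClosure

theorem scRed_coe (G : Type) [Group G] :
    (scRed G : Set (ScL2 G →L[ℂ] ScL2 G)) =
      closure (Submodule.span ℂ (Set.range (scLam (G := G))) : Set (ScL2 G →L[ℂ] ScL2 G)) := rfl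

theorem scRed_isClosed (G : Type) [Group G] :
    IsClosed (scRed G : Set (ScL2 G →L[ℂ] ScL2 G)) :=
  StarSubalgebra.isClosed_topologicalClosure _

theorem scLam_mem (g : G) : scLam g ∈ scRed G :=
  subset_closure (Submodule.subset_span ⟨g, rfl⟩)

/-- Induction principle: a closed linear property of operators that holds for all translations
holds on the reduced group C*-algebra. -/
theorem scRed_induction {P : (ScL2 G →L[ℂ] ScL2 G) → Prop} (hcl : IsClosed {T | P T})
    (hlam : ∀ g, P (scLam g)) (hzero : P 0) (hadd : ∀ S T, P S → P T → P (S + T))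
    (hsmul : ∀ (c : ℂ) T, P T → P (c • T)) {T : ScL2 G →L[ℂ] ScL2 G} (hT : T ∈ scRed G) : P T := by
  have h1 : (Submodule.span ℂ (Set.range (scLam (G := G))) : Set (ScL2 G →L[ℂ] ScL2 G)) ⊆
      {T | P T} := by
    intro S hS
    induction hS using Submodule.span_induction with
    | mem x hx => obtain ⟨g, rfl⟩ := hx; exact hlam g
    | zero => exact hzero
    | add x y _ _ hx hy => exact hadd x y hx hy
    | smul c x _ hx => exact hsmul c x hx
  exact closure_minimal h1 hcl hT

/-- Elements of the reduced algebra commute with the right translations. -/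
theorem scRed_rho_comm {T : ScL2 G →L[ℂ] ScL2 G} (hT : T ∈ scRed G) (h : G) (ξ : ScL2 G) :
    T (scRho h ξ) = scRho h (T ξ) := by
  refine scRed_induction (P := fun T => T (scRho h ξ) = scRho h (T ξ)) ?_ ?_ ?_ ?_ ?_ hT
  · refine isClosed_eq ?_ ?_
    · exact (ContinuousLinearMap.apply ℂ (ScL2 G) (scRho h ξ)).continuous
    · exact (scRho h).continuous.comp (ContinuousLinearMap.apply ℂ (ScL2 G) ξ).continuous
  · intro g; exact scLam_rho_comm g h ξ
  · simp
  · intro S T hS hT; simp [hS, hT]
  · intro c T hT; simp [hT]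

/-! ### The canonical trace -/

/-- The canonical trace `x ↦ (x δ₁)(1)`. -/
noncomputable def scTr (T : ScL2 G →L[ℂ] ScL2 G) : ℂ := T (scDelta 1) 1

theorem scTr_add (S T : ScL2 G →L[ℂ] ScL2 G) : scTr (S + T) = scTr S + scTr T := by
  simp [scTr]

theorem scTr_sum {ι : Type*} (s : Finset ι) (T : ι → ScL2 G →L[ℂ] ScL2 G) :
    scTr (∑ i ∈ s, T i) = ∑ i ∈ s, scTr (T i) := by
  classical
  induction s using Finset.induction_on with
  | empty => simp [scTr]
  | insert a s ha ih => rw [Finset.sum_insert ha, Finset.sum_insert ha, scTr_add, ih]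

theorem scTr_eq_inner (T : ScL2 G →L[ℂ] ScL2 G) : scTr T = ⟪scDelta 1, T (scDelta 1)⟫_ℂ := by
  simp [scTr]

/-- Matrix coefficients of a right-equivariant operator. -/
theorem sc_equivariant_delta_apply {T : ScL2 G →L[ℂ] ScL2 G}
    (hT : ∀ h ξ, T (scRho h ξ) = scRho h (T ξ)) (x y : G) :
    T (scDelta x) y = T (scDelta 1) (y * x⁻¹) := by
  have : scDelta x = scRho x⁻¹ (scDelta (1 : G)) := by rw [scRho_delta]; simp
  rw [this, hT]; rfl

theorem scTr_mul_eq_tsum {a b : ScL2 G →L[ℂ] ScL2 G}
    (ha : ∀ h ξ, a (scRho h ξ) = scRho h (a ξ)) :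
    scTr (a * b) = ∑' x : G, a (scDelta 1) x⁻¹ * b (scDelta 1) x := by
  have h1 : scTr (a * b) = ⟪star a (scDelta 1), b (scDelta 1)⟫_ℂ := by
    rw [scTr_eq_inner, ContinuousLinearMap.star_eq_adjoint, ContinuousLinearMap.adjoint_inner_left]
    rfl
  rw [h1, lp.inner_eq_tsum]
  refine tsum_congr fun x => ?_
  rw [sc_star_delta_apply, sc_equivariant_delta_apply ha]
  simp [mul_comm]

/-- The trace property for right-equivariant operators. -/
theorem scTr_mul_comm_of_equivariant {a b : ScL2 G →L[ℂ] ScL2 G}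
    (ha : ∀ h ξ, a (scRho h ξ) = scRho h (a ξ)) (hb : ∀ h ξ, b (scRho h ξ) = scRho h (b ξ)) :
    scTr (a * b) = scTr (b * a) := by
  rw [scTr_mul_eq_tsum ha, scTr_mul_eq_tsum hb, ← (Equiv.inv G).tsum_eq]
  refine tsum_congr fun x => ?_
  simp [mul_comm]

/-- The trace property on the reduced group C*-algebra. -/
theorem scTr_mul_comm {a b : ScL2 G →L[ℂ] ScL2 G} (ha : a ∈ scRed G) (hb : b ∈ scRed G) :
    scTr (a * b) = scTr (b * a) :=
  scTr_mul_comm_of_equivariant (scRed_rho_comm ha) (scRed_rho_comm hb)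

/-! ### Functoriality for a subgroup with a transversal -/

section Functoriality

variable {K Y : Type} [Group K]

theorem scAmp_lam (ι : G →* K) (e : K ≃ Y × G)
    (he : ∀ g k, e (ι g * k) = ((e k).1, g * (e k).2)) (g : G) :
    scAmp e (scLam g) = scLam (ι g) := by
  ext ξ k
  have h : e.symm ((e k).1, g⁻¹ * (e k).2) = (ι g)⁻¹ * k := by
    rw [Equiv.symm_apply_eq, ← map_inv, he]
  rw [scAmp_apply, scLam_apply, scLam_apply, scSlice_apply, h]

theorem scAmp_mem (ι : G →* K) (e : K ≃ Y × G)
    (he : ∀ g k, e (ι g * k) = ((e k).1, g * (e k).2)) {T : ScL2 G →L[ℂ] ScL2 G}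
    (hT : T ∈ scRed G) : scAmp e T ∈ scRed K := by
  refine scRed_induction (P := fun T => scAmp e T ∈ scRed K) ?_ ?_ ?_ ?_ ?_ hT
  · exact (scRed_isClosed K).preimage (scAmp_continuous e)
  · intro g; rw [scAmp_lam ι e he]; exact scLam_mem _
  · rw [scAmp_zero]; exact zero_mem _
  · intro S T hS hT; rw [scAmp_add]; exact add_mem hS hT
  · intro c T hT; rw [scAmp_smul]; exact (scRed K).smul_mem hT c

theorem scTr_amp (e : K ≃ Y × G) (he1 : (e 1).2 = 1) (T : ScL2 G →L[ℂ] ScL2 G) :
    scTr (scAmp e T) = scTr T := by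
  rw [scTr, scAmp_apply, scSlice_delta, he1]; rfl

end Functoriality

end Claimed.Agent.R300
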