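import Mathlib

/-!
# Row 300, shared front end: `ℓ²(X)`, coordinates, pull-backs, amplification

`ScL2 X` is (reducibly) the same type as the three Prelude copies of `GroupL2`.
-/

set_option autoImplicit false

namespace Claimed.Agent.R300

open scoped ENNReal ComplexConjugate InnerProductSpace

/-- `ℓ²(X)` in exactly the shape of the Prelude copies of `GroupL2`. -/
abbrev ScL2 (X : Type) : Type := lp (fun _ : X => ℂ) 2

variable {X Y Z : Type}

theorem scL2_summable_sq (ξ : ScL2 X) : Summable fun x => ‖ξ x‖ ^ 2 := by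
  have := (lp.memℓp ξ).summable (by norm_num)
  simpa using this

theorem scL2_hasSum_sq (ξ : ScL2 X) : HasSum (fun x => ‖ξ x‖ ^ 2) (‖ξ‖ ^ 2) := by
  have := lp.hasSum_norm (p := 2) (by norm_num) ξ
  simpa using this

theorem scL2_norm_sq (ξ : ScL2 X) : ‖ξ‖ ^ 2 = ∑' x, ‖ξ x‖ ^ 2 :=
  (scL2_hasSum_sq ξ).tsum_eq.symm

/-- Build an element of `ℓ²(X)` from a square summable function. -/
def scMk (f : X → ℂ) (hf : Summable fun x => ‖f x‖ ^ 2) : ScL2 X :=
  ⟨f, memℓp_gen (by simpa using hf)⟩

@[simp] theorem scMk_apply (f : X → ℂ) (hf : Summable fun x => ‖f x‖ ^ 2) (x : X) :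
    scMk f hf x = f x := rfl

theorem scL2_norm_apply_le (ξ : ScL2 X) (x : X) : ‖ξ x‖ ≤ ‖ξ‖ :=
  lp.norm_apply_le_norm (by norm_num) ξ x

/-! ### Pull-back along an injective map -/

/-- Pull-back along an injective map, a contraction `ℓ²(Z) → ℓ²(X)`. -/
noncomputable def scPull (f : X → Z) (hf : Function.Injective f) : ScL2 Z →L[ℂ] ScL2 X :=
  LinearMap.mkContinuous
    { toFun := fun ξ => scMk (fun a => ξ (f a)) ((scL2_summable_sq ξ).comp_injective hf)
      map_add' := fun ξ η => by ext a; simp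
      map_smul' := fun c ξ => by ext a; simp } 1 (by
    intro ξ
    rw [one_mul]
    refine le_of_sq_le_sq ?_ (norm_nonneg _)
    rw [scL2_norm_sq, scL2_norm_sq]
    exact tsum_comp_le_tsum_of_inj (scL2_summable_sq ξ) (fun _ => by positivity) hf)

@[simp] theorem scPull_apply (f : X → Z) (hf : Function.Injective f) (ξ : ScL2 Z) (a : X) :
    scPull f hf ξ a = ξ (f a) := rfl

theorem scPull_norm_le (f : X → Z) (hf : Function.Injective f) (ξ : ScL2 Z) :
    ‖scPull f hf ξ‖ ≤ ‖ξ‖ := by
  have := (scPull f hf).le_of_opNorm_le (LinearMap.mkContinuous_norm_le _ zero_le_one _) ξ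
  simpa using this

theorem scPull_norm_of_bijective (f : X → Z) (hf : Function.Bijective f) (ξ : ScL2 Z) :
    ‖scPull f hf.1 ξ‖ = ‖ξ‖ := by
  have h : ‖scPull f hf.1 ξ‖ ^ 2 = ‖ξ‖ ^ 2 := by
    rw [scL2_norm_sq, scL2_norm_sq]
    exact (Equiv.ofBijective f hf).tsum_eq (fun z => ‖ξ z‖ ^ 2)
  exact (sq_eq_sq₀ (norm_nonneg _) (norm_nonneg _)).1 h

/-! ### Delta vectors -/

/-- The basis vector `δ_x`. -/
noncomputable def scDelta (x : X) : ScL2 X := by
  classical exact lp.single 2 x 1

theorem scDelta_eq_single [DecidableEq X] (x : X) : scDelta x = lp.single 2 x (1 : ℂ) := by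
  unfold scDelta
  congr!

theorem scDelta_apply (x y : X) [Decidable (y = x)] :
    scDelta x y = if y = x then 1 else 0 := by
  classical
  rw [scDelta_eq_single, lp.single_apply, Pi.single_apply]
  congr!

@[simp] theorem scDelta_self (x : X) : scDelta x x = 1 := by
  classical simp [scDelta_apply]

theorem scDelta_ne {x y : X} (h : y ≠ x) : scDelta x y = 0 := by
  classical simp [scDelta_apply, h]

@[simp] theorem scDelta_norm (x : X) : ‖scDelta x‖ = 1 := by
  classical
  rw [scDelta_eq_single, lp.norm_single (by norm_num)]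
  simp

@[simp] theorem sc_inner_delta_left (x : X) (ξ : ScL2 X) : ⟪scDelta x, ξ⟫_ℂ = ξ x := by
  classical
  rw [scDelta_eq_single, lp.inner_single_left]
  simp

@[simp] theorem sc_inner_delta_right (x : X) (ξ : ScL2 X) : ⟪ξ, scDelta x⟫_ℂ = conj (ξ x) := by
  classical
  rw [scDelta_eq_single, lp.inner_single_right]
  simp

/-- Bounded operators out of `ℓ²(X)` are determined by their values on the `δ_x`. -/
theorem scOp_ext {E : Type*} [NormedAddCommGroup E] [NormedSpace ℂ E]
    {S T : ScL2 X →L[ℂ] E} (h : ∀ x, S (scDelta x) = T (scDelta x)) : S = T := by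
  classical
  refine lp.ext_continuousLinearMap (by norm_num) fun i => ?_
  ext
  simpa [scDelta_eq_single] using h i

theorem scPull_delta (f : X → Z) (hf : Function.Injective f) (x : X) :
    scPull f hf (scDelta (f x)) = scDelta x := by
  classical
  ext a
  simp [scDelta_apply, hf.eq_iff]

theorem scPull_delta_of_not_mem (f : X → Z) (hf : Function.Injective f) (z : Z)
    (hz : ∀ x, f x ≠ z) : scPull f hf (scDelta z) = 0 := by
  ext a
  simp [scDelta_ne (hz a)]

/-- Matrix coefficients of the adjoint. -/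
theorem sc_adjoint_delta_apply (T : ScL2 X →L[ℂ] ScL2 Y) (a : X) (b : Y) :
    (ContinuousLinearMap.adjoint T (scDelta b)) a = conj (T (scDelta a) b) := by
  rw [← sc_inner_delta_left a, ContinuousLinearMap.adjoint_inner_right, sc_inner_delta_right]

theorem sc_star_delta_apply (T : ScL2 X →L[ℂ] ScL2 X) (a b : X) :
    (star T (scDelta b)) a = conj (T (scDelta a) b) :=
  sc_adjoint_delta_apply T a b

/-! ### Restriction to a subset, disjoint supports -/

/-- Multiplication by the indicator function of `B`. -/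
noncomputable def scRestr (B : Set X) : ScL2 X →L[ℂ] ScL2 X :=
  LinearMap.mkContinuous
    { toFun := fun ξ => scMk (B.indicator fun a => ξ a) (by
        refine Summable.of_nonneg_of_le (fun _ => by positivity) (fun a => ?_)
          (scL2_summable_sq ξ)
        by_cases ha : a ∈ B <;> simp [ha])
      map_add' := fun ξ η => by
        ext a
        by_cases ha : a ∈ B <;> simp [ha]
      map_smul' := fun c ξ => by
        ext a
        by_cases ha : a ∈ B <;> simp [ha] } 1 (by
    intro ξ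
    rw [one_mul]
    refine le_of_sq_le_sq ?_ (norm_nonneg _)
    rw [scL2_norm_sq, scL2_norm_sq]
    refine Summable.tsum_le_tsum (fun a => ?_) (scL2_summable_sq _) (scL2_summable_sq ξ)
    by_cases ha : a ∈ B <;> simp [ha])

theorem scRestr_apply (B : Set X) (ξ : ScL2 X) (a : X) :
    scRestr B ξ a = B.indicator (fun a => ξ a) a := rfl

theorem scRestr_apply_mem {B : Set X} (ξ : ScL2 X) {a : X} (ha : a ∈ B) :
    scRestr B ξ a = ξ a := by simp [scRestr_apply, ha]

theorem scRestr_apply_not_mem {B : Set X} (ξ : ScL2 X) {a : X} (ha : a ∉ B) :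
    scRestr B ξ a = 0 := by simp [scRestr_apply, ha]

theorem scRestr_add_compl (B : Set X) (ξ : ScL2 X) : scRestr B ξ + scRestr Bᶜ ξ = ξ := by
  ext a
  by_cases ha : a ∈ B <;> simp [scRestr_apply, ha]

theorem scRestr_norm_sq_add (B : Set X) (ξ : ScL2 X) :
    ‖scRestr B ξ‖ ^ 2 + ‖scRestr Bᶜ ξ‖ ^ 2 = ‖ξ‖ ^ 2 := by
  refine ((scL2_hasSum_sq (scRestr B ξ)).add (scL2_hasSum_sq (scRestr Bᶜ ξ))).unique ?_
  convert scL2_hasSum_sq ξ using 2 with a
  by_cases ha : a ∈ B <;> simp [scRestr_apply, ha]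

theorem sc_inner_eq_zero_of_disjoint (ξ η : ScL2 X) (h : ∀ x, ξ x = 0 ∨ η x = 0) :
    ⟪ξ, η⟫_ℂ = 0 := by
  rw [lp.inner_eq_tsum]
  refine (tsum_congr fun x => ?_).trans tsum_zero
  rcases h x with h | h <;> simp [h]

theorem sc_norm_sq_sum_of_disjoint {ι : Type*} (s : Finset ι) (η : ι → ScL2 X)
    (h : ∀ i ∈ s, ∀ j ∈ s, i ≠ j → ∀ x, η i x = 0 ∨ η j x = 0) :
    ‖∑ i ∈ s, η i‖ ^ 2 = ∑ i ∈ s, ‖η i‖ ^ 2 := by
  classical
  induction s using Finset.induction_on with
  | empty => simp
  | insert a s ha ih =>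
    rw [Finset.sum_insert ha, Finset.sum_insert ha, ← ih (fun i hi j hj => h i
      (Finset.mem_insert_of_mem hi) j (Finset.mem_insert_of_mem hj))]
    have h0 : ⟪η a, ∑ i ∈ s, η i⟫_ℂ = 0 := by
      rw [inner_sum]
      refine Finset.sum_eq_zero fun i hi => sc_inner_eq_zero_of_disjoint _ _ ?_
      exact h a (Finset.mem_insert_self _ _) i (Finset.mem_insert_of_mem hi)
        (fun hai => ha (hai ▸ hi))
    have := norm_add_sq_eq_norm_sq_add_norm_sq_of_inner_eq_zero (𝕜 := ℂ) _ _ h0
    simpa [sq] using this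

end Claimed.Agent.R300
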