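/-
Row 300 / S0553 (INJ paper).  SHARED DEFINITIONS of the analytic spine (owner: helper105).
Heisenberg group, torus, explicit 2-cocycle, circle functions obtained by localisation,
scales, blocks of operators on `ℓ²(ℕ × Γ)`, right regular algebra of a subgroup.
Everything here is frozen: consumers and producers of the INJ interfaces speak this language.
-/
import Mathlib
import Claimed.Agent.R300.ScL2
import Claimed.Agent.R300.ScAlg

set_option autoImplicit false

namespace Claimed.Agent.R300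

open scoped ENNReal ComplexConjugate InnerProductSpace

/-! ### The integral Heisenberg group -/

/-- The integral Heisenberg group, coordinates `(a,b,c)`,
`(a,b,c)(a',b',c') = (a+a', b+b', c+c'+a b')`.  `x=(1,0,0)`, `y=(0,1,0)`, `z=(0,0,1)`,
`x y = z y x`, `y^j x y^-j = z^-j x`. -/
@[ext] structure InjHeis where
  a : ℤ
  b : ℤ
  c : ℤ
  deriving DecidableEq

namespace InjHeis

instance : Mul InjHeis := ⟨fun p q => ⟨p.a + q.a, p.b + q.b, p.c + q.c + p.a * q.b⟩⟩
instance : One InjHeis := ⟨⟨0, 0, 0⟩⟩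
instance : Inv InjHeis := ⟨fun p => ⟨-p.a, -p.b, -p.c + p.a * p.b⟩⟩

@[simp] theorem mul_a (p q : InjHeis) : (p * q).a = p.a + q.a := rfl
@[simp] theorem mul_b (p q : InjHeis) : (p * q).b = p.b + q.b := rfl
@[simp] theorem mul_c (p q : InjHeis) : (p * q).c = p.c + q.c + p.a * q.b := rfl
@[simp] theorem one_a : (1 : InjHeis).a = 0 := rfl
@[simp] theorem one_b : (1 : InjHeis).b = 0 := rfl
@[simp] theorem one_c : (1 : InjHeis).c = 0 := rfl
@[simp] theorem inv_a (p : InjHeis) : (p⁻¹).a = -p.a := rfl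
@[simp] theorem inv_b (p : InjHeis) : (p⁻¹).b = -p.b := rfl
@[simp] theorem inv_c (p : InjHeis) : (p⁻¹).c = -p.c + p.a * p.b := rfl

instance : Group InjHeis where
  mul_assoc p q r := by ext <;> simp <;> ring
  one_mul p := by ext <;> simp
  mul_one p := by ext <;> simp
  inv_mul_cancel p := by ext <;> simp

/-- generators -/
def x : InjHeis := ⟨1, 0, 0⟩
def y : InjHeis := ⟨0, 1, 0⟩
def z : InjHeis := ⟨0, 0, 1⟩

/-- The torus `ℤ² → Heis`, `(u,v) ↦ z^u x^v = (v,0,u)`. -/
def torus : Multiplicative (ℤ × ℤ) →* InjHeis where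
  toFun p := ⟨(Multiplicative.toAdd p).2, 0, (Multiplicative.toAdd p).1⟩
  map_one' := rfl
  map_mul' p q := by ext <;> simp

theorem torus_injective : Function.Injective torus := by
  intro p q h
  have h1 := congrArg InjHeis.a h
  have h2 := congrArg InjHeis.c h
  simp only [torus, MonoidHom.coe_mk, OneHom.coe_mk] at h1 h2
  exact Multiplicative.toAdd.injective (Prod.ext h2 h1)

theorem torus_10 : torus (Multiplicative.ofAdd ((1 : ℤ), (0 : ℤ))) = z := rfl
theorem torus_01 : torus (Multiplicative.ofAdd ((0 : ℤ), (1 : ℤ))) = x := rfl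

/-- The explicit integral 2-cocycle `ω(p,q) = a c' + C(a,2) b'` (INJ Lemma
explicit-heisenberg-detector). -/
def om (p q : InjHeis) : ℤ := p.a * q.c + (p.a * (p.a - 1) / 2) * q.b

theorem om_torus (p q : Multiplicative (ℤ × ℤ)) :
    om (torus p) (torus q) = (Multiplicative.toAdd p).2 * (Multiplicative.toAdd q).1 := by
  simp [om, torus]

end InjHeis

/-! ### Functions on the circle and the torus -/

/-- the circle `ℝ/ℤ` -/
abbrev InjT : Type := UnitAddCircle

/-- `e(θ)` as a function of `(θ,ξ)` -/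
noncomputable def injE1 : C(InjT × InjT, ℂ) := (fourier 1).comp ContinuousMap.fst
/-- `e(ξ)` as a function of `(θ,ξ)` -/
noncomputable def injE2 : C(InjT × InjT, ℂ) := (fourier 1).comp ContinuousMap.snd

/-- periodisation `θ ↦ ∑_k f(θ+k)` -/
noncomputable def injPer (f : C(ℝ, ℂ)) : C(InjT, ℂ) :=
  ⟨(f.periodic_tsum_comp_add_zsmul 1).lift, continuous_coinduced_dom.mpr (map_continuous _)⟩

/-- `θ ↦ A (L (θ - a))`, periodised: the profile `A` at scale `L` around the point `a`. -/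
noncomputable def injLoc (A : C(ℝ, ℂ)) (a L : ℝ) : C(InjT, ℂ) :=
  injPer (A.comp ⟨fun t => L * (t - a), by fun_prop⟩)

/-- the golden rotation number `α = (√5-1)/2` -/
noncomputable def injAlpha : ℝ := (Real.sqrt 5 - 1) / 2

/-- height function `H_i = H_0 + b i` -/
def injH (b H0 i : ℕ) : ℕ := H0 + b * i

/-- the scales `Z_i = 2^(500 H_i)`, `N_i = 2^(200 H_i)`, `J_i = 2^(50 H_i)` -/
noncomputable def injZs (b H0 i : ℕ) : ℝ := 2 ^ (500 * injH b H0 i)
noncomputable def injNs (b H0 i : ℕ) : ℝ := 2 ^ (200 * injH b H0 i)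
def injJs (b H0 i : ℕ) : ℕ := 2 ^ (50 * injH b H0 i)

/-- the product symbol `(θ,ξ) ↦ A(Z_i(θ-α)) B(N_i ξ)` at height `i` -/
noncomputable def injLoc2 (b H0 : ℕ) (A B : C(ℝ, ℂ)) (i : ℕ) : C(InjT × InjT, ℂ) :=
  (injLoc A injAlpha (injZs b H0 i)).comp ContinuousMap.fst *
    (injLoc B 0 (injNs b H0 i)).comp ContinuousMap.snd

/-! ### Blocks of operators on `ℓ²(ℕ × X)` -/

variable {X : Type}

theorem injMk_injective (i : ℕ) : Function.Injective (fun x : X => (i, x)) :=
  fun _ _ h => (Prod.ext_iff.1 h).2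

/-- the `i`-th coordinate projection `ℓ²(ℕ × X) → ℓ²(X)` -/
noncomputable def injSl (i : ℕ) : ScL2 (ℕ × X) →L[ℂ] ScL2 X :=
  scPull (fun x : X => (i, x)) (injMk_injective i)

/-- the `i`-th coordinate inclusion `ℓ²(X) → ℓ²(ℕ × X)` -/
noncomputable def injIn (i : ℕ) : ScL2 X →L[ℂ] ScL2 (ℕ × X) :=
  ContinuousLinearMap.adjoint (injSl i)

/-- `M` has the blocks `β i k : (summand k) → (summand i)` -/
def InjHasBlocks (M : ScL2 (ℕ × X) →L[ℂ] ScL2 (ℕ × X))
    (β : ℕ → ℕ → (ScL2 X →L[ℂ] ScL2 X)) : Prop :=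
  ∀ i k, (injSl i) ∘L M ∘L (injIn k) = β i k

/-! ### The right regular algebra of a subgroup -/

/-- norm closure of the span of the right translations `ρ(g)`, `g ∈ G₀`, on `ℓ²(Γ)` -/
def injAlg {Γ : Type} [Group Γ] (G₀ : Subgroup Γ) : Set (ScL2 Γ →L[ℂ] ScL2 Γ) :=
  closure (Submodule.span ℂ {T | ∃ g ∈ G₀, T = scRho g} : Set (ScL2 Γ →L[ℂ] ScL2 Γ))

end Claimed.Agent.R300
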