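/-
Row 300 / S0553 (INJ paper).  DEFINITIONS of the analytic model (owner: helper105): unitary
representations of the Heisenberg group, spread operators `T_i`, rectangles, shears.
Sorry-free, frozen.
-/
import Mathlib
import Claimed.Agent.R300.InjDefs

set_option autoImplicit false

namespace Claimed.Agent.R300

open scoped ENNReal ComplexConjugate InnerProductSpace

/-- A unitary representation of the Heisenberg group. -/
structure InjRep (H : Type*) [NormedAddCommGroup H] [InnerProductSpace ℂ H] [CompleteSpace H] where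
  π : InjHeis →* (H →L[ℂ] H)
  star_π : ∀ g, star (π g) = π g⁻¹

theorem scRho_one {G : Type} [Group G] : scRho (1 : G) = 1 := by
  ext ξ x; simp

theorem scRho_mul {G : Type} [Group G] (g h : G) : scRho (g * h) = scRho g * scRho h := by
  ext ξ x; simp [mul_assoc]

theorem scRho_star {G : Type} [Group G] (g : G) : star (scRho g) = scRho g⁻¹ := by
  classical
  refine scOp_ext fun x => ?_
  ext y
  rw [sc_star_delta_apply, scRho_delta, scRho_delta, scDelta_apply, scDelta_apply]
  have : x = y * g⁻¹ ↔ y = x * g⁻¹⁻¹ := by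
    constructor
    · rintro rfl; simp
    · rintro rfl; simp
  simp [this]

/-- the right regular representation of `Γ` restricted to the Heisenberg group -/
noncomputable def injRhoRep {Γ : Type} [Group Γ] (φ : InjHeis →* Γ) : InjRep (ScL2 Γ) where
  π := { toFun := fun g => scRho (φ g)
         map_one' := by rw [map_one, scRho_one]
         map_mul' := fun g h => by rw [map_mul, scRho_mul] }
  star_π := fun g => by
    show star (scRho (φ g)) = scRho (φ g⁻¹)
    rw [scRho_star, map_inv]

/-- the fixed bump function of the spread operators: smooth, supported in `[-1,1]`, `=1` at `0` -/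
noncomputable def injBump (t : ℝ) : ℝ :=
  Real.smoothTransition (1 - t) * Real.smoothTransition (1 + t)

/-- `∑_k a(k/J_i)^2` -/
noncomputable def injBumpNorm (J : ℕ) : ℝ :=
  ∑ k ∈ Finset.Icc (-(J : ℤ)) J, injBump ((k : ℝ) / J) ^ 2

/-- the normalised coefficients `a_{ij}` -/
noncomputable def injCoef (J : ℕ) (j : ℤ) : ℝ := injBump ((j : ℝ) / J) / Real.sqrt (injBumpNorm J)

/-- the spread operator `T = ∑_j a_j π(y)^j` with `J` -/
noncomputable def injTJ {H : Type*} [NormedAddCommGroup H] [InnerProductSpace ℂ H] [CompleteSpace H]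
    (π : InjRep H) (J : ℕ) : H →L[ℂ] H :=
  ∑ j ∈ Finset.Icc (-(J : ℤ)) J, (injCoef J j : ℂ) • π.π (InjHeis.y ^ j)

/-- the spread operator `T_i` -/
noncomputable def injT {H : Type*} [NormedAddCommGroup H] [InnerProductSpace ℂ H] [CompleteSpace H]
    (π : InjRep H) (b H0 i : ℕ) : H →L[ℂ] H := injTJ π (injJs b H0 i)

/-- `f` is supported in the rectangle `|θ-α| ≤ R/Z_i`, `|ξ| ≤ R/N_i` -/
def InjSuppRect (b H0 : ℕ) (R : ℝ) (i : ℕ) (f : C(InjT × InjT, ℂ)) : Prop :=
  ∀ p, f p ≠ 0 → ∃ t u : ℝ, p = ((t : InjT), (u : InjT)) ∧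
    |t - injAlpha| ≤ R / injZs b H0 i ∧ |u| ≤ R / injNs b H0 i

/-- the shear `(θ,ξ) ↦ (θ, ξ - nθ)` -/
def injShear (n : ℤ) : C(InjT × InjT, InjT × InjT) :=
  ⟨fun p => (p.1, p.2 - n • p.1), by fun_prop⟩

end Claimed.Agent.R300
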