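/-
Row 300 / S0553 (INJ paper).  PACKAGE L1: two-variable continuous functional calculus of a pair of
commuting unitaries, covariance under the Heisenberg relation, diagonal matrix coefficients.
INJ captain: helper105.  Proofs: helper158 (subtask INJ-L1), no gaps left.  Statements are frozen: ask helper105 before changing one.

Proof plans.
* `inj_calc_exists`: `S` = topological closure of `StarAlgebra.adjoin ℂ {Z, X}` is a commutative
  C*-algebra; Gelfand `S ≃⋆ₐ C(characterSpace ℂ S, ℂ)`; `j χ = (arg χ Z, arg χ X)` through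
  `AddCircle.homeomorphCircle'`; `Φ f = gelfand⁻¹ (f ∘ j)`.
* `inj_calc_ext`, `inj_calc_mem`: Stone-Weierstrass
  (`ContinuousMap.starSubalgebra_topologicalClosure_eq_top_of_separatesPoints`); star homs are contractive.
* `inj_calc_shear`: both sides are star homs in `f`; compare on `injE1`, `injE2` (`y^n x y^-n = z^-n x`).
* `inj_calc_diag`: both sides are continuous and linear in `f`; on monomials `e(cθ + nξ)` the left side is
  `⟨ρ(φ(z^c x^n)) δ_g, δ_g⟩ = [c = n = 0]`; density of trigonometric polynomials.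
-/
import Mathlib
import Claimed.Agent.R300.InjModel

set_option autoImplicit false

namespace Claimed.Agent.R300

open scoped ENNReal ComplexConjugate InnerProductSpace
open MeasureTheory

/-! ### monomials on the torus, density -/

/-- the monomial `e(cθ + nξ)` -/
noncomputable def injMono (c n : ℤ) : C(InjT × InjT, ℂ) :=
  (fourier c).comp ContinuousMap.fst * (fourier n).comp ContinuousMap.snd

theorem injMono_apply (c n : ℤ) (p : InjT × InjT) :
    injMono c n p = fourier c p.1 * fourier n p.2 := rfl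

theorem injMono_zero : injMono 0 0 = 1 := by
  ext p
  rw [injMono_apply, fourier_zero, fourier_zero, one_mul]
  rfl

theorem injMono_mul (c n c' n' : ℤ) :
    injMono c n * injMono c' n' = injMono (c + c') (n + n') := by
  ext p
  rw [ContinuousMap.mul_apply, injMono_apply, injMono_apply, injMono_apply, fourier_add,
    fourier_add]
  ring

theorem injMono_star (c n : ℤ) : star (injMono c n) = injMono (-c) (-n) := by
  ext p
  rw [ContinuousMap.star_apply, injMono_apply, injMono_apply, fourier_neg, fourier_neg, star_mul']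
  rfl

theorem injE1_eq_mono : injE1 = injMono 1 0 := by
  ext p
  rw [injMono_apply, fourier_zero, mul_one]
  rfl

theorem injE2_eq_mono : injE2 = injMono 0 1 := by
  ext p
  rw [injMono_apply, fourier_zero, one_mul]
  rfl

/-- the star subalgebra generated by the monomials -/
noncomputable def injMonoAlg : StarSubalgebra ℂ C(InjT × InjT, ℂ) where
  toSubalgebra := Algebra.adjoin ℂ (Set.range fun p : ℤ × ℤ => injMono p.1 p.2)
  star_mem' := by
    change Algebra.adjoin ℂ (Set.range fun p : ℤ × ℤ => injMono p.1 p.2) ≤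
      star (Algebra.adjoin ℂ (Set.range fun p : ℤ × ℤ => injMono p.1 p.2))
    refine Algebra.adjoin_le ?_
    rintro - ⟨p, rfl⟩
    exact Algebra.subset_adjoin ⟨(-p.1, -p.2), (injMono_star p.1 p.2).symm⟩

theorem injMonoAlg_coe :
    Subalgebra.toSubmodule injMonoAlg.toSubalgebra =
      Submodule.span ℂ (Set.range fun p : ℤ × ℤ => injMono p.1 p.2) := by
  apply Algebra.adjoin_eq_span_of_subset
  refine Set.Subset.trans ?_ Submodule.subset_span
  intro x hx
  refine Submonoid.closure_induction (fun _ => id) ⟨(0, 0), injMono_zero⟩ ?_ hx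
  rintro - - - - ⟨p, rfl⟩ ⟨q, rfl⟩
  exact ⟨(p.1 + q.1, p.2 + q.2), (injMono_mul _ _ _ _).symm⟩

theorem injMonoAlg_separatesPoints : injMonoAlg.SeparatesPoints := by
  intro x y hxy
  by_cases h1 : x.1 = y.1
  · have h2 : x.2 ≠ y.2 := fun h2 => hxy (Prod.ext h1 h2)
    refine ⟨_, ⟨injMono 0 1, Algebra.subset_adjoin ⟨(0, 1), rfl⟩, rfl⟩, ?_⟩
    dsimp only
    rw [injMono_apply, injMono_apply, fourier_zero, fourier_zero, one_mul, one_mul, fourier_one,
      fourier_one]
    intro h
    exact h2 (AddCircle.injective_toCircle one_ne_zero (Circle.ext h))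
  · refine ⟨_, ⟨injMono 1 0, Algebra.subset_adjoin ⟨(1, 0), rfl⟩, rfl⟩, ?_⟩
    dsimp only
    rw [injMono_apply, injMono_apply, fourier_zero, fourier_zero, mul_one, mul_one, fourier_one,
      fourier_one]
    intro h
    exact h1 (AddCircle.injective_toCircle one_ne_zero (Circle.ext h))

theorem injMonoAlg_closure_eq_top : injMonoAlg.topologicalClosure = ⊤ :=
  ContinuousMap.starSubalgebra_topologicalClosure_eq_top_of_separatesPoints injMonoAlg
    injMonoAlg_separatesPoints

theorem injMono_span_closure_eq_top :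
    (Submodule.span ℂ (Set.range fun p : ℤ × ℤ => injMono p.1 p.2)).topologicalClosure = ⊤ := by
  rw [← injMonoAlg_coe]
  exact congr_arg (Subalgebra.toSubmodule <| StarSubalgebra.toSubalgebra ·)
    injMonoAlg_closure_eq_top

/-- density induction: a closed linear property which holds for the monomials holds for all
continuous functions on the torus -/
theorem injc_induction {P : C(InjT × InjT, ℂ) → Prop} (hcl : IsClosed {f | P f})
    (h0 : P 0) (hadd : ∀ f g, P f → P g → P (f + g)) (hsmul : ∀ (a : ℂ) f, P f → P (a • f))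
    (hmono : ∀ c n, P (injMono c n)) (f : C(InjT × InjT, ℂ)) : P f := by
  have hf : f ∈ (Submodule.span ℂ
      (Set.range fun p : ℤ × ℤ => injMono p.1 p.2)).topologicalClosure := by
    rw [injMono_span_closure_eq_top]
    trivial
  refine closure_minimal (s := (Submodule.span ℂ
      (Set.range fun p : ℤ × ℤ => injMono p.1 p.2) : Set C(InjT × InjT, ℂ))) ?_ hcl hf
  intro g hg
  induction hg using Submodule.span_induction with
  | mem x hx =>
    obtain ⟨p, rfl⟩ := hx
    exact hmono _ _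
  | zero => exact h0
  | add x y _ _ hx hy => exact hadd _ _ hx hy
  | smul a x _ hx => exact hsmul _ _ hx

theorem injMono_succ_left (c n : ℤ) : injMono (c + 1) n = injE1 * injMono c n := by
  rw [injE1_eq_mono, injMono_mul, add_comm, zero_add]

theorem injMono_pred_left (c n : ℤ) : injMono (c - 1) n = star injE1 * injMono c n := by
  rw [injE1_eq_mono, injMono_star, injMono_mul, neg_zero, zero_add, sub_eq_neg_add]

theorem injMono_succ_right (c n : ℤ) : injMono c (n + 1) = injE2 * injMono c n := by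
  rw [injE2_eq_mono, injMono_mul, zero_add, add_comm]

theorem injMono_pred_right (c n : ℤ) : injMono c (n - 1) = star injE2 * injMono c n := by
  rw [injE2_eq_mono, injMono_star, injMono_mul, neg_zero, zero_add, sub_eq_neg_add]

/-- induction on the two exponents of a monomial -/
theorem injMono_induction {P : C(InjT × InjT, ℂ) → Prop} (h1 : P 1)
    (hE1 : ∀ f, P f → P (injE1 * f)) (hE1' : ∀ f, P f → P (star injE1 * f))
    (hE2 : ∀ f, P f → P (injE2 * f)) (hE2' : ∀ f, P f → P (star injE2 * f)) (c n : ℤ) :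
    P (injMono c n) := by
  have hn : ∀ n : ℤ, P (injMono 0 n) := by
    intro n
    induction n using Int.induction_on with
    | zero => rw [injMono_zero]; exact h1
    | succ i ih => rw [injMono_succ_right]; exact hE2 _ ih
    | pred i ih => rw [injMono_pred_right]; exact hE2' _ ih
  induction c using Int.induction_on with
  | zero => exact hn n
  | succ i ih => rw [injMono_succ_left]; exact hE1 _ ih
  | pred i ih => rw [injMono_pred_left]; exact hE1' _ ih

/-- a closed star subalgebra which contains the two coordinate functions is everything -/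
theorem injc_mem_of_closed (B : StarSubalgebra ℂ C(InjT × InjT, ℂ))
    (hB : IsClosed (B : Set C(InjT × InjT, ℂ))) (h1 : injE1 ∈ B) (h2 : injE2 ∈ B)
    (f : C(InjT × InjT, ℂ)) : f ∈ B :=
  injc_induction (P := fun f => f ∈ B) hB B.zero_mem (fun _ _ => B.add_mem)
    (fun a _ hf => B.smul_mem hf a)
    (injMono_induction (P := fun f => f ∈ B) B.one_mem (fun _ hf => B.mul_mem h1 hf)
      (fun _ hf => B.mul_mem (star_mem (s := B) h1) hf) (fun _ hf => B.mul_mem h2 hf)
      (fun _ hf => B.mul_mem (star_mem (s := B) h2) hf)) f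

theorem inj_calc_norm_le {A : Type*} [CStarAlgebra A] (Φ : C(InjT × InjT, ℂ) →⋆ₐ[ℂ] A)
    (f : C(InjT × InjT, ℂ)) : ‖Φ f‖ ≤ ‖f‖ :=
  NonUnitalStarAlgHom.norm_apply_le Φ f

theorem injc_continuous {A : Type*} [CStarAlgebra A] (Φ : C(InjT × InjT, ℂ) →⋆ₐ[ℂ] A) :
    Continuous Φ :=
  AddMonoidHomClass.continuous_of_bound Φ 1 (fun f => by
    rw [one_mul]; exact inj_calc_norm_le Φ f)

theorem inj_calc_ext {A : Type*} [CStarAlgebra A] (Φ Ψ : C(InjT × InjT, ℂ) →⋆ₐ[ℂ] A)
    (h1 : Φ injE1 = Ψ injE1) (h2 : Φ injE2 = Ψ injE2) : Φ = Ψ := by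
  ext1 f
  exact injc_mem_of_closed (StarAlgHom.equalizer Φ Ψ)
    (isClosed_eq (injc_continuous Φ) (injc_continuous Ψ)) h1 h2 f

theorem inj_calc_mem {A : Type*} [CStarAlgebra A] (Φ : C(InjT × InjT, ℂ) →⋆ₐ[ℂ] A)
    (S : StarSubalgebra ℂ A) (hS : IsClosed (S : Set A)) (h1 : Φ injE1 ∈ S) (h2 : Φ injE2 ∈ S)
    (f : C(InjT × InjT, ℂ)) : Φ f ∈ S :=
  injc_mem_of_closed (S.comap Φ) (hS.preimage (injc_continuous Φ)) h1 h2 f

/-! ### existence: Gelfand duality -/

theorem injc_commute_star {A : Type*} [Monoid A] [StarMul A] {Z X : A} (hX : X ∈ unitary A)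
    (hc : Commute Z X) : Z * star X = star X * Z := by
  have h1 : star X * X = 1 := (Unitary.mem_iff.1 hX).1
  have h2 : X * star X = 1 := (Unitary.mem_iff.1 hX).2
  calc Z * star X = (star X * X) * Z * star X := by rw [h1, one_mul]
    _ = star X * (X * Z) * star X := by simp only [mul_assoc]
    _ = star X * (Z * X) * star X := by rw [hc.eq]
    _ = star X * Z * (X * star X) := by simp only [mul_assoc]
    _ = star X * Z := by rw [h2, mul_one]

/-- the point of the circle `ℝ/ℤ` attached to a complex number of modulus one -/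
noncomputable def injArg (w : Circle) : InjT := (AddCircle.homeomorphCircle one_ne_zero).symm w

theorem injArg_continuous : Continuous injArg :=
  (AddCircle.homeomorphCircle (T := (1 : ℝ)) one_ne_zero).symm.continuous

theorem fourier_one_injArg (w : Circle) : fourier 1 (injArg w) = (w : ℂ) := by
  rw [fourier_one, ← AddCircle.homeomorphCircle_apply one_ne_zero, injArg,
    Homeomorph.apply_symm_apply]

theorem inj_calc_exists_comm {S : Type*} [CommCStarAlgebra S] (Z X : S) (hZ : Z ∈ unitary S)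
    (hX : X ∈ unitary S) :
    ∃ Φ : C(InjT × InjT, ℂ) →⋆ₐ[ℂ] S, Φ injE1 = Z ∧ Φ injE2 = X := by
  have hnorm : ∀ (W : S), W ∈ unitary S → ∀ χ : WeakDual.characterSpace ℂ S,
      χ W ∈ Submonoid.unitSphere ℂ := by
    intro W hW χ
    have h1 : star (χ W) * χ W = 1 := by
      rw [← map_star χ, ← map_mul χ, (Unitary.mem_iff.1 hW).1, map_one χ]
    show χ W ∈ Metric.sphere (0 : ℂ) 1
    rw [mem_sphere_zero_iff_norm]
    have h2 : ‖χ W‖ * ‖χ W‖ = 1 := by
      have := congrArg norm h1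
      rwa [norm_mul, norm_star, norm_one] at this
    nlinarith [norm_nonneg (χ W)]
  let cz : WeakDual.characterSpace ℂ S → Circle := fun χ => ⟨χ Z, hnorm Z hZ χ⟩
  let cx : WeakDual.characterSpace ℂ S → Circle := fun χ => ⟨χ X, hnorm X hX χ⟩
  have hcz : Continuous cz :=
    Continuous.subtype_mk (WeakDual.gelfandTransform ℂ S Z).continuous _
  have hcx : Continuous cx :=
    Continuous.subtype_mk (WeakDual.gelfandTransform ℂ S X).continuous _
  let j : C(WeakDual.characterSpace ℂ S, InjT × InjT) :=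
    ⟨fun χ => (injArg (cz χ), injArg (cx χ)),
      (injArg_continuous.comp hcz).prodMk (injArg_continuous.comp hcx)⟩
  let G := gelfandStarTransform S
  refine ⟨(G.symm : C(WeakDual.characterSpace ℂ S, ℂ) →⋆ₐ[ℂ] S).comp
    (ContinuousMap.compStarAlgHom' ℂ ℂ j), ?_, ?_⟩
  · show G.symm (injE1.comp j) = Z
    rw [StarAlgEquiv.symm_apply_eq]
    ext χ
    show fourier 1 (injArg (cz χ)) = χ Z
    rw [fourier_one_injArg]
  · show G.symm (injE2.comp j) = X
    rw [StarAlgEquiv.symm_apply_eq]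
    ext χ
    show fourier 1 (injArg (cx χ)) = χ X
    rw [fourier_one_injArg]

theorem inj_calc_exists {A : Type*} [CStarAlgebra A] (Z X : A) (hZ : Z ∈ unitary A)
    (hX : X ∈ unitary A) (hc : Commute Z X) :
    ∃ Φ : C(InjT × InjT, ℂ) →⋆ₐ[ℂ] A, Φ injE1 = Z ∧ Φ injE2 = X := by
  let S0 : StarSubalgebra ℂ A := StarAlgebra.adjoin ℂ {Z, X}
  have hcomm0 : IsMulCommutative S0 := by
    apply StarAlgebra.isMulCommutative_adjoin ℂ
    · rintro a (rfl | rfl) b (rfl | rfl)
      · rfl
      · exact hc.eq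
      · exact hc.eq.symm
      · rfl
    · rintro a (rfl | rfl) b (rfl | rfl)
      · exact injc_commute_star hZ (Commute.refl _)
      · exact injc_commute_star hX hc
      · exact injc_commute_star hZ hc.symm
      · exact injc_commute_star hX (Commute.refl _)
  let S : StarSubalgebra ℂ A := S0.topologicalClosure
  have hclosed : IsClosed (S : Set A) := S0.isClosed_topologicalClosure
  let cr : CommRing S := S0.commRingTopologicalClosure (fun x y => hcomm0.is_comm.comm x y)
  let _ : CommCStarAlgebra S :=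
    { StarSubalgebra.cstarAlgebra S with mul_comm := cr.mul_comm }
  have hZS : Z ∈ S := S0.le_topologicalClosure (StarAlgebra.subset_adjoin ℂ _ (by simp))
  have hXS : X ∈ S := S0.le_topologicalClosure (StarAlgebra.subset_adjoin ℂ _ (by simp))
  obtain ⟨Φ, h1, h2⟩ := inj_calc_exists_comm (S := S) ⟨Z, hZS⟩ ⟨X, hXS⟩
    (by
      rw [Unitary.mem_iff]
      exact ⟨Subtype.ext (Unitary.mem_iff.1 hZ).1, Subtype.ext (Unitary.mem_iff.1 hZ).2⟩)
    (by
      rw [Unitary.mem_iff]
      exact ⟨Subtype.ext (Unitary.mem_iff.1 hX).1, Subtype.ext (Unitary.mem_iff.1 hX).2⟩)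
  refine ⟨S.subtype.comp Φ, ?_, ?_⟩
  · show ((Φ injE1 : S) : A) = Z
    rw [h1]
  · show ((Φ injE2 : S) : A) = X
    rw [h2]

/-! ### powers in the Heisenberg group -/

theorem injc_x_zpow (n : ℤ) : InjHeis.x ^ n = ⟨n, 0, 0⟩ := by
  induction n using Int.induction_on with
  | zero => rfl
  | succ i ih => rw [zpow_add_one, ih]; ext <;> simp [InjHeis.x]
  | pred i ih => rw [zpow_sub_one, ih]; ext <;> simp [InjHeis.x]; ring

theorem injc_y_zpow (n : ℤ) : InjHeis.y ^ n = ⟨0, n, 0⟩ := by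
  induction n using Int.induction_on with
  | zero => rfl
  | succ i ih => rw [zpow_add_one, ih]; ext <;> simp [InjHeis.y]
  | pred i ih => rw [zpow_sub_one, ih]; ext <;> simp [InjHeis.y]; ring

theorem injc_z_zpow (n : ℤ) : InjHeis.z ^ n = ⟨0, 0, n⟩ := by
  induction n using Int.induction_on with
  | zero => rfl
  | succ i ih => rw [zpow_add_one, ih]; ext <;> simp [InjHeis.z]
  | pred i ih => rw [zpow_sub_one, ih]; ext <;> simp [InjHeis.z]; ring

theorem injc_zx (c n : ℤ) : InjHeis.z ^ c * InjHeis.x ^ n = ⟨n, 0, c⟩ := by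
  rw [injc_z_zpow, injc_x_zpow]; ext <;> simp

theorem injc_zx_inv (c n : ℤ) :
    (InjHeis.z ^ c * InjHeis.x ^ n)⁻¹ = InjHeis.z ^ (-c) * InjHeis.x ^ (-n) := by
  rw [injc_zx, injc_zx]; ext <;> simp

theorem injc_conj_z (n : ℤ) : InjHeis.y ^ n * InjHeis.z * (InjHeis.y ^ n)⁻¹ = InjHeis.z := by
  rw [injc_y_zpow]; ext <;> simp [InjHeis.z]

theorem injc_conj_x (n : ℤ) :
    InjHeis.y ^ n * InjHeis.x * (InjHeis.y ^ n)⁻¹ = InjHeis.z ^ (-n) * InjHeis.x ^ (1 : ℤ) := by
  rw [injc_zx, injc_y_zpow]; ext <;> simp [InjHeis.x]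

section rep

variable {H : Type*} [NormedAddCommGroup H] [InnerProductSpace ℂ H] [CompleteSpace H]

theorem InjRep.mem_unitary (π : InjRep H) (g : InjHeis) : π.π g ∈ unitary (H →L[ℂ] H) := by
  rw [Unitary.mem_iff, π.star_π, ← map_mul, ← map_mul, inv_mul_cancel, mul_inv_cancel, map_one]
  exact ⟨rfl, rfl⟩

/-- existence of the calculus for a representation -/
theorem inj_calc_rep (π : InjRep H) :
    ∃ Φ : C(InjT × InjT, ℂ) →⋆ₐ[ℂ] (H →L[ℂ] H), Φ injE1 = π.π InjHeis.z ∧ Φ injE2 = π.π InjHeis.x :=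
  inj_calc_exists _ _ (π.mem_unitary _) (π.mem_unitary _) (by
    show π.π InjHeis.z * π.π InjHeis.x = π.π InjHeis.x * π.π InjHeis.z
    rw [← map_mul, ← map_mul]
    congr 1)

/-- the calculus on monomials -/
theorem injc_mono (π : InjRep H) (Φ : C(InjT × InjT, ℂ) →⋆ₐ[ℂ] (H →L[ℂ] H))
    (h1 : Φ injE1 = π.π InjHeis.z) (h2 : Φ injE2 = π.π InjHeis.x) (c n : ℤ) :
    Φ (injMono c n) = π.π (InjHeis.z ^ c * InjHeis.x ^ n) := by
  have hn : ∀ n : ℤ, Φ (injMono 0 n) = π.π (InjHeis.z ^ (0 : ℤ) * InjHeis.x ^ n) := by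
    intro n
    simp only [zpow_zero, one_mul]
    induction n using Int.induction_on with
    | zero => rw [injMono_zero, map_one, zpow_zero, map_one]
    | succ i ih =>
      rw [injMono_succ_right, map_mul, ih, h2, ← map_mul, add_comm, zpow_one_add]
    | pred i ih =>
      rw [injMono_pred_right, map_mul, map_star, ih, h2, π.star_π, ← map_mul, sub_eq_neg_add,
        zpow_add, zpow_neg_one]
  induction c using Int.induction_on with
  | zero => exact hn n
  | succ i ih =>
    rw [injMono_succ_left, map_mul, ih, h1, ← map_mul, ← mul_assoc, add_comm, zpow_one_add]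
  | pred i ih =>
    rw [injMono_pred_left, map_mul, map_star, ih, h1, π.star_π, ← map_mul, ← mul_assoc,
      sub_eq_neg_add, zpow_add, zpow_neg_one]

theorem injE1_comp_shear (n : ℤ) : injE1.comp (injShear n) = injE1 := rfl

theorem injE2_comp_shear (n : ℤ) : injE2.comp (injShear n) = injMono (-n) 1 := by
  ext p
  rw [injMono_apply]
  show fourier 1 (p.2 - n • p.1) = _
  rw [fourier_one, fourier_one, fourier_apply, sub_eq_add_neg, AddCircle.toCircle_add, neg_zsmul,
    Circle.coe_mul, mul_comm]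

/-- covariance: conjugation by `y^n` is the shear `(θ,ξ) ↦ (θ, ξ - nθ)` -/
theorem inj_calc_shear (π : InjRep H) (Φ : C(InjT × InjT, ℂ) →⋆ₐ[ℂ] (H →L[ℂ] H))
    (h1 : Φ injE1 = π.π InjHeis.z) (h2 : Φ injE2 = π.π InjHeis.x) (n : ℤ)
    (f : C(InjT × InjT, ℂ)) :
    π.π (InjHeis.y ^ n) * Φ f * π.π (InjHeis.y ^ (-n)) = Φ (f.comp (injShear n)) := by
  let U : unitary (H →L[ℂ] H) := ⟨π.π (InjHeis.y ^ n), π.mem_unitary _⟩
  let Ψ1 : C(InjT × InjT, ℂ) →⋆ₐ[ℂ] (H →L[ℂ] H) :=
    ((Unitary.conjStarAlgAut ℂ (H →L[ℂ] H) U : (H →L[ℂ] H) ≃⋆ₐ[ℂ] (H →L[ℂ] H)) :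
      (H →L[ℂ] H) →⋆ₐ[ℂ] (H →L[ℂ] H)).comp Φ
  let Ψ2 : C(InjT × InjT, ℂ) →⋆ₐ[ℂ] (H →L[ℂ] H) :=
    Φ.comp (ContinuousMap.compStarAlgHom' ℂ ℂ (injShear n))
  have hΨ1 : ∀ f, Ψ1 f = π.π (InjHeis.y ^ n) * Φ f * π.π (InjHeis.y ^ n)⁻¹ := by
    intro f
    show π.π (InjHeis.y ^ n) * Φ f * star (π.π (InjHeis.y ^ n)) = _
    rw [π.star_π]
  have hΨ2 : ∀ f, Ψ2 f = Φ (f.comp (injShear n)) := fun f => rfl
  have key : Ψ1 = Ψ2 := by
    apply inj_calc_ext
    · rw [hΨ1, hΨ2, injE1_comp_shear, h1, ← map_mul, ← map_mul, injc_conj_z]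
    · rw [hΨ1, hΨ2, injE2_comp_shear, injc_mono π Φ h1 h2, h2, ← map_mul, ← map_mul, injc_conj_x]
  rw [← hΨ2, ← key, hΨ1, zpow_neg]

end rep

/-! ### the Haar integral on the torus -/

theorem injc_integrable (f : C(InjT × InjT, ℂ)) :
    Integrable (fun z : InjT × InjT => f z) (volume : Measure (InjT × InjT)) :=
  f.continuous.integrable_of_hasCompactSupport (HasCompactSupport.of_compactSpace _)

theorem injc_integral_prod (f : C(InjT × InjT, ℂ)) :
    ∫ z : InjT × InjT, f z = ∫ θ : InjT, ∫ ξ : InjT, f (θ, ξ) :=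
  integral_prod _ (injc_integrable f)

instance injc_isProbabilityMeasure : IsProbabilityMeasure (volume : Measure InjT) :=
  ⟨by rw [AddCircle.measure_univ]; simp⟩

/-- the Haar integral as a continuous linear functional -/
noncomputable def injInt : C(InjT × InjT, ℂ) →L[ℂ] ℂ :=
  LinearMap.mkContinuous
    { toFun := fun f => ∫ z : InjT × InjT, f z
      map_add' := fun f g => integral_add (injc_integrable f) (injc_integrable g)
      map_smul' := fun a f => integral_smul a _ } 1 (by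
    intro f
    rw [one_mul]
    have h := norm_integral_le_of_norm_le_const (μ := (volume : Measure (InjT × InjT)))
      (f := fun z => f z) (C := ‖f‖) (Filter.Eventually.of_forall fun z => f.norm_coe_le_norm z)
    simpa using h)

theorem injInt_apply (f : C(InjT × InjT, ℂ)) :
    injInt f = ∫ θ : InjT, ∫ ξ : InjT, f (θ, ξ) := injc_integral_prod f

theorem injc_integral_fourier (n : ℤ) :
    ∫ θ : InjT, fourier n θ = if n = 0 then 1 else 0 := by
  split_ifs with h
  · subst h
    simp only [fourier_zero]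
    simp
  · exact integral_eq_zero_of_add_right_eq_neg (μ := (volume : Measure InjT))
      (fourier_add_half_inv_index h one_pos)

theorem injInt_mono (c n : ℤ) : injInt (injMono c n) = if c = 0 ∧ n = 0 then 1 else 0 := by
  rw [injInt_apply]
  simp only [injMono_apply]
  simp_rw [integral_const_mul, integral_mul_const, injc_integral_fourier]
  by_cases hc : c = 0 <;> by_cases hn : n = 0 <;> simp [hc, hn]

section regular

variable {Γ : Type} [Group Γ]

omit [Group Γ] in
/-- the matrix coefficient `f ↦ (Φ f δ_g)(g')` is continuous -/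
theorem injc_coef_continuous (Φ : C(InjT × InjT, ℂ) →⋆ₐ[ℂ] (ScL2 Γ →L[ℂ] ScL2 Γ)) (g g' : Γ) :
    Continuous fun f => Φ f (scDelta g) g' := by
  have h : (fun f => Φ f (scDelta g) g') = fun f => ⟪scDelta g', Φ f (scDelta g)⟫_ℂ := by
    funext f
    rw [sc_inner_delta_left]
  rw [h]
  exact continuous_const.inner
    ((ContinuousLinearMap.apply ℂ (ScL2 Γ) (scDelta g)).continuous.comp (injc_continuous Φ))

theorem injc_mono_delta (φ : InjHeis →* Γ)
    (Φ : C(InjT × InjT, ℂ) →⋆ₐ[ℂ] (ScL2 Γ →L[ℂ] ScL2 Γ))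
    (h1 : Φ injE1 = scRho (φ InjHeis.z)) (h2 : Φ injE2 = scRho (φ InjHeis.x)) (c n : ℤ) (g : Γ) :
    Φ (injMono c n) (scDelta g) = scDelta (g * φ (InjHeis.z ^ (-c) * InjHeis.x ^ (-n))) := by
  have h := injc_mono (injRhoRep φ) Φ h1 h2 c n
  rw [h]
  show scRho (φ (InjHeis.z ^ c * InjHeis.x ^ n)) (scDelta g) = _
  rw [scRho_delta, ← map_inv, injc_zx_inv]

/-- diagonal coefficients in the regular representation are the Haar integral -/
theorem inj_calc_diag (φ : InjHeis →* Γ) (hφ : Function.Injective φ)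
    (Φ : C(InjT × InjT, ℂ) →⋆ₐ[ℂ] (ScL2 Γ →L[ℂ] ScL2 Γ))
    (h1 : Φ injE1 = scRho (φ InjHeis.z)) (h2 : Φ injE2 = scRho (φ InjHeis.x))
    (f : C(InjT × InjT, ℂ)) (g : Γ) :
    Φ f (scDelta g) g = ∫ θ : InjT, ∫ ξ : InjT, f (θ, ξ) := by
  classical
  rw [← injInt_apply]
  refine injc_induction (P := fun f => Φ f (scDelta g) g = injInt f)
    (isClosed_eq (injc_coef_continuous Φ g g) injInt.continuous) ?_ ?_ ?_ ?_ f
  · simp
  · intro f f' hf hf'
    rw [map_add, map_add, ← hf, ← hf']
    rfl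
  · intro a f hf
    rw [map_smul, map_smul, ← hf]
    rfl
  · intro c n
    rw [injc_mono_delta φ Φ h1 h2, injInt_mono, scDelta_apply]
    have hiff : g = g * φ (InjHeis.z ^ (-c) * InjHeis.x ^ (-n)) ↔ c = 0 ∧ n = 0 := by
      rw [left_eq_mul, ← map_one φ, hφ.eq_iff, injc_zx]
      constructor
      · intro h
        have ha := congrArg InjHeis.a h
        have hc := congrArg InjHeis.c h
        simp only [InjHeis.one_a, InjHeis.one_c] at ha hc
        omega
      · rintro ⟨rfl, rfl⟩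
        rfl
    simp only [hiff]

/-- `Φ f δ_g` lives on the coset `g φ(⟨z,x⟩)` -/
theorem inj_calc_supp (φ : InjHeis →* Γ)
    (Φ : C(InjT × InjT, ℂ) →⋆ₐ[ℂ] (ScL2 Γ →L[ℂ] ScL2 Γ))
    (h1 : Φ injE1 = scRho (φ InjHeis.z)) (h2 : Φ injE2 = scRho (φ InjHeis.x))
    (f : C(InjT × InjT, ℂ)) (g g' : Γ) (hg : ∀ c n : ℤ, g' ≠ g * φ (InjHeis.z ^ c * InjHeis.x ^ n)) :
    Φ f (scDelta g) g' = 0 := by
  refine injc_induction (P := fun f => Φ f (scDelta g) g' = 0)
    (isClosed_eq (injc_coef_continuous Φ g g') continuous_const) ?_ ?_ ?_ ?_ f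
  · simp
  · intro f f' hf hf'
    rw [map_add]
    show Φ f (scDelta g) g' + Φ f' (scDelta g) g' = 0
    rw [hf, hf', add_zero]
  · intro a f hf
    rw [map_smul]
    show a • Φ f (scDelta g) g' = 0
    rw [hf, smul_zero]
  · intro c n
    rw [injc_mono_delta φ Φ h1 h2]
    exact scDelta_ne (hg _ _)

/-- `‖Φ f δ_g‖² = ∫ |f|²` -/
theorem inj_calc_norm_delta (φ : InjHeis →* Γ) (hφ : Function.Injective φ)
    (Φ : C(InjT × InjT, ℂ) →⋆ₐ[ℂ] (ScL2 Γ →L[ℂ] ScL2 Γ))
    (h1 : Φ injE1 = scRho (φ InjHeis.z)) (h2 : Φ injE2 = scRho (φ InjHeis.x))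
    (f : C(InjT × InjT, ℂ)) (g : Γ) :
    ‖Φ f (scDelta g)‖ ^ 2 = ∫ θ : InjT, ∫ ξ : InjT, ‖f (θ, ξ)‖ ^ 2 := by
  have e1 : ((‖Φ f (scDelta g)‖ ^ 2 : ℝ) : ℂ) = Φ (star f * f) (scDelta g) g := by
    rw [map_mul, map_star, ← sc_inner_delta_left g, mul_apply_eq_comp,
      ContinuousLinearMap.star_eq_adjoint, ContinuousLinearMap.adjoint_inner_right,
      inner_self_eq_norm_sq_to_K]
    norm_cast
  have e2 : Φ (star f * f) (scDelta g) g
      = ((∫ θ : InjT, ∫ ξ : InjT, ‖f (θ, ξ)‖ ^ 2 : ℝ) : ℂ) := by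
    rw [inj_calc_diag φ hφ Φ h1 h2, ← integral_complex_ofReal]
    refine integral_congr_ae (Filter.Eventually.of_forall fun θ => ?_)
    show ∫ ξ : InjT, (star f * f) (θ, ξ) = ((∫ ξ : InjT, ‖f (θ, ξ)‖ ^ 2 : ℝ) : ℂ)
    rw [← integral_complex_ofReal]
    refine integral_congr_ae (Filter.Eventually.of_forall fun ξ => ?_)
    show star (f (θ, ξ)) * f (θ, ξ) = ((‖f (θ, ξ)‖ ^ 2 : ℝ) : ℂ)
    rw [Complex.star_def, Complex.conj_mul']
    norm_cast
  exact Complex.ofReal_injective (e1.trans e2)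

end regular

end Claimed.Agent.R300
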