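import Claimed.Agent.R300.ScAlg

/-!
# Row 300: push-forward along injections and the matrix algebra `M_N(C*_r(Γ))` on `ℓ²(Γ × Fin N)`
-/

set_option autoImplicit false
set_option linter.unusedSectionVars false

namespace Claimed.Agent.R300

open scoped ENNReal ComplexConjugate InnerProductSpace

section Push

variable {X Z : Type}

theorem scL2_sum_apply {ι : Type*} (s : Finset ι) (f : ι → ScL2 X) (x : X) :
    (∑ i ∈ s, f i) x = ∑ i ∈ s, f i x := by
  rw [← sc_inner_delta_left, inner_sum]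
  exact Finset.sum_congr rfl fun i _ => sc_inner_delta_left x (f i)

/-- Extension by zero along an injective map (the adjoint of the pull-back). -/
noncomputable def scPush (f : X → Z) (hf : Function.Injective f) : ScL2 X →L[ℂ] ScL2 Z :=
  ContinuousLinearMap.adjoint (scPull f hf)

theorem scPush_apply (f : X → Z) (hf : Function.Injective f) (η : ScL2 X) (x : X) :
    scPush f hf η (f x) = η x := by
  rw [← sc_inner_delta_left, scPush, ContinuousLinearMap.adjoint_inner_right, scPull_delta,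
    sc_inner_delta_left]

theorem scPush_apply_of_not_mem (f : X → Z) (hf : Function.Injective f) (η : ScL2 X) (z : Z)
    (hz : ∀ x, f x ≠ z) : scPush f hf η z = 0 := by
  rw [← sc_inner_delta_left, scPush, ContinuousLinearMap.adjoint_inner_right,
    scPull_delta_of_not_mem f hf z hz, inner_zero_left]

theorem scPull_push (f : X → Z) (hf : Function.Injective f) (η : ScL2 X) :
    scPull f hf (scPush f hf η) = η := by
  ext x
  rw [scPull_apply, scPush_apply]

theorem scPush_delta (f : X → Z) (hf : Function.Injective f) (x : X) :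
    scPush f hf (scDelta x) = scDelta (f x) := by
  classical
  ext z
  by_cases hz : ∃ y, f y = z
  · obtain ⟨y, rfl⟩ := hz
    rw [scPush_apply, scDelta_apply, scDelta_apply]
    simp [hf.eq_iff]
  · rw [scPush_apply_of_not_mem f hf _ z (fun y hy => hz ⟨y, hy⟩), scDelta_ne]
    exact fun h => hz ⟨x, h.symm⟩

theorem scPush_adjoint (f : X → Z) (hf : Function.Injective f) :
    ContinuousLinearMap.adjoint (scPush f hf) = scPull f hf := by
  rw [scPush, ContinuousLinearMap.adjoint_adjoint]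

theorem scPush_norm (f : X → Z) (hf : Function.Injective f) (η : ScL2 X) :
    ‖scPush f hf η‖ = ‖η‖ := by
  have h : ⟪scPush f hf η, scPush f hf η⟫_ℂ = ⟪η, η⟫_ℂ := by
    conv_lhs => rw [scPush, ContinuousLinearMap.adjoint_inner_left]
    rw [← scPush, scPull_push]
  have h2 : ‖scPush f hf η‖ ^ 2 = ‖η‖ ^ 2 := by
    have := congrArg Complex.re h
    rw [inner_self_eq_norm_sq_to_K, inner_self_eq_norm_sq_to_K] at this
    exact_mod_cast this
  exact (sq_eq_sq₀ (norm_nonneg _) (norm_nonneg _)).1 h2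

end Push

section Mat

variable {Γ : Type} [Group Γ] {N : ℕ}

theorem scPair_inj (j : Fin N) : Function.Injective fun x : Γ => (x, j) :=
  fun _ _ h => (Prod.mk.inj h).1

/-- The `j`-th coordinate `ℓ²(Γ × Fin N) → ℓ²(Γ)`. -/
noncomputable def scEnt (j : Fin N) : ScL2 (Γ × Fin N) →L[ℂ] ScL2 Γ :=
  scPull (fun x => (x, j)) (scPair_inj j)

/-- The `j`-th column embedding `ℓ²(Γ) → ℓ²(Γ × Fin N)`. -/
noncomputable def scCol (j : Fin N) : ScL2 Γ →L[ℂ] ScL2 (Γ × Fin N) :=
  scPush (fun x => (x, j)) (scPair_inj j)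

@[simp] theorem scEnt_apply (j : Fin N) (ξ : ScL2 (Γ × Fin N)) (x : Γ) :
    scEnt j ξ x = ξ (x, j) := rfl

theorem scCol_apply_same (j : Fin N) (η : ScL2 Γ) (x : Γ) : scCol j η (x, j) = η x :=
  scPush_apply (fun x => (x, j)) (scPair_inj j) η x

theorem scCol_apply_ne {i j : Fin N} (h : i ≠ j) (η : ScL2 Γ) (x : Γ) : scCol j η (x, i) = 0 :=
  scPush_apply_of_not_mem (fun x => (x, j)) (scPair_inj j) η (x, i)
    (fun _ hy => h (Prod.mk.inj hy).2.symm)

theorem scCol_delta (j : Fin N) (x : Γ) : scCol j (scDelta x) = scDelta (x, j) :=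
  scPush_delta (fun x => (x, j)) (scPair_inj j) x

theorem scCol_adjoint (j : Fin N) :
    ContinuousLinearMap.adjoint (scCol (Γ := Γ) j) = scEnt j := scPush_adjoint _ _

theorem scEnt_adjoint (j : Fin N) :
    ContinuousLinearMap.adjoint (scEnt (Γ := Γ) j) = scCol j := rfl

theorem scEnt_col_same (j : Fin N) (η : ScL2 Γ) : scEnt j (scCol j η) = η :=
  scPull_push _ _ η

theorem scEnt_col_ne {i j : Fin N} (h : i ≠ j) (η : ScL2 Γ) : scEnt i (scCol j η) = 0 := by
  ext x
  rw [scEnt_apply, scCol_apply_ne h]; rfl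

theorem scCol_ent_sum (ξ : ScL2 (Γ × Fin N)) : ∑ k, scCol k (scEnt k ξ) = ξ := by
  ext ⟨x, i⟩
  have h : (∑ k, scCol k (scEnt k ξ)) (x, i) = ∑ k, (scCol k (scEnt k ξ)) (x, i) :=
    scL2_sum_apply _ _ _
  rw [h, Finset.sum_eq_single i]
  · rw [scCol_apply_same, scEnt_apply]
  · intro k _ hk
    exact scCol_apply_ne hk.symm _ _
  · intro h; exact absurd (Finset.mem_univ _) h

/-- The matrix unit `λ(g) ⊗ E_{jk}`. -/
noncomputable def scElem (g : Γ) (j k : Fin N) : ScL2 (Γ × Fin N) →L[ℂ] ScL2 (Γ × Fin N) :=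
  scCol j ∘L scLam g ∘L scEnt k

theorem scElem_apply_same (g : Γ) (j k : Fin N) (ξ : ScL2 (Γ × Fin N)) (x : Γ) :
    scElem g j k ξ (x, j) = ξ (g⁻¹ * x, k) := by
  change scCol j (scLam g (scEnt k ξ)) (x, j) = _
  rw [scCol_apply_same]; rfl

theorem scElem_apply_ne (g : Γ) {i j : Fin N} (h : i ≠ j) (k : Fin N) (ξ : ScL2 (Γ × Fin N))
    (x : Γ) : scElem g j k ξ (x, i) = 0 :=
  scCol_apply_ne h _ _

/-- `M_N(C*_r(Γ))` as a set of operators on `ℓ²(Γ × Fin N)`. -/
def scMatRed (Γ : Type) [Group Γ] (N : ℕ) : Set (ScL2 (Γ × Fin N) →L[ℂ] ScL2 (Γ × Fin N)) :=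
  closure (Submodule.span ℂ {T | ∃ (g : Γ) (j k : Fin N), T = scElem g j k} :
    Set (ScL2 (Γ × Fin N) →L[ℂ] ScL2 (Γ × Fin N)))

/-- The `(j,k)` entry of an operator on `ℓ²(Γ × Fin N)`. -/
noncomputable def scEntry (T : ScL2 (Γ × Fin N) →L[ℂ] ScL2 (Γ × Fin N)) (j k : Fin N) :
    ScL2 Γ →L[ℂ] ScL2 Γ :=
  scEnt j ∘L T ∘L scCol k

theorem scEntry_apply (T : ScL2 (Γ × Fin N) →L[ℂ] ScL2 (Γ × Fin N)) (j k : Fin N) (η : ScL2 Γ) :
    scEntry T j k η = scEnt j (T (scCol k η)) := rfl

theorem scEntry_star (T : ScL2 (Γ × Fin N) →L[ℂ] ScL2 (Γ × Fin N)) (j k : Fin N) :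
    star (scEntry T j k) = scEntry (star T) k j := by
  rw [ContinuousLinearMap.star_eq_adjoint, scEntry, ContinuousLinearMap.adjoint_comp,
    ContinuousLinearMap.adjoint_comp, scCol_adjoint, scEnt_adjoint,
    ← ContinuousLinearMap.star_eq_adjoint]
  rfl

theorem scEntry_mul (S T : ScL2 (Γ × Fin N) →L[ℂ] ScL2 (Γ × Fin N)) (j k : Fin N) :
    ∑ l, scEntry S j l * scEntry T l k = scEntry (S * T) j k := by
  ext1 η
  have h : (∑ l, scEntry S j l * scEntry T l k) η =
      ∑ l, scEnt j (S (scCol l (scEnt l (T (scCol k η))))) := by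
    simp [scEntry_apply]
  rw [h, ← map_sum, ← map_sum, scCol_ent_sum]
  rfl

theorem scEntry_elem (g : Γ) (j k j' k' : Fin N) :
    scEntry (scElem g j' k') j k = if j = j' ∧ k' = k then scLam g else 0 := by
  ext1 η
  change scEnt j (scCol j' (scLam g (scEnt k' (scCol k η)))) = _
  by_cases h1 : j = j'
  · subst h1
    by_cases h2 : k' = k
    · subst h2
      simp [scEnt_col_same]
    · simp [scEnt_col_ne h2, h2]
  · simp [scEnt_col_ne h1, h1]

theorem scEntry_continuous (j k : Fin N) :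
    Continuous fun T : ScL2 (Γ × Fin N) →L[ℂ] ScL2 (Γ × Fin N) => scEntry T j k := by
  unfold scEntry
  fun_prop

theorem scEntry_mem {T : ScL2 (Γ × Fin N) →L[ℂ] ScL2 (Γ × Fin N)} (hT : T ∈ scMatRed Γ N)
    (j k : Fin N) : scEntry T j k ∈ scRed Γ := by
  have h1 : (Submodule.span ℂ {T | ∃ (g : Γ) (j k : Fin N), T = scElem g j k} :
      Set (ScL2 (Γ × Fin N) →L[ℂ] ScL2 (Γ × Fin N))) ⊆ {T | scEntry T j k ∈ scRed Γ} := by
    intro S hS
    induction hS using Submodule.span_induction with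
    | mem x hx =>
      obtain ⟨g, j', k', rfl⟩ := hx
      change scEntry (scElem g j' k') j k ∈ scRed Γ
      rw [scEntry_elem]
      split_ifs
      · exact scLam_mem g
      · exact zero_mem _
    | zero =>
      change scEntry 0 j k ∈ scRed Γ
      have : scEntry (0 : ScL2 (Γ × Fin N) →L[ℂ] ScL2 (Γ × Fin N)) j k = 0 := by
        ext1 η; simp [scEntry_apply]
      rw [this]; exact zero_mem _
    | add x y _ _ hx hy =>
      change scEntry (x + y) j k ∈ scRed Γ
      have : scEntry (x + y) j k = scEntry x j k + scEntry y j k := by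
        ext1 η; simp [scEntry_apply]
      rw [this]; exact add_mem hx hy
    | smul c x _ hx =>
      change scEntry (c • x) j k ∈ scRed Γ
      have : scEntry (c • x) j k = c • scEntry x j k := by
        ext1 η; simp [scEntry_apply]
      rw [this]; exact (scRed Γ).smul_mem hx c
  exact closure_minimal h1 ((scRed_isClosed Γ).preimage (scEntry_continuous j k)) hT

theorem scTr_entry (T : ScL2 (Γ × Fin N) →L[ℂ] ScL2 (Γ × Fin N)) (j : Fin N) :
    scTr (scEntry T j j) = T (scDelta (1, j)) (1, j) := by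
  rw [scTr, scEntry_apply, scCol_delta, scEnt_apply]

end Mat

end Claimed.Agent.R300
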