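/-
Row 300, shared sampling machine (SMP): operators on `ℓ²` given by their matrices (kernels), Schur test,
block diagonal and band operators.
Sub-captain: helper21.  Proofs: helper193.  No sorry.
-/
import Claimed.Agent.R300.ScAlg

set_option autoImplicit false

namespace Claimed.Agent.R300

open scoped ENNReal ComplexConjugate InnerProductSpace Matrix.Norms.L2Operator

section kernel

variable {X Y Z : Type}

/-- Schur bound `R` for a kernel: absolute row sums and absolute column sums are at most `R`. -/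
def SmpSchur (k : X → Y → ℂ) (R : ℝ) : Prop :=
  (∀ x, Summable (fun y => ‖k x y‖) ∧ ∑' y, ‖k x y‖ ≤ R) ∧
    (∀ y, Summable (fun x => ‖k x y‖) ∧ ∑' x, ‖k x y‖ ≤ R)

/-- `T` has the matrix `k` in the standard bases. -/
def SmpHasKer (T : ScL2 Y →L[ℂ] ScL2 X) (k : X → Y → ℂ) : Prop :=
  ∀ x y, T (scDelta y) x = k x y

/-- The bounded operator with matrix `k` (zero if there is none). -/
noncomputable def smpKer (k : X → Y → ℂ) : ScL2 Y →L[ℂ] ScL2 X :=
  open Classical in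
  if h : ∃ T : ScL2 Y →L[ℂ] ScL2 X, SmpHasKer T k then h.choose else 0

theorem SmpHasKer.unique {S T : ScL2 Y →L[ℂ] ScL2 X} {k : X → Y → ℂ} (hS : SmpHasKer S k)
    (hT : SmpHasKer T k) : S = T := by
  refine scOp_ext fun y => ?_
  ext x
  rw [hS x y, hT x y]

theorem SmpHasKer.eq_smpKer {T : ScL2 Y →L[ℂ] ScL2 X} {k : X → Y → ℂ} (hT : SmpHasKer T k) :
    smpKer k = T := by
  have h : ∃ T : ScL2 Y →L[ℂ] ScL2 X, SmpHasKer T k := ⟨T, hT⟩
  unfold smpKer
  rw [dif_pos h]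
  exact h.choose_spec.unique hT

/-- every operator is the operator of its own matrix. -/
theorem smpKer_self (T : ScL2 Y →L[ℂ] ScL2 X) : smpKer (fun x y => T (scDelta y) x) = T :=
  SmpHasKer.eq_smpKer fun _ _ => rfl

/-- evaluation of an operator through its matrix. -/
theorem SmpHasKer.hasSum {T : ScL2 Y →L[ℂ] ScL2 X} {k : X → Y → ℂ} (hT : SmpHasKer T k)
    (ξ : ScL2 Y) (x : X) : HasSum (fun y => k x y * ξ y) (T ξ x) := by
  have h := lp.hasSum_inner (𝕜 := ℂ) (ContinuousLinearMap.adjoint T (scDelta x)) ξ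
  rw [ContinuousLinearMap.adjoint_inner_left, sc_inner_delta_left] at h
  have e : (fun y => k x y * ξ y)
      = fun i => ⟪(ContinuousLinearMap.adjoint T (scDelta x)) i, ξ i⟫_ℂ := by
    funext y
    rw [sc_adjoint_delta_apply, hT x y]
    simp [mul_comm]
  rw [e]
  exact h

theorem SmpHasKer.add {S T : ScL2 Y →L[ℂ] ScL2 X} {k l : X → Y → ℂ} (hS : SmpHasKer S k)
    (hT : SmpHasKer T l) : SmpHasKer (S + T) (fun x y => k x y + l x y) := by
  intro x y
  simp [hS x y, hT x y]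

theorem SmpHasKer.sub {S T : ScL2 Y →L[ℂ] ScL2 X} {k l : X → Y → ℂ} (hS : SmpHasKer S k)
    (hT : SmpHasKer T l) : SmpHasKer (S - T) (fun x y => k x y - l x y) := by
  intro x y
  simp [hS x y, hT x y]

theorem SmpHasKer.smul {S : ScL2 Y →L[ℂ] ScL2 X} {k : X → Y → ℂ} (hS : SmpHasKer S k) (a : ℂ) :
    SmpHasKer (a • S) (fun x y => a * k x y) := by
  intro x y
  simp [hS x y]

theorem SmpHasKer.sum {ι : Type*} (s : Finset ι) {S : ι → ScL2 Y →L[ℂ] ScL2 X}
    {k : ι → X → Y → ℂ} (hS : ∀ i ∈ s, SmpHasKer (S i) (k i)) :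
    SmpHasKer (∑ i ∈ s, S i) (fun x y => ∑ i ∈ s, k i x y) := by
  classical
  induction s using Finset.induction_on with
  | empty => intro x y; simp
  | insert a s ha ih =>
    intro x y
    have h := (hS a (Finset.mem_insert_self _ _)).add
      (ih fun i hi => hS i (Finset.mem_insert_of_mem hi)) x y
    rw [Finset.sum_insert ha]
    show _ = ∑ i ∈ insert a s, k i x y
    rw [Finset.sum_insert ha]
    exact h

theorem SmpHasKer.adjoint {S : ScL2 Y →L[ℂ] ScL2 X} {k : X → Y → ℂ} (hS : SmpHasKer S k) :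
    SmpHasKer (ContinuousLinearMap.adjoint S) (fun y x => conj (k x y)) := by
  intro y x
  rw [sc_adjoint_delta_apply, hS x y]

/-- matrix of a composition. -/
theorem SmpHasKer.comp {S : ScL2 Y →L[ℂ] ScL2 X} {T : ScL2 Z →L[ℂ] ScL2 Y} {k : X → Y → ℂ}
    {l : Y → Z → ℂ} (hS : SmpHasKer S k) (hT : SmpHasKer T l) :
    SmpHasKer (S ∘L T) (fun x z => ∑' y, k x y * l y z) := by
  intro x z
  have h := (hS.hasSum (T (scDelta z)) x).tsum_eq
  simp only [hT _ z] at h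
  exact h.symm

theorem smp_restr_delta_mem {B : Set Y} {y : Y} (hy : y ∈ B) : scRestr B (scDelta y) = scDelta y := by
  ext a
  by_cases ha : a ∈ B
  · rw [scRestr_apply_mem _ ha]
  · rw [scRestr_apply_not_mem _ ha, scDelta_ne]
    rintro rfl
    exact ha hy

theorem smp_restr_delta_not_mem {B : Set Y} {y : Y} (hy : y ∉ B) : scRestr B (scDelta y) = 0 := by
  ext a
  by_cases ha : a ∈ B
  · rw [scRestr_apply_mem _ ha, scDelta_ne]
    · rfl
    · rintro rfl
      exact hy ha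
  · rw [scRestr_apply_not_mem _ ha]
    rfl

/-- compression to subsets. -/
theorem SmpHasKer.restr {S : ScL2 Y →L[ℂ] ScL2 X} {k : X → Y → ℂ} (hS : SmpHasKer S k)
    (A : Set X) (B : Set Y) :
    SmpHasKer (scRestr A ∘L S ∘L scRestr B)
      (fun x y => open Classical in if x ∈ A ∧ y ∈ B then k x y else 0) := by
  classical
  intro x y
  simp only [ContinuousLinearMap.comp_apply]
  by_cases hx : x ∈ A
  · rw [scRestr_apply_mem _ hx]
    by_cases hy : y ∈ B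
    · rw [smp_restr_delta_mem hy, hS x y, if_pos ⟨hx, hy⟩]
    · rw [smp_restr_delta_not_mem hy, if_neg (fun h => hy h.2)]
      simp
  · rw [scRestr_apply_not_mem _ hx, if_neg (fun h => hx h.1)]

/-! ### Schur test -/

theorem smp_cs_tsum {a b : Y → ℝ} (ha : ∀ y, 0 ≤ a y) (hb : ∀ y, 0 ≤ b y) (hs1 : Summable a)
    (hs2 : Summable fun y => a y * b y ^ 2) (hs3 : Summable fun y => a y * b y) :
    (∑' y, a y * b y) ^ 2 ≤ (∑' y, a y) * ∑' y, a y * b y ^ 2 := by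
  set C := (∑' y, a y) * ∑' y, a y * b y ^ 2 with hC
  have hC0 : 0 ≤ C := mul_nonneg (tsum_nonneg ha) (tsum_nonneg fun y => mul_nonneg (ha y) (sq_nonneg _))
  have hfin : ∀ s : Finset Y, ∑ y ∈ s, a y * b y ≤ Real.sqrt C := by
    intro s
    apply Real.le_sqrt_of_sq_le
    calc (∑ y ∈ s, a y * b y) ^ 2 ≤ (∑ y ∈ s, a y) * ∑ y ∈ s, a y * b y ^ 2 :=
          Finset.sum_sq_le_sum_mul_sum_of_sq_le_mul s (fun y _ => ha y)
            (fun y _ => mul_nonneg (ha y) (sq_nonneg _)) (fun y _ => le_of_eq (by ring))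
      _ ≤ C := mul_le_mul (hs1.sum_le_tsum s fun y _ => ha y)
          (hs2.sum_le_tsum s fun y _ => mul_nonneg (ha y) (sq_nonneg _))
          (Finset.sum_nonneg fun y _ => mul_nonneg (ha y) (sq_nonneg _)) (tsum_nonneg ha)
  have h1 : ∑' y, a y * b y ≤ Real.sqrt C := hs3.tsum_le_of_sum_le hfin
  have h0 : 0 ≤ ∑' y, a y * b y := tsum_nonneg fun y => mul_nonneg (ha y) (hb y)
  calc (∑' y, a y * b y) ^ 2 ≤ Real.sqrt C ^ 2 := pow_le_pow_left₀ h0 h1 2
    _ = C := Real.sq_sqrt hC0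

theorem smp_row_summable {k : X → Y → ℂ} (h₁ : ∀ x, Summable (fun y => ‖k x y‖)) (ξ : ScL2 Y)
    (x : X) : Summable (fun y => ‖k x y‖ * ‖ξ y‖) :=
  Summable.of_nonneg_of_le (fun y => by positivity)
    (fun y => mul_le_mul_of_nonneg_left (scL2_norm_apply_le ξ y) (norm_nonneg _))
    ((h₁ x).mul_right ‖ξ‖)

theorem smp_row_summable' {k : X → Y → ℂ} (h₁ : ∀ x, Summable (fun y => ‖k x y‖)) (ξ : ScL2 Y)
    (x : X) : Summable (fun y => k x y * ξ y) :=
  Summable.of_norm (by simpa only [norm_mul] using smp_row_summable h₁ ξ x)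

/-- interchange of the two sums, real version. -/
theorem smp_schur_double {K : X → Y → ℝ} {b : Y → ℝ} {R₂ : ℝ} (hK : ∀ x y, 0 ≤ K x y)
    (hb : Summable b) (hb0 : ∀ y, 0 ≤ b y)
    (h₂ : ∀ y, Summable (fun x => K x y) ∧ ∑' x, K x y ≤ R₂) :
    (∀ x, Summable fun y => K x y * b y) ∧ Summable (fun x => ∑' y, K x y * b y) ∧
      ∑' x, ∑' y, K x y * b y ≤ R₂ * ∑' y, b y := by
  have hcol : ∀ y, ∑' x, K x y * b y ≤ R₂ * b y := fun y => by
    rw [tsum_mul_right]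
    exact mul_le_mul_of_nonneg_right (h₂ y).2 (hb0 y)
  have hF' : Summable (fun p : Y × X => K p.2 p.1 * b p.1) := by
    refine (summable_prod_of_nonneg (fun p => mul_nonneg (hK _ _) (hb0 _))).2 ⟨fun y => ?_, ?_⟩
    · show Summable fun x => K x y * b y
      exact (h₂ y).1.mul_right _
    · show Summable fun y => ∑' x, K x y * b y
      exact Summable.of_nonneg_of_le (fun y => tsum_nonneg fun x => mul_nonneg (hK _ _) (hb0 _)) hcol
        (hb.mul_left R₂)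
  have hF : Summable (fun p : X × Y => K p.1 p.2 * b p.2) :=
    ((Equiv.prodComm Y X).summable_iff (f := fun p : X × Y => K p.1 p.2 * b p.2)).1 hF'
  refine ⟨fun x => hF.prod_factor x, hF.prod, ?_⟩
  rw [← Summable.tsum_comm (f := fun x y => K x y * b y) hF, ← tsum_mul_left]
  exact Summable.tsum_le_tsum hcol hF'.prod (hb.mul_left R₂)

theorem smp_schur_pt {k : X → Y → ℂ} {R₁ : ℝ}
    (h₁ : ∀ x, Summable (fun y => ‖k x y‖) ∧ ∑' y, ‖k x y‖ ≤ R₁) (ξ : ScL2 Y) (x : X)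
    (hrow : Summable fun y => ‖k x y‖ * ‖ξ y‖ ^ 2) :
    ‖∑' y, k x y * ξ y‖ ^ 2 ≤ R₁ * ∑' y, ‖k x y‖ * ‖ξ y‖ ^ 2 := by
  have hs3 := smp_row_summable (fun x => (h₁ x).1) ξ x
  have hs4 : Summable fun y => ‖k x y * ξ y‖ := by
    simp only [norm_mul]; exact hs3
  have e1 : ‖∑' y, k x y * ξ y‖ ≤ ∑' y, ‖k x y‖ * ‖ξ y‖ := by
    have := norm_tsum_le_tsum_norm hs4
    simp only [norm_mul] at this
    exact this
  calc ‖∑' y, k x y * ξ y‖ ^ 2 ≤ (∑' y, ‖k x y‖ * ‖ξ y‖) ^ 2 :=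
        pow_le_pow_left₀ (norm_nonneg _) e1 2
    _ ≤ (∑' y, ‖k x y‖) * ∑' y, ‖k x y‖ * ‖ξ y‖ ^ 2 :=
        smp_cs_tsum (fun y => norm_nonneg _) (fun y => norm_nonneg _) (h₁ x).1 hrow hs3
    _ ≤ R₁ * ∑' y, ‖k x y‖ * ‖ξ y‖ ^ 2 :=
        mul_le_mul_of_nonneg_right (h₁ x).2
          (tsum_nonneg fun y => mul_nonneg (norm_nonneg _) (sq_nonneg _))

theorem smp_schur_sq {k : X → Y → ℂ} {R₁ R₂ : ℝ} (hR₁ : 0 ≤ R₁)
    (h₁ : ∀ x, Summable (fun y => ‖k x y‖) ∧ ∑' y, ‖k x y‖ ≤ R₁)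
    (h₂ : ∀ y, Summable (fun x => ‖k x y‖) ∧ ∑' x, ‖k x y‖ ≤ R₂) (ξ : ScL2 Y) :
    Summable (fun x => ‖∑' y, k x y * ξ y‖ ^ 2) ∧
      ∑' x, ‖∑' y, k x y * ξ y‖ ^ 2 ≤ R₁ * R₂ * ‖ξ‖ ^ 2 := by
  obtain ⟨hrow, hS, htot⟩ := smp_schur_double (K := fun x y => ‖k x y‖) (b := fun y => ‖ξ y‖ ^ 2)
    (fun _ _ => norm_nonneg _) (scL2_summable_sq ξ) (fun _ => sq_nonneg _) h₂
  rw [← scL2_norm_sq] at htot
  have hpt := fun x => smp_schur_pt h₁ ξ x (hrow x)
  have hsum : Summable (fun x => ‖∑' y, k x y * ξ y‖ ^ 2) :=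
    Summable.of_nonneg_of_le (fun x => sq_nonneg _) hpt (hS.mul_left R₁)
  refine ⟨hsum, ?_⟩
  calc ∑' x, ‖∑' y, k x y * ξ y‖ ^ 2 ≤ ∑' x, R₁ * ∑' y, ‖k x y‖ * ‖ξ y‖ ^ 2 :=
        Summable.tsum_le_tsum hpt hsum (hS.mul_left R₁)
    _ = R₁ * ∑' x, ∑' y, ‖k x y‖ * ‖ξ y‖ ^ 2 := tsum_mul_left
    _ ≤ R₁ * (R₂ * ‖ξ‖ ^ 2) := mul_le_mul_of_nonneg_left htot hR₁
    _ = R₁ * R₂ * ‖ξ‖ ^ 2 := by ring

/-- the operator of the Schur test. -/
noncomputable def smpSchurOp (k : X → Y → ℂ) (R₁ R₂ : ℝ) (hR₁ : 0 ≤ R₁)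
    (h₁ : ∀ x, Summable (fun y => ‖k x y‖) ∧ ∑' y, ‖k x y‖ ≤ R₁)
    (h₂ : ∀ y, Summable (fun x => ‖k x y‖) ∧ ∑' x, ‖k x y‖ ≤ R₂) : ScL2 Y →L[ℂ] ScL2 X :=
  LinearMap.mkContinuous
    { toFun := fun ξ => scMk (fun x => ∑' y, k x y * ξ y) (smp_schur_sq hR₁ h₁ h₂ ξ).1
      map_add' := fun ξ η => by
        ext x
        simp only [scMk_apply, lp.coeFn_add, Pi.add_apply, mul_add]
        exact (smp_row_summable' (fun x => (h₁ x).1) ξ x).tsum_add
          (smp_row_summable' (fun x => (h₁ x).1) η x)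
      map_smul' := fun c ξ => by
        ext x
        simp only [scMk_apply, lp.coeFn_smul, Pi.smul_apply, smul_eq_mul, RingHom.id_apply]
        rw [← tsum_mul_left]
        exact tsum_congr fun y => by ring }
    (Real.sqrt (R₁ * R₂)) (by
      intro ξ
      have h := (smp_schur_sq hR₁ h₁ h₂ ξ).2
      have e : ‖scMk (fun x => ∑' y, k x y * ξ y) (smp_schur_sq hR₁ h₁ h₂ ξ).1‖ ^ 2
          = ∑' x, ‖∑' y, k x y * ξ y‖ ^ 2 := by
        rw [scL2_norm_sq]; rfl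
      show ‖scMk (fun x => ∑' y, k x y * ξ y) (smp_schur_sq hR₁ h₁ h₂ ξ).1‖ ≤ _
      rw [← e] at h
      have h3 : ‖scMk (fun x => ∑' y, k x y * ξ y) (smp_schur_sq hR₁ h₁ h₂ ξ).1‖
          ≤ Real.sqrt (R₁ * R₂ * ‖ξ‖ ^ 2) := Real.le_sqrt_of_sq_le h
      by_cases hR : 0 ≤ R₁ * R₂
      · rwa [Real.sqrt_mul hR, Real.sqrt_sq (norm_nonneg _)] at h3
      · have h4 : R₁ * R₂ * ‖ξ‖ ^ 2 ≤ 0 :=
          mul_nonpos_of_nonpos_of_nonneg (not_le.1 hR).le (sq_nonneg _)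
        rw [Real.sqrt_eq_zero_of_nonpos h4] at h3
        exact h3.trans (by positivity))

theorem smpSchurOp_hasKer (k : X → Y → ℂ) (R₁ R₂ : ℝ) (hR₁ : 0 ≤ R₁)
    (h₁ : ∀ x, Summable (fun y => ‖k x y‖) ∧ ∑' y, ‖k x y‖ ≤ R₁)
    (h₂ : ∀ y, Summable (fun x => ‖k x y‖) ∧ ∑' x, ‖k x y‖ ≤ R₂) :
    SmpHasKer (smpSchurOp k R₁ R₂ hR₁ h₁ h₂) k := by
  intro x y
  show ∑' y', k x y' * scDelta y y' = k x y
  rw [tsum_eq_single y]
  · simp
  · intro y' hy'
    rw [scDelta_ne hy', mul_zero]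

/-- Schur test with different bounds for rows and columns, bilinear form version. -/
theorem smp_schur_form {k : X → Y → ℂ} {R₁ R₂ : ℝ} (hR₁ : 0 ≤ R₁) (hR₂ : 0 ≤ R₂)
    (h₁ : ∀ x, Summable (fun y => ‖k x y‖) ∧ ∑' y, ‖k x y‖ ≤ R₁)
    (h₂ : ∀ y, Summable (fun x => ‖k x y‖) ∧ ∑' x, ‖k x y‖ ≤ R₂) :
    SmpHasKer (smpKer k) k ∧ ‖smpKer k‖ ^ 2 ≤ R₁ * R₂ := by
  have hK := smpSchurOp_hasKer k R₁ R₂ hR₁ h₁ h₂
  rw [hK.eq_smpKer]
  refine ⟨hK, ?_⟩
  have h : ‖smpSchurOp k R₁ R₂ hR₁ h₁ h₂‖ ≤ Real.sqrt (R₁ * R₂) :=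
    LinearMap.mkContinuous_norm_le _ (Real.sqrt_nonneg _) _
  calc ‖smpSchurOp k R₁ R₂ hR₁ h₁ h₂‖ ^ 2 ≤ Real.sqrt (R₁ * R₂) ^ 2 :=
        pow_le_pow_left₀ (norm_nonneg _) h 2
    _ = R₁ * R₂ := Real.sq_sqrt (mul_nonneg hR₁ hR₂)

/-- **Schur test.** -/
theorem SmpSchur.hasKer {k : X → Y → ℂ} {R : ℝ} (h : SmpSchur k R) : SmpHasKer (smpKer k) k :=
  (smp_schur_form (le_max_right R 0) (le_max_right R 0)
    (fun x => ⟨(h.1 x).1, (h.1 x).2.trans (le_max_left _ _)⟩)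
    (fun y => ⟨(h.2 y).1, (h.2 y).2.trans (le_max_left _ _)⟩)).1

theorem SmpSchur.norm_le {k : X → Y → ℂ} {R : ℝ} (h : SmpSchur k R) (hR : 0 ≤ R) :
    ‖smpKer k‖ ≤ R := by
  have h2 := (smp_schur_form hR hR h.1 h.2).2
  rw [← sq] at h2
  exact (pow_le_pow_iff_left₀ (norm_nonneg _) hR two_ne_zero).1 h2

/-! ### decomposition into layers -/

theorem smp_restr_idem (B : Set X) (ξ : ScL2 X) : scRestr B (scRestr B ξ) = scRestr B ξ := by
  ext a
  by_cases ha : a ∈ B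
  · rw [scRestr_apply_mem _ ha]
  · rw [scRestr_apply_not_mem _ ha, scRestr_apply_not_mem _ ha]

/-- Pythagoras for the fibres of a map. -/
theorem smp_hasSum_fibres {Q : Type} (a : X → Q) (η : ScL2 X) :
    HasSum (fun j => ‖scRestr {x | a x = j} η‖ ^ 2) (‖η‖ ^ 2) := by
  have h := (scL2_hasSum_sq η).tsum_fiberwise a
  have e : (fun j => ‖scRestr {x | a x = j} η‖ ^ 2) = fun c => ∑' b : a ⁻¹' {c}, ‖η b‖ ^ 2 := by
    funext j
    rw [scL2_norm_sq, tsum_subtype (a ⁻¹' {j}) (fun x => ‖η x‖ ^ 2)]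
    refine tsum_congr fun x => ?_
    by_cases hx : a x = j
    · rw [scRestr_apply_mem η (show x ∈ {x | a x = j} from hx),
        Set.indicator_of_mem (show x ∈ a ⁻¹' {j} from hx)]
    · rw [scRestr_apply_not_mem η (show x ∉ {x | a x = j} from hx),
        Set.indicator_of_notMem (show x ∉ a ⁻¹' {j} from hx)]
      simp
  rw [e]
  exact h

theorem smp_norm_le_of_sq {E F : Type*} [NormedAddCommGroup E] [NormedSpace ℂ E]
    [NormedAddCommGroup F] [NormedSpace ℂ F] (S : E →L[ℂ] F) (c : ℝ) (hc : 0 ≤ c)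
    (h : ∀ ξ, ‖S ξ‖ ^ 2 ≤ c ^ 2 * ‖ξ‖ ^ 2) : ‖S‖ ≤ c := by
  refine S.opNorm_le_bound hc fun ξ => ?_
  have := h ξ
  rw [← mul_pow] at this
  exact (pow_le_pow_iff_left₀ (norm_nonneg _) (by positivity) two_ne_zero).1 this

/-- Block diagonal operators: if `X = ⋃ X_j`, `Y = ⋃ Y_j` (disjointly, through `a`, `b`) and the
matrix of `S` vanishes unless `a x = b y`, then `‖S‖ ≤ sup_j ‖block j‖`. -/
theorem smp_norm_le_of_blocks {Q : Type} (S : ScL2 Y →L[ℂ] ScL2 X) (a : X → Q) (b : Y → Q)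
    (hS : ∀ x y, a x ≠ b y → S (scDelta y) x = 0) (c : ℝ) (hc : 0 ≤ c)
    (hblock : ∀ j, ‖scRestr {x | a x = j} ∘L S ∘L scRestr {y | b y = j}‖ ≤ c) :
    ‖S‖ ≤ c := by
  have hK : SmpHasKer S (fun x y => S (scDelta y) x) := fun _ _ => rfl
  refine smp_norm_le_of_sq S c hc fun ξ => ?_
  have key : ∀ j, scRestr {x | a x = j} (S ξ)
      = (scRestr {x | a x = j} ∘L S ∘L scRestr {y | b y = j}) (scRestr {y | b y = j} ξ) := by
    intro j
    simp only [ContinuousLinearMap.comp_apply, smp_restr_idem]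
    ext x
    by_cases hx : a x = j
    · rw [scRestr_apply_mem _ (show x ∈ {x | a x = j} from hx),
        scRestr_apply_mem _ (show x ∈ {x | a x = j} from hx)]
      refine (hK.hasSum ξ x).unique ?_
      convert hK.hasSum (scRestr {y | b y = j} ξ) x using 2 with y
      by_cases hy : b y = j
      · rw [scRestr_apply_mem _ (show y ∈ {y | b y = j} from hy)]
      · rw [hS x y (by rw [hx]; exact fun h => hy h.symm), zero_mul, zero_mul]
    · rw [scRestr_apply_not_mem _ (show x ∉ {x | a x = j} from hx),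
        scRestr_apply_not_mem _ (show x ∉ {x | a x = j} from hx)]
  have h1 := smp_hasSum_fibres a (S ξ)
  have h2 := (smp_hasSum_fibres b ξ).mul_left (c ^ 2)
  refine hasSum_le (fun j => ?_) h1 h2
  rw [key j, ← mul_pow]
  refine pow_le_pow_left₀ (norm_nonneg _) ?_ 2
  exact (ContinuousLinearMap.le_opNorm _ _).trans
    (mul_le_mul_of_nonneg_right (hblock j) (norm_nonneg _))

/-- three neighbouring layers carry the layer `i` of `S ξ`. -/
theorem smp_band_key (S : ScL2 X →L[ℂ] ScL2 X) (lay : X → ℤ)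
    (hS : ∀ x y, 1 < |lay x - lay y| → S (scDelta y) x = 0) (ξ : ScL2 X) (i : ℤ) :
    scRestr {x | lay x = i} (S ξ)
      = scRestr {x | lay x = i} (S (scRestr {y | lay y = i - 1} ξ))
        + scRestr {x | lay x = i} (S (scRestr {y | lay y = i} ξ))
        + scRestr {x | lay x = i} (S (scRestr {y | lay y = i + 1} ξ)) := by
  have hK : SmpHasKer S (fun x y => S (scDelta y) x) := fun _ _ => rfl
  ext x
  simp only [lp.coeFn_add, Pi.add_apply]
  by_cases hx : lay x = i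
  · simp only [scRestr_apply_mem _ (show x ∈ {x | lay x = i} from hx)]
    refine (hK.hasSum ξ x).unique ?_
    have h3 := ((hK.hasSum (scRestr {y | lay y = i - 1} ξ) x).add
      (hK.hasSum (scRestr {y | lay y = i} ξ) x)).add
      (hK.hasSum (scRestr {y | lay y = i + 1} ξ) x)
    have e : (fun y => S (scDelta y) x * ξ y) = fun y =>
        S (scDelta y) x * scRestr {y | lay y = i - 1} ξ y
          + S (scDelta y) x * scRestr {y | lay y = i} ξ y
          + S (scDelta y) x * scRestr {y | lay y = i + 1} ξ y := by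
      funext y
      by_cases h1 : lay y = i - 1
      · rw [scRestr_apply_mem _ (show y ∈ {y | lay y = i - 1} from h1),
          scRestr_apply_not_mem _ (show y ∉ {y | lay y = i} from fun h => by
            have : lay y = i := h
            omega),
          scRestr_apply_not_mem _ (show y ∉ {y | lay y = i + 1} from fun h => by
            have : lay y = i + 1 := h
            omega)]
        ring
      · by_cases h2 : lay y = i
        · rw [scRestr_apply_mem _ (show y ∈ {y | lay y = i} from h2),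
            scRestr_apply_not_mem _ (show y ∉ {y | lay y = i - 1} from h1),
            scRestr_apply_not_mem _ (show y ∉ {y | lay y = i + 1} from fun h => by
              have : lay y = i + 1 := h
              omega)]
          ring
        · by_cases h3 : lay y = i + 1
          · rw [scRestr_apply_mem _ (show y ∈ {y | lay y = i + 1} from h3),
              scRestr_apply_not_mem _ (show y ∉ {y | lay y = i - 1} from h1),
              scRestr_apply_not_mem _ (show y ∉ {y | lay y = i} from h2)]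
            ring
          · have : 1 < |lay x - lay y| := by
              rw [hx, lt_abs]
              omega
            rw [hS x y this]
            ring
    rw [e]
    exact h3
  · simp only [scRestr_apply_not_mem _ (show x ∉ {x | lay x = i} from hx)]
    ring

theorem smp_band_layer (S : ScL2 X →L[ℂ] ScL2 X) (lay : X → ℤ)
    (hS : ∀ x y, 1 < |lay x - lay y| → S (scDelta y) x = 0) (c : ℝ)
    (hblock : ∀ i k, ‖scRestr {x | lay x = i} ∘L S ∘L scRestr {y | lay y = k}‖ ≤ c)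
    (ξ : ScL2 X) (i : ℤ) :
    ‖scRestr {x | lay x = i} (S ξ)‖ ^ 2 ≤ 3 * c ^ 2 * (‖scRestr {y | lay y = i - 1} ξ‖ ^ 2
      + ‖scRestr {y | lay y = i} ξ‖ ^ 2 + ‖scRestr {y | lay y = i + 1} ξ‖ ^ 2) := by
  have hb : ∀ k, ‖scRestr {x | lay x = i} (S (scRestr {y | lay y = k} ξ))‖
      ≤ c * ‖scRestr {y | lay y = k} ξ‖ := by
    intro k
    have h := (scRestr {x | lay x = i} ∘L S ∘L scRestr {y | lay y = k}).le_opNorm
      (scRestr {y | lay y = k} ξ)
    simp only [ContinuousLinearMap.comp_apply, smp_restr_idem] at h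
    exact h.trans (mul_le_mul_of_nonneg_right (hblock i k) (norm_nonneg _))
  rw [smp_band_key S lay hS ξ i]
  have b1 := hb (i - 1)
  have b2 := hb i
  have b3 := hb (i + 1)
  have b4 := norm_add₃_le (a := scRestr {x | lay x = i} (S (scRestr {y | lay y = i - 1} ξ)))
    (b := scRestr {x | lay x = i} (S (scRestr {y | lay y = i} ξ)))
    (c := scRestr {x | lay x = i} (S (scRestr {y | lay y = i + 1} ξ)))
  generalize ‖scRestr {y | lay y = i - 1} ξ‖ = u at *
  generalize ‖scRestr {y | lay y = i} ξ‖ = v at *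
  generalize ‖scRestr {y | lay y = i + 1} ξ‖ = w at *
  have b5 : ‖scRestr {x | lay x = i} (S (scRestr {y | lay y = i - 1} ξ))
      + scRestr {x | lay x = i} (S (scRestr {y | lay y = i} ξ))
      + scRestr {x | lay x = i} (S (scRestr {y | lay y = i + 1} ξ))‖ ≤ c * (u + v + w) := by
    linarith
  calc _ ≤ (c * (u + v + w)) ^ 2 := pow_le_pow_left₀ (norm_nonneg _) b5 2
    _ = c ^ 2 * (u + v + w) ^ 2 := by ring
    _ ≤ c ^ 2 * (3 * (u ^ 2 + v ^ 2 + w ^ 2)) := by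
        refine mul_le_mul_of_nonneg_left ?_ (sq_nonneg c)
        nlinarith [sq_nonneg (u - v), sq_nonneg (v - w), sq_nonneg (u - w)]
    _ = 3 * c ^ 2 * (u ^ 2 + v ^ 2 + w ^ 2) := by ring

theorem smp_hasSum_shift {f : ℤ → ℝ} {A : ℝ} (h : HasSum f A) (d : ℤ) :
    HasSum (fun i => f (i + d)) A := by
  have := (Equiv.addRight d).hasSum_iff.2 h
  exact this

theorem smp_band_sum {f g : ℤ → ℝ} {A B C : ℝ} (hf : HasSum f A) (hg : HasSum g B)
    (h : ∀ i, g i ≤ C * (f (i - 1) + f i + f (i + 1))) : B ≤ C * (A + A + A) := by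
  have hm : HasSum (fun i => f (i - 1)) A := by
    have := smp_hasSum_shift hf (-1)
    simpa only [← sub_eq_add_neg] using this
  have hp := smp_hasSum_shift hf 1
  exact hasSum_le h hg (((hm.add hf).add hp).mul_left C)

/-- Band operators of width one for a layer function `lay : X → ℤ`:  the norm is at most three
times the supremum of the norms of the blocks. -/
theorem smp_norm_le_of_band (S : ScL2 X →L[ℂ] ScL2 X) (lay : X → ℤ)
    (hS : ∀ x y, 1 < |lay x - lay y| → S (scDelta y) x = 0) (c : ℝ) (hc : 0 ≤ c)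
    (hblock : ∀ i k, ‖scRestr {x | lay x = i} ∘L S ∘L scRestr {y | lay y = k}‖ ≤ c) :
    ‖S‖ ≤ 3 * c := by
  refine smp_norm_le_of_sq S (3 * c) (by positivity) fun ξ => ?_
  have hfin := smp_band_sum (smp_hasSum_fibres lay ξ) (smp_hasSum_fibres lay (S ξ))
    (C := 3 * c ^ 2) (fun i => smp_band_layer S lay hS c hblock ξ i)
  calc ‖S ξ‖ ^ 2 ≤ 3 * c ^ 2 * (‖ξ‖ ^ 2 + ‖ξ‖ ^ 2 + ‖ξ‖ ^ 2) := hfin
    _ = (3 * c) ^ 2 * ‖ξ‖ ^ 2 := by ring

/-- An operator whose matrix vanishes outside `A × B` (finite sets) is bounded by the `ℓ²` operator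
norm of the finite matrix. -/
theorem SmpHasKer.norm_le_matrix [DecidableEq X] [DecidableEq Y] {S : ScL2 Y →L[ℂ] ScL2 X}
    {k : X → Y → ℂ} (hS : SmpHasKer S k)
    (A : Finset X) (B : Finset Y) (hk : ∀ x y, ¬ (x ∈ A ∧ y ∈ B) → k x y = 0) :
    ‖S‖ ≤ ‖(Matrix.of fun (x : A) (y : B) => k x y : Matrix A B ℂ)‖ := by
  set M : Matrix A B ℂ := Matrix.of fun (x : A) (y : B) => k x y with hM
  refine smp_norm_le_of_sq S ‖M‖ (norm_nonneg _) fun ξ => ?_
  set v : EuclideanSpace ℂ B := WithLp.toLp 2 (fun y : B => ξ y) with hv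
  -- values of `S ξ`
  have hval : ∀ x, S ξ x = ∑ y ∈ B, k x y * ξ y := by
    intro x
    refine (hS.hasSum ξ x).unique (hasSum_sum_of_ne_finset_zero fun y hy => ?_)
    rw [hk x y (fun h => hy h.2), zero_mul]
  have hzero : ∀ x, x ∉ A → S ξ x = 0 := by
    intro x hx
    rw [hval x]
    exact Finset.sum_eq_zero fun y _ => by rw [hk x y (fun h => hx h.1), zero_mul]
  have h1 : ‖S ξ‖ ^ 2 = ∑ x ∈ A, ‖S ξ x‖ ^ 2 := by
    rw [scL2_norm_sq]
    exact tsum_eq_sum fun x hx => by rw [hzero x hx]; simp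
  have h3 : ‖v‖ ^ 2 ≤ ‖ξ‖ ^ 2 := by
    rw [EuclideanSpace.norm_sq_eq, scL2_norm_sq]
    have := (scL2_summable_sq ξ).sum_le_tsum B (fun y _ => sq_nonneg _)
    rw [← Finset.sum_coe_sort B (fun y => ‖ξ y‖ ^ 2)] at this
    exact this
  have h4 := pow_le_pow_left₀ (norm_nonneg _) (Matrix.l2_opNorm_mulVec M v) 2
  rw [EuclideanSpace.norm_sq_eq] at h4
  have h2 : ∑ x ∈ A, ‖S ξ x‖ ^ 2 ≤ (‖M‖ * ‖v‖) ^ 2 := by
    refine le_trans (le_of_eq ?_) h4
    rw [← Finset.sum_coe_sort A (fun x => ‖S ξ x‖ ^ 2)]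
    refine Finset.sum_congr rfl fun x _ => ?_
    congr 2
    rw [hval x, ← Finset.sum_coe_sort B (fun y => k x y * ξ y)]
    rfl
  calc ‖S ξ‖ ^ 2 ≤ (‖M‖ * ‖v‖) ^ 2 := by rw [h1]; exact h2
    _ = ‖M‖ ^ 2 * ‖v‖ ^ 2 := by ring
    _ ≤ ‖M‖ ^ 2 * ‖ξ‖ ^ 2 := mul_le_mul_of_nonneg_left h3 (sq_nonneg _)

end kernel

end Claimed.Agent.R300
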