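/-
Row 300, shared sampling machine (SMP): matrices of right convolutions on `ℓ²(G × I)` and the finite
(Foelner) test  KK Lemma 9.3(b) = INJ Lemma 4.6(b).
Conventions of `SpecTrace`: the group coordinate comes first, `(ρ_g ξ)(f, i) = ξ (f g, i)`.
Sub-captain: helper21.  Proofs: helper193.  No sorry.
-/
import Claimed.Agent.R300.SmpKer
import Claimed.Agent.R300.ScMat

set_option autoImplicit false

namespace Claimed.Agent.R300

open scoped ENNReal ComplexConjugate InnerProductSpace Matrix.Norms.L2Operator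

section kernel
variable {X Y : Type}

/-- An operator whose matrix vanishes outside `range a × range b` (finite index types, injective
parametrisations) is bounded by the `ℓ²` operator norm of the finite matrix. -/
theorem SmpHasKer.norm_le_matrix_inj {α β : Type} [Fintype α] [Fintype β] [DecidableEq β]
    {S : ScL2 Y →L[ℂ] ScL2 X} {k : X → Y → ℂ} (hS : SmpHasKer S k)
    (a : α → X) (b : β → Y) (ha : Function.Injective a) (hb : Function.Injective b)
    (hk : ∀ x y, ¬ (x ∈ Set.range a ∧ y ∈ Set.range b) → k x y = 0) :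
    ‖S‖ ≤ ‖(Matrix.of fun (i : α) (j : β) => k (a i) (b j) : Matrix α β ℂ)‖ := by
  set M : Matrix α β ℂ := Matrix.of fun (i : α) (j : β) => k (a i) (b j) with hM
  refine smp_norm_le_of_sq S ‖M‖ (norm_nonneg _) fun ξ => ?_
  set v : EuclideanSpace ℂ β := WithLp.toLp 2 (fun j : β => ξ (b j)) with hv
  have hval : ∀ x, S ξ x = ∑ j, k x (b j) * ξ (b j) := by
    intro x
    refine (hS.hasSum ξ x).unique ?_
    refine (hb.hasSum_iff fun y hy => ?_).1 (hasSum_fintype _)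
    rw [hk x y (fun h => hy h.2), zero_mul]
  have hzero : ∀ x, x ∉ Set.range a → S ξ x = 0 := by
    intro x hx
    rw [hval x]
    exact Finset.sum_eq_zero fun j _ => by rw [hk x (b j) (fun h => hx h.1), zero_mul]
  have h1 : ‖S ξ‖ ^ 2 = ∑ i, ‖S ξ (a i)‖ ^ 2 := by
    refine (scL2_hasSum_sq (S ξ)).unique ?_
    refine (ha.hasSum_iff fun x hx => ?_).1 (hasSum_fintype _)
    rw [hzero x hx]; simp
  have h3 : ‖v‖ ^ 2 ≤ ‖ξ‖ ^ 2 := by
    rw [EuclideanSpace.norm_sq_eq, scL2_norm_sq]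
    have := tsum_comp_le_tsum_of_inj (scL2_summable_sq ξ) (fun _ => by positivity) hb
    rw [tsum_fintype] at this
    exact this
  have h4 := pow_le_pow_left₀ (norm_nonneg _) (Matrix.l2_opNorm_mulVec M v) 2
  rw [EuclideanSpace.norm_sq_eq] at h4
  have h2 : ∑ i, ‖S ξ (a i)‖ ^ 2 ≤ (‖M‖ * ‖v‖) ^ 2 := by
    refine le_trans (le_of_eq ?_) h4
    refine Finset.sum_congr rfl fun i _ => ?_
    congr 2
    rw [hval (a i)]
    rfl
  calc ‖S ξ‖ ^ 2 ≤ (‖M‖ * ‖v‖) ^ 2 := by rw [h1]; exact h2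
    _ = ‖M‖ ^ 2 * ‖v‖ ^ 2 := by ring
    _ ≤ ‖M‖ ^ 2 * ‖ξ‖ ^ 2 := mul_le_mul_of_nonneg_left h3 (sq_nonneg _)

end kernel

section conv

variable {G : Type} [Group G] {I : Type}

def smpConvK (c : I → I → G → ℂ) : G × I → G × I → ℂ := fun x y => c x.2 y.2 (x.1⁻¹ * y.1)

noncomputable def smpConv (c : I → I → G → ℂ) : ScL2 (G × I) →L[ℂ] ScL2 (G × I) :=
  smpKer (smpConvK c)

def SmpCoefBd (c : I → I → G → ℂ) (R : ℝ) : Prop :=
  (∀ u, Summable (fun p : I × G => ‖c u p.1 p.2‖) ∧ ∑' p : I × G, ‖c u p.1 p.2‖ ≤ R) ∧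
    (∀ v, Summable (fun p : I × G => ‖c p.1 v p.2‖) ∧ ∑' p : I × G, ‖c p.1 v p.2‖ ≤ R)

/-- `(v, g) ↦ (f g, v)`. -/
def smpRowEquiv (f : G) : I × G ≃ G × I where
  toFun p := (f * p.2, p.1)
  invFun y := (y.2, f⁻¹ * y.1)
  left_inv p := by simp
  right_inv y := by simp

/-- `(u, g) ↦ (h g⁻¹, u)`. -/
def smpColEquiv (h : G) : I × G ≃ G × I where
  toFun p := (h * p.2⁻¹, p.1)
  invFun x := (x.2, x.1⁻¹ * h)
  left_inv p := by simp
  right_inv x := by simp

theorem SmpCoefBd.schur {c : I → I → G → ℂ} {R : ℝ} (h : SmpCoefBd c R) :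
    SmpSchur (smpConvK c) R := by
  constructor
  · rintro ⟨f, u⟩
    have e : (fun y : G × I => ‖smpConvK c (f, u) y‖) ∘ (smpRowEquiv f)
        = fun p : I × G => ‖c u p.1 p.2‖ := by
      funext p
      simp [smpConvK, smpRowEquiv]
    refine ⟨?_, ?_⟩
    · rw [← (smpRowEquiv f).summable_iff, e]
      exact (h.1 u).1
    · rw [← (smpRowEquiv f).tsum_eq]
      have e' := congrArg tsum e
      simp only [Function.comp_def] at e'
      rw [e']
      exact (h.1 u).2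
  · rintro ⟨f, v⟩
    have e : (fun x : G × I => ‖smpConvK c x (f, v)‖) ∘ (smpColEquiv f)
        = fun p : I × G => ‖c p.1 v p.2‖ := by
      funext p
      simp [smpConvK, smpColEquiv]
    refine ⟨?_, ?_⟩
    · rw [← (smpColEquiv f).summable_iff, e]
      exact (h.2 v).1
    · rw [← (smpColEquiv f).tsum_eq]
      have e' := congrArg tsum e
      simp only [Function.comp_def] at e'
      rw [e']
      exact (h.2 v).2

theorem SmpCoefBd.hasKer {c : I → I → G → ℂ} {R : ℝ} (h : SmpCoefBd c R) :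
    SmpHasKer (smpConv c) (smpConvK c) := h.schur.hasKer

theorem SmpCoefBd.hasSum {c : I → I → G → ℂ} {R : ℝ} (h : SmpCoefBd c R) (ξ : ScL2 (G × I))
    (f : G) (u : I) :
    HasSum (fun p : I × G => c u p.1 p.2 * ξ (f * p.2, p.1)) (smpConv c ξ (f, u)) := by
  have h1 := h.hasKer.hasSum ξ (f, u)
  rw [← (smpRowEquiv f).hasSum_iff] at h1
  have e : (fun y : G × I => smpConvK c (f, u) y * ξ y) ∘ (smpRowEquiv f)
      = fun p : I × G => c u p.1 p.2 * ξ (f * p.2, p.1) := by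
    funext p
    simp [smpConvK, smpRowEquiv]
  rw [e] at h1
  exact h1

/-- left translation of the group coordinate. -/
noncomputable def smpLam (s : G) : ScL2 (G × I) →L[ℂ] ScL2 (G × I) :=
  scPull (fun p : G × I => (s⁻¹ * p.1, p.2)) (by
    rintro ⟨a, i⟩ ⟨b, j⟩ hab
    simp only [Prod.mk.injEq, mul_right_inj] at hab
    exact Prod.ext hab.1 hab.2)

theorem smpConv_lam_apply (s : G) (ξ : ScL2 (G × I)) (x : G × I) :
    smpLam s ξ x = ξ (s⁻¹ * x.1, x.2) := rfl

theorem smpConv_lam_delta (s : G) (y : G × I) : smpLam s (scDelta y) = scDelta (s * y.1, y.2) := by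
  have := scPull_delta (fun p : G × I => (s⁻¹ * p.1, p.2)) (by
    rintro ⟨a, i⟩ ⟨b, j⟩ hab
    simp only [Prod.mk.injEq, mul_right_inj] at hab
    exact Prod.ext hab.1 hab.2) (s * y.1, y.2)
  simpa [smpLam] using this

theorem smpConv_lam_comm {c : I → I → G → ℂ} {R : ℝ} (h : SmpCoefBd c R) (s : G) :
    smpLam s ∘L smpConv c = smpConv c ∘L smpLam s := by
  refine scOp_ext fun y => ?_
  ext x
  simp only [ContinuousLinearMap.comp_apply]
  rw [smpConv_lam_apply, smpConv_lam_delta, h.hasKer, h.hasKer]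
  simp [smpConvK, mul_assoc]

/-- finitely many finitely supported coefficients. -/
theorem smpCoefBd_of_finite [Fintype I] (c : I → I → G → ℂ) (Sg : Finset G)
    (hc : ∀ u v g, g ∉ Sg → c u v g = 0) (R : ℝ)
    (hrow : ∀ u, ∑ v, ∑ g ∈ Sg, ‖c u v g‖ ≤ R) (hcol : ∀ v, ∑ u, ∑ g ∈ Sg, ‖c u v g‖ ≤ R) :
    SmpCoefBd c R := by
  constructor
  · intro u
    have hs : HasSum (fun p : I × G => ‖c u p.1 p.2‖)
        (∑ p ∈ (Finset.univ : Finset I) ×ˢ Sg, ‖c u p.1 p.2‖) :=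
      hasSum_sum_of_ne_finset_zero fun p hp => by
        rw [hc u p.1 p.2 (fun hg => hp (Finset.mem_product.2 ⟨Finset.mem_univ _, hg⟩)), norm_zero]
    refine ⟨hs.summable, ?_⟩
    rw [hs.tsum_eq, Finset.sum_product]
    exact hrow u
  · intro v
    have hs : HasSum (fun p : I × G => ‖c p.1 v p.2‖)
        (∑ p ∈ (Finset.univ : Finset I) ×ˢ Sg, ‖c p.1 v p.2‖) :=
      hasSum_sum_of_ne_finset_zero fun p hp => by
        rw [hc p.1 v p.2 (fun hg => hp (Finset.mem_product.2 ⟨Finset.mem_univ _, hg⟩)), norm_zero]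
    refine ⟨hs.summable, ?_⟩
    rw [hs.tsum_eq, Finset.sum_product]
    exact hcol v

/-! ### the finite test -/

/-- `(f, i) ↦ (f b⁻¹, (b, i))`. -/
def smpSpread (b : G) : G × I → G × (G × I) := fun x => (x.1 * b⁻¹, (b, x.2))

theorem smpSpread_inj (b : G) : Function.Injective (smpSpread (I := I) b) := by
  rintro ⟨f, i⟩ ⟨f', j⟩ h
  simp only [smpSpread, Prod.mk.injEq, mul_left_inj, true_and] at h
  exact Prod.ext h.1 h.2

/-- `(V ξ)(s, (b, i)) = 1_{Bx}(b) ξ (s b, i)`: all left translates of the box at once. -/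
noncomputable def smpV (Bx : Finset G) : ScL2 (G × I) →L[ℂ] ScL2 (G × (G × I)) :=
  ∑ b ∈ Bx, scPush (smpSpread b) (smpSpread_inj b)

theorem smpV_norm_sq (Bx : Finset G) (ξ : ScL2 (G × I)) :
    ‖smpV Bx ξ‖ ^ 2 = Bx.card * ‖ξ‖ ^ 2 := by
  unfold smpV
  rw [sum_apply, sc_norm_sq_sum_of_disjoint]
  · simp [scPush_norm]
  · intro b _ b' _ hbb' z
    by_cases hz : z.2.1 = b
    · right
      refine scPush_apply_of_not_mem _ _ _ _ fun x hx => hbb' ?_
      rw [← hz, ← hx]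
      rfl
    · left
      refine scPush_apply_of_not_mem _ _ _ _ fun x hx => hz ?_
      rw [← hx]
      rfl

theorem smpV_norm_le (Bx : Finset G) : ‖smpV (I := I) Bx‖ ≤ Real.sqrt Bx.card := by
  refine smp_norm_le_of_sq _ _ (Real.sqrt_nonneg _) fun ξ => ?_
  rw [smpV_norm_sq, Real.sq_sqrt (Nat.cast_nonneg _)]

theorem smpV_delta (Bx : Finset G) (y : G × I) :
    smpV Bx (scDelta y) = ∑ b ∈ Bx, scDelta (smpSpread b y) := by
  unfold smpV
  rw [sum_apply]
  exact Finset.sum_congr rfl fun b _ => scPush_delta _ _ _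

theorem smp_amp_delta_apply {X Y : Type} [DecidableEq Y] (T : ScL2 X →L[ℂ] ScL2 X) (z w : Y × X) :
    scAmp (Equiv.refl (Y × X)) T (scDelta z) w = if w.1 = z.1 then T (scDelta z.2) w.2 else 0 := by
  rw [scAmp_apply]
  split_ifs with h
  · have := scSlice_delta (Equiv.refl (Y × X)) z
    simp only [Equiv.refl_apply] at this ⊢
    rw [h, this]
  · have := scSlice_delta_ne (Equiv.refl (Y × X)) z (y := w.1) h
    simp only [Equiv.refl_apply] at this ⊢
    rw [this]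
    simp

/-- matrix of `V* (1 ⊗ T) V`. -/
theorem smpV_conj_hasKer [DecidableEq G] (Bx : Finset G) (T : ScL2 (G × I) →L[ℂ] ScL2 (G × I)) :
    SmpHasKer (ContinuousLinearMap.adjoint (smpV Bx) ∘L scAmp (Equiv.refl _) T ∘L smpV Bx)
      (fun x y => ∑ b ∈ Bx, ∑ b' ∈ Bx,
        if x.1 * b⁻¹ = y.1 * b'⁻¹ then T (scDelta (b', y.2)) (b, x.2) else 0) := by
  intro x y
  simp only [ContinuousLinearMap.comp_apply]
  rw [← sc_inner_delta_left x, ContinuousLinearMap.adjoint_inner_right, smpV_delta, smpV_delta,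
    sum_inner]
  refine Finset.sum_congr rfl fun b _ => ?_
  rw [sc_inner_delta_left, map_sum, scL2_sum_apply]
  refine Finset.sum_congr rfl fun b' _ => ?_
  rw [smp_amp_delta_apply]
  rfl

theorem smp_spread_iff (f f' b b' : G) : f * b⁻¹ = f' * b'⁻¹ ↔ b' = b * (f⁻¹ * f') := by
  constructor
  · intro h
    have : f' = f * b⁻¹ * b' := by rw [h]; group
    rw [this]; group
  · rintro rfl
    group

/-- matrix of `V* (1 ⊗ P A P) V`: the coefficients are multiplied with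
`#{b ∈ Bx | b g ∈ Bx}`. -/
theorem smpV_conj_conv_hasKer [DecidableEq G] {c : I → I → G → ℂ} {R : ℝ} (h : SmpCoefBd c R)
    (Bx : Finset G) :
    SmpHasKer (ContinuousLinearMap.adjoint (smpV Bx) ∘L scAmp (Equiv.refl _)
        (scRestr {x : G × I | x.1 ∈ Bx} ∘L smpConv c ∘L scRestr {x : G × I | x.1 ∈ Bx}) ∘L smpV Bx)
      (smpConvK fun u v g => ((Bx.filter fun f => f * g ∈ Bx).card : ℂ) * c u v g) := by
  intro x y
  rw [smpV_conj_hasKer Bx _ x y]
  have hK := h.hasKer.restr {x : G × I | x.1 ∈ Bx} {x : G × I | x.1 ∈ Bx}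
  have h1 : ∀ b ∈ Bx, (∑ b' ∈ Bx, if x.1 * b⁻¹ = y.1 * b'⁻¹ then
      (scRestr {x : G × I | x.1 ∈ Bx} ∘L smpConv c ∘L scRestr {x : G × I | x.1 ∈ Bx})
        (scDelta (b', y.2)) (b, x.2) else 0)
      = if b * (x.1⁻¹ * y.1) ∈ Bx then c x.2 y.2 (x.1⁻¹ * y.1) else 0 := by
    intro b hb
    simp only [smp_spread_iff]
    rw [Finset.sum_ite_eq']
    split_ifs with hbg
    · rw [hK]
      beta_reduce
      rw [if_pos ⟨hb, hbg⟩]
      simp [smpConvK]
    · rfl
  beta_reduce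
  rw [Finset.sum_congr rfl h1, ← Finset.sum_filter, Finset.sum_const, nsmul_eq_mul]
  rfl

/-- **Finite test** (KK 9.3(b), INJ 4.6(b)).  `Bx` is an almost right invariant finite set for all
group elements that occur; then the norm is detected, up to `κ R`, on `ℓ²(Bx × I)`.
Proof: average `⟨A P_s ξ, P_s η⟩` over the left translates `s Bx`; left translations commute with
`A`; `#{s | f ∈ s Bx, f g ∈ s Bx} = #{b ∈ Bx | b g ∈ Bx}`; Schur test for the error. -/
theorem smp_finite_test [Fintype I] [DecidableEq G] (c : I → I → G → ℂ) (Sg : Finset G)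
    (hc : ∀ u v g, g ∉ Sg → c u v g = 0) (R κ : ℝ) (hR : 0 ≤ R) (hκ0 : 0 ≤ κ)
    (hrow : ∀ u, ∑ v, ∑ g ∈ Sg, ‖c u v g‖ ≤ R) (hcol : ∀ v, ∑ u, ∑ g ∈ Sg, ‖c u v g‖ ≤ R)
    (Bx : Finset G) (hBx : Bx.Nonempty)
    (hκ : ∀ g ∈ Sg, ((Bx.filter fun f => f * g ∉ Bx).card : ℝ) ≤ κ * Bx.card) :
    ‖smpConv c‖ ≤ ‖scRestr {x : G × I | x.1 ∈ Bx} ∘L smpConv c ∘L scRestr {x : G × I | x.1 ∈ Bx}‖
      + κ * R := by
  have hB := smpCoefBd_of_finite c Sg hc R hrow hcol
  set T := scRestr {x : G × I | x.1 ∈ Bx} ∘L smpConv c ∘L scRestr {x : G × I | x.1 ∈ Bx} with hT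
  set W := ContinuousLinearMap.adjoint (smpV Bx) ∘L scAmp (Equiv.refl _) T ∘L smpV (I := I) Bx
    with hW
  have hcard : (0 : ℝ) < Bx.card := by exact_mod_cast hBx.card_pos
  -- the main term
  have hWn : ‖W‖ ≤ Bx.card * ‖T‖ := by
    have h1 : ‖W‖ ≤ ‖ContinuousLinearMap.adjoint (smpV (I := I) Bx)‖
        * (‖scAmp (Equiv.refl (G × (G × I))) T‖ * ‖smpV (I := I) Bx‖) :=
      (ContinuousLinearMap.opNorm_comp_le _ _).trans
        (mul_le_mul_of_nonneg_left (ContinuousLinearMap.opNorm_comp_le _ _) (norm_nonneg _))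
    rw [LinearIsometryEquiv.norm_map] at h1
    calc ‖W‖ ≤ Real.sqrt Bx.card * (‖T‖ * Real.sqrt Bx.card) := by
          refine h1.trans ?_
          gcongr
          · exact smpV_norm_le Bx
          · exact scAmp_norm_le _ _
          · exact smpV_norm_le Bx
      _ = (Real.sqrt Bx.card * Real.sqrt Bx.card) * ‖T‖ := by ring
      _ = Bx.card * ‖T‖ := by rw [Real.mul_self_sqrt (Nat.cast_nonneg _)]
  -- the error term
  set c' : I → I → G → ℂ := fun u v g => ((Bx.filter fun f => f * g ∉ Bx).card : ℂ) * c u v g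
    with hc'
  have hterm : ∀ u v, ∀ g ∈ Sg, ‖c' u v g‖ ≤ (κ * Bx.card) * ‖c u v g‖ := by
    intro u v g hg
    show ‖((Bx.filter fun f => f * g ∉ Bx).card : ℂ) * c u v g‖ ≤ _
    rw [norm_mul, Complex.norm_natCast]
    exact mul_le_mul_of_nonneg_right (hκ g hg) (norm_nonneg _)
  have hB' : SmpCoefBd c' (κ * Bx.card * R) := by
    refine smpCoefBd_of_finite c' Sg (fun u v g hg => by
      show ((Bx.filter fun f => f * g ∉ Bx).card : ℂ) * c u v g = 0
      rw [hc u v g hg, mul_zero]) _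
      (fun u => ?_) (fun v => ?_)
    · calc ∑ v, ∑ g ∈ Sg, ‖c' u v g‖ ≤ ∑ v, ∑ g ∈ Sg, (κ * Bx.card) * ‖c u v g‖ :=
            Finset.sum_le_sum fun v _ => Finset.sum_le_sum fun g hg => hterm u v g hg
        _ = (κ * Bx.card) * ∑ v, ∑ g ∈ Sg, ‖c u v g‖ := by
            simp only [Finset.mul_sum]
        _ ≤ κ * Bx.card * R := mul_le_mul_of_nonneg_left (hrow u) (by positivity)
    · calc ∑ u, ∑ g ∈ Sg, ‖c' u v g‖ ≤ ∑ u, ∑ g ∈ Sg, (κ * Bx.card) * ‖c u v g‖ :=
            Finset.sum_le_sum fun u _ => Finset.sum_le_sum fun g hg => hterm u v g hg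
        _ = (κ * Bx.card) * ∑ u, ∑ g ∈ Sg, ‖c u v g‖ := by
            simp only [Finset.mul_sum]
        _ ≤ κ * Bx.card * R := mul_le_mul_of_nonneg_left (hcol v) (by positivity)
  have hE : SmpHasKer ((Bx.card : ℂ) • smpConv c - W) (smpConvK c') := by
    intro x y
    rw [(hB.hasKer.smul (Bx.card : ℂ)).sub (smpV_conj_conv_hasKer hB Bx) x y]
    have := Finset.card_filter_add_card_filter_not (s := Bx) (fun f => f * (x.1⁻¹ * y.1) ∈ Bx)
    simp only [smpConvK, hc']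
    rw [← this]
    push_cast
    ring
  have hEn : ‖(Bx.card : ℂ) • smpConv c - W‖ ≤ κ * Bx.card * R := by
    rw [← hE.eq_smpKer]
    exact hB'.schur.norm_le (by positivity)
  have hfin : Bx.card * ‖smpConv c‖ ≤ Bx.card * (‖T‖ + κ * R) := by
    calc Bx.card * ‖smpConv c‖ = ‖(Bx.card : ℂ) • smpConv c‖ := by
          rw [norm_smul, Complex.norm_natCast]
      _ = ‖W + ((Bx.card : ℂ) • smpConv c - W)‖ := by rw [add_sub_cancel]
      _ ≤ ‖W‖ + ‖(Bx.card : ℂ) • smpConv c - W‖ := norm_add_le _ _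
      _ ≤ Bx.card * ‖T‖ + κ * Bx.card * R := add_le_add hWn hEn
      _ = Bx.card * (‖T‖ + κ * R) := by ring
  exact le_of_mul_le_mul_left hfin hcard

/-- some Schur bound for finitely many finitely supported coefficients. -/
theorem smpCoefBd_exists_of_finite [Fintype I] (c : I → I → G → ℂ) (Sg : Finset G)
    (hc : ∀ u v g, g ∉ Sg → c u v g = 0) : ∃ R, SmpCoefBd c R := by
  refine ⟨∑ u, ∑ v, ∑ g ∈ Sg, ‖c u v g‖, smpCoefBd_of_finite c Sg hc _ (fun u => ?_) fun v => ?_⟩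
  · exact Finset.single_le_sum (f := fun u => ∑ v, ∑ g ∈ Sg, ‖c u v g‖)
      (fun u _ => Finset.sum_nonneg fun v _ => Finset.sum_nonneg fun g _ => norm_nonneg _)
      (Finset.mem_univ u)
  · rw [Finset.sum_comm (s := Finset.univ) (t := Finset.univ)
      (f := fun u v => ∑ g ∈ Sg, ‖c u v g‖)]
    exact Finset.single_le_sum (f := fun v => ∑ u, ∑ g ∈ Sg, ‖c u v g‖)
      (fun u _ => Finset.sum_nonneg fun v _ => Finset.sum_nonneg fun g _ => norm_nonneg _)
      (Finset.mem_univ v)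

/-- The compression to the box is a finite matrix. -/
theorem smp_compress_norm_le [Fintype I] [DecidableEq I] [DecidableEq G] (c : I → I → G → ℂ) (Sg : Finset G)
    (hc : ∀ u v g, g ∉ Sg → c u v g = 0) (Bx : Finset G) :
    ‖scRestr {x : G × I | x.1 ∈ Bx} ∘L smpConv c ∘L scRestr {x : G × I | x.1 ∈ Bx}‖
      ≤ ‖(Matrix.of fun (x y : I × Bx) => c x.1 y.1 ((x.2 : G)⁻¹ * (y.2 : G)) :
          Matrix (I × Bx) (I × Bx) ℂ)‖ := by
  obtain ⟨R, hR⟩ := smpCoefBd_exists_of_finite c Sg hc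
  have hK := hR.hasKer.restr {x : G × I | x.1 ∈ Bx} {x : G × I | x.1 ∈ Bx}
  have hinj : Function.Injective (fun p : I × Bx => ((p.2 : G), p.1)) := by
    rintro ⟨i, a⟩ ⟨j, b⟩ hab
    simp only [Prod.mk.injEq] at hab
    exact Prod.ext hab.2 (Subtype.ext hab.1)
  have hrange : ∀ x : G × I, x.1 ∈ Bx → x ∈ Set.range (fun p : I × Bx => ((p.2 : G), p.1)) :=
    fun x hx => ⟨(x.2, ⟨x.1, hx⟩), rfl⟩
  have h := hK.norm_le_matrix_inj (fun p : I × Bx => ((p.2 : G), p.1))
    (fun p : I × Bx => ((p.2 : G), p.1)) hinj hinj (by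
      intro x y hxy
      rw [if_neg]
      exact fun h => hxy ⟨hrange x h.1, hrange y h.2⟩)
  refine h.trans (le_of_eq ?_)
  congr 1
  ext x y
  simp only [Matrix.of_apply]
  rw [if_pos ⟨x.2.2, y.2.2⟩]
  rfl

end conv

end Claimed.Agent.R300
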