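/-
Row 300 / S0553 (INJ paper).  LOWER ASSEMBLY, package LOW-4, abstract part (owner helper133):
 * `ic_sum_bound`  : absolute sums of a function dominated by finitely many one point functions;
 * `icKer s c P`   : the matrix `(g',g) ↦ ∑_a [g' s_a = g, P g' a] c_a` on a group, Schur bounds;
 * `ic_forest_bound` : an operator whose matrix is `icKer` of a set of formal Cayley edges with an injective
   choice of child endpoints has norm `≤ 2 B √|A|`.
-/
import Mathlib
import Claimed.Agent.R300.SmpConv

set_option autoImplicit false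

namespace Claimed.Agent.R300

open scoped ENNReal ComplexConjugate InnerProductSpace

/-- a nonnegative function supported in at most one point -/
theorem ic_single {β : Type*} (f : β → ℝ) (B : ℝ) (hB : 0 ≤ B) (hle : ∀ p, f p ≤ B)
    (hs : ∀ p p', f p ≠ 0 → f p' ≠ 0 → p = p') : Summable f ∧ ∑' p, f p ≤ B := by
  by_cases h : ∃ p₀, f p₀ ≠ 0
  · obtain ⟨p₀, hp₀⟩ := h
    have hsum : HasSum f (f p₀) := hasSum_single p₀ fun p hp => by
      by_contra hne
      exact hp (hs p p₀ hne hp₀)
    exact ⟨hsum.summable, hsum.tsum_eq ▸ hle p₀⟩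
  · have h0 : f = fun _ => 0 := by
      funext p
      by_contra hne
      exact h ⟨p, hne⟩
    rw [h0]
    exact ⟨summable_zero, by simpa using hB⟩

/-- absolute sums of a function dominated by finitely many one point functions -/
theorem ic_sum_bound {A β : Type*} [Fintype A] (F : A → β → ℝ) (B : A → ℝ) (hB : ∀ a, 0 ≤ B a)
    (hle : ∀ a p, F a p ≤ B a) (hs : ∀ a p p', F a p ≠ 0 → F a p' ≠ 0 → p = p') (k : β → ℂ)
    (hk : ∀ p, ‖k p‖ ≤ ∑ a, F a p) :
    Summable (fun p => ‖k p‖) ∧ ∑' p, ‖k p‖ ≤ ∑ a, B a := by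
  have h1 := fun a => ic_single (F a) (B a) (hB a) (hle a) (hs a)
  have h2 : Summable fun p => ∑ a, F a p := summable_sum fun a _ => (h1 a).1
  have h3 : Summable fun p => ‖k p‖ := Summable.of_nonneg_of_le (fun _ => norm_nonneg _) hk h2
  refine ⟨h3, ?_⟩
  calc ∑' p, ‖k p‖ ≤ ∑' p, ∑ a, F a p := Summable.tsum_le_tsum hk h3 h2
    _ = ∑ a, ∑' p, F a p := Summable.tsum_finsetSum fun a _ => (h1 a).1
    _ ≤ ∑ a, B a := Finset.sum_le_sum fun a _ => (h1 a).2

section edgeKer

open Classical

variable {Γ : Type} [Group Γ] {A : Type} [Fintype A] (s : A → Γ) (c : A → ℂ)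

/-- the matrix `(g',g) ↦ ∑_a [g' s_a = g, P g' a] c_a` -/
noncomputable def icKer (P : Γ → A → Prop) : Γ → Γ → ℂ :=
  fun g' g => ∑ a, if g' * s a = g ∧ P g' a then c a else 0

theorem icKer_norm_le (P : Γ → A → Prop) {B : ℝ} (hc : ∀ a, ‖c a‖ ≤ B) (g' g : Γ) :
    ‖icKer s c P g' g‖ ≤ ∑ a, if g' * s a = g ∧ P g' a then B else 0 := by
  refine (norm_sum_le _ _).trans (Finset.sum_le_sum fun a _ => ?_)
  split_ifs
  · exact hc a
  · simp

theorem icKer_schur (P : Γ → A → Prop) {B : ℝ} (hB : 0 ≤ B) (hc : ∀ a, ‖c a‖ ≤ B) (N₁ N₂ : ℕ)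
    (h₁ : ∀ g', (Finset.univ.filter (fun a => P g' a)).card ≤ N₁)
    (h₂ : ∀ g, (Finset.univ.filter (fun a => P (g * (s a)⁻¹) a)).card ≤ N₂) :
    SmpHasKer (smpKer (icKer s c P)) (icKer s c P) ∧
      ‖smpKer (icKer s c P)‖ ^ 2 ≤ (N₁ * B) * (N₂ * B) := by
  refine smp_schur_form (by positivity) (by positivity) (fun g' => ?_) (fun g => ?_)
  · obtain ⟨e1, e2⟩ := ic_sum_bound (fun a g => if g' * s a = g ∧ P g' a then B else 0)
      (fun a => if P g' a then B else 0) (fun a => by split_ifs <;> simp [hB])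
      (fun a g => by
        by_cases h : P g' a
        · simp only [h, and_true, if_true]
          split_ifs <;> simp [hB]
        · simp [h])
      (fun a g g₂ h h₂ => by
        have e : g' * s a = g := by
          by_contra hne
          exact h (by simp [hne])
        have e₂ : g' * s a = g₂ := by
          by_contra hne
          exact h₂ (by simp [hne])
        exact e.symm.trans e₂)
      (fun g => icKer s c P g' g) (fun g => icKer_norm_le s c P hc g' g)
    refine ⟨e1, e2.trans ?_⟩
    rw [← Finset.sum_filter, Finset.sum_const, nsmul_eq_mul]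
    exact mul_le_mul_of_nonneg_right (by exact_mod_cast h₁ g') hB
  · obtain ⟨e1, e2⟩ := ic_sum_bound (fun a g' => if g' * s a = g ∧ P g' a then B else 0)
      (fun a => if P (g * (s a)⁻¹) a then B else 0) (fun a => by split_ifs <;> simp [hB])
      (fun a g' => by
        by_cases h : g' * s a = g ∧ P g' a
        · have e : g' = g * (s a)⁻¹ := by rw [← h.1]; group
          have h' : P (g * (s a)⁻¹) a := e ▸ h.2
          simp [h, h']
        · simp only [h, if_false]
          split_ifs <;> simp [hB])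
      (fun a g' g₂ h h₂ => by
        have e : g' * s a = g := by
          by_contra hne
          exact h (by simp [hne])
        have e₂ : g₂ * s a = g := by
          by_contra hne
          exact h₂ (by simp [hne])
        exact mul_right_cancel (e.trans e₂.symm))
      (fun g' => icKer s c P g' g) (fun g' => icKer_norm_le s c P hc g' g)
    refine ⟨e1, e2.trans ?_⟩
    rw [← Finset.sum_filter, Finset.sum_const, nsmul_eq_mul]
    exact mul_le_mul_of_nonneg_right (by exact_mod_cast h₂ g) hB

/-- **Forest bound.**  An operator whose matrix is carried by a set `Res` of formal Cayley edges such that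
every edge of `Res` has its own child endpoint. -/
theorem ic_forest_bound (Res : Set (Γ × A)) (child : Γ × A → Γ)
    (hch : ∀ ε ∈ Res, child ε = ε.1 ∨ child ε = ε.1 * s ε.2) (hinj : Set.InjOn child Res)
    {B : ℝ} (hB : 0 ≤ B) (hc : ∀ a, ‖c a‖ ≤ B) (D : ScL2 Γ →L[ℂ] ScL2 Γ)
    (hD : SmpHasKer D (icKer s c (fun g a => (g, a) ∈ Res))) :
    ‖D‖ ≤ 2 * B * Real.sqrt (Fintype.card A) := by
  set P₁ : Γ → A → Prop := fun g a => (g, a) ∈ Res ∧ child (g, a) = g with hP₁
  set P₂ : Γ → A → Prop := fun g a => (g, a) ∈ Res ∧ child (g, a) ≠ g with hP₂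
  have hcardA : ∀ Q : A → Prop, (Finset.univ.filter Q).card ≤ Fintype.card A := fun Q =>
    Finset.card_le_univ _
  obtain ⟨k1, n1⟩ := icKer_schur s c P₁ hB hc 1 (Fintype.card A) (fun g' => by
      rw [Finset.card_le_one]
      intro a ha a' ha'
      simp only [Finset.mem_filter, Finset.mem_univ, true_and] at ha ha'
      have := hinj ha.1 ha'.1 (ha.2.trans ha'.2.symm)
      exact congrArg Prod.snd this) (fun g => hcardA _)
  obtain ⟨k2, n2⟩ := icKer_schur s c P₂ hB hc (Fintype.card A) 1 (fun g' => hcardA _) (fun g => by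
      rw [Finset.card_le_one]
      intro a ha a' ha'
      simp only [Finset.mem_filter, Finset.mem_univ, true_and] at ha ha'
      have e : ∀ a, P₂ (g * (s a)⁻¹) a → child (g * (s a)⁻¹, a) = g := by
        intro a ha
        rcases hch _ ha.1 with h | h
        · exact absurd h ha.2
        · rw [h]; simp
      have := hinj ha.1 ha'.1 ((e a ha).trans (e a' ha').symm)
      exact congrArg Prod.snd this)
  have hsum : D = smpKer (icKer s c P₁) + smpKer (icKer s c P₂) := by
    refine hD.unique ?_
    intro g' g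
    rw [(k1.add k2) g' g]
    simp only [icKer]
    rw [← Finset.sum_add_distrib]
    refine Finset.sum_congr rfl fun a _ => ?_
    by_cases h1 : g' * s a = g
    · by_cases h2 : (g', a) ∈ Res
      · by_cases h3 : child (g', a) = g'
        · simp [hP₁, hP₂, h1, h2, h3]
        · simp [hP₁, hP₂, h1, h2, h3]
      · simp [hP₁, hP₂, h2]
    · simp [h1]
  have hs : ∀ T : ScL2 Γ →L[ℂ] ScL2 Γ, ‖T‖ ^ 2 ≤ B ^ 2 * Fintype.card A →
      ‖T‖ ≤ B * Real.sqrt (Fintype.card A) := by
    intro T hT
    have h1 : ‖T‖ ≤ Real.sqrt (B ^ 2 * Fintype.card A) := Real.le_sqrt_of_sq_le hT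
    rwa [Real.sqrt_mul (sq_nonneg B), Real.sqrt_sq hB] at h1
  have m1 := hs _ (n1.trans (le_of_eq (by push_cast; ring)))
  have m2 := hs _ (n2.trans (le_of_eq (by push_cast; ring)))
  rw [hsum]
  calc _ ≤ ‖smpKer (icKer s c P₁)‖ + ‖smpKer (icKer s c P₂)‖ := norm_add_le _ _
    _ ≤ B * Real.sqrt (Fintype.card A) + B * Real.sqrt (Fintype.card A) := add_le_add m1 m2
    _ = 2 * B * Real.sqrt (Fintype.card A) := by ring

end edgeKer

end Claimed.Agent.R300
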