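/-
Row 300, shared sampling machine (SMP), elementary probability on finite products of finite
weighted spaces (no measure theory in the statements).  Sub-captain: helper21.
Proofs: helper141.
-/
import Mathlib

set_option autoImplicit false

namespace Claimed.Agent.R300

open Finset

universe u v w

section finite

variable {ι : Type u} [Fintype ι] [DecidableEq ι] {Ω : ι → Type v} [∀ i, Fintype (Ω i)]

/-- Expectation of `f` for the product of the weights `p i` on the finite product `∀ i, Ω i`. -/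
noncomputable def smpE {M : Type w} [AddCommMonoid M] [Module ℝ M]
    (p : ∀ i, Ω i → ℝ) (f : (∀ i, Ω i) → M) : M :=
  ∑ ω : (∀ i, Ω i), (∏ i, p i (ω i)) • f ω

/-- Probability of an event. -/
noncomputable def smpP (p : ∀ i, Ω i → ℝ) (A : (∀ i, Ω i) → Prop) : ℝ := by
  classical exact smpE p (fun ω => if A ω then (1 : ℝ) else 0)

variable (p : ∀ i, Ω i → ℝ)

/-- unfolding of `smpP` with any decidability instance. -/
theorem smpP_eq (A : (∀ i, Ω i) → Prop) [DecidablePred A] :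
    smpP p A = smpE p (fun ω => if A ω then (1 : ℝ) else 0) := by
  unfold smpP
  congr 1
  funext ω
  split_ifs <;> rfl

theorem smp_sum_weight : ∑ ω : (∀ i, Ω i), ∏ i, p i (ω i) = ∏ i, ∑ a, p i a := by
  rw [Finset.prod_univ_sum, Fintype.piFinset_univ]

omit [DecidableEq ι] [∀ i, Fintype (Ω i)] in
theorem smp_weight_nonneg (hp0 : ∀ i a, 0 ≤ p i a) (ω : ∀ i, Ω i) : 0 ≤ ∏ i, p i (ω i) :=
  Finset.prod_nonneg fun i _ => hp0 i (ω i)

theorem smpE_const {M : Type w} [AddCommMonoid M] [Module ℝ M] (hp1 : ∀ i, ∑ a, p i a = 1)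
    (c : M) : smpE p (fun _ => c) = c := by
  unfold smpE
  rw [← Finset.sum_smul, smp_sum_weight, Finset.prod_congr rfl fun i _ => hp1 i]
  simp

theorem smpE_one (hp1 : ∀ i, ∑ a, p i a = 1) : smpE p (fun _ => (1 : ℝ)) = 1 :=
  smpE_const p hp1 1

theorem smpE_mono (hp0 : ∀ i a, 0 ≤ p i a) {f g : (∀ i, Ω i) → ℝ} (h : ∀ ω, f ω ≤ g ω) :
    smpE p f ≤ smpE p g := by
  unfold smpE
  refine Finset.sum_le_sum fun ω _ => ?_
  exact smul_le_smul_of_nonneg_left (h ω) (smp_weight_nonneg p hp0 ω)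

theorem smpE_congr {M : Type w} [AddCommMonoid M] [Module ℝ M] {f g : (∀ i, Ω i) → M}
    (h : ∀ ω, f ω = g ω) : smpE p f = smpE p g := by
  rw [funext h]

theorem smpE_sum {M : Type w} [AddCommMonoid M] [Module ℝ M] {κ : Type*} (s : Finset κ)
    (f : κ → (∀ i, Ω i) → M) : smpE p (fun ω => ∑ k ∈ s, f k ω) = ∑ k ∈ s, smpE p (f k) := by
  unfold smpE
  rw [Finset.sum_comm]
  exact Finset.sum_congr rfl fun ω _ => Finset.smul_sum

theorem smpP_nonneg (hp0 : ∀ i a, 0 ≤ p i a) (A : (∀ i, Ω i) → Prop) : 0 ≤ smpP p A := by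
  classical
  rw [smpP_eq]
  unfold smpE
  refine Finset.sum_nonneg fun ω _ => ?_
  refine smul_nonneg (smp_weight_nonneg p hp0 ω) ?_
  show 0 ≤ (if A ω then (1 : ℝ) else 0)
  split_ifs <;> norm_num

theorem smpP_mono (hp0 : ∀ i a, 0 ≤ p i a) {A B : (∀ i, Ω i) → Prop} (h : ∀ ω, A ω → B ω) :
    smpP p A ≤ smpP p B := by
  classical
  rw [smpP_eq, smpP_eq]
  refine smpE_mono p hp0 fun ω => ?_
  by_cases hA : A ω
  · simp [hA, h ω hA]
  · simp only [hA, if_false]
    split_ifs <;> norm_num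

/-- Markov's inequality. -/
theorem smpP_markov (hp0 : ∀ i a, 0 ≤ p i a) (f : (∀ i, Ω i) → ℝ) (hf : ∀ ω, 0 ≤ f ω)
    (t : ℝ) (ht : 0 < t) : smpP p (fun ω => t ≤ f ω) ≤ smpE p f / t := by
  classical
  rw [smpP_eq, le_div_iff₀ ht]
  have h1 : smpE p (fun ω => if t ≤ f ω then (1 : ℝ) else 0) * t =
      smpE p (fun ω => (if t ≤ f ω then (1 : ℝ) else 0) * t) := by
    unfold smpE
    rw [Finset.sum_mul]
    exact Finset.sum_congr rfl fun ω _ => by simp only [smul_eq_mul]; ring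
  rw [h1]
  refine smpE_mono p hp0 fun ω => ?_
  by_cases h : t ≤ f ω
  · simp [h]
  · simpa [h] using hf ω

/-- A linear map commutes with the expectation. -/
theorem smpE_map {M N : Type*} [AddCommMonoid M] [Module ℝ M] [AddCommMonoid N] [Module ℝ N]
    (L : M →ₗ[ℝ] N) (f : (∀ i, Ω i) → M) : L (smpE p f) = smpE p (fun ω => L (f ω)) := by
  unfold smpE
  rw [map_sum]
  exact Finset.sum_congr rfl fun ω _ => map_smul L _ _

/-- Fubini: splitting off one coordinate. -/
theorem smp_sum_split {M : Type w} [AddCommMonoid M] (i₀ : ι) (F : (∀ i, Ω i) → M) :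
    ∑ ω, F ω = ∑ ρ : (∀ j : {j // j ≠ i₀}, Ω j), ∑ a : Ω i₀,
      F ((Equiv.piSplitAt i₀ Ω).symm (a, ρ)) := by
  rw [← Equiv.sum_comp (Equiv.piSplitAt i₀ Ω).symm, Fintype.sum_prod_type_right]

omit [Fintype ι] [∀ i, Fintype (Ω i)] in
theorem smp_split_update (i₀ : ι) (a b : Ω i₀) (ρ : ∀ j : {j // j ≠ i₀}, Ω j) :
    (Equiv.piSplitAt i₀ Ω).symm (a, ρ) =
      Function.update ((Equiv.piSplitAt i₀ Ω).symm (b, ρ)) i₀ a := by
  funext j
  by_cases hj : j = i₀
  · subst hj
    simp [Equiv.piSplitAt]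
  · simp [Equiv.piSplitAt, hj]

omit [Fintype ι] [∀ i, Fintype (Ω i)] in
theorem smp_split_self (i₀ : ι) (a : Ω i₀) (ρ : ∀ j : {j // j ≠ i₀}, Ω j) :
    (Equiv.piSplitAt i₀ Ω).symm (a, ρ) i₀ = a := by
  simp [Equiv.piSplitAt]

/-- **Centering.**  If the coordinate `i₀` enters a (noncommutative) product only through one
centred factor, the expectation vanishes. -/
theorem smpE_center {R : Type w} [Ring R] [Algebra ℝ R] (i₀ : ι) (x : Ω i₀ → R)
    (hx : ∑ a, p i₀ a • x a = 0) (L T : (∀ i, Ω i) → R)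
    (hL : ∀ ω a, L (Function.update ω i₀ a) = L ω)
    (hT : ∀ ω a, T (Function.update ω i₀ a) = T ω) :
    smpE p (fun ω => L ω * x (ω i₀) * T ω) = 0 := by
  unfold smpE
  rw [smp_sum_split i₀]
  refine Finset.sum_eq_zero fun ρ _ => ?_
  rcases isEmpty_or_nonempty (Ω i₀) with hemp | ⟨⟨b⟩⟩
  · exact Finset.sum_of_isEmpty _
  set ω₀ := (Equiv.piSplitAt i₀ Ω).symm (b, ρ) with hω₀
  set W : ℝ := ∏ i ∈ univ.erase i₀, p i (ω₀ i) with hW
  have h1 : ∀ a : Ω i₀, (∏ i, p i ((Equiv.piSplitAt i₀ Ω).symm (a, ρ) i)) •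
      (L ((Equiv.piSplitAt i₀ Ω).symm (a, ρ)) * x ((Equiv.piSplitAt i₀ Ω).symm (a, ρ) i₀) *
        T ((Equiv.piSplitAt i₀ Ω).symm (a, ρ))) = W • (L ω₀ * (p i₀ a • x a) * T ω₀) := by
    intro a
    rw [smp_split_self, smp_split_update i₀ a b ρ, ← hω₀, hL, hT,
      ← Finset.mul_prod_erase univ _ (Finset.mem_univ i₀), Function.update_self]
    have h2 : ∏ i ∈ univ.erase i₀, p i (Function.update ω₀ i₀ a i) = W := by
      refine Finset.prod_congr rfl fun i hi => ?_
      rw [Function.update_of_ne (Finset.ne_of_mem_erase hi)]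
    rw [h2, mul_comm, mul_smul, mul_smul_comm, smul_mul_assoc]
  rw [Finset.sum_congr rfl fun a _ => h1 a, ← Finset.smul_sum, ← Finset.sum_mul,
    ← Finset.mul_sum, hx]
  simp

/-- If an event has probability `< 1`, its complement contains a point all of whose coordinates have
positive weight. -/
theorem smp_exists_pos_of_lt_one (hp0 : ∀ i a, 0 ≤ p i a) (hp1 : ∀ i, ∑ a, p i a = 1)
    (A : (∀ i, Ω i) → Prop) (h : smpP p A < 1) : ∃ ω, (∀ i, 0 < p i (ω i)) ∧ ¬ A ω := by
  classical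
  by_contra hcon
  push Not at hcon
  have h1 : smpP p A = smpE p (fun _ => (1 : ℝ)) := by
    rw [smpP_eq]
    unfold smpE
    refine Finset.sum_congr rfl fun ω _ => ?_
    by_cases hA : A ω
    · simp [hA]
    · have h2 : ¬ ∀ i, 0 < p i (ω i) := fun h3 => hA (hcon ω h3)
      push Not at h2
      obtain ⟨i, hi⟩ := h2
      have h4 : p i (ω i) = 0 := le_antisymm hi (hp0 i _)
      rw [Finset.prod_eq_zero (Finset.mem_univ i) h4]
      simp
  rw [h1, smpE_one p hp1] at h
  exact lt_irrefl _ h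

/-- If an event has probability `< 1` its complement is inhabited. -/
theorem smp_exists_of_lt_one (hp0 : ∀ i a, 0 ≤ p i a) (hp1 : ∀ i, ∑ a, p i a = 1)
    (A : (∀ i, Ω i) → Prop) (h : smpP p A < 1) : ∃ ω, ¬ A ω := by
  obtain ⟨ω, _, hω⟩ := smp_exists_pos_of_lt_one p hp0 hp1 A h
  exact ⟨ω, hω⟩

/-- Union bound. -/
theorem smpP_union_le (hp0 : ∀ i a, 0 ≤ p i a) {κ : Type*} (s : Finset κ)
    (A : κ → (∀ i, Ω i) → Prop) : smpP p (fun ω => ∃ k ∈ s, A k ω) ≤ ∑ k ∈ s, smpP p (A k) := by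
  classical
  rw [smpP_eq, Finset.sum_congr rfl fun k _ => smpP_eq p (A k), ← smpE_sum]
  refine smpE_mono p hp0 fun ω => ?_
  by_cases h : ∃ k ∈ s, A k ω
  · obtain ⟨k, hk, hA⟩ := h
    rw [if_pos ⟨k, hk, hA⟩]
    have h1 : (if A k ω then (1 : ℝ) else 0) ≤ ∑ k ∈ s, (if A k ω then (1 : ℝ) else 0) :=
      Finset.single_le_sum (f := fun k => (if A k ω then (1 : ℝ) else 0))
        (fun j _ => by split_ifs <;> norm_num) hk
    rwa [if_pos hA] at h1
  · rw [if_neg h]
    exact Finset.sum_nonneg fun j _ => by split_ifs <;> norm_num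

/-- **Mixtures** (conditioning on auxiliary choices): if every `p i` is a convex combination of the
weights `q i c`, the expectation is the corresponding convex combination. -/
theorem smpE_mixture {M : Type w} [AddCommMonoid M] [Module ℝ M] {C : ι → Type v}
    [∀ i, Fintype (C i)] (pc : ∀ i, C i → ℝ) (q : ∀ i, C i → Ω i → ℝ)
    (hp : ∀ i a, p i a = ∑ c, pc i c * q i c a) (f : (∀ i, Ω i) → M) :
    smpE p f = smpE pc (fun c => smpE (fun i => q i (c i)) f) := by
  unfold smpE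
  simp only [Finset.smul_sum]
  rw [Finset.sum_comm]
  refine Finset.sum_congr rfl fun ω _ => ?_
  rw [Finset.prod_congr rfl fun i _ => hp i (ω i), Finset.prod_univ_sum, Fintype.piFinset_univ,
    Finset.sum_smul]
  refine Finset.sum_congr rfl fun c _ => ?_
  rw [Finset.prod_mul_distrib, mul_smul]

theorem smpP_mixture_le {C : ι → Type v} [∀ i, Fintype (C i)] (pc : ∀ i, C i → ℝ)
    (hpc0 : ∀ i c, 0 ≤ pc i c) (hpc1 : ∀ i, ∑ c, pc i c = 1) (q : ∀ i, C i → Ω i → ℝ)
    (hp : ∀ i a, p i a = ∑ c, pc i c * q i c a) (A : (∀ i, Ω i) → Prop) (ε : ℝ)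
    (h : ∀ c : ∀ i, C i, smpP (fun i => q i (c i)) A ≤ ε) : smpP p A ≤ ε := by
  classical
  rw [smpP_eq, smpE_mixture p pc q hp, ← smpE_const pc hpc1 ε]
  refine smpE_mono pc hpc0 fun c => ?_
  rw [← smpP_eq]
  exact h c

/-- **Push forward** along coordinatewise maps. -/
theorem smpE_push {M : Type w} [AddCommMonoid M] [Module ℝ M] {Ω' : ι → Type v}
    [∀ i, Fintype (Ω' i)] [∀ i, DecidableEq (Ω i)] (p' : ∀ i, Ω' i → ℝ) (φ : ∀ i, Ω' i → Ω i)
    (hp : ∀ i a, p i a = ∑ b with φ i b = a, p' i b) (f : (∀ i, Ω i) → M) :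
    smpE p f = smpE p' (fun ω' => f (fun i => φ i (ω' i))) := by
  classical
  unfold smpE
  rw [← Finset.sum_fiberwise univ (fun ω' : (∀ i, Ω' i) => (fun i => φ i (ω' i)))]
  refine Finset.sum_congr rfl fun ω _ => ?_
  rw [Finset.prod_congr rfl fun i _ => hp i (ω i), Finset.prod_univ_sum, Finset.sum_smul]
  have h1 : Fintype.piFinset (fun i => univ.filter fun b => φ i b = ω i) =
      univ.filter fun ω' : (∀ i, Ω' i) => (fun i => φ i (ω' i)) = ω := by
    ext ω'
    simp only [Fintype.mem_piFinset, mem_filter, mem_univ, true_and]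
    exact ⟨fun h => funext h, fun h i => congrFun h i⟩
  rw [h1]
  refine Finset.sum_congr rfl fun ω' hω' => ?_
  show _ = (∏ i, p' i (ω' i)) • f (fun i => φ i (ω' i))
  rw [(Finset.mem_filter.1 hω').2]

/-- currying of dependent functions on a product of index types. -/
def smpCurry {σ : Type u} (Θ : ι → σ → Type v) :
    (∀ j : ι × σ, Θ j.1 j.2) ≃ (∀ i s, Θ i s) where
  toFun ω := fun i s => ω (i, s)
  invFun x := fun j => x j.1 j.2
  left_inv _ := rfl
  right_inv _ := rfl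

/-- **Regrouping**: a product over pairs `(i, s)` is a product over `i` of products over `s`. -/
theorem smpE_regroup {M : Type w} [AddCommMonoid M] [Module ℝ M] {σ : Type u} [Fintype σ]
    [DecidableEq σ] {Θ : ι → σ → Type v} [∀ i s, Fintype (Θ i s)] (r : ∀ i s, Θ i s → ℝ)
    (f : (∀ i s, Θ i s) → M) :
    smpE (Ω := fun i => ∀ s, Θ i s) (fun i x => ∏ s, r i s (x s)) f
      = smpE (ι := ι × σ) (Ω := fun j => Θ j.1 j.2) (fun j => r j.1 j.2)
          (fun ω => f (fun i s => ω (i, s))) := by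
  unfold smpE
  rw [← Equiv.sum_comp (smpCurry Θ)]
  refine Finset.sum_congr rfl fun ω _ => ?_
  rw [Fintype.prod_prod_type]
  rfl

omit [∀ i, Fintype (Ω i)] in
theorem smp_prod_split (S : Finset ι) (g : ι → ℝ) :
    ∏ i, g i = (∏ i : S, g i) * ∏ i : {i // ¬ i ∈ S}, g i := by
  rw [← Finset.prod_mul_prod_compl S g,
    Finset.prod_subtype S (p := fun i => i ∈ S) (fun _ => Iff.rfl) g,
    Finset.prod_subtype Sᶜ (p := fun i => ¬ i ∈ S) (by simp) g]

/-- An event that depends only on the coordinates in `S` has the probability computed on `S`. -/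
theorem smpP_restrict (hp1 : ∀ i, ∑ a, p i a = 1) (S : Finset ι) (B : (∀ i : S, Ω i) → Prop) :
    smpP p (fun ω => B (fun i : S => ω i)) = smpP (fun i : S => p i) B := by
  classical
  rw [smpP_eq, smpP_eq]
  unfold smpE
  rw [← Equiv.sum_comp (Equiv.piEquivPiSubtypeProd (fun i => i ∈ S) Ω).symm,
    Fintype.sum_prod_type]
  refine Finset.sum_congr rfl fun x _ => ?_
  have h1 : ∀ y : (∀ i : {i // ¬ i ∈ S}, Ω i),
      (∏ i, p i ((Equiv.piEquivPiSubtypeProd (fun i => i ∈ S) Ω).symm (x, y) i)) •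
        (if B (fun i : S => (Equiv.piEquivPiSubtypeProd (fun i => i ∈ S) Ω).symm (x, y) i)
          then (1 : ℝ) else 0) =
      (∏ i : {i // ¬ i ∈ S}, p i (y i)) * ((∏ i : S, p i (x i)) • (if B x then (1 : ℝ) else 0)) := by
    intro y
    have h2 : (fun i : S => (Equiv.piEquivPiSubtypeProd (fun i => i ∈ S) Ω).symm (x, y) i) = x := by
      funext i
      simp [Equiv.piEquivPiSubtypeProd]
    rw [h2, smp_prod_split S]
    have h3 : ∏ i : S, p i ((Equiv.piEquivPiSubtypeProd (fun i => i ∈ S) Ω).symm (x, y) i)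
        = ∏ i : S, p i (x i) := by
      refine Finset.prod_congr rfl fun i _ => ?_
      simp [Equiv.piEquivPiSubtypeProd]
    have h4 : ∏ i : {i // ¬ i ∈ S},
        p i ((Equiv.piEquivPiSubtypeProd (fun i => i ∈ S) Ω).symm (x, y) i)
        = ∏ i : {i // ¬ i ∈ S}, p i (y i) := by
      refine Finset.prod_congr rfl fun i _ => ?_
      simp [Equiv.piEquivPiSubtypeProd, i.2]
    rw [h3, h4]
    simp only [smul_eq_mul]
    ring
  have h5 : ∏ i : {i // ¬ i ∈ S}, ∑ a, p i a = 1 := Finset.prod_eq_one fun i _ => hp1 i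
  rw [Finset.sum_congr rfl fun y _ => h1 y, ← Finset.sum_mul,
    smp_sum_weight (fun i : {i // ¬ i ∈ S} => p i), h5, one_mul]

end finite

end Claimed.Agent.R300
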