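/-
Row 300, shared sampling machine (SMP), graph part.
KK paper: Lemma `nil:rank` (8.1), Lemma `sam:walk-count` (9.5);  INJ paper: Lemmas 4.7, 4.8.
Graphs are given by darts (`HeisLaw.HlGraph`).  Sub-captain: helper21.
-/
import Claimed.Agent.R300.HeisLaw

set_option autoImplicit false

namespace Claimed.Agent.R300

open HeisLaw

universe u v

variable {V : Type u} {D : Type v} (G : HlGraph V D)

/-- Number of traversals (in both directions) of the undirected edge carrying the dart `d`. -/
def smpMult [DecidableEq D] (w : List D) (d : D) : ℕ := w.count d + w.count (G.inv d)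

/-- No undirected edge is traversed exactly once. -/
def smpNoSingle [DecidableEq D] (w : List D) : Prop := ∀ d, smpMult G w d ≠ 1

/-- Vertices visited by a walk that starts at `v`. -/
def smpVSupp [DecidableEq V] (v : V) (w : List D) : Finset V := insert v (w.map G.tgt).toFinset

/-- Darts of the support, closed under inversion: twice the number of undirected edges. -/
def smpDSupp [DecidableEq D] (w : List D) : Finset D := (w ++ w.map G.inv).toFinset

/-- The support of the walk `w` from `v` has first Betti number at most `b`:
`|E| + 1 ≤ |V| + b`, written with `2 |E| = |smpDSupp|`. -/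
def smpRankLe [DecidableEq V] [DecidableEq D] (v : V) (w : List D) (b : ℕ) : Prop :=
  (smpDSupp G w).card + 2 ≤ 2 * (smpVSupp G v w).card + 2 * b

/-- The constant of the rank bound. -/
def smpB (C : ℕ) : ℕ := (40 * C + 40) ^ 2

end Claimed.Agent.R300
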