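/-
Row 300, shared sampling machine (SMP): path expansion of the powers of a matrix over a noncommutative
ring supported on the edges of a finite multigraph; walks with a singleton edge have mean zero; abstract
moment bound (KK step 9.h and Lemma 9.4, INJ Lemma 4.9).  Sub-captain: helper21.
-/
import Claimed.Agent.R300.SmpWalk
import Claimed.Agent.R300.SmpProb

set_option autoImplicit false

namespace Claimed.Agent.R300

open HeisLaw Finset Matrix
open scoped Matrix.Norms.L2Operator Kronecker

universe u

/-- The dart graph of a multigraph `src tgt : E → V`; the dart `(e, false)` runs from `src e` to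
`tgt e`, the dart `(e, true)` backwards. -/
def smpGraph {V E : Type u} (src tgt : E → V) : HlGraph V (E × Bool) where
  src d := if d.2 then tgt d.1 else src d.1
  inv d := (d.1, !d.2)
  inv_inv d := by simp
  inv_ne d := by
    intro h
    have := congrArg Prod.snd h
    simp at this

/-- a walk with a singleton edge splits at the unique traversal of that edge. -/
theorem smp_single_split {V D : Type*} (G : HlGraph V D) [DecidableEq D] (w : List D)
    (hw : ¬ smpNoSingle G w) :
    ∃ (d' : D) (w₁ w₂ : List D), w = w₁ ++ d' :: w₂ ∧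
      ∀ f, f ∈ w₁ ∨ f ∈ w₂ → f ≠ d' ∧ f ≠ G.inv d' := by
  unfold smpNoSingle at hw
  push Not at hw
  obtain ⟨d, hd⟩ := hw
  obtain ⟨d', h1, h0⟩ : ∃ d' : D, w.count d' = 1 ∧ w.count (G.inv d') = 0 := by
    unfold smpMult at hd
    rcases Nat.eq_zero_or_pos (w.count d) with h | h
    · exact ⟨G.inv d, by omega, by rw [G.inv_inv]; exact h⟩
    · exact ⟨d, by omega, by omega⟩
  have hmem : d' ∈ w := List.count_pos_iff.mp (by omega)
  obtain ⟨w₁, w₂, rfl⟩ := List.append_of_mem hmem
  rw [List.count_append, List.count_cons_self] at h1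
  rw [List.count_append, List.count_cons] at h0
  refine ⟨d', w₁, w₂, rfl, ?_⟩
  intro f hf
  constructor
  · rintro rfl
    rcases hf with hf | hf
    · have := List.count_pos_iff.mpr hf; omega
    · have := List.count_pos_iff.mpr hf; omega
  · rintro rfl
    rcases hf with hf | hf
    · have := List.count_pos_iff.mpr hf; omega
    · have := List.count_pos_iff.mpr hf; omega

section ring

variable {V E : Type u} [Fintype V] [DecidableEq V] [Fintype E] [DecidableEq E]
variable {R : Type u} [Ring R]

/-- Value of a dart: `y e` forwards, `ys e` backwards. -/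
def smpDVal (y ys : E → R) (d : E × Bool) : R := if d.2 then ys d.1 else y d.1

/-- The `V × V` matrix over the (noncommutative) ring `R` with `y e` at `(src e, tgt e)` and `ys e`
at `(tgt e, src e)`. -/
def smpRMat (src tgt : E → V) (y ys : E → R) : Matrix V V R :=
  ∑ e, (Matrix.single (src e) (tgt e) (y e) + Matrix.single (tgt e) (src e) (ys e))

/-- All walks of length `n` from `a` to `b`, as a finset of lists of darts. -/
noncomputable def smpWalks (src tgt : E → V) (n : ℕ) (a b : V) : Finset (List (E × Bool)) :=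
  open Classical in
  Finset.filter (fun w => (smpGraph src tgt).IsWalk a w b)
    ((Finset.univ : Finset (List.Vector (E × Bool) n)).image (fun w => w.toList))

theorem mem_smpWalks (src tgt : E → V) (n : ℕ) (a b : V) (w : List (E × Bool)) :
    w ∈ smpWalks src tgt n a b ↔ w.length = n ∧ (smpGraph src tgt).IsWalk a w b := by
  classical
  unfold smpWalks
  rw [Finset.mem_filter, Finset.mem_image]
  constructor
  · rintro ⟨⟨x, -, rfl⟩, h⟩
    exact ⟨x.toList_length, h⟩
  · rintro ⟨h1, h2⟩
    exact ⟨⟨⟨w, h1⟩, Finset.mem_univ _, rfl⟩, h2⟩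

/-- entries of `smpRMat` as a sum over darts. -/
theorem smpRMat_apply (src tgt : E → V) (y ys : E → R) (a c : V) :
    smpRMat src tgt y ys a c = ∑ d : E × Bool,
      if (smpGraph src tgt).src d = a ∧ (smpGraph src tgt).tgt d = c then smpDVal y ys d else 0 := by
  rw [Fintype.sum_prod_type]
  simp only [smpRMat, Matrix.sum_apply, Matrix.add_apply, Matrix.single_apply, Fintype.sum_bool,
    smpGraph, HlGraph.tgt, smpDVal]
  refine Finset.sum_congr rfl fun e _ => ?_
  simp [add_comm]

theorem smpWalks_succ (src tgt : E → V) (n : ℕ) (a b : V) :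
    smpWalks src tgt (n + 1) a b =
      (Finset.univ.filter (fun d => (smpGraph src tgt).src d = a)).biUnion
        (fun d => (smpWalks src tgt n ((smpGraph src tgt).tgt d) b).image (List.cons d)) := by
  ext w
  simp only [mem_smpWalks, Finset.mem_biUnion, Finset.mem_filter, Finset.mem_univ, true_and,
    Finset.mem_image]
  constructor
  · rintro ⟨h1, h2⟩
    cases w with
    | nil => simp at h1
    | cons d w =>
      rw [HlGraph.isWalk_cons] at h2
      exact ⟨d, h2.1, w, ⟨by simpa using h1, h2.2⟩, rfl⟩
  · rintro ⟨d, hd, w', ⟨h1, h2⟩, rfl⟩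
    exact ⟨by simp [h1], hd, h2⟩

/-- **Path expansion** of the powers of `smpRMat`. -/
theorem smpRMat_pow_apply (src tgt : E → V) (y ys : E → R) (n : ℕ) (a b : V) :
    (smpRMat src tgt y ys ^ n) a b
      = ∑ w ∈ smpWalks src tgt n a b, (w.map (smpDVal y ys)).prod := by
  induction n generalizing a with
  | zero =>
    rw [pow_zero, Matrix.one_apply]
    by_cases hab : a = b
    · have : smpWalks src tgt 0 a b = {[]} := by
        ext w
        rw [mem_smpWalks, Finset.mem_singleton, List.length_eq_zero_iff]
        constructor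
        · exact fun h => h.1
        · rintro rfl; exact ⟨rfl, hab⟩
      rw [this, if_pos hab]; simp
    · have : smpWalks src tgt 0 a b = ∅ := by
        rw [Finset.eq_empty_iff_forall_notMem]
        intro w hw
        rw [mem_smpWalks, List.length_eq_zero_iff] at hw
        obtain ⟨rfl, h2⟩ := hw
        exact hab h2
      rw [this, if_neg hab]; simp
  | succ n ih =>
    rw [pow_succ', Matrix.mul_apply, smpWalks_succ, Finset.sum_biUnion]
    · have h1 : ∀ d ∈ Finset.univ.filter (fun d => (smpGraph src tgt).src d = a),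
          ∑ w ∈ (smpWalks src tgt n ((smpGraph src tgt).tgt d) b).image (List.cons d),
            (w.map (smpDVal y ys)).prod =
          smpDVal y ys d * (smpRMat src tgt y ys ^ n) ((smpGraph src tgt).tgt d) b := by
        intro d _
        rw [Finset.sum_image (fun w _ w' _ h => (List.cons.inj h).2), ih, Finset.mul_sum]
        simp
      rw [Finset.sum_congr rfl h1, Finset.sum_filter]
      simp only [smpRMat_apply, Finset.sum_mul]
      rw [Finset.sum_comm]
      refine Finset.sum_congr rfl fun d _ => ?_
      by_cases hd : (smpGraph src tgt).src d = a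
      · simp only [hd, true_and, if_true, ite_mul, zero_mul]
        rw [Finset.sum_ite_eq]
        simp
      · simp [hd]
    · intro d _ d' _ hdd
      rw [Function.onFun, Finset.disjoint_left]
      intro w hw hw'
      obtain ⟨w1, -, rfl⟩ := Finset.mem_image.mp hw
      obtain ⟨w2, -, h2⟩ := Finset.mem_image.mp hw'
      exact hdd (List.cons.inj h2).1.symm

end ring

section moment

variable {V E : Type u} [Fintype V] [DecidableEq V] [Fintype E] [DecidableEq E]
variable {R : Type u} [Ring R] [Algebra ℝ R]
variable {Ω : E → Type u} [∀ e, Fintype (Ω e)]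

/-- A walk with a singleton edge has vanishing expected product. -/
theorem smpE_walk_single (p : ∀ e, Ω e → ℝ) (x xs : ∀ e, Ω e → R)
    (hc : ∀ e, ∑ a, p e a • x e a = 0) (hcs : ∀ e, ∑ a, p e a • xs e a = 0)
    (src tgt : E → V) (w : List (E × Bool)) (hw : ¬ smpNoSingle (smpGraph src tgt) w) :
    smpE p (fun ω => (w.map (smpDVal (fun e => x e (ω e)) (fun e => xs e (ω e)))).prod) = 0 := by
  obtain ⟨d', w₁, w₂, rfl, hsplit⟩ := smp_single_split (smpGraph src tgt) w hw
  have hfree : ∀ f, f ∈ w₁ ∨ f ∈ w₂ → f.1 ≠ d'.1 := by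
    intro f hf hfe
    obtain ⟨k1, k2⟩ := hsplit f hf
    obtain ⟨e, β⟩ := f
    obtain ⟨e', β'⟩ := d'
    simp only at hfe
    subst hfe
    by_cases hβ : β = β'
    · exact k1 (by rw [hβ])
    · apply k2
      simp only [smpGraph, Prod.mk.injEq, true_and]
      cases β <;> cases β' <;> first | rfl | exact absurd rfl hβ
  have hinv : ∀ (u : List (E × Bool)), (∀ f ∈ u, f.1 ≠ d'.1) → ∀ (ω : ∀ e, Ω e) (a : Ω d'.1),
      (u.map (smpDVal (fun e => x e (Function.update ω d'.1 a e))
        (fun e => xs e (Function.update ω d'.1 a e)))).prod =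
      (u.map (smpDVal (fun e => x e (ω e)) (fun e => xs e (ω e)))).prod := by
    intro u hu ω a
    congr 1
    apply List.map_congr_left
    intro f hf
    unfold smpDVal
    dsimp only
    rw [Function.update_of_ne (hu f hf)]
  have hprod : ∀ ω : ∀ e, Ω e,
      ((w₁ ++ d' :: w₂).map (smpDVal (fun e => x e (ω e)) (fun e => xs e (ω e)))).prod =
      (w₁.map (smpDVal (fun e => x e (ω e)) (fun e => xs e (ω e)))).prod *
        (if d'.2 then xs d'.1 (ω d'.1) else x d'.1 (ω d'.1)) *
        (w₂.map (smpDVal (fun e => x e (ω e)) (fun e => xs e (ω e)))).prod := by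
    intro ω
    rw [List.map_append, List.map_cons, List.prod_append, List.prod_cons, mul_assoc]
    rfl
  rw [smpE_congr p hprod]
  exact smpE_center p d'.1 (fun a => if d'.2 then xs d'.1 a else x d'.1 a)
    (by split_ifs
        · exact hcs _
        · exact hc _)
    _ _ (fun ω a => hinv w₁ (fun f hf => hfree f (Or.inl hf)) ω a)
    (fun ω a => hinv w₂ (fun f hf => hfree f (Or.inr hf)) ω a)

/-- **Abstract moment bound.**  `t` is a linear functional with `|t (product of n values)| ≤ c`. -/
theorem smp_moment_abstract (p : ∀ e, Ω e → ℝ) (hp0 : ∀ e a, 0 ≤ p e a)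
    (hp1 : ∀ e, ∑ a, p e a = 1) (x xs : ∀ e, Ω e → R)
    (hc : ∀ e, ∑ a, p e a • x e a = 0) (hcs : ∀ e, ∑ a, p e a • xs e a = 0)
    (src tgt : E → V) (n Wn : ℕ) (t : R →ₗ[ℝ] ℝ) (c : ℝ) (hc0 : 0 ≤ c)
    (ht : ∀ (ω : ∀ e, Ω e) (w : List (E × Bool)), w.length = n →
      |t (w.map (smpDVal (fun e => x e (ω e)) (fun e => xs e (ω e)))).prod| ≤ c)
    (hW : ∀ (v : V) (S : Finset (List (E × Bool))),
      (∀ w ∈ S, w.length = n ∧ (smpGraph src tgt).IsWalk v w v ∧
        smpNoSingle (smpGraph src tgt) w) → S.card ≤ Wn) :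
    smpE p (fun ω => ∑ v, t ((smpRMat src tgt (fun e => x e (ω e)) (fun e => xs e (ω e)) ^ n) v v))
      ≤ Fintype.card V * Wn * c := by
  classical
  have h1 : ∀ ω : ∀ e, Ω e,
      ∑ v, t ((smpRMat src tgt (fun e => x e (ω e)) (fun e => xs e (ω e)) ^ n) v v) =
      ∑ v, ∑ w ∈ smpWalks src tgt n v v,
        t (w.map (smpDVal (fun e => x e (ω e)) (fun e => xs e (ω e)))).prod := by
    intro ω
    refine Finset.sum_congr rfl fun v _ => ?_
    rw [smpRMat_pow_apply, map_sum]
  rw [smpE_congr p h1, smpE_sum]
  have h2 : ∀ v ∈ (Finset.univ : Finset V),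
      smpE p (fun ω => ∑ w ∈ smpWalks src tgt n v v,
        t (w.map (smpDVal (fun e => x e (ω e)) (fun e => xs e (ω e)))).prod) ≤ Wn * c := by
    intro v _
    rw [smpE_sum, ← Finset.sum_filter_add_sum_filter_not _
      (fun w => smpNoSingle (smpGraph src tgt) w)]
    have h3 : ∑ w ∈ (smpWalks src tgt n v v).filter (fun w => ¬ smpNoSingle (smpGraph src tgt) w),
        smpE p (fun ω => t (w.map (smpDVal (fun e => x e (ω e)) (fun e => xs e (ω e)))).prod) = 0 := by
      refine Finset.sum_eq_zero fun w hw => ?_
      rw [← smpE_map p t, smpE_walk_single p x xs hc hcs src tgt w (Finset.mem_filter.mp hw).2, map_zero]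
    rw [h3, add_zero]
    have h4 : ∀ w ∈ (smpWalks src tgt n v v).filter (fun w => smpNoSingle (smpGraph src tgt) w),
        smpE p (fun ω => t (w.map (smpDVal (fun e => x e (ω e)) (fun e => xs e (ω e)))).prod) ≤ c := by
      intro w hw
      have hlen := ((mem_smpWalks src tgt n v v w).1 (Finset.mem_filter.mp hw).1).1
      calc smpE p (fun ω => t (w.map (smpDVal (fun e => x e (ω e)) (fun e => xs e (ω e)))).prod)
          ≤ smpE p (fun _ => c) := smpE_mono p hp0 (fun ω => (le_abs_self _).trans (ht ω w hlen))
        _ = c := smpE_const p hp1 c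
    refine le_trans (Finset.sum_le_sum h4) ?_
    rw [Finset.sum_const, nsmul_eq_mul]
    apply mul_le_mul_of_nonneg_right _ hc0
    exact_mod_cast hW v _ (fun w hw => by
      obtain ⟨hw1, hw2⟩ := Finset.mem_filter.mp hw
      obtain ⟨k1, k2⟩ := (mem_smpWalks src tgt n v v w).1 hw1
      exact ⟨k1, k2, hw2⟩)
  refine le_trans (Finset.sum_le_sum h2) ?_
  rw [Finset.sum_const, nsmul_eq_mul, Finset.card_univ, mul_assoc]

end moment

end Claimed.Agent.R300
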