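/-
Row 300 / S0553 (INJ paper).  INTERFACES of the lower assembly (owner: helper105, INJ captain).
 * `InjGr p`      : height graded bipartite labelled multigraph (language for Sec. 1-5)
 * `InjOld p`     : pre-deletion graph + survivors;  `InjGraphStmt` = output of Sec. 1-3  (helper31/126/59)
 * `InjVoltStmt`  : Proposition 4.2 (sampled symbols), scalar/product form                 (S-packages)
 * `InjGeo`, `InjGeoStmt` : output of Sec. 5, 5b (group, embedding, domains, forest, torsion, cocycle)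
DEFINITIONS ONLY (sorry-free).  Frozen after review: tell helper105 at once if something is false/awkward.
-/
import Mathlib
import Claimed.Agent.R300.LabDefs
import Claimed.Agent.R300.SmpPath
import Claimed.Agent.R300.SmpConv
import Claimed.Agent.R300.InjModel

set_option autoImplicit false

namespace Claimed.Agent.R300

open HeisLaw

/-- offsets as integers: a type `τ` joins `𝒜_i` to `ℬ_(i + off τ)` -/
def injOff : Lab.Off → ℤ
  | .dn => -1
  | .eq => 0
  | .up => 1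

/-- A height graded bipartite labelled multigraph.  Positive edges run from their `𝒜` endpoint `src`
(`sd = false`) to their `ℬ` endpoint `tgt` (`sd = true`). -/
structure InjGr (p : Lab.Par) where
  V : Type
  E : Type
  Lb : Type
  sd : V → Bool
  ht : V → ℕ
  src : E → V
  tgt : E → V
  lab : E → Lb
  ty : Lb → Fin p.T

namespace InjGr

variable {p : Lab.Par} (X : InjGr p)

/-- the dart graph: `(e,false)` runs from `src e` to `tgt e`, `(e,true)` backwards -/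
def dg : HlGraph X.V (X.E × Bool) := smpGraph X.src X.tgt
/-- type of an edge -/
def ety (e : X.E) : Fin p.T := X.ty (X.lab e)
/-- signed letter of a dart -/
def dlab (d : X.E × Bool) : X.Lb × Bool := (X.lab d.1, d.2)
/-- voltage of a dart -/
def dvol (vol : X.E → InjHeis) (d : X.E × Bool) : InjHeis := if d.2 then (vol d.1)⁻¹ else vol d.1

/-- degrees of the complete blocks: `d_τ`, `D_τ` -/
def dA (p : Lab.Par) (τ : Fin p.T) : ℕ := p.d * 2 ^ (if p.off τ = Lab.Off.up then p.b else 0)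
def dB (p : Lab.Par) (τ : Fin p.T) : ℕ := p.D * 2 ^ (if p.off τ = Lab.Off.dn then p.b else 0)
/-- the normaliser `q_τ = √(d_τ D_τ)` -/
noncomputable def qq (p : Lab.Par) (τ : Fin p.T) : ℝ := Real.sqrt (dA p τ * dB p τ)

/-- structural properties -/
structure Str : Prop where
  sd_src : ∀ e, X.sd (X.src e) = false
  sd_tgt : ∀ e, X.sd (X.tgt e) = true
  ht_edge : ∀ e, (X.ht (X.tgt e) : ℤ) = X.ht (X.src e) + injOff (p.off (X.ety e))
  fold_src : ∀ e e', X.src e = X.src e' → X.lab e = X.lab e' → e = e'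
  fold_tgt : ∀ e e', X.tgt e = X.tgt e' → X.lab e = X.lab e' → e = e'
  fin_lb : Finite X.Lb
  fin_layer : ∀ s i, Finite {v // X.sd v = s ∧ X.ht v = i}

/-- degrees are at most those of the complete blocks -/
structure DegLe : Prop where
  degA : ∀ τ a, Nat.card {e // X.src e = a ∧ X.ety e = τ} ≤ dA p τ
  degB : ∀ τ b, Nat.card {e // X.tgt e = b ∧ X.ety e = τ} ≤ dB p τ

/-- the layers are not larger than those of the complete tower (`2^(H_i + s/5)`, `2^(H_i)`) -/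
def CardLe : Prop := ∀ s i, Nat.card {v // X.sd v = s ∧ X.ht v = i} ≤ 2 ^ (p.H i + p.s)

/-- (P2) girth `> .93 m_i`, `m_i = H_i / log2 q` -/
def Girth93 : Prop := ∀ (a : X.V) (W : List (X.E × Bool)), X.dg.IsWalk a W a → W ≠ [] →
  X.dg.CycRed W → 93 * p.H (X.ht a) < 100 * (W.length * p.lq)

/-- (P3) closed walks of length `≤ 6.04 m_i` are not laws of the Heisenberg group -/
def NonLaw604 : Prop := ∀ (a : X.V) (W : List (X.E × Bool)), X.dg.IsWalk a W a → W ≠ [] →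
  X.dg.CycRed W → 100 * (W.length * p.lq) ≤ 604 * p.H (X.ht a) →
  ∃ ψ : X.E × Bool → InjHeis, (∀ d, ψ (X.dg.inv d) = (ψ d)⁻¹) ∧ (W.map ψ).prod ≠ 1

/-- voltage girth: closed walks of length `≤ 6.03 m_i` have nontrivial holonomy -/
def VGirth603 (vol : X.E → InjHeis) : Prop := ∀ (a : X.V) (W : List (X.E × Bool)),
  X.dg.IsWalk a W a → W ≠ [] → X.dg.CycRed W → 100 * (W.length * p.lq) ≤ 603 * p.H (X.ht a) →
  (W.map (X.dvol vol)).prod ≠ 1

/-- word uniqueness at length `1.002 m_i` -/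
def WordUnique : Prop := ∀ (a a' c c' : X.V) (W W' : List (X.E × Bool)), X.dg.IsWalk a W c →
  X.dg.IsWalk a' W' c' → X.dg.Reduced W → W.map X.dlab = W'.map X.dlab →
  1002 * p.H (X.ht a) ≤ 1000 * (W.length * p.lq) → W = W'

/-- refinement of the labels -/
def refine (St : Type) (lab' : X.E → St) (pr : St → X.Lb) : InjGr p :=
  { X with Lb := St, lab := lab', ty := fun a => X.ty (pr a) }

end InjGr

/-! ### Output of Sections 1-3 -/

/-- the pre-deletion graph with its surviving vertices -/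
structure InjOld (p : Lab.Par) where
  X0 : InjGr p
  surv : X0.V → Prop

namespace InjOld

variable {p : Lab.Par} (O : InjOld p)

/-- the surviving old graph -/
def sub : InjGr p where
  V := {v // O.surv v}
  E := {e // O.surv (O.X0.src e) ∧ O.surv (O.X0.tgt e)}
  Lb := O.X0.Lb
  sd v := O.X0.sd v.1
  ht v := O.X0.ht v.1
  src e := ⟨O.X0.src e.1, e.2.1⟩
  tgt e := ⟨O.X0.tgt e.1, e.2.2⟩
  lab e := O.X0.lab e.1
  ty := O.X0.ty

/-- biregular expanding blocks, small deletion -/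
structure Exp (ε ρ : ℝ) : Prop where
  str : O.X0.Str
  cardB : ∀ i, Nat.card {v // O.X0.sd v = true ∧ O.X0.ht v = i} = 2 ^ p.H i
  cardA : ∀ i, Nat.card {v // O.X0.sd v = false ∧ O.X0.ht v = i} = 2 ^ (p.H i + 2 * p.r - p.s)
  degA : ∀ τ a, O.X0.sd a = false → 0 ≤ (O.X0.ht a : ℤ) + injOff (p.off τ) →
    Nat.card {e // O.X0.src e = a ∧ O.X0.ety e = τ} = InjGr.dA p τ
  degB : ∀ τ b, O.X0.sd b = true → 0 ≤ (O.X0.ht b : ℤ) - injOff (p.off τ) →
    Nat.card {e // O.X0.tgt e = b ∧ O.X0.ety e = τ} = InjGr.dB p τ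
  /-- centred norm `≤ ρ` of the normalised incidence of every block -/
  gap : ∀ (τ : Fin p.T) (k : ℕ) (f : O.X0.V → ℝ), (∀ v, f v ≠ 0 → O.X0.sd v = true ∧ O.X0.ht v = k) →
    ∑ᶠ v, f v = 0 →
    ∑ᶠ a, (∑ᶠ e : {e // O.X0.src e = a ∧ O.X0.ety e = τ}, f (O.X0.tgt e.1)) ^ 2
      ≤ ρ ^ 2 * (InjGr.dA p τ * InjGr.dB p τ) * ∑ᶠ v, f v ^ 2
  del : ∀ s i, (Nat.card {v // O.X0.sd v = s ∧ O.X0.ht v = i ∧ ¬ O.surv v} : ℝ)
    ≤ ε * Nat.card {v // O.X0.sd v = s ∧ O.X0.ht v = i}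

end InjOld

/-- **Output of Sections 1-3** (Props tower-labels, sequential-law, pruning). -/
def InjGraphStmt : Prop :=
  ∃ b : ℕ, 1 ≤ b ∧ ∃ ρ : ℝ, 0 < ρ ∧ ρ < 1 ∧
    ∀ (T : ℕ) (off : Fin T → Lab.Off) (ε : ℝ), 0 < ε →
    ∃ s0 : ℕ, ∀ s : ℕ, s0 ≤ s → 20000 ∣ s → 5 * b ∣ s →
    ∃ n1 : ℕ, ∀ n0 : ℕ, n1 ≤ n0 →
    ∃ O : InjOld ⟨b, s, n0, T, off⟩, O.Exp ε ρ ∧ O.sub.Girth93 ∧ O.sub.NonLaw604 ∧ O.sub.WordUnique ∧
      Nat.card O.X0.Lb ≤ T * (2000000 * s) * 2 ^ (8001 * s / 20000) * 2 ^ b * 2 ^ (3 * s / 5)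

/-! ### Proposition 4.2 -/

/-- symbol data of a type (the offset is in `p.off`) -/
structure InjSy where
  A : C(ℝ, ℂ)
  B : C(ℝ, ℂ)
  sel : ℕ → Prop

structure InjSy.Adm (R : ℝ) (σ : InjSy) : Prop where
  smoothA : ∀ m : ℕ, ContDiff ℝ m σ.A
  smoothB : ∀ m : ℕ, ContDiff ℝ m σ.B
  suppA : ∀ x : ℝ, R < |x| → σ.A x = 0
  suppB : ∀ x : ℝ, R < |x| → σ.B x = 0

open Classical in
/-- coefficients (in `ℂ[Heis]`, matrix indices `X.V`) of `sampled operator - incidence ⊗ mean`: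
`(v,w,h) ↦ q_τ⁻¹ ∑_{e : v → w of type τ} ([vol e = h] wt e - m (ht v) h)` -/
noncomputable def injSampCoef {p : Lab.Par} (X : InjGr p) (τ : Fin p.T) (vol : X.E → InjHeis)
    (wt : X.E → ℂ) (m : ℕ → InjHeis → ℂ) : X.V → X.V → InjHeis → ℂ := fun v w h =>
  ∑ᶠ e : {e // X.src e = v ∧ X.tgt e = w ∧ X.ety e = τ},
    ((if vol e.1 = h then wt e.1 else 0) - m (X.ht v) h) / (InjGr.qq p τ : ℂ)

open Classical in
/-- the target of the mean of type `τ` in the block `(i, i + off τ)`: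
`[sel i] T_i Φ(A(Z_t(θ-α)) B(N_t ξ)) T_k*`, `t = max i k` -/
noncomputable def injMeanOp {H : Type} [NormedAddCommGroup H] [InnerProductSpace ℂ H]
    [CompleteSpace H] (π : InjRep H) (Φ : C(InjT × InjT, ℂ) →⋆ₐ[ℂ] (H →L[ℂ] H)) (b H0 : ℕ)
    (σ : InjSy) (o : ℤ) (i : ℕ) : H →L[ℂ] H :=
  if σ.sel i ∧ 0 ≤ (i : ℤ) + o then
    injT π b H0 i * Φ (injLoc2 b H0 σ.A σ.B (max i ((i : ℤ) + o).toNat)) *
      star (injT π b H0 ((i : ℤ) + o).toNat)
  else 0

/-- **Proposition 4.2** (sampled symbols), scalar weights, product symbols. -/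
def InjVoltStmt : Prop :=
  ∀ b : ℕ, 1 ≤ b → ∀ R : ℝ, 1 ≤ R → ∀ (T : ℕ) (off : Fin T → Lab.Off) (sy : Fin T → InjSy),
    (∀ τ, (sy τ).Adm R) → ∀ η : ℝ, 0 < η →
  ∃ (M : ℝ) (nW : ℕ), ∃ s0 : ℕ, ∀ s : ℕ, s0 ≤ s → 20000 ∣ s → 5 * b ∣ s →
  ∃ n1 : ℕ, ∀ n0 : ℕ, n1 ≤ n0 → ∀ X : InjGr ⟨b, s, n0, T, off⟩,
    X.Str → X.DegLe → X.CardLe → X.Girth93 → X.NonLaw604 →
  ∃ (vol : X.E → InjHeis) (wt : X.E → ℂ) (WW : Finset ℂ) (m : Fin T → ℕ → InjHeis →₀ ℂ),
    X.VGirth603 vol ∧ (∀ e, wt e ∈ WW) ∧ WW.card ≤ nW ∧ (∀ w ∈ WW, ‖w‖ ≤ M) ∧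
    (∀ τ i, (m τ i).sum (fun _ c => ‖c‖) ≤ M) ∧
    -- (2a) the sampled operator is close to `incidence ⊗ mean` in the full regular norm
    (∀ τ, ‖smpConv (injSampCoef X τ vol wt (fun i => m τ i))‖ ≤ η) ∧
    -- (2b) the mean is close to the spread symbol, in EVERY representation
    (∀ (τ : Fin T) (i : ℕ) (H : Type) [NormedAddCommGroup H] [InnerProductSpace ℂ H]
      [CompleteSpace H] (π : InjRep H) (Φ : C(InjT × InjT, ℂ) →⋆ₐ[ℂ] (H →L[ℂ] H)),
      Φ injE1 = π.π InjHeis.z → Φ injE2 = π.π InjHeis.x →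
      ‖(m τ i).sum (fun h c => c • π.π h)
        - injMeanOp π Φ b ((2 * n0 + 1) * s) (sy τ) (injOff (off τ)) i‖ ≤ η)

/-! ### Output of Sections 5, 5b -/

/-- the group and its sheets over a voltage graph -/
structure InjGeo {p : Lab.Par} (X : InjGr p) (vol : X.E → InjHeis) where
  Γ : Type
  grp : Group Γ
  φ : InjHeis →* Γ
  /-- lifts of the base vertices: the sheet of the coset `x φ(Heis)` has the vertices `x φ(h) t_v` -/
  t : X.V → Γ
  /-- the letters -/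
  sig : X.Lb → Γ
  /-- `rem g v`: the incidence (physical vertex `g`, base type `v`) is removed from its domain -/
  rem : Γ → X.V → Prop

attribute [instance] InjGeo.grp

namespace InjGeo

variable {p : Lab.Par} {X : InjGr p} {vol : X.E → InjHeis} (G : InjGeo X vol)

/-- residual formal Cayley edges `(g,a) : g ⟶ g * sig a` : not an edge of a sheet with both ends retained -/
def Res : Set (G.Γ × X.Lb) :=
  {ε | ¬ ∃ e, X.lab e = ε.2 ∧ ¬ G.rem ε.1 (X.src e) ∧ ¬ G.rem (ε.1 * G.sig ε.2) (X.tgt e)}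

structure Good : Prop where
  φ_inj : Function.Injective G.φ
  tf : ∀ g : G.Γ, IsOfFinOrder g → g = 1
  coc : ∃ c : G.Γ → G.Γ → ℤ, (∀ a b d : G.Γ, c a b + c (a * b) d = c a (b * d) + c b d) ∧
      ∃ κ : InjHeis → ℤ, ∀ h h' : InjHeis,
        c (G.φ h) (G.φ h') = InjHeis.om h h' + (κ h + κ h' - κ (h * h'))
  /-- `t_v σ = φ(h_e) t_w` for `e : v ⟶ w` with letter `σ` -/
  edge : ∀ e, G.t (X.src e) * G.sig (X.lab e) = G.φ (vol e) * G.t (X.tgt e)
  /-- disjoint domains -/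
  ret_unique : ∀ g v w, ¬ G.rem g v → ¬ G.rem g w → v = w
  /-- at most `2^(10 H_i)` removed incidences over a base vertex of height `i` in one sheet -/
  rem_fin : ∀ (x : G.Γ) (v : X.V), {h : InjHeis | G.rem (x * G.φ h * G.t v) v}.Finite
  rem_card : ∀ (x : G.Γ) (v : X.V),
    {h : InjHeis | G.rem (x * G.φ h * G.t v) v}.ncard ≤ 2 ^ (10 * p.H (X.ht v))
  /-- the residual edges form a forest: every residual edge has its own child endpoint -/
  orient : ∃ child : G.Γ × X.Lb → G.Γ,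
    (∀ ε ∈ G.Res, child ε = ε.1 ∨ child ε = ε.1 * G.sig ε.2) ∧ Set.InjOn child G.Res

end InjGeo

/-- **Output of Sections 5, 5b.** -/
def InjGeoStmt : Prop :=
  ∀ (p : Lab.Par), p.Adm → p.T * 2 ^ p.b * p.D + 7 ≤ 2 ^ (61 * p.s / 100) →
    ∀ X : InjGr p, Nonempty X.V → X.Str → X.DegLe → X.WordUnique → Function.Surjective X.lab →
    ∀ vol : X.E → InjHeis, X.VGirth603 vol →
    ∃ G : InjGeo X vol, G.Good

end Claimed.Agent.R300
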