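/-
Row 300 / S0553 (INJ paper), package LOW-5: general lemmas for the transfer of a right convolution norm
along an injective homomorphism, and Schur bounds for coefficient families that are sums over edges.
Proofs: helper193.  No sorry.
-/
import Claimed.Agent.R300.SmpConv

set_option autoImplicit false

namespace Claimed.Agent.R300

open scoped ENNReal ComplexConjugate InnerProductSpace

section pushpull

variable {X Y : Type}

/-- An operator whose matrix lives on `range ι × range ι` is the push-forward of the operator with the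
pulled back matrix. -/
theorem SmpHasKer.eq_push_pull {S : ScL2 X →L[ℂ] ScL2 X} {T : ScL2 Y →L[ℂ] ScL2 Y} {k : X → X → ℂ}
    {k₀ : Y → Y → ℂ} (hS : SmpHasKer S k) (hT : SmpHasKer T k₀) (ι : Y → X)
    (hι : Function.Injective ι) (h1 : ∀ y y', k (ι y) (ι y') = k₀ y y')
    (h0 : ∀ x x', ¬ (x ∈ Set.range ι ∧ x' ∈ Set.range ι) → k x x' = 0) :
    S = scPush ι hι ∘L T ∘L scPull ι hι := by
  refine scOp_ext fun x' => ?_
  ext x
  simp only [ContinuousLinearMap.comp_apply]
  rw [hS x x']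
  by_cases hx' : x' ∈ Set.range ι
  · obtain ⟨y', rfl⟩ := hx'
    rw [scPull_delta]
    by_cases hx : x ∈ Set.range ι
    · obtain ⟨y, rfl⟩ := hx
      rw [scPush_apply, hT y y', h1]
    · rw [scPush_apply_of_not_mem ι hι _ x (fun y hy => hx ⟨y, hy⟩), h0 _ _ (fun h => hx h.1)]
  · rw [scPull_delta_of_not_mem ι hι x' (fun y hy => hx' ⟨y, hy⟩), h0 _ _ (fun h => hx' h.2)]
    simp

theorem SmpHasKer.norm_le_of_pull {S : ScL2 X →L[ℂ] ScL2 X} {T : ScL2 Y →L[ℂ] ScL2 Y}
    {k : X → X → ℂ} {k₀ : Y → Y → ℂ} (hS : SmpHasKer S k) (hT : SmpHasKer T k₀) (ι : Y → X)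
    (hι : Function.Injective ι) (h1 : ∀ y y', k (ι y) (ι y') = k₀ y y')
    (h0 : ∀ x x', ¬ (x ∈ Set.range ι ∧ x' ∈ Set.range ι) → k x x' = 0) : ‖S‖ ≤ ‖T‖ := by
  rw [hS.eq_push_pull hT ι hι h1 h0]
  refine ContinuousLinearMap.opNorm_le_bound _ (norm_nonneg _) fun ξ => ?_
  simp only [ContinuousLinearMap.comp_apply]
  rw [scPush_norm]
  exact (T.le_opNorm _).trans (mul_le_mul_of_nonneg_left (scPull_norm_le _ _ ξ) (norm_nonneg _))

end pushpull

section transfer

variable {H Γ V : Type} [Group H] [Group Γ]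

/-- **Transfer.**  If the coefficients `c₁` on `Γ` are the push-forward of the coefficients `c₀` on `H`
along an injective homomorphism, then the right convolution matrix of `c₁` is a direct sum of copies
of that of `c₀` (one for every left coset of the image). -/
theorem smp_transfer (φ : H →* Γ) (hφ : Function.Injective φ) {c₀ : V → V → H → ℂ}
    {c₁ : V → V → Γ → ℂ} (h1 : ∀ v w h, c₁ v w (φ h) = c₀ v w h)
    (h0 : ∀ v w g, g ∉ Set.range φ → c₁ v w g = 0)
    {D : ScL2 (Γ × V) →L[ℂ] ScL2 (Γ × V)} (hD : SmpHasKer D (smpConvK c₁))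
    {T : ScL2 (H × V) →L[ℂ] ScL2 (H × V)} (hT : SmpHasKer T (smpConvK c₀)) : ‖D‖ ≤ ‖T‖ := by
  classical
  refine smp_norm_le_of_blocks D (fun x : Γ × V => (x.1 : Γ ⧸ φ.range))
    (fun x : Γ × V => (x.1 : Γ ⧸ φ.range)) ?_ _ (norm_nonneg _) ?_
  · intro x y hxy
    rw [hD x y]
    refine h0 _ _ _ fun hg => hxy ?_
    exact QuotientGroup.eq.2 (by simpa using hg)
  · intro j
    obtain ⟨s, rfl⟩ := QuotientGroup.mk_surjective j
    have hK := hD.restr {x : Γ × V | (x.1 : Γ ⧸ φ.range) = (s : Γ ⧸ φ.range)}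
      {x : Γ × V | (x.1 : Γ ⧸ φ.range) = (s : Γ ⧸ φ.range)}
    have hι : Function.Injective (fun q : H × V => ((s * φ q.1, q.2) : Γ × V)) := by
      rintro ⟨a, v⟩ ⟨b, w⟩ hab
      simp only [Prod.mk.injEq, mul_right_inj] at hab
      exact Prod.ext (hφ hab.1) hab.2
    have hmem : ∀ q : H × V, ((s * φ q.1 : Γ) : Γ ⧸ φ.range) = (s : Γ ⧸ φ.range) := by
      intro q
      refine QuotientGroup.eq.2 ?_
      have : (s * φ q.1)⁻¹ * s = φ q.1⁻¹ := by rw [map_inv]; group
      rw [this]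
      exact ⟨_, rfl⟩
    refine hK.norm_le_of_pull hT (fun q : H × V => ((s * φ q.1, q.2) : Γ × V)) hι ?_ ?_
    · intro y y'
      rw [if_pos ⟨hmem y, hmem y'⟩]
      simp only [smpConvK]
      have : (s * φ y.1)⁻¹ * (s * φ y'.1) = φ (y.1⁻¹ * y'.1) := by
        rw [map_mul, map_inv]; group
      rw [this, h1]
    · intro x x' hxx'
      rw [if_neg]
      rintro ⟨hx, hx'⟩
      have hr : ∀ z : Γ × V, (z.1 : Γ ⧸ φ.range) = (s : Γ ⧸ φ.range) →
          z ∈ Set.range (fun q : H × V => ((s * φ q.1, q.2) : Γ × V)) := by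
        intro z hz
        obtain ⟨h, hh⟩ := QuotientGroup.eq.1 hz.symm
        refine ⟨(h, z.2), Prod.ext ?_ rfl⟩
        show s * φ h = z.1
        rw [hh, mul_inv_cancel_left]
      exact hxx' ⟨hr x hx, hr x' hx'⟩

end transfer

section edges

variable {E V K : Type}

theorem smp_finsum_side {M : Type} [AddCommMonoid M] (B : E → Prop) (r : E → V) (Q : V → E → Prop)
    (hQ : ∀ u e, Q u e ↔ (B e ∧ r e = u)) [Fintype {e // B e}] [DecidableEq V] (u : V) (f : E → M) :
    ∑ᶠ e : {e // Q u e}, f e.1 = ∑ e : {e // B e}, if r e.1 = u then f e.1 else 0 := by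
  classical
  rw [← finsum_eq_sum_of_fintype, finsum_subtype_eq_finsum_cond (f := fun e => f e) (Q u),
    finsum_subtype_eq_finsum_cond (f := fun e => if r e = u then f e else 0) B]
  refine finsum_congr fun e => ?_
  rw [finsum_eq_if, finsum_eq_if]
  by_cases h1 : B e <;> by_cases h2 : r e = u <;> simp [hQ, h1, h2]

/-- one side of the Schur bound of a coefficient family that is a sum over edges. -/
theorem smp_edge_side (B : E → Prop) (r : E → V) (Q : V → E → Prop)
    (hQ : ∀ u e, Q u e ↔ (B e ∧ r e = u)) (a : E → K → ℂ) (A : ℝ)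
    (ha : ∀ e, Summable (fun k => ‖a e k‖) ∧ ∑' k, ‖a e k‖ ≤ A) (n : ℕ)
    (hf : Finite {e // B e}) (hc : Nat.card {e // B e} ≤ n) (hA : 0 ≤ A) :
    Summable (fun p : V × K => ‖∑ᶠ e : {e // Q p.1 e}, a e.1 p.2‖) ∧
      ∑' p : V × K, ‖∑ᶠ e : {e // Q p.1 e}, a e.1 p.2‖ ≤ n * A := by
  classical
  have := Fintype.ofFinite {e // B e}
  have h1 : ∀ e : {e // B e}, HasSum (fun p : V × K => if r e.1 = p.1 then ‖a e.1 p.2‖ else 0)
      (∑' k, ‖a e.1 k‖) := by
    intro e
    have hinj : Function.Injective (fun k : K => ((r e.1, k) : V × K)) := fun k k' h =>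
      (Prod.mk.inj h).2
    refine (hinj.hasSum_iff fun p hp => ?_).1 ?_
    · rw [if_neg]
      intro h
      exact hp ⟨p.2, Prod.ext h rfl⟩
    · have e1 : ((fun p : V × K => if r e.1 = p.1 then ‖a e.1 p.2‖ else 0) ∘
          fun k : K => ((r e.1, k) : V × K)) = fun k => ‖a e.1 k‖ := by
        funext k
        simp
      rw [e1]
      exact (ha e.1).1.hasSum
  have h2 := hasSum_sum (s := (Finset.univ : Finset {e // B e})) fun e _ => h1 e
  have h3 : ∀ p : V × K, ‖∑ᶠ e : {e // Q p.1 e}, a e.1 p.2‖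
      ≤ ∑ e : {e // B e}, if r e.1 = p.1 then ‖a e.1 p.2‖ else 0 := by
    intro p
    rw [smp_finsum_side B r Q hQ p.1 (fun e => a e p.2)]
    refine (norm_sum_le _ _).trans (le_of_eq (Finset.sum_congr rfl fun e _ => ?_))
    split_ifs <;> simp
  have h4 : Summable (fun p : V × K => ‖∑ᶠ e : {e // Q p.1 e}, a e.1 p.2‖) :=
    Summable.of_nonneg_of_le (fun _ => norm_nonneg _) h3 h2.summable
  refine ⟨h4, ?_⟩
  calc ∑' p : V × K, ‖∑ᶠ e : {e // Q p.1 e}, a e.1 p.2‖
      ≤ ∑ e : {e // B e}, ∑' k, ‖a e.1 k‖ := by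
        rw [← h2.tsum_eq]
        exact h4.tsum_le_tsum h3 h2.summable
    _ ≤ ∑ _e : {e // B e}, A := Finset.sum_le_sum fun e _ => (ha e.1).2
    _ = (Nat.card {e // B e} : ℝ) * A := by
        rw [Finset.sum_const, Finset.card_univ, nsmul_eq_mul, Nat.card_eq_fintype_card]
    _ ≤ n * A := mul_le_mul_of_nonneg_right (by exact_mod_cast hc) hA

/-- Schur bound of a coefficient family that is a sum over the edges `e : v ⟶ w` with `P e`. -/
theorem smp_edge_coefBd (s t : E → V) (P : E → Prop) (a : E → K → ℂ) (A : ℝ) (hA : 0 ≤ A)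
    (ha : ∀ e, Summable (fun k => ‖a e k‖) ∧ ∑' k, ‖a e k‖ ≤ A) (nA nB : ℕ)
    (hsf : ∀ v, Finite {e // s e = v ∧ P e}) (hsc : ∀ v, Nat.card {e // s e = v ∧ P e} ≤ nA)
    (htf : ∀ w, Finite {e // t e = w ∧ P e}) (htc : ∀ w, Nat.card {e // t e = w ∧ P e} ≤ nB) :
    SmpCoefBd (fun v w k => ∑ᶠ e : {e // s e = v ∧ t e = w ∧ P e}, a e.1 k)
      ((max nA nB : ℕ) * A) := by
  constructor
  · intro v
    have h := smp_edge_side (fun e => s e = v ∧ P e) t (fun w e => s e = v ∧ t e = w ∧ P e)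
      (fun u e => by tauto) a A ha nA (hsf v) (hsc v) hA
    exact ⟨h.1, h.2.trans (mul_le_mul_of_nonneg_right (by exact_mod_cast le_max_left _ _) hA)⟩
  · intro w
    have h := smp_edge_side (fun e => t e = w ∧ P e) s (fun v e => s e = v ∧ t e = w ∧ P e)
      (fun u e => by tauto) a A ha nB (htf w) (htc w) hA
    exact ⟨h.1, h.2.trans (mul_le_mul_of_nonneg_right (by exact_mod_cast le_max_right _ _) hA)⟩

end edges

end Claimed.Agent.R300
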