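/-
Row 300 / S0553 (INJ paper).  PACKAGE L0: the localised circle functions `injLoc A a L`
(`θ ↦ A (L (θ - a))`, periodised) and `injLoc2`.  Used by the upper AND the lower assembly.
INJ captain: helper105.  Proofs: helper240 (subtask INJ-L0).  Statements are frozen: ask helper105
before changing one.

Everything follows from `injLoc_coe`: the periodisation of a function supported in an interval
shorter than one period has at most one nonzero term.
-/
import Mathlib
import Claimed.Agent.R300.InjModel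

set_option autoImplicit false

namespace Claimed.Agent.R300

open scoped ENNReal ComplexConjugate InnerProductSpace FourierTransform
open MeasureTheory

/-- `A` vanishes outside `[-R,R]` -/
def InjSupp (R : ℝ) (A : C(ℝ, ℂ)) : Prop := ∀ x : ℝ, R < |x| → A x = 0

/-- local summability of the translates of a compactly supported function -/
theorem injPer_summable (f : C(ℝ, ℂ)) (hf : HasCompactSupport f) (K : TopologicalSpace.Compacts ℝ) :
    Summable fun n : ℤ => ‖(f.comp (ContinuousMap.addRight (n : ℝ))).restrict K‖ := by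
  obtain ⟨M, hM⟩ := hf.isCompact.isBounded.subset_closedBall 0
  obtain ⟨M', hM'⟩ := K.isCompact.isBounded.subset_closedBall 0
  have hfin : Set.Finite {n : ℤ | |(n : ℝ)| ≤ M + M'} := by
    refine (Set.finite_Icc (-⌈M + M'⌉) ⌈M + M'⌉).subset fun n hn => ?_
    simp only [Set.mem_ofPred_eq, abs_le] at hn
    constructor
    · have : (-(⌈M + M'⌉ : ℤ) : ℝ) ≤ n := by
        have := Int.le_ceil (M + M')
        linarith
      exact_mod_cast this
    · have : (n : ℝ) ≤ ⌈M + M'⌉ := hn.2.trans (Int.le_ceil _)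
      exact_mod_cast this
  refine summable_of_ne_finset_zero (s := hfin.toFinset) fun n hn => ?_
  rw [norm_eq_zero]
  ext ⟨x, hx⟩
  simp only [ContinuousMap.restrict_apply, ContinuousMap.comp_apply, ContinuousMap.coe_addRight,
    ContinuousMap.zero_apply]
  by_contra hne
  apply hn
  rw [Set.Finite.mem_toFinset, Set.mem_ofPred_eq]
  have h1 : x + n ∈ Metric.closedBall (0 : ℝ) M := hM (subset_tsupport _ hne)
  have h2 : x ∈ Metric.closedBall (0 : ℝ) M' := hM' hx
  rw [mem_closedBall_zero_iff, Real.norm_eq_abs] at h1 h2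
  calc |(n : ℝ)| = |(x + n) - x| := by congr 1; ring
    _ ≤ |x + n| + |x| := abs_sub _ _
    _ ≤ M + M' := add_le_add h1 h2

/-- evaluation of the periodisation (locally finite sum) -/
theorem injPer_coe (f : C(ℝ, ℂ)) (hf : HasCompactSupport f) (t : ℝ) :
    injPer f (t : InjT) = ∑' k : ℤ, f (t + k) := by
  have hs : Summable fun n : ℤ => f.comp (ContinuousMap.addRight (n • (1 : ℝ))) := by
    simp only [zsmul_one]
    exact ContinuousMap.summable_of_locally_summable_norm (injPer_summable f hf)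
  change (f.periodic_tsum_comp_add_zsmul 1).lift (t : InjT) = _
  rw [Function.Periodic.lift_coe, ← ContinuousMap.tsum_apply hs]
  simp

theorem InjSupp.eq_zero_of_neg {R : ℝ} {A : C(ℝ, ℂ)} (hA : InjSupp R A) (hR : R < 0) : A = 0 := by
  ext x
  exact hA x (hR.trans_le (abs_nonneg x))

/-- the localised profile on the line -/
noncomputable def injLocFun (A : C(ℝ, ℂ)) (a L : ℝ) : C(ℝ, ℂ) :=
  A.comp ⟨fun t => L * (t - a), by fun_prop⟩

theorem injLoc_eq (A : C(ℝ, ℂ)) (a L : ℝ) : injLoc A a L = injPer (injLocFun A a L) := rfl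

theorem injLocFun_apply (A : C(ℝ, ℂ)) (a L t : ℝ) : injLocFun A a L t = A (L * (t - a)) := rfl

theorem injLocFun_hasCompactSupport {R : ℝ} {A : C(ℝ, ℂ)} (hA : InjSupp R A) {a L : ℝ}
    (hL : 2 * R < L) : HasCompactSupport (injLocFun A a L) := by
  rcases lt_or_ge R 0 with hR | hR
  · rw [hA.eq_zero_of_neg hR]
    exact HasCompactSupport.zero
  · have hL0 : 0 < L := by linarith
    refine HasCompactSupport.intro (K := Set.Icc (a - R / L) (a + R / L)) isCompact_Icc ?_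
    intro t ht
    rw [injLocFun_apply]
    apply hA
    by_contra hcon
    apply ht
    rw [not_lt, abs_mul, abs_of_pos hL0, ← le_div_iff₀' hL0, abs_le] at hcon
    constructor <;> linarith [hcon.1, hcon.2]

/-- evaluation in the chart `|t - a| ≤ 1/2` -/
theorem injLoc_coe {R : ℝ} {A : C(ℝ, ℂ)} (hA : InjSupp R A) {a L : ℝ} (hL : 2 * R < L) (t : ℝ)
    (ht : |t - a| ≤ 1 / 2) : injLoc A a L (t : InjT) = A (L * (t - a)) := by
  rw [injLoc_eq, injPer_coe _ (injLocFun_hasCompactSupport hA hL), tsum_eq_single 0]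
  · simp [injLocFun_apply]
  · intro k hk
    rw [injLocFun_apply]
    rcases lt_or_ge R 0 with hR | hR
    · rw [hA.eq_zero_of_neg hR]; rfl
    · have hL0 : 0 < L := by linarith
      apply hA
      have h1 : (1 : ℝ) ≤ |(k : ℝ)| := by
        have : (1 : ℤ) ≤ |k| := Int.one_le_abs hk
        exact_mod_cast this
      have h2 : 1 / 2 ≤ |t + k - a| := by
        have : |(k : ℝ)| ≤ |t + k - a| + |t - a| := by
          calc |(k : ℝ)| = |(t + k - a) - (t - a)| := by congr 1; ring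
            _ ≤ |t + k - a| + |t - a| := abs_sub _ _
        linarith
      rw [abs_mul, abs_of_pos hL0]
      nlinarith

/-- every point of the circle has a representative in the chart -/
theorem injT_exists_rep (a : ℝ) (θ : InjT) : ∃ t : ℝ, (t : InjT) = θ ∧ |t - a| ≤ 1 / 2 := by
  obtain ⟨t0, rfl⟩ := QuotientAddGroup.mk_surjective θ
  refine ⟨t0 - round (t0 - a), ?_, ?_⟩
  · rw [AddCircle.coe_sub]
    have : ((round (t0 - a) : ℝ) : InjT) = 0 :=
      (AddCircle.coe_eq_zero_iff 1).2 ⟨round (t0 - a), by simp⟩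
    rw [this, sub_zero]
  · have := abs_sub_round (t0 - a)
    calc |t0 - round (t0 - a) - a| = |t0 - a - round (t0 - a)| := by congr 1; ring
      _ ≤ 1 / 2 := this

theorem injLoc_ne_zero {R : ℝ} {A : C(ℝ, ℂ)} (hA : InjSupp R A) {a L : ℝ} (hR : 0 ≤ R)
    (hL : 2 * R < L) (θ : InjT) (h : injLoc A a L θ ≠ 0) :
    ∃ t : ℝ, (t : InjT) = θ ∧ |t - a| ≤ R / L ∧ injLoc A a L θ = A (L * (t - a)) := by
  obtain ⟨t, rfl, ht⟩ := injT_exists_rep a θ
  have hL0 : 0 < L := by linarith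
  have he := injLoc_coe hA hL t ht
  refine ⟨t, rfl, ?_, he⟩
  rw [he] at h
  by_contra hcon
  apply h
  apply hA
  rw [not_le, div_lt_iff₀' hL0] at hcon
  rwa [abs_mul, abs_of_pos hL0]

theorem InjSupp.mul_left {R : ℝ} {A : C(ℝ, ℂ)} (hA : InjSupp R A) (A' : C(ℝ, ℂ)) :
    InjSupp R (A * A') := fun x hx => by simp [hA x hx]

theorem InjSupp.add {R : ℝ} {A A' : C(ℝ, ℂ)} (hA : InjSupp R A) (hA' : InjSupp R A') :
    InjSupp R (A + A') := fun x hx => by simp [hA x hx, hA' x hx]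

theorem InjSupp.sub {R : ℝ} {A A' : C(ℝ, ℂ)} (hA : InjSupp R A) (hA' : InjSupp R A') :
    InjSupp R (A - A') := fun x hx => by simp [hA x hx, hA' x hx]

theorem InjSupp.smul {R : ℝ} {A : C(ℝ, ℂ)} (hA : InjSupp R A) (c : ℂ) :
    InjSupp R (c • A) := fun x hx => by simp [hA x hx]

theorem InjSupp.star {R : ℝ} {A : C(ℝ, ℂ)} (hA : InjSupp R A) :
    InjSupp R (star A) := fun x hx => by simp [hA x hx]

theorem InjSupp.mono_radius {R R' : ℝ} {A : C(ℝ, ℂ)} (hA : InjSupp R A) (h : R ≤ R') :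
    InjSupp R' A := fun x hx => hA x (h.trans_lt hx)

theorem injLoc_mul {R : ℝ} {A A' : C(ℝ, ℂ)} (hA : InjSupp R A) (hA' : InjSupp R A') {a L : ℝ}
    (hL : 2 * R < L) : injLoc (A * A') a L = injLoc A a L * injLoc A' a L := by
  ext θ
  obtain ⟨t, rfl, ht⟩ := injT_exists_rep a θ
  rw [ContinuousMap.mul_apply, injLoc_coe (hA.mul_left A') hL t ht, injLoc_coe hA hL t ht,
    injLoc_coe hA' hL t ht, ContinuousMap.mul_apply]

theorem injLoc_add {R : ℝ} {A A' : C(ℝ, ℂ)} (hA : InjSupp R A) (hA' : InjSupp R A') {a L : ℝ}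
    (hL : 2 * R < L) : injLoc (A + A') a L = injLoc A a L + injLoc A' a L := by
  ext θ
  obtain ⟨t, rfl, ht⟩ := injT_exists_rep a θ
  rw [ContinuousMap.add_apply, injLoc_coe (hA.add hA') hL t ht, injLoc_coe hA hL t ht,
    injLoc_coe hA' hL t ht, ContinuousMap.add_apply]

theorem injLoc_smul {R : ℝ} {A : C(ℝ, ℂ)} (hA : InjSupp R A) {a L : ℝ} (hL : 2 * R < L) (c : ℂ) :
    injLoc (c • A) a L = c • injLoc A a L := by
  ext θ
  obtain ⟨t, rfl, ht⟩ := injT_exists_rep a θ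
  rw [ContinuousMap.smul_apply, injLoc_coe (hA.smul c) hL t ht, injLoc_coe hA hL t ht,
    ContinuousMap.smul_apply]

theorem injLoc_star {R : ℝ} {A : C(ℝ, ℂ)} (hA : InjSupp R A) {a L : ℝ} (hL : 2 * R < L) :
    injLoc (star A) a L = star (injLoc A a L) := by
  ext θ
  obtain ⟨t, rfl, ht⟩ := injT_exists_rep a θ
  rw [ContinuousMap.star_apply, injLoc_coe hA.star hL t ht, injLoc_coe hA hL t ht,
    ContinuousMap.star_apply]

theorem injLoc_norm_le {R : ℝ} {A : C(ℝ, ℂ)} (hA : InjSupp R A) {a L : ℝ} (hL : 2 * R < L) {C : ℝ}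
    (hC0 : 0 ≤ C) (hC : ∀ x, ‖A x‖ ≤ C) : ‖injLoc A a L‖ ≤ C := by
  rw [ContinuousMap.norm_le _ hC0]
  intro θ
  obtain ⟨t, rfl, ht⟩ := injT_exists_rep a θ
  rw [injLoc_coe hA hL t ht]
  exact hC _

/-- difference of two profiles -/
theorem injLoc_norm_sub_le {R : ℝ} {A A' : C(ℝ, ℂ)} (hA : InjSupp R A) (hA' : InjSupp R A')
    {a L : ℝ} (hL : 2 * R < L) {C : ℝ} (hC0 : 0 ≤ C) (hC : ∀ x, ‖A x - A' x‖ ≤ C) :
    ‖injLoc A a L - injLoc A' a L‖ ≤ C := by
  rw [ContinuousMap.norm_le _ hC0]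
  intro θ
  obtain ⟨t, rfl, ht⟩ := injT_exists_rep a θ
  rw [ContinuousMap.sub_apply, injLoc_coe hA hL t ht, injLoc_coe hA' hL t ht]
  exact hC _

/-- change of scale -/
theorem injLoc_scale (A : C(ℝ, ℂ)) (a L c : ℝ) :
    injLoc A a (c * L) = injLoc (A.comp ⟨fun x => c * x, by fun_prop⟩) a L := by
  unfold injLoc
  congr 1
  ext t
  simp [mul_assoc]

/-- a cutoff at a COARSER (or equal) scale acts as one: `χ = 1` on `[-R,R]`, `L' ≤ L` -/
theorem injLoc_mul_cut {R R' : ℝ} {A χ : C(ℝ, ℂ)} (hA : InjSupp R A) (hχ' : InjSupp R' χ)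
    (hχ : ∀ x, |x| ≤ R → χ x = 1) {a L L' : ℝ} (hR : 0 ≤ R) (hL : 2 * R < L) (hL' : 2 * R' < L')
    (hLL : L' ≤ L) : injLoc χ a L' * injLoc A a L = injLoc A a L := by
  have hR' : 0 ≤ R' := by
    by_contra hcon
    have h1 := hχ 0 (by simpa using hR)
    have h0 := hχ' 0 (by simpa using not_le.1 hcon)
    rw [h0] at h1
    exact zero_ne_one h1
  have hL0' : 0 < L' := by linarith
  ext θ
  obtain ⟨t, rfl, ht⟩ := injT_exists_rep a θ
  rw [ContinuousMap.mul_apply, injLoc_coe hA hL t ht, injLoc_coe hχ' hL' t ht]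
  by_cases h : A (L * (t - a)) = 0
  · rw [h, mul_zero]
  · have h1 : |L * (t - a)| ≤ R := by
      by_contra hcon
      exact h (hA _ (not_le.1 hcon))
    have h2 : |L' * (t - a)| ≤ R := by
      refine le_trans ?_ h1
      rw [abs_mul, abs_mul, abs_of_pos hL0', abs_of_pos (hL0'.trans_le hLL)]
      exact mul_le_mul_of_nonneg_right hLL (abs_nonneg _)
    rw [hχ _ h2, one_mul]

theorem injLocFun_fourier (A : C(ℝ, ℂ)) (a : ℝ) {L : ℝ} (hL : 0 < L) (w : ℝ) :
    𝓕 (injLocFun A a L : ℝ → ℂ) w =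
      ((1 / L : ℝ) : ℂ) * Complex.exp (-2 * Real.pi * Complex.I * w * a) * 𝓕 (A : ℝ → ℂ) (w / L) := by
  rw [Real.fourier_real_eq_integral_exp_smul, Real.fourier_real_eq_integral_exp_smul]
  set G : ℝ → ℂ := fun x => Complex.exp (↑(-2 * Real.pi * x * (w / L)) * Complex.I) • A x with hG
  have h1 : ∀ v : ℝ, Complex.exp (↑(-2 * Real.pi * v * w) * Complex.I) • injLocFun A a L v
      = Complex.exp (-2 * Real.pi * Complex.I * w * a) * G (L * (v - a)) := by
    intro v
    simp only [hG, injLocFun_apply, smul_eq_mul]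
    rw [← mul_assoc, ← Complex.exp_add]
    congr 2
    have hLc : (L : ℂ) ≠ 0 := by exact_mod_cast hL.ne'
    push_cast
    field_simp
    ring
  simp_rw [h1]
  rw [integral_const_mul, integral_sub_right_eq_self (fun v => G (L * v)) a,
    Measure.integral_comp_mul_left G L, abs_of_pos (inv_pos.2 hL)]
  rw [Complex.real_smul]
  push_cast
  ring

/-- Fourier coefficients: `(1/L) e(-m a) Â(m/L)` -/
theorem injLoc_fourierCoeff {R : ℝ} {A : C(ℝ, ℂ)} (hA : InjSupp R A) {a L : ℝ} (hR : 0 ≤ R)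
    (hL : 2 * R < L) (m : ℤ) :
    fourierCoeff (injLoc A a L) m =
      ((1 / L : ℝ) : ℂ) * Complex.exp (-2 * Real.pi * Complex.I * m * a) * 𝓕 (A : ℝ → ℂ) (m / L) := by
  have hL0 : 0 < L := by linarith
  have h := Real.fourierCoeff_tsum_comp_add
    (injPer_summable _ (injLocFun_hasCompactSupport hA hL (a := a))) m
  have h2 := injLocFun_fourier A a hL0 (m : ℝ)
  rw [h2] at h
  exact h

theorem injLoc_integral {R : ℝ} {A : C(ℝ, ℂ)} (hA : InjSupp R A) {a L : ℝ} (hR : 0 ≤ R)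
    (hL : 2 * R < L) : ∫ θ : InjT, injLoc A a L θ = (1 / L : ℝ) • ∫ x : ℝ, A x := by
  have h := injLoc_fourierCoeff hA hR hL (a := a) 0
  have h1 : fourierCoeff (injLoc A a L) 0 = ∫ θ : InjT, injLoc A a L θ := by
    unfold fourierCoeff
    rw [AddCircle.volume_eq_smul_haarAddCircle]
    simp
  have h2 : 𝓕 (A : ℝ → ℂ) (((0 : ℤ) : ℝ) / L) = ∫ x : ℝ, A x := by
    rw [Real.fourier_real_eq_integral_exp_smul]
    simp
  rw [h1, h2] at h
  rw [h, Complex.real_smul]
  simp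

/-! ### the cutoff and the product symbols -/

theorem injZs_pos (b H0 i : ℕ) : 0 < injZs b H0 i := by unfold injZs; positivity
theorem injNs_pos (b H0 i : ℕ) : 0 < injNs b H0 i := by unfold injNs; positivity

theorem injZs_ge (b H0 i : ℕ) : (2 : ℝ) ^ H0 ≤ injZs b H0 i := by
  unfold injZs injH
  exact pow_le_pow_right₀ (by norm_num) (by nlinarith [Nat.zero_le (b * i), Nat.zero_le H0])

theorem injNs_ge (b H0 i : ℕ) : (2 : ℝ) ^ H0 ≤ injNs b H0 i := by
  unfold injNs injH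
  exact pow_le_pow_right₀ (by norm_num) (by nlinarith [Nat.zero_le (b * i), Nat.zero_le H0])

theorem injZs_le_of_le (b H0 : ℕ) {i k : ℕ} (h : k ≤ i) : injZs b H0 k ≤ injZs b H0 i := by
  unfold injZs injH
  exact pow_le_pow_right₀ (by norm_num) (by gcongr)

theorem injNs_le_of_le (b H0 : ℕ) {i k : ℕ} (h : k ≤ i) : injNs b H0 k ≤ injNs b H0 i := by
  unfold injNs injH
  exact pow_le_pow_right₀ (by norm_num) (by gcongr)

theorem injLoc2_apply (b H0 : ℕ) (A B : C(ℝ, ℂ)) (i : ℕ) (p : InjT × InjT) :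
    injLoc2 b H0 A B i p = injLoc A injAlpha (injZs b H0 i) p.1 * injLoc B 0 (injNs b H0 i) p.2 := rfl

theorem injLoc2_suppRect {R : ℝ} {A B : C(ℝ, ℂ)} (hA : InjSupp R A) (hB : InjSupp R B) (hR : 0 ≤ R)
    (b H0 i : ℕ) (hH : 2 * R < 2 ^ H0) : InjSuppRect b H0 R i (injLoc2 b H0 A B i) := by
  intro p hp
  rw [injLoc2_apply] at hp
  obtain ⟨t, ht, ht', -⟩ := injLoc_ne_zero hA hR (hH.trans_le (injZs_ge b H0 i)) p.1
    (left_ne_zero_of_mul hp)
  obtain ⟨u, hu, hu', -⟩ := injLoc_ne_zero hB hR (hH.trans_le (injNs_ge b H0 i)) p.2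
    (right_ne_zero_of_mul hp)
  refine ⟨t, u, Prod.ext ht.symm hu.symm, ht', ?_⟩
  simpa using hu'

theorem injLoc2_norm_le {R : ℝ} {A B : C(ℝ, ℂ)} (hA : InjSupp R A) (hB : InjSupp R B)
    (b H0 i : ℕ) (hH : 2 * R < 2 ^ H0) {C D : ℝ} (hC0 : 0 ≤ C) (hD0 : 0 ≤ D) (hC : ∀ x, ‖A x‖ ≤ C)
    (hD : ∀ x, ‖B x‖ ≤ D) : ‖injLoc2 b H0 A B i‖ ≤ C * D := by
  rw [ContinuousMap.norm_le _ (mul_nonneg hC0 hD0)]
  intro p
  rw [injLoc2_apply, norm_mul]
  have h1 := injLoc_norm_le hA (hH.trans_le (injZs_ge b H0 i)) (a := injAlpha) hC0 hC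
  have h2 := injLoc_norm_le hB (hH.trans_le (injNs_ge b H0 i)) (a := 0) hD0 hD
  exact mul_le_mul ((ContinuousMap.norm_coe_le_norm _ _).trans h1)
    ((ContinuousMap.norm_coe_le_norm _ _).trans h2) (norm_nonneg _) hC0

/-- rectangles are nested -/
theorem InjSuppRect.mono {b H0 : ℕ} {R R' : ℝ} {i k : ℕ} {f : C(InjT × InjT, ℂ)}
    (h : InjSuppRect b H0 R i f) (hR0 : 0 ≤ R) (hR : R ≤ R') (hk : k ≤ i) : InjSuppRect b H0 R' k f := by
  intro p hp
  obtain ⟨t, u, hp', ht, hu⟩ := h p hp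
  refine ⟨t, u, hp', ht.trans ?_, hu.trans ?_⟩
  · exact div_le_div₀ (hR0.trans hR) hR (injZs_pos b H0 k) (injZs_le_of_le b H0 hk)
  · exact div_le_div₀ (hR0.trans hR) hR (injNs_pos b H0 k) (injNs_le_of_le b H0 hk)

end Claimed.Agent.R300
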