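import Claimed.Agent.R300.ScL2

/-!
# Row 300, shared front end: slices and the amplification `x ↦ 1 ⊗ x`

For a bijection `e : Z ≃ Y × X` every bounded operator `x` on `ℓ²(X)` is amplified to the
operator `scAmp e x` on `ℓ²(Z) = ℓ²(Y) ⊗ ℓ²(X)` acting slice by slice.
-/

set_option autoImplicit false

namespace Claimed.Agent.R300

open scoped ENNReal ComplexConjugate InnerProductSpace

variable {X Y Z : Type}

theorem scSlice_inj (e : Z ≃ Y × X) (y : Y) : Function.Injective fun a : X => e.symm (y, a) :=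
  fun a b h => by simpa using h

/-- The slice `ξ_y = ξ(e⁻¹(y, ·))`. -/
noncomputable def scSlice (e : Z ≃ Y × X) (y : Y) : ScL2 Z →L[ℂ] ScL2 X :=
  scPull (fun a => e.symm (y, a)) (scSlice_inj e y)

@[simp] theorem scSlice_apply (e : Z ≃ Y × X) (y : Y) (ξ : ScL2 Z) (a : X) :
    scSlice e y ξ a = ξ (e.symm (y, a)) := rfl

theorem scSlice_apply' (e : Z ≃ Y × X) (ξ : ScL2 Z) (z : Z) :
    scSlice e (e z).1 ξ (e z).2 = ξ z := by simp

theorem scSlice_ext (e : Z ≃ Y × X) {ξ η : ScL2 Z} (h : ∀ y, scSlice e y ξ = scSlice e y η) :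
    ξ = η := by
  ext z
  rw [← scSlice_apply' e ξ z, ← scSlice_apply' e η z, h]

theorem scSlice_hasSum_sq (e : Z ≃ Y × X) (ξ : ScL2 Z) :
    HasSum (fun y => ‖scSlice e y ξ‖ ^ 2) (‖ξ‖ ^ 2) := by
  have h1 : HasSum (fun q : Y × X => ‖ξ (e.symm q)‖ ^ 2) (‖ξ‖ ^ 2) :=
    (Equiv.hasSum_iff e.symm).mpr (scL2_hasSum_sq ξ)
  exact h1.prod_fiberwise fun y => scL2_hasSum_sq (scSlice e y ξ)

theorem scSlice_hasSum_inner (e : Z ≃ Y × X) (ξ η : ScL2 Z) :
    HasSum (fun y => ⟪scSlice e y ξ, scSlice e y η⟫_ℂ) ⟪ξ, η⟫_ℂ := by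
  have h1 : HasSum (fun q : Y × X => ⟪ξ (e.symm q), η (e.symm q)⟫_ℂ) ⟪ξ, η⟫_ℂ :=
    (Equiv.hasSum_iff e.symm).mpr (lp.hasSum_inner ξ η)
  exact h1.prod_fiberwise fun y => lp.hasSum_inner (scSlice e y ξ) (scSlice e y η)

theorem scSlice_norm_le (e : Z ≃ Y × X) (y : Y) (ξ : ScL2 Z) : ‖scSlice e y ξ‖ ≤ ‖ξ‖ :=
  scPull_norm_le _ _ ξ

theorem scSlice_delta (e : Z ≃ Y × X) (z : Z) :
    scSlice e (e z).1 (scDelta z) = scDelta (e z).2 := by
  have := scPull_delta (fun a => e.symm ((e z).1, a)) (scSlice_inj e (e z).1) (e z).2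
  simpa [scSlice] using this

theorem scSlice_delta_ne (e : Z ≃ Y × X) (z : Z) {y : Y} (hy : y ≠ (e z).1) :
    scSlice e y (scDelta z) = 0 := by
  refine scPull_delta_of_not_mem _ _ z fun a h => hy ?_
  rw [← h]; simp

theorem scAmp_summable (e : Z ≃ Y × X) (x : ScL2 X →L[ℂ] ScL2 X) (ξ : ScL2 Z) :
    Summable fun z => ‖x (scSlice e (e z).1 ξ) (e z).2‖ ^ 2 := by
  have h : Summable fun q : Y × X => ‖x (scSlice e q.1 ξ) q.2‖ ^ 2 := by
    have hnn : 0 ≤ fun q : Y × X => ‖x (scSlice e q.1 ξ) q.2‖ ^ 2 := fun q => by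
      show (0 : ℝ) ≤ ‖x (scSlice e q.1 ξ) q.2‖ ^ 2
      positivity
    rw [summable_prod_of_nonneg hnn]
    refine ⟨fun y => scL2_summable_sq (x (scSlice e y ξ)), ?_⟩
    refine Summable.of_nonneg_of_le (fun _ => tsum_nonneg fun _ => by positivity) (fun y => ?_)
      ((scSlice_hasSum_sq e ξ).summable.mul_left (‖x‖ ^ 2))
    show ∑' a : X, ‖x (scSlice e y ξ) a‖ ^ 2 ≤ _
    rw [← scL2_norm_sq, ← mul_pow]
    exact pow_le_pow_left₀ (norm_nonneg _) (x.le_opNorm _) 2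
  exact (Equiv.summable_iff e).mpr h

/-- The linear map underlying the amplification. -/
noncomputable def scAmpLin (e : Z ≃ Y × X) (x : ScL2 X →L[ℂ] ScL2 X) : ScL2 Z →ₗ[ℂ] ScL2 Z where
  toFun ξ := scMk (fun z => x (scSlice e (e z).1 ξ) (e z).2) (scAmp_summable e x ξ)
  map_add' ξ η := by ext z; simp
  map_smul' c ξ := by ext z; simp

theorem scSlice_ampLin (e : Z ≃ Y × X) (x : ScL2 X →L[ℂ] ScL2 X) (y : Y) (ξ : ScL2 Z) :
    scSlice e y (scAmpLin e x ξ) = x (scSlice e y ξ) := by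
  ext a
  simp [scAmpLin]

theorem scAmpLin_norm_le (e : Z ≃ Y × X) (x : ScL2 X →L[ℂ] ScL2 X) (ξ : ScL2 Z) :
    ‖scAmpLin e x ξ‖ ≤ ‖x‖ * ‖ξ‖ := by
  refine le_of_sq_le_sq ?_ (by positivity)
  rw [mul_pow]
  refine hasSum_le (fun y => ?_) (scSlice_hasSum_sq e (scAmpLin e x ξ))
    ((scSlice_hasSum_sq e ξ).mul_left (‖x‖ ^ 2))
  rw [scSlice_ampLin, ← mul_pow]
  exact pow_le_pow_left₀ (norm_nonneg _) (x.le_opNorm _) 2

/-- The amplification `1 ⊗ x` of a bounded operator `x` on `ℓ²(X)` to `ℓ²(Z)`, `Z ≃ Y × X`. -/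
noncomputable def scAmp (e : Z ≃ Y × X) (x : ScL2 X →L[ℂ] ScL2 X) : ScL2 Z →L[ℂ] ScL2 Z :=
  (scAmpLin e x).mkContinuous ‖x‖ (scAmpLin_norm_le e x)

@[simp] theorem scSlice_amp (e : Z ≃ Y × X) (x : ScL2 X →L[ℂ] ScL2 X) (y : Y) (ξ : ScL2 Z) :
    scSlice e y (scAmp e x ξ) = x (scSlice e y ξ) :=
  scSlice_ampLin e x y ξ

theorem scAmp_apply (e : Z ≃ Y × X) (x : ScL2 X →L[ℂ] ScL2 X) (ξ : ScL2 Z) (z : Z) :
    scAmp e x ξ z = x (scSlice e (e z).1 ξ) (e z).2 := rfl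

theorem scAmp_norm_le (e : Z ≃ Y × X) (x : ScL2 X →L[ℂ] ScL2 X) : ‖scAmp e x‖ ≤ ‖x‖ :=
  LinearMap.mkContinuous_norm_le _ (norm_nonneg _) _

theorem scAmp_add (e : Z ≃ Y × X) (x y : ScL2 X →L[ℂ] ScL2 X) :
    scAmp e (x + y) = scAmp e x + scAmp e y := by
  ext1 ξ
  refine scSlice_ext e fun v => ?_
  simp

theorem scAmp_smul (e : Z ≃ Y × X) (c : ℂ) (x : ScL2 X →L[ℂ] ScL2 X) :
    scAmp e (c • x) = c • scAmp e x := by
  ext1 ξ
  refine scSlice_ext e fun v => ?_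
  simp

theorem scAmp_mul (e : Z ≃ Y × X) (x y : ScL2 X →L[ℂ] ScL2 X) :
    scAmp e (x * y) = scAmp e x * scAmp e y := by
  ext1 ξ
  refine scSlice_ext e fun v => ?_
  simp

theorem scAmp_one (e : Z ≃ Y × X) : scAmp e 1 = 1 := by
  ext1 ξ
  refine scSlice_ext e fun v => ?_
  simp

theorem scAmp_zero (e : Z ≃ Y × X) : scAmp e 0 = 0 := by
  ext1 ξ
  refine scSlice_ext e fun v => ?_
  simp

theorem scAmp_star (e : Z ≃ Y × X) (x : ScL2 X →L[ℂ] ScL2 X) :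
    scAmp e (star x) = star (scAmp e x) := by
  rw [ContinuousLinearMap.star_eq_adjoint (scAmp e x), ContinuousLinearMap.eq_adjoint_iff]
  intro ξ η
  refine (scSlice_hasSum_inner e _ _).unique ?_
  convert scSlice_hasSum_inner e ξ (scAmp e x η) using 2 with y
  rw [scSlice_amp, scSlice_amp, ContinuousLinearMap.star_eq_adjoint,
    ContinuousLinearMap.adjoint_inner_left]

/-- The amplification as a star algebra homomorphism. -/
noncomputable def scAmpHom (e : Z ≃ Y × X) :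
    (ScL2 X →L[ℂ] ScL2 X) →⋆ₐ[ℂ] (ScL2 Z →L[ℂ] ScL2 Z) where
  toFun := scAmp e
  map_one' := scAmp_one e
  map_mul' := scAmp_mul e
  map_zero' := scAmp_zero e
  map_add' := scAmp_add e
  commutes' c := by
    rw [Algebra.algebraMap_eq_smul_one, Algebra.algebraMap_eq_smul_one, scAmp_smul, scAmp_one]
  map_star' := scAmp_star e

@[simp] theorem scAmpHom_apply (e : Z ≃ Y × X) (x : ScL2 X →L[ℂ] ScL2 X) :
    scAmpHom e x = scAmp e x := rfl

theorem scAmp_continuous (e : Z ≃ Y × X) : Continuous (scAmp e) := by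
  have : Continuous ((scAmpHom e).toAlgHom.toLinearMap.mkContinuous 1 (fun x => by
      simpa using scAmp_norm_le e x)) := ContinuousLinearMap.continuous _
  exact this

end Claimed.Agent.R300
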