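/-
Row 300 / S0553 (INJ paper).  LOWER ASSEMBLY, operator constructions on `ℓ²(Γ × V)` (owner: helper105).
 * `injFibE e x` : fibrewise operators `⊕_y x_y` on `ℓ²(Z)`, `Z ≃ Y × X` (generalises `scAmp`)
 * `injFib B`    : `⊕_v B_v` on `ℓ²(Γ × V)`;   `injK U` : `1 ⊗ U` on `ℓ²(Γ × V)`
 * commutation of the two.
-/
import Mathlib
import Claimed.Agent.R300.ScAmp
import Claimed.Agent.R300.SmpKer

set_option autoImplicit false

namespace Claimed.Agent.R300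

open scoped ENNReal ComplexConjugate InnerProductSpace

section fib

variable {X Y Z : Type}

theorem injFib_summable (e : Z ≃ Y × X) (x : Y → ScL2 X →L[ℂ] ScL2 X) {C : ℝ}
    (hx : ∀ y, ‖x y‖ ≤ C) (ξ : ScL2 Z) :
    Summable fun z => ‖x (e z).1 (scSlice e (e z).1 ξ) (e z).2‖ ^ 2 := by
  have h : Summable fun q : Y × X => ‖x q.1 (scSlice e q.1 ξ) q.2‖ ^ 2 := by
    have hnn : 0 ≤ fun q : Y × X => ‖x q.1 (scSlice e q.1 ξ) q.2‖ ^ 2 := fun q => by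
      show (0 : ℝ) ≤ ‖x q.1 (scSlice e q.1 ξ) q.2‖ ^ 2
      positivity
    rw [summable_prod_of_nonneg hnn]
    refine ⟨fun y => scL2_summable_sq (x y (scSlice e y ξ)), ?_⟩
    refine Summable.of_nonneg_of_le (fun _ => tsum_nonneg fun _ => by positivity) (fun y => ?_)
      ((scSlice_hasSum_sq e ξ).summable.mul_left (C ^ 2))
    show ∑' a : X, ‖x y (scSlice e y ξ) a‖ ^ 2 ≤ _
    rw [← scL2_norm_sq, ← mul_pow]
    exact pow_le_pow_left₀ (norm_nonneg _) ((x y).le_of_opNorm_le (hx y) _) 2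
  exact (Equiv.summable_iff e).mpr h

/-- The linear map underlying the fibrewise operator. -/
noncomputable def injFibLin (e : Z ≃ Y × X) (x : Y → ScL2 X →L[ℂ] ScL2 X)
    (hx : ∃ C : ℝ, ∀ y, ‖x y‖ ≤ C) : ScL2 Z →ₗ[ℂ] ScL2 Z where
  toFun ξ := scMk (fun z => x (e z).1 (scSlice e (e z).1 ξ) (e z).2)
    (injFib_summable e x hx.choose_spec ξ)
  map_add' ξ η := by ext z; simp
  map_smul' c ξ := by ext z; simp

theorem scSlice_fibLin (e : Z ≃ Y × X) (x : Y → ScL2 X →L[ℂ] ScL2 X)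
    (hx : ∃ C : ℝ, ∀ y, ‖x y‖ ≤ C) (y : Y) (ξ : ScL2 Z) :
    scSlice e y (injFibLin e x hx ξ) = x y (scSlice e y ξ) := by
  ext a
  simp [injFibLin]

theorem injFibLin_norm_le (e : Z ≃ Y × X) (x : Y → ScL2 X →L[ℂ] ScL2 X)
    (hx : ∃ C : ℝ, ∀ y, ‖x y‖ ≤ C) {C : ℝ} (hC0 : 0 ≤ C) (hC : ∀ y, ‖x y‖ ≤ C) (ξ : ScL2 Z) :
    ‖injFibLin e x hx ξ‖ ≤ C * ‖ξ‖ := by
  refine le_of_sq_le_sq ?_ (by positivity)
  rw [mul_pow]
  refine hasSum_le (fun y => ?_) (scSlice_hasSum_sq e (injFibLin e x hx ξ))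
    ((scSlice_hasSum_sq e ξ).mul_left (C ^ 2))
  rw [scSlice_fibLin, ← mul_pow]
  exact pow_le_pow_left₀ (norm_nonneg _) ((x y).le_of_opNorm_le (hC y) _) 2

open Classical in
/-- The fibrewise operator `⊕_y x_y` on `ℓ²(Z)`, `Z ≃ Y × X`, of a bounded family
(zero if the family is unbounded). -/
noncomputable def injFibE (e : Z ≃ Y × X) (x : Y → ScL2 X →L[ℂ] ScL2 X) : ScL2 Z →L[ℂ] ScL2 Z :=
  if hx : ∃ C : ℝ, ∀ y, ‖x y‖ ≤ C then
    (injFibLin e x hx).mkContinuous (max hx.choose 0)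
      (injFibLin_norm_le e x hx (le_max_right _ _) fun y => (hx.choose_spec y).trans (le_max_left _ _))
  else 0

theorem scSlice_fibE (e : Z ≃ Y × X) {x : Y → ScL2 X →L[ℂ] ScL2 X} {C : ℝ}
    (hx : ∀ y, ‖x y‖ ≤ C) (y : Y) (ξ : ScL2 Z) :
    scSlice e y (injFibE e x ξ) = x y (scSlice e y ξ) := by
  have h : ∃ C : ℝ, ∀ y, ‖x y‖ ≤ C := ⟨C, hx⟩
  unfold injFibE
  rw [dif_pos h]
  exact scSlice_fibLin e x h y ξ

theorem injFibE_apply (e : Z ≃ Y × X) {x : Y → ScL2 X →L[ℂ] ScL2 X} {C : ℝ}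
    (hx : ∀ y, ‖x y‖ ≤ C) (ξ : ScL2 Z) (z : Z) :
    injFibE e x ξ z = x (e z).1 (scSlice e (e z).1 ξ) (e z).2 := by
  rw [← scSlice_fibE e hx, scSlice_apply' e]

theorem injFibE_norm_le (e : Z ≃ Y × X) {x : Y → ScL2 X →L[ℂ] ScL2 X} {C : ℝ} (hC0 : 0 ≤ C)
    (hx : ∀ y, ‖x y‖ ≤ C) : ‖injFibE e x‖ ≤ C := by
  have h : ∃ C : ℝ, ∀ y, ‖x y‖ ≤ C := ⟨C, hx⟩
  refine ContinuousLinearMap.opNorm_le_bound _ hC0 fun ξ => ?_
  unfold injFibE
  rw [dif_pos h]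
  exact injFibLin_norm_le e x h hC0 hx ξ

theorem injFibE_mul (e : Z ≃ Y × X) {x y : Y → ScL2 X →L[ℂ] ScL2 X} {C D : ℝ}
    (hx : ∀ v, ‖x v‖ ≤ C) (hy : ∀ v, ‖y v‖ ≤ D) :
    injFibE e x * injFibE e y = injFibE e (fun v => x v * y v) := by
  have hxy : ∀ v, ‖x v * y v‖ ≤ C * D := fun v =>
    (norm_mul_le _ _).trans (mul_le_mul (hx v) (hy v) (norm_nonneg _)
      ((norm_nonneg _).trans (hx v)))
  ext1 ξ
  refine scSlice_ext e fun v => ?_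
  rw [mul_apply_eq_comp, scSlice_fibE e hx, scSlice_fibE e hy, scSlice_fibE e hxy]
  rfl

theorem injFibE_add (e : Z ≃ Y × X) {x y : Y → ScL2 X →L[ℂ] ScL2 X} {C D : ℝ}
    (hx : ∀ v, ‖x v‖ ≤ C) (hy : ∀ v, ‖y v‖ ≤ D) :
    injFibE e x + injFibE e y = injFibE e (fun v => x v + y v) := by
  have hxy : ∀ v, ‖x v + y v‖ ≤ C + D := fun v => (norm_add_le _ _).trans (add_le_add (hx v) (hy v))
  ext1 ξ
  refine scSlice_ext e fun v => ?_
  rw [add_apply, map_add, scSlice_fibE e hx, scSlice_fibE e hy,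
    scSlice_fibE e hxy]
  rfl

theorem injFibE_sub (e : Z ≃ Y × X) {x y : Y → ScL2 X →L[ℂ] ScL2 X} {C D : ℝ}
    (hx : ∀ v, ‖x v‖ ≤ C) (hy : ∀ v, ‖y v‖ ≤ D) :
    injFibE e x - injFibE e y = injFibE e (fun v => x v - y v) := by
  have hxy : ∀ v, ‖x v - y v‖ ≤ C + D := fun v => (norm_sub_le _ _).trans (add_le_add (hx v) (hy v))
  ext1 ξ
  refine scSlice_ext e fun v => ?_
  rw [sub_apply, map_sub, scSlice_fibE e hx, scSlice_fibE e hy,
    scSlice_fibE e hxy]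
  rfl

theorem injFibE_smul (e : Z ≃ Y × X) {x : Y → ScL2 X →L[ℂ] ScL2 X} {C : ℝ}
    (hx : ∀ v, ‖x v‖ ≤ C) (c : ℂ) :
    c • injFibE e x = injFibE e (fun v => c • x v) := by
  have hxy : ∀ v, ‖c • x v‖ ≤ ‖c‖ * C := fun v => by
    rw [norm_smul]; exact mul_le_mul_of_nonneg_left (hx v) (norm_nonneg _)
  ext1 ξ
  refine scSlice_ext e fun v => ?_
  rw [smul_apply, map_smul, scSlice_fibE e hx, scSlice_fibE e hxy]
  rfl

theorem injFibE_const (e : Z ≃ Y × X) (x : ScL2 X →L[ℂ] ScL2 X) :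
    injFibE e (fun _ => x) = scAmp e x := by
  ext1 ξ
  refine scSlice_ext e fun v => ?_
  rw [scSlice_fibE e (C := ‖x‖) (fun _ => le_rfl), scSlice_amp]

theorem injFibE_one (e : Z ≃ Y × X) : injFibE e (fun _ => (1 : ScL2 X →L[ℂ] ScL2 X)) = 1 := by
  rw [injFibE_const, scAmp_one]

theorem injFibE_zero (e : Z ≃ Y × X) : injFibE e (fun _ => (0 : ScL2 X →L[ℂ] ScL2 X)) = 0 := by
  rw [injFibE_const, scAmp_zero]

theorem injFibE_star (e : Z ≃ Y × X) {x : Y → ScL2 X →L[ℂ] ScL2 X} {C : ℝ}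
    (hx : ∀ v, ‖x v‖ ≤ C) :
    star (injFibE e x) = injFibE e (fun v => star (x v)) := by
  have hs : ∀ v, ‖star (x v)‖ ≤ C := fun v => by
    rw [ContinuousLinearMap.star_eq_adjoint, LinearIsometryEquiv.norm_map]; exact hx v
  symm
  rw [ContinuousLinearMap.star_eq_adjoint (injFibE e x), ContinuousLinearMap.eq_adjoint_iff]
  intro ξ η
  refine (scSlice_hasSum_inner e _ _).unique ?_
  convert scSlice_hasSum_inner e ξ (injFibE e x η) using 2 with y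
  rw [scSlice_fibE e hs, scSlice_fibE e hx, ContinuousLinearMap.star_eq_adjoint,
    ContinuousLinearMap.adjoint_inner_left]

theorem injFibE_congr (e : Z ≃ Y × X) {x y : Y → ScL2 X →L[ℂ] ScL2 X} (h : ∀ v, x v = y v) :
    injFibE e x = injFibE e y := by
  rw [show x = y from funext h]

end fib

section prod

variable {Γ V : Type}

/-- the fibre at `v` : `ℓ²(Γ × V) → ℓ²(Γ)` -/
noncomputable def injAt (v : V) : ScL2 (Γ × V) →L[ℂ] ScL2 Γ := scSlice (Equiv.prodComm Γ V) v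

@[simp] theorem injAt_apply (v : V) (ξ : ScL2 (Γ × V)) (x : Γ) : injAt v ξ x = ξ (x, v) := rfl

/-- `⊕_v B_v` on `ℓ²(Γ × V)` -/
noncomputable def injFib (B : V → ScL2 Γ →L[ℂ] ScL2 Γ) : ScL2 (Γ × V) →L[ℂ] ScL2 (Γ × V) :=
  injFibE (Equiv.prodComm Γ V) B

/-- `1 ⊗ U` on `ℓ²(Γ × V)` -/
noncomputable def injK (U : ScL2 V →L[ℂ] ScL2 V) : ScL2 (Γ × V) →L[ℂ] ScL2 (Γ × V) :=
  scAmp (Equiv.refl (Γ × V)) U

theorem injAt_fib {B : V → ScL2 Γ →L[ℂ] ScL2 Γ} {C : ℝ} (hB : ∀ v, ‖B v‖ ≤ C) (v : V)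
    (ξ : ScL2 (Γ × V)) : injAt v (injFib B ξ) = B v (injAt v ξ) :=
  scSlice_fibE _ hB v ξ

theorem injFib_apply {B : V → ScL2 Γ →L[ℂ] ScL2 Γ} {C : ℝ} (hB : ∀ v, ‖B v‖ ≤ C)
    (ξ : ScL2 (Γ × V)) (x : Γ) (v : V) : injFib B ξ (x, v) = B v (injAt v ξ) x := by
  rw [← injAt_fib hB]; rfl

theorem injAt_delta (x : Γ) (v : V) : injAt v (scDelta (x, v)) = scDelta x :=
  scSlice_delta (Equiv.prodComm Γ V) (x, v)

theorem injAt_delta_ne (x : Γ) {v w : V} (h : v ≠ w) : injAt v (scDelta (x, w)) = 0 :=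
  scSlice_delta_ne (Equiv.prodComm Γ V) (x, w) h

/-- matrix of `⊕ B_v` -/
theorem injFib_delta_apply {B : V → ScL2 Γ →L[ℂ] ScL2 Γ} {C : ℝ} (hB : ∀ v, ‖B v‖ ≤ C)
    (x x' : Γ) (v w : V) [Decidable (v = w)] :
    injFib B (scDelta (x, w)) (x', v) = if v = w then B w (scDelta x) x' else 0 := by
  rw [injFib_apply hB]
  split_ifs with h
  · subst h; rw [injAt_delta]
  · rw [injAt_delta_ne x h]; simp

/-- matrix of `1 ⊗ U` -/
theorem injK_delta_apply (U : ScL2 V →L[ℂ] ScL2 V) (x x' : Γ) (v w : V) [Decidable (x' = x)] :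
    injK U (scDelta (x, w)) (x', v) = if x' = x then U (scDelta w) v else 0 := by
  unfold injK
  rw [scAmp_apply]
  show U (scSlice (Equiv.refl (Γ × V)) x' (scDelta (x, w))) v = _
  split_ifs with h
  · subst h
    have := scSlice_delta (Equiv.refl (Γ × V)) (x', w)
    simp only [Equiv.refl_apply] at this
    rw [this]
  · rw [scSlice_delta_ne (Equiv.refl (Γ × V)) (x, w) (by simpa using h)]; simp

theorem injK_apply (U : ScL2 V →L[ℂ] ScL2 V) (ξ : ScL2 (Γ × V)) (x : Γ) (v : V) :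
    injK U ξ (x, v) = U (scSlice (Equiv.refl (Γ × V)) x ξ) v := rfl

theorem injK_norm_le (U : ScL2 V →L[ℂ] ScL2 V) : ‖(injK U : ScL2 (Γ × V) →L[ℂ] _)‖ ≤ ‖U‖ :=
  scAmp_norm_le _ U

theorem injK_mul (U U' : ScL2 V →L[ℂ] ScL2 V) :
    (injK (U * U') : ScL2 (Γ × V) →L[ℂ] _) = injK U * injK U' := scAmp_mul _ U U'

theorem injK_star (U : ScL2 V →L[ℂ] ScL2 V) :
    (injK (star U) : ScL2 (Γ × V) →L[ℂ] _) = star (injK U) := scAmp_star _ U

theorem injK_sub (U U' : ScL2 V →L[ℂ] ScL2 V) :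
    (injK (U - U') : ScL2 (Γ × V) →L[ℂ] _) = injK U - injK U' := by
  have := map_sub (scAmpHom (Equiv.refl (Γ × V))) U U'
  exact this

theorem injK_pow (U : ScL2 V →L[ℂ] ScL2 V) (k : ℕ) :
    (injK (U ^ k) : ScL2 (Γ × V) →L[ℂ] _) = injK U ^ k :=
  map_pow (scAmpHom (Equiv.refl (Γ × V))) U k

theorem injK_one : (injK (1 : ScL2 V →L[ℂ] ScL2 V) : ScL2 (Γ × V) →L[ℂ] _) = 1 := scAmp_one _

/-- matrix of `(⊕ B_v)(1 ⊗ U)` -/
theorem injFib_K_delta_apply {B : V → ScL2 Γ →L[ℂ] ScL2 Γ} {C : ℝ} (hB : ∀ v, ‖B v‖ ≤ C)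
    (U : ScL2 V →L[ℂ] ScL2 V) (x x' : Γ) (v w : V) :
    injFib B (injK U (scDelta (x, w))) (x', v) = U (scDelta w) v * B v (scDelta x) x' := by
  classical
  rw [injFib_apply hB]
  have : injAt v (injK U (scDelta (x, w))) = U (scDelta w) v • scDelta x := by
    ext y
    rw [injAt_apply, injK_delta_apply]
    simp only [lp.coeFn_smul, Pi.smul_apply, smul_eq_mul, scDelta_apply]
    split_ifs <;> simp
  rw [this]
  simp

/-- matrix of `(1 ⊗ U)(⊕ B_v)` -/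
theorem injK_fib_delta_apply {B : V → ScL2 Γ →L[ℂ] ScL2 Γ} {C : ℝ} (hB : ∀ v, ‖B v‖ ≤ C)
    (U : ScL2 V →L[ℂ] ScL2 V) (x x' : Γ) (v w : V) :
    injK U (injFib B (scDelta (x, w))) (x', v) = U (scDelta w) v * B w (scDelta x) x' := by
  classical
  rw [injK_apply]
  have : scSlice (Equiv.refl (Γ × V)) x' (injFib B (scDelta (x, w)))
      = B w (scDelta x) x' • scDelta w := by
    ext u
    rw [scSlice_apply]
    show injFib B (scDelta (x, w)) (x', u) = _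
    rw [injFib_delta_apply hB]
    simp only [lp.coeFn_smul, Pi.smul_apply, smul_eq_mul, scDelta_apply]
    split_ifs <;> simp
  rw [this]
  simp [mul_comm]

/-- `(⊕ B_v)(1 ⊗ U) = (1 ⊗ U)(⊕ B'_w)` if `B_v = B'_w` whenever `U_{vw} ≠ 0` -/
theorem injFib_K_comm {B B' : V → ScL2 Γ →L[ℂ] ScL2 Γ} {C C' : ℝ} (hB : ∀ v, ‖B v‖ ≤ C)
    (hB' : ∀ v, ‖B' v‖ ≤ C') (U : ScL2 V →L[ℂ] ScL2 V)
    (h : ∀ v w, U (scDelta w) v ≠ 0 → B v = B' w) :
    injFib B * injK U = injK U * injFib B' := by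
  refine scOp_ext fun p => ?_
  obtain ⟨x, w⟩ := p
  ext ⟨x', v⟩
  rw [mul_apply_eq_comp, mul_apply_eq_comp, injFib_K_delta_apply hB,
    injK_fib_delta_apply hB']
  by_cases hU : U (scDelta w) v = 0
  · rw [hU, zero_mul, zero_mul]
  · rw [h v w hU]

end prod

end Claimed.Agent.R300
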