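/-
Row 300 / S0553 (INJ paper).  LOWER ASSEMBLY, package LOW-1: weighted pull-backs, the embedding `W_c` of the
model space `ℓ²(ℕ × Γ)` into the sheet space `ℓ²(Γ × V)` by normalised constants, blocks.
INJ captain: helper105.  The `sorry`s are replaced IN PLACE by the owner of the package (table subtask,
target row300, name INJ-LOW-1).  Statements are frozen: ask helper105 before changing one.

Proof plans.
* `injWt_spec`: `∑_y |c y|² |ξ (p y)|² = ∑_x |ξ x|² ∑_{y ∈ p⁻¹ x} |c y|² ≤ C² ‖ξ‖²`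
  (`Equiv.sigmaFiberEquiv p`, `summable_sigma_of_nonneg`); build the operator with `scMk` +
  `LinearMap.mkContinuous` as in `scPull`, then `SmpHasKer.eq_smpKer`.
* everything else: evaluate on `scDelta`s (`scOp_ext`), use `SmpHasKer.hasSum`, `SmpHasKer.adjoint`,
  `injK_fib_delta_apply`, `injFib_delta_apply` (InjOps.lean).
-/
import Mathlib
import Claimed.Agent.R300.InjOps
import Claimed.Agent.R300.InjModel

set_option autoImplicit false

namespace Claimed.Agent.R300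

open scoped ENNReal ComplexConjugate InnerProductSpace

section wt

variable {X Y : Type}

open Classical in
/-- kernel of the weighted pull-back `(W ξ)(y) = c y * ξ (p y)` -/
noncomputable def injWtK (p : Y → X) (c : Y → ℂ) : Y → X → ℂ := fun y x => if p y = x then c y else 0

/-- the weighted pull-back `(W ξ)(y) = c y * ξ (p y)` -/
noncomputable def injWt (p : Y → X) (c : Y → ℂ) : ScL2 X →L[ℂ] ScL2 Y := smpKer (injWtK p c)

/-- the weights are square summable on the fibres of `p`, with sums `≤ C²` -/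
def InjWtBd (p : Y → X) (c : Y → ℂ) (C : ℝ) : Prop :=
  ∀ x, {y | p y = x ∧ c y ≠ 0}.Finite ∧ ∑ᶠ y : {y // p y = x}, ‖c y.1‖ ^ 2 ≤ C ^ 2

/-- a `finsum` over a fibre as a sum over a finset containing the support -/
theorem inj_finsum_fibre {M : Type*} [AddCommMonoid M] {P : Y → Prop} {s : Finset Y} (g : Y → M)
    (hs : ∀ y ∈ s, P y) (hg : ∀ y, P y → y ∉ s → g y = 0) :
    ∑ᶠ y : {y // P y}, g y.1 = ∑ y ∈ s, g y := by
  rw [finsum_subtype_eq_finsum_cond (f := g) P]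
  refine finsum_mem_eq_sum_of_inter_support_eq (s := {y | P y}) g ?_
  ext y
  constructor
  · rintro ⟨h1, h2⟩
    refine ⟨?_, h2⟩
    by_contra h3
    exact h2 (hg y h1 h3)
  · rintro ⟨h1, h2⟩
    exact ⟨hs y h1, h2⟩

theorem inj_hasSum_fibre {M : Type*} [AddCommMonoid M] [TopologicalSpace M] {P : Y → Prop}
    {s : Finset Y} (g : Y → M) (hs : ∀ y ∈ s, P y) (hg : ∀ y, P y → y ∉ s → g y = 0) :
    HasSum (fun y : {y // P y} => g y.1) (∑ y ∈ s, g y) := by
  classical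
  have h1 : HasSum (Set.indicator {y | P y} g) (∑ y ∈ s, Set.indicator {y | P y} g y) := by
    refine hasSum_sum_of_ne_finset_zero fun y hy => ?_
    by_cases hP : P y
    · rw [Set.indicator_of_mem (show y ∈ {y | P y} from hP), hg y hP hy]
    · exact Set.indicator_of_notMem (show y ∉ {y | P y} from hP) g
  have h2 : ∑ y ∈ s, Set.indicator {y | P y} g y = ∑ y ∈ s, g y :=
    Finset.sum_congr rfl fun y hy => Set.indicator_of_mem (show y ∈ {y | P y} from hs y hy) g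
  rw [h2] at h1
  exact (hasSum_subtype_iff_indicator (s := {y | P y})).2 h1

/-- the finite support of the weights on a fibre -/
noncomputable def InjWtBd.fs {p : Y → X} {c : Y → ℂ} {C : ℝ} (h : InjWtBd p c C) (x : X) : Finset Y :=
  (h x).1.toFinset

theorem InjWtBd.mem_fs {p : Y → X} {c : Y → ℂ} {C : ℝ} (h : InjWtBd p c C) {x : X} {y : Y} :
    y ∈ h.fs x ↔ p y = x ∧ c y ≠ 0 := by
  simp [InjWtBd.fs]

theorem InjWtBd.sum_le {p : Y → X} {c : Y → ℂ} {C : ℝ} (h : InjWtBd p c C) (x : X) :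
    ∑ y ∈ h.fs x, ‖c y‖ ^ 2 ≤ C ^ 2 := by
  rw [← inj_finsum_fibre (P := fun y => p y = x) (fun y => ‖c y‖ ^ 2)
    (fun y hy => (h.mem_fs.1 hy).1) fun y hy hn => ?_]
  · exact (h x).2
  · have : c y = 0 := by
      by_contra h0
      exact hn (h.mem_fs.2 ⟨hy, h0⟩)
    simp [this]

theorem injWt_summable {p : Y → X} {c : Y → ℂ} {C : ℝ} (h : InjWtBd p c C) (ξ : ScL2 X) :
    Summable (fun y => ‖c y * ξ (p y)‖ ^ 2) ∧ ∑' y, ‖c y * ξ (p y)‖ ^ 2 ≤ C ^ 2 * ‖ξ‖ ^ 2 := by
  set F : Y → ℝ := fun y => ‖c y * ξ (p y)‖ ^ 2 with hF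
  set e := Equiv.sigmaFiberEquiv p with he
  have hfib : ∀ x, HasSum (fun y : {y // p y = x} => F y.1)
      ((∑ y ∈ h.fs x, ‖c y‖ ^ 2) * ‖ξ x‖ ^ 2) := by
    intro x
    have h1 := inj_hasSum_fibre (P := fun y => p y = x) (s := h.fs x) F
      (fun y hy => (h.mem_fs.1 hy).1) (fun y hy hn => by
        have : c y = 0 := by
          by_contra h0
          exact hn (h.mem_fs.2 ⟨hy, h0⟩)
        simp [hF, this])
    have h2 : ∑ y ∈ h.fs x, F y = (∑ y ∈ h.fs x, ‖c y‖ ^ 2) * ‖ξ x‖ ^ 2 := by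
      rw [Finset.sum_mul]
      refine Finset.sum_congr rfl fun y hy => ?_
      rw [hF]
      simp only
      rw [(h.mem_fs.1 hy).1, norm_mul, mul_pow]
    rw [h2] at h1
    exact h1
  have hle : ∀ x, (∑ y ∈ h.fs x, ‖c y‖ ^ 2) * ‖ξ x‖ ^ 2 ≤ C ^ 2 * ‖ξ x‖ ^ 2 := fun x =>
    mul_le_mul_of_nonneg_right (h.sum_le x) (sq_nonneg _)
  have hsum2 : Summable fun x => (∑ y ∈ h.fs x, ‖c y‖ ^ 2) * ‖ξ x‖ ^ 2 :=
    Summable.of_nonneg_of_le
      (fun x => mul_nonneg (Finset.sum_nonneg fun _ _ => sq_nonneg _) (sq_nonneg _)) hle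
      ((scL2_summable_sq ξ).mul_left (C ^ 2))
  have hsig : Summable (F ∘ e) := by
    rw [summable_sigma_of_nonneg (fun q => by
      show (0 : ℝ) ≤ ‖c (e q) * ξ (p (e q))‖ ^ 2
      positivity)]
    refine ⟨fun x => (hfib x).summable, ?_⟩
    have : (fun x => ∑' y : {y // p y = x}, (F ∘ e) ⟨x, y⟩)
        = fun x => (∑ y ∈ h.fs x, ‖c y‖ ^ 2) * ‖ξ x‖ ^ 2 := by
      funext x
      exact (hfib x).tsum_eq
    rw [this]
    exact hsum2
  have hs : Summable F := (Equiv.summable_iff e).1 hsig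
  refine ⟨hs, ?_⟩
  have h3 : HasSum (fun x => (∑ y ∈ h.fs x, ‖c y‖ ^ 2) * ‖ξ x‖ ^ 2) (∑' y, F y) :=
    HasSum.sigma ((Equiv.hasSum_iff e).2 hs.hasSum) hfib
  rw [← h3.tsum_eq, scL2_norm_sq, ← tsum_mul_left]
  exact Summable.tsum_le_tsum hle hsum2 ((scL2_summable_sq ξ).mul_left (C ^ 2))

/-- the weighted pull-back, constructed by hand -/
noncomputable def injWtOp (p : Y → X) (c : Y → ℂ) (C : ℝ) (hC : 0 ≤ C) (h : InjWtBd p c C) :
    ScL2 X →L[ℂ] ScL2 Y :=
  LinearMap.mkContinuous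
    { toFun := fun ξ => scMk (fun y => c y * ξ (p y)) (injWt_summable h ξ).1
      map_add' := fun ξ η => by
        ext y
        simp [mul_add]
      map_smul' := fun a ξ => by
        ext y
        simp only [scMk_apply, lp.coeFn_smul, Pi.smul_apply, smul_eq_mul, RingHom.id_apply]
        ring } C (by
    intro ξ
    refine le_of_sq_le_sq ?_ (by positivity)
    rw [mul_pow, scL2_norm_sq]
    exact (injWt_summable h ξ).2)

theorem injWtOp_apply {p : Y → X} {c : Y → ℂ} {C : ℝ} (hC : 0 ≤ C) (h : InjWtBd p c C) (ξ : ScL2 X)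
    (y : Y) : injWtOp p c C hC h ξ y = c y * ξ (p y) := rfl

theorem injWtOp_hasKer {p : Y → X} {c : Y → ℂ} {C : ℝ} (hC : 0 ≤ C) (h : InjWtBd p c C) :
    SmpHasKer (injWtOp p c C hC h) (injWtK p c) := by
  classical
  intro y x
  rw [injWtOp_apply, scDelta_apply, injWtK]
  split_ifs <;> simp

theorem injWt_eq_op {p : Y → X} {c : Y → ℂ} {C : ℝ} (hC : 0 ≤ C) (h : InjWtBd p c C) :
    injWt p c = injWtOp p c C hC h := (injWtOp_hasKer hC h).eq_smpKer

theorem injWt_spec {p : Y → X} {c : Y → ℂ} {C : ℝ} (hC : 0 ≤ C) (h : InjWtBd p c C) :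
    SmpHasKer (injWt p c) (injWtK p c) ∧ ‖injWt p c‖ ≤ C := by
  rw [injWt_eq_op hC h]
  exact ⟨injWtOp_hasKer hC h, LinearMap.mkContinuous_norm_le _ hC _⟩

theorem injWt_apply {p : Y → X} {c : Y → ℂ} {C : ℝ} (hC : 0 ≤ C) (h : InjWtBd p c C) (ξ : ScL2 X)
    (y : Y) : injWt p c ξ y = c y * ξ (p y) := by
  rw [injWt_eq_op hC h, injWtOp_apply]

theorem injWt_adjoint_delta {p : Y → X} {c : Y → ℂ} {C : ℝ} (hC : 0 ≤ C) (h : InjWtBd p c C) (y : Y) :
    ContinuousLinearMap.adjoint (injWt p c) (scDelta y) = conj (c y) • scDelta (p y) := by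
  classical
  ext x
  rw [sc_adjoint_delta_apply, injWt_apply hC h, lp.coeFn_smul, Pi.smul_apply, smul_eq_mul,
    scDelta_apply, scDelta_apply, map_mul]
  by_cases hx : p y = x
  · rw [if_pos hx, if_pos hx.symm]; simp
  · rw [if_neg hx, if_neg (fun h' => hx h'.symm)]; simp

theorem injWt_adjoint_apply {p : Y → X} {c : Y → ℂ} {C : ℝ} (hC : 0 ≤ C) (h : InjWtBd p c C)
    (ζ : ScL2 Y) (x : X) :
    ContinuousLinearMap.adjoint (injWt p c) ζ x = ∑ᶠ y : {y // p y = x}, conj (c y.1) * ζ y.1 := by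
  classical
  have h1 := (injWt_spec hC h).1.adjoint.hasSum ζ x
  have hz : ∀ y, p y = x → y ∉ h.fs x → conj (c y) * ζ y = 0 := fun y hy hn => by
    have : c y = 0 := by
      by_contra h0
      exact hn (h.mem_fs.2 ⟨hy, h0⟩)
    simp [this]
  rw [inj_finsum_fibre (P := fun y => p y = x) (fun y => conj (c y) * ζ y)
    (fun y hy => (h.mem_fs.1 hy).1) hz]
  refine h1.unique ?_
  have h2 : HasSum (fun y => conj (injWtK p c y x) * ζ y)
      (∑ y ∈ h.fs x, conj (injWtK p c y x) * ζ y) := by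
    refine hasSum_sum_of_ne_finset_zero fun y hy => ?_
    by_cases hp : p y = x
    · rw [injWtK, if_pos hp]; exact hz y hp hy
    · rw [injWtK, if_neg hp]; simp
  have h3 : ∑ y ∈ h.fs x, conj (injWtK p c y x) * ζ y = ∑ y ∈ h.fs x, conj (c y) * ζ y :=
    Finset.sum_congr rfl fun y hy => by rw [injWtK, if_pos (h.mem_fs.1 hy).1]
  rw [h3] at h2
  exact h2

end wt

section blocks

variable {X : Type}

theorem injIn_delta (i : ℕ) (x : X) : injIn i (scDelta x) = scDelta (i, x) := by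
  classical
  ext ⟨k, y⟩
  rw [injIn, sc_adjoint_delta_apply]
  show conj (scDelta (k, y) (i, x)) = _
  rw [scDelta_apply, scDelta_apply]
  by_cases h : (i, x) = (k, y)
  · rw [if_pos h, if_pos h.symm]; simp
  · rw [if_neg h, if_neg (fun h' => h h'.symm)]; simp

theorem injSl_apply_mk (i : ℕ) (ξ : ScL2 (ℕ × X)) (x : X) : injSl i ξ x = ξ (i, x) := rfl

theorem injSl_delta_mk (i k : ℕ) (x : X) :
    injSl i (scDelta (k, x)) = if k = i then scDelta x else 0 := by
  classical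
  ext y
  show scDelta (k, x) (i, y) = _
  rw [scDelta_apply]
  by_cases h : k = i
  · subst h
    rw [if_pos rfl, scDelta_apply]
    simp
  · rw [if_neg h, if_neg (fun h' => h (Prod.ext_iff.1 h').1.symm)]
    rfl

/-- coordinates of the inclusion of a summand -/
theorem injIn_apply_mk (k : ℕ) (ζ : ScL2 X) (i : ℕ) (x : X) :
    injIn k ζ (i, x) = if i = k then ζ x else 0 := by
  rw [← sc_inner_delta_left (i, x), injIn, ContinuousLinearMap.adjoint_inner_right, injSl_delta_mk]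
  split_ifs
  · rw [sc_inner_delta_left]
  · rw [inner_zero_left]

/-- an operator is determined by its blocks -/
theorem InjHasBlocks.unique {M M' : ScL2 (ℕ × X) →L[ℂ] ScL2 (ℕ × X)}
    {β : ℕ → ℕ → (ScL2 X →L[ℂ] ScL2 X)} (h : InjHasBlocks M β) (h' : InjHasBlocks M' β) : M = M' := by
  refine scOp_ext fun q => ?_
  obtain ⟨k, x⟩ := q
  ext ⟨i, y⟩
  have h1 := congrArg (fun T : ScL2 X →L[ℂ] ScL2 X => T (scDelta x) y) ((h i k).trans (h' i k).symm)
  simp only [ContinuousLinearMap.comp_apply, injIn_delta] at h1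
  exact h1

end blocks

section model

variable {Γ V : Type}

/-- `W_c : ℓ²(ℕ × Γ) → ℓ²(Γ × V)`, `(W_c ξ)(x,v) = c v * ξ (ht v, x)` -/
noncomputable def injW (ht : V → ℕ) (c : V → ℂ) : ScL2 (ℕ × Γ) →L[ℂ] ScL2 (Γ × V) :=
  injWt (fun q : Γ × V => (ht q.2, q.1)) (fun q => c q.2)

/-- normalised weights: finitely many nonzero weights of square sum one at every height -/
def InjUnitWt (ht : V → ℕ) (c : V → ℂ) : Prop :=
  ∀ i, {v | ht v = i ∧ c v ≠ 0}.Finite ∧ ∑ᶠ v : {v // ht v = i}, ‖c v.1‖ ^ 2 = 1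

/-- the fibre of `(x,v) ↦ (ht v, x)` over `(i,x)` -/
def injWFibEquiv (ht : V → ℕ) (i : ℕ) (x : Γ) :
    {v // ht v = i} ≃ {q : Γ × V // (ht q.2, q.1) = (i, x)} where
  toFun v := ⟨(x, v.1), by rw [v.2]⟩
  invFun q := ⟨q.1.2, (Prod.ext_iff.1 q.2).1⟩
  left_inv _ := rfl
  right_inv q := by
    obtain ⟨⟨x', v⟩, hq⟩ := q
    have : x' = x := (Prod.ext_iff.1 hq).2
    subst this
    rfl

theorem InjUnitWt.bd {ht : V → ℕ} {c : V → ℂ} (h : InjUnitWt ht c) :
    InjWtBd (fun q : Γ × V => (ht q.2, q.1)) (fun q => c q.2) 1 := by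
  rintro ⟨i, x⟩
  constructor
  · refine ((h i).1.image fun v => (x, v)).subset ?_
    rintro ⟨x', v⟩ ⟨h1, h2⟩
    have e1 : ht v = i := (Prod.ext_iff.1 h1).1
    have e2 : x' = x := (Prod.ext_iff.1 h1).2
    exact ⟨v, ⟨e1, h2⟩, by rw [e2]⟩
  · rw [← finsum_comp_equiv (injWFibEquiv ht i x)]
    exact le_of_eq ((h i).2.trans (one_pow 2).symm)

theorem injW_norm_le {ht : V → ℕ} {c : V → ℂ} (h : InjUnitWt ht c) :
    ‖(injW ht c : ScL2 (ℕ × Γ) →L[ℂ] ScL2 (Γ × V))‖ ≤ 1 :=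
  (injWt_spec zero_le_one h.bd).2

theorem injW_apply {ht : V → ℕ} {c : V → ℂ} (h : InjUnitWt ht c) (ξ : ScL2 (ℕ × Γ)) (x : Γ) (v : V) :
    injW ht c ξ (x, v) = c v * ξ (ht v, x) :=
  injWt_apply zero_le_one h.bd ξ (x, v)

theorem injW_adjoint_delta {ht : V → ℕ} {c : V → ℂ} (h : InjUnitWt ht c) (x : Γ) (v : V) :
    ContinuousLinearMap.adjoint (injW ht c) (scDelta (x, v)) = conj (c v) • scDelta (ht v, x) :=
  injWt_adjoint_delta zero_le_one h.bd (x, v)

theorem injW_adjoint_apply {ht : V → ℕ} {c : V → ℂ} (h : InjUnitWt ht c) (η : ScL2 (Γ × V)) (i : ℕ)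
    (x : Γ) :
    ContinuousLinearMap.adjoint (injW ht c) η (i, x)
      = ∑ᶠ v : {v // ht v = i}, conj (c v.1) * η (x, v.1) := by
  rw [injW, injWt_adjoint_apply zero_le_one h.bd, ← finsum_comp_equiv (injWFibEquiv ht i x)]
  rfl

/-- `W_c` on the summand `i` : a finite sum over the vertices of height `i` -/
theorem injW_in {ht : V → ℕ} {c : V → ℂ} (h : InjUnitWt ht c) (i : ℕ) (ζ : ScL2 Γ) (x : Γ) (v : V) :
    injW ht c (injIn i ζ) (x, v) = open Classical in if ht v = i then c v * ζ x else 0 := by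
  rw [injW_apply h, injIn_apply_mk]
  split_ifs <;> simp

/-- `W_c* (⊕_v B_(ht v)) W_c` is the diagonal operator with the blocks `B_i` -/
theorem injW_diag {ht : V → ℕ} {c : V → ℂ} (h : InjUnitWt ht c) (B : ℕ → ScL2 Γ →L[ℂ] ScL2 Γ) {C : ℝ}
    (hB : ∀ i, ‖B i‖ ≤ C) :
    InjHasBlocks (ContinuousLinearMap.adjoint (injW ht c) ∘L injFib (fun v => B (ht v)) ∘L injW ht c)
      (fun i k => if i = k then B i else 0) := by
  classical
  intro i k
  have hB' : ∀ v, ‖B (ht v)‖ ≤ C := fun v => hB (ht v)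
  ext ζ x
  simp only [ContinuousLinearMap.comp_apply]
  show ContinuousLinearMap.adjoint (injW ht c)
    (injFib (fun v => B (ht v)) (injW ht c (injIn k ζ))) (i, x) = _
  rw [injW_adjoint_apply h]
  have hat : ∀ v, injAt v (injW ht c (injIn k ζ)) = if ht v = k then c v • ζ else 0 := by
    intro v
    ext y
    rw [injAt_apply, injW_in h]
    split_ifs <;> simp
  have hterm : ∀ v : {v // ht v = i},
      conj (c v.1) * injFib (fun v => B (ht v)) (injW ht c (injIn k ζ)) (x, v.1)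
        = ((‖c v.1‖ ^ 2 : ℝ) : ℂ) * (if i = k then B i ζ x else 0) := by
    intro v
    rw [injFib_apply hB', hat, v.2]
    split_ifs with hik
    · rw [map_smul, lp.coeFn_smul, Pi.smul_apply, smul_eq_mul, ← mul_assoc, Complex.conj_mul',
        Complex.ofReal_pow]
    · simp
  simp only [hterm]
  have hfs : Function.HasFiniteSupport fun v : {v // ht v = i} => ((‖c v.1‖ ^ 2 : ℝ) : ℂ) := by
    refine ((h i).1.preimage Subtype.val_injective.injOn).subset fun v hv => ⟨v.2, fun h0 => hv ?_⟩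
    simp [h0]
  have hfs' : Function.HasFiniteSupport fun v : {v // ht v = i} => ‖c v.1‖ ^ 2 := by
    refine ((h i).1.preimage Subtype.val_injective.injOn).subset fun v hv => ⟨v.2, fun h0 => hv ?_⟩
    simp [h0]
  rw [← finsum_mul]
  have hone : ∑ᶠ v : {v // ht v = i}, ((‖c v.1‖ ^ 2 : ℝ) : ℂ) = 1 := by
    have := (Complex.ofRealHom : ℝ →+* ℂ).toAddMonoidHom.map_finsum hfs'
    rw [(h i).2] at this
    simpa using this.symm
  rw [hone, one_mul]
  split_ifs <;> simp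

open Classical in
/-- kernel of the partial isometry `∑_i |c_i⟩⟨c_(i+o)|` between normalised constants -/
noncomputable def injPK (ht : V → ℕ) (c : V → ℂ) (o : ℤ) : V → V → ℂ :=
  fun v w => if (ht w : ℤ) = ht v + o then c v * conj (c w) else 0

/-- `W_c M W_c* = (1 ⊗ 𝒫_o)(⊕_w B_(ht w))` for a model operator with the blocks
`(i, i+o) ↦ B_(i+o)` -/
theorem injW_conj {ht : V → ℕ} {c : V → ℂ} (h : InjUnitWt ht c) (o : ℤ)
    (P : ScL2 V →L[ℂ] ScL2 V) (hP : SmpHasKer P (injPK ht c o))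
    (B : ℕ → ScL2 Γ →L[ℂ] ScL2 Γ) {C : ℝ} (hB : ∀ i, ‖B i‖ ≤ C)
    (M : ScL2 (ℕ × Γ) →L[ℂ] ScL2 (ℕ × Γ))
    (hM : InjHasBlocks M (fun i k => open Classical in if (k : ℤ) = i + o then B k else 0)) :
    injW ht c ∘L M ∘L ContinuousLinearMap.adjoint (injW ht c)
      = injK P * injFib (fun w => B (ht w)) := by
  classical
  have hB' : ∀ v, ‖B (ht v)‖ ≤ C := fun v => hB (ht v)
  refine scOp_ext fun q => ?_
  obtain ⟨x, w⟩ := q
  ext ⟨x', v⟩
  rw [mul_apply_eq_comp, injK_fib_delta_apply hB', hP v w]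
  simp only [ContinuousLinearMap.comp_apply]
  rw [injW_adjoint_delta h, map_smul, map_smul, lp.coeFn_smul, Pi.smul_apply, smul_eq_mul,
    injW_apply h, ← injIn_delta]
  have h1 := congrArg (fun T : ScL2 Γ →L[ℂ] ScL2 Γ => T (scDelta x) x') (hM (ht v) (ht w))
  simp only [ContinuousLinearMap.comp_apply] at h1
  have h2 : M (injIn (ht w) (scDelta x)) (ht v, x')
      = injSl (ht v) (M (injIn (ht w) (scDelta x))) x' := rfl
  rw [h2, h1, injPK]
  split_ifs
  · ring
  · simp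

end model

end Claimed.Agent.R300
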