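/-
Row 300 / S0553 (INJ paper).  PACKAGE L3: golden separation (4.4) and the spreading lemma 4.1
(Borel-free form).  INJ captain: helper105.  Proofs: helper158 (subtask INJ-L3), no gaps
left.  Statements are frozen: ask helper105 first.

Proof plans.
* `inj_golden`: `α² + α = 1`; for integers `(n,m) ≠ 0`: `|(nα - m)(nα' - m)| = |m² + mn - n²| ≥ 1`, with
  `α' = -(√5+1)/2`, and `|nα' - m| ≤ |nα - m| + √5 |n|`; if `|nα - m| < 1/(3|n|)` this gives `< 1`.
* `inj_rect_disjoint`: `g p ≠ 0`, `f (θ, ξ - nθ) ≠ 0` force `‖nθ‖ ≤ 2R/N`, but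
  `‖nθ‖ ≥ ‖nα‖ - |n| R/Z ≥ 1/(6J) - 2JR/Z`, `N = J⁴`, `Z = J¹⁰`, `J ≥ 2^(50 H0)`.
* `inj_spread`: `T*T = ∑ a_j a_j' π(y^(j'-j))`, `Φ g π(y^n) Φ f = Φ (g * f∘shear_n) π(y^n)` (`inj_calc_shear`).
-/
import Mathlib
import Claimed.Agent.R300.InjCalc

set_option autoImplicit false

namespace Claimed.Agent.R300

open scoped ENNReal ComplexConjugate InnerProductSpace

/-- (4.4): `‖nα‖ ≥ 1/(3|n|)` -/
theorem inj_golden (n m : ℤ) (hn : n ≠ 0) : 1 / (3 * |(n : ℝ)|) ≤ |(n : ℝ) * injAlpha - m| := by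
  have h5 : Real.sqrt 5 ^ 2 = 5 := Real.sq_sqrt (by norm_num)
  have h5pos : 0 < Real.sqrt 5 := Real.sqrt_pos.2 (by norm_num)
  have h5lt : Real.sqrt 5 < 2.24 := by
    rw [Real.sqrt_lt' (by norm_num)]; norm_num
  have hirr : Irrational (Real.sqrt 5) := by
    have : Nat.Prime 5 := by norm_num
    simpa using this.irrational_sqrt
  unfold injAlpha
  generalize Real.sqrt 5 = s at *
  have hns : Irrational ((n : ℝ) * s) := irrational_intCast_mul_iff.2 ⟨hn, hirr⟩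
  set d : ℝ := (n : ℝ) * ((s - 1) / 2) - m with hd
  set d' : ℝ := d - n * s with hd'
  have hprod : d * d' = ((m ^ 2 + m * n - n ^ 2 : ℤ) : ℝ) := by
    push_cast
    rw [hd', hd]
    linear_combination (-(n : ℝ) ^ 2 / 4) * h5
  have hd0 : d ≠ 0 := by
    intro h
    apply hns.ne_int (2 * m + n)
    push_cast
    rw [hd] at h
    linarith
  have hd'0 : d' ≠ 0 := by
    intro h
    apply hns.ne_int (-(2 * m + n))
    push_cast
    rw [hd', hd] at h
    linarith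
  have hK : (m ^ 2 + m * n - n ^ 2 : ℤ) ≠ 0 := by
    intro h
    rw [h, Int.cast_zero] at hprod
    exact (mul_ne_zero hd0 hd'0) hprod
  have h1 : (1 : ℝ) ≤ |d| * |d'| := by
    rw [← abs_mul, hprod, ← Int.cast_abs]
    exact_mod_cast Int.one_le_abs hK
  have h2 : |d'| ≤ |d| + |(n : ℝ)| * s := by
    rw [hd']
    calc |d - n * s| ≤ |d| + |(n : ℝ) * s| := abs_sub _ _
      _ = |d| + |(n : ℝ)| * s := by rw [abs_mul, abs_of_pos h5pos]
  have ha : (1 : ℝ) ≤ |(n : ℝ)| := by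
    rw [← Int.cast_abs]
    exact_mod_cast Int.one_le_abs hn
  by_contra hcon
  push Not at hcon
  have hapos : (0 : ℝ) < 3 * |(n : ℝ)| := by positivity
  rw [lt_div_iff₀ hapos] at hcon
  have hdn : 0 ≤ |d| := abs_nonneg d
  generalize |d| = x at *
  generalize |d'| = x' at *
  generalize |(n : ℝ)| = a at *
  have hx3 : x < 1 / 3 := by nlinarith
  have h3 : x * x' ≤ x * (x + a * s) := mul_le_mul_of_nonneg_left h2 hdn
  have h4 : x * a < 1 / 3 := by nlinarith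
  have h5' : x * a * s ≤ 1 / 3 * 2.24 := by
    have : 0 ≤ x * a := by positivity
    nlinarith
  nlinarith

theorem injBump_zero : injBump 0 = 1 := by
  simp [injBump, Real.smoothTransition.one]

theorem injBumpNorm_pos (J : ℕ) : 0 < injBumpNorm J := by
  have h0 : (0 : ℤ) ∈ Finset.Icc (-(J : ℤ)) J := by
    rw [Finset.mem_Icc]; constructor <;> omega
  have h1 : injBump (((0 : ℤ) : ℝ) / J) ^ 2 ≤ injBumpNorm J :=
    Finset.single_le_sum (f := fun k : ℤ => injBump ((k : ℝ) / J) ^ 2)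
      (fun k _ => sq_nonneg _) h0
  rw [Int.cast_zero, zero_div, injBump_zero] at h1
  linarith

/-- `∑_j a_j² = 1` -/
theorem injCoef_sq_sum (J : ℕ) : ∑ j ∈ Finset.Icc (-(J : ℤ)) J, injCoef J j ^ 2 = 1 := by
  have hpos := injBumpNorm_pos J
  have h : ∀ j : ℤ, injCoef J j ^ 2 = injBump ((j : ℝ) / J) ^ 2 / injBumpNorm J := by
    intro j
    rw [injCoef, div_pow, Real.sq_sqrt hpos.le]
  simp_rw [h]
  rw [← Finset.sum_div]
  exact div_self hpos.ne'

/-- the scales in terms of `x = J_i` -/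
theorem injg_scales (b H0 i : ℕ) :
    injNs b H0 i = ((injJs b H0 i : ℕ) : ℝ) ^ 4 ∧ injZs b H0 i = ((injJs b H0 i : ℕ) : ℝ) ^ 10 ∧
      (2 : ℝ) ^ H0 ≤ ((injJs b H0 i : ℕ) : ℝ) := by
  refine ⟨?_, ?_, ?_⟩
  · rw [injNs, injJs]
    push_cast
    rw [← pow_mul]
    congr 1
    ring
  · rw [injZs, injJs]
    push_cast
    rw [← pow_mul]
    congr 1
    ring
  · rw [injJs]
    push_cast
    apply pow_le_pow_right₀ (by norm_num)
    have : H0 ≤ injH b H0 i := Nat.le_add_right _ _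
    omega

/-- the translates of a rectangle by the shears `0 < |n| ≤ 2 J_i` are disjoint from it -/
theorem inj_rect_disjoint (b H0 : ℕ) (R : ℝ) (hR : 1 ≤ R) (hH : 100 * R ≤ 2 ^ H0) (i : ℕ)
    (f g : C(InjT × InjT, ℂ)) (hf : InjSuppRect b H0 R i f) (hg : InjSuppRect b H0 R i g)
    (n : ℤ) (hn : n ≠ 0) (hn2 : |n| ≤ 2 * (injJs b H0 i : ℤ)) :
    g * f.comp (injShear n) = 0 := by
  ext p
  rw [ContinuousMap.mul_apply, ContinuousMap.comp_apply, ContinuousMap.zero_apply]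
  by_contra hne
  have hg0 : g p ≠ 0 := left_ne_zero_of_mul hne
  have hf0 : f (injShear n p) ≠ 0 := right_ne_zero_of_mul hne
  obtain ⟨t, u, hp, ht, hu⟩ := hg p hg0
  obtain ⟨t', u', hp', -, hu'⟩ := hf _ hf0
  obtain ⟨hN, hZ, hx⟩ := injg_scales b H0 i
  rw [hN] at hu hu'
  rw [hZ] at ht
  have hn2' : |(n : ℝ)| ≤ 2 * ((injJs b H0 i : ℕ) : ℝ) := by
    rw [← Int.cast_abs]
    exact_mod_cast hn2
  generalize ((injJs b H0 i : ℕ) : ℝ) = x at *
  -- the second coordinate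
  have h2 : ((u - n * t - u' : ℝ) : InjT) = 0 := by
    have h := congrArg Prod.snd hp'
    rw [hp] at h
    have h' : (u : InjT) - n • (t : InjT) = (u' : InjT) := h
    rw [AddCircle.coe_sub, AddCircle.coe_sub, ← h', ← zsmul_eq_mul, AddCircle.coe_zsmul, sub_self]
  obtain ⟨k, hk⟩ := (AddCircle.coe_eq_zero_iff (p := (1 : ℝ))).1 h2
  rw [zsmul_eq_mul, mul_one] at hk
  have hgold := inj_golden n (-k) hn
  have hid : (n : ℝ) * injAlpha - ((-k : ℤ) : ℝ) = (u - u') - n * (t - injAlpha) := by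
    push_cast
    linarith
  rw [hid] at hgold
  have hx100 : 100 ≤ x := by linarith
  have hxpos : 0 < x := by linarith
  have hRx : 100 * R ≤ x := hH.trans hx
  have hb1 : R / x ^ 4 ≤ 1 / (100 * x) := by
    rw [div_le_div_iff₀ (by positivity) (by positivity)]
    have h24 : x ^ 2 ≤ x ^ 4 := pow_le_pow_right₀ (by linarith) (by norm_num)
    nlinarith
  have hb2 : |(n : ℝ)| * (R / x ^ 10) ≤ 1 / (50 * x) := by
    have h3 : R / x ^ 10 ≤ 1 / (100 * x ^ 2) := by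
      rw [div_le_div_iff₀ (by positivity) (by positivity)]
      have h24 : x ^ 3 ≤ x ^ 10 := pow_le_pow_right₀ (by linarith) (by norm_num)
      have h25 : 0 ≤ x ^ 2 := by positivity
      nlinarith
    calc |(n : ℝ)| * (R / x ^ 10) ≤ (2 * x) * (1 / (100 * x ^ 2)) :=
          mul_le_mul hn2' h3 (by positivity) (by positivity)
      _ = 1 / (50 * x) := by field_simp; ring
  have hb3 : 1 / (6 * x) ≤ 1 / (3 * |(n : ℝ)|) := by
    apply one_div_le_one_div_of_le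
    · have : (0 : ℝ) < |(n : ℝ)| := abs_pos.2 (by exact_mod_cast hn)
      positivity
    · linarith
  have hb4 : |(u - u') - n * (t - injAlpha)| ≤ R / x ^ 4 + R / x ^ 4 + |(n : ℝ)| * (R / x ^ 10) := by
    calc |(u - u') - n * (t - injAlpha)| ≤ |u - u'| + |(n : ℝ) * (t - injAlpha)| := abs_sub _ _
      _ ≤ (|u| + |u'|) + |(n : ℝ)| * |t - injAlpha| := by
          rw [abs_mul]
          exact add_le_add_left (abs_sub _ _) _
      _ ≤ R / x ^ 4 + R / x ^ 4 + |(n : ℝ)| * (R / x ^ 10) := by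
          have := mul_le_mul_of_nonneg_left ht (abs_nonneg (n : ℝ))
          linarith
  have hfin : 1 / (6 * x) ≤ 1 / (100 * x) + 1 / (100 * x) + 1 / (50 * x) := by linarith
  have e1 : 1 / (6 * x) = (1 / x) * (1 / 6) := by field_simp
  have e2 : 1 / (100 * x) = (1 / x) * (1 / 100) := by field_simp
  have e3 : 1 / (50 * x) = (1 / x) * (1 / 50) := by field_simp
  rw [e1, e2, e3] at hfin
  have hy : 0 < 1 / x := by positivity
  nlinarith

section rep

variable {H : Type*} [NormedAddCommGroup H] [InnerProductSpace ℂ H] [CompleteSpace H]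

/-- Lemma 4.1, orthogonality -/
theorem inj_spread_orth (π : InjRep H) (Φ : C(InjT × InjT, ℂ) →⋆ₐ[ℂ] (H →L[ℂ] H))
    (h1 : Φ injE1 = π.π InjHeis.z) (h2 : Φ injE2 = π.π InjHeis.x)
    (b H0 : ℕ) (R : ℝ) (hR : 1 ≤ R) (hH : 100 * R ≤ 2 ^ H0) (i : ℕ)
    (f g : C(InjT × InjT, ℂ)) (hf : InjSuppRect b H0 R i f) (hg : InjSuppRect b H0 R i g)
    (n : ℤ) (hn : n ≠ 0) (hn2 : |n| ≤ 2 * (injJs b H0 i : ℤ)) :
    Φ g * π.π (InjHeis.y ^ n) * Φ f = 0 := by
  have hsh := inj_calc_shear π Φ h1 h2 n f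
  have hinv : π.π (InjHeis.y ^ (-n)) * π.π (InjHeis.y ^ n) = 1 := by
    rw [← map_mul, zpow_neg, inv_mul_cancel, map_one]
  calc Φ g * π.π (InjHeis.y ^ n) * Φ f
      = Φ g * (π.π (InjHeis.y ^ n) * Φ f * (π.π (InjHeis.y ^ (-n)) * π.π (InjHeis.y ^ n))) := by
        rw [hinv, mul_one, mul_assoc]
    _ = Φ g * (π.π (InjHeis.y ^ n) * Φ f * π.π (InjHeis.y ^ (-n))) * π.π (InjHeis.y ^ n) := by
        simp only [mul_assoc]
    _ = Φ (g * f.comp (injShear n)) * π.π (InjHeis.y ^ n) := by rw [hsh, map_mul]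
    _ = 0 := by rw [inj_rect_disjoint b H0 R hR hH i f g hf hg n hn hn2, map_zero, zero_mul]

theorem injTJ_star (π : InjRep H) (J : ℕ) :
    star (injTJ π J) = ∑ j ∈ Finset.Icc (-(J : ℤ)) J, (injCoef J j : ℂ) • π.π (InjHeis.y ^ (-j)) := by
  rw [injTJ, star_sum]
  refine Finset.sum_congr rfl fun j _ => ?_
  rw [star_smul, π.star_π, zpow_neg, Complex.star_def, Complex.conj_ofReal]

theorem injCoef_sq_sum_complex (J : ℕ) :
    ∑ j ∈ Finset.Icc (-(J : ℤ)) J, (injCoef J j : ℂ) * (injCoef J j : ℂ) = 1 := by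
  have h := congrArg (fun r : ℝ => (r : ℂ)) (injCoef_sq_sum J)
  simp only [Complex.ofReal_sum, Complex.ofReal_pow, Complex.ofReal_one] at h
  rw [← h]
  exact Finset.sum_congr rfl fun j _ => (sq _).symm

/-- Lemma 4.1: `Φ(g) T_i* T_i Φ(f) = Φ(g f)` on the rectangle of height `i` -/
theorem inj_spread (π : InjRep H) (Φ : C(InjT × InjT, ℂ) →⋆ₐ[ℂ] (H →L[ℂ] H))
    (h1 : Φ injE1 = π.π InjHeis.z) (h2 : Φ injE2 = π.π InjHeis.x)
    (b H0 : ℕ) (R : ℝ) (hR : 1 ≤ R) (hH : 100 * R ≤ 2 ^ H0) (i : ℕ)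
    (f g : C(InjT × InjT, ℂ)) (hf : InjSuppRect b H0 R i f) (hg : InjSuppRect b H0 R i g) :
    Φ g * star (injT π b H0 i) * injT π b H0 i * Φ f = Φ (g * f) := by
  have hterm : ∀ j ∈ Finset.Icc (-((injJs b H0 i : ℕ) : ℤ)) (injJs b H0 i),
      ∀ j' ∈ Finset.Icc (-((injJs b H0 i : ℕ) : ℤ)) (injJs b H0 i),
      Φ g * ((injCoef (injJs b H0 i) j : ℂ) • π.π (InjHeis.y ^ (-j))) *
        ((injCoef (injJs b H0 i) j' : ℂ) • π.π (InjHeis.y ^ j')) * Φ f
      = if j' = j then ((injCoef (injJs b H0 i) j : ℂ) * (injCoef (injJs b H0 i) j : ℂ)) • Φ (g * f)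
        else 0 := by
    intro j hj j' hj'
    have e : Φ g * ((injCoef (injJs b H0 i) j : ℂ) • π.π (InjHeis.y ^ (-j))) *
        ((injCoef (injJs b H0 i) j' : ℂ) • π.π (InjHeis.y ^ j')) * Φ f
        = ((injCoef (injJs b H0 i) j : ℂ) * (injCoef (injJs b H0 i) j' : ℂ)) •
          (Φ g * π.π (InjHeis.y ^ (j' - j)) * Φ f) := by
      have : π.π (InjHeis.y ^ (j' - j)) = π.π (InjHeis.y ^ (-j)) * π.π (InjHeis.y ^ j') := by
        rw [← map_mul, ← zpow_add, sub_eq_neg_add]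
      rw [this]
      simp only [mul_smul_comm, smul_mul_assoc, smul_smul, mul_assoc]
      rw [mul_comm (injCoef (injJs b H0 i) j' : ℂ)]
    rw [e]
    split_ifs with hjj
    · subst hjj
      rw [sub_self, zpow_zero, map_one, mul_one, map_mul]
    · rw [Finset.mem_Icc] at hj hj'
      rw [inj_spread_orth π Φ h1 h2 b H0 R hR hH i f g hf hg (j' - j) (sub_ne_zero.2 hjj)
        (by rw [abs_le]; constructor <;> omega), smul_zero]
  rw [injT, injTJ_star, injTJ,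
    Finset.mul_sum _ (fun j => (injCoef (injJs b H0 i) j : ℂ) • π.π (InjHeis.y ^ (-j))) (Φ g),
    Finset.sum_mul, Finset.sum_mul]
  have hinner : ∀ j ∈ Finset.Icc (-((injJs b H0 i : ℕ) : ℤ)) (injJs b H0 i),
      Φ g * ((injCoef (injJs b H0 i) j : ℂ) • π.π (InjHeis.y ^ (-j))) *
        (∑ j' ∈ Finset.Icc (-((injJs b H0 i : ℕ) : ℤ)) (injJs b H0 i),
          (injCoef (injJs b H0 i) j' : ℂ) • π.π (InjHeis.y ^ j')) * Φ f
      = ((injCoef (injJs b H0 i) j : ℂ) * (injCoef (injJs b H0 i) j : ℂ)) • Φ (g * f) := by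
    intro j hj
    rw [Finset.mul_sum, Finset.sum_mul, Finset.sum_congr rfl (hterm j hj),
      Finset.sum_ite_eq' _ j, if_pos hj]
  rw [Finset.sum_congr rfl hinner, ← Finset.sum_smul, injCoef_sq_sum_complex, one_smul]

theorem InjSuppRect.star {b H0 : ℕ} {R : ℝ} {i : ℕ} {f : C(InjT × InjT, ℂ)}
    (hf : InjSuppRect b H0 R i f) : InjSuppRect b H0 R i (star f) := by
  intro p hp
  apply hf p
  intro h0
  apply hp
  rw [ContinuousMap.star_apply, h0, star_zero]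

/-- `‖T_i Φ(f)‖ ≤ ‖f‖` -/
theorem inj_spread_norm_le (π : InjRep H) (Φ : C(InjT × InjT, ℂ) →⋆ₐ[ℂ] (H →L[ℂ] H))
    (h1 : Φ injE1 = π.π InjHeis.z) (h2 : Φ injE2 = π.π InjHeis.x)
    (b H0 : ℕ) (R : ℝ) (hR : 1 ≤ R) (hH : 100 * R ≤ 2 ^ H0) (i : ℕ)
    (f : C(InjT × InjT, ℂ)) (hf : InjSuppRect b H0 R i f) :
    ‖injT π b H0 i * Φ f‖ ≤ ‖f‖ := by
  have e : star (injT π b H0 i * Φ f) * (injT π b H0 i * Φ f) = Φ (star f * f) := by
    rw [← inj_spread π Φ h1 h2 b H0 R hR hH i f (star f) hf hf.star, star_mul, map_star]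
    simp only [mul_assoc]
  have h3 : ‖injT π b H0 i * Φ f‖ * ‖injT π b H0 i * Φ f‖ ≤ ‖f‖ * ‖f‖ := by
    rw [← CStarRing.norm_star_mul_self, e, ← CStarRing.norm_star_mul_self (x := f)]
    exact inj_calc_norm_le Φ _
  exact (mul_self_le_mul_self_iff (norm_nonneg _) (norm_nonneg _)).2 h3

end rep

section regular

variable {Γ : Type} [Group Γ]

/-- `(T Φ f)* δ_g = ∑_j a_j Φ(f̄) δ_{g φ(y^j)}` -/
theorem injg_star_delta (φ : InjHeis →* Γ)
    (Φ : C(InjT × InjT, ℂ) →⋆ₐ[ℂ] (ScL2 Γ →L[ℂ] ScL2 Γ)) (J : ℕ) (f : C(InjT × InjT, ℂ)) (g : Γ) :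
    star (injTJ (injRhoRep φ) J * Φ f) (scDelta g)
      = ∑ j ∈ Finset.Icc (-(J : ℤ)) J,
          (injCoef J j : ℂ) • Φ (star f) (scDelta (g * φ (InjHeis.y ^ j))) := by
  rw [star_mul, injTJ_star, ← map_star, mul_apply_eq_comp, sum_apply, map_sum]
  refine Finset.sum_congr rfl fun j _ => ?_
  rw [smul_apply, map_smul]
  congr 2
  show scRho (φ (InjHeis.y ^ (-j))) (scDelta g) = _
  rw [scRho_delta, ← map_inv, zpow_neg, inv_inv]

/-- carrier trace (6.6): `‖(T_i Φ f)* δ_g‖² = ∫ |f|²` in the regular representation -/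
theorem inj_spread_norm_delta (φ : InjHeis →* Γ) (hφ : Function.Injective φ)
    (Φ : C(InjT × InjT, ℂ) →⋆ₐ[ℂ] (ScL2 Γ →L[ℂ] ScL2 Γ))
    (h1 : Φ injE1 = scRho (φ InjHeis.z)) (h2 : Φ injE2 = scRho (φ InjHeis.x))
    (J : ℕ) (f : C(InjT × InjT, ℂ)) (g : Γ) :
    ‖star (injTJ (injRhoRep φ) J * Φ f) (scDelta g)‖ ^ 2 = ∫ θ : InjT, ∫ ξ : InjT, ‖f (θ, ξ)‖ ^ 2 := by
  rw [injg_star_delta, sc_norm_sq_sum_of_disjoint]
  · have hnorm : ∀ j : ℤ,
        ‖(injCoef J j : ℂ) • Φ (star f) (scDelta (g * φ (InjHeis.y ^ j)))‖ ^ 2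
          = injCoef J j ^ 2 * ∫ θ : InjT, ∫ ξ : InjT, ‖f (θ, ξ)‖ ^ 2 := by
      intro j
      rw [norm_smul, mul_pow, inj_calc_norm_delta φ hφ Φ h1 h2, Complex.norm_real,
        Real.norm_eq_abs, sq_abs]
      congr 1
      refine MeasureTheory.integral_congr_ae (Filter.Eventually.of_forall fun θ => ?_)
      refine MeasureTheory.integral_congr_ae (Filter.Eventually.of_forall fun ξ => ?_)
      show ‖star (f (θ, ξ))‖ ^ 2 = ‖f (θ, ξ)‖ ^ 2
      rw [norm_star]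
    simp_rw [hnorm]
    rw [← Finset.sum_mul, injCoef_sq_sum, one_mul]
  · intro j _ j' _ hjj x
    by_contra hcon
    push Not at hcon
    obtain ⟨hx, hx'⟩ := hcon
    have key : ∀ j : ℤ, ((injCoef J j : ℂ) • Φ (star f) (scDelta (g * φ (InjHeis.y ^ j)))) x ≠ 0 →
        ∃ c n : ℤ, x = g * φ (InjHeis.y ^ j) * φ (InjHeis.z ^ c * InjHeis.x ^ n) := by
      intro j hj
      by_contra hno
      push Not at hno
      apply hj
      show (injCoef J j : ℂ) • (Φ (star f) (scDelta (g * φ (InjHeis.y ^ j))) x) = 0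
      rw [inj_calc_supp φ Φ h1 h2 (star f) _ x hno, smul_zero]
    obtain ⟨c, n, e⟩ := key j hx
    obtain ⟨c', n', e'⟩ := key j' hx'
    rw [e, mul_assoc, mul_assoc, mul_right_inj, ← map_mul, ← map_mul] at e'
    have e'' := congrArg InjHeis.b (hφ e')
    rw [injc_zx, injc_zx, injc_y_zpow, injc_y_zpow] at e''
    simp only [InjHeis.mul_b, add_zero] at e''
    exact hjj e''

/-- `(T Φ f)* δ_g` lives on the coset `g φ(Heis)` -/
theorem inj_spread_supp (φ : InjHeis →* Γ)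
    (Φ : C(InjT × InjT, ℂ) →⋆ₐ[ℂ] (ScL2 Γ →L[ℂ] ScL2 Γ))
    (h1 : Φ injE1 = scRho (φ InjHeis.z)) (h2 : Φ injE2 = scRho (φ InjHeis.x))
    (J : ℕ) (f : C(InjT × InjT, ℂ)) (g g' : Γ) (hg : ∀ h : InjHeis, g' ≠ g * φ h) :
    star (injTJ (injRhoRep φ) J * Φ f) (scDelta g) g' = 0 := by
  rw [injg_star_delta]
  have hsum : (∑ j ∈ Finset.Icc (-(J : ℤ)) J,
      (injCoef J j : ℂ) • Φ (star f) (scDelta (g * φ (InjHeis.y ^ j)))) g'
      = ∑ j ∈ Finset.Icc (-(J : ℤ)) J,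
        (injCoef J j : ℂ) • (Φ (star f) (scDelta (g * φ (InjHeis.y ^ j))) g') := by
    rw [← sc_inner_delta_left g', inner_sum]
    refine Finset.sum_congr rfl fun j _ => ?_
    rw [sc_inner_delta_left]
    rfl
  rw [hsum]
  refine Finset.sum_eq_zero fun j _ => ?_
  rw [inj_calc_supp φ Φ h1 h2 (star f) _ g' (fun c n => ?_), smul_zero]
  rw [mul_assoc, ← map_mul]
  exact hg _

end regular

end Claimed.Agent.R300
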