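/-
Row 300 / S0553 (INJ paper).  LOWER ASSEMBLY, package LOW-2: symbol calculus on the sheet space `ℓ²(Γ × V)`
and the route identity (6.13).
INJ captain: helper105.  The `sorry`s are replaced IN PLACE by the owner of the package (table subtask,
target row300, name INJ-LOW-2).  Statements are frozen: ask helper105 before changing one.

Notation.  `S g = ⊕_v T_(ht v) Φ(g_(ht v))`, `Dg g = ⊕_v Φ(g_(ht v))`, `K U = 1 ⊗ U`.
Proof plans (all algebra with `injFibE_mul`, `injFibE_star`, `injFib_K_comm`, `injK_mul`, `inj_spread`):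
* `injS_star_mul`   : `S(g)* S(f) = Dg(ḡ f)`            (fibrewise `inj_spread`, InjGold.lean)
* `injS_mul_Dg`     : `S(f) Dg(h) = S(f h)`
* `injDg_K_comm`    : `Dg(h) K(U) = K(U) Dg(h')` if `U` shifts the height by `o` and `h_i = h'_(i+o)`
* `inj_route`: put `Y(U,h) = S(χ) K(U) Dg(h) S(χ)*`.  `z0* z0 = S(χ) K(U0* U0) Dg(χ1²) S(χ)*`,
  `(z0* z0) Y(U,h) = Y(U0* U0 U, h)`, `Y(U,h) (z0* z0) = Y(U U0* U0, h)` when the cutoffs act as one on `h`
  (at the source height and at the target height), `z0* zτ = Y(U0* Uτ, F)`; induction on `k`.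
-/
import Mathlib
import Claimed.Agent.R300.InjOps
import Claimed.Agent.R300.InjGold

set_option autoImplicit false

namespace Claimed.Agent.R300

open scoped ENNReal ComplexConjugate InnerProductSpace

variable {Γ : Type} [Group Γ] {V : Type}

/-- `S g = ⊕_v T_(ht v) Φ(g_(ht v))` -/
noncomputable def injS (φ : InjHeis →* Γ) (Φ : C(InjT × InjT, ℂ) →⋆ₐ[ℂ] (ScL2 Γ →L[ℂ] ScL2 Γ))
    (b H0 : ℕ) (ht : V → ℕ) (g : ℕ → C(InjT × InjT, ℂ)) : ScL2 (Γ × V) →L[ℂ] ScL2 (Γ × V) :=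
  injFib fun v => injT (injRhoRep φ) b H0 (ht v) * Φ (g (ht v))

/-- `Dg g = ⊕_v Φ(g_(ht v))` -/
noncomputable def injDg (Φ : C(InjT × InjT, ℂ) →⋆ₐ[ℂ] (ScL2 Γ →L[ℂ] ScL2 Γ))
    (ht : V → ℕ) (g : ℕ → C(InjT × InjT, ℂ)) : ScL2 (Γ × V) →L[ℂ] ScL2 (Γ × V) :=
  injFib fun v => Φ (g (ht v))

/-- a bounded family of functions, the `i`-th supported in the rectangle of height `i` -/
structure InjFam (b H0 : ℕ) (R C : ℝ) (g : ℕ → C(InjT × InjT, ℂ)) : Prop where
  supp : ∀ i, InjSuppRect b H0 R i (g i)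
  bd : ∀ i, ‖g i‖ ≤ C

/-- the matrix of `U` is supported on the pairs `(v,w)` with `ht w = ht v + o` -/
def InjShift (ht : V → ℕ) (o : ℤ) (U : ScL2 V →L[ℂ] ScL2 V) : Prop :=
  ∀ v w, U (scDelta w) v ≠ 0 → (ht w : ℤ) = ht v + o

theorem injSpr_norm_star {X : Type} (T : ScL2 X →L[ℂ] ScL2 X) : ‖star T‖ = ‖T‖ := by
  rw [ContinuousLinearMap.star_eq_adjoint, LinearIsometryEquiv.norm_map]

theorem injSpr_pow_sandwich {A : Type*} [Monoid A] (P Q : A) (k : ℕ) :
    P ^ (k + 1) * Q * P ^ (k + 1) = P * (P ^ k * Q * P ^ k) * P := by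
  calc P ^ (k + 1) * Q * P ^ (k + 1) = (P * P ^ k) * Q * (P ^ k * P) := by
        rw [← pow_succ', ← pow_succ]
    _ = _ := by simp only [mul_assoc]

/-- matrix expansion of a bounded operator -/
theorem injSpr_apply_eq_tsum (U : ScL2 V →L[ℂ] ScL2 V) (ξ : ScL2 V) (v : V) :
    U ξ v = ∑' u, ξ u * U (scDelta u) v := by
  rw [← sc_inner_delta_left v (U ξ), ← ContinuousLinearMap.adjoint_inner_left, lp.inner_eq_tsum]
  refine tsum_congr fun u => ?_
  rw [sc_adjoint_delta_apply]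
  simp

theorem InjShift.mul {ht : V → ℕ} {o o' : ℤ} {U U' : ScL2 V →L[ℂ] ScL2 V} (h : InjShift ht o U)
    (h' : InjShift ht o' U') : InjShift ht (o + o') (U * U') := by
  intro v w hne
  change U (U' (scDelta w)) v ≠ 0 at hne
  rw [injSpr_apply_eq_tsum] at hne
  obtain ⟨u, hu⟩ : ∃ u, U' (scDelta w) u * U (scDelta u) v ≠ 0 := by
    by_contra hcon
    push Not at hcon
    exact hne (by simp [hcon])
  have e1 := h' u w (left_ne_zero_of_mul hu)
  have e2 := h v u (right_ne_zero_of_mul hu)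
  omega

theorem InjShift.star {ht : V → ℕ} {o : ℤ} {U : ScL2 V →L[ℂ] ScL2 V} (h : InjShift ht o U) :
    InjShift ht (-o) (star U) := by
  intro v w hne
  rw [sc_star_delta_apply] at hne
  have e1 := h w v (fun h0 => hne (by rw [h0, map_zero]))
  omega

theorem InjShift.one (ht : V → ℕ) : InjShift ht 0 (1 : ScL2 V →L[ℂ] ScL2 V) := by
  intro v w hne
  change scDelta w v ≠ 0 at hne
  have : v = w := by
    by_contra hvw
    exact hne (scDelta_ne hvw)
  rw [this, add_zero]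

theorem InjShift.pow {ht : V → ℕ} {U : ScL2 V →L[ℂ] ScL2 V} (h : InjShift ht 0 U) (k : ℕ) :
    InjShift ht 0 (U ^ k) := by
  induction k with
  | zero => rw [pow_zero]; exact InjShift.one ht
  | succ k ih =>
    rw [pow_succ]
    have := ih.mul h
    rwa [add_zero] at this

section symb

variable (φ : InjHeis →* Γ) (Φ : C(InjT × InjT, ℂ) →⋆ₐ[ℂ] (ScL2 Γ →L[ℂ] ScL2 Γ))
  (h1 : Φ injE1 = scRho (φ InjHeis.z)) (h2 : Φ injE2 = scRho (φ InjHeis.x))
  (b H0 : ℕ) (R : ℝ) (hR : 1 ≤ R) (hH : 100 * R ≤ 2 ^ H0) (ht : V → ℕ)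

include h1 h2 hR hH in
theorem injSpr_T_norm_le {C : ℝ} {g : ℕ → C(InjT × InjT, ℂ)} (hg : InjFam b H0 R C g) (i : ℕ) :
    ‖injT (injRhoRep φ) b H0 i * Φ (g i)‖ ≤ C :=
  (inj_spread_norm_le (injRhoRep φ) Φ h1 h2 b H0 R hR hH i (g i) (hg.supp i)).trans (hg.bd i)

include h1 h2 hR hH in
theorem injS_norm_le {C : ℝ} {g : ℕ → C(InjT × InjT, ℂ)} (hg : InjFam b H0 R C g) :
    ‖injS φ Φ b H0 ht g‖ ≤ C := by
  have hC : 0 ≤ C := (norm_nonneg _).trans (hg.bd 0)
  exact injFibE_norm_le _ hC fun v => injSpr_T_norm_le φ Φ h1 h2 b H0 R hR hH hg (ht v)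

theorem injDg_norm_le {C : ℝ} (hC : 0 ≤ C) {g : ℕ → C(InjT × InjT, ℂ)} (hg : ∀ i, ‖g i‖ ≤ C) :
    ‖injDg Φ ht g‖ ≤ C := by
  exact injFibE_norm_le _ hC fun v => (inj_calc_norm_le Φ _).trans (hg _)

include h1 h2 hR hH in
theorem injS_star_mul {C C' : ℝ} {g f : ℕ → C(InjT × InjT, ℂ)} (hg : InjFam b H0 R C g)
    (hf : InjFam b H0 R C' f) :
    star (injS φ Φ b H0 ht g) * injS φ Φ b H0 ht f = injDg Φ ht (fun i => star (g i) * f i) := by
  have hbg := fun v : V => injSpr_T_norm_le φ Φ h1 h2 b H0 R hR hH hg (ht v)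
  have hbf := fun v : V => injSpr_T_norm_le φ Φ h1 h2 b H0 R hR hH hf (ht v)
  unfold injS injDg injFib
  rw [injFibE_star _ hbg, injFibE_mul _ (C := C) (D := C')
    (fun v => by rw [injSpr_norm_star]; exact hbg v) hbf]
  refine injFibE_congr _ fun v => ?_
  rw [star_mul, ← map_star, ← inj_spread (injRhoRep φ) Φ h1 h2 b H0 R hR hH (ht v) (f (ht v))
    (star (g (ht v))) (hf.supp _) (hg.supp _).star]
  simp only [mul_assoc]

include h1 h2 hR hH in
theorem injS_mul_Dg {C C' : ℝ} {f h : ℕ → C(InjT × InjT, ℂ)} (hf : InjFam b H0 R C f)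
    (hh : ∀ i, ‖h i‖ ≤ C') :
    injS φ Φ b H0 ht f * injDg Φ ht h = injS φ Φ b H0 ht (fun i => f i * h i) := by
  have hbf := fun v : V => injSpr_T_norm_le φ Φ h1 h2 b H0 R hR hH hf (ht v)
  unfold injS injDg injFib
  rw [injFibE_mul _ hbf (fun v => (inj_calc_norm_le Φ _).trans (hh _))]
  refine injFibE_congr _ fun v => ?_
  rw [map_mul, mul_assoc]

theorem injDg_mul {C C' : ℝ} {f h : ℕ → C(InjT × InjT, ℂ)} (hf : ∀ i, ‖f i‖ ≤ C)
    (hh : ∀ i, ‖h i‖ ≤ C') :
    injDg Φ ht f * injDg Φ ht h = injDg Φ ht (fun i => f i * h i) := by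
  unfold injDg injFib
  rw [injFibE_mul _ (fun v => (inj_calc_norm_le Φ _).trans (hf _))
    (fun v => (inj_calc_norm_le Φ _).trans (hh _))]
  refine injFibE_congr _ fun v => ?_
  rw [map_mul]

theorem injDg_K_comm {C C' : ℝ} {h h' : ℕ → C(InjT × InjT, ℂ)} (hh : ∀ i, ‖h i‖ ≤ C)
    (hh' : ∀ i, ‖h' i‖ ≤ C') {o : ℤ} {U : ScL2 V →L[ℂ] ScL2 V} (hU : InjShift ht o U)
    (hs : ∀ i k : ℕ, (k : ℤ) = i + o → h i = h' k) :
    injDg Φ ht h * injK U = injK U * injDg Φ ht h' := by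
  unfold injDg
  exact injFib_K_comm (fun v => (inj_calc_norm_le Φ _).trans (hh _))
    (fun v => (inj_calc_norm_le Φ _).trans (hh' _)) U
    (fun v w hne => by rw [hs _ _ (hU v w hne)])

include h1 h2 hR hH in
/-- the mean operator `S(f) K(U) S(χ)*` written as `(⊕_v T_i Φ(f_i) T_k*) K(U)`, `k = i + o` -/
theorem inj_mean_eq {C C' : ℝ} {f χ : ℕ → C(InjT × InjT, ℂ)} (hf : InjFam b H0 R C f)
    (hχ : InjFam b H0 R C' χ) {o : ℤ} {U : ScL2 V →L[ℂ] ScL2 V} (hU : InjShift ht o U)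
    (hfχ : ∀ i k : ℕ, (k : ℤ) = i + o → f i * star (χ k) = f i)
    (hf0 : ∀ i : ℕ, (i : ℤ) + o < 0 → f i = 0) :
    injS φ Φ b H0 ht f * injK U * star (injS φ Φ b H0 ht χ)
      = injFib (fun v => injT (injRhoRep φ) b H0 (ht v) * Φ (f (ht v)) *
          star (injT (injRhoRep φ) b H0 ((ht v : ℤ) + o).toNat)) * injK U ∧
    ∀ v : V, ‖injT (injRhoRep φ) b H0 (ht v) * Φ (f (ht v)) *
          star (injT (injRhoRep φ) b H0 ((ht v : ℤ) + o).toNat)‖ ≤ C * C' := by
  have hbf := fun v : V => injSpr_T_norm_le φ Φ h1 h2 b H0 R hR hH hf (ht v)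
  have hbχ := fun i : ℕ => injSpr_T_norm_le φ Φ h1 h2 b H0 R hR hH hχ i
  have hbχs : ∀ i, ‖star (injT (injRhoRep φ) b H0 i * Φ (χ i))‖ ≤ C' := fun i => by
    rw [injSpr_norm_star]; exact hbχ i
  have key : ∀ v : V, injT (injRhoRep φ) b H0 (ht v) * Φ (f (ht v)) *
        star (injT (injRhoRep φ) b H0 ((ht v : ℤ) + o).toNat)
      = injT (injRhoRep φ) b H0 (ht v) * Φ (f (ht v)) *
        star (injT (injRhoRep φ) b H0 ((ht v : ℤ) + o).toNat * Φ (χ ((ht v : ℤ) + o).toNat)) := by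
    intro v
    rw [star_mul, ← map_star]
    by_cases hneg : (ht v : ℤ) + o < 0
    · rw [hf0 _ hneg, map_zero]; simp
    · have hk : ((((ht v : ℤ) + o).toNat : ℕ) : ℤ) = ht v + o :=
        Int.toNat_of_nonneg (not_lt.mp hneg)
      conv_lhs => rw [← hfχ (ht v) _ hk, map_mul]
      simp only [mul_assoc]
  constructor
  · have e1 : star (injS φ Φ b H0 ht χ)
        = injFib (fun w => star (injT (injRhoRep φ) b H0 (ht w) * Φ (χ (ht w)))) :=
      injFibE_star _ (fun v => hbχ (ht v))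
    have e2 : injFib (fun v : V => star (injT (injRhoRep φ) b H0 ((ht v : ℤ) + o).toNat *
          Φ (χ ((ht v : ℤ) + o).toNat))) * injK U
        = injK U * injFib (fun w => star (injT (injRhoRep φ) b H0 (ht w) * Φ (χ (ht w)))) :=
      injFib_K_comm (fun v => hbχs _) (fun v => hbχs _) U (fun v w hne => by
        have e3 : ((ht v : ℤ) + o).toNat = ht w := by
          have := hU v w hne
          omega
        rw [e3])
    have e4 : injS φ Φ b H0 ht f * injFib (fun v : V =>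
          star (injT (injRhoRep φ) b H0 ((ht v : ℤ) + o).toNat * Φ (χ ((ht v : ℤ) + o).toNat)))
        = injFib (fun v => injT (injRhoRep φ) b H0 (ht v) * Φ (f (ht v)) *
          star (injT (injRhoRep φ) b H0 ((ht v : ℤ) + o).toNat)) := by
      unfold injS injFib
      rw [injFibE_mul _ hbf (fun v => hbχs _)]
      exact injFibE_congr _ fun v => (key v).symm
    rw [e1, mul_assoc, ← e2, ← mul_assoc, e4]
  · intro v
    rw [key v]
    exact (norm_mul_le _ _).trans (mul_le_mul (hbf v) (hbχs _) (norm_nonneg _)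
      ((norm_nonneg _).trans (hbf v)))

include h1 h2 hR hH in
/-- **Route identity** (6.13): the function factor of the route is exactly the symbol. -/
theorem inj_route {C1 C2 C3 : ℝ} {χ1 χ f F : ℕ → C(InjT × InjT, ℂ)}
    (hχ1 : InjFam b H0 R C1 χ1) (hχ : InjFam b H0 R C2 χ) (hf : InjFam b H0 R C3 f)
    (hF : ∀ k, ‖F k‖ ≤ C3)
    (hr1 : ∀ i, star (χ1 i) = χ1 i) (hr : ∀ i, star (χ i) = χ i)
    {o : ℤ} {U0 Uτ : ScL2 V →L[ℂ] ScL2 V} (hU0 : InjShift ht 0 U0) (hUτ : InjShift ht o Uτ)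
    (hfF : ∀ i k : ℕ, (k : ℤ) = i + o → f i = F k)
    (ha1 : ∀ i, χ1 i * f i = f i) (ha2 : ∀ i, χ i * f i = f i)
    (hb1 : ∀ k, χ1 k * F k = F k) (hb2 : ∀ k, χ k * F k = F k) (k : ℕ) :
    let z0 := injS φ Φ b H0 ht χ1 * injK U0 * star (injS φ Φ b H0 ht χ)
    let zτ := injS φ Φ b H0 ht f * injK Uτ * star (injS φ Φ b H0 ht χ)
    (star z0 * z0) ^ k * (star z0 * zτ) * (star z0 * z0) ^ k
      = injS φ Φ b H0 ht χ * injK ((star U0 * U0) ^ k * (star U0 * Uτ) * (star U0 * U0) ^ k)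
          * injDg Φ ht F * star (injS φ Φ b H0 ht χ) := by
  intro z0 zτ
  have hn1 : ∀ i, ‖χ1 i * χ1 i‖ ≤ C1 * C1 := fun i =>
    (norm_mul_le _ _).trans (mul_le_mul (hχ1.bd i) (hχ1.bd i) (norm_nonneg _)
      ((norm_nonneg _).trans (hχ1.bd i)))
  have hn2 : ∀ i, ‖χ i * χ i‖ ≤ C2 * C2 := fun i =>
    (norm_mul_le _ _).trans (mul_le_mul (hχ.bd i) (hχ.bd i) (norm_nonneg _)
      ((norm_nonneg _).trans (hχ.bd i)))
  obtain ⟨Sχ, hSχ⟩ : ∃ S, S = injS φ Φ b H0 ht χ := ⟨_, rfl⟩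
  obtain ⟨S1, hS1⟩ : ∃ S, S = injS φ Φ b H0 ht χ1 := ⟨_, rfl⟩
  obtain ⟨Sf, hSf⟩ : ∃ S, S = injS φ Φ b H0 ht f := ⟨_, rfl⟩
  obtain ⟨D1, hD1⟩ : ∃ D, D = injDg Φ ht (fun i => χ1 i * χ1 i) := ⟨_, rfl⟩
  obtain ⟨Dχ, hDχ⟩ : ∃ D, D = injDg Φ ht (fun i => χ i * χ i) := ⟨_, rfl⟩
  obtain ⟨Df, hDf⟩ : ∃ D, D = injDg Φ ht f := ⟨_, rfl⟩
  obtain ⟨DF, hDF⟩ : ∃ D, D = injDg Φ ht F := ⟨_, rfl⟩
  obtain ⟨W, hW⟩ : ∃ W, W = star U0 * U0 := ⟨_, rfl⟩
  have hWs : InjShift ht 0 W := by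
    have := hU0.star.mul hU0
    rw [neg_zero, add_zero] at this
    rw [hW]; exact this
  have e11 : star S1 * S1 = D1 := by
    rw [hS1, hD1, injS_star_mul φ Φ h1 h2 b H0 R hR hH ht hχ1 hχ1]
    simp only [hr1]
  have eχχ : star Sχ * Sχ = Dχ := by
    rw [hSχ, hDχ, injS_star_mul φ Φ h1 h2 b H0 R hR hH ht hχ hχ]
    simp only [hr]
  have e1f : star S1 * Sf = Df := by
    rw [hS1, hSf, hDf, injS_star_mul φ Φ h1 h2 b H0 R hR hH ht hχ1 hf]
    simp only [hr1, ha1]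
  have c0 : D1 * injK U0 = injK U0 * D1 := by
    rw [hD1]
    exact injDg_K_comm Φ ht hn1 hn1 hU0 (fun i k hk => by
      have : k = i := by omega
      rw [this])
  have cW : DF * injK W = injK W * DF := by
    rw [hDF]
    exact injDg_K_comm Φ ht hF hF hWs (fun i k hk => by
      have : k = i := by omega
      rw [this])
  have hc : ∀ U, InjShift ht o U → Df * injK U = injK U * DF := by
    intro U hU
    rw [hDf, hDF]
    exact injDg_K_comm Φ ht hf.bd hF hU hfF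
  have d1 : D1 * Dχ * Df = Df := by
    have hb12 : ∀ i, ‖χ1 i * χ1 i * (χ i * χ i)‖ ≤ C1 * C1 * (C2 * C2) := fun i =>
      (norm_mul_le _ _).trans (mul_le_mul (hn1 i) (hn2 i) (norm_nonneg _)
        ((norm_nonneg _).trans (hn1 i)))
    rw [hD1, hDχ, hDf, injDg_mul Φ ht hn1 hn2, injDg_mul Φ ht hb12 hf.bd]
    congr 1
    funext i
    calc χ1 i * χ1 i * (χ i * χ i) * f i = χ1 i * (χ1 i * (χ i * (χ i * f i))) := by
          simp only [mul_assoc]
      _ = f i := by rw [ha2, ha2, ha1, ha1]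
  have d2 : DF * Dχ = DF := by
    rw [hDF, hDχ, injDg_mul Φ ht hF hn2]
    congr 1
    funext i
    calc F i * (χ i * χ i) = χ i * (χ i * F i) := by ring
      _ = F i := by rw [hb2, hb2]
  have d3 : DF * D1 = DF := by
    rw [hDF, hD1, injDg_mul Φ ht hF hn1]
    congr 1
    funext i
    calc F i * (χ1 i * χ1 i) = χ1 i * (χ1 i * F i) := by ring
      _ = F i := by rw [hb1, hb1]
  have hz0 : z0 = S1 * injK U0 * star Sχ := by rw [hS1, hSχ]
  have hzτ : zτ = Sf * injK Uτ * star Sχ := by rw [hSf, hSχ]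
  have hP : star z0 * z0 = Sχ * injK W * D1 * star Sχ := by
    rw [hz0, star_mul, star_mul, star_star, ← injK_star]
    calc Sχ * (injK (star U0) * star S1) * (S1 * injK U0 * star Sχ)
        = Sχ * injK (star U0) * (star S1 * S1 * injK U0) * star Sχ := by simp only [mul_assoc]
      _ = Sχ * injK W * D1 * star Sχ := by
          rw [e11, c0, hW, injK_mul]; simp only [mul_assoc]
  have hUτ' : InjShift ht o (star U0 * Uτ) := by
    have := hU0.star.mul hUτ
    rwa [neg_zero, zero_add] at this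
  have hQ : star z0 * zτ = Sχ * injK (star U0 * Uτ) * DF * star Sχ := by
    rw [hz0, hzτ, star_mul, star_mul, star_star, ← injK_star]
    calc Sχ * (injK (star U0) * star S1) * (Sf * injK Uτ * star Sχ)
        = Sχ * injK (star U0) * (star S1 * Sf * injK Uτ) * star Sχ := by simp only [mul_assoc]
      _ = Sχ * injK (star U0 * Uτ) * DF * star Sχ := by
          rw [e1f, hc Uτ hUτ, injK_mul]; simp only [mul_assoc]
  have hL : ∀ U, InjShift ht o U →
      (Sχ * injK W * D1 * star Sχ) * (Sχ * injK U * DF * star Sχ)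
        = Sχ * injK (W * U) * DF * star Sχ := by
    intro U hU
    have c := hc U hU
    calc (Sχ * injK W * D1 * star Sχ) * (Sχ * injK U * DF * star Sχ)
        = Sχ * injK W * D1 * (star Sχ * Sχ) * (injK U * DF) * star Sχ := by
          simp only [mul_assoc]
      _ = Sχ * injK W * (D1 * Dχ * Df) * injK U * star Sχ := by
          rw [eχχ, ← c]; simp only [mul_assoc]
      _ = Sχ * injK W * (injK U * DF) * star Sχ := by
          rw [d1, ← c]; simp only [mul_assoc]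
      _ = Sχ * injK (W * U) * DF * star Sχ := by
          rw [injK_mul]; simp only [mul_assoc]
  have hRr : ∀ U : ScL2 V →L[ℂ] ScL2 V,
      (Sχ * injK U * DF * star Sχ) * (Sχ * injK W * D1 * star Sχ)
        = Sχ * injK (U * W) * DF * star Sχ := by
    intro U
    calc (Sχ * injK U * DF * star Sχ) * (Sχ * injK W * D1 * star Sχ)
        = Sχ * injK U * (DF * (star Sχ * Sχ)) * injK W * D1 * star Sχ := by
          simp only [mul_assoc]
      _ = Sχ * injK U * (DF * injK W) * D1 * star Sχ := by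
          rw [eχχ, d2]; simp only [mul_assoc]
      _ = Sχ * injK U * injK W * (DF * D1) * star Sχ := by
          rw [cW]; simp only [mul_assoc]
      _ = Sχ * injK (U * W) * DF * star Sχ := by
          rw [d3, injK_mul]; simp only [mul_assoc]
  rw [hP, hQ, ← hSχ, ← hDF, ← hW]
  induction k with
  | zero => simp
  | succ k ih =>
    have hsh : InjShift ht o (W ^ k * (star U0 * Uτ) * W ^ k) := by
      have := ((hWs.pow k).mul hUτ').mul (hWs.pow k)
      rwa [zero_add, add_zero] at this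
    calc (Sχ * injK W * D1 * star Sχ) ^ (k + 1) * (Sχ * injK (star U0 * Uτ) * DF * star Sχ)
          * (Sχ * injK W * D1 * star Sχ) ^ (k + 1)
        = (Sχ * injK W * D1 * star Sχ) * ((Sχ * injK W * D1 * star Sχ) ^ k
            * (Sχ * injK (star U0 * Uτ) * DF * star Sχ) * (Sχ * injK W * D1 * star Sχ) ^ k)
            * (Sχ * injK W * D1 * star Sχ) := injSpr_pow_sandwich _ _ k
      _ = Sχ * injK (W * (W ^ k * (star U0 * Uτ) * W ^ k) * W) * DF * star Sχ := by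
          rw [ih, hL _ hsh, hRr]
      _ = Sχ * injK (W ^ (k + 1) * (star U0 * Uτ) * W ^ (k + 1)) * DF * star Sχ := by
          rw [injSpr_pow_sandwich]

end symb

end Claimed.Agent.R300
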