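/-
Row 300 / S0553 (INJ paper).  LOWER ASSEMBLY, package LOW-3: the physical map `V₀ : ℓ²(Γ × V) → ℓ²(Γ)`
(coordinate inclusion of the disjoint domains), the trimming estimate (Lemma 6.1) and the root (6.20).
INJ captain: helper105.  The `sorry`s are replaced IN PLACE by the owner of the package (table subtask,
target row300, name INJ-LOW-3).  Statements are frozen: ask helper105 before changing one.

Coordinates: `(x,v) ∈ Γ × V` is the vertex of base type `v` of the sheet `x φ(Heis)`; its physical position is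
`x * t v`.  `rem g v`: the incidence (position `g`, type `v`) is removed.
Proof plans.
* `injPhys_spec`: Schur test `smp_schur_form` with `R₁ = R₂ = 1` (rows: `ret_unique`; columns: one entry).
* `inj_hs_bound`: `‖1_F B ξ‖² = ∑_{u ∈ F} |⟨ξ, B* δ_u⟩|²`.
* `inj_trim_fibre`: `B = T Φ(f)` has a matrix supported on the cosets `x φ(Heis)` (`inj_spread_supp`), so by
  `smp_norm_le_of_blocks` (with `a = b = ` the quotient map `Γ → Γ ⧸ φ.range`) only one coset counts; there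
  `inj_hs_bound` + `inj_spread_norm_delta`; the removed points of one coset are the image of
  `{h | rem (x φ(h) t_v) v}`.
* `inj_trim`: `1_{Retᶜ} S(g) = ⊕_v 1_{Rem_v} T Φ(g)` and `injFibE_norm_le`.
* `inj_root`: `V₀` restricted to the fibre `v` is `ρ(t_v⁻¹) 1_{Ret_v}`; triangle inequality over `v ∈ B0`.
-/
import Mathlib
import Claimed.Agent.R300.InjMod
import Claimed.Agent.R300.InjSpr
import Claimed.Agent.R300.InjLoc

set_option autoImplicit false

namespace Claimed.Agent.R300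

open scoped ENNReal ComplexConjugate InnerProductSpace
open MeasureTheory

variable {Γ : Type} [Group Γ] {V : Type}

/-- the retained incidences, in sheet coordinates -/
def injRet (t : V → Γ) (rem : Γ → V → Prop) : Set (Γ × V) := {q | ¬ rem (q.1 * t q.2) q.2}

open Classical in
/-- matrix of the physical map -/
noncomputable def injPhysK (t : V → Γ) (rem : Γ → V → Prop) : Γ → Γ × V → ℂ :=
  fun g q => if q ∈ injRet t rem ∧ g = q.1 * t q.2 then 1 else 0

/-- the physical map `V₀ δ_(x,v) = δ_(x t_v)` on retained incidences, `0` on removed ones -/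
noncomputable def injPhys (t : V → Γ) (rem : Γ → V → Prop) : ScL2 (Γ × V) →L[ℂ] ScL2 Γ :=
  smpKer (injPhysK t rem)

/-- a nonnegative function bounded by one with at most one nonzero value -/
theorem injtr_summable_single {Y : Type} (f : Y → ℝ) (h1 : ∀ y, f y ≤ 1)
    (hs : ∀ y y', f y ≠ 0 → f y' ≠ 0 → y = y') : Summable f ∧ ∑' y, f y ≤ 1 := by
  by_cases h : ∃ y0, f y0 ≠ 0
  · obtain ⟨y0, hy0⟩ := h
    have hsum : HasSum f (f y0) := hasSum_single y0 fun y hy => by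
      by_contra hne
      exact hy (hs y y0 hne hy0)
    exact ⟨hsum.summable, by rw [hsum.tsum_eq]; exact h1 y0⟩
  · push Not at h
    have : f = fun _ => 0 := funext h
    rw [this]
    exact ⟨summable_zero, by simp⟩

theorem injtr_restr_norm_le {X : Type} (B : Set X) : ‖scRestr B‖ ≤ 1 :=
  LinearMap.mkContinuous_norm_le _ zero_le_one _

theorem injtr_restr_comp {X : Type} (A B : Set X) :
    scRestr A ∘L scRestr B = scRestr (A ∩ B) := by
  ext ξ x
  rw [ContinuousLinearMap.comp_apply]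
  by_cases hA : x ∈ A
  · rw [scRestr_apply_mem _ hA]
    by_cases hB : x ∈ B
    · rw [scRestr_apply_mem _ hB, scRestr_apply_mem _ (show x ∈ A ∩ B from ⟨hA, hB⟩)]
    · rw [scRestr_apply_not_mem _ hB, scRestr_apply_not_mem _ (show x ∉ A ∩ B from fun h => hB h.2)]
  · rw [scRestr_apply_not_mem _ hA, scRestr_apply_not_mem _ (show x ∉ A ∩ B from fun h => hA h.1)]

section phys

variable (t : V → Γ) (rem : Γ → V → Prop) (hu : ∀ g v w, ¬ rem g v → ¬ rem g w → v = w)

include hu in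
/-- the position map is injective on the retained incidences -/
theorem injRet_inj {q q' : Γ × V} (hq : q ∈ injRet t rem) (hq' : q' ∈ injRet t rem)
    (h : q.1 * t q.2 = q'.1 * t q'.2) : q = q' := by
  have h1 : ¬ rem (q.1 * t q.2) q.2 := hq
  have h2 : ¬ rem (q.1 * t q.2) q'.2 := by rw [h]; exact hq'
  have h3 : q.2 = q'.2 := hu _ _ _ h1 h2
  have h4 : q.1 = q'.1 := by
    rw [h3] at h
    exact mul_right_cancel h
  exact Prod.ext h4 h3

include hu in
theorem injPhys_spec : SmpHasKer (injPhys t rem) (injPhysK t rem) ∧ ‖injPhys t rem‖ ≤ 1 := by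
  classical
  have hle : ∀ g q, ‖injPhysK t rem g q‖ ≤ 1 := by
    intro g q
    unfold injPhysK
    split_ifs <;> simp
  have hne : ∀ g q, ‖injPhysK t rem g q‖ ≠ 0 → q ∈ injRet t rem ∧ g = q.1 * t q.2 := by
    intro g q h
    by_contra hcon
    apply h
    unfold injPhysK
    rw [if_neg hcon, norm_zero]
  have hS : SmpSchur (injPhysK t rem) 1 := by
    refine ⟨fun g => ?_, fun q => ?_⟩
    · refine injtr_summable_single _ (hle g) fun q q' hq hq' => ?_
      obtain ⟨h1, h2⟩ := hne g q hq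
      obtain ⟨h1', h2'⟩ := hne g q' hq'
      exact injRet_inj t rem hu h1 h1' (h2.symm.trans h2')
    · refine injtr_summable_single _ (fun g => hle g q) fun g g' hg hg' => ?_
      exact (hne g q hg).2.trans (hne g' q hg').2.symm
  exact ⟨hS.hasKer, hS.norm_le zero_le_one⟩

include hu in
theorem injPhys_delta_ret {q : Γ × V} (hq : q ∈ injRet t rem) :
    injPhys t rem (scDelta q) = scDelta (q.1 * t q.2) := by
  classical
  ext g
  rw [(injPhys_spec t rem hu).1 g q, scDelta_apply]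
  unfold injPhysK
  simp [hq]

include hu in
theorem injPhys_delta_rem {q : Γ × V} (hq : q ∉ injRet t rem) : injPhys t rem (scDelta q) = 0 := by
  classical
  ext g
  rw [(injPhys_spec t rem hu).1 g q]
  unfold injPhysK
  simp [hq]

include hu in
/-- `V₀* δ_(x t_v) = δ_(x,v)` on retained incidences -/
theorem injPhys_adjoint_delta_ret {q : Γ × V} (hq : q ∈ injRet t rem) :
    ContinuousLinearMap.adjoint (injPhys t rem) (scDelta (q.1 * t q.2)) = scDelta q := by
  classical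
  ext q'
  rw [sc_adjoint_delta_apply, (injPhys_spec t rem hu).1, scDelta_apply]
  unfold injPhysK
  by_cases h : q' = q
  · subst h
    simp [hq]
  · rw [if_neg h, if_neg, map_zero]
    rintro ⟨h1, h2⟩
    exact h (injRet_inj t rem hu h1 hq h2.symm)

include hu in
/-- `V₀* δ_g = 0` if `g` is not a retained position -/
theorem injPhys_adjoint_delta_none {g : Γ} (hg : ∀ q ∈ injRet t rem, g ≠ q.1 * t q.2) :
    ContinuousLinearMap.adjoint (injPhys t rem) (scDelta g) = 0 := by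
  classical
  ext q'
  rw [sc_adjoint_delta_apply, (injPhys_spec t rem hu).1]
  unfold injPhysK
  rw [if_neg, map_zero]
  · rfl
  · rintro ⟨h1, h2⟩
    exact hg q' h1 h2

include hu in
theorem injPhys_apply_ret (Θ : ScL2 (Γ × V)) {q : Γ × V} (hq : q ∈ injRet t rem) :
    injPhys t rem Θ (q.1 * t q.2) = Θ q := by
  rw [← sc_inner_delta_left (q.1 * t q.2), ← ContinuousLinearMap.adjoint_inner_left,
    injPhys_adjoint_delta_ret t rem hu hq, sc_inner_delta_left]

include hu in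
theorem injPhys_apply_none (Θ : ScL2 (Γ × V)) {g : Γ}
    (hg : ∀ q ∈ injRet t rem, g ≠ q.1 * t q.2) : injPhys t rem Θ g = 0 := by
  rw [← sc_inner_delta_left g, ← ContinuousLinearMap.adjoint_inner_left,
    injPhys_adjoint_delta_none t rem hu hg, inner_zero_left]

include hu in
/-- `V₀* V₀ = D` -/
theorem injPhys_adjoint_comp :
    ContinuousLinearMap.adjoint (injPhys t rem) ∘L injPhys t rem = scRestr (injRet t rem) := by
  refine scOp_ext fun q => ?_
  rw [ContinuousLinearMap.comp_apply]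
  by_cases hq : q ∈ injRet t rem
  · rw [injPhys_delta_ret t rem hu hq, injPhys_adjoint_delta_ret t rem hu hq,
      smp_restr_delta_mem hq]
  · rw [injPhys_delta_rem t rem hu hq, map_zero, smp_restr_delta_not_mem hq]

include hu in
/-- matrix of `V₀ A V₀*` -/
theorem injPhys_conj_apply (A : ScL2 (Γ × V) →L[ℂ] ScL2 (Γ × V)) (q q' : Γ × V)
    (hq : q ∈ injRet t rem) (hq' : q' ∈ injRet t rem) :
    (injPhys t rem ∘L A ∘L ContinuousLinearMap.adjoint (injPhys t rem)) (scDelta (q.1 * t q.2))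
      (q'.1 * t q'.2) = A (scDelta q) q' := by
  rw [ContinuousLinearMap.comp_apply, ContinuousLinearMap.comp_apply,
    injPhys_adjoint_delta_ret t rem hu hq, injPhys_apply_ret t rem hu _ hq']

include hu in
theorem injPhys_conj_apply_src (A : ScL2 (Γ × V) →L[ℂ] ScL2 (Γ × V)) (g : Γ)
    (hg : ∀ q ∈ injRet t rem, g ≠ q.1 * t q.2) :
    (injPhys t rem ∘L A ∘L ContinuousLinearMap.adjoint (injPhys t rem)) (scDelta g) = 0 := by
  rw [ContinuousLinearMap.comp_apply, ContinuousLinearMap.comp_apply,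
    injPhys_adjoint_delta_none t rem hu hg, map_zero, map_zero]

include hu in
theorem injPhys_conj_apply_tgt (A : ScL2 (Γ × V) →L[ℂ] ScL2 (Γ × V)) (ξ : ScL2 Γ) (g : Γ)
    (hg : ∀ q ∈ injRet t rem, g ≠ q.1 * t q.2) :
    (injPhys t rem ∘L A ∘L ContinuousLinearMap.adjoint (injPhys t rem)) ξ g = 0 := by
  rw [ContinuousLinearMap.comp_apply]
  exact injPhys_apply_none t rem hu _ hg

end phys

/-- Hilbert-Schmidt bound for the compression to a finite set -/
theorem inj_hs_bound {X Y : Type} (B : ScL2 Y →L[ℂ] ScL2 X) (F : Finset X) :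
    ‖scRestr (F : Set X) ∘L B‖ ^ 2 ≤ ∑ u ∈ F, ‖ContinuousLinearMap.adjoint B (scDelta u)‖ ^ 2 := by
  set c2 := ∑ u ∈ F, ‖ContinuousLinearMap.adjoint B (scDelta u)‖ ^ 2 with hc2def
  have hc2 : 0 ≤ c2 := Finset.sum_nonneg fun _ _ => by positivity
  have h : ‖scRestr (F : Set X) ∘L B‖ ≤ Real.sqrt c2 := by
    refine smp_norm_le_of_sq _ _ (Real.sqrt_nonneg _) fun ξ => ?_
    rw [Real.sq_sqrt hc2, ContinuousLinearMap.comp_apply, scL2_norm_sq,
      tsum_eq_sum (s := F) (fun x hx => by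
        rw [scRestr_apply_not_mem _ (by simpa using hx)]; simp), hc2def, Finset.sum_mul]
    refine Finset.sum_le_sum fun u hu => ?_
    rw [scRestr_apply_mem _ (by simpa using hu), ← sc_inner_delta_left u,
      ← ContinuousLinearMap.adjoint_inner_left, ← mul_pow]
    exact pow_le_pow_left₀ (norm_nonneg _) (norm_inner_le_norm _ _) 2
  calc ‖scRestr (F : Set X) ∘L B‖ ^ 2 ≤ Real.sqrt c2 ^ 2 := pow_le_pow_left₀ (norm_nonneg _) h 2
    _ = c2 := Real.sq_sqrt hc2

section trim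

variable (φ : InjHeis →* Γ) (hφ : Function.Injective φ)
  (Φ : C(InjT × InjT, ℂ) →⋆ₐ[ℂ] (ScL2 Γ →L[ℂ] ScL2 Γ))
  (h1 : Φ injE1 = scRho (φ InjHeis.z)) (h2 : Φ injE2 = scRho (φ InjHeis.x))

include hφ h1 h2 in
/-- trimming on one fibre: `Rm` meets every coset `x φ(Heis)` in at most `N` points -/
theorem inj_trim_fibre (Rm : Set Γ) (N : ℕ) (hfin : ∀ x : Γ, {h : InjHeis | x * φ h ∈ Rm}.Finite)
    (hcard : ∀ x : Γ, {h : InjHeis | x * φ h ∈ Rm}.ncard ≤ N) (J : ℕ) (f : C(InjT × InjT, ℂ)) :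
    ‖scRestr Rm ∘L (injTJ (injRhoRep φ) J * Φ f)‖ ^ 2
      ≤ N * ∫ θ : InjT, ∫ ξ : InjT, ‖f (θ, ξ)‖ ^ 2 := by
  classical
  set B := injTJ (injRhoRep φ) J * Φ f with hB
  set I := ∫ θ : InjT, ∫ ξ : InjT, ‖f (θ, ξ)‖ ^ 2 with hIdef
  have hI : 0 ≤ I := integral_nonneg fun θ => integral_nonneg fun ξ => by positivity
  have hc : 0 ≤ (N : ℝ) * I := by positivity
  have key : ‖scRestr Rm ∘L B‖ ≤ Real.sqrt (N * I) := by
    refine smp_norm_le_of_blocks (scRestr Rm ∘L B) (fun x : Γ => (x : Γ ⧸ φ.range))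
      (fun y : Γ => (y : Γ ⧸ φ.range)) ?_ _ (Real.sqrt_nonneg _) ?_
    · intro x y hxy
      rw [ContinuousLinearMap.comp_apply]
      by_cases hx : x ∈ Rm
      · rw [scRestr_apply_mem _ hx]
        have h3 : B (scDelta y) x = conj (star B (scDelta x) y) := by
          rw [sc_star_delta_apply, Complex.conj_conj]
        rw [h3, inj_spread_supp φ Φ h1 h2 J f x y ?_, map_zero]
        intro h hy
        apply hxy
        rw [hy]
        exact (QuotientGroup.mk_mul_of_mem x (MonoidHom.mem_range.2 ⟨h, rfl⟩)).symm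
      · rw [scRestr_apply_not_mem _ hx]
    · intro j
      obtain ⟨x0, rfl⟩ := QuotientGroup.mk_surjective j
      set F : Finset Γ := (hfin x0).toFinset.image (fun h => x0 * φ h) with hF
      have hFset : {x : Γ | (x : Γ ⧸ φ.range) = (x0 : Γ ⧸ φ.range)} ∩ Rm = (F : Set Γ) := by
        ext x
        simp only [Set.mem_inter_iff, Set.mem_ofPred_eq, hF, Finset.coe_image, Set.mem_image,
          Finset.mem_coe, Set.Finite.mem_toFinset]
        constructor
        · rintro ⟨h3, h4⟩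
          obtain ⟨h, hh⟩ := MonoidHom.mem_range.1 (QuotientGroup.eq.1 h3.symm)
          have hx : x = x0 * φ h := by rw [hh]; group
          exact ⟨h, by rw [← hx]; exact h4, hx.symm⟩
        · rintro ⟨h, h3, rfl⟩
          exact ⟨QuotientGroup.mk_mul_of_mem x0 (MonoidHom.mem_range.2 ⟨h, rfl⟩), h3⟩
      have hFcard : (F.card : ℝ) ≤ N := by
        have h3 : F.card ≤ (hfin x0).toFinset.card := Finset.card_image_le
        rw [← Set.ncard_eq_toFinset_card _ (hfin x0)] at h3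
        exact_mod_cast h3.trans (hcard x0)
      have h5 : ‖scRestr (F : Set Γ) ∘L B‖ ^ 2 ≤ N * I := by
        refine (inj_hs_bound B F).trans ?_
        have h6 : ∀ u ∈ F, ‖ContinuousLinearMap.adjoint B (scDelta u)‖ ^ 2 = I := fun u _ => by
          rw [← ContinuousLinearMap.star_eq_adjoint]
          exact inj_spread_norm_delta φ hφ Φ h1 h2 J f u
        rw [Finset.sum_congr rfl h6, Finset.sum_const, nsmul_eq_mul]
        exact mul_le_mul_of_nonneg_right hFcard hI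
      have h7 : ‖scRestr (F : Set Γ) ∘L B‖ ≤ Real.sqrt (N * I) := Real.le_sqrt_of_sq_le h5
      have h8 : scRestr {x : Γ | (x : Γ ⧸ φ.range) = (x0 : Γ ⧸ φ.range)} ∘L (scRestr Rm ∘L B) ∘L
          scRestr {y : Γ | (y : Γ ⧸ φ.range) = (x0 : Γ ⧸ φ.range)}
          = (scRestr (F : Set Γ) ∘L B) ∘L
            scRestr {y : Γ | (y : Γ ⧸ φ.range) = (x0 : Γ ⧸ φ.range)} := by
        rw [← hFset, ← injtr_restr_comp]
        ext ξ x
        simp only [ContinuousLinearMap.comp_apply]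
      rw [h8]
      calc ‖(scRestr (F : Set Γ) ∘L B) ∘L
            scRestr {y : Γ | (y : Γ ⧸ φ.range) = (x0 : Γ ⧸ φ.range)}‖
          ≤ ‖scRestr (F : Set Γ) ∘L B‖ *
            ‖scRestr {y : Γ | (y : Γ ⧸ φ.range) = (x0 : Γ ⧸ φ.range)}‖ :=
            ContinuousLinearMap.opNorm_comp_le _ _
        _ ≤ Real.sqrt (N * I) * 1 :=
            mul_le_mul h7 (injtr_restr_norm_le _) (norm_nonneg _) (Real.sqrt_nonneg _)
        _ = Real.sqrt (N * I) := mul_one _
  calc ‖scRestr Rm ∘L B‖ ^ 2 ≤ Real.sqrt (N * I) ^ 2 := pow_le_pow_left₀ (norm_nonneg _) key 2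
    _ = N * I := Real.sq_sqrt hc

variable (b H0 : ℕ) (R : ℝ) (hR : 1 ≤ R) (hH : 100 * R ≤ 2 ^ H0) (ht : V → ℕ)
  (t : V → Γ) (rem : Γ → V → Prop)
  (hfin : ∀ (x : Γ) (v : V), {h : InjHeis | rem (x * φ h * t v) v}.Finite)
  (hcard : ∀ (x : Γ) (v : V), {h : InjHeis | rem (x * φ h * t v) v}.ncard ≤ 2 ^ (10 * injH b H0 (ht v)))

include hφ h1 h2 hR hH hfin hcard in
/-- **Trimming** (Lemma 6.1) -/
theorem inj_trim {C δ : ℝ} (hδ : 0 ≤ δ) {g : ℕ → C(InjT × InjT, ℂ)} (hg : InjFam b H0 R C g)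
    (hm : ∀ i, (2 : ℝ) ^ (10 * injH b H0 i) * ∫ θ : InjT, ∫ ξ : InjT, ‖g i (θ, ξ)‖ ^ 2 ≤ δ ^ 2) :
    ‖scRestr (injRet t rem)ᶜ ∘L injS φ Φ b H0 ht g‖ ≤ δ := by
  set Bv : V → ScL2 Γ →L[ℂ] ScL2 Γ :=
    fun v => injT (injRhoRep φ) b H0 (ht v) * Φ (g (ht v)) with hBv
  have hB : ∀ v, ‖Bv v‖ ≤ C := fun v =>
    (inj_spread_norm_le (injRhoRep φ) Φ h1 h2 b H0 R hR hH (ht v) _ (hg.supp _)).trans (hg.bd _)
  set Rv : V → Set Γ := fun v => {x | rem (x * t v) v} with hRv
  have hRB : ∀ v, ‖scRestr (Rv v) ∘L Bv v‖ ≤ δ := by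
    intro v
    have h3 := inj_trim_fibre φ hφ Φ h1 h2 (Rv v) (2 ^ (10 * injH b H0 (ht v)))
      (fun x => hfin x v) (fun x => hcard x v) (injJs b H0 (ht v)) (g (ht v))
    have h4 : ‖scRestr (Rv v) ∘L Bv v‖ ^ 2 ≤ δ ^ 2 := by
      refine h3.trans ?_
      push_cast
      exact hm (ht v)
    exact (pow_le_pow_iff_left₀ (norm_nonneg _) hδ two_ne_zero).1 h4
  have heq : scRestr (injRet t rem)ᶜ ∘L injS φ Φ b H0 ht g
      = injFib (fun v => scRestr (Rv v) ∘L Bv v) := by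
    ext ξ ⟨x, v⟩
    rw [ContinuousLinearMap.comp_apply, injFib_apply hRB, ContinuousLinearMap.comp_apply]
    by_cases hx : rem (x * t v) v
    · rw [scRestr_apply_mem _ (show (x, v) ∈ (injRet t rem)ᶜ from fun h => h hx),
        scRestr_apply_mem _ (show x ∈ Rv v from hx)]
      exact injFib_apply hB ξ x v
    · rw [scRestr_apply_not_mem _ (show (x, v) ∉ (injRet t rem)ᶜ from fun h => h hx),
        scRestr_apply_not_mem _ (show x ∉ Rv v from hx)]
  rw [heq]
  exact injFibE_norm_le _ hδ hRB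

include hφ h1 h2 hR hH hfin hcard in
/-- **The physical root** (6.20).  `B0` = support of the weights at height `0`. -/
theorem inj_root (hu : ∀ g v w, ¬ rem g v → ¬ rem g w → v = w) {C δ : ℝ} (hδ : 0 ≤ δ)
    {χ : ℕ → C(InjT × InjT, ℂ)} (hχ : InjFam b H0 R C χ)
    (hm : (2 : ℝ) ^ (10 * injH b H0 0) * ∫ θ : InjT, ∫ ξ : InjT, ‖(χ 0 * χ 0) (θ, ξ)‖ ^ 2 ≤ δ ^ 2)
    (c : V → ℂ) (hc : InjUnitWt ht c) (B0 : Finset V)
    (hB0 : ∀ v, v ∈ B0 ↔ ht v = 0 ∧ c v ≠ 0) :
    ‖(∑ v ∈ B0, c v • (scRho (t v)⁻¹ * (injT (injRhoRep φ) b H0 0 * Φ (χ 0 * χ 0))))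
        - injPhys t rem ∘L injS φ Φ b H0 ht χ ∘L injW ht c ∘L injIn 0 ∘L Φ (χ 0)‖
      ≤ (∑ v ∈ B0, ‖c v‖) * δ := by
  classical
  set B : ScL2 Γ →L[ℂ] ScL2 Γ := injT (injRhoRep φ) b H0 0 * Φ (χ 0 * χ 0) with hBdef
  set Rv : V → Set Γ := fun v => {x | rem (x * t v) v} with hRv
  have hBv : ∀ v, ‖injT (injRhoRep φ) b H0 (ht v) * Φ (χ (ht v))‖ ≤ C := fun v =>
    (inj_spread_norm_le (injRhoRep φ) Φ h1 h2 b H0 R hR hH (ht v) _ (hχ.supp _)).trans (hχ.bd _)
  -- the key identity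
  have hid : injPhys t rem ∘L injS φ Φ b H0 ht χ ∘L injW ht c ∘L injIn 0 ∘L Φ (χ 0)
      = ∑ v ∈ B0, c v • (scRho (t v)⁻¹ * (scRestr (Rv v)ᶜ ∘L B)) := by
    ext ζ g
    simp only [ContinuousLinearMap.comp_apply]
    set η := Φ (χ 0) ζ with hη
    set Θ := injS φ Φ b H0 ht χ (injW ht c (injIn 0 η)) with hΘdef
    have hΘ : ∀ x v, Θ (x, v) = if ht v = 0 then c v * (B ζ) x else 0 := by
      intro x v
      rw [hΘdef]
      unfold injS
      rw [injFib_apply hBv]
      have hat : injAt v (injW ht c (injIn 0 η)) = if ht v = 0 then c v • η else 0 := by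
        ext y
        rw [injAt_apply, injW_in hc]
        split_ifs <;> simp
      rw [hat]
      split_ifs with h0
      · rw [map_smul, h0, hBdef, map_mul, hη]
        rfl
      · simp
    have hrhs : (∑ v ∈ B0, c v • (scRho (t v)⁻¹ * (scRestr (Rv v)ᶜ ∘L B))) ζ g
        = ∑ v ∈ B0, c v * (scRestr (Rv v)ᶜ (B ζ)) (g * (t v)⁻¹) := by
      rw [sum_apply, lp.coeFn_sum, Finset.sum_apply]
      rfl
    rw [hrhs]
    by_cases hex : ∃ v, ¬ rem g v
    · obtain ⟨v, hv⟩ := hex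
      have hq : ((g * (t v)⁻¹, v) : Γ × V) ∈ injRet t rem := by
        show ¬ rem (g * (t v)⁻¹ * t v) v
        rwa [inv_mul_cancel_right]
      have h3 := injPhys_apply_ret t rem hu Θ hq
      simp only [inv_mul_cancel_right] at h3
      rw [h3, hΘ]
      have hother : ∀ w ∈ B0, w ≠ v → c w * (scRestr (Rv w)ᶜ (B ζ)) (g * (t w)⁻¹) = 0 := by
        intro w _ hw
        rw [scRestr_apply_not_mem, mul_zero]
        intro hmem
        apply hw
        apply hu g w v _ hv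
        intro hr
        apply hmem
        show rem (g * (t w)⁻¹ * t w) w
        rwa [inv_mul_cancel_right]
      have hself : (scRestr (Rv v)ᶜ (B ζ)) (g * (t v)⁻¹) = (B ζ) (g * (t v)⁻¹) :=
        scRestr_apply_mem _ hq
      by_cases hvB : v ∈ B0
      · rw [Finset.sum_eq_single_of_mem v hvB hother, hself, if_pos ((hB0 v).1 hvB).1]
      · rw [Finset.sum_eq_zero]
        · split_ifs with h0
          · have : c v = 0 := by
              by_contra hne
              exact hvB ((hB0 v).2 ⟨h0, hne⟩)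
            rw [this, zero_mul]
          · rfl
        · intro w hw
          exact hother w hw (fun h => hvB (h ▸ hw))
    · push Not at hex
      rw [injPhys_apply_none t rem hu Θ (fun q hq hg => hq (hg ▸ hex q.2)), Finset.sum_eq_zero]
      intro w _
      rw [scRestr_apply_not_mem, mul_zero]
      intro hmem
      apply hmem
      show rem (g * (t w)⁻¹ * t w) w
      rw [inv_mul_cancel_right]
      exact hex w
  rw [hid, ← Finset.sum_sub_distrib]
  have hrho : ∀ g : Γ, ‖scRho g‖ ≤ 1 := fun g =>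
    ContinuousLinearMap.opNorm_le_bound _ zero_le_one fun ξ => by
      rw [one_mul]; exact scPull_norm_le _ _ ξ
  have hterm : ∀ v ∈ B0, ‖c v • (scRho (t v)⁻¹ * B)
      - c v • (scRho (t v)⁻¹ * (scRestr (Rv v)ᶜ ∘L B))‖ ≤ ‖c v‖ * δ := by
    intro v hv
    have h0 : ht v = 0 := ((hB0 v).1 hv).1
    have e : c v • (scRho (t v)⁻¹ * B) - c v • (scRho (t v)⁻¹ * (scRestr (Rv v)ᶜ ∘L B))
        = c v • (scRho (t v)⁻¹ * (scRestr (Rv v) ∘L B)) := by
      rw [← smul_sub, ← mul_sub]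
      congr 2
      ext ξ x
      rw [sub_apply, ContinuousLinearMap.comp_apply,
        ContinuousLinearMap.comp_apply]
      have := scRestr_add_compl (Rv v) (B ξ)
      rw [eq_comm, ← sub_eq_iff_eq_add] at this
      rw [this]
    have h3 := inj_trim_fibre φ hφ Φ h1 h2 (Rv v) (2 ^ (10 * injH b H0 (ht v)))
      (fun x => hfin x v) (fun x => hcard x v) (injJs b H0 0) (χ 0 * χ 0)
    have h4 : ‖scRestr (Rv v) ∘L B‖ ^ 2 ≤ δ ^ 2 := by
      refine h3.trans ?_
      rw [h0]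
      push_cast
      exact hm
    have h5 : ‖scRestr (Rv v) ∘L B‖ ≤ δ :=
      (pow_le_pow_iff_left₀ (norm_nonneg _) hδ two_ne_zero).1 h4
    rw [e, norm_smul]
    apply mul_le_mul_of_nonneg_left _ (norm_nonneg _)
    calc ‖scRho (t v)⁻¹ * (scRestr (Rv v) ∘L B)‖
        ≤ ‖scRho (t v)⁻¹‖ * ‖scRestr (Rv v) ∘L B‖ := norm_mul_le _ _
      _ ≤ 1 * δ := mul_le_mul (hrho _) h5 (norm_nonneg _) zero_le_one
      _ = δ := one_mul _
  calc ‖∑ v ∈ B0, (c v • (scRho (t v)⁻¹ * B)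
        - c v • (scRho (t v)⁻¹ * (scRestr (Rv v)ᶜ ∘L B)))‖
      ≤ ∑ v ∈ B0, ‖c v • (scRho (t v)⁻¹ * B)
        - c v • (scRho (t v)⁻¹ * (scRestr (Rv v)ᶜ ∘L B))‖ := norm_sum_le _ _
    _ ≤ ∑ v ∈ B0, ‖c v‖ * δ := Finset.sum_le_sum hterm
    _ = (∑ v ∈ B0, ‖c v‖) * δ := (Finset.sum_mul _ _ _).symm

end trim

/-! ### mass of the product symbols -/

/-- mass of one localised factor -/
theorem injtr_loc_mass {R : ℝ} {A : C(ℝ, ℂ)} (hA : InjSupp R A) (hR : 0 ≤ R) {a L : ℝ}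
    (hL : 2 * R < L) {C : ℝ} (hC : ∀ x, ‖A x‖ ≤ C) :
    0 ≤ ∫ θ : InjT, ‖injLoc A a L θ‖ ^ 2 ∧ ∫ θ : InjT, ‖injLoc A a L θ‖ ^ 2 ≤ 2 * R * C ^ 2 / L := by
  have hL0 : 0 < L := by linarith
  refine ⟨integral_nonneg fun θ => by positivity, ?_⟩
  have hA2 : InjSupp R (star A * A) := hA.star.mul_left A
  have e1 : injLoc (star A * A) a L = star (injLoc A a L) * injLoc A a L := by
    rw [injLoc_mul hA.star hA hL, injLoc_star hA hL]
  have e2 := injLoc_integral hA2 hR hL (a := a)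
  have e3 : ∀ θ : InjT, injLoc (star A * A) a L θ = ((‖injLoc A a L θ‖ ^ 2 : ℝ) : ℂ) := by
    intro θ
    rw [e1, ContinuousMap.mul_apply, ContinuousMap.star_apply, Complex.star_def,
      Complex.conj_mul', Complex.ofReal_pow]
  have e4 : ∀ x : ℝ, (star A * A) x = ((‖A x‖ ^ 2 : ℝ) : ℂ) := by
    intro x
    rw [ContinuousMap.mul_apply, ContinuousMap.star_apply, Complex.star_def,
      Complex.conj_mul', Complex.ofReal_pow]
  simp_rw [e3, e4] at e2
  rw [integral_complex_ofReal, integral_complex_ofReal, Complex.real_smul, ← Complex.ofReal_mul] at e2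
  have e5 : ∫ θ : InjT, ‖injLoc A a L θ‖ ^ 2 = 1 / L * ∫ x : ℝ, ‖A x‖ ^ 2 :=
    Complex.ofReal_injective e2
  have e6 : ∫ x : ℝ, ‖A x‖ ^ 2 ≤ C ^ 2 * (2 * R) := by
    have h1 : ∫ x : ℝ, ‖A x‖ ^ 2 = ∫ x in Set.Icc (-R) R, ‖A x‖ ^ 2 := by
      symm
      apply setIntegral_eq_integral_of_forall_compl_eq_zero
      intro x hx
      have : R < |x| := by
        by_contra hcon
        exact hx (abs_le.1 (not_lt.1 hcon))
      rw [hA x this]
      simp
    have h2 := norm_setIntegral_le_of_norm_le_const (μ := volume) (s := Set.Icc (-R) R)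
      (f := fun x : ℝ => ‖A x‖ ^ 2) (C := C ^ 2) (by simp) (fun x _ => by
        rw [Real.norm_of_nonneg (by positivity)]
        exact pow_le_pow_left₀ (norm_nonneg _) (hC x) 2)
    rw [Real.volume_real_Icc_of_le (by linarith)] at h2
    rw [h1]
    calc _ ≤ ‖∫ x in Set.Icc (-R) R, ‖A x‖ ^ 2‖ := Real.le_norm_self _
      _ ≤ C ^ 2 * (R - -R) := h2
      _ = C ^ 2 * (2 * R) := by ring
  rw [e5]
  calc 1 / L * ∫ x : ℝ, ‖A x‖ ^ 2 ≤ 1 / L * (C ^ 2 * (2 * R)) :=
        mul_le_mul_of_nonneg_left e6 (by positivity)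
    _ = 2 * R * C ^ 2 / L := by ring

/-- `∫∫ |A(Z(θ-α)) B(N ξ)|² ≤ (2 R C²)(2 R D²)/(Z N)` -/
theorem injLoc2_mass {R : ℝ} {A B : C(ℝ, ℂ)} (hA : ∀ x : ℝ, R < |x| → A x = 0)
    (hB : ∀ x : ℝ, R < |x| → B x = 0) (hR : 0 ≤ R) (b H0 i : ℕ) (hH : 2 * R < 2 ^ H0) {C D : ℝ}
    (hC : ∀ x, ‖A x‖ ≤ C) (hD : ∀ x, ‖B x‖ ≤ D) :
    ∫ θ : InjT, ∫ ξ : InjT, ‖injLoc2 b H0 A B i (θ, ξ)‖ ^ 2
      ≤ (2 * R * C ^ 2) * (2 * R * D ^ 2) / (2 : ℝ) ^ (700 * injH b H0 i) := by
  obtain ⟨a0, a1⟩ := injtr_loc_mass (a := injAlpha) hA hR (hH.trans_le (injZs_ge b H0 i)) hC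
  obtain ⟨b0, b1⟩ := injtr_loc_mass (a := 0) hB hR (hH.trans_le (injNs_ge b H0 i)) hD
  simp_rw [injLoc2_apply, norm_mul, mul_pow]
  simp_rw [integral_const_mul]
  rw [integral_mul_const]
  have hZN : injZs b H0 i * injNs b H0 i = (2 : ℝ) ^ (700 * injH b H0 i) := by
    unfold injZs injNs
    rw [← pow_add]
    congr 1
    ring
  calc (∫ θ : InjT, ‖injLoc A injAlpha (injZs b H0 i) θ‖ ^ 2) *
        ∫ ξ : InjT, ‖injLoc B 0 (injNs b H0 i) ξ‖ ^ 2
      ≤ (2 * R * C ^ 2 / injZs b H0 i) * (2 * R * D ^ 2 / injNs b H0 i) :=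
        mul_le_mul a1 b1 b0 (a0.trans a1)
    _ = (2 * R * C ^ 2) * (2 * R * D ^ 2) / (2 : ℝ) ^ (700 * injH b H0 i) := by
        rw [← hZN, div_mul_div_comm]

end Claimed.Agent.R300
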