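/-
Row 300 / S0553 (INJ paper).  LOWER ASSEMBLY, packages LOW-4 (Cayley formula + forest bound, proof of
Lemma 6.4) and LOW-5 (transfer of the sampling estimate from `ℓ²(Heis × V)` to `ℓ²(Γ × V)`).
INJ captain: helper105.  The `sorry`s are replaced IN PLACE by the owners of the packages (table subtask,
target row300, names INJ-LOW-4, INJ-LOW-5).  Statements are frozen: ask helper105 before changing one.

Conventions: `scRho g δ_x = δ_(x g⁻¹)`; positive edge `e : v = src e ⟶ w = tgt e`, letter `a = lab e`,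
`t_v * sig a = φ(vol e) * t_w`; hence `scRho (sig a) δ_(x t_w) = δ_(x φ(vol e)⁻¹ t_v)`: in sheet coordinates
`δ_(x,w) ↦ δ_(x φ(vol e)⁻¹, v) = (scRho (φ (vol e)) δ_x, v)`.
Proof plans.
* `injU_spec`: Schur test `smp_schur_form` with `R₁ = d_A/q`, `R₂ = d_B/q` (`X.DegLe`), `R₁ R₂ = 1`.
* `inj_cayley`: compare matrices.  `injCay` has the matrix `(g',g) ↦ q⁻¹ ∑_{a : ty a = τ, g' sig a = g} ω a`.
  By `injPhys_conj_apply*` the matrix of `V₀ 𝒮 V₀*` is the part of this sum over the letters `a` with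
  `(g',a) ∉ G.Res` (the edge `e` is unique: `ret_unique`, `fold_src`).  The rest is split by
  `child (g',a) = g'` or not.  First part: rows have at most one term (child injective), columns at most
  `|Lb|` terms: `smp_schur_form` with `R₁ = M/q`, `R₂ = |Lb| M/q`.  Second part: symmetric.
* `inj_transfer`: let `e : Γ × V ≃ (Γ ⧸ φ.range) × (Heis × V)` (choose coset representatives:
  `x = s(y) φ(h)`).  `scAmp e (smpConv c)` has the matrix `smpConvK (push c)`; `scAmp_norm_le`.
  The coefficient families are Schur bounded (`SmpCoefBd`) by `X.DegLe` and the `ℓ¹` bounds.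
-/
import Mathlib
import Claimed.Agent.R300.InjGraph
import Claimed.Agent.R300.InjTrim
import Claimed.Agent.R300.InjTransfer
import Claimed.Agent.R300.InjCayA

set_option autoImplicit false

namespace Claimed.Agent.R300

open scoped ENNReal ComplexConjugate InnerProductSpace

variable {p : Lab.Par}

/-- matrix of the normalised incidence of type `τ` (from the `ℬ` side to the `𝒜` side) -/
noncomputable def injUK (X : InjGr p) (τ : Fin p.T) : X.V → X.V → ℂ := fun v w =>
  (Nat.card {e // X.src e = v ∧ X.tgt e = w ∧ X.ety e = τ} : ℂ) / (InjGr.qq p τ : ℂ)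

/-- the normalised incidence `𝒰_τ` on `ℓ²(V)` -/
noncomputable def injU (X : InjGr p) (τ : Fin p.T) : ScL2 X.V →L[ℂ] ScL2 X.V := smpKer (injUK X τ)

theorem injQq_pos (p : Lab.Par) (τ : Fin p.T) : 0 < InjGr.qq p τ := by
  unfold InjGr.qq
  apply Real.sqrt_pos.2
  have h1 : 0 < InjGr.dA p τ := by
    unfold InjGr.dA Lab.Par.d
    positivity
  have h2 : 0 < InjGr.dB p τ := by
    unfold InjGr.dB Lab.Par.D
    positivity
  positivity

theorem injQq_sq (p : Lab.Par) (τ : Fin p.T) :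
    InjGr.qq p τ * InjGr.qq p τ = (InjGr.dA p τ : ℝ) * InjGr.dB p τ := by
  unfold InjGr.qq
  exact Real.mul_self_sqrt (by positivity)

theorem injFinite_src (X : InjGr p) (hX : X.Str) (τ : Fin p.T) (v : X.V) :
    Finite {e // X.src e = v ∧ X.ety e = τ} := by
  have := hX.fin_lb
  refine Finite.of_injective (fun e : {e // X.src e = v ∧ X.ety e = τ} => X.lab e.1) ?_
  intro e e' h
  exact Subtype.ext (hX.fold_src _ _ (e.2.1.trans e'.2.1.symm) h)

theorem injFinite_tgt (X : InjGr p) (hX : X.Str) (τ : Fin p.T) (w : X.V) :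
    Finite {e // X.tgt e = w ∧ X.ety e = τ} := by
  have := hX.fin_lb
  refine Finite.of_injective (fun e : {e // X.tgt e = w ∧ X.ety e = τ} => X.lab e.1) ?_
  intro e e' h
  exact Subtype.ext (hX.fold_tgt _ _ (e.2.1.trans e'.2.1.symm) h)

theorem injUK_norm (X : InjGr p) (τ : Fin p.T) (v w : X.V) :
    ‖injUK X τ v w‖ =
      (Nat.card {e // X.src e = v ∧ X.tgt e = w ∧ X.ety e = τ} : ℝ) / InjGr.qq p τ := by
  unfold injUK
  rw [norm_div, Complex.norm_natCast, Complex.norm_real, Real.norm_of_nonneg (injQq_pos p τ).le]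

open Classical in
theorem injU_spec (X : InjGr p) (hX : X.Str) (hd : X.DegLe) (τ : Fin p.T) :
    SmpHasKer (injU X τ) (injUK X τ) ∧ ‖injU X τ‖ ≤ 1 := by
  have hq := injQq_pos p τ
  have hrow : ∀ v, Summable (fun w => ‖injUK X τ v w‖) ∧
      ∑' w, ‖injUK X τ v w‖ ≤ (InjGr.dA p τ : ℝ) / InjGr.qq p τ := by
    intro v
    have := injFinite_src X hX τ v
    have := Fintype.ofFinite {e // X.src e = v ∧ X.ety e = τ}
    obtain ⟨e1, e2⟩ := ic_sum_bound
      (fun (e : {e // X.src e = v ∧ X.ety e = τ}) (w : X.V) =>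
        if X.tgt e.1 = w then 1 / InjGr.qq p τ else 0)
      (fun _ => 1 / InjGr.qq p τ) (fun _ => by positivity)
      (fun e w => by
        split_ifs
        · exact le_rfl
        · positivity)
      (fun e w w' h h' => by
        have a1 : X.tgt e.1 = w := by
          by_contra hne
          exact h (by simp [hne])
        have a2 : X.tgt e.1 = w' := by
          by_contra hne
          exact h' (by simp [hne])
        exact a1.symm.trans a2)
      (fun w => injUK X τ v w) (fun w => by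
        rw [injUK_norm, ← Finset.sum_filter, Finset.sum_const, nsmul_eq_mul, mul_one_div]
        refine div_le_div_of_nonneg_right ?_ hq.le
        have : Nat.card {e // X.src e = v ∧ X.tgt e = w ∧ X.ety e = τ} ≤
            (Finset.univ.filter
              (fun e : {e // X.src e = v ∧ X.ety e = τ} => X.tgt e.1 = w)).card := by
          rw [← Fintype.card_subtype, ← Nat.card_eq_fintype_card]
          refine Nat.card_le_card_of_injective
            (fun e : {e // X.src e = v ∧ X.tgt e = w ∧ X.ety e = τ} =>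
              (⟨⟨e.1, e.2.1, e.2.2.2⟩, e.2.2.1⟩ :
                {e : {e // X.src e = v ∧ X.ety e = τ} // X.tgt e.1 = w})) ?_
          intro e e' h
          exact Subtype.ext (congrArg (fun z => z.1.1) h)
        exact_mod_cast this)
    refine ⟨e1, e2.trans ?_⟩
    rw [Finset.sum_const, nsmul_eq_mul, mul_one_div, Finset.card_univ, ← Nat.card_eq_fintype_card]
    exact div_le_div_of_nonneg_right (by exact_mod_cast hd.degA τ v) hq.le
  have hcol : ∀ w, Summable (fun v => ‖injUK X τ v w‖) ∧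
      ∑' v, ‖injUK X τ v w‖ ≤ (InjGr.dB p τ : ℝ) / InjGr.qq p τ := by
    intro w
    have := injFinite_tgt X hX τ w
    have := Fintype.ofFinite {e // X.tgt e = w ∧ X.ety e = τ}
    obtain ⟨e1, e2⟩ := ic_sum_bound
      (fun (e : {e // X.tgt e = w ∧ X.ety e = τ}) (v : X.V) =>
        if X.src e.1 = v then 1 / InjGr.qq p τ else 0)
      (fun _ => 1 / InjGr.qq p τ) (fun _ => by positivity)
      (fun e w => by
        split_ifs
        · exact le_rfl
        · positivity)
      (fun e v v' h h' => by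
        have a1 : X.src e.1 = v := by
          by_contra hne
          exact h (by simp [hne])
        have a2 : X.src e.1 = v' := by
          by_contra hne
          exact h' (by simp [hne])
        exact a1.symm.trans a2)
      (fun v => injUK X τ v w) (fun v => by
        rw [injUK_norm, ← Finset.sum_filter, Finset.sum_const, nsmul_eq_mul, mul_one_div]
        refine div_le_div_of_nonneg_right ?_ hq.le
        have : Nat.card {e // X.src e = v ∧ X.tgt e = w ∧ X.ety e = τ} ≤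
            (Finset.univ.filter
              (fun e : {e // X.tgt e = w ∧ X.ety e = τ} => X.src e.1 = v)).card := by
          rw [← Fintype.card_subtype, ← Nat.card_eq_fintype_card]
          refine Nat.card_le_card_of_injective
            (fun e : {e // X.src e = v ∧ X.tgt e = w ∧ X.ety e = τ} =>
              (⟨⟨e.1, e.2.2.1, e.2.2.2⟩, e.2.1⟩ :
                {e : {e // X.tgt e = w ∧ X.ety e = τ} // X.src e.1 = v})) ?_
          intro e e' h
          exact Subtype.ext (congrArg (fun z => z.1.1) h)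
        exact_mod_cast this)
    refine ⟨e1, e2.trans ?_⟩
    rw [Finset.sum_const, nsmul_eq_mul, mul_one_div, Finset.card_univ, ← Nat.card_eq_fintype_card]
    exact div_le_div_of_nonneg_right (by exact_mod_cast hd.degB τ w) hq.le
  obtain ⟨k, n⟩ := smp_schur_form (k := injUK X τ) (by positivity) (by positivity) hrow hcol
  refine ⟨k, ?_⟩
  have h1 : (InjGr.dA p τ : ℝ) / InjGr.qq p τ * ((InjGr.dB p τ : ℝ) / InjGr.qq p τ) = 1 := by
    rw [div_mul_div_comm, injQq_sq]
    have := injQq_sq p τ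
    have h2 : InjGr.qq p τ * InjGr.qq p τ ≠ 0 := by positivity
    rw [this] at h2
    exact div_self h2
  rw [h1] at n
  have h3 : ‖smpKer (injUK X τ)‖ ^ 2 ≤ 1 ^ 2 := by simpa using n
  exact (pow_le_pow_iff_left₀ (norm_nonneg _) zero_le_one two_ne_zero).1 h3

theorem injU_shift (X : InjGr p) (hX : X.Str) (hd : X.DegLe) (τ : Fin p.T) :
    InjShift X.ht (injOff (p.off τ)) (injU X τ) := by
  intro v w h
  rw [(injU_spec X hX hd τ).1 v w] at h
  have h1 : Nat.card {e // X.src e = v ∧ X.tgt e = w ∧ X.ety e = τ} ≠ 0 := by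
    intro h0
    apply h
    simp [injUK, h0]
  have h2 : Nonempty {e // X.src e = v ∧ X.tgt e = w ∧ X.ety e = τ} := by
    by_contra hne
    rw [not_nonempty_iff] at hne
    exact h1 Nat.card_of_isEmpty
  obtain ⟨e, e1, e2, e3⟩ := h2
  have := hX.ht_edge e
  rw [e1, e2, e3] at this
  exact this

variable {X : InjGr p} {vol : X.E → InjHeis} (G : InjGeo X vol)

open Classical in
/-- the finite Cayley polynomial `C_τ = q_τ⁻¹ ∑_{a : ty a = τ} ω_a ρ(sig a)` (6.15) -/
noncomputable def injCay (ω : X.Lb → ℂ) (τ : Fin p.T) : ScL2 G.Γ →L[ℂ] ScL2 G.Γ :=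
  ∑ᶠ a : X.Lb, (if X.ty a = τ then ω a / (InjGr.qq p τ : ℂ) else 0) • scRho (G.sig a)

open Classical in
/-- coefficients of the sampled operator on the sheet space -/
noncomputable def injSampC (ω : X.Lb → ℂ) (τ : Fin p.T) : X.V → X.V → G.Γ → ℂ := fun v w g =>
  ∑ᶠ e : {e // X.src e = v ∧ X.tgt e = w ∧ X.ety e = τ},
    (if G.φ (vol e.1) = g then ω (X.lab e.1) else 0) / (InjGr.qq p τ : ℂ)

/-- the sampled operator `𝒮_τ = q_τ⁻¹ ∑_e ω_(lab e) E_(src e, tgt e) ⊗ ρ(φ(vol e))` on `ℓ²(Γ × V)` -/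
noncomputable def injSamp (ω : X.Lb → ℂ) (τ : Fin p.T) : ScL2 (G.Γ × X.V) →L[ℂ] ScL2 (G.Γ × X.V) :=
  smpConv (injSampC G ω τ)

section cayley

open Classical

/-- the coefficients of the sampled operator as sums over the letters -/
theorem injSampC_label (hX : X.Str) [Fintype X.Lb] (ω : X.Lb → ℂ) (τ : Fin p.T) (v w : X.V)
    (g : G.Γ) :
    injSampC G ω τ v w g = ∑ a, if (∃ e, X.lab e = a ∧ X.src e = v ∧ X.tgt e = w ∧
      G.φ (vol e) = g) ∧ X.ty a = τ then ω a / (InjGr.qq p τ : ℂ) else 0 := by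
  unfold injSampC
  set l : {e // X.src e = v ∧ X.tgt e = w ∧ X.ety e = τ} → X.Lb := fun e => X.lab e.1 with hl
  have hinj : Function.Injective l := by
    intro e e' h
    exact Subtype.ext (hX.fold_src _ _ (e.2.1.trans e'.2.1.symm) h)
  set f' : X.Lb → ℂ := fun a => if (∃ e, X.lab e = a ∧ X.src e = v ∧ X.tgt e = w ∧
      G.φ (vol e) = g) then ω a / (InjGr.qq p τ : ℂ) else 0 with hf'
  have h1 : ∀ e : {e // X.src e = v ∧ X.tgt e = w ∧ X.ety e = τ},
      (if G.φ (vol e.1) = g then ω (X.lab e.1) else 0) / (InjGr.qq p τ : ℂ) = f' (l e) := by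
    intro e
    by_cases h : G.φ (vol e.1) = g
    · have h' : ∃ e', X.lab e' = l e ∧ X.src e' = v ∧ X.tgt e' = w ∧ G.φ (vol e') = g :=
        ⟨e.1, rfl, e.2.1, e.2.2.1, h⟩
      simp only [hf', if_pos h, if_pos h']
      rfl
    · have h' : ¬ ∃ e', X.lab e' = l e ∧ X.src e' = v ∧ X.tgt e' = w ∧ G.φ (vol e') = g := by
        rintro ⟨e', a1, a2, -, a4⟩
        have : e' = e.1 := hX.fold_src _ _ (a2.trans e.2.1.symm) a1
        exact h (this ▸ a4)
      simp only [hf', if_neg h, if_neg h', zero_div]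
  rw [finsum_congr h1, ← finsum_mem_range hinj, finsum_eq_sum_of_fintype]
  refine Finset.sum_congr rfl fun a _ => ?_
  rw [finsum_eq_if]
  by_cases h : (∃ e, X.lab e = a ∧ X.src e = v ∧ X.tgt e = w ∧ G.φ (vol e) = g) ∧ X.ty a = τ
  · obtain ⟨⟨e, a1, a2, a3, a4⟩, a5⟩ := h
    have hr : a ∈ Set.range l := ⟨⟨e, a2, a3, by rw [InjGr.ety, a1, a5]⟩, a1⟩
    have h' : ∃ e, X.lab e = a ∧ X.src e = v ∧ X.tgt e = w ∧ G.φ (vol e) = g :=
      ⟨e, a1, a2, a3, a4⟩
    rw [if_pos hr, if_pos ⟨h', a5⟩]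
    simp only [hf', if_pos h']
  · rw [if_neg h]
    by_cases hr : a ∈ Set.range l
    · rw [if_pos hr]
      obtain ⟨e, rfl⟩ := hr
      have h' : ¬ ∃ e', X.lab e' = l e ∧ X.src e' = v ∧ X.tgt e' = w ∧ G.φ (vol e') = g :=
        fun h' => h ⟨h', e.2.2.2⟩
      simp only [hf', if_neg h']
    · rw [if_neg hr]

/-- the coefficients of the sampled operator are Schur bounded -/
theorem injSampC_bd (hX : X.Str) (ω : X.Lb → ℂ) (M : ℝ) (hω : ∀ a, ‖ω a‖ ≤ M) (τ : Fin p.T) :
    SmpCoefBd (injSampC G ω τ) (Nat.card X.Lb * (|M| / InjGr.qq p τ)) := by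
  have := hX.fin_lb
  have := Fintype.ofFinite X.Lb
  have hq := injQq_pos p τ
  have hB : 0 ≤ |M| / InjGr.qq p τ := by positivity
  have hc : ∀ a, ‖ω a / (InjGr.qq p τ : ℂ)‖ ≤ |M| / InjGr.qq p τ := by
    intro a
    rw [norm_div, Complex.norm_real, Real.norm_of_nonneg hq.le]
    exact div_le_div_of_nonneg_right ((hω a).trans (le_abs_self M)) hq.le
  have hsum : ∑ _a : X.Lb, |M| / InjGr.qq p τ = Nat.card X.Lb * (|M| / InjGr.qq p τ) := by
    rw [Finset.sum_const, nsmul_eq_mul, Finset.card_univ, Nat.card_eq_fintype_card]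
  constructor
  · intro u
    rw [← hsum]
    refine ic_sum_bound (fun (a : X.Lb) (q : X.V × G.Γ) =>
        if (∃ e, X.lab e = a ∧ X.src e = u ∧ X.tgt e = q.1 ∧ G.φ (vol e) = q.2) then
          |M| / InjGr.qq p τ else 0) (fun _ => |M| / InjGr.qq p τ) (fun _ => hB)
      (fun a q => by split_ifs <;> simp [hB]) ?_ _ ?_
    · intro a q q' h h'
      have a1 : ∃ e, X.lab e = a ∧ X.src e = u ∧ X.tgt e = q.1 ∧ G.φ (vol e) = q.2 := by
        by_contra hne
        exact h (by simp only [if_neg hne])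
      have a2 : ∃ e, X.lab e = a ∧ X.src e = u ∧ X.tgt e = q'.1 ∧ G.φ (vol e) = q'.2 := by
        by_contra hne
        exact h' (by simp only [if_neg hne])
      obtain ⟨e, b1, b2, b3, b4⟩ := a1
      obtain ⟨e', c1, c2, c3, c4⟩ := a2
      have : e = e' := hX.fold_src _ _ (b2.trans c2.symm) (b1.trans c1.symm)
      subst this
      exact Prod.ext (b3.symm.trans c3) (b4.symm.trans c4)
    · intro q
      rw [injSampC_label G hX]
      refine (norm_sum_le _ _).trans (Finset.sum_le_sum fun a _ => ?_)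
      by_cases h : ∃ e, X.lab e = a ∧ X.src e = u ∧ X.tgt e = q.1 ∧ G.φ (vol e) = q.2
      · rw [if_pos h]
        split_ifs
        · exact hc a
        · simpa using hB
      · rw [if_neg h, if_neg (fun h' => h h'.1)]
        simp
  · intro v
    rw [← hsum]
    refine ic_sum_bound (fun (a : X.Lb) (q : X.V × G.Γ) =>
        if (∃ e, X.lab e = a ∧ X.src e = q.1 ∧ X.tgt e = v ∧ G.φ (vol e) = q.2) then
          |M| / InjGr.qq p τ else 0) (fun _ => |M| / InjGr.qq p τ) (fun _ => hB)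
      (fun a q => by split_ifs <;> simp [hB]) ?_ _ ?_
    · intro a q q' h h'
      have a1 : ∃ e, X.lab e = a ∧ X.src e = q.1 ∧ X.tgt e = v ∧ G.φ (vol e) = q.2 := by
        by_contra hne
        exact h (by simp only [if_neg hne])
      have a2 : ∃ e, X.lab e = a ∧ X.src e = q'.1 ∧ X.tgt e = v ∧ G.φ (vol e) = q'.2 := by
        by_contra hne
        exact h' (by simp only [if_neg hne])
      obtain ⟨e, b1, b2, b3, b4⟩ := a1
      obtain ⟨e', c1, c2, c3, c4⟩ := a2
      have : e = e' := hX.fold_tgt _ _ (b3.trans c3.symm) (b1.trans c1.symm)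
      subst this
      exact Prod.ext (b2.symm.trans c2) (b4.symm.trans c4)
    · intro q
      rw [injSampC_label G hX]
      refine (norm_sum_le _ _).trans (Finset.sum_le_sum fun a _ => ?_)
      by_cases h : ∃ e, X.lab e = a ∧ X.src e = q.1 ∧ X.tgt e = v ∧ G.φ (vol e) = q.2
      · rw [if_pos h]
        split_ifs
        · exact hc a
        · simpa using hB
      · rw [if_neg h, if_neg (fun h' => h h'.1)]
        simp

theorem injSamp_hasKer (hX : X.Str) (ω : X.Lb → ℂ) (M : ℝ) (hω : ∀ a, ‖ω a‖ ≤ M) (τ : Fin p.T) :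
    SmpHasKer (injSamp G ω τ) (smpConvK (injSampC G ω τ)) :=
  (injSampC_bd G hX ω M hω τ).hasKer

/-- the coefficients of the Cayley polynomial -/
noncomputable def injCayC (ω : X.Lb → ℂ) (τ : Fin p.T) (a : X.Lb) : ℂ :=
  if X.ty a = τ then ω a / (InjGr.qq p τ : ℂ) else 0

theorem scRho_hasKer {Γ : Type} [Group Γ] (h : Γ) :
    SmpHasKer (scRho h) (fun x y : Γ => if x * h = y then 1 else 0) := by
  intro x y
  rw [scRho_apply, scDelta_apply]

theorem injCay_hasKer [Fintype X.Lb] (ω : X.Lb → ℂ) (τ : Fin p.T) :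
    SmpHasKer (injCay G ω τ)
      (fun g' g => ∑ a, if g' * G.sig a = g then injCayC ω τ a else 0) := by
  have h1 : injCay G ω τ = ∑ a, injCayC ω τ a • scRho (G.sig a) := by
    unfold injCay
    rw [finsum_eq_sum_of_fintype]
    rfl
  rw [h1]
  intro g' g
  rw [SmpHasKer.sum Finset.univ (fun a _ => (scRho_hasKer (G.sig a)).smul (injCayC ω τ a)) g' g]
  refine Finset.sum_congr rfl fun a _ => ?_
  split_ifs <;> simp

/-- matrix of `V₀ 𝒮 V₀*` -/
theorem injPhysSamp_hasKer (hX : X.Str) (hG : G.Good) [Fintype X.Lb] (ω : X.Lb → ℂ) (M : ℝ)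
    (hω : ∀ a, ‖ω a‖ ≤ M) (τ : Fin p.T) :
    SmpHasKer (injPhys G.t G.rem ∘L injSamp G ω τ ∘L
        ContinuousLinearMap.adjoint (injPhys G.t G.rem))
      (fun g' g => ∑ a, if g' * G.sig a = g ∧ (g', a) ∉ G.Res then injCayC ω τ a else 0) := by
  intro g' g
  have hnotres : ∀ a, (g', a) ∉ G.Res → ∃ e, X.lab e = a ∧ ¬ G.rem g' (X.src e) ∧
      ¬ G.rem (g' * G.sig a) (X.tgt e) := fun a h => not_not.1 h
  by_cases hg : ∃ w, ¬ G.rem g w
  · by_cases hg' : ∃ v, ¬ G.rem g' v
    · obtain ⟨w, hw⟩ := hg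
      obtain ⟨v, hv⟩ := hg'
      have e1 : g * (G.t w)⁻¹ * G.t w = g := inv_mul_cancel_right _ _
      have e2 : g' * (G.t v)⁻¹ * G.t v = g' := inv_mul_cancel_right _ _
      have hq : ((g * (G.t w)⁻¹, w) : G.Γ × X.V) ∈ injRet G.t G.rem := by
        show ¬ G.rem (g * (G.t w)⁻¹ * G.t w) w
        rw [e1]; exact hw
      have hq' : ((g' * (G.t v)⁻¹, v) : G.Γ × X.V) ∈ injRet G.t G.rem := by
        show ¬ G.rem (g' * (G.t v)⁻¹ * G.t v) v
        rw [e2]; exact hv
      have key := injPhys_conj_apply G.t G.rem hG.ret_unique (injSamp G ω τ) _ _ hq hq'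
      simp only [e1, e2] at key
      rw [key, injSamp_hasKer G hX ω M hω τ]
      show injSampC G ω τ v w ((g' * (G.t v)⁻¹)⁻¹ * (g * (G.t w)⁻¹)) = _
      rw [injSampC_label G hX]
      refine Finset.sum_congr rfl fun a _ => ?_
      have hiff : (∃ e, X.lab e = a ∧ X.src e = v ∧ X.tgt e = w ∧
          G.φ (vol e) = (g' * (G.t v)⁻¹)⁻¹ * (g * (G.t w)⁻¹)) ↔
          (g' * G.sig a = g ∧ (g', a) ∉ G.Res) := by
        constructor
        · rintro ⟨e, rfl, rfl, rfl, a4⟩
          have h5 := hG.edge e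
          have h6 : g' * G.sig (X.lab e) = g := by
            calc g' * G.sig (X.lab e)
                = g' * (G.t (X.src e))⁻¹ * (G.t (X.src e) * G.sig (X.lab e)) := by group
              _ = g := by rw [h5, a4]; group
          refine ⟨h6, fun hres => hres ⟨e, rfl, hv, ?_⟩⟩
          show ¬ G.rem (g' * G.sig (X.lab e)) (X.tgt e)
          rw [h6]; exact hw
        · rintro ⟨h6, hres⟩
          obtain ⟨e, rfl, b2, b3⟩ := hnotres a hres
          rw [h6] at b3
          have c2 : X.src e = v := hG.ret_unique _ _ _ b2 hv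
          have c3 : X.tgt e = w := hG.ret_unique _ _ _ b3 hw
          refine ⟨e, rfl, c2, c3, ?_⟩
          have h5 := hG.edge e
          rw [c2, c3] at h5
          calc G.φ (vol e) = G.t v * G.sig (X.lab e) * (G.t w)⁻¹ := by rw [h5]; group
            _ = (g' * (G.t v)⁻¹)⁻¹ * (g' * G.sig (X.lab e) * (G.t w)⁻¹) := by group
            _ = _ := by rw [h6]
      by_cases h : g' * G.sig a = g ∧ (g', a) ∉ G.Res
      · rw [if_pos h]
        simp only [hiff.2 h, true_and, injCayC]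
      · rw [if_neg h, if_neg (fun h' => h (hiff.1 h'.1))]
    · have hz := injPhys_conj_apply_tgt G.t G.rem hG.ret_unique (injSamp G ω τ) (scDelta g) g'
        (by
          rintro q hq rfl
          exact hg' ⟨q.2, hq⟩)
      rw [hz]
      symm
      refine Finset.sum_eq_zero fun a _ => ?_
      rw [if_neg]
      rintro ⟨-, hres⟩
      obtain ⟨e, -, b2, -⟩ := hnotres a hres
      exact hg' ⟨_, b2⟩
  · have hz := injPhys_conj_apply_src G.t G.rem hG.ret_unique (injSamp G ω τ) g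
      (by
        rintro q hq rfl
        exact hg ⟨q.2, hq⟩)
    rw [hz]
    symm
    refine Finset.sum_eq_zero fun a _ => ?_
    rw [if_neg]
    rintro ⟨h6, hres⟩
    obtain ⟨e, -, -, b3⟩ := hnotres a hres
    rw [h6] at b3
    exact hg ⟨_, b3⟩

end cayley

/-- **Cayley formula and forest bound** (proof of Lemma 6.4). -/
theorem inj_cayley (hX : X.Str) (hd : X.DegLe) (hG : G.Good) (ω : X.Lb → ℂ) (M : ℝ)
    (hω : ∀ a, ‖ω a‖ ≤ M) (τ : Fin p.T) :
    ‖injCay G ω τ - injPhys G.t G.rem ∘L injSamp G ω τ ∘L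
        ContinuousLinearMap.adjoint (injPhys G.t G.rem)‖
      ≤ 2 * (M / InjGr.qq p τ) * Real.sqrt (Nat.card X.Lb) := by
  classical
  have := hX.fin_lb
  have := Fintype.ofFinite X.Lb
  have hq := injQq_pos p τ
  obtain ⟨child, hch, hinj⟩ := hG.orient
  have hD : SmpHasKer (injCay G ω τ - injPhys G.t G.rem ∘L injSamp G ω τ ∘L
        ContinuousLinearMap.adjoint (injPhys G.t G.rem))
      (icKer G.sig (injCayC ω τ) (fun g a => (g, a) ∈ G.Res)) := by
    intro g' g
    rw [((injCay_hasKer G ω τ).sub (injPhysSamp_hasKer G hX hG ω M hω τ)) g' g]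
    simp only [icKer]
    rw [← Finset.sum_sub_distrib]
    refine Finset.sum_congr rfl fun a _ => ?_
    by_cases h1 : g' * G.sig a = g
    · by_cases h2 : (g', a) ∈ G.Res
      · simp [h1, h2]
      · simp [h1, h2]
    · simp [h1]
  rw [Nat.card_eq_fintype_card]
  by_cases hne : Nonempty X.Lb
  · obtain ⟨a₀⟩ := hne
    have hM : 0 ≤ M := (norm_nonneg _).trans (hω a₀)
    refine ic_forest_bound G.sig (injCayC ω τ) G.Res child hch hinj (by positivity) ?_ _ hD
    intro a
    unfold injCayC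
    split_ifs
    · rw [norm_div, Complex.norm_real, Real.norm_of_nonneg hq.le]
      exact div_le_div_of_nonneg_right (hω a) hq.le
    · rw [norm_zero]; positivity
  · rw [not_nonempty_iff] at hne
    have h0 := ic_forest_bound G.sig (injCayC ω τ) G.Res child hch hinj (le_refl 0)
      (fun a => (hne.false a).elim) _ hD
    have h1 : Fintype.card X.Lb = 0 := Fintype.card_eq_zero
    rw [h1]
    simpa using h0

/-- the mean of the sampler at a vertex, in the regular representation of `Γ` -/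
noncomputable def injMeanRep (m : ℕ → InjHeis →₀ ℂ) (v : X.V) : ScL2 G.Γ →L[ℂ] ScL2 G.Γ :=
  (m (X.ht v)).sum fun h c => c • scRho (G.φ h)

/-! ### LOW-5: auxiliary lemmas (helper193) -/

theorem injCay_rho_norm_le {Γ : Type} [Group Γ] (g : Γ) : ‖scRho g‖ ≤ 1 :=
  (scRho g).opNorm_le_bound zero_le_one fun ξ => by
    rw [one_mul]
    exact scPull_norm_le _ _ ξ

theorem injMeanRep_norm_le_aux (m : ℕ → InjHeis →₀ ℂ) (M : ℝ)
    (hm : ∀ i, (m i).sum (fun _ c => ‖c‖) ≤ M) (v : X.V) : ‖injMeanRep G m v‖ ≤ M := by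
  refine le_trans ?_ (hm (X.ht v))
  unfold injMeanRep Finsupp.sum
  refine (norm_sum_le _ _).trans (Finset.sum_le_sum fun h _ => ?_)
  rw [norm_smul]
  exact mul_le_of_le_one_right (norm_nonneg _) (injCay_rho_norm_le _)

theorem injCay_fin_src (hX : X.Str) (τ : Fin p.T) (v : X.V) :
    Finite {e // X.src e = v ∧ X.ety e = τ} := by
  have := hX.fin_lb
  refine Finite.of_injective (fun e : {e // X.src e = v ∧ X.ety e = τ} => X.lab e.1) ?_
  intro e e' h
  exact Subtype.ext (hX.fold_src _ _ (e.2.1.trans e'.2.1.symm) h)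

theorem injCay_fin_tgt (hX : X.Str) (τ : Fin p.T) (w : X.V) :
    Finite {e // X.tgt e = w ∧ X.ety e = τ} := by
  have := hX.fin_lb
  refine Finite.of_injective (fun e : {e // X.tgt e = w ∧ X.ety e = τ} => X.lab e.1) ?_
  intro e e' h
  exact Subtype.ext (hX.fold_tgt _ _ (e.2.1.trans e'.2.1.symm) h)

theorem injCay_fin_edge (hX : X.Str) (τ : Fin p.T) (v w : X.V) :
    Finite {e // X.src e = v ∧ X.tgt e = w ∧ X.ety e = τ} := by
  have := injCay_fin_src hX τ v
  refine Finite.of_injective (fun e : {e // X.src e = v ∧ X.tgt e = w ∧ X.ety e = τ} =>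
    (⟨e.1, e.2.1, e.2.2.2⟩ : {e // X.src e = v ∧ X.ety e = τ})) ?_
  intro e e' h
  exact Subtype.ext (congrArg (fun z : {e // X.src e = v ∧ X.ety e = τ} => z.1) h)

theorem injCay_qq_nonneg (τ : Fin p.T) : 0 ≤ InjGr.qq p τ := Real.sqrt_nonneg _

/-- `ℓ¹` bound of a point mass. -/
theorem injCay_single_l1 {K : Type} (k₀ : K) (a : ℂ) [DecidableEq K] :
    HasSum (fun k => ‖(if k₀ = k then a else 0 : ℂ)‖) ‖a‖ := by
  have h := hasSum_ite_eq k₀ ‖a‖
  convert h using 2 with k
  by_cases hk : k₀ = k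
  · rw [if_pos hk, if_pos hk.symm]
  · rw [if_neg hk, if_neg (fun h => hk h.symm), norm_zero]

theorem injSampC_coefBd (hX : X.Str) (hd : X.DegLe) (ω : X.Lb → ℂ) (M : ℝ)
    (hω : ∀ a, ‖ω a‖ ≤ M) (τ : Fin p.T) : ∃ R, SmpCoefBd (injSampC G ω τ) R := by
  classical
  refine ⟨_, smp_edge_coefBd X.src X.tgt (fun e => X.ety e = τ)
    (fun e g => (if G.φ (vol e) = g then ω (X.lab e) else 0) / (InjGr.qq p τ : ℂ))
    (|M| / InjGr.qq p τ) (div_nonneg (abs_nonneg _) (injCay_qq_nonneg τ)) (fun e => ?_)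
    (InjGr.dA p τ) (InjGr.dB p τ) (injCay_fin_src hX τ) (hd.degA τ) (injCay_fin_tgt hX τ)
    (hd.degB τ)⟩
  have h := (injCay_single_l1 (G.φ (vol e)) (ω (X.lab e))).div_const (InjGr.qq p τ)
  have e1 : (fun g => ‖(if G.φ (vol e) = g then ω (X.lab e) else 0) / (InjGr.qq p τ : ℂ)‖)
      = fun g => ‖(if G.φ (vol e) = g then ω (X.lab e) else 0 : ℂ)‖ / InjGr.qq p τ := by
    funext g
    rw [norm_div, Complex.norm_real, Real.norm_eq_abs, abs_of_nonneg (injCay_qq_nonneg τ)]
  rw [e1]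
  refine ⟨h.summable, ?_⟩
  rw [h.tsum_eq]
  exact div_le_div_of_nonneg_right ((hω _).trans (le_abs_self _)) (injCay_qq_nonneg τ)

theorem injSampCoef_eq (τ : Fin p.T) (wt : X.E → ℂ) (m : ℕ → InjHeis → ℂ) :
    injSampCoef X τ vol wt m = fun v w h =>
      ∑ᶠ e : {e // X.src e = v ∧ X.tgt e = w ∧ X.ety e = τ},
        (open Classical in ((if vol e.1 = h then wt e.1 else 0) - m (X.ht (X.src e.1)) h)
          / (InjGr.qq p τ : ℂ)) := by
  funext v w h
  unfold injSampCoef
  refine finsum_congr fun e => ?_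
  rw [e.2.1]

theorem injSampCoef_coefBd (hX : X.Str) (hd : X.DegLe) (ω : X.Lb → ℂ) (M : ℝ)
    (hω : ∀ a, ‖ω a‖ ≤ M) (m : ℕ → InjHeis →₀ ℂ) (hm : ∀ i, (m i).sum (fun _ c => ‖c‖) ≤ M)
    (τ : Fin p.T) :
    ∃ R, SmpCoefBd (injSampCoef X τ vol (fun e => ω (X.lab e)) (fun i => m i)) R := by
  classical
  rw [injSampCoef_eq]
  refine ⟨_, smp_edge_coefBd X.src X.tgt (fun e => X.ety e = τ)
    (fun e h => ((if vol e = h then ω (X.lab e) else 0) - m (X.ht (X.src e)) h)
      / (InjGr.qq p τ : ℂ))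
    ((|M| + |M|) / InjGr.qq p τ)
    (div_nonneg (add_nonneg (abs_nonneg _) (abs_nonneg _)) (injCay_qq_nonneg τ)) (fun e => ?_)
    (InjGr.dA p τ) (InjGr.dB p τ) (injCay_fin_src hX τ) (hd.degA τ) (injCay_fin_tgt hX τ)
    (hd.degB τ)⟩
  have h1 := injCay_single_l1 (vol e) (ω (X.lab e))
  have h2 : HasSum (fun h => ‖m (X.ht (X.src e)) h‖)
      ((m (X.ht (X.src e))).sum (fun _ c => ‖c‖)) :=
    hasSum_sum_of_ne_finset_zero fun h hh => by
      rw [Finsupp.notMem_support_iff.1 hh, norm_zero]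
  have h3 := (h1.add h2).div_const (InjGr.qq p τ)
  have hle : ∀ h, ‖((if vol e = h then ω (X.lab e) else 0) - m (X.ht (X.src e)) h)
      / (InjGr.qq p τ : ℂ)‖ ≤ (‖(if vol e = h then ω (X.lab e) else 0 : ℂ)‖
        + ‖m (X.ht (X.src e)) h‖) / InjGr.qq p τ := by
    intro h
    rw [norm_div, Complex.norm_real, Real.norm_eq_abs, abs_of_nonneg (injCay_qq_nonneg τ)]
    exact div_le_div_of_nonneg_right (norm_sub_le _ _) (injCay_qq_nonneg τ)
  have hs := Summable.of_nonneg_of_le (fun _ => norm_nonneg _) hle h3.summable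
  refine ⟨hs, (hs.tsum_le_tsum hle h3.summable).trans ?_⟩
  rw [h3.tsum_eq]
  exact div_le_div_of_nonneg_right (add_le_add ((hω _).trans (le_abs_self _))
    ((hm _).trans (le_abs_self _))) (injCay_qq_nonneg τ)

open Classical in
/-- matrix of the mean in the regular representation. -/
theorem injMeanRep_delta_apply (m : ℕ → InjHeis →₀ ℂ) (v : X.V) (x x' : G.Γ) :
    injMeanRep G m v (scDelta x) x'
      = (m (X.ht v)).sum fun h c => if G.φ h = x'⁻¹ * x then c else 0 := by
  unfold injMeanRep Finsupp.sum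
  rw [sum_apply, scL2_sum_apply]
  refine Finset.sum_congr rfl fun h _ => ?_
  rw [smul_apply, lp.coeFn_smul, Pi.smul_apply, smul_eq_mul, scRho_apply, scDelta_apply]
  beta_reduce
  by_cases hh : G.φ h = x'⁻¹ * x
  · rw [if_pos hh, if_pos (by rw [hh, mul_inv_cancel_left]), mul_one]
  · rw [if_neg hh, if_neg (fun h' => hh (by rw [← h', inv_mul_cancel_left])), mul_zero]

open Classical in
/-- coefficients of `sampled operator - mean ⊗ incidence` on the sheet space. -/
noncomputable def injDiffC (ω : X.Lb → ℂ) (m : ℕ → InjHeis →₀ ℂ) (τ : Fin p.T) :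
    X.V → X.V → G.Γ → ℂ := fun v w g =>
  injSampC G ω τ v w g - injUK X τ v w * (m (X.ht v)).sum fun h c => if G.φ h = g then c else 0

theorem injDiffC_hasKer (hX : X.Str) (hd : X.DegLe) (ω : X.Lb → ℂ) (M : ℝ)
    (hω : ∀ a, ‖ω a‖ ≤ M) (m : ℕ → InjHeis →₀ ℂ) (hm : ∀ i, (m i).sum (fun _ c => ‖c‖) ≤ M)
    (τ : Fin p.T) :
    SmpHasKer (injSamp G ω τ - injFib (injMeanRep G m) * injK (injU X τ))
      (smpConvK (injDiffC G ω m τ)) := by
  obtain ⟨R, hR⟩ := injSampC_coefBd G hX hd ω M hω τ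
  rintro ⟨x', v⟩ ⟨x, w⟩
  have h1 : (injSamp G ω τ - injFib (injMeanRep G m) * injK (injU X τ) :
        ScL2 (G.Γ × X.V) →L[ℂ] ScL2 (G.Γ × X.V)) (scDelta (x, w)) (x', v)
      = injSamp G ω τ (scDelta (x, w)) (x', v)
        - injFib (injMeanRep G m) (injK (injU X τ) (scDelta (x, w))) (x', v) := rfl
  rw [h1, injFib_K_delta_apply (injMeanRep_norm_le_aux G m M hm), (injU_spec X hX hd τ).1 v w,
    injMeanRep_delta_apply, show injSamp G ω τ = smpConv (injSampC G ω τ) from rfl,
    hR.hasKer (x', v) (x, w)]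
  rfl

theorem injDiffC_range (hX : X.Str) (hφ : Function.Injective G.φ) (ω : X.Lb → ℂ)
    (m : ℕ → InjHeis →₀ ℂ) (τ : Fin p.T) (v w : X.V) (h₀ : InjHeis) :
    injDiffC G ω m τ v w (G.φ h₀)
      = injSampCoef X τ vol (fun e => ω (X.lab e)) (fun i => m i) v w h₀ := by
  classical
  have := injCay_fin_edge hX τ v w
  have := Fintype.ofFinite {e // X.src e = v ∧ X.tgt e = w ∧ X.ety e = τ}
  unfold injDiffC injSampC injSampCoef injUK
  have h2 : ((m (X.ht v)).sum fun h c => if G.φ h = G.φ h₀ then c else 0) = m (X.ht v) h₀ := by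
    simp only [hφ.eq_iff]
    rw [Finsupp.sum_ite_eq']
    split_ifs with hh
    · rfl
    · exact (Finsupp.notMem_support_iff.1 hh).symm
  rw [h2, finsum_eq_sum_of_fintype, finsum_eq_sum_of_fintype, Nat.card_eq_fintype_card]
  simp only [hφ.eq_iff, sub_div, Finset.sum_sub_distrib, Finset.sum_const, Finset.card_univ,
    nsmul_eq_mul]
  ring

theorem injDiffC_not_range (ω : X.Lb → ℂ) (m : ℕ → InjHeis →₀ ℂ) (τ : Fin p.T) (v w : X.V)
    (g : G.Γ) (hg : g ∉ Set.range G.φ) : injDiffC G ω m τ v w g = 0 := by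
  classical
  unfold injDiffC injSampC
  have h1 : ∀ h, G.φ h ≠ g := fun h hh => hg ⟨h, hh⟩
  simp [h1]

/-- **Transfer** of (2a) of `InjVoltStmt` to the sheet space of `Γ`. -/
theorem inj_transfer (hX : X.Str) (hd : X.DegLe) (hφ : Function.Injective G.φ) (ω : X.Lb → ℂ) (M : ℝ)
    (hω : ∀ a, ‖ω a‖ ≤ M) (m : ℕ → InjHeis →₀ ℂ) (hm : ∀ i, (m i).sum (fun _ c => ‖c‖) ≤ M)
    (τ : Fin p.T) :
    ‖injSamp G ω τ - injFib (injMeanRep G m) * injK (injU X τ)‖
      ≤ ‖smpConv (injSampCoef X τ vol (fun e => ω (X.lab e)) (fun i => m i))‖ := by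
  obtain ⟨R, hR⟩ := injSampCoef_coefBd (vol := vol) hX hd ω M hω m hm τ
  exact smp_transfer G.φ hφ (injDiffC_range G hX hφ ω m τ) (injDiffC_not_range G ω m τ)
    (injDiffC_hasKer G hX hd ω M hω m hm τ) hR.hasKer

theorem injMeanRep_norm_le (m : ℕ → InjHeis →₀ ℂ) (M : ℝ) (hm : ∀ i, (m i).sum (fun _ c => ‖c‖) ≤ M)
    (v : X.V) : ‖injMeanRep G m v‖ ≤ M :=
  injMeanRep_norm_le_aux G m M hm v

end Claimed.Agent.R300
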