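/-
Row 300 / S0553 (INJ paper).  LOWER ASSEMBLY, package LOW-6 (owner helper69), part ABS:
the abstract Hilbert space lemmas behind Lemma 6.3 and (6.14).
* `InjSplit T x y C` : `T = |x⟩⟨y| + C` with `C y = 0`, `C* x = 0`; closed under products and adjoints.
* `InjExt V a b ρ δ` : a contraction which almost maps the unit vector `b` to the unit vector `a` (and back) and
  has norm `≤ ρ` on `b^⊥`.  Then `V` is `2δ`-close to the split contraction `|a⟩⟨b| + Q_a V Q_b`.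
* `inj_abs_route` : the route `(V₁*V₁)^k V₁* V₂ (V₃*V₃)^k` is close to `|b₁⟩⟨b₃|`.
* `InjExt.of_compress` : compression of an exact block by a coisometry.
-/
import Mathlib

set_option autoImplicit false

namespace Claimed.Agent.R300

open scoped InnerProductSpace ComplexConjugate
open InnerProductSpace (rankOne)

section abs

variable {H : Type*} [NormedAddCommGroup H] [InnerProductSpace ℂ H] [CompleteSpace H]

/-- `T = |x⟩⟨y| + C` with `C y = 0`, `C* x = 0`. -/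
structure InjSplit (T : H →L[ℂ] H) (x y : H) (C : H →L[ℂ] H) : Prop where
  eq : T = rankOne ℂ x y + C
  ker : C y = 0
  coker : star C x = 0

omit [CompleteSpace H] in
theorem inj_mul_apply (S T : H →L[ℂ] H) (ξ : H) : (S * T) ξ = S (T ξ) := rfl

omit [CompleteSpace H] in
theorem inj_add_apply (S T : H →L[ℂ] H) (ξ : H) : (S + T) ξ = S ξ + T ξ := rfl

omit [CompleteSpace H] in
theorem inj_sub_apply (S T : H →L[ℂ] H) (ξ : H) : (S - T) ξ = S ξ - T ξ := rfl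

omit [CompleteSpace H] in
theorem inj_inner_self_one {y : H} (hy : ‖y‖ = 1) : ⟪y, y⟫_ℂ = 1 := by
  rw [inner_self_eq_norm_sq_to_K, hy]; simp

theorem InjSplit.inner_zero {T C : H →L[ℂ] H} {x y : H} (h : InjSplit T x y C) (ξ : H) :
    ⟪x, C ξ⟫_ℂ = 0 := by
  rw [← ContinuousLinearMap.adjoint_inner_left, ← ContinuousLinearMap.star_eq_adjoint, h.coker,
    inner_zero_left]

theorem InjSplit.mul {T T' C C' : H →L[ℂ] H} {x y z : H} (h : InjSplit T x y C)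
    (h' : InjSplit T' y z C') (hy : ‖y‖ = 1) : InjSplit (T * T') x z (C * C') := by
  refine ⟨?_, ?_, ?_⟩
  · rw [h.eq, h'.eq]
    ext ξ
    simp only [inj_mul_apply, inj_add_apply,
      InnerProductSpace.rankOne_apply, map_add, map_smul, h.ker,
      h'.inner_zero ξ, inj_inner_self_one hy, add_zero, one_smul, zero_smul, zero_add]
  · rw [inj_mul_apply, h'.ker, map_zero]
  · rw [star_mul, inj_mul_apply, h.coker, map_zero]

theorem InjSplit.star {T C : H →L[ℂ] H} {x y : H} (h : InjSplit T x y C) :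
    InjSplit (star T) y x (star C) := by
  refine ⟨?_, h.coker, ?_⟩
  · rw [h.eq, star_add, ContinuousLinearMap.star_eq_adjoint (rankOne ℂ x y),
      InnerProductSpace.adjoint_rankOne]
  · rw [star_star]; exact h.ker

omit [CompleteSpace H] in
theorem inj_sub_proj_norm_sq (y ξ : H) (hy : ‖y‖ = 1) :
    ‖ξ - ⟪y, ξ⟫_ℂ • y‖ ^ 2 = ‖ξ‖ ^ 2 - ‖⟪y, ξ⟫_ℂ‖ ^ 2 := by
  rw [norm_sub_sq (𝕜 := ℂ), inner_smul_right, norm_smul, hy, mul_one, ← inner_conj_symm ξ y,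
    Complex.mul_conj]
  simp only [Complex.normSq_eq_norm_sq]
  norm_cast
  simp only [RCLike.re_to_complex, Complex.ofReal_re]
  ring

omit [CompleteSpace H] in
theorem inj_sub_proj_norm_le (y ξ : H) (hy : ‖y‖ = 1) : ‖ξ - ⟪y, ξ⟫_ℂ • y‖ ≤ ‖ξ‖ := by
  have h := inj_sub_proj_norm_sq y ξ hy
  have h2 : ‖ξ - ⟪y, ξ⟫_ℂ • y‖ ^ 2 ≤ ‖ξ‖ ^ 2 := by
    rw [h]; nlinarith [sq_nonneg ‖⟪y, ξ⟫_ℂ‖]
  exact (pow_le_pow_iff_left₀ (norm_nonneg _) (norm_nonneg _) two_ne_zero).1 h2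

theorem InjSplit.norm_le_one {T C : H →L[ℂ] H} {x y : H} (h : InjSplit T x y C) (hx : ‖x‖ = 1)
    (hy : ‖y‖ = 1) (hC : ‖C‖ ≤ 1) : ‖T‖ ≤ 1 := by
  refine T.opNorm_le_bound zero_le_one fun ξ => ?_
  rw [one_mul]
  have e1 : T ξ = ⟪y, ξ⟫_ℂ • x + C ξ := by
    rw [h.eq]; rfl
  have e2 : C ξ = C (ξ - ⟪y, ξ⟫_ℂ • y) := by
    rw [map_sub, map_smul, h.ker, smul_zero, sub_zero]
  have e3 : ‖C ξ‖ ≤ ‖ξ - ⟪y, ξ⟫_ℂ • y‖ := by
    rw [e2]
    calc ‖C (ξ - ⟪y, ξ⟫_ℂ • y)‖ ≤ ‖C‖ * ‖ξ - ⟪y, ξ⟫_ℂ • y‖ := C.le_opNorm _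
      _ ≤ 1 * ‖ξ - ⟪y, ξ⟫_ℂ • y‖ := mul_le_mul_of_nonneg_right hC (norm_nonneg _)
      _ = _ := one_mul _
  have e4 : ‖T ξ‖ ^ 2 = ‖⟪y, ξ⟫_ℂ‖ ^ 2 + ‖C ξ‖ ^ 2 := by
    rw [e1, norm_add_sq (𝕜 := ℂ), inner_smul_left, h.inner_zero ξ, mul_zero, norm_smul, hx, mul_one]
    simp
  have e5 : ‖T ξ‖ ^ 2 ≤ ‖ξ‖ ^ 2 := by
    rw [e4]
    have := inj_sub_proj_norm_sq y ξ hy
    have h6 : ‖C ξ‖ ^ 2 ≤ ‖ξ - ⟪y, ξ⟫_ℂ • y‖ ^ 2 := pow_le_pow_left₀ (norm_nonneg _) e3 2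
    linarith
  exact (pow_le_pow_iff_left₀ (norm_nonneg _) (norm_nonneg _) two_ne_zero).1 e5

/-- a contraction that almost exchanges the unit vectors `a`, `b` and is small on `b^⊥`. -/
structure InjExt (V : H →L[ℂ] H) (a b : H) (ρ δ : ℝ) : Prop where
  na : ‖a‖ = 1
  nb : ‖b‖ = 1
  nV : ‖V‖ ≤ 1
  fwd : ‖V b - a‖ ≤ δ
  bwd : ‖star V a - b‖ ≤ δ
  gap : ∀ ξ, ⟪b, ξ⟫_ℂ = 0 → ‖V ξ‖ ≤ ρ * ‖ξ‖

/-- the centred part `Q_a V Q_b`. -/
noncomputable def injCen (V : H →L[ℂ] H) (a b : H) : H →L[ℂ] H :=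
  (1 - rankOne ℂ a a) * V * (1 - rankOne ℂ b b)

omit [CompleteSpace H] in
theorem injCen_apply (V : H →L[ℂ] H) (a b ξ : H) :
    injCen V a b ξ = V (ξ - ⟪b, ξ⟫_ℂ • b) - ⟪a, V (ξ - ⟪b, ξ⟫_ℂ • b)⟫_ℂ • a := rfl

theorem injCen_star (V : H →L[ℂ] H) (a b : H) : star (injCen V a b) = injCen (star V) b a := by
  have h : ∀ x : H, star (1 - rankOne ℂ x x) = 1 - rankOne ℂ x x := by
    intro x
    rw [star_sub, star_one, ContinuousLinearMap.star_eq_adjoint (rankOne ℂ x x),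
      InnerProductSpace.adjoint_rankOne]
  unfold injCen
  rw [star_mul, star_mul, h, h, mul_assoc]

omit [CompleteSpace H] in
theorem injCen_ker (V : H →L[ℂ] H) (a : H) {b : H} (hb : ‖b‖ = 1) : injCen V a b b = 0 := by
  rw [injCen_apply, inj_inner_self_one hb, one_smul, sub_self, map_zero, inner_zero_right,
    zero_smul, sub_zero]

namespace InjExt

variable {V : H →L[ℂ] H} {a b : H} {ρ δ : ℝ}

theorem split (h : InjExt V a b ρ δ) :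
    InjSplit (rankOne ℂ a b + injCen V a b) a b (injCen V a b) :=
  ⟨rfl, injCen_ker V a h.nb, by rw [injCen_star]; exact injCen_ker _ _ h.na⟩

theorem inner_proj (h : InjExt V a b ρ δ) (ξ : H) : ⟪b, ξ - ⟪b, ξ⟫_ℂ • b⟫_ℂ = 0 := by
  rw [inner_sub_right, inner_smul_right, inj_inner_self_one h.nb, mul_one, sub_self]

theorem cen_norm_le (h : InjExt V a b ρ δ) (hρ : 0 ≤ ρ) : ‖injCen V a b‖ ≤ ρ := by
  refine (injCen V a b).opNorm_le_bound hρ fun ξ => ?_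
  rw [injCen_apply]
  calc ‖V (ξ - ⟪b, ξ⟫_ℂ • b) - ⟪a, V (ξ - ⟪b, ξ⟫_ℂ • b)⟫_ℂ • a‖
      ≤ ‖V (ξ - ⟪b, ξ⟫_ℂ • b)‖ := inj_sub_proj_norm_le a _ h.na
    _ ≤ ρ * ‖ξ - ⟪b, ξ⟫_ℂ • b‖ := h.gap _ (h.inner_proj ξ)
    _ ≤ ρ * ‖ξ‖ := mul_le_mul_of_nonneg_left (inj_sub_proj_norm_le b ξ h.nb) hρ

theorem delta_nonneg (h : InjExt V a b ρ δ) : 0 ≤ δ := (norm_nonneg _).trans h.fwd

theorem hat_close (h : InjExt V a b ρ δ) : ‖V - (rankOne ℂ a b + injCen V a b)‖ ≤ 2 * δ := by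
  have hδ := h.delta_nonneg
  refine ContinuousLinearMap.opNorm_le_bound _ (by positivity) fun ξ => ?_
  set η := ξ - ⟪b, ξ⟫_ℂ • b with hη
  have e1 : (V - (rankOne ℂ a b + injCen V a b)) ξ
      = ⟪b, ξ⟫_ℂ • (V b - a) + ⟪star V a - b, η⟫_ℂ • a := by
    have e2 : ⟪star V a - b, η⟫_ℂ = ⟪a, V η⟫_ℂ := by
      rw [inner_sub_left, h.inner_proj ξ, sub_zero, ContinuousLinearMap.star_eq_adjoint,
        ContinuousLinearMap.adjoint_inner_left]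
    have e3 : V ξ = V η + ⟪b, ξ⟫_ℂ • V b := by
      rw [hη, map_sub, map_smul]; abel
    rw [e2, inj_sub_apply, inj_add_apply, injCen_apply,
      InnerProductSpace.rankOne_apply, ← hη, e3, smul_sub]
    abel
  rw [e1]
  have b1 : ‖⟪b, ξ⟫_ℂ‖ ≤ ‖ξ‖ := by
    have := norm_inner_le_norm (𝕜 := ℂ) b ξ
    rwa [h.nb, one_mul] at this
  have b2 : ‖⟪star V a - b, η⟫_ℂ‖ ≤ δ * ‖ξ‖ := by
    calc ‖⟪star V a - b, η⟫_ℂ‖ ≤ ‖star V a - b‖ * ‖η‖ := norm_inner_le_norm _ _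
      _ ≤ δ * ‖ξ‖ := mul_le_mul h.bwd (inj_sub_proj_norm_le b ξ h.nb) (norm_nonneg _) hδ
  calc ‖⟪b, ξ⟫_ℂ • (V b - a) + ⟪star V a - b, η⟫_ℂ • a‖
      ≤ ‖⟪b, ξ⟫_ℂ‖ * ‖V b - a‖ + ‖⟪star V a - b, η⟫_ℂ‖ * ‖a‖ := by
        refine (norm_add_le _ _).trans ?_
        rw [norm_smul, norm_smul]
    _ ≤ ‖ξ‖ * δ + δ * ‖ξ‖ * 1 := by
        rw [h.na]
        exact add_le_add (mul_le_mul b1 h.fwd (norm_nonneg _) (norm_nonneg _))
          (mul_le_mul_of_nonneg_right b2 zero_le_one)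
    _ = 2 * δ * ‖ξ‖ := by ring

theorem hat_norm_le (h : InjExt V a b ρ δ) (hρ : 0 ≤ ρ) (hρ1 : ρ ≤ 1) :
    ‖rankOne ℂ a b + injCen V a b‖ ≤ 1 :=
  h.split.norm_le_one h.na h.nb ((h.cen_norm_le hρ).trans hρ1)

end InjExt

/-! ### perturbation of products of contractions -/

section ring

variable {A : Type*} [NormedRing A]

theorem inj_mul_sub_le {X X' Y Y' : A} (hX' : ‖X'‖ ≤ 1) (hY : ‖Y‖ ≤ 1) :
    ‖X * Y - X' * Y'‖ ≤ ‖X - X'‖ + ‖Y - Y'‖ := by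
  have e : X * Y - X' * Y' = (X - X') * Y + X' * (Y - Y') := by noncomm_ring
  rw [e]
  refine (norm_add_le _ _).trans (add_le_add ?_ ?_)
  · calc ‖(X - X') * Y‖ ≤ ‖X - X'‖ * ‖Y‖ := norm_mul_le _ _
      _ ≤ ‖X - X'‖ * 1 := mul_le_mul_of_nonneg_left hY (norm_nonneg _)
      _ = _ := mul_one _
  · calc ‖X' * (Y - Y')‖ ≤ ‖X'‖ * ‖Y - Y'‖ := norm_mul_le _ _
      _ ≤ 1 * ‖Y - Y'‖ := mul_le_mul_of_nonneg_right hX' (norm_nonneg _)
      _ = _ := one_mul _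

theorem inj_mul_norm_le_one {X Y : A} (hX : ‖X‖ ≤ 1) (hY : ‖Y‖ ≤ 1) : ‖X * Y‖ ≤ 1 :=
  (norm_mul_le _ _).trans (mul_le_one₀ hX (norm_nonneg _) hY)

theorem inj_pow_norm_le (h1 : ‖(1 : A)‖ ≤ 1) {X : A} {c : ℝ} (hc : 0 ≤ c) (hX : ‖X‖ ≤ c) (k : ℕ) :
    ‖X ^ k‖ ≤ c ^ k := by
  induction k with
  | zero => simpa using h1
  | succ k ih =>
    rw [pow_succ, pow_succ]
    exact (norm_mul_le _ _).trans (mul_le_mul ih hX (norm_nonneg _) (pow_nonneg hc k))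

theorem inj_pow_norm_le_one (h1 : ‖(1 : A)‖ ≤ 1) {X : A} (hX : ‖X‖ ≤ 1) (k : ℕ) : ‖X ^ k‖ ≤ 1 := by
  simpa using inj_pow_norm_le h1 zero_le_one hX k

theorem inj_pow_sub_le (h1 : ‖(1 : A)‖ ≤ 1) {X X' : A} (hX : ‖X‖ ≤ 1) (hX' : ‖X'‖ ≤ 1) (k : ℕ) :
    ‖X ^ k - X' ^ k‖ ≤ k * ‖X - X'‖ := by
  induction k with
  | zero => simp
  | succ k ih =>
    rw [pow_succ, pow_succ]
    refine (inj_mul_sub_le (inj_pow_norm_le_one h1 hX' k) hX).trans ?_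
    push_cast
    linarith

theorem inj_pow_sandwich (P Q R : A) (k : ℕ) :
    P ^ (k + 1) * Q * R ^ (k + 1) = P * (P ^ k * Q * R ^ k) * R := by
  rw [pow_succ', pow_succ]
  simp only [mul_assoc]

end ring

/-! ### the route -/

theorem inj_star_mul_sub_le {V V' W W' : H →L[ℂ] H} (hV' : ‖V'‖ ≤ 1) (hW : ‖W‖ ≤ 1) :
    ‖star V * W - star V' * W'‖ ≤ ‖V - V'‖ + ‖W - W'‖ := by
  have h := inj_mul_sub_le (X := star V) (X' := star V') (Y := W) (Y' := W')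
    (by rw [norm_star]; exact hV') hW
  rwa [← star_sub, norm_star] at h

theorem inj_abs_route {V1 V2 V3 : H →L[ℂ] H} {a1 b1 a3 b3 : H} {ρ δ : ℝ} (hρ : 0 ≤ ρ) (hρ1 : ρ ≤ 1)
    (h1 : InjExt V1 a1 b1 ρ δ) (h2 : InjExt V2 a1 b3 ρ δ) (h3 : InjExt V3 a3 b3 ρ δ) (k : ℕ) :
    ‖(star V1 * V1) ^ k * (star V1 * V2) * (star V3 * V3) ^ k - rankOne ℂ b1 b3‖
      ≤ ρ ^ (4 * k + 2) + (4 * k + 2) * (2 * δ) := by
  have hone : ‖(1 : H →L[ℂ] H)‖ ≤ 1 := ContinuousLinearMap.norm_id_le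
  set W1 := rankOne ℂ a1 b1 + injCen V1 a1 b1 with hW1
  set W2 := rankOne ℂ a1 b3 + injCen V2 a1 b3 with hW2
  set W3 := rankOne ℂ a3 b3 + injCen V3 a3 b3 with hW3
  set C1 := injCen V1 a1 b1 with hC1
  set C2 := injCen V2 a1 b3 with hC2
  set C3 := injCen V3 a3 b3 with hC3
  have s1 : InjSplit W1 a1 b1 C1 := h1.split
  have s2 : InjSplit W2 a1 b3 C2 := h2.split
  have s3 : InjSplit W3 a3 b3 C3 := h3.split
  have sA1 : InjSplit (star W1 * W1) b1 b1 (star C1 * C1) := s1.star.mul s1 h1.na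
  have sM : InjSplit (star W1 * W2) b1 b3 (star C1 * C2) := s1.star.mul s2 h1.na
  have sA3 : InjSplit (star W3 * W3) b3 b3 (star C3 * C3) := s3.star.mul s3 h3.na
  have key : ∀ k : ℕ, InjSplit ((star W1 * W1) ^ k * (star W1 * W2) * (star W3 * W3) ^ k) b1 b3
      ((star C1 * C1) ^ k * (star C1 * C2) * (star C3 * C3) ^ k) := by
    intro k
    induction k with
    | zero => simpa using sM
    | succ k ih =>
      rw [inj_pow_sandwich, inj_pow_sandwich]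
      exact (sA1.mul ih h1.nb).mul sA3 h3.nb
  have n1 : ‖C1‖ ≤ ρ := h1.cen_norm_le hρ
  have n2 : ‖C2‖ ≤ ρ := h2.cen_norm_le hρ
  have n3 : ‖C3‖ ≤ ρ := h3.cen_norm_le hρ
  have nn : ∀ {X Y : H →L[ℂ] H}, ‖X‖ ≤ ρ → ‖Y‖ ≤ ρ → ‖star X * Y‖ ≤ ρ ^ 2 := by
    intro X Y hX hY
    refine (norm_mul_le _ _).trans ?_
    rw [norm_star, sq]
    exact mul_le_mul hX hY (norm_nonneg _) hρ
  have hρ2 : 0 ≤ ρ ^ 2 := sq_nonneg ρ
  have part1 : ‖(star W1 * W1) ^ k * (star W1 * W2) * (star W3 * W3) ^ k - rankOne ℂ b1 b3‖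
      ≤ ρ ^ (4 * k + 2) := by
    rw [(key k).eq, add_sub_cancel_left]
    calc ‖(star C1 * C1) ^ k * (star C1 * C2) * (star C3 * C3) ^ k‖
        ≤ ‖(star C1 * C1) ^ k‖ * ‖star C1 * C2‖ * ‖(star C3 * C3) ^ k‖ :=
          (norm_mul_le _ _).trans (mul_le_mul_of_nonneg_right (norm_mul_le _ _) (norm_nonneg _))
      _ ≤ (ρ ^ 2) ^ k * ρ ^ 2 * (ρ ^ 2) ^ k := by
          refine mul_le_mul (mul_le_mul (inj_pow_norm_le hone hρ2 (nn n1 n1) k) (nn n1 n2)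
            (norm_nonneg _) (pow_nonneg hρ2 k)) (inj_pow_norm_le hone hρ2 (nn n3 n3) k)
            (norm_nonneg _) (mul_nonneg (pow_nonneg hρ2 k) hρ2)
      _ = ρ ^ (4 * k + 2) := by ring
  have w1 : ‖W1‖ ≤ 1 := h1.hat_norm_le hρ hρ1
  have w2 : ‖W2‖ ≤ 1 := h2.hat_norm_le hρ hρ1
  have w3 : ‖W3‖ ≤ 1 := h3.hat_norm_le hρ hρ1
  have c1 : ‖V1 - W1‖ ≤ 2 * δ := h1.hat_close
  have c2 : ‖V2 - W2‖ ≤ 2 * δ := h2.hat_close
  have c3 : ‖V3 - W3‖ ≤ 2 * δ := h3.hat_close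
  have sm : ∀ {X Y : H →L[ℂ] H}, ‖X‖ ≤ 1 → ‖Y‖ ≤ 1 → ‖star X * Y‖ ≤ 1 := by
    intro X Y hX hY
    exact inj_mul_norm_le_one (by rw [norm_star]; exact hX) hY
  have d1 : ‖star V1 * V1 - star W1 * W1‖ ≤ 4 * δ := by
    have := inj_star_mul_sub_le (V := V1) (V' := W1) (W := V1) (W' := W1) w1 h1.nV
    linarith
  have d2 : ‖star V1 * V2 - star W1 * W2‖ ≤ 4 * δ := by
    have := inj_star_mul_sub_le (V := V1) (V' := W1) (W := V2) (W' := W2) w1 h2.nV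
    linarith
  have d3 : ‖star V3 * V3 - star W3 * W3‖ ≤ 4 * δ := by
    have := inj_star_mul_sub_le (V := V3) (V' := W3) (W := V3) (W' := W3) w3 h3.nV
    linarith
  have p1 := inj_pow_sub_le hone (sm h1.nV h1.nV) (sm w1 w1) k
  have p3 := inj_pow_sub_le hone (sm h3.nV h3.nV) (sm w3 w3) k
  have hk : (0 : ℝ) ≤ k := Nat.cast_nonneg k
  have part2 : ‖(star V1 * V1) ^ k * (star V1 * V2) * (star V3 * V3) ^ k
      - (star W1 * W1) ^ k * (star W1 * W2) * (star W3 * W3) ^ k‖ ≤ (4 * k + 2) * (2 * δ) := by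
    have e1 := inj_mul_sub_le (X := (star V1 * V1) ^ k * (star V1 * V2))
      (X' := (star W1 * W1) ^ k * (star W1 * W2)) (Y := (star V3 * V3) ^ k)
      (Y' := (star W3 * W3) ^ k)
      (inj_mul_norm_le_one (inj_pow_norm_le_one hone (sm w1 w1) k) (sm w1 w2))
      (inj_pow_norm_le_one hone (sm h3.nV h3.nV) k)
    have e2 := inj_mul_sub_le (X := (star V1 * V1) ^ k) (X' := (star W1 * W1) ^ k)
      (Y := star V1 * V2) (Y' := star W1 * W2) (inj_pow_norm_le_one hone (sm w1 w1) k)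
      (sm h1.nV h2.nV)
    have f1 : (k : ℝ) * ‖star V1 * V1 - star W1 * W1‖ ≤ k * (4 * δ) :=
      mul_le_mul_of_nonneg_left d1 hk
    have f3 : (k : ℝ) * ‖star V3 * V3 - star W3 * W3‖ ≤ k * (4 * δ) :=
      mul_le_mul_of_nonneg_left d3 hk
    linarith
  calc ‖(star V1 * V1) ^ k * (star V1 * V2) * (star V3 * V3) ^ k - rankOne ℂ b1 b3‖
      = ‖((star V1 * V1) ^ k * (star V1 * V2) * (star V3 * V3) ^ k
          - (star W1 * W1) ^ k * (star W1 * W2) * (star W3 * W3) ^ k)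
        + ((star W1 * W1) ^ k * (star W1 * W2) * (star W3 * W3) ^ k - rankOne ℂ b1 b3)‖ := by
        rw [sub_add_sub_cancel]
    _ ≤ (4 * k + 2) * (2 * δ) + ρ ^ (4 * k + 2) := (norm_add_le _ _).trans (add_le_add part2 part1)
    _ = _ := add_comm _ _

/-! ### compression of an exact block -/

theorem inj_eq_of_inner_one {K : Type*} [NormedAddCommGroup K] [InnerProductSpace ℂ K]
    (T : K →L[ℂ] K) (hT : ‖T‖ ≤ 1) {a b : K} (na : ‖a‖ = 1) (nb : ‖b‖ = 1)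
    (h : ⟪a, T b⟫_ℂ = 1) : T b = a := by
  have h1 : ‖T b‖ ≤ 1 := by
    calc ‖T b‖ ≤ ‖T‖ * ‖b‖ := T.le_opNorm b
      _ ≤ 1 * 1 := by rw [nb]; exact mul_le_mul_of_nonneg_right hT zero_le_one
      _ = 1 := one_mul 1
  have h2 : ‖T b - a‖ ^ 2 ≤ 0 := by
    rw [norm_sub_sq (𝕜 := ℂ), na, ← inner_conj_symm, h]
    simp only [map_one, RCLike.one_re]
    nlinarith [norm_nonneg (T b)]
  have h3 : ‖T b - a‖ = 0 := by
    have := sq_nonneg ‖T b - a‖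
    exact pow_eq_zero_iff two_ne_zero |>.1 (le_antisymm h2 this)
  exact sub_eq_zero.1 (norm_eq_zero.1 h3)

theorem inj_compress_close {K : Type*} [NormedAddCommGroup K] [InnerProductSpace ℂ K]
    [CompleteSpace K] (R : K →L[ℂ] H) (hRn : ‖R‖ ≤ 1)
    (hRR : ∀ ξ, R (ContinuousLinearMap.adjoint R ξ) = ξ) (U0 : K →L[ℂ] K) (hU0 : ‖U0‖ ≤ 1)
    {a b : K} {a' b' : H} {α β ε : ℝ} (na : ‖a‖ = 1) (nb : ‖b‖ = 1) (na' : ‖a'‖ = 1) (nb' : ‖b'‖ = 1)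
    (hab : U0 b = a) (hRa : R a = (α : ℂ) • a') (hRb : R b = (β : ℂ) • b') (hα0 : 0 ≤ α)
    (hβ0 : 0 ≤ β) (hα : 1 - ε ≤ α ^ 2) (hβ : 1 - ε ≤ β ^ 2) :
    ‖R (U0 (ContinuousLinearMap.adjoint R b')) - a'‖ ≤ Real.sqrt (2 * ε) + ε := by
  have le1 : ∀ {x : K} {y : H} {c : ℝ}, ‖x‖ = 1 → ‖y‖ = 1 → 0 ≤ c → R x = (c : ℂ) • y → c ≤ 1 := by
    intro x y c hx hy hc h
    have h1 : ‖R x‖ ≤ 1 := by
      calc ‖R x‖ ≤ ‖R‖ * ‖x‖ := R.le_opNorm x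
        _ ≤ 1 * 1 := by rw [hx]; exact mul_le_mul_of_nonneg_right hRn zero_le_one
        _ = 1 := one_mul 1
    rw [h, norm_smul, hy, mul_one, Complex.norm_real, Real.norm_of_nonneg hc] at h1
    exact h1
  have hα1 : α ≤ 1 := le1 na na' hα0 hRa
  have hβ1 : β ≤ 1 := le1 nb nb' hβ0 hRb
  have e1 : ‖ContinuousLinearMap.adjoint R b' - b‖ ^ 2 = 2 - 2 * β := by
    rw [norm_sub_sq (𝕜 := ℂ), nb, ContinuousLinearMap.adjoint_inner_left, hRb, inner_smul_right,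
      inj_inner_self_one nb', mul_one]
    have : ‖ContinuousLinearMap.adjoint R b'‖ ^ 2 = 1 := by
      have h := inner_self_eq_norm_sq_to_K (𝕜 := ℂ) (ContinuousLinearMap.adjoint R b')
      rw [ContinuousLinearMap.adjoint_inner_left, hRR, inj_inner_self_one nb'] at h
      have h2 : ((‖ContinuousLinearMap.adjoint R b'‖ ^ 2 : ℝ) : ℂ) = 1 := by
        rw [h]; push_cast; rfl
      exact_mod_cast h2
    rw [this]
    simp only [RCLike.re_to_complex, Complex.ofReal_re]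
    ring
  have e2 : ‖ContinuousLinearMap.adjoint R b' - b‖ ≤ Real.sqrt (2 * ε) := by
    apply Real.le_sqrt_of_sq_le
    rw [e1]
    nlinarith
  have e3 : ‖R (U0 (ContinuousLinearMap.adjoint R b' - b))‖
      ≤ ‖ContinuousLinearMap.adjoint R b' - b‖ := by
    calc ‖R (U0 (ContinuousLinearMap.adjoint R b' - b))‖
        ≤ ‖R‖ * ‖U0 (ContinuousLinearMap.adjoint R b' - b)‖ := R.le_opNorm _
      _ ≤ 1 * (‖U0‖ * ‖ContinuousLinearMap.adjoint R b' - b‖) :=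
          mul_le_mul hRn (U0.le_opNorm _) (norm_nonneg _) zero_le_one
      _ ≤ 1 * (1 * ‖ContinuousLinearMap.adjoint R b' - b‖) := by
          gcongr
      _ = _ := by ring
  have e4 : ‖R a - a'‖ ≤ ε := by
    have : R a - a' = ((α - 1 : ℝ) : ℂ) • a' := by
      rw [hRa]; push_cast; rw [sub_smul, one_smul]
    rw [this, norm_smul, na', mul_one, Complex.norm_real, Real.norm_eq_abs, abs_of_nonpos (by linarith)]
    nlinarith
  have e5 : R (U0 (ContinuousLinearMap.adjoint R b')) - a'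
      = R (U0 (ContinuousLinearMap.adjoint R b' - b)) + (R a - a') := by
    rw [map_sub, map_sub, hab]; abel
  rw [e5]
  exact (norm_add_le _ _).trans (add_le_add (e3.trans e2) e4)

end abs

end Claimed.Agent.R300
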