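/-
Row 300 / S0553 (INJ paper).  LOWER ASSEMBLY, package LOW-6 (owner helper69), part OLD:
normalised constants of the layers, edge formula for the normalised incidence, and the two facts on the
PRE-DELETION graph `O.X0` (exactly biregular blocks):  `⟨a_i, 𝒰⁰_τ b_k⟩ = 1`  (here) and the centred gap
(`InjExtGap.lean`).  Sorries are replaced IN PLACE by the owner of subtask INJ-LOW-6-OLD.
Everything about the deletion is done abstractly (compression by `scPull Subtype.val`) in `InjExtSub.lean`.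

Proof plans.
* `injCv_apply`, `injCv_norm`: `finsum_eq_sum_of_fintype` (layers are finite: `hX.fin_layer`), `lp.coeFn_sum`,
  `scL2_norm_sq` + `tsum_eq_sum`, or `sc_norm_sq_sum_of_disjoint`.
* `injU_apply_edges`: `(injU_spec X hX hd τ).1.hasSum ξ v`; the kernel `injUK X τ v w` is
  `#{e | src e = v, tgt e = w, ety e = τ} / q`; the set `{e // src e = v ∧ ety e = τ}` is finite (`fold_src`, `fin_lb`);
  sum over the fibres of `tgt`.
* `inj_old_inner`: by the edge formula `(𝒰⁰ b_k)(v) = d_A / (q √n_B)` for `v ∈ 𝒜_i`; so the inner product is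
  `n_A d_A / (q √(n_A n_B))`; double counting of `{e | ety e = τ, ht (src e) = i}` gives `n_A d_A = n_B d_B`
  (`degA`, `degB`, `ht_edge`, `sd_src`, `sd_tgt`), and `q = √(d_A d_B)`.
-/
import Mathlib
import Claimed.Agent.R300.InjCay

set_option autoImplicit false

namespace Claimed.Agent.R300

open scoped ENNReal ComplexConjugate InnerProductSpace

variable {p : Lab.Par}

/-- the normalised constant of the layer `(s,i)` -/
noncomputable def injCv (X : InjGr p) (s : Bool) (i : ℕ) : ScL2 X.V :=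
  ((1 / Real.sqrt (Nat.card {w // X.sd w = s ∧ X.ht w = i}) : ℝ) : ℂ) •
    ∑ᶠ v : {w // X.sd w = s ∧ X.ht w = i}, scDelta v.1

open Classical in
theorem injCv_apply (X : InjGr p) (hX : X.Str) (s : Bool) (i : ℕ) (v : X.V) :
    injCv X s i v = if X.sd v = s ∧ X.ht v = i then
      ((1 / Real.sqrt (Nat.card {w // X.sd w = s ∧ X.ht w = i}) : ℝ) : ℂ) else 0 := by
  have := hX.fin_layer s i
  have := Fintype.ofFinite {w // X.sd w = s ∧ X.ht w = i}
  unfold injCv
  rw [finsum_eq_sum_of_fintype, lp.coeFn_smul, Pi.smul_apply, lp.coeFn_sum, Finset.sum_apply,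
    smul_eq_mul]
  split_ifs with hv
  · rw [Finset.sum_eq_single (⟨v, hv⟩ : {w // X.sd w = s ∧ X.ht w = i})]
    · simp
    · intro w _ hw
      exact scDelta_ne fun h => hw (Subtype.ext h.symm)
    · intro h
      exact absurd (Finset.mem_univ _) h
  · rw [Finset.sum_eq_zero, mul_zero]
    intro w _
    exact scDelta_ne fun h => hv (h ▸ w.2)

theorem injCv_norm (X : InjGr p) (hX : X.Str) (s : Bool) (i : ℕ)
    (hne : Nonempty {w // X.sd w = s ∧ X.ht w = i}) : ‖injCv X s i‖ = 1 := by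
  classical
  have := hX.fin_layer s i
  have := Fintype.ofFinite {w // X.sd w = s ∧ X.ht w = i}
  have hn : (0 : ℝ) < Nat.card {w // X.sd w = s ∧ X.ht w = i} := by
    exact_mod_cast Nat.card_pos
  have h1 : ‖∑ v : {w // X.sd w = s ∧ X.ht w = i}, scDelta v.1‖ ^ 2
      = Nat.card {w // X.sd w = s ∧ X.ht w = i} := by
    rw [sc_norm_sq_sum_of_disjoint]
    · simp [Nat.card_eq_fintype_card]
    · intro v _ w _ hvw x
      by_cases hx : x = v.1
      · right
        exact scDelta_ne fun h => hvw (Subtype.ext (hx.symm.trans h))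
      · left
        exact scDelta_ne hx
  have h2 : ‖∑ v : {w // X.sd w = s ∧ X.ht w = i}, scDelta v.1‖
      = Real.sqrt (Nat.card {w // X.sd w = s ∧ X.ht w = i}) := by
    rw [← h1, Real.sqrt_sq (norm_nonneg _)]
  unfold injCv
  rw [finsum_eq_sum_of_fintype, norm_smul, h2, Complex.norm_real, Real.norm_eq_abs,
    abs_of_nonneg (by positivity)]
  exact one_div_mul_cancel (Real.sqrt_pos.2 hn).ne'

/-- inner product with a normalised constant -/
theorem injCv_inner (X : InjGr p) (hX : X.Str) (s : Bool) (i : ℕ) (ξ : ScL2 X.V) :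
    ⟪injCv X s i, ξ⟫_ℂ = ((1 / Real.sqrt (Nat.card {w // X.sd w = s ∧ X.ht w = i}) : ℝ) : ℂ) *
      ∑ᶠ v : {w // X.sd w = s ∧ X.ht w = i}, ξ v.1 := by
  have := hX.fin_layer s i
  have := Fintype.ofFinite {w // X.sd w = s ∧ X.ht w = i}
  unfold injCv
  rw [finsum_eq_sum_of_fintype, finsum_eq_sum_of_fintype, inner_smul_left, sum_inner,
    Complex.conj_ofReal]
  simp only [sc_inner_delta_left]

theorem InjGr.qq_pos (p : Lab.Par) (τ : Fin p.T) : 0 < InjGr.qq p τ := injQq_pos p τ

/-- **edge formula** for the normalised incidence -/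
theorem injU_apply_edges (X : InjGr p) (hX : X.Str) (hd : X.DegLe) (τ : Fin p.T) (ξ : ScL2 X.V)
    (v : X.V) :
    injU X τ ξ v
      = (∑ᶠ e : {e // X.src e = v ∧ X.ety e = τ}, ξ (X.tgt e.1)) / (InjGr.qq p τ : ℂ) := by
  classical
  have := injFinite_src X hX τ v
  have := Fintype.ofFinite {e // X.src e = v ∧ X.ety e = τ}
  have h1 := (injU_spec X hX hd τ).1.hasSum ξ v
  refine h1.unique ?_
  rw [finsum_eq_sum_of_fintype]
  have hcard : ∀ w, Nat.card {e // X.src e = v ∧ X.tgt e = w ∧ X.ety e = τ}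
      = (Finset.univ.filter fun e : {e // X.src e = v ∧ X.ety e = τ} => X.tgt e.1 = w).card := by
    intro w
    rw [← Fintype.card_subtype, ← Nat.card_eq_fintype_card]
    refine Nat.card_congr
      { toFun := fun e => ⟨⟨e.1, e.2.1, e.2.2.2⟩, e.2.2.1⟩
        invFun := fun e => ⟨e.1.1, e.1.2.1, e.2, e.1.2.2⟩
        left_inv := fun _ => rfl
        right_inv := fun _ => rfl }
  have h2 := Finset.sum_comp (s := (Finset.univ : Finset {e // X.src e = v ∧ X.ety e = τ}))
    (fun w => ξ w) (fun e => X.tgt e.1)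
  rw [h2, Finset.sum_div]
  have h3 : HasSum (fun w => injUK X τ v w * ξ w)
      (∑ w ∈ Finset.univ.image (fun e : {e // X.src e = v ∧ X.ety e = τ} => X.tgt e.1),
        injUK X τ v w * ξ w) := by
    refine hasSum_sum_of_ne_finset_zero fun w hw => ?_
    have : (Finset.univ.filter fun e : {e // X.src e = v ∧ X.ety e = τ} => X.tgt e.1 = w) = ∅ := by
      rw [Finset.filter_eq_empty_iff]
      intro e _ he
      exact hw (Finset.mem_image.2 ⟨e, Finset.mem_univ _, he⟩)
    rw [injUK, hcard, this]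
    simp
  convert h3 using 1
  refine Finset.sum_congr rfl fun w _ => ?_
  rw [injUK, hcard, nsmul_eq_mul]
  ring

theorem InjOld.X0_degLe (O : InjOld p) {ε ρ : ℝ} (hE : O.Exp ε ρ) : O.X0.DegLe := by
  have hX := hE.str
  constructor
  · intro τ a
    by_cases h : O.X0.sd a = false ∧ 0 ≤ (O.X0.ht a : ℤ) + injOff (p.off τ)
    · exact le_of_eq (hE.degA τ a h.1 h.2)
    · have : IsEmpty {e // O.X0.src e = a ∧ O.X0.ety e = τ} := by
        refine ⟨fun e => h ⟨?_, ?_⟩⟩
        · rw [← e.2.1]; exact hX.sd_src e.1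
        · have := hX.ht_edge e.1
          rw [e.2.1, e.2.2] at this
          omega
      rw [Nat.card_of_isEmpty]
      exact Nat.zero_le _
  · intro τ b
    by_cases h : O.X0.sd b = true ∧ 0 ≤ (O.X0.ht b : ℤ) - injOff (p.off τ)
    · exact le_of_eq (hE.degB τ b h.1 h.2)
    · have : IsEmpty {e // O.X0.tgt e = b ∧ O.X0.ety e = τ} := by
        refine ⟨fun e => h ⟨?_, ?_⟩⟩
        · rw [← e.2.1]; exact hX.sd_tgt e.1
        · have := hX.ht_edge e.1
          rw [e.2.1, e.2.2] at this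
          omega
      rw [Nat.card_of_isEmpty]
      exact Nat.zero_le _

/-- double counting of the edges of a complete block -/
theorem inj_old_count (O : InjOld p) {ε ρ : ℝ} (hE : O.Exp ε ρ) (τ : Fin p.T) (i k : ℕ)
    (hk : (k : ℤ) = i + injOff (p.off τ)) :
    Nat.card {v // O.X0.sd v = false ∧ O.X0.ht v = i} * InjGr.dA p τ
      = Nat.card {v // O.X0.sd v = true ∧ O.X0.ht v = k} * InjGr.dB p τ := by
  have hX := hE.str
  have := hX.fin_layer false i
  have := hX.fin_layer true k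
  have := Fintype.ofFinite {v // O.X0.sd v = false ∧ O.X0.ht v = i}
  have := Fintype.ofFinite {v // O.X0.sd v = true ∧ O.X0.ht v = k}
  have := fun v => injFinite_src O.X0 hX τ v
  have := fun v => injFinite_tgt O.X0 hX τ v
  let e1 : (Σ v : {v // O.X0.sd v = false ∧ O.X0.ht v = i},
      {e // O.X0.src e = v.1 ∧ O.X0.ety e = τ}) ≃ {e // O.X0.ety e = τ ∧ O.X0.ht (O.X0.src e) = i} :=
    { toFun := fun x => ⟨x.2.1, x.2.2.2, by rw [x.2.2.1]; exact x.1.2.2⟩
      invFun := fun e => ⟨⟨O.X0.src e.1, hX.sd_src _, e.2.2⟩, ⟨e.1, rfl, e.2.1⟩⟩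
      left_inv := by
        rintro ⟨⟨v, hv⟩, ⟨e, h1, he⟩⟩
        have h1' : O.X0.src e = v := h1
        subst h1'
        rfl
      right_inv := fun e => rfl }
  let e2 : (Σ v : {v // O.X0.sd v = true ∧ O.X0.ht v = k},
      {e // O.X0.tgt e = v.1 ∧ O.X0.ety e = τ}) ≃ {e // O.X0.ety e = τ ∧ O.X0.ht (O.X0.src e) = i} :=
    { toFun := fun x => ⟨x.2.1, x.2.2.2, by
        have h1 := hX.ht_edge x.2.1
        rw [x.2.2.1, x.2.2.2, x.1.2.2] at h1
        omega⟩
      invFun := fun e => ⟨⟨O.X0.tgt e.1, hX.sd_tgt _, by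
        have h1 := hX.ht_edge e.1
        rw [e.2.1, e.2.2] at h1
        omega⟩, ⟨e.1, rfl, e.2.1⟩⟩
      left_inv := by
        rintro ⟨⟨v, hv⟩, ⟨e, h1, he⟩⟩
        have h1' : O.X0.tgt e = v := h1
        subst h1'
        rfl
      right_inv := fun e => rfl }
  have c1 := Nat.card_congr e1
  have c2 := Nat.card_congr e2
  rw [Nat.card_sigma] at c1 c2
  rw [Finset.sum_congr rfl fun v _ => hE.degA τ v.1 v.2.1 (by rw [v.2.2]; omega)] at c1
  rw [Finset.sum_congr rfl fun v _ => hE.degB τ v.1 v.2.1 (by rw [v.2.2]; omega)] at c2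
  rw [Finset.sum_const, Finset.card_univ, smul_eq_mul, ← Nat.card_eq_fintype_card] at c1 c2
  rw [c1, c2]

/-- the complete blocks map normalised constants to normalised constants -/
theorem inj_old_inner (O : InjOld p) {ε ρ : ℝ} (hE : O.Exp ε ρ) (τ : Fin p.T) (i k : ℕ)
    (hk : (k : ℤ) = i + injOff (p.off τ)) :
    ⟪injCv O.X0 false i, injU O.X0 τ (injCv O.X0 true k)⟫_ℂ = 1 := by
  classical
  have hX := hE.str
  have hd := O.X0_degLe hE
  have := hX.fin_layer false i
  have := Fintype.ofFinite {v // O.X0.sd v = false ∧ O.X0.ht v = i}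
  set nA := Nat.card {v // O.X0.sd v = false ∧ O.X0.ht v = i} with hnA
  set nB := Nat.card {v // O.X0.sd v = true ∧ O.X0.ht v = k} with hnB
  have hcount : (nA : ℝ) * InjGr.dA p τ = nB * InjGr.dB p τ := by
    exact_mod_cast inj_old_count O hE τ i k hk
  have hA0 : (0 : ℝ) < nA := by
    rw [hnA, hE.cardA i]; positivity
  have hB0 : (0 : ℝ) < nB := by
    rw [hnB, hE.cardB k]; positivity
  have hq := injQq_pos p τ
  have hqq := injQq_sq p τ
  -- the values of `𝒰 b_k` on the layer `𝒜_i`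
  have hval : ∀ v : {v // O.X0.sd v = false ∧ O.X0.ht v = i},
      injU O.X0 τ (injCv O.X0 true k) v.1
        = ((InjGr.dA p τ * (1 / Real.sqrt nB) / InjGr.qq p τ : ℝ) : ℂ) := by
    intro v
    have := injFinite_src O.X0 hX τ v.1
    have := Fintype.ofFinite {e // O.X0.src e = v.1 ∧ O.X0.ety e = τ}
    rw [injU_apply_edges O.X0 hX hd, finsum_eq_sum_of_fintype]
    have h1 : ∀ e : {e // O.X0.src e = v.1 ∧ O.X0.ety e = τ},
        injCv O.X0 true k (O.X0.tgt e.1) = ((1 / Real.sqrt nB : ℝ) : ℂ) := by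
      intro e
      rw [injCv_apply O.X0 hX, if_pos]
      refine ⟨hX.sd_tgt _, ?_⟩
      have h2 := hX.ht_edge e.1
      rw [e.2.1, e.2.2, v.2.2] at h2
      omega
    simp only [h1]
    rw [Finset.sum_const, Finset.card_univ, ← Nat.card_eq_fintype_card,
      hE.degA τ v.1 v.2.1 (by rw [v.2.2]; omega), nsmul_eq_mul]
    push_cast
    ring
  rw [injCv_inner O.X0 hX, finsum_eq_sum_of_fintype]
  simp only [hval]
  rw [Finset.sum_const, Finset.card_univ, ← Nat.card_eq_fintype_card, ← hnA, nsmul_eq_mul]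
  have hkey : Real.sqrt nA * InjGr.dA p τ = Real.sqrt nB * InjGr.qq p τ := by
    have h1 : (Real.sqrt nA * InjGr.dA p τ) ^ 2 = (Real.sqrt nB * InjGr.qq p τ) ^ 2 := by
      rw [mul_pow, mul_pow, Real.sq_sqrt hA0.le, Real.sq_sqrt hB0.le, sq (InjGr.qq p τ), hqq]
      calc (nA : ℝ) * (InjGr.dA p τ : ℝ) ^ 2 = (nA * InjGr.dA p τ) * InjGr.dA p τ := by ring
        _ = _ := by rw [hcount]; ring
    exact (sq_eq_sq₀ (by positivity) (by positivity)).1 h1
  have hreal : 1 / Real.sqrt nA * ((nA : ℝ) *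
      (InjGr.dA p τ * (1 / Real.sqrt nB) / InjGr.qq p τ)) = 1 := by
    have hsA : 0 < Real.sqrt nA := Real.sqrt_pos.2 hA0
    have hsB : 0 < Real.sqrt nB := Real.sqrt_pos.2 hB0
    have e1 : (nA : ℝ) = Real.sqrt nA * Real.sqrt nA := (Real.mul_self_sqrt hA0.le).symm
    calc 1 / Real.sqrt nA * ((nA : ℝ) * (InjGr.dA p τ * (1 / Real.sqrt nB) / InjGr.qq p τ))
        = (nA : ℝ) / Real.sqrt nA * InjGr.dA p τ / (Real.sqrt nB * InjGr.qq p τ) := by
          field_simp
      _ = Real.sqrt nA * InjGr.dA p τ / (Real.sqrt nB * InjGr.qq p τ) := by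
          congr 2
          rw [div_eq_iff hsA.ne']
          exact e1
      _ = 1 := by rw [hkey]; exact div_self (by positivity)
  exact_mod_cast hreal

end Claimed.Agent.R300
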