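/-
Row 300 / S0553 (INJ paper).  LOWER ASSEMBLY, package LOW-6 (owner helper69), part GAP:
the centred gap of the complete blocks of the pre-deletion graph, complex `ℓ²` form.
The sorry is replaced IN PLACE by the owner of subtask INJ-LOW-6-GAP.

Proof plan.  By the edge formula `injU_apply_edges` (black box from `InjExtOld.lean`)
`(𝒰⁰ ξ)(a) = q⁻¹ ∑_{e : src e = a, ety e = τ} ξ (tgt e)`; only the values of `ξ` on `ℬ_k` matter (`sd_tgt`, `hsupp`).
Apply `hE.gap τ k` to `f = re (ξ 1_(ℬ_k))` and `f = im (ξ 1_(ℬ_k))` (`∑ᶠ f = 0` from `horth` and `injCv_inner`;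
the layer is nonempty by `hE.cardB`), add the two inequalities, `q² = d_A d_B`;
`‖𝒰⁰ ξ‖² = ∑' a, ‖(𝒰⁰ ξ) a‖²` (`scL2_norm_sq`), the function `a ↦ (𝒰⁰ ξ) a` has finite support (inside one layer of `𝒜`:
`ht_edge`, `fin_layer`), so `∑'` = `∑ᶠ` (`tsum_eq_finsum`); `∑ᶠ v, f v ^ 2 ≤ ‖ξ‖²`.
-/
import Mathlib
import Claimed.Agent.R300.InjExtOld

set_option autoImplicit false

namespace Claimed.Agent.R300

open scoped ENNReal ComplexConjugate InnerProductSpace

variable {p : Lab.Par}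

/-- the gap of the complete blocks for real functions, `tsum` form -/
theorem inj_old_gap_real (O : InjOld p) {ε ρ : ℝ} (hE : O.Exp ε ρ) (τ : Fin p.T) (k : ℕ)
    (f : O.X0.V → ℝ) (hf : ∀ v, f v ≠ 0 → O.X0.sd v = true ∧ O.X0.ht v = k)
    (h0 : ∑ᶠ v, f v = 0) :
    Summable (fun a => (∑ᶠ e : {e // O.X0.src e = a ∧ O.X0.ety e = τ}, f (O.X0.tgt e.1)) ^ 2) ∧
    Summable (fun v => f v ^ 2) ∧
    ∑' a, (∑ᶠ e : {e // O.X0.src e = a ∧ O.X0.ety e = τ}, f (O.X0.tgt e.1)) ^ 2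
      ≤ ρ ^ 2 * (InjGr.dA p τ * InjGr.dB p τ) * ∑' v, f v ^ 2 := by
  have hX := hE.str
  have hfinB : {v | O.X0.sd v = true ∧ O.X0.ht v = k}.Finite :=
    Set.finite_coe_iff.1 (hX.fin_layer true k)
  have hfinA : {v | O.X0.sd v = false ∧
      O.X0.ht v = ((k : ℤ) - injOff (p.off τ)).toNat}.Finite :=
    Set.finite_coe_iff.1 (hX.fin_layer false _)
  have hs2 : Function.HasFiniteSupport (fun v => f v ^ 2) := by
    refine hfinB.subset fun v hv => hf v fun h => hv ?_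
    simp [h]
  have hs1 : Function.HasFiniteSupport
      (fun a => (∑ᶠ e : {e // O.X0.src e = a ∧ O.X0.ety e = τ}, f (O.X0.tgt e.1)) ^ 2) := by
    refine hfinA.subset fun a ha => ?_
    by_contra hcon
    refine ha ?_
    have : ∀ e : {e // O.X0.src e = a ∧ O.X0.ety e = τ}, f (O.X0.tgt e.1) = 0 := by
      intro e
      by_contra hne
      refine hcon ⟨?_, ?_⟩
      · rw [← e.2.1]; exact hX.sd_src e.1
      · have h1 := hX.ht_edge e.1
        rw [e.2.1, e.2.2, (hf _ hne).2] at h1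
        omega
    show (∑ᶠ e : {e // O.X0.src e = a ∧ O.X0.ety e = τ}, f (O.X0.tgt e.1)) ^ 2 = 0
    rw [finsum_eq_zero_of_forall_eq_zero this]
    simp
  refine ⟨summable_of_hasFiniteSupport hs1, summable_of_hasFiniteSupport hs2, ?_⟩
  rw [tsum_eq_finsum hs1, tsum_eq_finsum hs2]
  exact hE.gap τ k f hf h0

/-- the centred gap of the complete blocks, complex form -/
theorem inj_old_gap (O : InjOld p) {ε ρ : ℝ} (hρ0 : 0 ≤ ρ) (hE : O.Exp ε ρ) (τ : Fin p.T) (k : ℕ)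
    (ξ : ScL2 O.X0.V) (hsupp : ∀ v, ξ v ≠ 0 → O.X0.ht v = k)
    (horth : ⟪injCv O.X0 true k, ξ⟫_ℂ = 0) : ‖injU O.X0 τ ξ‖ ≤ ρ * ‖ξ‖ := by
  classical
  have hX := hE.str
  have hd := O.X0_degLe hE
  have hq := injQq_pos p τ
  have hqq := injQq_sq p τ
  set g : O.X0.V → ℂ := fun v => if O.X0.sd v = true then ξ v else 0 with hg
  have hgs : ∀ v, g v ≠ 0 → O.X0.sd v = true ∧ O.X0.ht v = k := by
    intro v hv
    by_cases hsd : O.X0.sd v = true
    · refine ⟨hsd, hsupp v ?_⟩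
      simpa [hg, hsd] using hv
    · exact absurd (by simp [hg, hsd]) hv
  have hfinB : {v | O.X0.sd v = true ∧ O.X0.ht v = k}.Finite :=
    Set.finite_coe_iff.1 (hX.fin_layer true k)
  -- the sum of `ξ` over the layer vanishes
  have hsum : ∑ v ∈ hfinB.toFinset, g v = 0 := by
    rw [injCv_inner O.X0 hX] at horth
    have hc : ((1 / Real.sqrt (Nat.card {w // O.X0.sd w = true ∧ O.X0.ht w = k}) : ℝ) : ℂ) ≠ 0 := by
      rw [hE.cardB k]
      have : (0 : ℝ) < 1 / Real.sqrt ((2 ^ p.H k : ℕ) : ℝ) := by positivity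
      exact_mod_cast this.ne'
    have h1 := (mul_eq_zero.1 horth).resolve_left hc
    rw [inj_finsum_fibre (P := fun w => O.X0.sd w = true ∧ O.X0.ht w = k) (s := hfinB.toFinset)
      (fun v => ξ v) (fun y hy => by simpa using hy) (fun y hy hn => absurd (by simpa using hy) hn)]
      at h1
    rw [← h1]
    refine Finset.sum_congr rfl fun v hv => ?_
    have : O.X0.sd v = true := ((Set.Finite.mem_toFinset hfinB).1 hv).1
    simp [hg, this]
  have hmean : ∀ (L : ℂ → ℝ), L 0 = 0 → (∑ v ∈ hfinB.toFinset, L (g v) = 0) →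
      ∑ᶠ v, L (g v) = 0 := by
    intro L hL0 hL
    rw [finsum_eq_sum_of_support_subset (s := hfinB.toFinset) _ ?_]
    · exact hL
    · intro v hv
      rw [Finset.mem_coe, Set.Finite.mem_toFinset]
      refine hgs v fun h => hv ?_
      show L (g v) = 0
      rw [h, hL0]
  have hre := inj_old_gap_real O hE τ k (fun v => (g v).re)
    (fun v hv => hgs v fun h => hv (by show (g v).re = 0; rw [h]; rfl))
    (hmean Complex.re rfl (by rw [← Complex.re_sum, hsum]; rfl))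
  have him := inj_old_gap_real O hE τ k (fun v => (g v).im)
    (fun v hv => hgs v fun h => hv (by show (g v).im = 0; rw [h]; rfl))
    (hmean Complex.im rfl (by rw [← Complex.im_sum, hsum]; rfl))
  obtain ⟨sr1, sr2, hr⟩ := hre
  obtain ⟨si1, si2, hi⟩ := him
  -- pointwise formula
  have hpt : ∀ a, ‖injU O.X0 τ ξ a‖ ^ 2
      = ((∑ᶠ e : {e // O.X0.src e = a ∧ O.X0.ety e = τ}, (g (O.X0.tgt e.1)).re) ^ 2
        + (∑ᶠ e : {e // O.X0.src e = a ∧ O.X0.ety e = τ}, (g (O.X0.tgt e.1)).im) ^ 2)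
          / (InjGr.dA p τ * InjGr.dB p τ) := by
    intro a
    have := injFinite_src O.X0 hX τ a
    have := Fintype.ofFinite {e // O.X0.src e = a ∧ O.X0.ety e = τ}
    rw [injU_apply_edges O.X0 hX hd, finsum_eq_sum_of_fintype, finsum_eq_sum_of_fintype,
      finsum_eq_sum_of_fintype, norm_div, div_pow, Complex.norm_real, Real.norm_eq_abs, sq_abs,
      sq (InjGr.qq p τ), hqq, Complex.sq_norm, Complex.normSq_apply, Complex.re_sum, Complex.im_sum]
    have e1 : ∀ e : {e // O.X0.src e = a ∧ O.X0.ety e = τ}, ξ (O.X0.tgt e.1) = g (O.X0.tgt e.1) := by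
      intro e
      simp [hg, hX.sd_tgt e.1]
    simp only [e1]
    ring
  have hD : (0 : ℝ) < InjGr.dA p τ * InjGr.dB p τ := by
    rw [← hqq]; positivity
  have hgle : ∑' v, ((g v).re ^ 2 + (g v).im ^ 2) ≤ ‖ξ‖ ^ 2 := by
    rw [scL2_norm_sq]
    refine Summable.tsum_le_tsum (fun v => ?_) (sr2.add si2) (scL2_summable_sq ξ)
    have : (g v).re ^ 2 + (g v).im ^ 2 = ‖g v‖ ^ 2 := by
      rw [Complex.sq_norm, Complex.normSq_apply]; ring
    rw [this]
    by_cases hsd : O.X0.sd v = true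
    · simp [hg, hsd]
    · simp [hg, hsd]
  refine le_of_sq_le_sq ?_ (by positivity)
  rw [mul_pow, scL2_norm_sq]
  simp only [hpt]
  rw [tsum_div_const, (sr1.tsum_add si1), div_le_iff₀ hD]
  calc _ ≤ ρ ^ 2 * (InjGr.dA p τ * InjGr.dB p τ) * ∑' v, (g v).re ^ 2
        + ρ ^ 2 * (InjGr.dA p τ * InjGr.dB p τ) * ∑' v, (g v).im ^ 2 := add_le_add hr hi
    _ = ρ ^ 2 * (InjGr.dA p τ * InjGr.dB p τ) * ∑' v, ((g v).re ^ 2 + (g v).im ^ 2) := by
        rw [sr2.tsum_add si2]; ring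
    _ ≤ ρ ^ 2 * (InjGr.dA p τ * InjGr.dB p τ) * ‖ξ‖ ^ 2 :=
        mul_le_mul_of_nonneg_left hgle (by positivity)
    _ = ρ ^ 2 * ‖ξ‖ ^ 2 * (InjGr.dA p τ * InjGr.dB p τ) := by ring

end Claimed.Agent.R300
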