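import Mathlib

/-!
# Row 300, KK Section 10: abstract Hilbert space lemmas (owner: helper236, prefix `spec`)

* `spec_isUnit_of_bddBelow` : selfadjoint and bounded below implies invertible.
* `spec_gap` : form bounds on a closed subspace and on its orthogonal complement give a spectral gap.
* `spec_upper`, `spec_lower` : form bounds give spectral bounds.
* `specProj`, `specRes` : band projection and its partial inverse through the real functional calculus.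
-/

namespace Claimed.Agent.R300

open scoped InnerProductSpace ComplexOrder

variable {H : Type*} [NormedAddCommGroup H] [InnerProductSpace ℂ H] [CompleteSpace H]

/-- A selfadjoint operator which is bounded below is invertible. -/
theorem spec_isUnit_of_bddBelow {A : H →L[ℂ] H} (hA : IsSelfAdjoint A) {c : ℝ} (hc : 0 < c)
    (h : ∀ x, c * ‖x‖ ≤ ‖A x‖) : IsUnit A := by
  rw [ContinuousLinearMap.isUnit_iff_bijective]
  have hinj : Function.Injective A := by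
    rw [injective_iff_map_eq_zero]
    intro x hx
    have h1 := h x
    rw [hx, norm_zero] at h1
    have : ‖x‖ ≤ 0 := by
      by_contra hcon
      have := mul_pos hc (not_le.mp hcon)
      linarith
    exact norm_le_zero_iff.mp this
  refine ⟨hinj, ?_⟩
  have hanti : AntilipschitzWith (Real.toNNReal c⁻¹) A := by
    refine AddMonoidHomClass.antilipschitz_of_bound A ?_
    intro x
    rw [Real.coe_toNNReal _ (inv_nonneg.mpr hc.le)]
    rw [inv_mul_eq_div, le_div_iff₀ hc, mul_comm]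
    exact h x
  have hclosed : IsClosed (Set.range A) := hanti.isClosed_range A.uniformContinuous
  have hker : ((A : H →ₗ[ℂ] H).range)ᗮ = ⊥ := by
    rw [ContinuousLinearMap.orthogonal_range, ContinuousLinearMap.isSelfAdjoint_iff'.mp hA]
    exact LinearMap.ker_eq_bot.mpr hinj
  have hcl : IsClosed (((A : H →ₗ[ℂ] H).range : Submodule ℂ H) : Set H) := by
    have he : (((A : H →ₗ[ℂ] H).range : Submodule ℂ H) : Set H) = Set.range A := by
      ext y; simp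
    rw [he]; exact hclosed
  have htop : (A : H →ₗ[ℂ] H).range = ⊤ := by
    have := hcl.completeSpace_coe
    have h2 : ((A : H →ₗ[ℂ] H).range)ᗮᗮ = (A : H →ₗ[ℂ] H).range :=
      Submodule.orthogonal_orthogonal _
    rw [← h2, hker, Submodule.bot_orthogonal_eq_top]
  intro y
  have : y ∈ (A : H →ₗ[ℂ] H).range := by rw [htop]; trivial
  obtain ⟨x, hx⟩ := this
  exact ⟨x, hx⟩

/-- real scalars minus a selfadjoint operator: not in the spectrum as soon as bounded below. -/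
theorem spec_not_mem_spectrum {A : H →L[ℂ] H} (hA : IsSelfAdjoint A) {z c : ℝ} (hc : 0 < c)
    (h : ∀ x, c * ‖x‖ ≤ ‖(z : ℂ) • x - A x‖) : z ∉ spectrum ℝ A := by
  rw [spectrum.mem_iff, not_not]
  have hsa : IsSelfAdjoint (algebraMap ℝ (H →L[ℂ] H) z - A) :=
    (IsSelfAdjoint.algebraMap _ (IsSelfAdjoint.all z)).sub hA
  refine spec_isUnit_of_bddBelow hsa hc ?_
  intro x
  have : (algebraMap ℝ (H →L[ℂ] H) z - A) x = (z : ℂ) • x - A x := by
    simp [Algebra.algebraMap_eq_smul_one]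
  rw [this]
  exact h x

/-- The sign flip estimate behind the gap lemma. -/
theorem spec_gap_aux {A : H →L[ℂ] H} (hA : IsSelfAdjoint A) {c₀ c₁ z : ℝ} {y₁ y₂ : H}
    (horth : ⟪y₁, y₂⟫_ℂ = 0)
    (h1 : c₁ * ‖y₁‖ ^ 2 ≤ (⟪A y₁, y₁⟫_ℂ).re) (h0 : (⟪A y₂, y₂⟫_ℂ).re ≤ c₀ * ‖y₂‖ ^ 2) :
    (c₁ - z) * ‖y₁‖ ^ 2 + (z - c₀) * ‖y₂‖ ^ 2
      ≤ ‖(z : ℂ) • (y₁ + y₂) - A (y₁ + y₂)‖ * ‖y₁ + y₂‖ := by
  have hsym := ContinuousLinearMap.isSelfAdjoint_iff_isSymmetric.mp hA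
  have horth' : ⟪y₂, y₁⟫_ℂ = 0 := by rw [← inner_conj_symm, horth]; simp
  have hcross : (⟪A y₂, y₁⟫_ℂ).re = (⟪A y₁, y₂⟫_ℂ).re := by
    have : ⟪A y₂, y₁⟫_ℂ = ⟪y₂, A y₁⟫_ℂ := hsym y₂ y₁
    rw [this, ← inner_conj_symm (𝕜 := ℂ) y₂ (A y₁)]
    exact Complex.conj_re _
  have hn1 : (⟪y₁, y₁⟫_ℂ).re = ‖y₁‖ ^ 2 := by
    have := inner_self_eq_norm_sq (𝕜 := ℂ) y₁
    simpa using this
  have hn2 : (⟪y₂, y₂⟫_ℂ).re = ‖y₂‖ ^ 2 := by
    have := inner_self_eq_norm_sq (𝕜 := ℂ) y₂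
    simpa using this
  have hnorm : ‖y₂ - y₁‖ = ‖y₁ + y₂‖ := by
    have e1 : ‖y₂ - y₁‖ ^ 2 = ‖y₁ + y₂‖ ^ 2 := by
      rw [@norm_sub_sq ℂ, @norm_add_sq ℂ, horth, horth']
      simp; ring
    exact (sq_eq_sq₀ (norm_nonneg _) (norm_nonneg _)).mp e1
  have hcalc : (⟪(z : ℂ) • (y₁ + y₂) - A (y₁ + y₂), y₂ - y₁⟫_ℂ).re
      = z * (‖y₂‖ ^ 2 - ‖y₁‖ ^ 2) - (⟪A y₂, y₂⟫_ℂ).re + (⟪A y₁, y₁⟫_ℂ).re := by
    simp only [map_add, inner_sub_left, inner_sub_right, inner_add_left, inner_smul_left,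
      Complex.sub_re, Complex.add_re, Complex.mul_re, Complex.conj_re, Complex.conj_im,
      Complex.ofReal_re, Complex.ofReal_im, horth, horth', hn1, hn2, hcross]
    simp
    ring
  have hCS : (⟪(z : ℂ) • (y₁ + y₂) - A (y₁ + y₂), y₂ - y₁⟫_ℂ).re
      ≤ ‖(z : ℂ) • (y₁ + y₂) - A (y₁ + y₂)‖ * ‖y₂ - y₁‖ :=
    (Complex.re_le_norm _).trans (norm_inner_le_norm _ _)
  rw [hnorm, hcalc] at hCS
  nlinarith [hCS, h1, h0]

/-- **Gap lemma.**  If the form of a selfadjoint `A` is `≥ c₁` on a closed subspace `M` and `≤ c₀`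
on its orthogonal complement then the open interval `(c₀, c₁)` does not meet the spectrum. -/
theorem spec_gap {A : H →L[ℂ] H} (hA : IsSelfAdjoint A) (M : Submodule ℂ H)
    [M.HasOrthogonalProjection] {c₀ c₁ : ℝ}
    (h1 : ∀ y ∈ M, c₁ * ‖y‖ ^ 2 ≤ (⟪A y, y⟫_ℂ).re)
    (h0 : ∀ y ∈ Mᗮ, (⟪A y, y⟫_ℂ).re ≤ c₀ * ‖y‖ ^ 2)
    {z : ℝ} (hz0 : c₀ < z) (hz1 : z < c₁) : z ∉ spectrum ℝ A := by
  have hc : 0 < min (c₁ - z) (z - c₀) := lt_min (by linarith) (by linarith)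
  refine spec_not_mem_spectrum hA hc ?_
  intro y
  set y₁ : H := M.starProjection y with hy1
  set y₂ : H := y - y₁ with hy2
  have hm1 : y₁ ∈ M := Submodule.starProjection_apply_mem M y
  have hm2 : y₂ ∈ Mᗮ := Submodule.sub_starProjection_mem_orthogonal y
  have horth : ⟪y₁, y₂⟫_ℂ = 0 := Submodule.inner_right_of_mem_orthogonal hm1 hm2
  have hsum : y₁ + y₂ = y := by simp [hy2]
  have haux := spec_gap_aux hA (z := z) horth (h1 y₁ hm1) (h0 y₂ hm2)
  rw [hsum] at haux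
  have hpyth : ‖y‖ ^ 2 = ‖y₁‖ ^ 2 + ‖y₂‖ ^ 2 := by
    rw [← hsum, @norm_add_sq ℂ, horth]; simp
  have hlow : min (c₁ - z) (z - c₀) * ‖y‖ ^ 2 ≤ ‖(z : ℂ) • y - A y‖ * ‖y‖ := by
    refine le_trans ?_ haux
    rw [hpyth, mul_add]
    exact add_le_add (mul_le_mul_of_nonneg_right (min_le_left _ _) (by positivity))
      (mul_le_mul_of_nonneg_right (min_le_right _ _) (by positivity))
  rcases eq_or_lt_of_le (norm_nonneg y) with h | h
  · rw [← h]; simp
  · have : (min (c₁ - z) (z - c₀) * ‖y‖) * ‖y‖ ≤ ‖(z : ℂ) • y - A y‖ * ‖y‖ := by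
      calc _ = min (c₁ - z) (z - c₀) * ‖y‖ ^ 2 := by ring
        _ ≤ _ := hlow
    exact le_of_mul_le_mul_right this h

/-- Upper form bound gives an upper bound of the spectrum. -/
theorem spec_upper {A : H →L[ℂ] H} (hA : IsSelfAdjoint A) {c₂ : ℝ}
    (h : ∀ y, (⟪A y, y⟫_ℂ).re ≤ c₂ * ‖y‖ ^ 2) {z : ℝ} (hz : c₂ < z) : z ∉ spectrum ℝ A := by
  refine spec_gap hA (⊥ : Submodule ℂ H) (c₀ := c₂) (c₁ := z + 1) ?_ ?_ hz (by linarith)
  · intro y hy
    rw [Submodule.mem_bot] at hy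
    simp [hy]
  · intro y _
    exact h y

/-- Lower form bound gives a lower bound of the spectrum. -/
theorem spec_lower {A : H →L[ℂ] H} (hA : IsSelfAdjoint A) {c₂ : ℝ}
    (h : ∀ y, c₂ * ‖y‖ ^ 2 ≤ (⟪A y, y⟫_ℂ).re) {z : ℝ} (hz : z < c₂) : z ∉ spectrum ℝ A := by
  refine spec_gap hA (⊤ : Submodule ℂ H) (c₀ := z - 1) (c₁ := c₂) ?_ ?_ (by linarith) hz
  · intro y _
    exact h y
  · intro y hy
    rw [Submodule.top_orthogonal_eq_bot, Submodule.mem_bot] at hy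
    simp [hy]

/-! ### The band projection -/

/-- continuous cut-off function: `0` on `(-∞, c₀]`, `1` on `[c₁, ∞)`. -/
noncomputable def specBand (c₀ c₁ x : ℝ) : ℝ := max 0 (min 1 ((x - c₀) / (c₁ - c₀)))

theorem specBand_continuous (c₀ c₁ : ℝ) : Continuous (specBand c₀ c₁) := by
  unfold specBand
  fun_prop

theorem specBand_of_le {c₀ c₁ x : ℝ} (h01 : c₀ < c₁) (hx : x ≤ c₀) : specBand c₀ c₁ x = 0 := by
  unfold specBand
  have : (x - c₀) / (c₁ - c₀) ≤ 0 := div_nonpos_of_nonpos_of_nonneg (by linarith) (by linarith)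
  exact max_eq_left ((min_le_right _ _).trans this)

theorem specBand_of_ge {c₀ c₁ x : ℝ} (h01 : c₀ < c₁) (hx : c₁ ≤ x) : specBand c₀ c₁ x = 1 := by
  unfold specBand
  have : 1 ≤ (x - c₀) / (c₁ - c₀) := by
    rw [le_div_iff₀ (by linarith)]; linarith
  rw [min_eq_left this]
  exact max_eq_right zero_le_one

/-- partial inverse function: `0` on `(-∞, c₀]`, `1/x` on `[c₁, ∞)`. -/
noncomputable def specBandInv (c₀ c₁ x : ℝ) : ℝ := specBand c₀ c₁ x * (max x c₁)⁻¹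

theorem specBandInv_continuous {c₀ c₁ : ℝ} (h1 : 0 < c₁) : Continuous (specBandInv c₀ c₁) := by
  unfold specBandInv
  refine (specBand_continuous c₀ c₁).mul (Continuous.inv₀ (by fun_prop) ?_)
  intro x
  exact (lt_of_lt_of_le h1 (le_max_right _ _)).ne'

/-- `A` has no spectrum in the open interval `(c₀, c₁)`. -/
def SpecGap (A : H →L[ℂ] H) (c₀ c₁ : ℝ) : Prop := ∀ z ∈ spectrum ℝ A, z ≤ c₀ ∨ c₁ ≤ z

/-- the spectral projection of the part of the spectrum above the gap. -/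
noncomputable def specProj (c₀ c₁ : ℝ) (A : H →L[ℂ] H) : H →L[ℂ] H := cfc (specBand c₀ c₁) A

/-- the inverse of `A` on the upper band, zero on the lower part. -/
noncomputable def specRes (c₀ c₁ : ℝ) (A : H →L[ℂ] H) : H →L[ℂ] H := cfc (specBandInv c₀ c₁) A

theorem specGap_of_forms {A : H →L[ℂ] H} (hA : IsSelfAdjoint A) (M : Submodule ℂ H)
    [M.HasOrthogonalProjection] {c₀ c₁ : ℝ}
    (h1 : ∀ y ∈ M, c₁ * ‖y‖ ^ 2 ≤ (⟪A y, y⟫_ℂ).re)
    (h0 : ∀ y ∈ Mᗮ, (⟪A y, y⟫_ℂ).re ≤ c₀ * ‖y‖ ^ 2) : SpecGap A c₀ c₁ := by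
  intro z hz
  by_contra hcon
  rw [not_or, not_le, not_le] at hcon
  exact spec_gap hA M h1 h0 hcon.1 hcon.2 hz

theorem specProj_isSelfAdjoint (c₀ c₁ : ℝ) (A : H →L[ℂ] H) : IsSelfAdjoint (specProj c₀ c₁ A) :=
  IsSelfAdjoint.cfc

theorem specRes_isSelfAdjoint (c₀ c₁ : ℝ) (A : H →L[ℂ] H) : IsSelfAdjoint (specRes c₀ c₁ A) :=
  IsSelfAdjoint.cfc

theorem specProj_isStarProjection {A : H →L[ℂ] H} {c₀ c₁ : ℝ} (h01 : c₀ < c₁)
    (hgap : SpecGap A c₀ c₁) : IsStarProjection (specProj c₀ c₁ A) := by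
  refine ⟨?_, specProj_isSelfAdjoint c₀ c₁ A⟩
  unfold IsIdempotentElem specProj
  rw [← cfc_mul _ _ A (specBand_continuous c₀ c₁).continuousOn
    (specBand_continuous c₀ c₁).continuousOn]
  refine cfc_congr ?_
  intro z hz
  rcases hgap z hz with h | h
  · simp [specBand_of_le h01 h]
  · simp [specBand_of_ge h01 h]

theorem specProj_commute {A B : H →L[ℂ] H} (hB : Commute A B) (c₀ c₁ : ℝ) :
    Commute (specProj c₀ c₁ A) B := hB.cfc_real _

theorem specRes_commute {A B : H →L[ℂ] H} (hB : Commute A B) (c₀ c₁ : ℝ) :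
    Commute (specRes c₀ c₁ A) B := hB.cfc_real _

theorem specProj_mem {S : StarSubalgebra ℂ (H →L[ℂ] H)} (hS : IsClosed (S : Set (H →L[ℂ] H)))
    {A : H →L[ℂ] H} (hA : A ∈ S) (c₀ c₁ : ℝ) : specProj c₀ c₁ A ∈ S := by
  have := hS
  exact cfc_mem (𝕜 := ℝ) (𝕜' := ℂ) (specBand c₀ c₁) hA

theorem spec_mul_cfc {A : H →L[ℂ] H} (hA : IsSelfAdjoint A) {f : ℝ → ℝ} (hf : Continuous f) :
    A * cfc f A = cfc (fun x : ℝ => x * f x) A := by
  rw [cfc_mul (fun x : ℝ => x) f A continuous_id.continuousOn hf.continuousOn, cfc_id' ℝ A hA]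

/-- `A * R = E`. -/
theorem spec_mul_specRes {A : H →L[ℂ] H} (hA : IsSelfAdjoint A) {c₀ c₁ : ℝ} (h01 : c₀ < c₁)
    (h1 : 0 < c₁) (hgap : SpecGap A c₀ c₁) : A * specRes c₀ c₁ A = specProj c₀ c₁ A := by
  unfold specRes specProj
  rw [spec_mul_cfc hA (specBandInv_continuous h1)]
  refine cfc_congr ?_
  intro z hz
  rcases hgap z hz with h | h
  · simp [specBandInv, specBand_of_le h01 h]
  · have hz0 : z ≠ 0 := (lt_of_lt_of_le h1 h).ne'
    simp [specBandInv, specBand_of_ge h01 h, max_eq_left h, hz0]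

/-- `R * E = R`. -/
theorem specRes_mul_specProj {A : H →L[ℂ] H} {c₀ c₁ : ℝ} (h01 : c₀ < c₁)
    (h1 : 0 < c₁) (hgap : SpecGap A c₀ c₁) :
    specRes c₀ c₁ A * specProj c₀ c₁ A = specRes c₀ c₁ A := by
  unfold specRes specProj
  rw [← cfc_mul _ _ A (specBandInv_continuous h1).continuousOn
    (specBand_continuous c₀ c₁).continuousOn]
  refine cfc_congr ?_
  intro z hz
  rcases hgap z hz with h | h
  · simp [specBandInv, specBand_of_le h01 h]
  · simp [specBand_of_ge h01 h]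

theorem specRes_norm_le {A : H →L[ℂ] H} {c₀ c₁ : ℝ} (h01 : c₀ < c₁)
    (h1 : 0 < c₁) (hgap : SpecGap A c₀ c₁) : ‖specRes c₀ c₁ A‖ ≤ c₁⁻¹ := by
  unfold specRes
  refine norm_cfc_le (inv_nonneg.mpr h1.le) ?_
  intro z hz
  rcases hgap z hz with h | h
  · simp [specBandInv, specBand_of_le h01 h, h1.le]
  · have hz0 : 0 < z := lt_of_lt_of_le h1 h
    simp only [specBandInv, specBand_of_ge h01 h, max_eq_left h, one_mul, norm_inv,
      Real.norm_eq_abs, abs_of_pos hz0]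
    exact inv_anti₀ h1 h

/-- `c₁ E ≤ A E`. -/
theorem specProj_le_mul {A : H →L[ℂ] H} (hA : IsSelfAdjoint A) {c₀ c₁ : ℝ} (h01 : c₀ < c₁)
    (hgap : SpecGap A c₀ c₁) : c₁ • specProj c₀ c₁ A ≤ A * specProj c₀ c₁ A := by
  unfold specProj
  rw [spec_mul_cfc hA (specBand_continuous c₀ c₁),
    ← cfc_const_mul _ _ A (specBand_continuous c₀ c₁).continuousOn]
  refine cfc_mono ?_ (continuous_const.mul (specBand_continuous c₀ c₁)).continuousOn
    (continuous_id.mul (specBand_continuous c₀ c₁)).continuousOn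
  intro z hz
  rcases hgap z hz with h | h
  · simp [specBand_of_le h01 h]
  · simp [specBand_of_ge h01 h, h]

/-- `A (1 - E) ≤ c₀ (1 - E)`. -/
theorem spec_mul_compl_le {A : H →L[ℂ] H} (hA : IsSelfAdjoint A) {c₀ c₁ : ℝ} (h01 : c₀ < c₁)
    (hgap : SpecGap A c₀ c₁) :
    A * (1 - specProj c₀ c₁ A) ≤ c₀ • (1 - specProj c₀ c₁ A) := by
  have hc : Continuous (fun x : ℝ => 1 - specBand c₀ c₁ x) :=
    continuous_const.sub (specBand_continuous c₀ c₁)
  have h1 : (1 : H →L[ℂ] H) - specProj c₀ c₁ A = cfc (fun x : ℝ => 1 - specBand c₀ c₁ x) A := by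
    unfold specProj
    rw [cfc_sub _ _ A continuous_const.continuousOn (specBand_continuous c₀ c₁).continuousOn,
      cfc_const _ A hA]
    simp
  rw [h1]
  rw [spec_mul_cfc hA hc, ← cfc_const_mul _ _ A hc.continuousOn]
  refine cfc_mono ?_ (continuous_id.mul hc).continuousOn (continuous_const.mul hc).continuousOn
  intro z hz
  rcases hgap z hz with h | h
  · simp [specBand_of_le h01 h, h]
  · simp [specBand_of_ge h01 h]

/-! ### Vector forms -/

omit [CompleteSpace H] in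
theorem spec_re_inner_nonneg_of_le {X Y : H →L[ℂ] H} (h : X ≤ Y) (x : H) :
    (⟪X x, x⟫_ℂ).re ≤ (⟪Y x, x⟫_ℂ).re := by
  rw [ContinuousLinearMap.le_def] at h
  have := (Complex.le_def.mp (h.inner_nonneg_left x)).1
  simp only [sub_apply, inner_sub_left, Complex.sub_re, Complex.zero_re] at this
  linarith

omit [CompleteSpace H] in
theorem spec_re_inner_self (x : H) : (⟪x, x⟫_ℂ).re = ‖x‖ ^ 2 := by
  have := inner_self_eq_norm_sq (𝕜 := ℂ) x
  simpa using this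

/-- for a star projection `E`: `re ⟪E x, x⟫ = ‖E x‖²`. -/
theorem spec_proj_inner {E : H →L[ℂ] H} (hE : IsStarProjection E) (x : H) :
    (⟪E x, x⟫_ℂ).re = ‖E x‖ ^ 2 := by
  have hsym := ContinuousLinearMap.isSelfAdjoint_iff_isSymmetric.mp hE.isSelfAdjoint
  have hidem : E (E x) = E x := by
    have := congrArg (fun T : H →L[ℂ] H => T x) hE.isIdempotentElem.eq
    simpa using this
  have : ⟪E x, E x⟫_ℂ = ⟪E (E x), x⟫_ℂ := (hsym (E x) x).symm
  rw [← spec_re_inner_self, this, hidem]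

theorem spec_proj_norm_le {E : H →L[ℂ] H} (hE : IsStarProjection E) (x : H) : ‖E x‖ ≤ ‖x‖ := by
  have h1 := spec_proj_inner hE x
  have h2 : (⟪E x, x⟫_ℂ).re ≤ ‖E x‖ * ‖x‖ := (Complex.re_le_norm _).trans (norm_inner_le_norm _ _)
  rw [h1] at h2
  rcases eq_or_lt_of_le (norm_nonneg (E x)) with h | h
  · rw [← h]; exact norm_nonneg _
  · have : ‖E x‖ * ‖E x‖ ≤ ‖x‖ * ‖E x‖ := by nlinarith
    exact le_of_mul_le_mul_right this h

/-- on the range of the band projection the form is at least `c₁`. -/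
theorem specProj_form_lower {A : H →L[ℂ] H} (hA : IsSelfAdjoint A) {c₀ c₁ : ℝ} (h01 : c₀ < c₁)
    (hgap : SpecGap A c₀ c₁) {x : H} (hx : specProj c₀ c₁ A x = x) :
    c₁ * ‖x‖ ^ 2 ≤ (⟪A x, x⟫_ℂ).re := by
  have := spec_re_inner_nonneg_of_le (specProj_le_mul hA h01 hgap) x
  simp only [smul_apply, mul_apply_eq_comp, hx] at this
  rw [← spec_re_inner_self x]
  have h2 : (⟪c₁ • x, x⟫_ℂ).re = c₁ * (⟪x, x⟫_ℂ).re := by
    rw [← Complex.coe_smul, inner_smul_left]; simp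
  linarith

/-- on the kernel of the band projection the form is at most `c₀`. -/
theorem specProj_form_upper {A : H →L[ℂ] H} (hA : IsSelfAdjoint A) {c₀ c₁ : ℝ} (h01 : c₀ < c₁)
    (hgap : SpecGap A c₀ c₁) {x : H} (hx : specProj c₀ c₁ A x = 0) :
    (⟪A x, x⟫_ℂ).re ≤ c₀ * ‖x‖ ^ 2 := by
  have := spec_re_inner_nonneg_of_le (spec_mul_compl_le hA h01 hgap) x
  simp only [smul_apply, mul_apply_eq_comp,
    sub_apply, one_apply_eq_self, hx, sub_zero] at this
  rw [← spec_re_inner_self x]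
  have h2 : (⟪c₀ • x, x⟫_ℂ).re = c₀ * (⟪x, x⟫_ℂ).re := by
    rw [← Complex.coe_smul, inner_smul_left]; simp
  linarith

/-- the band projection is nonzero as soon as the form exceeds `c₀` somewhere. -/
theorem specProj_ne_zero {A : H →L[ℂ] H} (hA : IsSelfAdjoint A) {c₀ c₁ : ℝ} (h01 : c₀ < c₁)
    (hgap : SpecGap A c₀ c₁) {x : H} (hx : c₀ * ‖x‖ ^ 2 < (⟪A x, x⟫_ℂ).re) :
    specProj c₀ c₁ A ≠ 0 := by
  intro h0
  have := specProj_form_upper hA h01 hgap (x := x) (by rw [h0]; simp)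
  linarith

/-- `‖(A - 1) E‖ ≤ δ` if the upper band lies in `[1 - δ, 1 + δ]`. -/
theorem specProj_norm_sub_le {A : H →L[ℂ] H} (hA : IsSelfAdjoint A) {c₀ c₁ c₂ δ : ℝ}
    (h01 : c₀ < c₁) (hgap : SpecGap A c₀ c₁) (hup : ∀ z ∈ spectrum ℝ A, z ≤ c₂)
    (hδ1 : 1 - δ ≤ c₁) (hδ2 : c₂ ≤ 1 + δ) (hδ : 0 ≤ δ) :
    ‖(A - 1) * specProj c₀ c₁ A‖ ≤ δ := by
  have h1 : (A - 1) * specProj c₀ c₁ A = cfc (fun x : ℝ => (x - 1) * specBand c₀ c₁ x) A := by
    unfold specProj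
    rw [cfc_mul (fun x : ℝ => x - 1) _ A (continuous_id.sub continuous_const).continuousOn
      (specBand_continuous c₀ c₁).continuousOn,
      cfc_sub (fun x : ℝ => x) _ A continuous_id.continuousOn continuous_const.continuousOn,
      cfc_id' ℝ A hA, cfc_const _ A hA]
    simp
  rw [h1]
  refine norm_cfc_le hδ ?_
  intro z hz
  rcases hgap z hz with h | h
  · simp [specBand_of_le h01 h, hδ]
  · have := hup z hz
    simp only [specBand_of_ge h01 h, mul_one, Real.norm_eq_abs]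
    rw [abs_le]; constructor <;> linarith

/-- global form bound `A ≤ c₀ (1 - E) + c₂ E`. -/
theorem spec_form_le {A : H →L[ℂ] H} (hA : IsSelfAdjoint A) {c₀ c₁ c₂ : ℝ}
    (h01 : c₀ < c₁) (hgap : SpecGap A c₀ c₁) (hup : ∀ z ∈ spectrum ℝ A, z ≤ c₂) (y : H) :
    (⟪A y, y⟫_ℂ).re ≤ c₀ * ‖y‖ ^ 2 + (c₂ - c₀) * ‖specProj c₀ c₁ A y‖ ^ 2 := by
  have hc : Continuous (fun x : ℝ => c₀ + (c₂ - c₀) * specBand c₀ c₁ x) :=
    continuous_const.add (continuous_const.mul (specBand_continuous c₀ c₁))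
  have h1 : A ≤ cfc (fun x : ℝ => c₀ + (c₂ - c₀) * specBand c₀ c₁ x) A := by
    conv_lhs => rw [← cfc_id' ℝ A hA]
    refine cfc_mono ?_ continuous_id.continuousOn hc.continuousOn
    intro z hz
    rcases hgap z hz with h | h
    · simp [specBand_of_le h01 h, h]
    · have := hup z hz
      simp [specBand_of_ge h01 h, this]
  have h2 : cfc (fun x : ℝ => c₀ + (c₂ - c₀) * specBand c₀ c₁ x) A
      = c₀ • (1 : H →L[ℂ] H) + (c₂ - c₀) • specProj c₀ c₁ A := by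
    unfold specProj
    have hc2 : Continuous (fun x : ℝ => (c₂ - c₀) * specBand c₀ c₁ x) :=
      continuous_const.mul (specBand_continuous c₀ c₁)
    rw [cfc_add A (fun _ : ℝ => c₀) (fun x : ℝ => (c₂ - c₀) * specBand c₀ c₁ x)
      continuous_const.continuousOn hc2.continuousOn, cfc_const _ A hA,
      cfc_const_mul _ _ A (specBand_continuous c₀ c₁).continuousOn, Algebra.algebraMap_eq_smul_one]
  rw [h2] at h1
  have h3 := spec_re_inner_nonneg_of_le h1 y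
  simp only [add_apply, smul_apply,
    one_apply_eq_self, inner_add_left, Complex.add_re] at h3
  have h4 : (⟪c₀ • y, y⟫_ℂ).re = c₀ * ‖y‖ ^ 2 := by
    rw [← Complex.coe_smul, inner_smul_left, ← spec_re_inner_self]; simp
  have h5 : (⟪(c₂ - c₀) • specProj c₀ c₁ A y, y⟫_ℂ).re = (c₂ - c₀) * ‖specProj c₀ c₁ A y‖ ^ 2 := by
    rw [← Complex.coe_smul, inner_smul_left,
      ← spec_proj_inner (specProj_isStarProjection h01 hgap) y]
    simp
  linarith

end Claimed.Agent.R300
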