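import Claimed.Agent.R300.ScL2
import Claimed.Agent.R300.SpecHilb

/-!
# Row 300, KK Section 10: cut-offs on `ℓ²(X)` (owner: helper236, prefix `spec`)
-/

set_option autoImplicit false

namespace Claimed.Agent.R300

open scoped ENNReal ComplexConjugate InnerProductSpace

variable {X : Type}

theorem spec_restr_mul (A B : Set X) : scRestr A * scRestr B = scRestr (A ∩ B) := by
  ext ξ a
  by_cases hA : a ∈ A <;> by_cases hB : a ∈ B <;> simp [scRestr_apply, hA, hB]

theorem spec_restr_isStarProjection (B : Set X) : IsStarProjection (scRestr B) := by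
  refine ⟨?_, ?_⟩
  · unfold IsIdempotentElem
    rw [spec_restr_mul, Set.inter_self]
  · rw [ContinuousLinearMap.isSelfAdjoint_iff_isSymmetric]
    intro ξ η
    show ⟪scRestr B ξ, η⟫_ℂ = ⟪ξ, scRestr B η⟫_ℂ
    rw [lp.inner_eq_tsum, lp.inner_eq_tsum]
    refine tsum_congr fun a => ?_
    by_cases ha : a ∈ B <;> simp [scRestr_apply, ha]

theorem spec_restr_mul_of_disjoint {A B : Set X} (h : Disjoint A B) :
    scRestr A * scRestr B = 0 := by
  rw [spec_restr_mul, Set.disjoint_iff_inter_eq_empty.mp h]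
  ext ξ a
  simp [scRestr_apply]

theorem spec_restr_univ : scRestr (Set.univ : Set X) = 1 := by
  ext ξ a
  simp [scRestr_apply]

theorem spec_restr_norm_le (B : Set X) (ξ : ScL2 X) : ‖scRestr B ξ‖ ≤ ‖ξ‖ :=
  spec_proj_norm_le (spec_restr_isStarProjection B) ξ

theorem spec_restr_delta_mem {B : Set X} {x : X} (hx : x ∈ B) :
    scRestr B (scDelta x) = scDelta x := by
  classical
  ext a
  by_cases ha : a ∈ B
  · simp [scRestr_apply, ha]
  · have : a ≠ x := fun h => ha (h ▸ hx)
    simp [scRestr_apply, ha, scDelta_ne this]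

theorem spec_restr_delta_not_mem {B : Set X} {x : X} (hx : x ∉ B) :
    scRestr B (scDelta x) = 0 := by
  classical
  ext a
  by_cases ha : a ∈ B
  · have : a ≠ x := fun h => hx (h ▸ ha)
    simp [scRestr_apply, ha, scDelta_ne this]
  · simp [scRestr_apply, ha]

/-- the cut-offs to the fibres of a map form a resolution of the identity. -/
theorem spec_restr_hasSum_fiber {ι : Type*} (home : X → ι) (y : ScL2 X) :
    HasSum (fun q => scRestr (home ⁻¹' {q}) y) y := by
  classical
  have hf : HasSum (fun x : X => lp.single 2 x (y x)) y := lp.hasSum_single (by norm_num) y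
  have h1 := hf.tsum_fiberwise home
  have h2 : ∀ q, ∑' b : home ⁻¹' {q}, lp.single 2 (b : X) (y b) = scRestr (home ⁻¹' {q}) y := by
    intro q
    set z : ScL2 X := scRestr (home ⁻¹' {q}) y with hz
    have hz1 : HasSum (fun x : X => lp.single 2 x (z x)) z := lp.hasSum_single (by norm_num) z
    have hsupp : Function.support (fun x : X => lp.single 2 x (z x)) ⊆ home ⁻¹' {q} := by
      intro x hx
      by_contra hcon
      apply hx
      have : z x = 0 := scRestr_apply_not_mem y hcon
      simp [this]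
    have hz2 := (hasSum_subtype_iff_of_support_subset hsupp).mpr hz1
    have hz3 : ((fun x : X => lp.single 2 x (z x)) ∘ ((↑) : home ⁻¹' {q} → X))
        = fun b : home ⁻¹' {q} => lp.single 2 (b : X) (y b) := by
      funext b
      have : z b = y b := scRestr_apply_mem y b.2
      simp [this]
    rw [hz3] at hz2
    exact hz2.tsum_eq
  simpa [h2] using h1

/-- expansion of a finite cut-off. -/
theorem spec_restr_finset (A : Finset X) (ξ : ScL2 X) :
    scRestr (A : Set X) ξ = ∑ x ∈ A, ξ x • scDelta x := by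
  classical
  ext a
  have h1 : (∑ x ∈ A, ξ x • scDelta x : ScL2 X) a = ∑ x ∈ A, ξ x * scDelta x a := by
    have : ∀ (s : Finset X), ((∑ x ∈ s, ξ x • scDelta x : ScL2 X) : X → ℂ) a
        = ∑ x ∈ s, ξ x * scDelta x a := by
      intro s
      induction s using Finset.induction_on with
      | empty => simp
      | insert b s hb ih =>
        rw [Finset.sum_insert hb, Finset.sum_insert hb, ← ih, lp.coeFn_add, Pi.add_apply,
          lp.coeFn_smul, Pi.smul_apply, smul_eq_mul]
    exact this A
  rw [h1]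
  by_cases ha : a ∈ A
  · rw [scRestr_apply_mem ξ (by exact_mod_cast ha), Finset.sum_eq_single a]
    · simp
    · intro b _ hb
      simp [scDelta_ne (Ne.symm hb)]
    · intro h; exact absurd ha h
  · rw [scRestr_apply_not_mem ξ (by exact_mod_cast ha)]
    symm
    refine Finset.sum_eq_zero fun b hb => ?_
    have : a ≠ b := fun h => ha (h ▸ hb)
    simp [scDelta_ne this]

/-- Hilbert-Schmidt bound for a finite cut-off of a selfadjoint operator. -/
theorem spec_restr_finset_norm_sq_le (A : Finset X) {E : ScL2 X →L[ℂ] ScL2 X}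
    (hE : IsSelfAdjoint E) (ξ : ScL2 X) :
    ‖scRestr (A : Set X) (E ξ)‖ ^ 2 ≤ (∑ x ∈ A, ‖E (scDelta x)‖ ^ 2) * ‖ξ‖ ^ 2 := by
  classical
  have hsym := ContinuousLinearMap.isSelfAdjoint_iff_isSymmetric.mp hE
  have h1 : ‖scRestr (A : Set X) (E ξ)‖ ^ 2 = ∑ x ∈ A, ‖E ξ x‖ ^ 2 := by
    rw [scL2_norm_sq, tsum_eq_sum (s := A)]
    · refine Finset.sum_congr rfl fun x hx => ?_
      rw [scRestr_apply_mem _ (by exact_mod_cast hx)]
    · intro x hx
      rw [scRestr_apply_not_mem _ (by exact_mod_cast hx)]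
      simp
  rw [h1, Finset.sum_mul]
  refine Finset.sum_le_sum fun x _ => ?_
  have h2 : E ξ x = ⟪E (scDelta x), ξ⟫_ℂ := by
    have : ⟪E (scDelta x), ξ⟫_ℂ = ⟪scDelta x, E ξ⟫_ℂ := hsym _ _
    rw [this, sc_inner_delta_left]
  rw [h2, ← mul_pow]
  exact pow_le_pow_left₀ (norm_nonneg _) (norm_inner_le_norm _ _) 2

end Claimed.Agent.R300
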