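/-
Row 300 / S0553 (INJ paper).  LOWER ASSEMBLY, package LOW-6 (owner helper69), part SUB:
the surviving graph `O.sub` as a compression of the pre-deletion graph `O.X0`; the blocks of the normalised
incidences of `O.sub` satisfy `InjExt` (Lemma 6.3).
-/
import Mathlib
import Claimed.Agent.R300.InjExtAbs
import Claimed.Agent.R300.InjExtGap
import Claimed.Agent.R300.ScMat
import Claimed.Agent.R300.SpecCut

set_option autoImplicit false

namespace Claimed.Agent.R300

open scoped ENNReal ComplexConjugate InnerProductSpace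

variable {p : Lab.Par}

/-! ### structure of the surviving graph -/

theorem injx_fin_out (X : InjGr p) (hX : X.Str) (a : X.V) (τ : Fin p.T) :
    Finite {e // X.src e = a ∧ X.ety e = τ} := by
  have := hX.fin_lb
  refine Finite.of_injective (fun e : {e // X.src e = a ∧ X.ety e = τ} => X.lab e.1) ?_
  intro e e' h
  exact Subtype.ext (hX.fold_src e.1 e'.1 (e.2.1.trans e'.2.1.symm) h)

theorem injx_fin_in (X : InjGr p) (hX : X.Str) (b : X.V) (τ : Fin p.T) :
    Finite {e // X.tgt e = b ∧ X.ety e = τ} := by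
  have := hX.fin_lb
  refine Finite.of_injective (fun e : {e // X.tgt e = b ∧ X.ety e = τ} => X.lab e.1) ?_
  intro e e' h
  exact Subtype.ext (hX.fold_tgt e.1 e'.1 (e.2.1.trans e'.2.1.symm) h)

theorem injx_sub_str (O : InjOld p) {ε ρ : ℝ} (hE : O.Exp ε ρ) : O.sub.Str where
  sd_src e := hE.str.sd_src e.1
  sd_tgt e := hE.str.sd_tgt e.1
  ht_edge e := hE.str.ht_edge e.1
  fold_src e e' h h' := Subtype.ext (hE.str.fold_src e.1 e'.1 (congrArg Subtype.val h) h')
  fold_tgt e e' h h' := Subtype.ext (hE.str.fold_tgt e.1 e'.1 (congrArg Subtype.val h) h')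
  fin_lb := hE.str.fin_lb
  fin_layer s i := by
    have := hE.str.fin_layer s i
    refine Finite.of_injective (fun v : {v : O.sub.V // O.sub.sd v = s ∧ O.sub.ht v = i} =>
      (⟨v.1.1, v.2⟩ : {v // O.X0.sd v = s ∧ O.X0.ht v = i})) ?_
    intro a b h
    have h' := Subtype.ext_iff.1 h
    exact Subtype.ext (Subtype.ext h')

theorem injx_sub_degLe (O : InjOld p) {ε ρ : ℝ} (hE : O.Exp ε ρ) : O.sub.DegLe where
  degA τ a := by
    have := injx_fin_out O.X0 hE.str a.1 τ
    refine le_trans (Nat.card_le_card_of_injective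
      (fun e : {e : O.sub.E // O.sub.src e = a ∧ O.sub.ety e = τ} =>
        (⟨e.1.1, congrArg Subtype.val e.2.1, e.2.2⟩ : {e // O.X0.src e = a.1 ∧ O.X0.ety e = τ})) ?_)
      ((O.X0_degLe hE).degA τ a.1)
    intro e e' h
    have h' := Subtype.ext_iff.1 h
    exact Subtype.ext (Subtype.ext h')
  degB τ b := by
    have := injx_fin_in O.X0 hE.str b.1 τ
    refine le_trans (Nat.card_le_card_of_injective
      (fun e : {e : O.sub.E // O.sub.tgt e = b ∧ O.sub.ety e = τ} =>
        (⟨e.1.1, congrArg Subtype.val e.2.1, e.2.2⟩ : {e // O.X0.tgt e = b.1 ∧ O.X0.ety e = τ})) ?_)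
      ((O.X0_degLe hE).degB τ b.1)
    intro e e' h
    have h' := Subtype.ext_iff.1 h
    exact Subtype.ext (Subtype.ext h')

/-! ### cardinalities of the layers -/

theorem injx_card_le (O : InjOld p) {ε ρ : ℝ} (hE : O.Exp ε ρ) (s : Bool) (i : ℕ) :
    Nat.card {w : O.sub.V // O.sub.sd w = s ∧ O.sub.ht w = i}
      ≤ Nat.card {v // O.X0.sd v = s ∧ O.X0.ht v = i} := by
  have := hE.str.fin_layer s i
  refine Nat.card_le_card_of_injective (fun v : {v : O.sub.V // O.sub.sd v = s ∧ O.sub.ht v = i} =>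
      (⟨v.1.1, v.2⟩ : {v // O.X0.sd v = s ∧ O.X0.ht v = i})) ?_
  intro a b h
  have h' := Subtype.ext_iff.1 h
  exact Subtype.ext (Subtype.ext h')

open Classical in
theorem injx_card_ge (O : InjOld p) {ε ρ : ℝ} (hE : O.Exp ε ρ) (s : Bool) (i : ℕ) :
    (1 - ε) * (Nat.card {v // O.X0.sd v = s ∧ O.X0.ht v = i} : ℝ)
      ≤ Nat.card {w : O.sub.V // O.sub.sd w = s ∧ O.sub.ht w = i} := by
  have := hE.str.fin_layer s i
  have := (injx_sub_str O hE).fin_layer s i
  have : Finite {v // O.X0.sd v = s ∧ O.X0.ht v = i ∧ ¬ O.surv v} :=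
    Finite.of_injective (fun v : {v // O.X0.sd v = s ∧ O.X0.ht v = i ∧ ¬ O.surv v} =>
      (⟨v.1, v.2.1, v.2.2.1⟩ : {v // O.X0.sd v = s ∧ O.X0.ht v = i}))
      (fun a b h => by
        have h' := Subtype.ext_iff.1 h
        exact Subtype.ext h')
  have h1 : Nat.card {v // O.X0.sd v = s ∧ O.X0.ht v = i}
      ≤ Nat.card ({w : O.sub.V // O.sub.sd w = s ∧ O.sub.ht w = i} ⊕
        {v // O.X0.sd v = s ∧ O.X0.ht v = i ∧ ¬ O.surv v}) := by
    refine Nat.card_le_card_of_injective (fun v : {v // O.X0.sd v = s ∧ O.X0.ht v = i} =>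
      if h : O.surv v.1 then Sum.inl ⟨⟨v.1, h⟩, v.2⟩ else Sum.inr ⟨v.1, v.2.1, v.2.2, h⟩) ?_
    intro a b h
    by_cases ha : O.surv a.1 <;> by_cases hb : O.surv b.1
    · simp only [dif_pos ha, dif_pos hb, Sum.inl.injEq] at h
      have h' := Subtype.ext_iff.1 h
      have h'' := Subtype.ext_iff.1 h'
      exact Subtype.ext h''
    · simp only [dif_pos ha, dif_neg hb] at h
      exact absurd h (by simp)
    · simp only [dif_neg ha, dif_pos hb] at h
      exact absurd h (by simp)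
    · simp only [dif_neg ha, dif_neg hb, Sum.inr.injEq, Subtype.mk.injEq] at h
      exact Subtype.ext h
  rw [Nat.card_sum] at h1
  have h2 := hE.del s i
  have h3 : (Nat.card {v // O.X0.sd v = s ∧ O.X0.ht v = i} : ℝ)
      ≤ (Nat.card {w : O.sub.V // O.sub.sd w = s ∧ O.sub.ht w = i} : ℝ)
        + Nat.card {v // O.X0.sd v = s ∧ O.X0.ht v = i ∧ ¬ O.surv v} := by
    exact_mod_cast h1
  linarith

theorem injx_old_card_pos (O : InjOld p) {ε ρ : ℝ} (hE : O.Exp ε ρ) (s : Bool) (i : ℕ) :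
    0 < Nat.card {v // O.X0.sd v = s ∧ O.X0.ht v = i} := by
  cases s
  · rw [hE.cardA]; positivity
  · rw [hE.cardB]; positivity

theorem injx_card_pos (O : InjOld p) {ε ρ : ℝ} (hε : ε ≤ 1 / 4) (hE : O.Exp ε ρ) (s : Bool) (i : ℕ) :
    0 < Nat.card {w : O.sub.V // O.sub.sd w = s ∧ O.sub.ht w = i} := by
  have h1 := injx_card_ge O hE s i
  have h2 : (0 : ℝ) < Nat.card {v // O.X0.sd v = s ∧ O.X0.ht v = i} := by
    exact_mod_cast injx_old_card_pos O hE s i
  have h3 : (0 : ℝ) < Nat.card {w : O.sub.V // O.sub.sd w = s ∧ O.sub.ht w = i} := by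
    nlinarith
  exact_mod_cast h3

/-! ### the compression -/

/-- restriction to the survivors -/
noncomputable def injRes (O : InjOld p) : ScL2 O.X0.V →L[ℂ] ScL2 O.sub.V :=
  scPull (Subtype.val : {v // O.surv v} → O.X0.V) Subtype.val_injective

theorem injRes_apply (O : InjOld p) (ξ : ScL2 O.X0.V) (v : O.sub.V) : injRes O ξ v = ξ v.1 := rfl

theorem injRes_norm_le (O : InjOld p) : ‖injRes O‖ ≤ 1 :=
  ContinuousLinearMap.opNorm_le_bound _ zero_le_one fun ξ => by
    rw [one_mul]; exact scPull_norm_le _ _ ξ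

theorem injRes_adjoint (O : InjOld p) (ξ : ScL2 O.sub.V) :
    injRes O (ContinuousLinearMap.adjoint (injRes O) ξ) = ξ :=
  scPull_push (Subtype.val : {v // O.surv v} → O.X0.V) Subtype.val_injective ξ

theorem injRes_adjoint_delta (O : InjOld p) (w : O.sub.V) :
    ContinuousLinearMap.adjoint (injRes O) (scDelta w) = scDelta w.1 :=
  scPush_delta (Subtype.val : {v // O.surv v} → O.X0.V) Subtype.val_injective w

theorem injRes_adjoint_apply (O : InjOld p) (ξ : ScL2 O.sub.V) (v : O.sub.V) :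
    ContinuousLinearMap.adjoint (injRes O) ξ v.1 = ξ v :=
  scPush_apply (Subtype.val : {v // O.surv v} → O.X0.V) Subtype.val_injective ξ v

theorem injRes_adjoint_apply_not (O : InjOld p) (ξ : ScL2 O.sub.V) (v : O.X0.V) (hv : ¬ O.surv v) :
    ContinuousLinearMap.adjoint (injRes O) ξ v = 0 :=
  scPush_apply_of_not_mem (Subtype.val : {v // O.surv v} → O.X0.V) Subtype.val_injective ξ v
    (fun x hx => hv (hx ▸ x.2))

theorem injRes_adjoint_norm (O : InjOld p) (ξ : ScL2 O.sub.V) :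
    ‖ContinuousLinearMap.adjoint (injRes O) ξ‖ = ‖ξ‖ :=
  scPush_norm (Subtype.val : {v // O.surv v} → O.X0.V) Subtype.val_injective ξ

theorem injx_sub_U (O : InjOld p) {ε ρ : ℝ} (hE : O.Exp ε ρ) (τ : Fin p.T) :
    injU O.sub τ = injRes O ∘L injU O.X0 τ ∘L ContinuousLinearMap.adjoint (injRes O) := by
  refine (injU_spec O.sub (injx_sub_str O hE) (injx_sub_degLe O hE) τ).1.unique ?_
  intro v w
  simp only [ContinuousLinearMap.comp_apply]
  rw [injRes_adjoint_delta, injRes_apply, (injU_spec O.X0 hE.str (O.X0_degLe hE) τ).1 v.1 w.1]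
  unfold injUK
  congr 2
  refine Nat.card_congr ⟨fun e => ⟨⟨e.1, by rw [e.2.1]; exact v.2, by rw [e.2.2.1]; exact w.2⟩,
    Subtype.ext e.2.1, Subtype.ext e.2.2.1, e.2.2.2⟩,
    fun e => ⟨e.1.1, congrArg Subtype.val e.2.1, congrArg Subtype.val e.2.2.1, e.2.2.2⟩,
    fun e => rfl, fun e => rfl⟩

theorem injx_res_cv (O : InjOld p) {ε ρ : ℝ} (hε : ε ≤ 1 / 4) (hE : O.Exp ε ρ) (s : Bool) (i : ℕ) :
    injRes O (injCv O.X0 s i)
      = ((Real.sqrt (Nat.card {w : O.sub.V // O.sub.sd w = s ∧ O.sub.ht w = i}) /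
          Real.sqrt (Nat.card {v // O.X0.sd v = s ∧ O.X0.ht v = i}) : ℝ) : ℂ) • injCv O.sub s i := by
  classical
  have h1 : (0 : ℝ) < Nat.card {w : O.sub.V // O.sub.sd w = s ∧ O.sub.ht w = i} := by
    exact_mod_cast injx_card_pos O hε hE s i
  have h2 : Real.sqrt (Nat.card {w : O.sub.V // O.sub.sd w = s ∧ O.sub.ht w = i}) ≠ 0 :=
    (Real.sqrt_pos.2 h1).ne'
  ext v
  rw [injRes_apply, injCv_apply O.X0 hE.str, lp.coeFn_smul, Pi.smul_apply, smul_eq_mul,
    injCv_apply O.sub (injx_sub_str O hE)]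
  by_cases hv : O.X0.sd v.1 = s ∧ O.X0.ht v.1 = i
  · rw [if_pos hv, if_pos (show O.sub.sd v = s ∧ O.sub.ht v = i from hv), ← Complex.ofReal_mul]
    congr 1
    field_simp
  · rw [if_neg hv, if_neg (show ¬ (O.sub.sd v = s ∧ O.sub.ht v = i) from hv), mul_zero]

theorem injx_alpha_sq (O : InjOld p) {ε ρ : ℝ} (hE : O.Exp ε ρ) (s : Bool) (i : ℕ) :
    1 - ε ≤ (Real.sqrt (Nat.card {w : O.sub.V // O.sub.sd w = s ∧ O.sub.ht w = i}) /
          Real.sqrt (Nat.card {v // O.X0.sd v = s ∧ O.X0.ht v = i})) ^ 2 := by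
  have h2 : (0 : ℝ) < Nat.card {v // O.X0.sd v = s ∧ O.X0.ht v = i} := by
    exact_mod_cast injx_old_card_pos O hE s i
  rw [div_pow, Real.sq_sqrt (Nat.cast_nonneg _), Real.sq_sqrt (Nat.cast_nonneg _), le_div_iff₀ h2]
  exact injx_card_ge O hE s i

/-! ### the blocks -/

/-- restriction to the height `m` -/
noncomputable def injHt (X : InjGr p) (m : ℤ) : ScL2 X.V →L[ℂ] ScL2 X.V :=
  scRestr {v | (X.ht v : ℤ) = m}

theorem injHt_norm_le (X : InjGr p) (m : ℤ) : ‖injHt X m‖ ≤ 1 :=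
  ContinuousLinearMap.opNorm_le_bound _ zero_le_one fun ξ => by
    rw [one_mul]; exact spec_restr_norm_le _ ξ

theorem injHt_star (X : InjGr p) (m : ℤ) : star (injHt X m) = injHt X m :=
  (spec_restr_isStarProjection _).isSelfAdjoint

theorem injHt_cv (X : InjGr p) (hX : X.Str) (s : Bool) (i : ℕ) :
    injHt X i (injCv X s i) = injCv X s i := by
  classical
  ext v
  by_cases hv : (X.ht v : ℤ) = i
  · exact scRestr_apply_mem _ hv
  · have h1 : injHt X i (injCv X s i) v = 0 :=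
      scRestr_apply_not_mem (B := {v | (X.ht v : ℤ) = i}) _ hv
    rw [h1, injCv_apply X hX, if_neg]
    exact fun h => hv (by rw [h.2])

theorem injx_cv_norm (O : InjOld p) {ε ρ : ℝ} (hε : ε ≤ 1 / 4) (hE : O.Exp ε ρ) (s : Bool) (i : ℕ) :
    ‖injCv O.sub s i‖ = 1 :=
  injCv_norm O.sub (injx_sub_str O hE) s i
    ((Nat.card_pos_iff.1 (injx_card_pos O hε hE s i)).1)

theorem injx_old_cv_norm (O : InjOld p) {ε ρ : ℝ} (hE : O.Exp ε ρ) (s : Bool) (i : ℕ) :
    ‖injCv O.X0 s i‖ = 1 :=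
  injCv_norm O.X0 hE.str s i ((Nat.card_pos_iff.1 (injx_old_card_pos O hE s i)).1)

/-- the centred gap of the surviving blocks -/
theorem injx_sub_gap (O : InjOld p) {ε ρ : ℝ} (hε : ε ≤ 1 / 4) (hρ0 : 0 ≤ ρ) (hE : O.Exp ε ρ)
    (τ : Fin p.T) (k : ℕ) (ξ : ScL2 O.sub.V) (hsupp : ∀ v, ξ v ≠ 0 → O.sub.ht v = k)
    (horth : ⟪injCv O.sub true k, ξ⟫_ℂ = 0) : ‖injU O.sub τ ξ‖ ≤ ρ * ‖ξ‖ := by
  rw [injx_sub_U O hE τ]
  simp only [ContinuousLinearMap.comp_apply]
  have h1 : ‖injU O.X0 τ (ContinuousLinearMap.adjoint (injRes O) ξ)‖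
      ≤ ρ * ‖ContinuousLinearMap.adjoint (injRes O) ξ‖ := by
    refine inj_old_gap O hρ0 hE τ k _ ?_ ?_
    · intro v hv
      by_cases hs : O.surv v
      · have := injRes_adjoint_apply O ξ ⟨v, hs⟩
        exact hsupp ⟨v, hs⟩ (by rw [← this]; exact hv)
      · exact absurd (injRes_adjoint_apply_not O ξ v hs) hv
    · rw [ContinuousLinearMap.adjoint_inner_right, injx_res_cv O hε hE, inner_smul_left, horth,
        mul_zero]
  rw [injRes_adjoint_norm] at h1
  refine le_trans ?_ h1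
  calc ‖injRes O (injU O.X0 τ (ContinuousLinearMap.adjoint (injRes O) ξ))‖
      ≤ ‖injRes O‖ * ‖injU O.X0 τ (ContinuousLinearMap.adjoint (injRes O) ξ)‖ :=
        (injRes O).le_opNorm _
    _ ≤ 1 * ‖injU O.X0 τ (ContinuousLinearMap.adjoint (injRes O) ξ)‖ :=
        mul_le_mul_of_nonneg_right (injRes_norm_le O) (norm_nonneg _)
    _ = _ := one_mul _

/-- **Lemma 6.3**: the blocks of the surviving incidences. -/
theorem injx_sub_ext (O : InjOld p) {ε ρ : ℝ} (hε : ε ≤ 1 / 4) (hρ0 : 0 ≤ ρ) (hE : O.Exp ε ρ)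
    (τ : Fin p.T) (i k : ℕ) (hk : (k : ℤ) = i + injOff (p.off τ)) :
    InjExt (injU O.sub τ * injHt O.sub k) (injCv O.sub false i) (injCv O.sub true k) ρ
      (Real.sqrt (2 * ε) + ε) := by
  have hS := injx_sub_str O hE
  have hU := (injU_spec O.sub hS (injx_sub_degLe O hE) τ).2
  have hU0 := (injU_spec O.X0 hE.str (O.X0_degLe hE) τ).2
  have na := injx_old_cv_norm O hE false i
  have nb := injx_old_cv_norm O hE true k
  have na' := injx_cv_norm O hε hE false i
  have nb' := injx_cv_norm O hε hE true k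
  have hin := inj_old_inner O hE τ i k hk
  have hab : injU O.X0 τ (injCv O.X0 true k) = injCv O.X0 false i :=
    inj_eq_of_inner_one _ hU0 na nb hin
  have hU0' : ‖ContinuousLinearMap.adjoint (injU O.X0 τ)‖ ≤ 1 := by
    rw [ContinuousLinearMap.adjoint.norm_map]; exact hU0
  have hba : ContinuousLinearMap.adjoint (injU O.X0 τ) (injCv O.X0 false i) = injCv O.X0 true k := by
    refine inj_eq_of_inner_one _ hU0' nb na ?_
    rw [ContinuousLinearMap.adjoint_inner_right, hab, inj_inner_self_one na]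
  refine ⟨na', nb', inj_mul_norm_le_one hU (injHt_norm_le _ _), ?_, ?_, ?_⟩
  · rw [inj_mul_apply, injHt_cv O.sub hS, injx_sub_U O hE τ]
    exact inj_compress_close (injRes O) (injRes_norm_le O) (injRes_adjoint O) _ hU0 na nb na' nb' hab
      (injx_res_cv O hε hE false i) (injx_res_cv O hε hE true k) (by positivity) (by positivity)
      (injx_alpha_sq O hE false i) (injx_alpha_sq O hE true k)
  · rw [star_mul, injHt_star, inj_mul_apply]
    have e1 : star (injU O.sub τ) (injCv O.sub false i)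
        = injRes O (ContinuousLinearMap.adjoint (injU O.X0 τ)
            (ContinuousLinearMap.adjoint (injRes O) (injCv O.sub false i))) := by
      rw [injx_sub_U O hE τ, ContinuousLinearMap.star_eq_adjoint, ContinuousLinearMap.adjoint_comp,
        ContinuousLinearMap.adjoint_comp, ContinuousLinearMap.adjoint_adjoint]
      rfl
    have e2 := inj_compress_close (injRes O) (injRes_norm_le O) (injRes_adjoint O) _ hU0' nb na nb'
      na' hba (injx_res_cv O hε hE true k) (injx_res_cv O hε hE false i) (by positivity)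
      (by positivity) (injx_alpha_sq O hE true k) (injx_alpha_sq O hE false i)
    rw [← e1] at e2
    refine le_trans ?_ e2
    conv_lhs => rw [← injHt_cv O.sub hS true k, ← map_sub]
    calc ‖injHt O.sub k (star (injU O.sub τ) (injCv O.sub false i) - injCv O.sub true k)‖
        ≤ ‖injHt O.sub k‖ * ‖star (injU O.sub τ) (injCv O.sub false i) - injCv O.sub true k‖ :=
          (injHt O.sub k).le_opNorm _
      _ ≤ 1 * ‖star (injU O.sub τ) (injCv O.sub false i) - injCv O.sub true k‖ :=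
          mul_le_mul_of_nonneg_right (injHt_norm_le _ _) (norm_nonneg _)
      _ = _ := one_mul _
  · intro ξ hξ
    rw [inj_mul_apply]
    have h1 : ‖injU O.sub τ (injHt O.sub k ξ)‖ ≤ ρ * ‖injHt O.sub k ξ‖ := by
      refine injx_sub_gap O hε hρ0 hE τ k _ ?_ ?_
      · intro v hv
        by_contra hne
        apply hv
        exact scRestr_apply_not_mem _ (fun h : (O.sub.ht v : ℤ) = k => hne (by exact_mod_cast h))
      · rw [← ContinuousLinearMap.adjoint_inner_left, ← ContinuousLinearMap.star_eq_adjoint,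
          injHt_star, injHt_cv O.sub hS, hξ]
    refine h1.trans (mul_le_mul_of_nonneg_left ?_ hρ0)
    exact spec_restr_norm_le _ ξ

end Claimed.Agent.R300
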