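/-
Row 300 / S0553 (INJ paper).  LOWER ASSEMBLY, package LOW-6 (owner helper69), part BLK:
height shifting operators, block algebra, the operator with the kernel `injPK`.
-/
import Mathlib
import Claimed.Agent.R300.InjExtSub

set_option autoImplicit false

namespace Claimed.Agent.R300

open scoped ENNReal ComplexConjugate InnerProductSpace
open InnerProductSpace (rankOne)

variable {p : Lab.Par}

/-! ### ring algebra of a block -/

theorem injx_pow_sandwich {M : Type*} [Monoid M] (P Q R : M) (k : ℕ) :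
    P ^ (k + 1) * Q * R ^ (k + 1) = P * (P ^ k * Q * R ^ k) * R := by
  rw [pow_succ', pow_succ]
  simp only [mul_assoc]

theorem injx_route_block {M : Type*} [Ring M] (a b r r' : M) (hr' : r' * r' = r')
    (har : Commute a r) (har' : Commute a r') (hb : b * r' = r * b) (k : ℕ) :
    (a * r) ^ k * (b * r') * (a * r') ^ k = a ^ k * b * a ^ k * r' := by
  induction k with
  | zero => simp
  | succ k ih =>
    rw [injx_pow_sandwich, ih]
    have h1 : r * a ^ k = a ^ k * r := ((har.pow_left k).eq).symm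
    have h2 : r' * a = a * r' := har'.eq.symm
    have h3 : r' * a ^ (k + 1) = a ^ (k + 1) * r' := ((har'.pow_left (k + 1)).eq).symm
    calc a * r * (a ^ k * b * a ^ k * r') * (a * r')
        = a * (r * a ^ k) * b * a ^ k * (r' * a) * r' := by simp only [mul_assoc]
      _ = a * a ^ k * (r * b) * (a ^ k * a) * (r' * r') := by rw [h1, h2]; simp only [mul_assoc]
      _ = a ^ (k + 1) * b * (r' * a ^ (k + 1)) * r' := by
          rw [← hb, hr', ← pow_succ, ← pow_succ']; simp only [mul_assoc]
      _ = a ^ (k + 1) * b * a ^ (k + 1) * (r' * r') := by rw [h3]; simp only [mul_assoc]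
      _ = a ^ (k + 1) * b * a ^ (k + 1) * r' := by rw [hr']

/-! ### height shifting operators -/

theorem injHt_idem (X : InjGr p) (m : ℤ) : injHt X m * injHt X m = injHt X m := by
  unfold injHt
  rw [spec_restr_mul, Set.inter_self]

theorem injHt_neg (X : InjGr p) {m : ℤ} (hm : m < 0) : injHt X m = 0 := by
  ext ξ v
  have hv : v ∉ {v | (X.ht v : ℤ) = m} := by
    intro h
    have h' : (X.ht v : ℤ) = m := h
    omega
  exact scRestr_apply_not_mem (B := {v | (X.ht v : ℤ) = m}) ξ hv

theorem injHt_delta (X : InjGr p) (v : X.V) : injHt X (X.ht v) (scDelta v) = scDelta v :=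
  smp_restr_delta_mem (B := {w | (X.ht w : ℤ) = X.ht v}) rfl

theorem injHt_delta_ne (X : InjGr p) (v : X.V) {m : ℤ} (h : (X.ht v : ℤ) ≠ m) :
    injHt X m (scDelta v) = 0 :=
  smp_restr_delta_not_mem (B := {w | (X.ht w : ℤ) = m}) h

theorem injHt_apply_eq (X : InjGr p) (ξ : ScL2 X.V) (v : X.V) {m : ℤ} (h : (X.ht v : ℤ) = m) :
    injHt X m ξ v = ξ v :=
  scRestr_apply_mem (B := {w | (X.ht w : ℤ) = m}) ξ h

theorem injHt_apply_ne (X : InjGr p) (ξ : ScL2 X.V) (v : X.V) {m : ℤ} (h : (X.ht v : ℤ) ≠ m) :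
    injHt X m ξ v = 0 :=
  scRestr_apply_not_mem (B := {w | (X.ht w : ℤ) = m}) ξ h

/-- `U` maps the height `m` to the height `m - o` -/
def InjComm (X : InjGr p) (o : ℤ) (U : ScL2 X.V →L[ℂ] ScL2 X.V) : Prop :=
  ∀ m : ℤ, U * injHt X m = injHt X (m - o) * U

namespace InjComm

variable {X : InjGr p} {o o' : ℤ} {U U' : ScL2 X.V →L[ℂ] ScL2 X.V}

theorem of_ker {k : X.V → X.V → ℂ} (hU : SmpHasKer U k)
    (h : ∀ v w, k v w ≠ 0 → (X.ht w : ℤ) = X.ht v + o) : InjComm X o U := by
  intro m
  refine scOp_ext fun w => ?_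
  rw [inj_mul_apply, inj_mul_apply]
  ext v
  by_cases hw : (X.ht w : ℤ) = m
  · subst hw
    rw [injHt_delta]
    by_cases hv : (X.ht v : ℤ) = X.ht w - o
    · rw [injHt_apply_eq X _ v hv]
    · rw [injHt_apply_ne X _ v hv, hU v w]
      by_contra hne
      exact hv (by rw [h v w hne]; ring)
  · rw [injHt_delta_ne X w hw, map_zero]
    by_cases hv : (X.ht v : ℤ) = m - o
    · rw [injHt_apply_eq X _ v hv, hU v w]
      by_contra hne
      exact hw (by rw [h v w (fun h0 => hne h0.symm), hv]; ring)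
    · rw [injHt_apply_ne X _ v hv]
      rfl

theorem mul (h : InjComm X o U) (h' : InjComm X o' U') : InjComm X (o + o') (U * U') := by
  intro m
  rw [mul_assoc, h' m, ← mul_assoc, h (m - o'), mul_assoc, show m - o' - o = m - (o + o') by ring]

theorem star (h : InjComm X o U) : InjComm X (-o) (star U) := by
  intro m
  have h1 := congrArg Star.star (h (m + o))
  rw [star_mul, star_mul, injHt_star, injHt_star, add_sub_cancel_right] at h1
  rw [← h1, sub_neg_eq_add]

theorem one : InjComm X 0 (1 : ScL2 X.V →L[ℂ] ScL2 X.V) := by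
  intro m
  rw [one_mul, mul_one, sub_zero]

theorem pow (h : InjComm X 0 U) (k : ℕ) : InjComm X 0 (U ^ k) := by
  induction k with
  | zero => rw [pow_zero]; exact one
  | succ k ih =>
    rw [pow_succ]
    have := ih.mul h
    rwa [add_zero] at this

theorem sub (h : InjComm X o U) (h' : InjComm X o U') : InjComm X o (U - U') := by
  intro m
  rw [sub_mul, mul_sub, h m, h' m]

theorem commute (h : InjComm X 0 U) (m : ℤ) : Commute U (injHt X m) := by
  have := h m
  rwa [sub_zero] at this

theorem apply_zero (h : InjComm X o U) (x y : X.V) (hxy : (X.ht x : ℤ) ≠ X.ht y - o) :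
    U (scDelta y) x = 0 := by
  have h1 : U (scDelta y) = injHt X (X.ht y - o) (U (scDelta y)) := by
    conv_lhs => rw [← injHt_delta X y]
    rw [← inj_mul_apply, h, inj_mul_apply]
  rw [h1]
  exact injHt_apply_ne X _ x hxy

end InjComm

theorem injU_comm (X : InjGr p) (hX : X.Str) (hd : X.DegLe) (τ : Fin p.T) :
    InjComm X (injOff (p.off τ)) (injU X τ) := by
  refine InjComm.of_ker (injU_spec X hX hd τ).1 ?_
  intro v w h
  unfold injUK at h
  have h1 : Nat.card {e // X.src e = v ∧ X.tgt e = w ∧ X.ety e = τ} ≠ 0 := by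
    intro h0
    apply h
    rw [h0]; simp
  obtain ⟨e, he1, he2, he3⟩ := (Nat.card_pos_iff.1 (Nat.pos_of_ne_zero h1)).1
  have := hX.ht_edge e
  rw [he1, he2, he3] at this
  exact this

/-! ### the operator with the kernel `injPK` -/

theorem injx_wtbd {V : Type} (ht : V → ℕ) (c : V → ℂ) (h : InjUnitWt ht c) (o : ℤ) :
    InjWtBd (fun v => (ht v : ℤ) + o) c 1 := by
  intro x
  by_cases hx : ∃ i : ℕ, (i : ℤ) + o = x
  · obtain ⟨i, rfl⟩ := hx
    have e : ∀ y, ((ht y : ℤ) + o = (i : ℤ) + o) ↔ ht y = i := by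
      intro y
      constructor <;> intro h <;> omega
    refine ⟨?_, ?_⟩
    · refine (h i).1.subset ?_
      rintro y ⟨h1, h2⟩
      exact ⟨(e y).1 h1, h2⟩
    · rw [one_pow, ← (h i).2]
      apply le_of_eq
      exact finsum_comp_equiv (Equiv.subtypeEquivRight e)
        (f := fun v : {v // ht v = i} => ‖c v.1‖ ^ 2)
  · have hemp : IsEmpty {y // (ht y : ℤ) + o = x} := ⟨fun y => hx ⟨ht y.1, y.2⟩⟩
    refine ⟨?_, ?_⟩
    · convert Set.finite_empty (α := V)
      ext y
      simp only [Set.mem_ofPred_eq, Set.mem_empty_iff_false, iff_false, not_and]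
      intro h1
      exact absurd ⟨ht y, h1⟩ hx
    · rw [finsum_of_isEmpty]; positivity

theorem injx_exists_PK {V : Type} (ht : V → ℕ) (c : V → ℂ) (h : InjUnitWt ht c) (o : ℤ) :
    ∃ P : ScL2 V →L[ℂ] ScL2 V, SmpHasKer P (injPK ht c o) := by
  classical
  have b1 := injx_wtbd ht c h o
  have b2 := injx_wtbd ht c h 0
  refine ⟨injWt (fun v => (ht v : ℤ) + o) c ∘L
    ContinuousLinearMap.adjoint (injWt (fun v => (ht v : ℤ) + 0) c), ?_⟩
  intro v w
  rw [ContinuousLinearMap.comp_apply, injWt_adjoint_delta zero_le_one b2,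
    injWt_apply zero_le_one b1, lp.coeFn_smul, Pi.smul_apply, smul_eq_mul, scDelta_apply]
  unfold injPK
  by_cases hvw : (ht w : ℤ) = ht v + o
  · rw [if_pos hvw, if_pos (by rw [hvw, add_zero])]; ring
  · rw [if_neg hvw, if_neg (by rw [add_zero]; exact fun h => hvw h.symm)]; ring

end Claimed.Agent.R300
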