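/-
Row 300 / S0553 (INJ paper).  LOWER ASSEMBLY, package LOW-6: deleted incidences (Lemma 6.3) and extraction of
constants (6.14), scalar part (operators on `ℓ²(V)`, `V` = surviving base vertices).
INJ captain: helper105.  Owner of the package: helper69.

Proof.  Everything is block diagonal for the heights (`smp_norm_le_of_blocks` with `a v = ht v`,
`b w = ht w - o`).  Abstract lemmas: `InjExtAbs.lean` (`InjExt`, `inj_abs_route`, `inj_compress_close`).
The surviving graph is a compression of the pre-deletion graph (`InjExtSub.lean`), where the blocks are exactly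
biregular (`InjExtOld.lean`, `InjExtGap.lean`).  Block algebra: `InjExtBlk.lean`.
-/
import Mathlib
import Claimed.Agent.R300.InjExtBlk

set_option autoImplicit false

namespace Claimed.Agent.R300

open scoped ENNReal ComplexConjugate InnerProductSpace

variable {p : Lab.Par}

open Classical in
/-- the weights of the normalised constants on the `ℬ` side -/
noncomputable def injCst (X : InjGr p) : X.V → ℂ := fun v =>
  if X.sd v = true then
    ((1 / Real.sqrt (Nat.card {w // X.sd w = true ∧ X.ht w = X.ht v}) : ℝ) : ℂ) else 0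

open Classical in
theorem injx_cv_eq_cst (X : InjGr p) (hX : X.Str) (i : ℕ) (v : X.V) :
    injCv X true i v = if X.ht v = i then injCst X v else 0 := by
  rw [injCv_apply X hX]
  unfold injCst
  by_cases h1 : X.ht v = i
  · subst h1
    by_cases h2 : X.sd v = true
    · rw [if_pos ⟨h2, rfl⟩, if_pos rfl, if_pos h2]
    · rw [if_neg (fun h => h2 h.1), if_pos rfl, if_neg h2]
  · rw [if_neg (fun h => h1 h.2), if_neg h1]

/-- every surviving layer is nonempty, so the constants are normalised -/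
theorem injCst_unit (O : InjOld p) {ε ρ : ℝ} (hε : ε ≤ 1 / 4) (hE : O.Exp ε ρ) :
    InjUnitWt O.sub.ht (injCst O.sub) := by
  classical
  intro i
  have hS := injx_sub_str O hE
  have hfin : Finite {w : O.sub.V // O.sub.sd w = true ∧ O.sub.ht w = i} := hS.fin_layer true i
  have hpos : (0 : ℝ) < Nat.card {w : O.sub.V // O.sub.sd w = true ∧ O.sub.ht w = i} := by
    exact_mod_cast injx_card_pos O hε hE true i
  refine ⟨?_, ?_⟩
  · have hf : {v : O.sub.V | O.sub.sd v = true ∧ O.sub.ht v = i}.Finite := @Set.toFinite _ _ hfin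
    refine hf.subset ?_
    rintro v ⟨h1, h2⟩
    refine ⟨?_, h1⟩
    by_contra h3
    exact h2 (if_neg h3)
  · have e1 : ∑ᶠ v : {v : O.sub.V // O.sub.ht v = i}, ‖injCst O.sub v.1‖ ^ 2
        = ∑ᶠ w : {w : O.sub.V // O.sub.sd w = true ∧ O.sub.ht w = i},
          (1 / (Nat.card {w : O.sub.V // O.sub.sd w = true ∧ O.sub.ht w = i} : ℝ)) := by
      rw [finsum_subtype_eq_finsum_cond (f := fun v => ‖injCst O.sub v‖ ^ 2)
          (fun v => O.sub.ht v = i),
        finsum_subtype_eq_finsum_cond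
          (f := fun _ => (1 / (Nat.card {w : O.sub.V // O.sub.sd w = true ∧ O.sub.ht w = i} : ℝ)))
          (fun w => O.sub.sd w = true ∧ O.sub.ht w = i)]
      refine finsum_congr fun v => ?_
      rw [finsum_eq_if, finsum_eq_if]
      by_cases h1 : O.sub.ht v = i
      · by_cases h2 : O.sub.sd v = true
        · rw [if_pos h1, if_pos ⟨h2, h1⟩]
          unfold injCst
          rw [if_pos h2, h1, Complex.norm_real, Real.norm_eq_abs, sq_abs, div_pow, one_pow,
            Real.sq_sqrt hpos.le]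
        · rw [if_pos h1, if_neg (fun h => h2 h.1)]
          unfold injCst
          rw [if_neg h2]; simp
      · rw [if_neg h1, if_neg (fun h => h1 h.2)]
    rw [e1]
    have := Fintype.ofFinite {w : O.sub.V // O.sub.sd w = true ∧ O.sub.ht w = i}
    rw [finsum_eq_sum_of_fintype, Finset.sum_const, Finset.card_univ, ← Nat.card_eq_fintype_card,
      nsmul_eq_mul]
    field_simp

/-- number of surviving `ℬ` vertices of height `i` -/
theorem injCst_card_le (O : InjOld p) {ε ρ : ℝ} (hE : O.Exp ε ρ) (i : ℕ) :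
    Nat.card {w // O.sub.sd w = true ∧ O.sub.ht w = i} ≤ 2 ^ p.H i := by
  rw [← hE.cardB i]
  exact injx_card_le O hE true i

theorem InjOld.sub_str (O : InjOld p) {ε ρ : ℝ} (hE : O.Exp ε ρ) : O.sub.Str :=
  injx_sub_str O hE

theorem InjOld.sub_degLe (O : InjOld p) {ε ρ : ℝ} (hE : O.Exp ε ρ) : O.sub.DegLe :=
  injx_sub_degLe O hE

/-- the block of the partial isometry between normalised constants -/
theorem injx_PK_block (X : InjGr p) (hX : X.Str) (o : ℤ) (P : ScL2 X.V →L[ℂ] ScL2 X.V)
    (hP : SmpHasKer P (injPK X.ht (injCst X) o)) (i k : ℕ) (hk : (k : ℤ) = i + o) :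
    P * injHt X k = InnerProductSpace.rankOne ℂ (injCv X true i) (injCv X true k) := by
  classical
  refine scOp_ext fun w => ?_
  rw [inj_mul_apply, InnerProductSpace.rankOne_apply, sc_inner_delta_right]
  ext v
  rw [lp.coeFn_smul, Pi.smul_apply, smul_eq_mul, injx_cv_eq_cst X hX, injx_cv_eq_cst X hX]
  by_cases hw : X.ht w = k
  · have hw' : (X.ht w : ℤ) = k := by exact_mod_cast hw
    rw [← hw', injHt_delta, hP v w, if_pos hw]
    unfold injPK
    by_cases hv : X.ht v = i
    · rw [if_pos hv, if_pos (by rw [hw', hk, hv])]; ring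
    · rw [if_neg hv, if_neg, mul_zero]
      intro h
      apply hv
      have : (X.ht v : ℤ) = i := by linarith
      exact_mod_cast this
  · have hw' : (X.ht w : ℤ) ≠ k := by exact_mod_cast hw
    rw [injHt_delta_ne X w hw', map_zero, if_neg hw]
    simp

theorem injx_numeric {ε ρ : ℝ} (hε0 : 0 < ε) (hε : ε ≤ 1 / 4) (hρ0 : 0 < ρ) (hρ : ρ < 1) (k : ℕ) :
    ρ ^ (4 * k + 2) + (4 * k + 2) * (2 * (Real.sqrt (2 * ε) + ε))
      ≤ ρ ^ (2 * k) + 100 * (k + 1) * Real.sqrt ε := by
  have h1 : ρ ^ (4 * k + 2) ≤ ρ ^ (2 * k) := pow_le_pow_of_le_one hρ0.le hρ.le (by omega)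
  have hs : 0 ≤ Real.sqrt ε := Real.sqrt_nonneg ε
  have hs2 : Real.sqrt ε ^ 2 = ε := Real.sq_sqrt hε0.le
  have hs3 : Real.sqrt ε ≤ 1 / 2 := by
    rw [show (1 / 2 : ℝ) = Real.sqrt (1 / 4) by
      rw [show (1 / 4 : ℝ) = (1 / 2) ^ 2 by norm_num, Real.sqrt_sq (by norm_num)]]
    exact Real.sqrt_le_sqrt hε
  have h2 : Real.sqrt (2 * ε) ≤ 3 / 2 * Real.sqrt ε := by
    apply Real.sqrt_le_iff.2
    refine ⟨by positivity, ?_⟩
    rw [mul_pow, hs2]; nlinarith
  have h3 : ε ≤ 1 / 2 * Real.sqrt ε := by nlinarith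
  have hk : (0 : ℝ) ≤ k := Nat.cast_nonneg k
  have h4 : (4 * (k : ℝ) + 2) * (2 * (Real.sqrt (2 * ε) + ε)) ≤ (4 * k + 2) * (2 * (2 * Real.sqrt ε)) := by
    apply mul_le_mul_of_nonneg_left _ (by positivity)
    linarith
  nlinarith

/-- **Extraction of constants** (6.14), scalar part. -/
theorem inj_extract (O : InjOld p) {ε ρ : ℝ} (hε0 : 0 < ε) (hε : ε ≤ 1 / 4) (hρ0 : 0 < ρ) (hρ : ρ < 1)
    (hE : O.Exp ε ρ) (τ0 τ : Fin p.T) (h0 : p.off τ0 = Lab.Off.eq) (k : ℕ) :
    ∃ P : ScL2 O.sub.V →L[ℂ] ScL2 O.sub.V,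
      SmpHasKer P (injPK O.sub.ht (injCst O.sub) (injOff (p.off τ))) ∧
      ‖(star (injU O.sub τ0) * injU O.sub τ0) ^ k * (star (injU O.sub τ0) * injU O.sub τ)
          * (star (injU O.sub τ0) * injU O.sub τ0) ^ k - P‖
        ≤ ρ ^ (2 * k) + 100 * (k + 1) * Real.sqrt ε := by
  have hS := injx_sub_str O hE
  have hd := injx_sub_degLe O hE
  obtain ⟨P, hP⟩ := injx_exists_PK O.sub.ht (injCst O.sub) (injCst_unit O hε hE) (injOff (p.off τ))
  refine ⟨P, hP, ?_⟩
  set o := injOff (p.off τ) with ho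
  set U0 := injU O.sub τ0 with hU0
  set Uτ := injU O.sub τ with hUτ
  set A := star U0 * U0 with hA
  set B := star U0 * Uτ with hB
  have o0 : injOff (p.off τ0) = 0 := by rw [h0]; rfl
  have c0 : InjComm O.sub 0 U0 := by
    have := injU_comm O.sub hS hd τ0
    rwa [o0] at this
  have cτ : InjComm O.sub o Uτ := injU_comm O.sub hS hd τ
  have cA : InjComm O.sub 0 A := by
    have := c0.star.mul c0
    simpa using this
  have cB : InjComm O.sub o B := by
    have := c0.star.mul cτ
    simpa using this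
  have cT : InjComm O.sub o (A ^ k * B * A ^ k) := by
    have := ((cA.pow k).mul cB).mul (cA.pow k)
    simpa using this
  have cP : InjComm O.sub o P := by
    refine InjComm.of_ker hP ?_
    intro v w h
    by_contra hne
    exact h (if_neg hne)
  have cS := cT.sub cP
  have hc : 0 ≤ ρ ^ (2 * k) + 100 * (k + 1) * Real.sqrt ε := by positivity
  refine smp_norm_le_of_blocks _ (fun v => (O.sub.ht v : ℤ)) (fun w => (O.sub.ht w : ℤ) - o)
    (fun x y hxy => cS.apply_zero x y hxy) _ hc ?_
  intro j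
  have e2 : scRestr {y : O.sub.V | (O.sub.ht y : ℤ) - o = j} = injHt O.sub (j + o) := by
    unfold injHt
    congr 1
    ext y
    constructor <;> intro h
    · show (O.sub.ht y : ℤ) = j + o
      have h' : (O.sub.ht y : ℤ) - o = j := h
      linarith
    · show (O.sub.ht y : ℤ) - o = j
      have h' : (O.sub.ht y : ℤ) = j + o := h
      linarith
  rw [e2]
  show ‖injHt O.sub j * ((A ^ k * B * A ^ k - P) * injHt O.sub (j + o))‖ ≤ _
  by_cases hj : j < 0
  · rw [injHt_neg O.sub hj, zero_mul, norm_zero]; exact hc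
  by_cases hj2 : j + o < 0
  · rw [injHt_neg O.sub hj2, mul_zero, mul_zero, norm_zero]; exact hc
  obtain ⟨i, rfl⟩ := Int.eq_ofNat_of_zero_le (not_lt.1 hj)
  obtain ⟨k', hk'⟩ := Int.eq_ofNat_of_zero_le (not_lt.1 hj2)
  have hk'' : (k' : ℤ) = i + o := hk'.symm
  rw [hk']
  set R := injHt O.sub (i : ℤ) with hR
  set R' := injHt O.sub (k' : ℤ) with hR'
  have hSb : (A ^ k * B * A ^ k - P) * R' = R * (A ^ k * B * A ^ k - P) := by
    have := cS (k' : ℤ)
    rw [show (k' : ℤ) - o = i by rw [hk'']; ring] at this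
    exact this
  have hb : B * R' = R * B := by
    have := cB (k' : ℤ)
    rw [show (k' : ℤ) - o = i by rw [hk'']; ring] at this
    exact this
  have eblock : R * ((A ^ k * B * A ^ k - P) * R') = A ^ k * B * A ^ k * R' - P * R' := by
    rw [hSb, ← mul_assoc, injHt_idem, ← hSb, sub_mul]
  rw [eblock, injx_PK_block O.sub hS o P hP i k' hk'']
  have ea : ∀ m : ℤ, star (U0 * injHt O.sub m) * (U0 * injHt O.sub m) = A * injHt O.sub m := by
    intro m
    calc star (U0 * injHt O.sub m) * (U0 * injHt O.sub m) = injHt O.sub m * A * injHt O.sub m := by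
          rw [star_mul, injHt_star]; simp only [hA, mul_assoc]
      _ = A * (injHt O.sub m * injHt O.sub m) := by rw [← (cA.commute m).eq]; simp only [mul_assoc]
      _ = A * injHt O.sub m := by rw [injHt_idem]
  have eb : star (U0 * R) * (Uτ * R') = B * R' := by
    calc star (U0 * R) * (Uτ * R') = R * (B * R') := by
          rw [star_mul, injHt_star]; simp only [hB, mul_assoc]; rfl
      _ = R * (R * B) := by rw [hb]
      _ = R * B := by rw [← mul_assoc, injHt_idem]
      _ = B * R' := hb.symm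
  have eroute : A ^ k * B * A ^ k * R'
      = (star (U0 * R) * (U0 * R)) ^ k * (star (U0 * R) * (Uτ * R'))
        * (star (U0 * R') * (U0 * R')) ^ k := by
    rw [ea, ea, eb]
    exact (injx_route_block A B R R' (injHt_idem O.sub _) (cA.commute _) (cA.commute _) hb k).symm
  rw [eroute]
  have x1 := injx_sub_ext O hε hρ0.le hE τ0 i i (by rw [o0, add_zero])
  have x2 := injx_sub_ext O hε hρ0.le hE τ i k' hk''
  have x3 := injx_sub_ext O hε hρ0.le hE τ0 k' k' (by rw [o0, add_zero])
  exact (inj_abs_route hρ0.le hρ.le x1 x2 x3 k).trans (injx_numeric hε0 hε hρ0 hρ k)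

end Claimed.Agent.R300
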