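/-
Row 300 / S0553 (INJ paper), Sec. 5: ADAPTER from the height graded labelled multigraph `InjGr` with voltages
to the voltage graphs `Shell.VGraph` of the shelling library.   (sub-captain helper133; owner of the proofs: see subtask)
 * letters = USED letters `X.ULb`; the positive letter `(s, true)` is read along the edge from `src` to `tgt`;
 * `X.vg hS vol : VGraph X.ULb X.V InjHeis`;
 * `vg_baseMetric` : `BaseMetric` with `Λ = 1.002 H / lq`, `ε = 1.002 b / lq`, `c = 6.03 / 1.002`;
 * `vg_degree` : at most `T 2^b D` signed letters at every vertex.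
-/
import Claimed.Agent.R300.InjGraph
import Claimed.Agent.R300.ShellCover

set_option autoImplicit false

namespace Claimed.Agent.R300

namespace InjGr

open Shell

variable {p : Lab.Par} (X : InjGr p)

/-- the used letters -/
def ULb : Type := {a : X.Lb // ∃ e, X.lab e = a}

/-- the letter of an edge -/
def ulab (e : X.E) : X.ULb := ⟨X.lab e, e, rfl⟩

/-- signed letter of a dart, `FreeGroup` convention: the forward dart `(e, false)` reads `(lab e, true)` -/
def slab (d : X.E × Bool) : X.ULb × Bool := (X.ulab d.1, !d.2)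

/-- the edge relation -/
def igE : X.V → X.ULb × Bool → X.V → Prop := fun a l b =>
  ∃ d : X.E × Bool, X.dg.src d = a ∧ X.dg.tgt d = b ∧ X.slab d = l

open Classical in
/-- the voltage of the dart leaving `a` with the signed letter `l` -/
noncomputable def igVol (vol : X.E → InjHeis) (a : X.V) (l : X.ULb × Bool) : InjHeis :=
  if h : ∃ d : X.E × Bool, X.dg.src d = a ∧ X.slab d = l then X.dvol vol (Classical.choose h) else 1

variable {X}

/-- folding: a dart is determined by its source and its signed letter -/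
theorem dart_unique (hS : X.Str) {d d' : X.E × Bool} (h1 : X.dg.src d = X.dg.src d')
    (h2 : X.slab d = X.slab d') : d = d' := by
  obtain ⟨e, t⟩ := d
  obtain ⟨e', t'⟩ := d'
  have h3 : X.lab e = X.lab e' := congrArg (fun l : X.ULb × Bool => l.1.1) h2
  have h4 : (!t) = (!t') := congrArg Prod.snd h2
  have h5 : t = t' := by simpa using h4
  subst h5
  cases t
  · rw [hS.fold_src e e' h1 h3]
  · rw [hS.fold_tgt e e' h1 h3]

theorem igVol_dart (hS : X.Str) (vol : X.E → InjHeis) (d : X.E × Bool) :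
    X.igVol vol (X.dg.src d) (X.slab d) = X.dvol vol d := by
  have h : ∃ d' : X.E × Bool, X.dg.src d' = X.dg.src d ∧ X.slab d' = X.slab d := ⟨d, rfl, rfl⟩
  unfold igVol
  rw [dif_pos h]
  have h2 := Classical.choose_spec h
  rw [dart_unique hS h2.1 h2.2]

theorem slab_inv (d : X.E × Bool) : X.slab (X.dg.inv d) = linv (X.slab d) := rfl

theorem dvol_inv (vol : X.E → InjHeis) (d : X.E × Bool) :
    X.dvol vol (X.dg.inv d) = (X.dvol vol d)⁻¹ := by
  obtain ⟨e, t⟩ := d
  cases t
  · rfl
  · exact (inv_inv _).symm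

theorem igE_dart (d : X.E × Bool) : X.igE (X.dg.src d) (X.slab d) (X.dg.tgt d) := ⟨d, rfl, rfl, rfl⟩

theorem igE_sym : GSym X.igE := by
  rintro a l b ⟨d, rfl, rfl, rfl⟩
  exact ⟨X.dg.inv d, rfl, X.dg.tgt_inv d, slab_inv d⟩

theorem igE_det (hS : X.Str) : GDet X.igE := by
  rintro a l b c ⟨d, rfl, rfl, rfl⟩ ⟨d', h1, rfl, h2⟩
  rw [dart_unique hS h1 h2]

theorem igVol_inv (hS : X.Str) (vol : X.E → InjHeis) ⦃a : X.V⦄ ⦃l : X.ULb × Bool⦄ ⦃b : X.V⦄
    (h : X.igE a l b) : X.igVol vol b (linv l) = (X.igVol vol a l)⁻¹ := by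
  obtain ⟨d, rfl, rfl, rfl⟩ := h
  rw [igVol_dart hS, ← dvol_inv, ← igVol_dart hS vol (X.dg.inv d), slab_inv]
  rfl

variable (X)

/-- the voltage graph -/
noncomputable def vg (hS : X.Str) (vol : X.E → InjHeis) : VGraph X.ULb X.V InjHeis where
  E := X.igE
  sym := igE_sym
  det := igE_det hS
  vol := X.igVol vol
  vol_inv := igVol_inv hS vol

variable {X}
variable (hS : X.Str) (vol : X.E → InjHeis)

theorem vg_E_edge (e : X.E) : (X.vg hS vol).E (X.src e) (X.ulab e, true) (X.tgt e) :=
  igE_dart (e, false)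

theorem vg_vol_edge (e : X.E) : (X.vg hS vol).vol (X.src e) (X.ulab e, true) = vol e :=
  igVol_dart hS vol (e, false)

theorem vg_E_pos_iff {a b : X.V} {s : X.ULb} :
    (X.vg hS vol).E a (s, true) b ↔ ∃ e, X.ulab e = s ∧ X.src e = a ∧ X.tgt e = b := by
  constructor
  · rintro ⟨⟨e, t⟩, h1, h2, h3⟩
    have h4 : (!t) = true := congrArg Prod.snd h3
    have h5 : t = false := by simpa using h4
    subst h5
    exact ⟨e, congrArg Prod.fst h3, h1, h2⟩
  · rintro ⟨e, rfl, rfl, rfl⟩
    exact vg_E_edge hS vol e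

theorem vg_allLetters (l : X.ULb × Bool) : ∃ a b, (X.vg hS vol).E a l b := by
  obtain ⟨⟨s, e, rfl⟩, t⟩ := l
  cases t
  · exact ⟨_, _, igE_dart (e, true)⟩
  · exact ⟨_, _, igE_dart (e, false)⟩

/-! ### dictionary walks / paths -/

theorem vg_path_iff {a b : X.V} {w : List (X.ULb × Bool)} :
    Path (X.vg hS vol).E a w b ↔ ∃ W, X.dg.IsWalk a W b ∧ W.map X.slab = w := by
  induction w generalizing a with
  | nil =>
    constructor
    · intro h
      exact ⟨[], path_nil_iff.1 h, rfl⟩
    · rintro ⟨W, hW, h⟩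
      obtain rfl := List.map_eq_nil_iff.1 h
      obtain rfl : a = b := hW
      exact Path.nil _
  | cons l w ih =>
    rw [path_cons_iff]
    constructor
    · rintro ⟨c, ⟨d, rfl, rfl, rfl⟩, h⟩
      obtain ⟨W, hW, rfl⟩ := ih.1 h
      exact ⟨d :: W, ⟨rfl, hW⟩, rfl⟩
    · rintro ⟨W, hW, h⟩
      cases W with
      | nil => simp at h
      | cons d W =>
        obtain ⟨rfl, hW⟩ := hW
        simp only [List.map_cons, List.cons.injEq] at h
        obtain ⟨rfl, rfl⟩ := h
        exact ⟨_, igE_dart d, ih.2 ⟨W, hW, rfl⟩⟩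

theorem vg_cpath_iff {a b : X.V} {f f' : InjHeis} {w : List (X.ULb × Bool)} :
    Path (X.vg hS vol).cE (a, f) w (b, f') ↔
      ∃ W, X.dg.IsWalk a W b ∧ W.map X.slab = w ∧ f' = f * (W.map (X.dvol vol)).prod := by
  induction w generalizing a f with
  | nil =>
    constructor
    · intro h
      have h' := path_nil_iff.1 h
      exact ⟨[], congrArg Prod.fst h', rfl, by simpa using (congrArg Prod.snd h').symm⟩
    · rintro ⟨W, hW, h, hf⟩
      obtain rfl := List.map_eq_nil_iff.1 h
      obtain rfl : a = b := hW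
      obtain rfl : f' = f := by simpa using hf
      exact Path.nil _
  | cons l w ih =>
    rw [path_cons_iff]
    constructor
    · rintro ⟨⟨c, g⟩, ⟨⟨d, h1, h2, h3⟩, hg⟩, h⟩
      simp only at h1 h2 hg
      subst h1 h2 h3
      obtain ⟨W, hW, rfl, hf⟩ := ih.1 h
      refine ⟨d :: W, ⟨rfl, hW⟩, rfl, ?_⟩
      have hv : (X.vg hS vol).vol (X.dg.src d) (X.slab d) = X.dvol vol d := igVol_dart hS vol d
      rw [hf, hg, hv, List.map_cons, List.prod_cons, mul_assoc]
    · rintro ⟨W, hW, h, hf⟩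
      cases W with
      | nil => simp at h
      | cons d W =>
        obtain ⟨rfl, hW⟩ := hW
        simp only [List.map_cons, List.cons.injEq] at h
        obtain ⟨rfl, rfl⟩ := h
        refine ⟨(X.dg.tgt d, f * X.dvol vol d), ⟨igE_dart d, ?_⟩, ih.2 ⟨W, hW, rfl, ?_⟩⟩
        · exact congrArg (f * ·) (igVol_dart hS vol d).symm
        · rw [hf, List.map_cons, List.prod_cons, mul_assoc]

include hS in
theorem reduced_of_slab {a b : X.V} {W : List (X.E × Bool)} (hW : X.dg.IsWalk a W b)
    (h : FreeGroup.IsReduced (W.map X.slab)) : X.dg.Reduced W := by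
  unfold FreeGroup.IsReduced at h
  rw [List.isChain_map] at h
  refine h.imp ?_
  rintro d d' H rfl
  have := H rfl
  simp [slab, dg, smpGraph] at this

include hS in
theorem cycRed_of_slab {a : X.V} {W : List (X.E × Bool)} (hW : X.dg.IsWalk a W a)
    (h : FreeGroup.IsCyclicallyReduced (W.map X.slab)) : X.dg.CycRed W := by
  refine ⟨reduced_of_slab hS hW h.1, ?_⟩
  rintro d hd d' hd' rfl
  have := h.2 (X.slab d') (by rw [List.getLast?_map]; exact Option.mem_map_of_mem _ hd')
    (X.slab (X.dg.inv d')) (by rw [List.head?_map]; exact Option.mem_map_of_mem _ hd) rfl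
  simp [slab, dg, smpGraph] at this

/-! ### the metric -/

variable (X) in
/-- the scale `Λ = 1.002 m`, `m = H / log2 q` -/
noncomputable def igLam (a : X.V) : ℝ := 1002 * (p.H (X.ht a) : ℝ) / (1000 * (p.lq : ℝ))

/-- Lipschitz constant of the scale -/
noncomputable def igEps (p : Lab.Par) : ℝ := 1002 * (p.b : ℝ) / (1000 * (p.lq : ℝ))

/-- `c Λ = 6.03 m` -/
noncomputable def igC : ℝ := 6030 / 1002

theorem lq_pos (hA : p.Adm) : 0 < p.lq := by
  have h1 := hA.hslope
  have h2 := hA.hb
  omega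

theorem H_pos (hA : p.Adm) (i : ℕ) : 0 < p.H i := by
  unfold Lab.Par.H
  have := hA.hs
  positivity

theorem map_dlab_of_slab {W W' : List (X.E × Bool)} (h : W.map X.slab = W'.map X.slab) :
    W.map X.dlab = W'.map X.dlab := by
  have h1 := congrArg (List.map fun l : X.ULb × Bool => (l.1.1, !l.2)) h
  simp only [List.map_map] at h1
  have h2 : ((fun l : X.ULb × Bool => (l.1.1, !l.2)) ∘ X.slab) = X.dlab := by
    funext d
    simp [slab, dlab, ulab]
  rwa [h2] at h1

include hS in
theorem ht_dart (d : X.E × Bool) : X.ht (X.dg.tgt d) ≤ X.ht (X.dg.src d) + 1 := by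
  obtain ⟨e, t⟩ := d
  have h := hS.ht_edge e
  have h2 : injOff (p.off (X.ety e)) = -1 ∨ injOff (p.off (X.ety e)) = 0 ∨
      injOff (p.off (X.ety e)) = 1 := by
    cases p.off (X.ety e) <;> simp [injOff]
  cases t
  · show X.ht (X.tgt e) ≤ X.ht (X.src e) + 1
    omega
  · show X.ht (X.src e) ≤ X.ht (X.tgt e) + 1
    omega

theorem vg_baseMetric (hA : p.Adm) (hW : X.WordUnique) (hG : X.VGirth603 vol) :
    VGraph.BaseMetric (X.vg hS vol) X.igLam (igEps p) igC := by
  have hq : (0 : ℝ) < p.lq := by exact_mod_cast lq_pos hA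
  have hq' : (0 : ℝ) < 1000 * (p.lq : ℝ) := by positivity
  refine ⟨?_, ?_, ?_, ?_⟩
  · intro a
    unfold igLam
    positivity
  · rintro a l b ⟨d, rfl, rfl, rfl⟩
    have h := ht_dart hS d
    have h2 : p.H (X.ht (X.dg.tgt d)) ≤ p.H (X.ht (X.dg.src d)) + p.b := by
      unfold Lab.Par.H
      have := Nat.mul_le_mul_left p.b h
      linarith
    have h3 : (p.H (X.ht (X.dg.tgt d)) : ℝ) ≤ p.H (X.ht (X.dg.src d)) + p.b := by exact_mod_cast h2
    unfold igLam igEps
    rw [← add_div, div_le_div_iff_of_pos_right hq']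
    linarith
  · intro a a' b b' w hred h h' hlen
    obtain ⟨W, hW1, rfl⟩ := (vg_path_iff hS vol).1 h
    obtain ⟨W', hW1', hW2'⟩ := (vg_path_iff hS vol).1 h'
    have hlen' : 1002 * p.H (X.ht a) ≤ 1000 * (W.length * p.lq) := by
      unfold igLam at hlen
      rw [div_le_iff₀ hq', List.length_map] at hlen
      have : (1002 * p.H (X.ht a) : ℝ) ≤ 1000 * (W.length * p.lq) := by linarith
      exact_mod_cast this
    have hWW := hW a a' b b' W W' hW1 hW1' (reduced_of_slab hS hW1 hred)
      (map_dlab_of_slab hW2'.symm) hlen'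
    subst hWW
    cases W with
    | nil =>
      have := H_pos hA (X.ht a)
      simp at hlen'
      omega
    | cons d W => exact hW1'.1.symm.trans hW1.1
  · intro a w hne hc h
    obtain ⟨W, hW1, rfl, hf⟩ := (vg_cpath_iff hS vol).1 h
    have hW0 : W ≠ [] := by
      rintro rfl
      exact hne rfl
    have hhol : (W.map (X.dvol vol)).prod = 1 := by simpa using hf.symm
    have hlt : 603 * p.H (X.ht a) < 100 * (W.length * p.lq) := by
      by_contra hcon
      exact hG a W hW1 hW0 (cycRed_of_slab hS hW1 hc) (not_lt.1 hcon) hhol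
    have hlt' : (603 * p.H (X.ht a) : ℝ) < 100 * (W.length * p.lq) := by exact_mod_cast hlt
    unfold igC igLam
    rw [List.length_map, ← mul_div_assoc, div_lt_iff₀ hq']
    linarith

/-- a finite set all of whose `T` fibres have at most `N` elements -/
theorem encard_le_of_fibres {E : Type} {T : ℕ} (A : Set E) (hA : A.Finite) (ty : E → Fin T) (N : ℕ)
    (h : ∀ τ, Nat.card {e // e ∈ A ∧ ty e = τ} ≤ N) : A.encard ≤ ((T * N : ℕ) : ℕ∞) := by
  classical
  rw [hA.encard_eq_coe_toFinset_card, Nat.cast_le]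
  calc hA.toFinset.card = ∑ τ : Fin T, (hA.toFinset.filter (fun e => ty e = τ)).card :=
        Finset.card_eq_sum_card_fiberwise (fun _ _ => Finset.mem_coe.2 (Finset.mem_univ _))
    _ ≤ ∑ τ : Fin T, N := Finset.sum_le_sum (fun τ _ => ?_)
    _ = T * N := by simp
  have h1 : Nat.card {e // e ∈ A ∧ ty e = τ} =
      Nat.card {e // e ∈ hA.toFinset.filter (fun e => ty e = τ)} :=
    Nat.card_congr (Equiv.subtypeEquivRight fun e => by simp)
  have h2 := h τ
  rw [h1, Nat.card_eq_fintype_card, Fintype.card_coe] at h2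
  exact h2

theorem dA_le (p : Lab.Par) (τ : Fin p.T) : dA p τ ≤ 2 ^ p.b * p.D := by
  unfold dA
  have h1 : p.d ≤ p.D := by
    unfold Lab.Par.d Lab.Par.D Lab.Par.ld Lab.Par.lD
    exact Nat.pow_le_pow_right (by norm_num) (Nat.div_le_div_right (by omega))
  have h2 : 2 ^ (if p.off τ = Lab.Off.up then p.b else 0) ≤ 2 ^ p.b :=
    Nat.pow_le_pow_right (by norm_num) (by split_ifs <;> omega)
  calc p.d * 2 ^ (if p.off τ = Lab.Off.up then p.b else 0) ≤ p.D * 2 ^ p.b :=
        Nat.mul_le_mul h1 h2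
    _ = 2 ^ p.b * p.D := Nat.mul_comm _ _

theorem dB_le (p : Lab.Par) (τ : Fin p.T) : dB p τ ≤ 2 ^ p.b * p.D := by
  unfold dB
  have h2 : 2 ^ (if p.off τ = Lab.Off.dn then p.b else 0) ≤ 2 ^ p.b :=
    Nat.pow_le_pow_right (by norm_num) (by split_ifs <;> omega)
  calc p.D * 2 ^ (if p.off τ = Lab.Off.dn then p.b else 0) ≤ p.D * 2 ^ p.b :=
        Nat.mul_le_mul le_rfl h2
    _ = 2 ^ p.b * p.D := Nat.mul_comm _ _

/-- at most `T 2^b D` signed letters at every vertex -/
theorem vg_degree (hD : X.DegLe) (a : X.V) :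
    {l | ∃ b, (X.vg hS vol).E a l b}.encard ≤ ((p.T * 2 ^ p.b * p.D : ℕ) : ℕ∞) := by
  have hfin := hS.fin_lb
  rw [mul_assoc]
  cases hsd : X.sd a
  · have hA : {e | X.src e = a}.Finite :=
      Set.Finite.of_injOn (f := X.lab) (t := Set.univ) (fun _ _ => Set.mem_univ _)
        (fun e he e' he' h => hS.fold_src e e' (he.trans he'.symm) h) Set.finite_univ
    refine le_trans (le_trans (Set.encard_le_encard ?_)
      (Set.encard_image_le (fun e => (X.ulab e, true)) {e | X.src e = a}))
      (encard_le_of_fibres _ hA X.ety _ fun τ => le_trans (hD.degA τ a) (dA_le p τ))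
    rintro l ⟨b, ⟨e, t⟩, h1, -, rfl⟩
    cases t
    · exact ⟨e, h1, rfl⟩
    · exfalso
      have h2 : X.tgt e = a := h1
      rw [← h2, hS.sd_tgt] at hsd
      cases hsd
  · have hA : {e | X.tgt e = a}.Finite :=
      Set.Finite.of_injOn (f := X.lab) (t := Set.univ) (fun _ _ => Set.mem_univ _)
        (fun e he e' he' h => hS.fold_tgt e e' (he.trans he'.symm) h) Set.finite_univ
    refine le_trans (le_trans (Set.encard_le_encard ?_)
      (Set.encard_image_le (fun e => (X.ulab e, false)) {e | X.tgt e = a}))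
      (encard_le_of_fibres _ hA X.ety _ fun τ => le_trans (hD.degB τ a) (dB_le p τ))
    rintro l ⟨b, ⟨e, t⟩, h1, -, rfl⟩
    cases t
    · exfalso
      have h2 : X.src e = a := h1
      rw [← h2, hS.sd_src] at hsd
      cases hsd
    · exact ⟨e, h1, rfl⟩

end InjGr

end Claimed.Agent.R300
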