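import Mathlib

/-!
# Shelling library, part 0: labelled graphs as relations, paths, pieces

Labelled graphs are relations `E : V → S × Bool → V → Prop` (`E a l b`: there is an edge from `a`
to `b` reading the signed letter `l`).  Words are `List (S × Bool)` as for `FreeGroup`.
-/

namespace Claimed.Agent.R300.Shell

universe u v w

variable {S : Type u} {V : Type v}

/-- inverse of a signed letter -/
def linv (l : S × Bool) : S × Bool := (l.1, !l.2)

@[simp] theorem linv_linv (l : S × Bool) : linv (linv l) = l := by
  cases l; simp [linv]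

theorem invRev_singleton (l : S × Bool) : FreeGroup.invRev [l] = [linv l] := by
  simp [FreeGroup.invRev, linv]

theorem invRev_cons' (l : S × Bool) (w : List (S × Bool)) :
    FreeGroup.invRev (l :: w) = FreeGroup.invRev w ++ [linv l] := by
  simp [FreeGroup.invRev, linv]

theorem invRev_concat (l : S × Bool) (w : List (S × Bool)) :
    FreeGroup.invRev (w ++ [l]) = linv l :: FreeGroup.invRev w := by
  simp [FreeGroup.invRev, linv]

/-- `Path E a w b`: the word `w` is read along a path from `a` to `b`. -/
inductive Path (E : V → S × Bool → V → Prop) : V → List (S × Bool) → V → Prop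
  | nil (a : V) : Path E a [] a
  | cons {a b c : V} {l : S × Bool} {w : List (S × Bool)} :
      E a l b → Path E b w c → Path E a (l :: w) c

/-- symmetric labelled graph -/
def GSym (E : V → S × Bool → V → Prop) : Prop := ∀ ⦃a l b⦄, E a l b → E b (linv l) a

/-- deterministic (folded) labelled graph -/
def GDet (E : V → S × Bool → V → Prop) : Prop := ∀ ⦃a l b c⦄, E a l b → E a l c → b = c

section paths

variable {E : V → S × Bool → V → Prop}

@[simp] theorem path_nil_iff {a b : V} : Path E a [] b ↔ a = b := by
  constructor
  · intro h; cases h; rfl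
  · rintro rfl; exact Path.nil _

theorem path_cons_iff {a c : V} {l : S × Bool} {w : List (S × Bool)} :
    Path E a (l :: w) c ↔ ∃ b, E a l b ∧ Path E b w c := by
  constructor
  · intro h; cases h with | cons h1 h2 => exact ⟨_, h1, h2⟩
  · rintro ⟨b, h1, h2⟩; exact Path.cons h1 h2

theorem path_single_iff {a c : V} {l : S × Bool} : Path E a [l] c ↔ E a l c := by
  simp [path_cons_iff]

theorem path_append_iff {a c : V} {u w : List (S × Bool)} :
    Path E a (u ++ w) c ↔ ∃ b, Path E a u b ∧ Path E b w c := by
  induction u generalizing a with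
  | nil => simp
  | cons l u ih =>
    simp only [List.cons_append, path_cons_iff, ih]
    constructor
    · rintro ⟨b, h1, b', h2, h3⟩; exact ⟨b', ⟨b, h1, h2⟩, h3⟩
    · rintro ⟨b', ⟨b, h1, h2⟩, h3⟩; exact ⟨b, h1, b', h2, h3⟩

theorem Path.append {a b c : V} {u w : List (S × Bool)} (h1 : Path E a u b) (h2 : Path E b w c) :
    Path E a (u ++ w) c := path_append_iff.2 ⟨b, h1, h2⟩

theorem Path.concat {a b c : V} {u : List (S × Bool)} {l : S × Bool} (h1 : Path E a u b)
    (h2 : E b l c) : Path E a (u ++ [l]) c := h1.append (path_single_iff.2 h2)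

theorem Path.mono {E' : V → S × Bool → V → Prop} (hE : ∀ a l b, E a l b → E' a l b)
    {a b : V} {w : List (S × Bool)} (h : Path E a w b) : Path E' a w b := by
  induction h with
  | nil => exact Path.nil _
  | cons h1 _ ih => exact Path.cons (hE _ _ _ h1) ih

theorem Path.det (hd : GDet E) {a b c : V} {w : List (S × Bool)} (h1 : Path E a w b)
    (h2 : Path E a w c) : b = c := by
  induction h1 with
  | nil => cases h2; rfl
  | cons e _ ih =>
    cases h2 with
    | cons e' p' =>
      have := hd e e'
      subst this
      exact ih p'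

theorem Path.inv (hs : GSym E) {a b : V} {w : List (S × Bool)} (h : Path E a w b) :
    Path E b (FreeGroup.invRev w) a := by
  induction h with
  | nil => simp
  | cons e _ ih =>
    rw [invRev_cons']
    exact ih.concat (hs e)

/-- backwards determinism -/
theorem Path.det_left (hs : GSym E) (hd : GDet E) {a a' b : V} {w : List (S × Bool)}
    (h1 : Path E a w b) (h2 : Path E a' w b) : a = a' :=
  (h1.inv hs).det hd (h2.inv hs)

theorem Path.of_step (hs : GSym E) (hd : GDet E) {a b : V} {w w' : List (S × Bool)}
    (h : Path E a w b) (hr : FreeGroup.Red.Step w w') : Path E a w' b := by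
  obtain @⟨L1, L2, x, bb⟩ := hr
  rw [path_append_iff] at h
  obtain ⟨c, h1, h2⟩ := h
  rw [path_cons_iff] at h2
  obtain ⟨d, e1, h2⟩ := h2
  rw [path_cons_iff] at h2
  obtain ⟨d', e2, h2⟩ := h2
  have : d' = c := by
    have e1' := hs e1
    simp only [linv] at e1'
    exact hd e2 e1'
  subst this
  exact h1.append h2

theorem Path.of_red (hs : GSym E) (hd : GDet E) {a b : V} {w w' : List (S × Bool)}
    (h : Path E a w b) (hr : FreeGroup.Red w w') : Path E a w' b := by
  induction hr with
  | refl => exact h
  | tail _ h2 ih => exact ih.of_step hs hd h2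

/-- A path may be replaced by the path reading any *reduced* word with the same image in the free
group. -/
theorem Path.of_mk_eq (hs : GSym E) (hd : GDet E) {a b : V} {w w' : List (S × Bool)}
    (h : Path E a w b) (hw' : FreeGroup.IsReduced w') (he : FreeGroup.mk w = FreeGroup.mk w') :
    Path E a w' b := by
  obtain ⟨L, h1, h2⟩ := FreeGroup.Red.exact.1 he
  have : L = w' := (hw'.red_iff_eq).1 h2
  subst this
  exact h.of_red hs hd h1

/-- every path can be reduced -/
theorem Path.exists_reduced (hs : GSym E) (hd : GDet E) {a b : V} {w : List (S × Bool)}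
    (h : Path E a w b) : ∃ w', FreeGroup.IsReduced w' ∧ FreeGroup.mk w' = FreeGroup.mk w ∧
      Path E a w' b := by
  classical
  refine ⟨FreeGroup.reduce w, ?_, FreeGroup.reduce.self, h.of_red hs hd FreeGroup.reduce.red⟩
  exact FreeGroup.IsReduced.of_reduce_eq FreeGroup.reduce.idem

theorem eq_of_isReduced_of_mk_eq {w w' : List (S × Bool)} (hw : FreeGroup.IsReduced w)
    (hw' : FreeGroup.IsReduced w') (he : FreeGroup.mk w = FreeGroup.mk w') : w = w' := by
  obtain ⟨L, h1, h2⟩ := FreeGroup.Red.exact.1 he
  rw [(hw'.red_iff_eq).1 h2] at h1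
  exact ((hw.red_iff_eq).1 h1).symm

theorem eq_nil_of_isReduced_of_mk_eq_one {w : List (S × Bool)} (hw : FreeGroup.IsReduced w)
    (he : FreeGroup.mk w = 1) : w = [] :=
  eq_of_isReduced_of_mk_eq hw FreeGroup.IsReduced.nil he

end paths

end Claimed.Agent.R300.Shell
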