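/-
Row 300 / S0553 (INJ paper), Sec. 5b: balls in a deterministic labelled graph of bounded degree (owner helper133).
-/
import Claimed.Agent.R300.ShellBase

set_option autoImplicit false

namespace Claimed.Agent.R300.Shell

open scoped Classical

universe u v

variable {S : Type u} {V : Type v} {E : V → S × Bool → V → Prop}

/-- Finset version of the ball bound for paths of a deterministic labelled graph. -/
theorem path_ball_finset (hd : GDet E) (Δ : ℕ) (hΔ : ∀ x : V, {l | ∃ z, E x l z}.encard ≤ Δ)
    (R : ℕ) : ∀ x : V, ∃ s : Finset V,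
      (∀ y, (∃ w, Path E x w y ∧ w.length ≤ R) → y ∈ s) ∧ s.card ≤ (Δ + 1) ^ R := by
  induction R with
  | zero =>
    intro x
    refine ⟨{x}, ?_, by simp⟩
    rintro y ⟨w, hw, hlen⟩
    have : w = [] := List.eq_nil_of_length_eq_zero (Nat.le_zero.1 hlen)
    subst this
    have hxy : x = y := path_nil_iff.1 hw
    simp [hxy]
  | succ R ih =>
    intro x
    choose B hB hcard using ih
    have hfin : {l | ∃ z, E x l z}.Finite := Set.finite_of_encard_le_coe (hΔ x)
    have hDcard : hfin.toFinset.card ≤ Δ := by
      have h1 := hΔ x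
      rw [hfin.encard_eq_coe_toFinset_card] at h1
      exact_mod_cast h1
    let nx : S × Bool → V := fun l => if h : ∃ z, E x l z then Classical.choose h else x
    have hnx : ∀ l z, E x l z → nx l = z := by
      intro l z h
      have h' : ∃ z, E x l z := ⟨z, h⟩
      simp only [nx, dif_pos h']
      exact hd (Classical.choose_spec h') h
    refine ⟨{x} ∪ hfin.toFinset.biUnion (fun l => B (nx l)), ?_, ?_⟩
    · rintro y ⟨w, hw, hlen⟩
      cases w with
      | nil =>
        have hxy : x = y := path_nil_iff.1 hw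
        simp [hxy]
      | cons l w =>
        obtain ⟨z, h1, h2⟩ := path_cons_iff.1 hw
        refine Finset.mem_union_right _ (Finset.mem_biUnion.2 ⟨l, ?_, ?_⟩)
        · simpa using ⟨z, h1⟩
        · rw [hnx l z h1]
          exact hB _ y ⟨w, h2, by simpa using hlen⟩
    · calc ({x} ∪ hfin.toFinset.biUnion (fun l => B (nx l))).card
          ≤ ({x} : Finset V).card + (hfin.toFinset.biUnion (fun l => B (nx l))).card :=
            Finset.card_union_le _ _
        _ ≤ 1 + hfin.toFinset.card * (Δ + 1) ^ R := by
            refine Nat.add_le_add (by simp) ?_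
            exact Finset.card_biUnion_le_card_mul _ _ _ (fun l _ => hcard _)
        _ ≤ 1 + Δ * (Δ + 1) ^ R := by
            exact Nat.add_le_add_left (Nat.mul_le_mul_right _ hDcard) _
        _ ≤ (Δ + 1) ^ (R + 1) := by
            have h1 : 1 ≤ (Δ + 1) ^ R := Nat.one_le_pow _ _ (Nat.succ_pos _)
            rw [pow_succ]
            nlinarith

/-- A set which injects into a ball is finite and small. -/
theorem path_ball_count (hd : GDet E) (Δ : ℕ) (hΔ : ∀ x : V, {l | ∃ z, E x l z}.encard ≤ Δ)
    (R : ℕ) (x : V) {α : Type*} (A : Set α) (f : α → V) (hf : Set.InjOn f A)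
    (hA : ∀ a ∈ A, ∃ w, Path E x w (f a) ∧ w.length ≤ R) :
    A.Finite ∧ A.ncard ≤ (Δ + 1) ^ R := by
  obtain ⟨s, hs, hcard⟩ := path_ball_finset hd Δ hΔ R x
  have hmaps : Set.MapsTo f A (↑s : Set V) := fun a ha => hs _ (hA a ha)
  have hfin : A.Finite := Set.Finite.of_injOn hmaps hf s.finite_toSet
  refine ⟨hfin, ?_⟩
  calc A.ncard ≤ (↑s : Set V).ncard := Set.ncard_le_ncard_of_injOn f hmaps hf s.finite_toSet
    _ = s.card := Set.ncard_coe_finset s
    _ ≤ _ := hcard

end Claimed.Agent.R300.Shell
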