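/-
Row 300 / S0553 (INJ paper), Sec. 5, 5b: the numerical inequalities of the geometry (owner helper133).
-/
import Claimed.Agent.R300.InjGeoBase

set_option autoImplicit false

namespace Claimed.Agent.R300

namespace InjGr

open Shell

variable {p : Lab.Par}

theorem igEps_nonneg : 0 ≤ igEps p := by
  unfold igEps
  positivity

theorem igEps_le (hA : p.Adm) : igEps p ≤ 2 / 1000000 := by
  have h0 : (0 : ℝ) < p.lq := by exact_mod_cast lq_pos hA
  have h1 : (1000000 : ℝ) * p.b ≤ p.lq := by exact_mod_cast hA.hslope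
  unfold igEps
  rw [div_le_iff₀ (by positivity)]
  linarith

theorem igC_nonneg : 0 ≤ igC := by
  unfold igC
  norm_num

theorem igC_eps (hA : p.Adm) : igC * igEps p ≤ 2 := by
  have h1 := igEps_le hA
  have h2 := igEps_nonneg (p := p)
  unfold igC
  linarith

theorem ig_msum_le (hA : p.Adm) (k : ℕ) : msum (1 + igEps p) k ≤ msum (1 + 2 / 1000000) k :=
  msum_le_msum (by have := igEps_nonneg (p := p); linarith) (by have := igEps_le hA; linarith) k

theorem ig_num5 (hA : p.Adm) : msum (1 + igEps p) 5 ≤ igC := by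
  refine (ig_msum_le hA 5).trans ?_
  unfold igC
  norm_num [msum, Finset.sum_range_succ]

theorem lq_le_s : p.lq ≤ p.s := by
  unfold Lab.Par.lq
  omega

theorem igLam_nonneg (X : InjGr p) (a : X.V) : 0 ≤ X.igLam a := by
  unfold igLam
  positivity

theorem igLam_ge (hA : p.Adm) (X : InjGr p) (a : X.V) : 1000 ≤ X.igLam a := by
  have h0 : (0 : ℝ) < p.lq := by exact_mod_cast lq_pos hA
  have h1 : 2000000 * p.lq ≤ p.H (X.ht a) := by
    have h2 : p.lq ≤ p.s := lq_le_s
    have h3 := hA.hn0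
    unfold Lab.Par.H
    nlinarith [Nat.zero_le (p.b * X.ht a)]
  have h1' : (2000000 : ℝ) * p.lq ≤ p.H (X.ht a) := by exact_mod_cast h1
  unfold igLam
  rw [le_div_iff₀ (by positivity)]
  linarith

theorem ig_num62 (hA : p.Adm) (X : InjGr p) (a : X.V) :
    2 * (msum (1 + igEps p) 3 * X.igLam a) + 2 ≤ igC * X.igLam a := by
  have h1 := ig_msum_le hA 3
  have h2 : msum (1 + 2 / 1000000 : ℝ) 3 ≤ 3001 / 1000 := by
    norm_num [msum, Finset.sum_range_succ]
  have h3 := igLam_ge hA X a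
  have h4 : msum (1 + igEps p) 3 * X.igLam a ≤ 3001 / 1000 * X.igLam a :=
    mul_le_mul_of_nonneg_right (h1.trans h2) (by linarith)
  unfold igC
  linarith

/-- the size of the removed part of a sheet -/
theorem ig_count (hA : p.Adm) (X : InjGr p) (a : X.V) {Δ : ℕ}
    (hΔ : Δ + 1 ≤ 2 ^ (61 * p.s / 100)) :
    (Δ + 1) ^ ⌊msum (1 + igEps p) 6 * X.igLam a⌋₊ ≤ 2 ^ (10 * p.H (X.ht a)) := by
  set R := ⌊msum (1 + igEps p) 6 * X.igLam a⌋₊ with hR
  obtain ⟨k, hk⟩ := hA.h20000
  have hlq : p.lq = 10001 * k := by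
    unfold Lab.Par.lq
    omega
  have h61 : 61 * p.s / 100 = 12200 * k := by omega
  have hk0 : 0 < k := by
    have := hA.hs
    omega
  have hk0' : (0 : ℝ) < k := by exact_mod_cast hk0
  have h1 := ig_msum_le hA 6
  have h2 : msum (1 + 2 / 1000000 : ℝ) 6 ≤ 6001 / 1000 := by
    norm_num [msum, Finset.sum_range_succ]
  have h3 := igLam_nonneg X a
  have h4 : msum (1 + igEps p) 6 * X.igLam a ≤ 6001 / 1000 * X.igLam a :=
    mul_le_mul_of_nonneg_right (h1.trans h2) h3
  have h5 : (R : ℝ) ≤ msum (1 + igEps p) 6 * X.igLam a :=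
    Nat.floor_le (mul_nonneg (msum_nonneg (by have := igEps_nonneg (p := p); linarith) 6) h3)
  have h6 : X.igLam a * (1000 * (10001 * (k : ℝ))) = 1002 * (p.H (X.ht a) : ℝ) := by
    unfold igLam
    rw [hlq]
    push_cast
    field_simp
  have h7 : (12200 * k * R : ℝ) ≤ 10 * p.H (X.ht a) := by
    have h8 : (R : ℝ) ≤ 6001 / 1000 * X.igLam a := h5.trans h4
    have h9 : (R : ℝ) * (1000 * (10001 * (k : ℝ))) ≤
        6001 / 1000 * (1002 * (p.H (X.ht a) : ℝ)) := by
      have h11 : (0 : ℝ) ≤ 1000 * (10001 * (k : ℝ)) := by positivity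
      calc (R : ℝ) * (1000 * (10001 * (k : ℝ)))
          ≤ 6001 / 1000 * X.igLam a * (1000 * (10001 * (k : ℝ))) :=
            mul_le_mul_of_nonneg_right h8 h11
        _ = 6001 / 1000 * (1002 * (p.H (X.ht a) : ℝ)) := by rw [mul_assoc, h6]
    have h10 : (0 : ℝ) ≤ p.H (X.ht a) := Nat.cast_nonneg _
    nlinarith
  have h7' : 12200 * k * R ≤ 10 * p.H (X.ht a) := by exact_mod_cast h7
  calc (Δ + 1) ^ R ≤ (2 ^ (61 * p.s / 100)) ^ R := Nat.pow_le_pow_left hΔ R
    _ = 2 ^ (12200 * k * R) := by rw [h61, ← pow_mul]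
    _ ≤ 2 ^ (10 * p.H (X.ht a)) := Nat.pow_le_pow_right (by norm_num) h7'

end InjGr

end Claimed.Agent.R300
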