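import Claimed.Agent.R300.InjPrivMetric
import Claimed.Agent.R300.DomBrGeo

/-!
# INJ Lemma 5.1 (private completion), part 3: non metric transfer, connectivity

For the completed voltage graph `Y.priv D` (`InjPrivDefs.lean`):

* `pchain_liftW`, `priv_pchain_old`, `priv_pchain_int`: chains of pieces of the completed cover are
  the chains of pieces of the old cover (at a private vertex all pieces are empty);
* `C6.priv`, `priv_c62` (added paths of length `≥ 3`), `priv_allLetters`;
* `priv_conn`: the completed cover is connected, if all added paths start at one vertex `v₀`, reach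
  every old vertex with trivial voltage, and the voltages of the added loops generate `F`;
* `privStd v₀ gen`: the standard family (a path of length three from `v₀` to every old vertex, a
  loop of length three at `v₀` for every generator) and `privStd_conn`.
(leaf SHELL-19, owner helper185)
-/

set_option linter.unusedSectionVars false

namespace Claimed.Agent.R300.Shell

universe u v w x y

variable {S : Type u} {V : Type v} {F : Type w} {P : Type x} [Group F]

section transfer

variable {Y : VGraph S V F} {D : PrivData V F P}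

theorem mk_liftW (w : List (S × Bool)) :
    FreeGroup.mk (liftW D w) = FreeGroup.map Sum.inl (FreeGroup.mk w) := by
  rw [FreeGroup.map.mk]
  rfl

theorem liftW_append (u w : List (S × Bool)) : liftW D (u ++ w) = liftW D u ++ liftW D w := by
  simp [liftW]

theorem liftW_injective : Function.Injective (liftW D : List (S × Bool) → _) := by
  apply List.map_injective_iff.2
  rintro ⟨s, d⟩ ⟨s', d'⟩ h
  simp only [Prod.mk.injEq, Sum.inl.injEq] at h
  rw [h.1, h.2]

/-- every edge at a private vertex carries a private letter -/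
theorem priv_E_int_letter {q : D.PV} {l : (S ⊕ D.PS) × Bool} {b : V ⊕ D.PV}
    (h : (Y.priv D).E (Sum.inr q) l b) : ∃ σ : D.PS, l.1 = Sum.inr σ := by
  obtain ⟨s | σ, d⟩ := l
  · obtain ⟨a', b', e, -, -⟩ := h
    cases e
  · exact ⟨σ, rfl⟩

/-- old pieces are pieces of the completed cover -/
theorem piece_liftW {x z : V × F} {p : List (S × Bool)} (h : Piece Y.rel x p z) :
    Piece (Y.priv D).rel (Sum.inl x.1, x.2) (liftW D p) (Sum.inl z.1, z.2) := by
  obtain ⟨h1, h2, a', b', h3, h4⟩ := VGraph.piece_iff.1 h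
  exact VGraph.piece_iff.2 ⟨cpath_liftW h1, liftW_isReduced.2 h2, Sum.inl a', Sum.inl b',
    fun e => h3 (Sum.inl.inj e), path_liftW h4⟩

theorem pchain_liftW {k : ℕ} {x z : V × F} {w : List (S × Bool)} (h : PChain Y.rel k x w z) :
    PChain (Y.priv D).rel k (Sum.inl x.1, x.2) (liftW D w) (Sum.inl z.1, z.2) := by
  induction h with
  | nil x => exact PChain.nil _
  | cons hp _ ih =>
    rw [liftW_append]
    exact PChain.cons (piece_liftW hp) ih
  | skip _ ih => exact PChain.skip ih

/-- a piece of the completed cover is empty or an old piece -/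
theorem priv_piece_cases {x z : (V ⊕ D.PV) × F} {W : List ((S ⊕ D.PS) × Bool)}
    (h : Piece (Y.priv D).rel x W z) :
    (W = [] ∧ z = x) ∨ ∃ a b w, x.1 = Sum.inl a ∧ z.1 = Sum.inl b ∧ W = liftW D w ∧
      Piece Y.rel (a, x.2) w (b, z.2) := by
  obtain ⟨w, rfl⟩ := priv_piece_old h
  obtain ⟨h1, h2, a', b', h3, h4⟩ := VGraph.piece_iff.1 h
  by_cases hw : w = []
  · subst hw
    left
    exact ⟨rfl, (path_nil_iff.1 h1).symm⟩
  · right
    obtain ⟨a, ha⟩ := old_of_path_liftW hw (VGraph.cpath_fst h1)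
    obtain ⟨a₀', rfl⟩ := old_of_path_liftW hw h4
    obtain ⟨x1, f⟩ := x
    simp only at ha
    subst ha
    obtain ⟨b, hb, q⟩ := cpath_of_liftW h1
    obtain ⟨b₀', -, q'⟩ := path_of_liftW h4
    exact ⟨a, b, w, rfl, hb, rfl, VGraph.piece_iff.2 ⟨q, liftW_isReduced.1 h2, a₀', b₀',
      fun e => h3 (by rw [e]), q'⟩⟩

/-- chains of pieces of the completed cover issued from an old vertex are old chains -/
theorem priv_pchain_old {k : ℕ} {x z : (V ⊕ D.PV) × F} {W : List ((S ⊕ D.PS) × Bool)}
    (h : PChain (Y.priv D).rel k x W z) (a : V) (ha : x.1 = Sum.inl a) :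
    ∃ b w, z.1 = Sum.inl b ∧ W = liftW D w ∧ PChain Y.rel k (a, x.2) w (b, z.2) := by
  induction h generalizing a with
  | nil x => exact ⟨a, [], ha, rfl, PChain.nil _⟩
  | cons hp _ ih =>
    rcases priv_piece_cases hp with ⟨rfl, rfl⟩ | ⟨a', b, p₀, ha', hb, rfl, hp₀⟩
    · obtain ⟨b, w₀, hb, rfl, hc⟩ := ih a ha
      exact ⟨b, w₀, hb, rfl, PChain.skip hc⟩
    · obtain rfl : a' = a := Sum.inl.inj (ha'.symm.trans ha)
      obtain ⟨c, w₀, hc, rfl, hch⟩ := ih b hb
      exact ⟨c, p₀ ++ w₀, hc, (liftW_append _ _).symm, PChain.cons hp₀ hch⟩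
  | skip _ ih =>
    obtain ⟨b, w₀, hb, rfl, hc⟩ := ih a ha
    exact ⟨b, w₀, hb, rfl, PChain.skip hc⟩

/-- chains of pieces issued from a private vertex are empty -/
theorem priv_pchain_int {k : ℕ} {x z : (V ⊕ D.PV) × F} {W : List ((S ⊕ D.PS) × Bool)}
    (h : PChain (Y.priv D).rel k x W z) (q : D.PV) (hq : x.1 = Sum.inr q) : W = [] ∧ z = x := by
  induction h generalizing q with
  | nil x => exact ⟨rfl, rfl⟩
  | cons hp _ ih =>
    rcases priv_piece_cases hp with ⟨rfl, rfl⟩ | ⟨a', b, p₀, ha', -, -, -⟩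
    · obtain ⟨rfl, rfl⟩ := ih q hq
      exact ⟨rfl, rfl⟩
    · rw [hq] at ha'
      cases ha'
  | skip _ ih => exact ih q hq

/-- **`C6` passes to the completed cover.** -/
theorem C6.priv (h : C6 Y.rel) : C6 (Y.priv D).rel := by
  rintro ⟨a | q, f⟩ W hW
  · obtain ⟨b, w, hb, rfl, hc⟩ := priv_pchain_old hW a rfl
    obtain rfl := Sum.inl.inj hb
    rw [mk_liftW, h hc, map_one]
  · rw [(priv_pchain_int hW q rfl).1]
    rfl

theorem priv_allLetters (h : AllLetters Y.rel) : AllLetters (Y.priv D).rel := by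
  rintro ⟨s | σ, d⟩
  · obtain ⟨x, z, e⟩ := h (s, d)
    exact ⟨(Sum.inl x.1, x.2), (Sum.inl z.1, z.2), ⟨_, _, rfl, rfl, e.1⟩, e.2⟩
  · cases d
    · exact ⟨(D.node σ.1.1 (σ.1.2 + 1), 1), (D.node σ.1.1 σ.1.2, _), ⟨rfl, rfl⟩, rfl⟩
    · exact ⟨(D.node σ.1.1 σ.1.2, 1), (D.node σ.1.1 (σ.1.2 + 1), _), ⟨rfl, rfl⟩, rfl⟩

theorem priv_pos_surjective : Function.Surjective (Y.priv D).rel.pos := fun a => ⟨(a, 1), rfl⟩

end transfer

/-! ### short paths -/

section short

variable {Y : VGraph S V F} {D : PrivData V F P}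

theorem PrivData.node_inl {p : P} {j : ℕ} {a : V} (h : D.node p j = Sum.inl a) :
    j = 0 ∨ D.n p ≤ j := by
  by_contra hcon
  rw [D.node_int p j (by omega)] at h
  cases h

/-- a private edge issued from an old vertex ends at a private vertex -/
theorem priv_E_old_int (h2 : ∀ p, 2 ≤ D.n p) {a b : V} {σ : D.PS} {d : Bool} :
    ¬ (Y.priv D).E (Sum.inl a) (Sum.inr σ, d) (Sum.inl b) := by
  obtain ⟨⟨p, j⟩, hj⟩ := σ
  have := h2 p
  simp only at hj
  cases d
  · rintro ⟨e1, e2⟩
    have k1 := D.node_inl e1.symm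
    have k2 := D.node_inl e2.symm
    simp only at k1 k2
    omega
  · rintro ⟨e1, e2⟩
    have k1 := D.node_inl e1.symm
    have k2 := D.node_inl e2.symm
    simp only at k1 k2
    omega

/-- a reduced path of length at most two between old vertices contains no private letter -/
theorem priv_short_old (h3 : ∀ p, 3 ≤ D.n p) {b b' : V} {s : List ((S ⊕ D.PS) × Bool)}
    (hs : FreeGroup.IsReduced s) (hp : Path (Y.priv D).E (Sum.inl b) s (Sum.inl b'))
    (hl : s.length ≤ 2) : ∃ s₀, s = liftW D s₀ := by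
  have h2 : ∀ p, 2 ≤ D.n p := fun p => le_trans (by norm_num) (h3 p)
  refine exists_liftW ?_
  match s, hs, hp, hl with
  | [], _, _, _ => simp
  | [l], _, hp, _ =>
    rintro l' hl' σ hσ
    obtain rfl := List.mem_singleton.1 hl'
    obtain ⟨l1, d⟩ := l'
    simp only at hσ
    subst hσ
    exact priv_E_old_int h2 (path_single_iff.1 hp)
  | [l₁, l₂], hs, hp, _ =>
    obtain ⟨m, e1, hp2⟩ := path_cons_iff.1 hp
    have e2 := path_single_iff.1 hp2
    obtain ⟨s₁ | σ₁, d₁⟩ := l₁
    · obtain ⟨a', m', -, rfl, -⟩ := e1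
      obtain ⟨s₂ | σ₂, d₂⟩ := l₂
      · simp
      · exact absurd e2 (priv_E_old_int h2)
    · exfalso
      obtain ⟨⟨p, j⟩, hj⟩ := σ₁
      have hn := h3 p
      simp only at hj
      rw [FreeGroup.isReduced_cons_cons] at hs
      cases d₁
      · obtain ⟨rfl, e1⟩ := e1
        simp only at e1 e2
        have k1 := D.node_inl e1.symm
        have hj' : 0 < j ∧ j < D.n p := by omega
        rcases priv_E_at_int hj' e2 with ⟨σ, hσ, rfl⟩ | ⟨σ, hσ, rfl⟩
        · have : σ = ⟨(p, j), hj⟩ := Subtype.ext hσ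
          subst this
          have := hs.1 rfl
          simp at this
        · obtain ⟨e3, -⟩ := e2
          rw [hσ] at e3
          have k3 := D.node_inl e3.symm
          simp only at k3
          omega
      · obtain ⟨e1, rfl⟩ := e1
        simp only at e1 e2
        have k1 := D.node_inl e1.symm
        have hj' : 0 < j + 1 ∧ j + 1 < D.n p := by omega
        rcases priv_E_at_int hj' e2 with ⟨σ, hσ, rfl⟩ | ⟨σ, hσ, rfl⟩
        · obtain ⟨-, e3⟩ := e2
          rw [hσ] at e3
          have k3 := D.node_inl e3.symm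
          simp only at k3
          omega
        · have : σ = ⟨(p, j), hj⟩ := Subtype.ext (by simpa using hσ)
          subst this
          have := hs.1 rfl
          simp at this

/-- there is no nonempty reduced closed path of length at most two at a private vertex -/
theorem priv_short_int (h3 : ∀ p, 3 ≤ D.n p) {q : D.PV} {s : List ((S ⊕ D.PS) × Bool)}
    (hs : FreeGroup.IsReduced s) (hp : Path (Y.priv D).E (Sum.inr q) s (Sum.inr q))
    (hl : s.length ≤ 2) : s = [] := by
  match s, hs, hp, hl with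
  | [], _, _, _ => rfl
  | [l], hs, hp, _ =>
    exfalso
    obtain ⟨σ, hσ⟩ := priv_E_int_letter (path_single_iff.1 hp)
    obtain ⟨l1, d⟩ := l
    simp only at hσ
    subst hσ
    have hc : FreeGroup.IsCyclicallyReduced [((Sum.inr σ : S ⊕ D.PS), d)] := by
      refine ⟨hs, ?_⟩
      intro a ha b hb _
      simp only [List.getLast?_singleton, List.head?_cons, Option.mem_def,
        Option.some.injEq] at ha hb
      rw [← ha, ← hb]
    have := (priv_long hc hp (σ := σ) (d := d) (by simp)).1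
    have := h3 σ.1.1
    simp at *
    omega
  | [l₁, l₂], hs, hp, _ =>
    exfalso
    obtain ⟨m, e1, -⟩ := path_cons_iff.1 hp
    obtain ⟨σ, hσ⟩ := priv_E_int_letter e1
    obtain ⟨l1, d⟩ := l₁
    simp only at hσ
    subst hσ
    have hc : FreeGroup.IsCyclicallyReduced [((Sum.inr σ : S ⊕ D.PS), d), l₂] := by
      refine ⟨hs, ?_⟩
      intro a ha b hb hab
      simp only [List.head?_cons, Option.mem_def, Option.some.injEq] at hb
      have ha' : l₂ = a := by simpa using ha
      subst ha' hb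
      rw [FreeGroup.isReduced_cons_cons] at hs
      exact (hs.1 hab.symm).symm
    have := (priv_long hc hp (σ := σ) (d := d) (by simp)).1
    have := h3 σ.1.1
    simp at *
    omega

/-- **`C62` passes to the completed cover**, if the added paths have length at least three. -/
theorem priv_c62 (h3 : ∀ p, 3 ≤ D.n p) (h : DomBr.C62 Y.rel) : DomBr.C62 (Y.priv D).rel := by
  classical
  rintro ⟨a | q, f⟩ y y' c s c' hc hs hl hc'
  · obtain ⟨b, c₀, hb, rfl, hc₀⟩ := priv_pchain_old hc a rfl
    obtain ⟨b', c₀', hb', rfl, hc₀'⟩ := priv_pchain_old hc' a rfl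
    obtain ⟨y1, f1⟩ := y
    obtain ⟨y1', f1'⟩ := y'
    simp only at hb hb' hc₀ hc₀'
    subst hb hb'
    have hp' : Path (Y.priv D).cE (Sum.inl b, f1) (FreeGroup.reduce s) (Sum.inl b', f1') :=
      Path.of_red (Y.priv D).cE_sym (Y.priv D).cE_det hs FreeGroup.reduce.red
    have hred : FreeGroup.IsReduced (FreeGroup.reduce s) :=
      FreeGroup.IsReduced.of_reduce_eq FreeGroup.reduce.idem
    have hlen : (FreeGroup.reduce s).length ≤ 2 :=
      le_trans (FreeGroup.reduce.red (L := s)).length_le hl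
    obtain ⟨s₀, hs₀⟩ := priv_short_old h3 hred (VGraph.cpath_fst hp') hlen
    rw [hs₀] at hp' hlen
    obtain ⟨b'', hb'', q⟩ := cpath_of_liftW hp'
    obtain rfl := Sum.inl.inj hb''
    have key := h hc₀ q (by simpa using hlen) hc₀'
    rw [← FreeGroup.mul_mk, ← FreeGroup.reduce.self (L := s), hs₀, FreeGroup.mul_mk,
      ← liftW_append, mk_liftW, mk_liftW, key]
  · obtain ⟨rfl, rfl⟩ := priv_pchain_int hc q rfl
    obtain ⟨rfl, rfl⟩ := priv_pchain_int hc' q rfl
    have hp' : Path (Y.priv D).cE (Sum.inr q, f) (FreeGroup.reduce s) (Sum.inr q, f) :=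
      Path.of_red (Y.priv D).cE_sym (Y.priv D).cE_det hs FreeGroup.reduce.red
    have hred : FreeGroup.IsReduced (FreeGroup.reduce s) :=
      FreeGroup.IsReduced.of_reduce_eq FreeGroup.reduce.idem
    have hlen : (FreeGroup.reduce s).length ≤ 2 :=
      le_trans (FreeGroup.reduce.red (L := s)).length_le hl
    have h0 := priv_short_int h3 hred (VGraph.cpath_fst hp') hlen
    rw [List.nil_append, ← FreeGroup.reduce.self (L := s), h0]

end short

/-! ### connectivity -/

section conn

/-- the voltage cover is connected -/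
def VGraph.Conn (Y : VGraph S V F) : Prop := ∀ x z : V × F, ∃ w, Path Y.cE x w z

variable {Y : VGraph S V F} {D : PrivData V F P}

theorem priv_vol_fwd (a : V ⊕ D.PV) (σ : D.PS) :
    (Y.priv D).vol a (Sum.inr σ, true) = if σ.1.2 = 0 then D.g σ.1.1 else 1 := by
  cases a <;> rfl

theorem priv_vol_old (a : V) (l : S × Bool) :
    (Y.priv D).vol (Sum.inl a) (Sum.inl l.1, l.2) = Y.vol a l := rfl

/-- walking along an added path -/
theorem priv_along (p : P) (f : F) (j : ℕ) (hj : j + 1 ≤ D.n p) :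
    ∃ w, Path (Y.priv D).cE (Sum.inl (D.s p), f) w (D.node p (j + 1), f * D.g p) := by
  induction j with
  | zero =>
    refine ⟨[((Sum.inr (⟨(p, 0), hj⟩ : D.PS) : S ⊕ D.PS), true)],
      path_single_iff.2 ⟨⟨(D.node_zero p).symm, rfl⟩, ?_⟩⟩
    have := priv_vol_fwd (Y := Y) (Sum.inl (D.s p)) (⟨(p, 0), hj⟩ : D.PS)
    show f * D.g p = f * (Y.priv D).vol (Sum.inl (D.s p)) (Sum.inr (⟨(p, 0), hj⟩ : D.PS), true)
    rw [this]
    simp
  | succ j ih =>
    obtain ⟨w, hw⟩ := ih (by omega)
    refine ⟨w ++ [((Sum.inr (⟨(p, j + 1), hj⟩ : D.PS) : S ⊕ D.PS), true)],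
      hw.concat ⟨⟨rfl, rfl⟩, ?_⟩⟩
    have := priv_vol_fwd (Y := Y) (D.node p (j + 1)) (⟨(p, j + 1), hj⟩ : D.PS)
    show f * D.g p = f * D.g p *
      (Y.priv D).vol (D.node p (j + 1)) (Sum.inr (⟨(p, j + 1), hj⟩ : D.PS), true)
    rw [this]
    simp

/-- **The completed cover is connected.** -/
theorem priv_conn (v₀ : V) (hs : ∀ p, D.s p = v₀) (hn : ∀ p, 1 ≤ D.n p)
    (hV : ∀ v, ∃ p, D.t p = v)
    (hG : Subgroup.closure {g | ∃ p, D.t p = v₀ ∧ D.g p = g} = ⊤) : (Y.priv D).Conn := by
  have hsym := (Y.priv D).cE_sym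
  -- the fibre of `v₀`
  let H : Subgroup F :=
    { carrier := {h | ∃ w, Path (Y.priv D).cE (Sum.inl v₀, 1) w (Sum.inl v₀, h)}
      one_mem' := ⟨[], Path.nil _⟩
      mul_mem' := by
        rintro h h' ⟨w, hw⟩ ⟨w', hw'⟩
        have := VGraph.cpath_translate h hw'
        simp only [mul_one] at this
        exact ⟨w ++ w', hw.append this⟩
      inv_mem' := by
        rintro h ⟨w, hw⟩
        have := VGraph.cpath_translate h⁻¹ hw
        simp only [mul_one, inv_mul_cancel] at this
        exact ⟨_, this.inv hsym⟩ }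
  have hH : ∀ h : F, h ∈ H := by
    intro h
    have hle : Subgroup.closure {g | ∃ p, D.t p = v₀ ∧ D.g p = g} ≤ H := by
      rw [Subgroup.closure_le]
      rintro g ⟨p, hp, rfl⟩
      obtain ⟨w, hw⟩ := priv_along (Y := Y) (D := D) p 1 (D.n p - 1) (by have := hn p; omega)
      have e : D.n p - 1 + 1 = D.n p := by have := hn p; omega
      rw [e, D.node_last p (hn p), hs, hp, one_mul] at hw
      exact ⟨w, hw⟩
    exact hle (hG ▸ Subgroup.mem_top h)
  have hnode : ∀ (p : P) (j : ℕ) (h : F), j + 1 ≤ D.n p →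
      ∃ w, Path (Y.priv D).cE (Sum.inl v₀, 1) w (D.node p (j + 1), h) := by
    intro p j h hj
    obtain ⟨w, hw⟩ := hH (h * (D.g p)⁻¹)
    obtain ⟨w', hw'⟩ := priv_along (Y := Y) (D := D) p (h * (D.g p)⁻¹) j hj
    rw [hs, inv_mul_cancel_right] at hw'
    exact ⟨w ++ w', hw.append hw'⟩
  have hall : ∀ x : (V ⊕ D.PV) × F, ∃ w, Path (Y.priv D).cE (Sum.inl v₀, 1) w x := by
    rintro ⟨v | ⟨⟨p, j⟩, hj⟩, h⟩
    · obtain ⟨p, rfl⟩ := hV v
      obtain ⟨w, hw⟩ := hnode p (D.n p - 1) h (by have := hn p; omega)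
      have e : D.n p - 1 + 1 = D.n p := by have := hn p; omega
      rw [e, D.node_last p (hn p)] at hw
      exact ⟨w, hw⟩
    · simp only at hj
      obtain ⟨w, hw⟩ := hnode p (j - 1) h (by omega)
      have e : j - 1 + 1 = j := by omega
      rw [e, D.node_int p j hj] at hw
      exact ⟨w, hw⟩
  intro x z
  obtain ⟨w, hw⟩ := hall x
  obtain ⟨w', hw'⟩ := hall z
  exact ⟨_, (hw.inv hsym).append hw'⟩

/-- The standard family of private paths: a path of length three from `v₀` to every old vertex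
(trivial voltage), a loop of length three at `v₀` with voltage `gen k` for every `k`. -/
def privStd {K : Type y} (v₀ : V) (gen : K → F) : PrivData V F (V ⊕ K) where
  s _ := v₀
  t := Sum.elim id fun _ => v₀
  n _ := 3
  g := Sum.elim (fun _ => 1) gen

theorem privStd_conn {K : Type y} (v₀ : V) (gen : K → F)
    (hgen : Subgroup.closure (Set.range gen) = ⊤) : (Y.priv (privStd v₀ gen)).Conn := by
  refine priv_conn v₀ (fun _ => rfl) (fun _ => by norm_num [privStd]) (fun v => ⟨Sum.inl v, rfl⟩) ?_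
  rw [eq_top_iff, ← hgen]
  apply Subgroup.closure_mono
  rintro _ ⟨k, rfl⟩
  exact ⟨Sum.inr k, rfl, rfl⟩

theorem privStd_c62 {K : Type y} (v₀ : V) (gen : K → F) (h : DomBr.C62 Y.rel) :
    DomBr.C62 (Y.priv (privStd v₀ gen)).rel :=
  priv_c62 (fun _ => le_refl _) h

end conn

end Claimed.Agent.R300.Shell
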