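/-
Row 300 / S0553 (INJ paper), Sec. 5, 5b: `inj_geo : InjGeoStmt` (owner helper133).
Assembly of: the adapter `InjGeoBase` (old voltage graph, metric), the private completion `InjPriv*`, the shelling theorem
`Shell.shell_main`, the bridge `DomBr*` (domains, forest, torsion, cocycle, developing map), the ball count.
-/
import Claimed.Agent.R300.InjGeoNum
import Claimed.Agent.R300.InjGeoCount
import Claimed.Agent.R300.InjPrivMain
import Claimed.Agent.R300.GeoKKMain
import Claimed.Agent.R300.DomBrLoc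
import Claimed.Agent.R300.DomHeis

set_option autoImplicit false

namespace Claimed.Agent.R300

open Shell DomBr

section generic

universe u v w x

variable {S : Type u} {V : Type v} {F : Type w} {P : Type x} [Group F]
  {Y : VGraph S V F} {D : PrivData V F P}
  {vlev : Gam (Y.priv D).rel → ℕ} {slev : Gam (Y.priv D).rel → (V ⊕ D.PV) × F → ℕ}
  (hSp : ShellSpec (Y.priv D).rel vlev slev) (hC : C62 (Y.priv D).rel)
  (hL : AllLetters (Y.priv D).rel) (v₀ : V ⊕ D.PV)
  (hconn : ∀ x : (V ⊕ D.PV) × F, ∃ c, Shell.Path (Y.priv D).cE (v₀, 1) c x)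

theorem ig_point (γ : Gam (Y.priv D).rel) (a : V ⊕ D.PV) (f : F) :
    γ * holo' v₀ hconn f * vloc v₀ hconn (a, 1) = γ * vloc v₀ hconn (a, f) := by
  rw [mul_assoc, ← vloc_holo]

/-- Two removed incidences of one sheet over the same old base vertex are joined by a short old
path. -/
theorem ig_removed_reach {Λ : V → ℝ} {ε c : ℝ} (hM : Metric Y.rel (fun x => Λ x.1) ε 1 c)
    (γ : Gam (Y.priv D).rel) (v : V) (h₀ h : F)
    (hh₀ : (shelled hSp vpos hC hL).Removed
      (γ * holo' v₀ hconn h₀ * vloc v₀ hconn (Sum.inl v, 1), Sum.inl v))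
    (hh : (shelled hSp vpos hC hL).Removed
      (γ * holo' v₀ hconn h * vloc v₀ hconn (Sum.inl v, 1), Sum.inl v)) :
    ∃ w, Shell.Path Y.cE (v, h₀) w (v, h) ∧ w.length ≤ ⌊msum (1 + ε) 6 * Λ v⌋₊ := by
  rw [ig_point] at hh₀ hh
  have hk := fewPieces_six hSp vpos hC hL
  have hs : (toSys hSp.embed vpos).sheet (γ * vloc v₀ hconn (Sum.inl v, h₀), Sum.inl v) =
      (toSys hSp.embed vpos).sheet (γ * vloc v₀ hconn (Sum.inl v, h), Sum.inl v) :=
    (sheet_vloc v₀ hconn γ (Sum.inl v, h₀)).trans (sheet_vloc v₀ hconn γ (Sum.inl v, h)).symm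
  obtain ⟨a, z, h1, h2, h3⟩ := hk _ _ hs hh₀ hh (Sum.inl v, h₀) rfl
  have h4 : vloc v₀ hconn z = vloc v₀ hconn (Sum.inl v, h₀) * gw (Y.priv D).rel a :=
    vloc_path v₀ hconn h1.path
  have h5 : vloc v₀ hconn (Sum.inl v, h) = vloc v₀ hconn z := by
    rw [h4]
    have h3' : γ * vloc v₀ hconn (Sum.inl v, h) =
        γ * vloc v₀ hconn (Sum.inl v, h₀) * gw (Y.priv D).rel a := h3
    rw [mul_assoc] at h3'
    exact mul_left_cancel h3'
  have h6 : (Sum.inl v, h) = z := vloc_injective v₀ hconn hSp.embed h5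
  subst h6
  obtain ⟨b, w, hb, rfl, hc⟩ := priv_pchain_old h1 v rfl
  have hb' : v = b := Sum.inl.inj hb
  subst hb'
  refine ⟨w, hc.path, ?_⟩
  apply Nat.le_floor
  have := pchain_length_le hM.m_nonneg hM.a_nonneg hM.L_nonneg hM.lip hM.piece hc
  simpa using this

/-- The removed incidences of one sheet over an old base vertex. -/
theorem ig_removed_count {Λ : V → ℝ} {ε c : ℝ} (hM : Metric Y.rel (fun x => Λ x.1) ε 1 c) {Δ : ℕ}
    (hΔ : ∀ a : V, {l | ∃ b, Y.E a l b}.encard ≤ Δ) (γ : Gam (Y.priv D).rel) (v : V) :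
    {h : F | (shelled hSp vpos hC hL).Removed
      (γ * holo' v₀ hconn h * vloc v₀ hconn (Sum.inl v, 1), Sum.inl v)}.Finite ∧
    {h : F | (shelled hSp vpos hC hL).Removed
      (γ * holo' v₀ hconn h * vloc v₀ hconn (Sum.inl v, 1), Sum.inl v)}.ncard ≤
      (Δ + 1) ^ ⌊msum (1 + ε) 6 * Λ v⌋₊ := by
  set A := {h : F | (shelled hSp vpos hC hL).Removed
      (γ * holo' v₀ hconn h * vloc v₀ hconn (Sum.inl v, 1), Sum.inl v)} with hA
  by_cases hne : A.Nonempty
  · obtain ⟨h₀, hh₀⟩ := hne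
    refine path_ball_count (E := Y.cE) Y.cE_det Δ (VGraph.rel_degree hΔ) _ (v, h₀) A
      (fun h => (v, h)) ?_ ?_
    · intro h _ h' _ e
      exact congrArg Prod.snd e
    · intro h hh
      exact ig_removed_reach hSp hC hL v₀ hconn hM γ v h₀ h hh₀ hh
  · rw [Set.not_nonempty_iff_eq_empty] at hne
    rw [hne]
    simp

end generic

/-- **Output of Sections 5, 5b of the INJ paper.** -/
theorem inj_geo : InjGeoStmt := by
  intro p hA hdeg X hne hS hD hW hsurj vol hG
  obtain ⟨v₀⟩ := hne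
  have hB := InjGr.vg_baseMetric hS vol hA hW hG
  have hM : Metric (X.vg hS vol).rel (fun x => X.igLam x.1) (InjGr.igEps p) 1 InjGr.igC :=
    hB.metric InjGr.igEps_nonneg InjGr.igC_nonneg (InjGr.igC_eps hA) (InjGr.ig_num5 hA)
      (InjGr.ig_num62 hA X)
  have hC6 : C6 ((X.vg hS vol).priv (privStd v₀ (id : InjHeis → InjHeis))).rel := C6.priv hM.c6
  have hC : C62 ((X.vg hS vol).priv (privStd v₀ (id : InjHeis → InjHeis))).rel :=
    privStd_c62 v₀ id hM.c62
  have hL : AllLetters ((X.vg hS vol).priv (privStd v₀ (id : InjHeis → InjHeis))).rel :=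
    priv_allLetters (VGraph.allLetters_rel (InjGr.vg_allLetters hS vol))
  obtain ⟨vlev, slev, hSp⟩ := shell_main hC6 hL
  have hconn : ∀ x, ∃ c, Shell.Path
      ((X.vg hS vol).priv (privStd v₀ (id : InjHeis → InjHeis))).cE (Sum.inl v₀, 1) c x :=
    fun x => privStd_conn v₀ id (by simp) (Sum.inl v₀, 1) x
  refine ⟨{ Γ := Gam ((X.vg hS vol).priv (privStd v₀ (id : InjHeis → InjHeis))).rel
            grp := inferInstance
            φ := holo' (Sum.inl v₀) hconn
            t := fun v => vloc (Sum.inl v₀) hconn (Sum.inl v, 1)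
            sig := fun a => DomBr.sig _ (Sum.inl (⟨a, hsurj a⟩ : X.ULb))
            rem := fun g v => (shelled hSp vpos hC hL).Removed (g, Sum.inl v) }, ?_⟩
  refine
    { φ_inj := holo_injective _ _ hSp.embed
      tf := volt_torsion_free hSp hC hL InjHeis.torsion_free
      coc := volt_cocycle hSp hC hL (Sum.inl v₀) (fun f => hconn (Sum.inl v₀, f)) InjHeis.om
        InjHeis.om_cocycle InjHeis.om_one_right
      edge := ?_
      ret_unique := ?_
      rem_fin := ?_
      rem_card := ?_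
      orient := ?_ }
  · intro e
    have h1 : ((X.vg hS vol).priv (privStd v₀ (id : InjHeis → InjHeis))).E (Sum.inl (X.src e))
        (Sum.inl (X.ulab e), true) (Sum.inl (X.tgt e)) :=
      priv_E_old'.2 (InjGr.vg_E_edge hS vol e)
    have h2 := vloc_edge (Sum.inl v₀) hconn h1
    have h3 : ((X.vg hS vol).priv (privStd v₀ (id : InjHeis → InjHeis))).vol (Sum.inl (X.src e))
        (Sum.inl (X.ulab e), true) = vol e := InjGr.vg_vol_edge hS vol e
    rw [h3] at h2
    exact h2
  · intro g v w hv hw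
    exact Sum.inl.inj ((shelled hSp vpos hC hL).retained_unique hv hw)
  · intro x v
    exact (ig_removed_count hSp hC hL (Sum.inl v₀) hconn hM (InjGr.vg_degree hS vol hD) x v).1
  · intro x v
    refine (ig_removed_count hSp hC hL (Sum.inl v₀) hconn hM
      (InjGr.vg_degree hS vol hD) x v).2.trans ?_
    exact InjGr.ig_count hA X v (by omega)
  · obtain ⟨child, hc1, hc2⟩ := (shelled hSp vpos hC hL).exists_child
    have key : ∀ ε : Gam ((X.vg hS vol).priv (privStd v₀ (id : InjHeis → InjHeis))).rel × X.Lb,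
        (¬ ∃ e, X.lab e = ε.2 ∧ ¬ (shelled hSp vpos hC hL).Removed (ε.1, Sum.inl (X.src e)) ∧
          ¬ (shelled hSp vpos hC hL).Removed
            (ε.1 * DomBr.sig _ (Sum.inl (⟨ε.2, hsurj ε.2⟩ : X.ULb)), Sum.inl (X.tgt e))) →
        ((ε.1, Sum.inl (⟨ε.2, hsurj ε.2⟩ : X.ULb)) :
          Gam ((X.vg hS vol).priv (privStd v₀ (id : InjHeis → InjHeis))).rel × _) ∈
          ((shelled hSp vpos hC hL).Internal)ᶜ := by
      rintro ⟨g, a⟩ hε hint
      apply hε
      obtain ⟨x, z, h1, h2, h3⟩ := (internal_iff hSp vpos hC hL g _).1 hint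
      obtain ⟨a', b', e1, e2, h4⟩ := h1.1
      obtain ⟨e, he1, he2, he3⟩ := (InjGr.vg_E_pos_iff hS vol).1 h4
      refine ⟨e, congrArg Subtype.val he1, ?_, ?_⟩
      · rw [he2, ← e1]; exact h2
      · rw [he3, ← e2]; exact h3
    refine ⟨fun ε => child (ε.1, Sum.inl (⟨ε.2, hsurj ε.2⟩ : X.ULb)), ?_, ?_⟩
    · intro ε hε
      exact hc1 _ (key ε hε)
    · intro ε hε ε' hε' heq
      have := hc2 (key ε hε) (key ε' hε') heq
      obtain ⟨h1, h3⟩ := Prod.mk.inj this
      exact Prod.ext h1 (congrArg Subtype.val (Sum.inl.inj h3))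

end Claimed.Agent.R300
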