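/-
Row 300 / S0553 (INJ paper), UPPER ASSEMBLY, package IU-FIN (sub-captain: helper145).
`injAlg G₀` (closed span of the right translations `ρ(g)`, `g ∈ G₀`, on `ℓ²(Γ)`) is a closed unital star
subalgebra, and compression to `ℓ²(G₀)` followed by the inversion is a unital star homomorphism onto
(a part of) the reduced C*-algebra of `G₀`, sending `ρ(g)` to `λ(g)`.
The `sorry`s are replaced IN PLACE by the owner (table subtask, target row300, name IU-FIN).

Plan.  `iuAlg`: copy `scGroupRing`/`scRed` (ScAlg.lean) with `scRho_one`, `scRho_mul`, `scRho_star` (InjModel.lean).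
`P := scPull (Subtype.val : G₀ → Γ)`, `P P^* = 1`, `I := scPull (·⁻¹)` on `ℓ²(G₀)`, `I I = 1`, `I^* = I`.
`r T := I P T P^* I`.  Every `T ∈ injAlg G₀` commutes with `P^* P` (true for `ρ(g)`, `g ∈ G₀`; closed linear
condition), hence `r (T T') = r T r T'`;  `r (ρ g) = λ g` on `δ_x`;  `r` is norm decreasing, so it maps the
closure of the span of the `ρ(g)` into the closure of the span of the `λ(g)`.
-/
import Mathlib
import Claimed.Agent.R300.InjModel
import Claimed.Agent.R300.IuBand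

set_option autoImplicit false

namespace Claimed.Agent.R300

variable {Γ : Type} [Group Γ]

/-- The linear span of the right translations by `G₀`, as a star subalgebra. -/
noncomputable def iuFinRing (G₀ : Subgroup Γ) : StarSubalgebra ℂ (IuOp Γ) where
  toSubalgebra := (Submodule.span ℂ {T : IuOp Γ | ∃ g ∈ G₀, T = scRho g}).toSubalgebra
    (Submodule.subset_span ⟨1, G₀.one_mem, scRho_one.symm⟩) (by
      intro x y hx hy
      have h := Submodule.mul_mem_mul hx hy
      rw [Submodule.span_mul_span] at h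
      refine Submodule.span_mono ?_ h
      rintro _ ⟨_, ⟨g, hg, rfl⟩, _, ⟨h, hh, rfl⟩, rfl⟩
      exact ⟨g * h, G₀.mul_mem hg hh, (scRho_mul g h).symm⟩)
  star_mem' := by
    intro x hx
    change x ∈ Submodule.span ℂ {T : IuOp Γ | ∃ g ∈ G₀, T = scRho g} at hx
    change star x ∈ Submodule.span ℂ {T : IuOp Γ | ∃ g ∈ G₀, T = scRho g}
    induction hx using Submodule.span_induction with
    | mem x hx =>
      obtain ⟨g, hg, rfl⟩ := hx
      exact Submodule.subset_span ⟨g⁻¹, G₀.inv_mem hg, scRho_star g⟩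
    | zero => simp
    | add x y _ _ hx hy => rw [star_add]; exact Submodule.add_mem _ hx hy
    | smul c x _ hx => rw [star_smul]; exact Submodule.smul_mem _ _ hx

/-- The linear span of the right translations by elements of `G₀`, as a star subalgebra. -/
theorem iu_alg_exists (G₀ : Subgroup Γ) :
    ∃ S : StarSubalgebra ℂ (IuOp Γ), (S : Set (IuOp Γ)) = injAlg G₀ := by
  exact ⟨(iuFinRing G₀).topologicalClosure, rfl⟩

/-- `injAlg G₀` as a star subalgebra -/
noncomputable def iuAlg (G₀ : Subgroup Γ) : StarSubalgebra ℂ (IuOp Γ) := (iu_alg_exists G₀).choose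

theorem iuAlg_coe (G₀ : Subgroup Γ) : (iuAlg G₀ : Set (IuOp Γ)) = injAlg G₀ :=
  (iu_alg_exists G₀).choose_spec

theorem mem_iuAlg {G₀ : Subgroup Γ} {T : IuOp Γ} : T ∈ iuAlg G₀ ↔ T ∈ injAlg G₀ := by
  rw [← iuAlg_coe]; rfl

instance iuAlg_isClosed (G₀ : Subgroup Γ) : IsClosed (iuAlg G₀ : Set (IuOp Γ)) := by
  rw [iuAlg_coe]; exact isClosed_closure

theorem scRho_mem_iuAlg {G₀ : Subgroup Γ} {g : Γ} (hg : g ∈ G₀) : scRho g ∈ iuAlg G₀ := by
  rw [mem_iuAlg]
  exact subset_closure (Submodule.subset_span ⟨g, hg, rfl⟩)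

/-! ### the compression -/

/-- restriction to `G₀` -/
noncomputable def iuFinP (G₀ : Subgroup Γ) : ScL2 Γ →L[ℂ] ScL2 G₀ :=
  scPull (Subtype.val : G₀ → Γ) Subtype.val_injective

/-- extension by zero -/
noncomputable def iuFinJ (G₀ : Subgroup Γ) : ScL2 G₀ →L[ℂ] ScL2 Γ :=
  ContinuousLinearMap.adjoint (iuFinP G₀)

/-- the inversion -/
noncomputable def iuFinI (G₀ : Subgroup Γ) : ScL2 G₀ →L[ℂ] ScL2 G₀ :=
  scPull (fun x : G₀ => x⁻¹) inv_injective

theorem iuFinP_delta (G₀ : Subgroup Γ) (b : G₀) : iuFinP G₀ (scDelta (b : Γ)) = scDelta b :=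
  scPull_delta _ _ b

theorem iuFinJ_delta (G₀ : Subgroup Γ) (b : G₀) : iuFinJ G₀ (scDelta b) = scDelta (b : Γ) := by
  classical
  ext a
  unfold iuFinJ
  rw [sc_adjoint_delta_apply]
  show (starRingEnd ℂ) ((scDelta a : ScL2 Γ) (b : Γ)) = _
  rw [scDelta_apply, scDelta_apply]
  by_cases h : (b : Γ) = a
  · rw [if_pos h, if_pos h.symm]; simp
  · rw [if_neg h, if_neg (fun h' => h h'.symm)]; simp

theorem iuFinP_J (G₀ : Subgroup Γ) (ξ : ScL2 G₀) : iuFinP G₀ (iuFinJ G₀ ξ) = ξ := by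
  have : iuFinP G₀ ∘L iuFinJ G₀ = ContinuousLinearMap.id ℂ _ := by
    refine scOp_ext fun x => ?_
    simp [iuFinJ_delta, iuFinP_delta]
  exact congrArg (fun f => f ξ) this

theorem iuFinI_delta (G₀ : Subgroup Γ) (b : G₀) : iuFinI G₀ (scDelta b) = scDelta b⁻¹ := by
  have := scPull_delta (fun x : G₀ => x⁻¹) inv_injective b⁻¹
  simpa [iuFinI] using this

theorem iuFinI_I (G₀ : Subgroup Γ) (ξ : ScL2 G₀) : iuFinI G₀ (iuFinI G₀ ξ) = ξ := by
  ext x
  simp [iuFinI]

theorem iuFinI_adjoint (G₀ : Subgroup Γ) :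
    ContinuousLinearMap.adjoint (iuFinI G₀) = iuFinI G₀ := by
  classical
  refine scOp_ext fun x => ?_
  ext y
  rw [sc_adjoint_delta_apply, iuFinI_delta, iuFinI_delta, scDelta_apply, scDelta_apply]
  have : x = y⁻¹ ↔ y = x⁻¹ := by
    constructor
    · rintro rfl; simp
    · rintro rfl; simp
  simp [this]

/-- `r T = I P T P^* I` -/
noncomputable def iuFinR (G₀ : Subgroup Γ) (T : IuOp Γ) : IuOp G₀ :=
  iuFinI G₀ ∘L iuFinP G₀ ∘L T ∘L iuFinJ G₀ ∘L iuFinI G₀

theorem iuFinR_apply (G₀ : Subgroup Γ) (T : IuOp Γ) (ξ : ScL2 G₀) :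
    iuFinR G₀ T ξ = iuFinI G₀ (iuFinP G₀ (T (iuFinJ G₀ (iuFinI G₀ ξ)))) := rfl

theorem iuFinR_one (G₀ : Subgroup Γ) : iuFinR G₀ 1 = 1 := by
  ext1 ξ
  rw [iuFinR_apply]
  simp [iuFinP_J, iuFinI_I]

theorem iuFinR_zero (G₀ : Subgroup Γ) : iuFinR G₀ 0 = 0 := by
  ext1 ξ
  rw [iuFinR_apply]
  simp

theorem iuFinR_add (G₀ : Subgroup Γ) (S T : IuOp Γ) :
    iuFinR G₀ (S + T) = iuFinR G₀ S + iuFinR G₀ T := by
  ext1 ξ
  simp [iuFinR_apply]

theorem iuFinR_smul (G₀ : Subgroup Γ) (c : ℂ) (T : IuOp Γ) :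
    iuFinR G₀ (c • T) = c • iuFinR G₀ T := by
  ext1 ξ
  simp [iuFinR_apply]

theorem iuFin_star_abs {H K : Type*} [NormedAddCommGroup H] [InnerProductSpace ℂ H] [CompleteSpace H]
    [NormedAddCommGroup K] [InnerProductSpace ℂ K] [CompleteSpace K] (I : K →L[ℂ] K)
    (P : H →L[ℂ] K) (T : H →L[ℂ] H) (hI : ContinuousLinearMap.adjoint I = I) :
    I ∘L P ∘L star T ∘L ContinuousLinearMap.adjoint P ∘L I
      = star (I ∘L P ∘L T ∘L ContinuousLinearMap.adjoint P ∘L I) := by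
  rw [ContinuousLinearMap.star_eq_adjoint, ContinuousLinearMap.star_eq_adjoint]
  simp only [ContinuousLinearMap.adjoint_comp, hI, ContinuousLinearMap.adjoint_adjoint,
    ContinuousLinearMap.comp_assoc]

theorem iuFinR_star (G₀ : Subgroup Γ) (T : IuOp Γ) : iuFinR G₀ (star T) = star (iuFinR G₀ T) :=
  iuFin_star_abs (iuFinI G₀) (iuFinP G₀) T (iuFinI_adjoint G₀)

theorem iuFinR_continuous (G₀ : Subgroup Γ) : Continuous (iuFinR G₀) := by
  unfold iuFinR
  exact continuous_const.clm_comp (continuous_const.clm_comp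
    (continuous_id.clm_comp continuous_const))

theorem iuFinR_rho (G₀ : Subgroup Γ) (g : Γ) (hg : g ∈ G₀) :
    iuFinR G₀ (scRho g) = scLam (⟨g, hg⟩ : G₀) := by
  refine scOp_ext fun x => ?_
  rw [iuFinR_apply, iuFinI_delta, iuFinJ_delta, scRho_delta, scLam_delta]
  have e : ((x⁻¹ : G₀) : Γ) * g⁻¹ = ((((⟨g, hg⟩ : G₀) * x)⁻¹ : G₀) : Γ) := by
    simp
  rw [e, iuFinP_delta, iuFinI_delta, inv_inv]

/-- induction principle for `injAlg` -/
theorem injAlg_induction {G₀ : Subgroup Γ} {P : IuOp Γ → Prop} (hcl : IsClosed {T | P T})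
    (hrho : ∀ g ∈ G₀, P (scRho g)) (hzero : P 0) (hadd : ∀ S T, P S → P T → P (S + T))
    (hsmul : ∀ (c : ℂ) T, P T → P (c • T)) {T : IuOp Γ} (hT : T ∈ injAlg G₀) : P T := by
  have h1 : (Submodule.span ℂ {T : IuOp Γ | ∃ g ∈ G₀, T = scRho g} : Set (IuOp Γ)) ⊆ {T | P T} := by
    intro S hS
    induction hS using Submodule.span_induction with
    | mem x hx => obtain ⟨g, hg, rfl⟩ := hx; exact hrho g hg
    | zero => exact hzero
    | add x y _ _ hx hy => exact hadd x y hx hy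
    | smul c x _ hx => exact hsmul c x hx
  exact closure_minimal h1 hcl hT

/-- elements of `injAlg G₀` leave `ℓ²(G₀)` invariant -/
theorem injAlg_invariant {G₀ : Subgroup Γ} {T : IuOp Γ} (hT : T ∈ injAlg G₀) :
    iuFinJ G₀ ∘L iuFinP G₀ ∘L T ∘L iuFinJ G₀ = T ∘L iuFinJ G₀ := by
  refine injAlg_induction
    (P := fun T => iuFinJ G₀ ∘L iuFinP G₀ ∘L T ∘L iuFinJ G₀ = T ∘L iuFinJ G₀) ?_ ?_ ?_ ?_ ?_ hT
  · refine isClosed_eq ?_ ?_
    · exact continuous_const.clm_comp (continuous_const.clm_comp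
        (continuous_id.clm_comp continuous_const))
    · exact continuous_id.clm_comp continuous_const
  · intro g hg
    refine scOp_ext fun x => ?_
    simp only [ContinuousLinearMap.comp_apply]
    rw [iuFinJ_delta, scRho_delta]
    have e : (x : Γ) * g⁻¹ = ((x * (⟨g, hg⟩ : G₀)⁻¹ : G₀) : Γ) := by simp
    rw [e, iuFinP_delta, iuFinJ_delta]
  · simp
  · intro S T hS hT
    simp only [ContinuousLinearMap.add_comp, ContinuousLinearMap.comp_add, hS, hT]
  · intro c T hT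
    simp only [ContinuousLinearMap.smul_comp, ContinuousLinearMap.comp_smul, hT]

theorem iuFinR_mul (G₀ : Subgroup Γ) (S : IuOp Γ) {T : IuOp Γ} (hT : T ∈ injAlg G₀) :
    iuFinR G₀ (S * T) = iuFinR G₀ S * iuFinR G₀ T := by
  ext1 ξ
  have h := congrArg (fun f => f (iuFinI G₀ ξ)) (injAlg_invariant hT)
  simp only [ContinuousLinearMap.comp_apply] at h
  show _ = iuFinR G₀ S (iuFinR G₀ T ξ)
  rw [iuFinR_apply, iuFinR_apply, iuFinR_apply, iuFinI_I, h]
  rfl

theorem iuFinR_mem (G₀ : Subgroup Γ) {T : IuOp Γ} (hT : T ∈ injAlg G₀) :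
    iuFinR G₀ T ∈ scRed G₀ := by
  refine injAlg_induction (P := fun T => iuFinR G₀ T ∈ scRed G₀) ?_ ?_ ?_ ?_ ?_ hT
  · exact (scRed_isClosed G₀).preimage (iuFinR_continuous G₀)
  · intro g hg
    rw [iuFinR_rho G₀ g hg]
    exact scLam_mem _
  · rw [iuFinR_zero]; exact zero_mem _
  · intro S T hS hT
    rw [iuFinR_add]; exact add_mem hS hT
  · intro c T hT
    rw [iuFinR_smul]; exact (scRed G₀).smul_mem hT c

/-- the compression homomorphism -/
theorem iu_compress (G₀ : Subgroup Γ) :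
    ∃ r : iuAlg G₀ →⋆ₐ[ℂ] IuOp G₀, (∀ T, r T ∈ scRed G₀) ∧
      ∀ (g : Γ) (hg : g ∈ G₀), r ⟨scRho g, scRho_mem_iuAlg hg⟩ = scLam (⟨g, hg⟩ : G₀) := by
  refine ⟨{ toFun := fun T => iuFinR G₀ T.1
            map_one' := iuFinR_one G₀
            map_mul' := fun S T => iuFinR_mul G₀ S.1 (mem_iuAlg.1 T.2)
            map_zero' := iuFinR_zero G₀
            map_add' := fun S T => iuFinR_add G₀ S.1 T.1
            commutes' := fun c => by
              show iuFinR G₀ (algebraMap ℂ (IuOp Γ) c) = algebraMap ℂ (IuOp G₀) c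
              rw [Algebra.algebraMap_eq_smul_one, Algebra.algebraMap_eq_smul_one, iuFinR_smul,
                iuFinR_one]
            map_star' := fun T => iuFinR_star G₀ T.1 }, ?_, ?_⟩
  · intro T
    exact iuFinR_mem G₀ (mem_iuAlg.1 T.2)
  · intro g hg
    exact iuFinR_rho G₀ g hg

end Claimed.Agent.R300
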