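/-
Row 300 / S0553 (INJ paper).  LOWER ASSEMBLY, package LOW-9: auxiliary facts for the final glue `inj_low`
(label refinement, numerics of the parameter choice, membership in `injAlg G₀`, small counting facts).
INJ captain: helper105.  The `sorry`s are replaced IN PLACE by the owner of the package (table subtask,
target row300, name INJ-LOW-9).  Statements are frozen: ask helper105 before changing one.
All statements are elementary and independent of each other.
-/
import Mathlib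
import Claimed.Agent.R300.InjExtract
import Claimed.Agent.R300.IuFin

set_option autoImplicit false

namespace Claimed.Agent.R300

open scoped ENNReal ComplexConjugate InnerProductSpace

/-! ### offsets -/

/-- integer offsets as `Lab.Off` -/
def injOffOf (o : ℤ) : Lab.Off := if o = -1 then .dn else if o = 1 then .up else .eq

theorem injOff_offOf {o : ℤ} (h : o = -1 ∨ o = 0 ∨ o = 1) : injOff (injOffOf o) = o := by
  rcases h with rfl | rfl | rfl <;> simp [injOffOf, injOff]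

/-! ### refinement of the labels -/

section refine

variable {p : Lab.Par} (X : InjGr p) {St : Type} (lab' : X.E → St) (pr : St → X.Lb)
  (hpr : ∀ e, pr (lab' e) = X.lab e)

include hpr

theorem InjGr.refine_ety : (X.refine St lab' pr).ety = X.ety :=
  funext fun e => congrArg X.ty (hpr e)

theorem InjGr.refine_str (hX : X.Str) (hfin : Finite St) : (X.refine St lab' pr).Str where
  sd_src := hX.sd_src
  sd_tgt := hX.sd_tgt
  ht_edge := fun e => by
    rw [InjGr.refine_ety X lab' pr hpr]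
    exact hX.ht_edge e
  fold_src := fun e e' h1 h2 => hX.fold_src e e' h1 (by
    have : lab' e = lab' e' := h2
    rw [← hpr e, ← hpr e', this])
  fold_tgt := fun e e' h1 h2 => hX.fold_tgt e e' h1 (by
    have : lab' e = lab' e' := h2
    rw [← hpr e, ← hpr e', this])
  fin_lb := hfin
  fin_layer := hX.fin_layer

theorem InjGr.refine_degLe (hd : X.DegLe) : (X.refine St lab' pr).DegLe where
  degA := fun τ a => by
    rw [InjGr.refine_ety X lab' pr hpr]
    exact hd.degA τ a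
  degB := fun τ b => by
    rw [InjGr.refine_ety X lab' pr hpr]
    exact hd.degB τ b

theorem InjGr.refine_dlab_aux (W W' : List (X.E × Bool))
    (h : W.map (fun d : X.E × Bool => (lab' d.1, d.2)) = W'.map (fun d : X.E × Bool => (lab' d.1, d.2))) :
    W.map X.dlab = W'.map X.dlab := by
  have e : X.dlab = (fun q : St × Bool => (pr q.1, q.2)) ∘
      (fun d : X.E × Bool => (lab' d.1, d.2)) := by
    funext d
    show (X.lab d.1, d.2) = (pr (lab' d.1), d.2)
    rw [hpr]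
  rw [e, ← List.map_map, ← List.map_map, h]

theorem InjGr.refine_wordUnique (h : X.WordUnique) : (X.refine St lab' pr).WordUnique :=
  fun a a' c c' W W' h1 h2 h3 h4 h5 =>
    h a a' c c' W W' h1 h2 h3 (InjGr.refine_dlab_aux X lab' pr hpr W W' h4) h5

omit hpr in
theorem InjGr.refine_vgirth (vol : X.E → InjHeis) (h : X.VGirth603 vol) :
    (X.refine St lab' pr).VGirth603 vol := h

theorem injU_refine (τ : Fin p.T) : injU (X.refine St lab' pr) τ = injU X τ := by
  unfold injU injUK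
  rw [InjGr.refine_ety X lab' pr hpr]
  rfl

theorem injSampCoef_refine (τ : Fin p.T) (vol : X.E → InjHeis) (wt : X.E → ℂ) (m : ℕ → InjHeis → ℂ) :
    injSampCoef (X.refine St lab' pr) τ vol wt m = injSampCoef X τ vol wt m := by
  unfold injSampCoef
  rw [InjGr.refine_ety X lab' pr hpr]
  rfl

omit hpr in
theorem injCst_refine : injCst (X.refine St lab' pr) = injCst X := rfl

end refine

/-- the used refined labels -/
def InjUsed {p : Lab.Par} (X : InjGr p) (wt : X.E → ℂ) : Type :=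
  {a : X.Lb × ℂ // ∃ e, X.lab e = a.1 ∧ wt e = a.2}

theorem injUsed_finite {p : Lab.Par} (X : InjGr p) (hfin : Finite X.Lb) (wt : X.E → ℂ) (WW : Finset ℂ)
    (hwt : ∀ e, wt e ∈ WW) : Finite (InjUsed X wt) ∧ Nat.card (InjUsed X wt) ≤ Nat.card X.Lb * WW.card := by
  have hmem : ∀ a : InjUsed X wt, a.1.2 ∈ WW := by
    rintro ⟨a, e, -, h2⟩
    rw [← h2]
    exact hwt e
  set f : InjUsed X wt → X.Lb × WW := fun a => (a.1.1, ⟨a.1.2, hmem a⟩) with hf
  have hinj : Function.Injective f := by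
    intro a a' h
    have h1 := congrArg Prod.fst h
    have h2 := congrArg (fun q : X.Lb × WW => (q.2 : ℂ)) h
    exact Subtype.ext (Prod.ext h1 h2)
  refine ⟨Finite.of_injective f hinj, ?_⟩
  have := Nat.card_le_card_of_injective f hinj
  rwa [Nat.card_prod, Nat.card_eq_fintype_card (α := WW), Fintype.card_coe] at this

/-! ### the surviving graph -/

theorem InjOld.sub_cardLe {p : Lab.Par} (O : InjOld p) {ε ρ : ℝ} (hE : O.Exp ε ρ) : O.sub.CardLe := by
  intro s i
  have := hE.str.fin_layer s i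
  set f : {v : O.sub.V // O.sub.sd v = s ∧ O.sub.ht v = i} →
      {v : O.X0.V // O.X0.sd v = s ∧ O.X0.ht v = i} := fun v => ⟨v.1.1, v.2⟩ with hf
  have hinj : Function.Injective f := by
    intro v v' h
    exact Subtype.ext (Subtype.ext (congrArg (fun q : {v : O.X0.V // O.X0.sd v = s ∧ O.X0.ht v = i} =>
      (q : O.X0.V)) h))
  refine (Nat.card_le_card_of_injective f hinj).trans ?_
  cases s with
  | true =>
    rw [hE.cardB i]
    exact Nat.pow_le_pow_right (by norm_num) (Nat.le_add_right _ _)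
  | false =>
    rw [hE.cardA i]
    refine Nat.pow_le_pow_right (by norm_num) ?_
    have : p.r ≤ p.s := by
      unfold Lab.Par.r
      omega
    omega

theorem injCst_norm_le_one {p : Lab.Par} (X : InjGr p) (v : X.V) : ‖injCst X v‖ ≤ 1 := by
  unfold injCst
  split_ifs with h
  · rw [Complex.norm_real, Real.norm_of_nonneg (by positivity)]
    rcases Nat.eq_zero_or_pos (Nat.card {w // X.sd w = true ∧ X.ht w = X.ht v}) with h0 | h0
    · rw [h0]
      simp
    · rw [div_le_one (Real.sqrt_pos.2 (by exact_mod_cast h0)), Real.one_le_sqrt]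
      exact_mod_cast h0
  · simp

/-- `∑_{v ∈ ℬ'_0} |c_v| ≤ |ℬ'_0|` -/
theorem injCst_sum_le {p : Lab.Par} (X : InjGr p) (B0 : Finset X.V)
    (hB0 : ∀ v, v ∈ B0 ↔ X.ht v = 0 ∧ injCst X v ≠ 0) (N : ℕ)
    (hfin : Finite {w // X.sd w = true ∧ X.ht w = 0})
    (hcard : Nat.card {w // X.sd w = true ∧ X.ht w = 0} ≤ N) : ∑ v ∈ B0, ‖injCst X v‖ ≤ N := by
  have hsd : ∀ v ∈ B0, X.sd v = true ∧ X.ht v = 0 := by
    intro v hv
    obtain ⟨h1, h2⟩ := (hB0 v).1 hv
    refine ⟨?_, h1⟩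
    by_contra h3
    apply h2
    unfold injCst
    rw [if_neg h3]
  set f : B0 → {w // X.sd w = true ∧ X.ht w = 0} := fun v => ⟨v.1, hsd v.1 v.2⟩ with hf
  have hinj : Function.Injective f := by
    intro v v' h
    exact Subtype.ext (congrArg (fun q : {w // X.sd w = true ∧ X.ht w = 0} => (q : X.V)) h)
  have h1 := Nat.card_le_card_of_injective f hinj
  rw [Nat.card_eq_fintype_card, Fintype.card_coe] at h1
  calc ∑ v ∈ B0, ‖injCst X v‖ ≤ ∑ _v ∈ B0, (1 : ℝ) :=
        Finset.sum_le_sum fun v _ => injCst_norm_le_one X v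
    _ = B0.card := by simp
    _ ≤ N := by exact_mod_cast h1.trans hcard

/-- `q_τ ≥ √(d D)` -/
theorem injQq_ge (p : Lab.Par) (τ : Fin p.T) :
    Real.sqrt ((2 : ℝ) ^ (8001 * p.s / 20000) * 2 ^ (12001 * p.s / 20000)) ≤ InjGr.qq p τ := by
  unfold InjGr.qq
  apply Real.sqrt_le_sqrt
  have h1 : (2 : ℝ) ^ (8001 * p.s / 20000) ≤ (InjGr.dA p τ : ℝ) := by
    unfold InjGr.dA Lab.Par.d Lab.Par.ld
    push_cast
    exact le_mul_of_one_le_right (by positivity) (one_le_pow₀ (by norm_num))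
  have h2 : (2 : ℝ) ^ (12001 * p.s / 20000) ≤ (InjGr.dB p τ : ℝ) := by
    unfold InjGr.dB Lab.Par.D Lab.Par.lD
    push_cast
    exact le_mul_of_one_le_right (by positivity) (one_le_pow₀ (by norm_num))
  exact mul_le_mul h1 h2 (by positivity) (by positivity)

/-! ### numerics -/

theorem inj_low_num_k {ρ η L : ℝ} (hρ0 : 0 < ρ) (hρ : ρ < 1) (hη : 0 < η) (hL : 1 ≤ L) :
    ∃ (k : ℕ) (ε : ℝ), 0 < ε ∧ ε ≤ 1 / 4 ∧ (ρ ^ (2 * k) + 100 * (k + 1) * Real.sqrt ε) * L ≤ η / 2 := by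
  have hL0 : 0 < L := by linarith
  have hq : 0 < η / (4 * L) := by positivity
  obtain ⟨k, hk⟩ := exists_pow_lt_of_lt_one hq hρ
  have h1 : ρ ^ (2 * k) ≤ ρ ^ k := pow_le_pow_of_le_one hρ0.le hρ.le (by omega)
  set c : ℝ := η / (400 * (k + 1) * L) with hc
  have hc0 : 0 < c := by positivity
  refine ⟨k, min (1 / 4) (c ^ 2), lt_min (by norm_num) (by positivity), min_le_left _ _, ?_⟩
  have h2 : Real.sqrt (min (1 / 4) (c ^ 2)) ≤ c := by
    calc Real.sqrt (min (1 / 4) (c ^ 2)) ≤ Real.sqrt (c ^ 2) := Real.sqrt_le_sqrt (min_le_right _ _)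
      _ = c := Real.sqrt_sq hc0.le
  calc (ρ ^ (2 * k) + 100 * (k + 1) * Real.sqrt (min (1 / 4) (c ^ 2))) * L
      ≤ (η / (4 * L) + 100 * (k + 1) * c) * L := by
        apply mul_le_mul_of_nonneg_right _ hL0.le
        have : 100 * ((k : ℝ) + 1) * Real.sqrt (min (1 / 4) (c ^ 2)) ≤ 100 * (k + 1) * c :=
          mul_le_mul_of_nonneg_left h2 (by positivity)
        linarith
    _ = η / 2 := by
        rw [hc]
        field_simp
        ring

theorem inj_low_num_s (b T nW : ℕ) (hb : 1 ≤ b) (M κ : ℝ) (hM : 0 ≤ M) (hκ : 0 < κ) (s1 : ℕ) :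
    ∃ s : ℕ, s1 ≤ s ∧ 20000 ∣ s ∧ 5 * b ∣ s ∧ 0 < s ∧ 1000000 * b ≤ 10001 * s / 20000 ∧
      T * 2 ^ b * 2 ^ (12001 * s / 20000) + 7 ≤ 2 ^ (61 * s / 100) ∧
      ∀ N : ℕ, N ≤ T * (2000000 * s) * 2 ^ (8001 * s / 20000) * 2 ^ b * 2 ^ (3 * s / 5) * nW →
        2 * (M / Real.sqrt ((2 : ℝ) ^ (8001 * s / 20000) * 2 ^ (12001 * s / 20000))) * Real.sqrt N ≤ κ := by
  set C : ℝ := 4 * M ^ 2 * (T * (2000000 * (100000 * b)) * 2 ^ b * nW) with hC
  have hC0 : 0 ≤ C := by positivity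
  set t : ℕ := max (max 20 s1) (max (T * 2 ^ b + 7) ⌈C / κ ^ 2⌉₊) with ht
  have t20 : 20 ≤ t := le_trans (le_max_left 20 s1) (le_max_left _ _)
  have ts1 : s1 ≤ t := le_trans (le_max_right 20 s1) (le_max_left _ _)
  have tT : T * 2 ^ b + 7 ≤ t := le_trans (le_max_left _ _) (le_max_right _ _)
  have tC' : ⌈C / κ ^ 2⌉₊ ≤ t := le_trans (le_max_right _ _) (le_max_right _ _)
  have tC : C / κ ^ 2 ≤ t := (Nat.le_ceil _).trans (by exact_mod_cast tC')
  set u : ℕ := b * t with hu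
  have hut : t ≤ u := Nat.le_mul_of_pos_left t hb
  have e1 : 8001 * (100000 * u) / 20000 = 40005 * u := by omega
  have e2 : 12001 * (100000 * u) / 20000 = 60005 * u := by omega
  have e3 : 3 * (100000 * u) / 5 = 60000 * u := by omega
  have e4 : 10001 * (100000 * u) / 20000 = 50005 * u := by omega
  have e5 : 61 * (100000 * u) / 100 = 61000 * u := by omega
  refine ⟨100000 * u, by omega, ⟨5 * u, by ring⟩, ⟨20000 * t, by rw [hu]; ring⟩, by omega, ?_, ?_, ?_⟩
  · rw [e4]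
    have : b * 20 ≤ u := Nat.mul_le_mul_left b t20
    omega
  · rw [e2, e5]
    have e6 : 2 ^ (61000 * u) = 2 ^ (995 * u) * 2 ^ (60005 * u) := by
      rw [← pow_add]
      congr 1
      ring
    have h1 : T * 2 ^ b + 7 ≤ 2 ^ (995 * u) :=
      calc T * 2 ^ b + 7 ≤ t := tT
        _ ≤ 995 * u := by omega
        _ ≤ 2 ^ (995 * u) := Nat.lt_two_pow_self.le
    have h2 : 1 ≤ 2 ^ (60005 * u) := Nat.one_le_two_pow
    rw [e6]
    calc T * 2 ^ b * 2 ^ (60005 * u) + 7 ≤ T * 2 ^ b * 2 ^ (60005 * u) + 7 * 2 ^ (60005 * u) := by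
          omega
      _ = (T * 2 ^ b + 7) * 2 ^ (60005 * u) := by ring
      _ ≤ 2 ^ (995 * u) * 2 ^ (60005 * u) := Nat.mul_le_mul_right _ h1
  · intro N hN
    rw [e1, e3] at hN
    rw [e1, e2]
    set P : ℝ := (2 : ℝ) ^ (50005 * u) with hP
    have hP0 : 0 < P := by positivity
    have hs : Real.sqrt ((2 : ℝ) ^ (40005 * u) * 2 ^ (60005 * u)) = P := by
      have : (2 : ℝ) ^ (40005 * u) * 2 ^ (60005 * u) = P ^ 2 := by
        rw [hP, ← pow_add, ← pow_mul]
        congr 1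
        ring
      rw [this, Real.sqrt_sq hP0.le]
    rw [hs]
    have hNR : (N : ℝ) ≤ T * (2000000 * (100000 * u)) * 2 ^ (40005 * u) * 2 ^ b * 2 ^ (60000 * u) * nW := by
      exact_mod_cast hN
    have htR : (t : ℝ) ≤ 2 ^ t := by exact_mod_cast (Nat.lt_two_pow_self (n := t)).le
    have ht0 : (0 : ℝ) ≤ t := Nat.cast_nonneg t
    have h5 : (t : ℝ) ^ 2 ≤ 2 ^ (5 * u) := by
      calc (t : ℝ) ^ 2 ≤ (2 ^ t) ^ 2 := pow_le_pow_left₀ ht0 htR 2
        _ = 2 ^ (2 * t) := by rw [← pow_mul]; congr 1; ring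
        _ ≤ 2 ^ (5 * u) := pow_le_pow_right₀ (by norm_num) (by omega)
    have hCt : C ≤ κ ^ 2 * t := by
      rw [div_le_iff₀ (by positivity)] at tC
      linarith
    have key : 4 * M ^ 2 * N ≤ (κ * P) ^ 2 := by
      have q1 : 4 * M ^ 2 * N ≤ 4 * M ^ 2 *
          (T * (2000000 * (100000 * u)) * 2 ^ (40005 * u) * 2 ^ b * 2 ^ (60000 * u) * nW) :=
        mul_le_mul_of_nonneg_left hNR (by positivity)
      have q2 : 4 * M ^ 2 *
          (T * (2000000 * (100000 * (u : ℝ))) * 2 ^ (40005 * u) * 2 ^ b * 2 ^ (60000 * u) * nW) =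
          C * t * 2 ^ (100005 * u) := by
        have : (2 : ℝ) ^ (100005 * u) = 2 ^ (40005 * u) * 2 ^ (60000 * u) := by
          rw [← pow_add]
          congr 1
          ring
        rw [this, hC, hu]
        push_cast
        ring
      have q3 : (κ * P) ^ 2 = κ ^ 2 * 2 ^ (5 * u) * 2 ^ (100005 * u) := by
        have e1 : (2:ℝ) ^ (5 * u) * 2 ^ (100005 * u) = 2 ^ (50005 * u * 2) := by
          rw [← pow_add]
          congr 1
          ring
        rw [mul_pow, hP, ← pow_mul, mul_assoc (κ ^ 2), e1]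
      rw [q3]
      refine q1.trans (q2.le.trans ?_)
      apply mul_le_mul_of_nonneg_right _ (by positivity)
      calc C * t ≤ κ ^ 2 * t * t := mul_le_mul_of_nonneg_right hCt ht0
        _ = κ ^ 2 * (t : ℝ) ^ 2 := by ring
        _ ≤ κ ^ 2 * 2 ^ (5 * u) := mul_le_mul_of_nonneg_left h5 (by positivity)
    have h6 : 2 * M * Real.sqrt N ≤ κ * P := by
      have : 2 * M * Real.sqrt N = Real.sqrt (4 * M ^ 2 * N) := by
        rw [Real.sqrt_mul (by positivity)]
        congr 1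
        have : 4 * M ^ 2 = (2 * M) ^ 2 := by ring
        rw [this, Real.sqrt_sq (by positivity)]
      rw [this]
      calc Real.sqrt (4 * M ^ 2 * N) ≤ Real.sqrt ((κ * P) ^ 2) := Real.sqrt_le_sqrt key
        _ = κ * P := Real.sqrt_sq (by positivity)
    calc 2 * (M / P) * Real.sqrt N = 2 * M * Real.sqrt N / P := by ring
      _ ≤ κ * P / P := div_le_div_of_nonneg_right h6 hP0.le
      _ = κ := by field_simp

theorem inj_low_num_H {R L κ : ℝ} (hR : 1 ≤ R) (hL : 1 ≤ L) (hκ : 0 < κ) :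
    ∃ n1 : ℕ, ∀ H0 : ℕ, n1 ≤ H0 → 100 * (4 * R) ≤ 2 ^ H0 ∧
      (2 : ℝ) ^ H0 * L * (8 * R * L / 2 ^ (345 * H0)) ≤ κ := by
  refine ⟨⌈max (100 * (4 * R)) (8 * R * L ^ 2 / κ)⌉₊, fun H0 hH => ?_⟩
  have h1 : max (100 * (4 * R)) (8 * R * L ^ 2 / κ) ≤ (2 : ℝ) ^ H0 := by
    calc max (100 * (4 * R)) (8 * R * L ^ 2 / κ) ≤ (⌈max (100 * (4 * R)) (8 * R * L ^ 2 / κ)⌉₊ : ℝ) :=
          Nat.le_ceil _
      _ ≤ (H0 : ℝ) := by exact_mod_cast hH
      _ ≤ 2 ^ H0 := by exact_mod_cast (Nat.lt_two_pow_self (n := H0)).le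
  refine ⟨(le_max_left _ _).trans h1, ?_⟩
  have h2 : 8 * R * L ^ 2 / κ ≤ (2 : ℝ) ^ H0 := (le_max_right _ _).trans h1
  set A : ℝ := (2 : ℝ) ^ H0 with hA
  set B : ℝ := (2 : ℝ) ^ (344 * H0) with hB
  have hA0 : 0 < A := by positivity
  have hB0 : 0 < B := by positivity
  have hAB : A ≤ B := pow_le_pow_right₀ (by norm_num) (by omega)
  have e : (2 : ℝ) ^ (345 * H0) = A * B := by
    rw [hA, hB, ← pow_add]
    congr 1
    ring
  rw [e]
  have e2 : A * L * (8 * R * L / (A * B)) = 8 * R * L ^ 2 / B := by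
    field_simp
  rw [e2, div_le_iff₀ hB0]
  rw [div_le_iff₀ hκ] at h2
  nlinarith

/-! ### membership in the algebra of a subgroup -/

theorem injla_x_zpow (n : ℤ) : InjHeis.x ^ n = ⟨n, 0, 0⟩ := by
  induction n using Int.induction_on with
  | zero => rfl
  | succ k ih => rw [zpow_add_one, ih]; ext <;> simp [InjHeis.x]
  | pred k ih => rw [zpow_sub_one, ih]; ext <;> simp [InjHeis.x] <;> ring

theorem injla_y_zpow (n : ℤ) : InjHeis.y ^ n = ⟨0, n, 0⟩ := by
  induction n using Int.induction_on with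
  | zero => rfl
  | succ k ih => rw [zpow_add_one, ih]; ext <;> simp [InjHeis.y]
  | pred k ih => rw [zpow_sub_one, ih]; ext <;> simp [InjHeis.y] <;> ring

theorem injla_z_zpow (n : ℤ) : InjHeis.z ^ n = ⟨0, 0, n⟩ := by
  induction n using Int.induction_on with
  | zero => rfl
  | succ k ih => rw [zpow_add_one, ih]; ext <;> simp [InjHeis.z]
  | pred k ih => rw [zpow_sub_one, ih]; ext <;> simp [InjHeis.z] <;> ring

theorem inj_heis_range_le {Γ : Type} [Group Γ] (φ : InjHeis →* Γ) (G₀ : Subgroup Γ)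
    (hx : φ InjHeis.x ∈ G₀) (hy : φ InjHeis.y ∈ G₀) (hz : φ InjHeis.z ∈ G₀) : φ.range ≤ G₀ := by
  rintro _ ⟨h, rfl⟩
  have e : h = InjHeis.z ^ h.c * InjHeis.y ^ h.b * InjHeis.x ^ h.a := by
    rw [injla_x_zpow, injla_y_zpow, injla_z_zpow]
    ext <;> simp
  rw [e, map_mul, map_mul, map_zpow, map_zpow, map_zpow]
  exact G₀.mul_mem (G₀.mul_mem (G₀.zpow_mem hz _) (G₀.zpow_mem hy _)) (G₀.zpow_mem hx _)

theorem injT_mem_iuAlg {Γ : Type} [Group Γ] (φ : InjHeis →* Γ) (G₀ : Subgroup Γ) (h : φ.range ≤ G₀)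
    (b H0 i : ℕ) : injT (injRhoRep φ) b H0 i ∈ iuAlg G₀ := by
  unfold injT injTJ
  refine Subalgebra.sum_mem _ fun j _ => Subalgebra.smul_mem _ ?_ _
  exact scRho_mem_iuAlg (h ⟨_, rfl⟩)

theorem injCay_mem_iuAlg {p : Lab.Par} {X : InjGr p} {vol : X.E → InjHeis} (G : InjGeo X vol)
    (G₀ : Subgroup G.Γ) (h : ∀ a, G.sig a ∈ G₀) (ω : X.Lb → ℂ) (τ : Fin p.T) :
    injCay G ω τ ∈ iuAlg G₀ := by
  unfold injCay
  refine finsum_induction (fun T => T ∈ iuAlg G₀) (zero_mem _) (fun _ _ => add_mem) fun a => ?_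
  exact (iuAlg G₀).toSubalgebra.smul_mem (scRho_mem_iuAlg (h a)) _

end Claimed.Agent.R300
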