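/-
Row 300 / S0553 (INJ paper).  THE CENTRAL INTERFACE (owner: helper105, INJ captain).  Sorry-free definitions.
  frozen S0553 (= InjGoal)  <==  InjPhysStmt      [UPPER ASSEMBLY: profiles, swindle, K-theory chain]
  InjPhysStmt   <==  InjGraphStmt, InjVoltStmt, InjGeoStmt (InjGraph.lean)   [LOWER ASSEMBLY]
`InjPhysStmt` is the precise, Borel-free, quotient-free form of INJ Lemma 6.4
(finite-profile-realization) + (6.20) (physical root) + Prop 5b.11 (torsion, detector).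
-/
import Mathlib
import Claimed.Prelude.Def_0481
import Claimed.Agent.R300.InjDefs

set_option autoImplicit false

namespace Claimed.Agent.R300

open Claims Claims.C0481

/-- The standard smooth cutoff: `1` on `[-R,R]`, `0` outside `(-2R,2R)`, values in `[0,1]`. -/
noncomputable def injChi (R : ℝ) : C(ℝ, ℂ) :=
  ⟨fun x => ((Real.smoothTransition (2 - x / R) * Real.smoothTransition (2 + x / R) : ℝ) : ℂ),
    by
      have h := Real.smoothTransition.continuous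
      fun_prop⟩

/-- A symbol type: product profile `A(x) B(y)`, offset, selection pattern.
The symbol lives in the blocks `(i, i+off)` (from summand `i+off` to summand `i`) with `sel i`,
where it is the function `A(Z_t(θ-α)) B(N_t ξ)`, `t = max i (i+off)` (the FINER of the two scales). -/
structure InjSym where
  A : C(ℝ, ℂ)
  B : C(ℝ, ℂ)
  off : ℤ
  sel : ℕ → Prop

/-- admissible symbols: smooth, supported in `[-R,R]`, offset in `{-1,0,1}` -/
structure InjSym.Adm (R : ℝ) (σ : InjSym) : Prop where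
  smoothA : ∀ m : ℕ, ContDiff ℝ m σ.A
  smoothB : ∀ m : ℕ, ContDiff ℝ m σ.B
  suppA : ∀ x : ℝ, R < |x| → σ.A x = 0
  suppB : ∀ x : ℝ, R < |x| → σ.B x = 0
  off_mem : σ.off = -1 ∨ σ.off = 0 ∨ σ.off = 1

open Classical in
/-- the blocks of the model operator of a symbol -/
noncomputable def InjSym.blocks {H : Type*} [NormedAddCommGroup H] [InnerProductSpace ℂ H]
    [CompleteSpace H] (σ : InjSym) (b H0 : ℕ) (Φ : C(InjT × InjT, ℂ) →⋆ₐ[ℂ] (H →L[ℂ] H))
    (i k : ℕ) : H →L[ℂ] H :=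
  if (k : ℤ) = i + σ.off ∧ σ.sel i then Φ (injLoc2 b H0 σ.A σ.B (max i k)) else 0

/-- the cutoff function at height `i` -/
noncomputable def injCut (b H0 : ℕ) (R : ℝ) (i : ℕ) : C(InjT × InjT, ℂ) :=
  injLoc2 b H0 (injChi R) (injChi R) i

/-- **Physical realisation** (INJ Lemma 6.4 + (6.20) + Prop 5b.11). -/
def InjPhysStmt : Prop :=
  ∃ b : ℕ, 1 ≤ b ∧ ∀ (R : ℝ), 1 ≤ R → ∀ (n : ℕ) (sym : Fin n → InjSym), (∀ τ, (sym τ).Adm R) →
    ∀ η : ℝ, 0 < η → ∀ Hmin : ℕ,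
  ∃ (H0 : ℕ) (Γ : Type) (_ : Group Γ) (φ : InjHeis →* Γ) (G₀ : Subgroup Γ)
    (Φ : C(InjT × InjT, ℂ) →⋆ₐ[ℂ] (ScL2 Γ →L[ℂ] ScL2 Γ))
    (V : ScL2 (ℕ × Γ) →L[ℂ] ScL2 Γ),
    Hmin ≤ H0 ∧
    -- group theory
    Function.Injective φ ∧ (∀ g : Γ, IsOfFinOrder g → g = 1) ∧
    (∃ c : Γ → Γ → ℤ, (∀ a b d : Γ, c a b + c (a * b) d = c a (b * d) + c b d) ∧
      ∃ κ : InjHeis → ℤ, ∀ h h' : InjHeis,
        c (φ h) (φ h') = InjHeis.om h h' + (κ h + κ h' - κ (h * h'))) ∧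
    G₀.FG ∧ φ.range ≤ G₀ ∧
    -- two variable calculus of the commuting unitaries `ρ(z), ρ(x)`
    Φ injE1 = scRho (φ InjHeis.z) ∧ Φ injE2 = scRho (φ InjHeis.x) ∧
    -- `V` is almost isometric on the carriers
    (∀ c : ScL2 (ℕ × Γ) →L[ℂ] ScL2 (ℕ × Γ),
      InjHasBlocks c (fun i k => if i = k then Φ (injCut b H0 (2 * R) i ^ 2) else 0) →
      ‖ContinuousLinearMap.adjoint V ∘L V - c‖ ≤ η) ∧
    -- every symbol is realised in the reduced algebra of the finitely generated subgroup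
    (∀ (τ : Fin n) (M : ScL2 (ℕ × Γ) →L[ℂ] ScL2 (ℕ × Γ)),
      InjHasBlocks M ((sym τ).blocks b H0 Φ) →
      ∃ x ∈ injAlg G₀, ‖x - V ∘L M ∘L ContinuousLinearMap.adjoint V‖ ≤ η) ∧
    -- the physical root
    (∃ v ∈ injAlg G₀, ‖v - V ∘L injIn 0 ∘L Φ (injCut b H0 (2 * R) 0)‖ ≤ η)

/-- the frozen statement S0553 -/
def InjGoal : Prop :=
    ∃ (G : Type) (_ : Group G), Group.FG G ∧ (∀ g : G, IsOfFinOrder g → g = 1) ∧
      ∃ i : Multiplicative (ℤ × ℤ) →* G, Function.Injective i ∧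
        (∃ c : G → G → ℤ, (∀ a b d : G, c a b + c (a * b) d = c a (b * d) + c b d) ∧
          ∃ s : ℤ, (s = 1 ∨ s = -1) ∧ ∃ φ : Multiplicative (ℤ × ℤ) → ℤ, ∀ x y,
            c (i x) (i y) = s * ((Multiplicative.toAdd x).2 * (Multiplicative.toAdd y).1) +
              (φ x + φ y - φ (x * y))) ∧
        ∀ u v : GroupL2 G →L[ℂ] GroupL2 G,
          IsLeftTranslation (i (Multiplicative.ofAdd ((1 : ℤ), (0 : ℤ)))) u →
          IsLeftTranslation (i (Multiplicative.ofAdd ((0 : ℤ), (1 : ℤ)))) v →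
          ∃ (k : ℕ) (w : Matrix (Fin 2 ⊕ Fin k) (Fin 2 ⊕ Fin k) (GroupL2 G →L[ℂ] GroupL2 G)),
            (∀ a b, w a b ∈ reducedGroupCStarAlgebra G) ∧
            w.conjTranspose * w = Matrix.fromBlocks (bottProjection u v) 0 0 1 ∧
            w * w.conjTranspose =
              Matrix.fromBlocks (Matrix.of ![![(1 : GroupL2 G →L[ℂ] GroupL2 G), 0], ![0, 0]]) 0 0 1

end Claimed.Agent.R300
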