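/-
Row 300 / S0553 (INJ paper).  LOWER ASSEMBLY, package LOW-8: the function families of the lower assembly
(cutoffs `injCut`, symbols of a type indexed by the `𝒜`-height / by the `ℬ`-height) : supports, bounds, absorption by
cutoffs, masses.   INJ captain: helper105.  The `sorry`s are replaced IN PLACE by the owner of the package
(table subtask, target row300, name INJ-LOW-8).  Statements are frozen: ask helper105 before changing one.

Everything follows from InjLoc.lean (DONE: `injLoc_mul_cut`, `injLoc_star`, `injLoc2_suppRect`, `injLoc2_norm_le`,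
`InjSuppRect.mono`), `injLoc2_mass` (InjTrim.lean, statement) and elementary properties of `Real.smoothTransition`.
-/
import Mathlib
import Claimed.Agent.R300.InjStmt
import Claimed.Agent.R300.InjLoc
import Claimed.Agent.R300.InjTrim
import Claimed.Agent.R300.InjGraph

set_option autoImplicit false

namespace Claimed.Agent.R300

open scoped ENNReal ComplexConjugate InnerProductSpace
open MeasureTheory

/-! ### the cutoff profile -/

theorem injChi_apply (R x : ℝ) : injChi R x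
    = ((Real.smoothTransition (2 - x / R) * Real.smoothTransition (2 + x / R) : ℝ) : ℂ) := rfl

theorem injChi_one_of_le {R x : ℝ} (hR : 0 < R) (hx : |x| ≤ R) : injChi R x = 1 := by
  obtain ⟨h1, h2⟩ := abs_le.1 hx
  have h3 : x / R ≤ 1 := (div_le_one hR).2 h2
  have h4 : -1 ≤ x / R := by
    rw [le_div_iff₀ hR]; linarith
  rw [injChi_apply, Real.smoothTransition.one_of_one_le (by linarith),
    Real.smoothTransition.one_of_one_le (by linarith)]
  simp

theorem injChi_zero_of_lt {R x : ℝ} (hR : 0 < R) (hx : 2 * R < |x|) : injChi R x = 0 := by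
  rw [injChi_apply]
  rcases lt_abs.1 hx with h | h
  · have h3 : 2 ≤ x / R := by
      rw [le_div_iff₀ hR]; linarith
    rw [Real.smoothTransition.zero_of_nonpos (x := 2 - x / R) (by linarith)]
    simp
  · have h3 : x / R ≤ -2 := by
      rw [div_le_iff₀ hR]; linarith
    rw [Real.smoothTransition.zero_of_nonpos (x := 2 + x / R) (by linarith)]
    simp

theorem injChi_norm_le_one (R x : ℝ) : ‖injChi R x‖ ≤ 1 := by
  rw [injChi_apply, Complex.norm_real, Real.norm_eq_abs, abs_of_nonneg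
    (mul_nonneg (Real.smoothTransition.nonneg _) (Real.smoothTransition.nonneg _))]
  exact mul_le_one₀ (Real.smoothTransition.le_one _) (Real.smoothTransition.nonneg _)
    (Real.smoothTransition.le_one _)

theorem injChi_star_eq (R : ℝ) : star (injChi R) = injChi R := by
  ext x
  rw [ContinuousMap.star_apply, injChi_apply, RCLike.star_def, Complex.conj_ofReal]

theorem injChi_contDiff {R : ℝ} (hR : 0 < R) (m : ℕ) : ContDiff ℝ m (injChi R) := by
  have h0 : ContDiff ℝ m Real.smoothTransition := Real.smoothTransition.contDiff (n := (m : ℕ∞))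
  have h1 : ContDiff ℝ m fun x : ℝ =>
      Real.smoothTransition (2 - x / R) * Real.smoothTransition (2 + x / R) := by
    refine ContDiff.mul (h0.comp ?_) (h0.comp ?_)
    · exact contDiff_const.sub (contDiff_id.div_const R)
    · exact contDiff_const.add (contDiff_id.div_const R)
  exact Complex.ofRealCLM.contDiff.comp h1

/-- a continuous compactly supported profile is bounded -/
theorem inj_profile_bdd {R : ℝ} (A : C(ℝ, ℂ)) (hA : ∀ x : ℝ, R < |x| → A x = 0) :
    ∃ C : ℝ, 1 ≤ C ∧ ∀ x, ‖A x‖ ≤ C := by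
  obtain ⟨C, hC⟩ := (isCompact_Icc (a := -R) (b := R)).exists_bound_of_continuousOn
    A.continuous.continuousOn
  refine ⟨max C 1, le_max_right _ _, fun x => ?_⟩
  by_cases hx : |x| ≤ R
  · exact (hC x (abs_le.1 hx)).trans (le_max_left _ _)
  · rw [hA x (not_le.1 hx), norm_zero]
    exact zero_le_one.trans (le_max_right _ _)

theorem injChi_suppLow {R R' : ℝ} (hR : 0 < R) (hRR : 2 * R ≤ R') : InjSupp R' (injChi R) :=
  fun _ hx => injChi_zero_of_lt hR (hRR.trans_lt hx)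

/-! ### the cutoff families -/

theorem injCut_fam (b H0 : ℕ) {R R' : ℝ} (hR : 0 < R) (hRR : 2 * R ≤ R') (hH : 2 * R' < 2 ^ H0) :
    InjFam b H0 R' 1 (injCut b H0 R) := by
  have hs := injChi_suppLow hR hRR
  refine ⟨fun i => injLoc2_suppRect hs hs (by linarith) b H0 i hH, fun i => ?_⟩
  have := injLoc2_norm_le hs hs b H0 i hH zero_le_one zero_le_one (injChi_norm_le_one R)
    (injChi_norm_le_one R)
  rwa [one_mul] at this

theorem injCut_star_eq (b H0 : ℕ) {R : ℝ} (hR : 0 < R) (hH : 4 * R < 2 ^ H0) (i : ℕ) :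
    star (injCut b H0 R i) = injCut b H0 R i := by
  have hs := injChi_suppLow hR (le_refl (2 * R))
  have hH' : 2 * (2 * R) < 2 ^ H0 := by linarith
  ext p
  rw [ContinuousMap.star_apply, injCut, injLoc2_apply, star_mul', ← ContinuousMap.star_apply,
    ← ContinuousMap.star_apply, ← injLoc_star hs (hH'.trans_le (injZs_ge b H0 i)),
    ← injLoc_star hs (hH'.trans_le (injNs_ge b H0 i)), injChi_star_eq]

/-- the arithmetic of the mass bounds -/
theorem inj_mass_arith (b H0 : ℕ) {i t : ℕ} (hit : i ≤ t) {I K : ℝ} (hK : 0 ≤ K)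
    (hI : I ≤ K / (2 : ℝ) ^ (700 * injH b H0 t)) :
    (2 : ℝ) ^ (10 * injH b H0 i) * I ≤ K / 2 ^ (690 * H0) := by
  have h1 : injH b H0 i ≤ injH b H0 t := by
    unfold injH
    exact Nat.add_le_add_left (Nat.mul_le_mul_left b hit) H0
  have h2 : H0 ≤ injH b H0 i := Nat.le_add_right _ _
  have e1 : (2 : ℝ) ^ (700 * injH b H0 i) = 2 ^ (10 * injH b H0 i) * 2 ^ (690 * injH b H0 i) := by
    rw [← pow_add]; congr 1; ring
  have h3 : (2 : ℝ) ^ (700 * injH b H0 i) ≤ 2 ^ (700 * injH b H0 t) :=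
    pow_le_pow_right₀ (by norm_num) (Nat.mul_le_mul_left 700 h1)
  have h4 : (2 : ℝ) ^ (690 * H0) ≤ 2 ^ (690 * injH b H0 i) :=
    pow_le_pow_right₀ (by norm_num) (Nat.mul_le_mul_left 690 h2)
  have p1 : (0 : ℝ) < 2 ^ (10 * injH b H0 i) := by positivity
  have p2 : (0 : ℝ) < 2 ^ (690 * injH b H0 i) := by positivity
  have p3 : (0 : ℝ) < 2 ^ (690 * H0) := by positivity
  calc (2 : ℝ) ^ (10 * injH b H0 i) * I
      ≤ 2 ^ (10 * injH b H0 i) * (K / (2 : ℝ) ^ (700 * injH b H0 t)) :=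
        mul_le_mul_of_nonneg_left hI p1.le
    _ ≤ 2 ^ (10 * injH b H0 i) * (K / (2 : ℝ) ^ (700 * injH b H0 i)) :=
        mul_le_mul_of_nonneg_left (div_le_div_of_nonneg_left hK (by positivity) h3) p1.le
    _ = K / 2 ^ (690 * injH b H0 i) := by
        rw [e1]; field_simp
    _ ≤ K / 2 ^ (690 * H0) := div_le_div_of_nonneg_left hK p3 h4

/-- `2^(10 H_i) ∫∫ |χ_i|² ≤ 16 R² 2^(-690 H_0)` -/
theorem injCut_mass (b H0 : ℕ) {R : ℝ} (hR : 0 < R) (hH : 4 * R < 2 ^ H0) (i : ℕ) :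
    (2 : ℝ) ^ (10 * injH b H0 i) * ∫ θ : InjT, ∫ ξ : InjT, ‖injCut b H0 R i (θ, ξ)‖ ^ 2
      ≤ 16 * R ^ 2 / 2 ^ (690 * H0) := by
  have hs := injChi_suppLow hR (le_refl (2 * R))
  have h := injLoc2_mass hs hs (by linarith) b H0 i (by linarith) (injChi_norm_le_one R)
    (injChi_norm_le_one R)
  refine inj_mass_arith b H0 (le_refl i) (by positivity) (h.trans (le_of_eq ?_))
  congr 1
  ring

theorem injCut_sq_mass (b H0 : ℕ) {R : ℝ} (hR : 0 < R) (hH : 4 * R < 2 ^ H0) (i : ℕ) :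
    (2 : ℝ) ^ (10 * injH b H0 i) *
        ∫ θ : InjT, ∫ ξ : InjT, ‖(injCut b H0 R i * injCut b H0 R i) (θ, ξ)‖ ^ 2
      ≤ 16 * R ^ 2 / 2 ^ (690 * H0) := by
  have hs := injChi_suppLow hR (le_refl (2 * R))
  have hH' : 2 * (2 * R) < 2 ^ H0 := by linarith
  have e : injCut b H0 R i * injCut b H0 R i
      = injLoc2 b H0 (injChi R * injChi R) (injChi R * injChi R) i := by
    ext p
    rw [ContinuousMap.mul_apply, injCut, injLoc2_apply, injLoc2_apply,
      injLoc_mul hs hs (hH'.trans_le (injZs_ge b H0 i)),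
      injLoc_mul hs hs (hH'.trans_le (injNs_ge b H0 i)), ContinuousMap.mul_apply,
      ContinuousMap.mul_apply]
    ring
  have hb : ∀ x, ‖(injChi R * injChi R) x‖ ≤ 1 := fun x => by
    rw [ContinuousMap.mul_apply, norm_mul]
    exact mul_le_one₀ (injChi_norm_le_one R x) (norm_nonneg _) (injChi_norm_le_one R x)
  have h := injLoc2_mass (hs.mul_left (injChi R)) (hs.mul_left (injChi R)) (by linarith) b H0 i hH'
    hb hb
  rw [e]
  refine inj_mass_arith b H0 (le_refl i) (by positivity) (h.trans (le_of_eq ?_))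
  congr 1
  ring

/-! ### the symbol of a type -/

open Classical in
/-- the symbol of a type in the block `(i, i+o)`, indexed by the `𝒜`-height `i` -/
noncomputable def injSyF (b H0 : ℕ) (σ : InjSy) (o : ℤ) (i : ℕ) : C(InjT × InjT, ℂ) :=
  if σ.sel i ∧ 0 ≤ (i : ℤ) + o then injLoc2 b H0 σ.A σ.B (max i ((i : ℤ) + o).toNat) else 0

open Classical in
/-- the same symbol, indexed by the `ℬ`-height `k = i + o` -/
noncomputable def injSyG (b H0 : ℕ) (σ : InjSy) (o : ℤ) (k : ℕ) : C(InjT × InjT, ℂ) :=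
  if σ.sel ((k : ℤ) - o).toNat ∧ 0 ≤ (k : ℤ) - o then
    injLoc2 b H0 σ.A σ.B (max ((k : ℤ) - o).toNat k) else 0

theorem injSyF_eq_G (b H0 : ℕ) (σ : InjSy) (o : ℤ) (i k : ℕ) (h : (k : ℤ) = i + o) :
    injSyF b H0 σ o i = injSyG b H0 σ o k := by
  have e1 : ((k : ℤ) - o).toNat = i := by
    rw [h]; simp
  have e2 : ((i : ℤ) + o).toNat = k := by
    rw [← h]; simp
  unfold injSyF injSyG
  by_cases hs : σ.sel i
  · rw [if_pos ⟨hs, by omega⟩, if_pos ⟨by rw [e1]; exact hs, by omega⟩, e1, e2]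
  · rw [if_neg (fun h' => hs h'.1), if_neg (fun h' => hs (by rw [← e1]; exact h'.1))]

theorem injSyF_neg (b H0 : ℕ) (σ : InjSy) (o : ℤ) (i : ℕ) (h : (i : ℤ) + o < 0) :
    injSyF b H0 σ o i = 0 := by
  unfold injSyF
  rw [if_neg]
  rintro ⟨-, h2⟩
  omega

/-- the cutoff type -/
theorem injSyF_cut (b H0 : ℕ) (R : ℝ) (i : ℕ) :
    injSyF b H0 ⟨injChi R, injChi R, fun _ => True⟩ 0 i = injCut b H0 R i := by
  unfold injSyF
  rw [if_pos ⟨trivial, by omega⟩]
  have : max i ((i : ℤ) + 0).toNat = i := by simp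
  rw [this]
  rfl

/-- a cutoff at a coarser height acts as one on a product symbol -/
theorem injCut_mul_loc2 (b H0 : ℕ) {R R' : ℝ} {A B : C(ℝ, ℂ)} (hA : InjSupp R A) (hB : InjSupp R B)
    (hR : 0 < R) (hRR : R ≤ R') (hH : 4 * R' < 2 ^ H0) {i t : ℕ} (hit : i ≤ t) :
    injCut b H0 R' i * injLoc2 b H0 A B t = injLoc2 b H0 A B t := by
  have hR' : 0 < R' := hR.trans_le hRR
  have hs := injChi_suppLow hR' (le_refl (2 * R'))
  have hH' : 2 * (2 * R') < 2 ^ H0 := by linarith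
  have hH2 : 2 * R < 2 ^ H0 := by linarith
  have hone : ∀ x, |x| ≤ R → injChi R' x = 1 := fun x hx => injChi_one_of_le hR' (hx.trans hRR)
  have h1 := injLoc_mul_cut hA hs hone (a := injAlpha) hR.le (hH2.trans_le (injZs_ge b H0 t))
    (hH'.trans_le (injZs_ge b H0 i)) (injZs_le_of_le b H0 hit)
  have h2 := injLoc_mul_cut hB hs hone (a := 0) hR.le (hH2.trans_le (injNs_ge b H0 t))
    (hH'.trans_le (injNs_ge b H0 i)) (injNs_le_of_le b H0 hit)
  ext p
  have h1' := congrArg (fun f : C(InjT, ℂ) => f p.1) h1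
  have h2' := congrArg (fun f : C(InjT, ℂ) => f p.2) h2
  simp only [ContinuousMap.mul_apply] at h1' h2'
  rw [ContinuousMap.mul_apply, injCut, injLoc2_apply, injLoc2_apply]
  calc _ = (injLoc (injChi R') injAlpha (injZs b H0 i) p.1 * injLoc A injAlpha (injZs b H0 t) p.1) *
        (injLoc (injChi R') 0 (injNs b H0 i) p.2 * injLoc B 0 (injNs b H0 t) p.2) := by ring
    _ = _ := by rw [h1', h2']

section sym

variable (b H0 : ℕ) {R R' CA CB : ℝ} {σ : InjSy} (hσ : σ.Adm R) (hR : 0 < R)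
  (hCA : ∀ x, ‖σ.A x‖ ≤ CA) (hCB : ∀ x, ‖σ.B x‖ ≤ CB) (o : ℤ)

include hσ hR hCA hCB in
theorem injSyF_fam (hRR : R ≤ R') (hH : 2 * R' < 2 ^ H0) : InjFam b H0 R' (CA * CB) (injSyF b H0 σ o) := by
  have hCA0 : 0 ≤ CA := (norm_nonneg _).trans (hCA 0)
  have hCB0 : 0 ≤ CB := (norm_nonneg _).trans (hCB 0)
  have hH2 : 2 * R < 2 ^ H0 := by linarith
  refine ⟨fun i => ?_, fun i => ?_⟩
  · unfold injSyF
    split_ifs with hc
    · exact (injLoc2_suppRect hσ.suppA hσ.suppB hR.le b H0 _ hH2).mono hR.le hRR (le_max_left _ _)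
    · intro p hp
      exact absurd rfl hp
  · unfold injSyF
    split_ifs with hc
    · exact injLoc2_norm_le hσ.suppA hσ.suppB b H0 _ hH2 hCA0 hCB0 hCA hCB
    · rw [norm_zero]; exact mul_nonneg hCA0 hCB0

include hσ hR hCA hCB in
theorem injSyG_norm_le (hH : 2 * R < 2 ^ H0) (k : ℕ) : ‖injSyG b H0 σ o k‖ ≤ CA * CB := by
  have hCA0 : 0 ≤ CA := (norm_nonneg _).trans (hCA 0)
  have hCB0 : 0 ≤ CB := (norm_nonneg _).trans (hCB 0)
  unfold injSyG
  split_ifs with hc
  · exact injLoc2_norm_le hσ.suppA hσ.suppB b H0 _ hH hCA0 hCB0 hCA hCB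
  · rw [norm_zero]; exact mul_nonneg hCA0 hCB0

include hσ hR in
/-- cutoffs at the `𝒜`-height act as one -/
theorem injCut_mul_syF (hRR : R ≤ R') (hH : 4 * R' < 2 ^ H0) (i : ℕ) :
    injCut b H0 R' i * injSyF b H0 σ o i = injSyF b H0 σ o i := by
  unfold injSyF
  split_ifs with hc
  · exact injCut_mul_loc2 b H0 hσ.suppA hσ.suppB hR hRR hH (le_max_left _ _)
  · rw [mul_zero]

include hσ hR in
/-- cutoffs at the `ℬ`-height act as one -/
theorem injCut_mul_syG (hRR : R ≤ R') (hH : 4 * R' < 2 ^ H0) (k : ℕ) :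
    injCut b H0 R' k * injSyG b H0 σ o k = injSyG b H0 σ o k := by
  unfold injSyG
  split_ifs with hc
  · exact injCut_mul_loc2 b H0 hσ.suppA hσ.suppB hR hRR hH (le_max_right _ _)
  · rw [mul_zero]

include hσ hR hCA hCB in
theorem injSyF_mass (hH : 2 * R < 2 ^ H0) (i : ℕ) :
    (2 : ℝ) ^ (10 * injH b H0 i) * ∫ θ : InjT, ∫ ξ : InjT, ‖injSyF b H0 σ o i (θ, ξ)‖ ^ 2
      ≤ 4 * R ^ 2 * (CA * CB) ^ 2 / 2 ^ (690 * H0) := by
  unfold injSyF
  split_ifs with hc
  · have h := injLoc2_mass hσ.suppA hσ.suppB hR.le b H0 (max i ((i : ℤ) + o).toNat) hH hCA hCB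
    refine inj_mass_arith b H0 (t := max i ((i : ℤ) + o).toNat) (le_max_left _ _) (by positivity)
      (h.trans (le_of_eq ?_))
    congr 1
    ring
  · simp only [ContinuousMap.zero_apply, norm_zero, ne_eq, OfNat.ofNat_ne_zero, not_false_eq_true,
      zero_pow, integral_zero, mul_zero]
    positivity

end sym

/-- `injMeanOp` in terms of `injSyF` -/
theorem injMeanOp_eq {H : Type} [NormedAddCommGroup H] [InnerProductSpace ℂ H] [CompleteSpace H]
    (π : InjRep H) (Φ : C(InjT × InjT, ℂ) →⋆ₐ[ℂ] (H →L[ℂ] H)) (b H0 : ℕ) (σ : InjSy) (o : ℤ) (i : ℕ) :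
    injMeanOp π Φ b H0 σ o i
      = injT π b H0 i * Φ (injSyF b H0 σ o i) * star (injT π b H0 ((i : ℤ) + o).toNat) := by
  unfold injMeanOp injSyF
  split_ifs with hc
  · rfl
  · rw [map_zero, mul_zero, zero_mul]

/-- the blocks of the model operator of a symbol in terms of `injSyG` -/
theorem InjSym.blocks_eq {H : Type*} [NormedAddCommGroup H] [InnerProductSpace ℂ H] [CompleteSpace H]
    (σ : InjSym) (b H0 : ℕ) (Φ : C(InjT × InjT, ℂ) →⋆ₐ[ℂ] (H →L[ℂ] H)) :
    σ.blocks b H0 Φ = fun (i k : ℕ) => open Classical in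
      if (k : ℤ) = i + σ.off then Φ (injSyG b H0 ⟨σ.A, σ.B, σ.sel⟩ σ.off k) else 0 := by
  funext i k
  unfold InjSym.blocks
  by_cases hk : (k : ℤ) = i + σ.off
  · have e1 : ((k : ℤ) - σ.off).toNat = i := by
      rw [hk]; simp
    have e2 : 0 ≤ (k : ℤ) - σ.off := by omega
    rw [if_pos hk]
    unfold injSyG
    by_cases hs : σ.sel i
    · rw [if_pos ⟨hk, hs⟩, if_pos ⟨by rw [e1]; exact hs, e2⟩, e1]
    · rw [if_neg (fun h => hs h.2), if_neg (fun h => hs (by rw [← e1]; exact h.1)), map_zero]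
  · rw [if_neg hk, if_neg (fun h => hk h.1)]

end Claimed.Agent.R300
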