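/-
Row 300 / S0553 (INJ paper).  LOWER ASSEMBLY, package LOW-7: telescoping of almost multiplicative compressions
((6.4) and the end of the proof of Lemma 6.4), abstract Hilbert space form.
INJ captain: helper105.  The `sorry`s are replaced IN PLACE by the owner of the package (table subtask,
target row300, name INJ-LOW-7).  Statements are frozen: ask helper105 before changing one.

Proof plan for `inj_tele` (induction on the list): for `(C,z) :: l'`, `l' ≠ []`,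
`C ΠC' - V z Πz' V* = (C - V z V*) ΠC' + V z V* (ΠC' - V Πz' V*) - V (z Dc)(Dc Πz') V*`, with `V* V = 1 - Dc`,
`‖ΠC'‖ ≤ (L+θ)^n`, `‖Dc Πz'‖ ≤ δ L^(n-1)`;  `err(n+1) ≤ θ (L+θ)^n + L err(n) + δ² L^(n-1)`.
-/
import Mathlib

set_option autoImplicit false

namespace Claimed.Agent.R300

open scoped InnerProductSpace

variable {𝓗 𝓛 : Type*} [NormedAddCommGroup 𝓗] [InnerProductSpace ℂ 𝓗] [CompleteSpace 𝓗]
  [NormedAddCommGroup 𝓛] [InnerProductSpace ℂ 𝓛] [CompleteSpace 𝓛]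

/-- `C` is a `θ`-approximation of the compression of `z`; `z` is `δ`-concentrated off `Dc`. -/
structure InjAppr (V0 : 𝓗 →L[ℂ] 𝓛) (Dc : 𝓗 →L[ℂ] 𝓗) (L θ δ : ℝ) (C : 𝓛 →L[ℂ] 𝓛) (z : 𝓗 →L[ℂ] 𝓗) :
    Prop where
  norm_le : ‖z‖ ≤ L
  appr : ‖C - V0 ∘L z ∘L ContinuousLinearMap.adjoint V0‖ ≤ θ
  left : ‖Dc * z‖ ≤ δ
  right : ‖z * Dc‖ ≤ δ

theorem injTele_star_W (V0 : 𝓗 →L[ℂ] 𝓛) (z : 𝓗 →L[ℂ] 𝓗) :
    star (V0 ∘L z ∘L ContinuousLinearMap.adjoint V0)
      = V0 ∘L star z ∘L ContinuousLinearMap.adjoint V0 := by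
  rw [ContinuousLinearMap.star_eq_adjoint, ContinuousLinearMap.adjoint_comp,
    ContinuousLinearMap.adjoint_comp, ContinuousLinearMap.adjoint_adjoint,
    ContinuousLinearMap.star_eq_adjoint]
  rfl

theorem InjAppr.star {V0 : 𝓗 →L[ℂ] 𝓛} {Dc : 𝓗 →L[ℂ] 𝓗} {L θ δ : ℝ} {C : 𝓛 →L[ℂ] 𝓛} {z : 𝓗 →L[ℂ] 𝓗}
    (hDs : star Dc = Dc) (h : InjAppr V0 Dc L θ δ C z) : InjAppr V0 Dc L θ δ (star C) (star z) := by
  refine ⟨by rw [norm_star]; exact h.norm_le, ?_, ?_, ?_⟩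
  · rw [← injTele_star_W, ← star_sub, norm_star]
    exact h.appr
  · have e : Dc * Star.star z = Star.star (z * Dc) := by rw [star_mul, hDs]
    rw [e, norm_star]
    exact h.right
  · have e : Star.star z * Dc = Star.star (Dc * z) := by rw [star_mul, hDs]
    rw [e, norm_star]
    exact h.left

theorem injTele_norm_W (V0 : 𝓗 →L[ℂ] 𝓛) (hV : ‖V0‖ ≤ 1) (z : 𝓗 →L[ℂ] 𝓗) :
    ‖V0 ∘L z ∘L ContinuousLinearMap.adjoint V0‖ ≤ ‖z‖ := by
  have hV' : ‖ContinuousLinearMap.adjoint V0‖ ≤ 1 := by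
    rw [LinearIsometryEquiv.norm_map]; exact hV
  calc ‖V0 ∘L z ∘L ContinuousLinearMap.adjoint V0‖
      ≤ ‖V0‖ * ‖z ∘L ContinuousLinearMap.adjoint V0‖ := ContinuousLinearMap.opNorm_comp_le _ _
    _ ≤ ‖V0‖ * (‖z‖ * ‖ContinuousLinearMap.adjoint V0‖) :=
        mul_le_mul_of_nonneg_left (ContinuousLinearMap.opNorm_comp_le _ _) (norm_nonneg _)
    _ ≤ 1 * (‖z‖ * 1) :=
        mul_le_mul hV (mul_le_mul_of_nonneg_left hV' (norm_nonneg _))
          (mul_nonneg (norm_nonneg _) (norm_nonneg _)) zero_le_one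
    _ = ‖z‖ := by ring

theorem injTele_W_mul (V0 : 𝓗 →L[ℂ] 𝓛) (Dc : 𝓗 →L[ℂ] 𝓗)
    (hD : ContinuousLinearMap.adjoint V0 ∘L V0 = 1 - Dc) (a b : 𝓗 →L[ℂ] 𝓗) :
    (V0 ∘L a ∘L ContinuousLinearMap.adjoint V0) * (V0 ∘L b ∘L ContinuousLinearMap.adjoint V0)
      = V0 ∘L (a * b) ∘L ContinuousLinearMap.adjoint V0
        - V0 ∘L (a * Dc * b) ∘L ContinuousLinearMap.adjoint V0 := by
  have e : (V0 ∘L a ∘L ContinuousLinearMap.adjoint V0)
      * (V0 ∘L b ∘L ContinuousLinearMap.adjoint V0)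
      = V0 ∘L (a * (ContinuousLinearMap.adjoint V0 ∘L V0) * b)
          ∘L ContinuousLinearMap.adjoint V0 := rfl
  rw [e, hD]
  ext x
  simp [mul_sub, sub_mul]

theorem InjAppr.norm_C_le {V0 : 𝓗 →L[ℂ] 𝓛} {Dc : 𝓗 →L[ℂ] 𝓗} {L θ δ : ℝ} {C : 𝓛 →L[ℂ] 𝓛}
    {z : 𝓗 →L[ℂ] 𝓗} (hV : ‖V0‖ ≤ 1) (h : InjAppr V0 Dc L θ δ C z) : ‖C‖ ≤ L + θ := by
  have e : C = (C - V0 ∘L z ∘L ContinuousLinearMap.adjoint V0)
      + V0 ∘L z ∘L ContinuousLinearMap.adjoint V0 := by abel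
  calc ‖C‖ = ‖(C - V0 ∘L z ∘L ContinuousLinearMap.adjoint V0)
        + V0 ∘L z ∘L ContinuousLinearMap.adjoint V0‖ := by rw [← e]
    _ ≤ ‖C - V0 ∘L z ∘L ContinuousLinearMap.adjoint V0‖
        + ‖V0 ∘L z ∘L ContinuousLinearMap.adjoint V0‖ := norm_add_le _ _
    _ ≤ θ + L := add_le_add h.appr ((injTele_norm_W V0 hV z).trans h.norm_le)
    _ = L + θ := add_comm _ _

/-- the scalar recursion -/
theorem injTele_scalar {L θ δ e : ℝ} (n : ℕ) (hL : 1 ≤ L) (hθ : 0 ≤ θ)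
    (he : e ≤ n * (θ + δ ^ 2) * (L + θ) ^ n) :
    θ * (L + θ) ^ n + L * e + δ * (δ * L ^ n)
      ≤ ((n + 1 : ℕ) : ℝ) * (θ + δ ^ 2) * (L + θ) ^ (n + 1) := by
  have h1 : 1 ≤ L + θ := by linarith
  have hp : 0 ≤ (L + θ) ^ n := by positivity
  have hLn : L ^ n ≤ (L + θ) ^ n := pow_le_pow_left₀ (by linarith) (by linarith) n
  have hs : (L + θ) ^ n ≤ (L + θ) ^ (n + 1) := by
    rw [pow_succ]; nlinarith
  have a1 : θ * (L + θ) ^ n ≤ θ * (L + θ) ^ (n + 1) := mul_le_mul_of_nonneg_left hs hθ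
  have a2 : δ * (δ * L ^ n) ≤ δ ^ 2 * (L + θ) ^ (n + 1) := by
    have : δ ^ 2 * L ^ n ≤ δ ^ 2 * (L + θ) ^ (n + 1) :=
      mul_le_mul_of_nonneg_left (hLn.trans hs) (by positivity)
    calc δ * (δ * L ^ n) = δ ^ 2 * L ^ n := by ring
      _ ≤ _ := this
  have a3 : L * e ≤ n * (θ + δ ^ 2) * (L + θ) ^ (n + 1) := by
    have b1 : L * e ≤ L * (n * (θ + δ ^ 2) * (L + θ) ^ n) :=
      mul_le_mul_of_nonneg_left he (by linarith)
    have b2 : L * (n * (θ + δ ^ 2) * (L + θ) ^ n) ≤ (L + θ) * (n * (θ + δ ^ 2) * (L + θ) ^ n) :=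
      mul_le_mul_of_nonneg_right (by linarith) (by positivity)
    calc L * e ≤ (L + θ) * (n * (θ + δ ^ 2) * (L + θ) ^ n) := b1.trans b2
      _ = n * (θ + δ ^ 2) * (L + θ) ^ (n + 1) := by ring
  push_cast
  nlinarith

theorem injTele_aux (V0 : 𝓗 →L[ℂ] 𝓛) (hV : ‖V0‖ ≤ 1) (Dc : 𝓗 →L[ℂ] 𝓗)
    (hD : ContinuousLinearMap.adjoint V0 ∘L V0 = 1 - Dc) (hDc : Dc * Dc = Dc)
    {L θ δ : ℝ} (hL : 1 ≤ L) (hθ : 0 ≤ θ) (hδ : 0 ≤ δ)
    (l : List ((𝓛 →L[ℂ] 𝓛) × (𝓗 →L[ℂ] 𝓗)))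
    (h : ∀ q ∈ l, InjAppr V0 Dc L θ δ q.1 q.2) :
    ‖(l.map Prod.fst).prod‖ ≤ (L + θ) ^ l.length ∧ ‖(l.map Prod.snd).prod‖ ≤ L ^ l.length ∧
      (l ≠ [] → ‖Dc * (l.map Prod.snd).prod‖ ≤ δ * L ^ l.length ∧
        ‖(l.map Prod.fst).prod - V0 ∘L (l.map Prod.snd).prod ∘L ContinuousLinearMap.adjoint V0‖
          ≤ l.length * (θ + δ ^ 2) * (L + θ) ^ l.length) := by
  have hL0 : 0 ≤ L := by linarith
  induction l with
  | nil =>
    refine ⟨?_, ?_, fun h => absurd rfl h⟩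
    · simp only [List.map_nil, List.prod_nil, List.length_nil, pow_zero]
      exact ContinuousLinearMap.norm_id_le (𝕜 := ℂ) (E := 𝓛)
    · simp only [List.map_nil, List.prod_nil, List.length_nil, pow_zero]
      exact ContinuousLinearMap.norm_id_le (𝕜 := ℂ) (E := 𝓗)
  | cons q l' ih =>
    obtain ⟨ihC, ihz, ihe⟩ := ih (fun q' hq' => h q' (List.mem_cons_of_mem _ hq'))
    have hq := h q List.mem_cons_self
    simp only [List.map_cons, List.prod_cons, List.length_cons]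
    set PC := (l'.map Prod.fst).prod with hPC
    set Pz := (l'.map Prod.snd).prod with hPz
    set n := l'.length with hn
    have hC : ‖q.1 * PC‖ ≤ (L + θ) ^ (n + 1) := by
      calc ‖q.1 * PC‖ ≤ ‖q.1‖ * ‖PC‖ := norm_mul_le _ _
        _ ≤ (L + θ) * (L + θ) ^ n :=
          mul_le_mul (hq.norm_C_le hV) ihC (norm_nonneg _) (by linarith)
        _ = (L + θ) ^ (n + 1) := by ring
    have hz : ‖q.2 * Pz‖ ≤ L ^ (n + 1) := by
      calc ‖q.2 * Pz‖ ≤ ‖q.2‖ * ‖Pz‖ := norm_mul_le _ _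
        _ ≤ L * L ^ n := mul_le_mul hq.norm_le ihz (norm_nonneg _) hL0
        _ = L ^ (n + 1) := by ring
    refine ⟨hC, hz, fun _ => ⟨?_, ?_⟩⟩
    · calc ‖Dc * (q.2 * Pz)‖ = ‖(Dc * q.2) * Pz‖ := by rw [mul_assoc]
        _ ≤ ‖Dc * q.2‖ * ‖Pz‖ := norm_mul_le _ _
        _ ≤ δ * L ^ n := mul_le_mul hq.left ihz (norm_nonneg _) hδ
        _ ≤ δ * L ^ (n + 1) := by
          apply mul_le_mul_of_nonneg_left _ hδ
          rw [pow_succ]
          have : 0 ≤ L ^ n := by positivity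
          nlinarith
    · by_cases hl' : l' = []
      · subst hl'
        have e1 : PC = 1 := rfl
        have e2 : Pz = 1 := rfl
        have e3 : n = 0 := rfl
        rw [e1, e2, e3, mul_one, mul_one]
        have h1 : 0 ≤ δ ^ 2 := by positivity
        calc ‖q.1 - V0 ∘L q.2 ∘L ContinuousLinearMap.adjoint V0‖ ≤ θ := hq.appr
          _ ≤ ((0 + 1 : ℕ) : ℝ) * (θ + δ ^ 2) * (L + θ) ^ (0 + 1) := by
            push_cast
            nlinarith
      · obtain ⟨ihD, ihE⟩ := ihe hl'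
        have key : q.1 * PC - V0 ∘L (q.2 * Pz) ∘L ContinuousLinearMap.adjoint V0
            = (q.1 - V0 ∘L q.2 ∘L ContinuousLinearMap.adjoint V0) * PC
              + (V0 ∘L q.2 ∘L ContinuousLinearMap.adjoint V0)
                * (PC - V0 ∘L Pz ∘L ContinuousLinearMap.adjoint V0)
              - V0 ∘L ((q.2 * Dc) * (Dc * Pz)) ∘L ContinuousLinearMap.adjoint V0 := by
          have e1 : (q.2 * Dc) * (Dc * Pz) = q.2 * Dc * Pz := by
            rw [mul_assoc, ← mul_assoc Dc, hDc, mul_assoc]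
          rw [e1, mul_sub, injTele_W_mul V0 Dc hD, sub_mul]
          abel
        rw [key]
        refine le_trans ?_ (injTele_scalar n hL hθ ihE)
        calc ‖(q.1 - V0 ∘L q.2 ∘L ContinuousLinearMap.adjoint V0) * PC
              + (V0 ∘L q.2 ∘L ContinuousLinearMap.adjoint V0)
                * (PC - V0 ∘L Pz ∘L ContinuousLinearMap.adjoint V0)
              - V0 ∘L ((q.2 * Dc) * (Dc * Pz)) ∘L ContinuousLinearMap.adjoint V0‖
            ≤ ‖(q.1 - V0 ∘L q.2 ∘L ContinuousLinearMap.adjoint V0) * PC‖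
              + ‖(V0 ∘L q.2 ∘L ContinuousLinearMap.adjoint V0)
                * (PC - V0 ∘L Pz ∘L ContinuousLinearMap.adjoint V0)‖
              + ‖V0 ∘L ((q.2 * Dc) * (Dc * Pz)) ∘L ContinuousLinearMap.adjoint V0‖ :=
              (norm_sub_le _ _).trans (add_le_add (norm_add_le _ _) le_rfl)
          _ ≤ θ * (L + θ) ^ n
              + L * ‖PC - V0 ∘L Pz ∘L ContinuousLinearMap.adjoint V0‖ + δ * (δ * L ^ n) := by
            refine add_le_add (add_le_add ?_ ?_) ?_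
            · exact (norm_mul_le _ _).trans
                (mul_le_mul hq.appr ihC (norm_nonneg _) hθ)
            · exact (norm_mul_le _ _).trans
                (mul_le_mul_of_nonneg_right ((injTele_norm_W V0 hV _).trans hq.norm_le)
                  (norm_nonneg _))
            · exact (injTele_norm_W V0 hV _).trans ((norm_mul_le _ _).trans
                (mul_le_mul hq.right ihD (norm_nonneg _) hδ))

theorem inj_tele (V0 : 𝓗 →L[ℂ] 𝓛) (hV : ‖V0‖ ≤ 1) (Dc : 𝓗 →L[ℂ] 𝓗)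
    (hD : ContinuousLinearMap.adjoint V0 ∘L V0 = 1 - Dc) (hDc : Dc * Dc = Dc)
    {L θ δ : ℝ} (hL : 1 ≤ L) (hθ : 0 ≤ θ) (hδ : 0 ≤ δ)
    (l : List ((𝓛 →L[ℂ] 𝓛) × (𝓗 →L[ℂ] 𝓗))) (hl : l ≠ [])
    (h : ∀ q ∈ l, InjAppr V0 Dc L θ δ q.1 q.2) :
    ‖(l.map Prod.fst).prod - V0 ∘L (l.map Prod.snd).prod ∘L ContinuousLinearMap.adjoint V0‖
      ≤ l.length * (θ + δ ^ 2) * (L + θ) ^ l.length :=
  ((injTele_aux V0 hV Dc hD hDc hL hθ hδ l h).2.2 hl).2

/-- `k` copies of the pair `a, b` -/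
def injTeleRep {α : Type*} (a b : α) : ℕ → List α
  | 0 => []
  | k + 1 => a :: b :: injTeleRep a b k

theorem injTeleRep_length {α : Type*} (a b : α) (k : ℕ) : (injTeleRep a b k).length = 2 * k := by
  induction k with
  | zero => rfl
  | succ k ih => simp only [injTeleRep, List.length_cons, ih]; ring

theorem injTeleRep_mem {α : Type*} (a b : α) (k : ℕ) (q : α) (hq : q ∈ injTeleRep a b k) :
    q = a ∨ q = b := by
  induction k with
  | zero => simp [injTeleRep] at hq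
  | succ k ih =>
    simp only [injTeleRep, List.mem_cons] at hq
    rcases hq with h | h | h
    · exact Or.inl h
    · exact Or.inr h
    · exact ih h

theorem injTeleRep_prod {α M : Type*} [Monoid M] (f : α → M) (a b : α) (k : ℕ) :
    ((injTeleRep a b k).map f).prod = (f a * f b) ^ k := by
  induction k with
  | zero => simp [injTeleRep]
  | succ k ih =>
    simp only [injTeleRep, List.map_cons, List.prod_cons, ih]
    rw [pow_succ', mul_assoc]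

/-- the route -/
theorem inj_tele_route (V0 : 𝓗 →L[ℂ] 𝓛) (hV : ‖V0‖ ≤ 1) (Dc : 𝓗 →L[ℂ] 𝓗)
    (hD : ContinuousLinearMap.adjoint V0 ∘L V0 = 1 - Dc) (hDc : Dc * Dc = Dc) (hDs : star Dc = Dc)
    {L θ δ : ℝ} (hL : 1 ≤ L) (hθ : 0 ≤ θ) (hδ : 0 ≤ δ)
    {C0 Cτ : 𝓛 →L[ℂ] 𝓛} {z0 zτ : 𝓗 →L[ℂ] 𝓗} (h0 : InjAppr V0 Dc L θ δ C0 z0)
    (hτ : InjAppr V0 Dc L θ δ Cτ zτ) (k : ℕ) :
    ‖(star C0 * C0) ^ k * (star C0 * Cτ) * (star C0 * C0) ^ k
        - V0 ∘L ((star z0 * z0) ^ k * (star z0 * zτ) * (star z0 * z0) ^ k) ∘L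
            ContinuousLinearMap.adjoint V0‖
      ≤ (4 * k + 2) * (θ + δ ^ 2) * (L + θ) ^ (4 * k + 2) := by
  set R := injTeleRep (star C0, star z0) (C0, z0) k with hR
  set l : List ((𝓛 →L[ℂ] 𝓛) × (𝓗 →L[ℂ] 𝓗)) := R ++ ((star C0, star z0) :: (Cτ, zτ) :: R) with hl
  have hlen : l.length = 4 * k + 2 := by
    simp only [hl, List.length_append, List.length_cons, hR, injTeleRep_length]
    ring
  have hmem : ∀ q ∈ l, InjAppr V0 Dc L θ δ q.1 q.2 := by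
    have hRm : ∀ q ∈ R, InjAppr V0 Dc L θ δ q.1 q.2 := by
      intro q hq
      rcases injTeleRep_mem _ _ k q hq with rfl | rfl
      · exact h0.star hDs
      · exact h0
    intro q hq
    simp only [hl, List.mem_append, List.mem_cons] at hq
    rcases hq with h | rfl | rfl | h
    · exact hRm q h
    · exact h0.star hDs
    · exact hτ
    · exact hRm q h
  have h1 : (l.map Prod.fst).prod = (star C0 * C0) ^ k * (star C0 * Cτ) * (star C0 * C0) ^ k := by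
    simp only [hl, List.map_append, List.map_cons, List.prod_append, List.prod_cons, hR,
      injTeleRep_prod]
    simp only [mul_assoc]
  have h2 : (l.map Prod.snd).prod = (star z0 * z0) ^ k * (star z0 * zτ) * (star z0 * z0) ^ k := by
    simp only [hl, List.map_append, List.map_cons, List.prod_append, List.prod_cons, hR,
      injTeleRep_prod]
    simp only [mul_assoc]
  have := inj_tele V0 hV Dc hD hDc hL hθ hδ l (by simp [hl]) hmem
  rw [h1, h2, hlen] at this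
  push_cast at this
  exact this

end Claimed.Agent.R300
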