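/-
Row 300 / S0553 (INJ paper).  LOWER ASSEMBLY, the analytic core (owner: helper105): from the packages LOW-1..8 to the
three analytic clauses of `InjPhysStmt` with explicit error bounds.
-/
import Mathlib
import Claimed.Agent.R300.InjLowFun
import Claimed.Agent.R300.InjCay
import Claimed.Agent.R300.InjTele
import Claimed.Agent.R300.SpecCut
import Claimed.Agent.R300.IuFin

set_option autoImplicit false

namespace Claimed.Agent.R300

open scoped ENNReal ComplexConjugate InnerProductSpace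

/-- base height of a tower -/
def injH0 (p : Lab.Par) : ℕ := (2 * p.n0 + 1) * p.s

theorem injH_eq (p : Lab.Par) (i : ℕ) : injH p.b (injH0 p) i = p.H i := rfl

theorem inj_norm_star {X : Type} (T : ScL2 X →L[ℂ] ScL2 X) : ‖star T‖ = ‖T‖ := by
  rw [ContinuousLinearMap.star_eq_adjoint, LinearIsometryEquiv.norm_map]

section core

variable {p : Lab.Par} {X : InjGr p} {vol : X.E → InjHeis} (G : InjGeo X vol)
  (Φ : C(InjT × InjT, ℂ) →⋆ₐ[ℂ] (ScL2 G.Γ →L[ℂ] ScL2 G.Γ))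

/-- `S g` -/
noncomputable def injLS (g : ℕ → C(InjT × InjT, ℂ)) : ScL2 (G.Γ × X.V) →L[ℂ] ScL2 (G.Γ × X.V) :=
  injS G.φ Φ p.b (injH0 p) X.ht g

/-- the outer cutoff family -/
noncomputable def injLχ (p : Lab.Par) (R : ℝ) : ℕ → C(InjT × InjT, ℂ) := injCut p.b (injH0 p) (2 * R)

/-- the symbol family of a type -/
noncomputable def injLf (σ : InjSy) (τ : Fin p.T) : ℕ → C(InjT × InjT, ℂ) :=
  injSyF p.b (injH0 p) σ (injOff (p.off τ))

/-- the mean operator of a type on the sheet space -/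
noncomputable def injLZ (R : ℝ) (σ : InjSy) (τ : Fin p.T) : ScL2 (G.Γ × X.V) →L[ℂ] ScL2 (G.Γ × X.V) :=
  injLS G Φ (injLf σ τ) * injK (injU X τ) * star (injLS G Φ (injLχ p R))

/-- the physical map -/
noncomputable def injLV0 : ScL2 (G.Γ × X.V) →L[ℂ] ScL2 G.Γ := injPhys G.t G.rem

/-- restriction to the removed incidences -/
noncomputable def injLDc : ScL2 (G.Γ × X.V) →L[ℂ] ScL2 (G.Γ × X.V) := scRestr (injRet G.t G.rem)ᶜ

/-- the almost isometry `V` -/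
noncomputable def injLV (R : ℝ) (c : X.V → ℂ) : ScL2 (ℕ × G.Γ) →L[ℂ] ScL2 G.Γ :=
  injLV0 G ∘L injLS G Φ (injLχ p R) ∘L injW X.ht c

/-- standing hypotheses -/
structure InjLowHyp (R : ℝ) : Prop where
  str : X.Str
  deg : X.DegLe
  good : G.Good
  h1 : Φ injE1 = scRho (G.φ InjHeis.z)
  h2 : Φ injE2 = scRho (G.φ InjHeis.x)
  hR : 1 ≤ R
  hH : 100 * (4 * R) ≤ 2 ^ injH0 p

variable {G Φ} {R : ℝ} (h : InjLowHyp G Φ R)

include h

theorem InjLowHyp.hR4 : 1 ≤ 4 * R := by have := h.hR; linarith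

theorem InjLowHyp.V0_norm : ‖injLV0 G‖ ≤ 1 := (injPhys_spec G.t G.rem h.good.ret_unique).2

theorem InjLowHyp.hD : ContinuousLinearMap.adjoint (injLV0 G) ∘L injLV0 G = 1 - injLDc G := by
  unfold injLV0 injLDc
  rw [injPhys_adjoint_comp G.t G.rem h.good.ret_unique, eq_sub_iff_add_eq]
  ext1 ξ
  exact scRestr_add_compl _ ξ

omit h in
theorem injLDc_idem : injLDc G * injLDc G = injLDc G := (spec_restr_isStarProjection _).1

omit h in
theorem injLDc_star : star (injLDc G) = injLDc G := (spec_restr_isStarProjection _).2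

theorem InjLowHyp.χ_fam : InjFam p.b (injH0 p) (4 * R) 1 (injLχ p R) := by
  have := h.hR
  have := h.hH
  exact injCut_fam p.b (injH0 p) (by linarith) (by linarith) (by linarith)

theorem InjLowHyp.S_norm {C : ℝ} {g : ℕ → C(InjT × InjT, ℂ)} (hg : InjFam p.b (injH0 p) (4 * R) C g) :
    ‖injLS G Φ g‖ ≤ C :=
  injS_norm_le G.φ Φ h.h1 h.h2 p.b (injH0 p) (4 * R) h.hR4 h.hH X.ht hg

theorem InjLowHyp.trim {C δ : ℝ} (hδ : 0 ≤ δ) {g : ℕ → C(InjT × InjT, ℂ)}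
    (hg : InjFam p.b (injH0 p) (4 * R) C g)
    (hm : ∀ i, (2 : ℝ) ^ (10 * injH p.b (injH0 p) i) * ∫ θ : InjT, ∫ ξ : InjT, ‖g i (θ, ξ)‖ ^ 2 ≤ δ ^ 2) :
    ‖injLDc G * injLS G Φ g‖ ≤ δ :=
  inj_trim G.φ h.good.φ_inj Φ h.h1 h.h2 p.b (injH0 p) (4 * R) h.hR4 h.hH X.ht G.t G.rem
    h.good.rem_fin h.good.rem_card hδ hg hm

omit h in
theorem injK_U_norm (hX : X.Str) (hd : X.DegLe) (τ : Fin p.T) :
    ‖(injK (injU X τ) : ScL2 (G.Γ × X.V) →L[ℂ] ScL2 (G.Γ × X.V))‖ ≤ 1 :=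
  (injK_norm_le _).trans (injU_spec X hX hd τ).2

omit h in
theorem inj_norm_mul3_le {A : Type*} [NormedRing A] (a b c : A) {x y z : ℝ} (ha : ‖a‖ ≤ x) (hb : ‖b‖ ≤ y)
    (hc : ‖c‖ ≤ z) : ‖a * b * c‖ ≤ x * y * z := by
  have hx : 0 ≤ x := (norm_nonneg _).trans ha
  have hy : 0 ≤ y := (norm_nonneg _).trans hb
  calc ‖a * b * c‖ ≤ ‖a * b‖ * ‖c‖ := norm_mul_le _ _
    _ ≤ (‖a‖ * ‖b‖) * ‖c‖ := mul_le_mul_of_nonneg_right (norm_mul_le _ _) (norm_nonneg _)
    _ ≤ (x * y) * z := mul_le_mul (mul_le_mul ha hb (norm_nonneg _) hx) hc (norm_nonneg _)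
        (mul_nonneg hx hy)

/-- **Every factor of the route has a finite Cayley formula** close to its compression. -/
theorem InjLowHyp.appr (ω : X.Lb → ℂ) {M : ℝ} (hω : ∀ a, ‖ω a‖ ≤ M) (m : ℕ → InjHeis →₀ ℂ)
    (hm : ∀ i, (m i).sum (fun _ c => ‖c‖) ≤ M) (σ : InjSy) (τ : Fin p.T) {Cf δ ηV L : ℝ}
    (hf : InjFam p.b (injH0 p) (4 * R) Cf (injLf σ τ))
    (hfχ : ∀ i k : ℕ, (k : ℤ) = i + injOff (p.off τ) →
      injLf σ τ i * star (injLχ p R k) = injLf σ τ i)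
    (hδ : 0 ≤ δ)
    (hmf : ∀ i, (2 : ℝ) ^ (10 * injH p.b (injH0 p) i) *
      ∫ θ : InjT, ∫ ξ : InjT, ‖injLf σ τ i (θ, ξ)‖ ^ 2 ≤ δ ^ 2)
    (hmχ : ∀ i, (2 : ℝ) ^ (10 * injH p.b (injH0 p) i) *
      ∫ θ : InjT, ∫ ξ : InjT, ‖injLχ p R i (θ, ξ)‖ ^ 2 ≤ δ ^ 2)
    (h2a : ‖smpConv (injSampCoef X τ vol (fun e => ω (X.lab e)) (fun i => m i))‖ ≤ ηV)
    (h2b : ∀ i, ‖(m i).sum (fun g c => c • scRho (G.φ g))
      - injMeanOp (injRhoRep G.φ) Φ p.b (injH0 p) σ (injOff (p.off τ)) i‖ ≤ ηV)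
    (hL : 1 ≤ L) (hCf : Cf ≤ L) :
    InjAppr (injLV0 G) (injLDc G) L
      (2 * (M / InjGr.qq p τ) * Real.sqrt (Nat.card X.Lb) + 2 * ηV) (L * δ)
      (injCay G ω τ) (injLZ G Φ R σ τ) := by
  have hSf := h.S_norm hf
  have hSχ := h.S_norm h.χ_fam
  have hSχ' : ‖star (injLS G Φ (injLχ p R))‖ ≤ 1 := by rw [inj_norm_star]; exact hSχ
  have hK := injK_U_norm (G := G) h.str h.deg τ
  have hη : 0 ≤ ηV := (norm_nonneg _).trans h2a
  refine ⟨?_, ?_, ?_, ?_⟩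
  · have := inj_norm_mul3_le _ _ _ hSf hK hSχ'
    unfold injLZ
    linarith
  · -- the approximation
    obtain ⟨hz, hzb⟩ := inj_mean_eq G.φ Φ h.h1 h.h2 p.b (injH0 p) (4 * R) h.hR4 h.hH X.ht hf h.χ_fam
      (injU_shift X h.str h.deg τ) hfχ (fun i hi => injSyF_neg _ _ _ _ _ hi)
    have hmr : ∀ v, ‖injMeanRep G m v‖ ≤ M := injMeanRep_norm_le G m M hm
    have hz' : injLZ G Φ R σ τ = injFib (fun v => injT (injRhoRep G.φ) p.b (injH0 p) (X.ht v)
        * Φ (injLf σ τ (X.ht v))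
        * star (injT (injRhoRep G.φ) p.b (injH0 p) ((X.ht v : ℤ) + injOff (p.off τ)).toNat))
        * injK (injU X τ) := hz
    have e1 : ‖injFib (injMeanRep G m) * injK (injU X τ) - injLZ G Φ R σ τ‖ ≤ ηV := by
      rw [hz', ← sub_mul]
      unfold injFib
      rw [injFibE_sub _ hmr hzb]
      have hb : ‖injFibE (Equiv.prodComm G.Γ X.V) (fun v => injMeanRep G m v
          - injT (injRhoRep G.φ) p.b (injH0 p) (X.ht v) * Φ (injLf σ τ (X.ht v))
          * star (injT (injRhoRep G.φ) p.b (injH0 p) ((X.ht v : ℤ) + injOff (p.off τ)).toNat))‖ ≤ ηV := by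
        refine injFibE_norm_le _ hη fun v => ?_
        have := h2b (X.ht v)
        rw [injMeanOp_eq] at this
        exact this
      calc _ ≤ _ * _ := norm_mul_le _ _
        _ ≤ ηV * 1 := mul_le_mul hb hK (norm_nonneg _) hη
        _ = ηV := mul_one _
    have e2 := inj_transfer G h.str h.deg h.good.φ_inj ω M hω m hm τ
    have e3 : ‖injSamp G ω τ - injLZ G Φ R σ τ‖ ≤ 2 * ηV := by
      have : injSamp G ω τ - injLZ G Φ R σ τ
          = (injSamp G ω τ - injFib (injMeanRep G m) * injK (injU X τ))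
            + (injFib (injMeanRep G m) * injK (injU X τ) - injLZ G Φ R σ τ) := by abel
      rw [this]
      refine (norm_add_le _ _).trans ?_
      linarith
    have e4 := inj_cayley G h.str h.deg h.good ω M hω τ
    have e5 : injCay G ω τ - injLV0 G ∘L injLZ G Φ R σ τ ∘L ContinuousLinearMap.adjoint (injLV0 G)
        = (injCay G ω τ - injPhys G.t G.rem ∘L injSamp G ω τ ∘L
            ContinuousLinearMap.adjoint (injPhys G.t G.rem))
          + injLV0 G ∘L (injSamp G ω τ - injLZ G Φ R σ τ) ∘L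
            ContinuousLinearMap.adjoint (injLV0 G) := by
      unfold injLV0
      ext1 ξ
      simp
    rw [e5]
    refine (norm_add_le _ _).trans ?_
    have e6 := injTele_norm_W (injLV0 G) h.V0_norm (injSamp G ω τ - injLZ G Φ R σ τ)
    linarith
  · have e : injLDc G * injLZ G Φ R σ τ
        = (injLDc G * injLS G Φ (injLf σ τ)) * injK (injU X τ) * star (injLS G Φ (injLχ p R)) := by
      unfold injLZ; simp only [mul_assoc]
    rw [e]
    have := inj_norm_mul3_le _ _ _ (h.trim hδ hf hmf) hK hSχ'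
    nlinarith
  · have e : injLZ G Φ R σ τ * injLDc G
        = injLS G Φ (injLf σ τ) * injK (injU X τ) * star (injLDc G * injLS G Φ (injLχ p R)) := by
      unfold injLZ; rw [star_mul, injLDc_star]; simp only [mul_assoc]
    rw [e]
    have h3 : ‖star (injLDc G * injLS G Φ (injLχ p R))‖ ≤ δ := by
      rw [inj_norm_star]; exact h.trim hδ h.χ_fam hmχ
    have := inj_norm_mul3_le _ _ _ hSf hK h3
    have hCf0 : 0 ≤ Cf := (norm_nonneg _).trans hSf
    nlinarith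

omit h in
theorem injLV_adjoint (R : ℝ) (c : X.V → ℂ) :
    ContinuousLinearMap.adjoint (injLV G Φ R c)
      = ContinuousLinearMap.adjoint (injW X.ht c) ∘L star (injLS G Φ (injLχ p R)) ∘L
          ContinuousLinearMap.adjoint (injLV0 G) := by
  unfold injLV
  rw [ContinuousLinearMap.adjoint_comp, ContinuousLinearMap.adjoint_comp,
    ContinuousLinearMap.star_eq_adjoint]
  rfl

/-- **Lemma 6.4**: the route word in the Cayley polynomials realises the model operator. -/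
theorem InjLowHyp.realise (c : X.V → ℂ) (hc : InjUnitWt X.ht c) (σ0 σ : InjSy) (τ0 τ : Fin p.T)
    (h0 : injOff (p.off τ0) = 0) {C0 Cτ : ScL2 G.Γ →L[ℂ] ScL2 G.Γ} {L θ δ εx C1 Cf : ℝ} (k : ℕ)
    (hL : 1 ≤ L) (hθ : 0 ≤ θ) (hδ : 0 ≤ δ)
    (hA0 : InjAppr (injLV0 G) (injLDc G) L θ δ C0 (injLZ G Φ R σ0 τ0))
    (hAτ : InjAppr (injLV0 G) (injLDc G) L θ δ Cτ (injLZ G Φ R σ τ))
    (hχ1 : InjFam p.b (injH0 p) (4 * R) C1 (injLf σ0 τ0))
    (hf : InjFam p.b (injH0 p) (4 * R) Cf (injLf σ τ))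
    (F : ℕ → C(InjT × InjT, ℂ)) (hF : ∀ k, ‖F k‖ ≤ Cf)
    (hr1 : ∀ i, star (injLf σ0 τ0 i) = injLf σ0 τ0 i) (hr : ∀ i, star (injLχ p R i) = injLχ p R i)
    (hfF : ∀ i k : ℕ, (k : ℤ) = i + injOff (p.off τ) → injLf σ τ i = F k)
    (ha1 : ∀ i, injLf σ0 τ0 i * injLf σ τ i = injLf σ τ i)
    (ha2 : ∀ i, injLχ p R i * injLf σ τ i = injLf σ τ i)
    (hb1 : ∀ k, injLf σ0 τ0 k * F k = F k) (hb2 : ∀ k, injLχ p R k * F k = F k)
    (P : ScL2 X.V →L[ℂ] ScL2 X.V) (hP : SmpHasKer P (injPK X.ht c (injOff (p.off τ))))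
    (hPx : ‖(star (injU X τ0) * injU X τ0) ^ k * (star (injU X τ0) * injU X τ)
      * (star (injU X τ0) * injU X τ0) ^ k - P‖ ≤ εx)
    (M : ScL2 (ℕ × G.Γ) →L[ℂ] ScL2 (ℕ × G.Γ))
    (hM : InjHasBlocks M (fun i k => open Classical in
      if (k : ℤ) = i + injOff (p.off τ) then Φ (F k) else 0)) :
    ‖(star C0 * C0) ^ k * (star C0 * Cτ) * (star C0 * C0) ^ k
        - injLV G Φ R c ∘L M ∘L ContinuousLinearMap.adjoint (injLV G Φ R c)‖
      ≤ (4 * k + 2) * (θ + δ ^ 2) * (L + θ) ^ (4 * k + 2) + εx * Cf := by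
  have t1 := inj_tele_route (injLV0 G) h.V0_norm (injLDc G) h.hD injLDc_idem injLDc_star hL hθ hδ
    hA0 hAτ k
  have hU0 : InjShift X.ht 0 (injU X τ0) := by
    have := injU_shift X h.str h.deg τ0
    rwa [h0] at this
  have t2 : (star (injLZ G Φ R σ0 τ0) * injLZ G Φ R σ0 τ0) ^ k
      * (star (injLZ G Φ R σ0 τ0) * injLZ G Φ R σ τ)
      * (star (injLZ G Φ R σ0 τ0) * injLZ G Φ R σ0 τ0) ^ k
      = injLS G Φ (injLχ p R) * injK ((star (injU X τ0) * injU X τ0) ^ k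
          * (star (injU X τ0) * injU X τ) * (star (injU X τ0) * injU X τ0) ^ k)
          * injDg Φ X.ht F * star (injLS G Φ (injLχ p R)) :=
    inj_route G.φ Φ h.h1 h.h2 p.b (injH0 p) (4 * R) h.hR4 h.hH X.ht hχ1 h.χ_fam hf hF hr1 hr hU0
      (injU_shift X h.str h.deg τ) hfF ha1 ha2 hb1 hb2 k
  have hΦF : ∀ i, ‖Φ (F i)‖ ≤ Cf := fun i => (inj_calc_norm_le Φ (F i)).trans (hF i)
  have t3 := injW_conj hc (injOff (p.off τ)) P hP (fun i => Φ (F i)) hΦF M hM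
  have t4 : injLV G Φ R c ∘L M ∘L ContinuousLinearMap.adjoint (injLV G Φ R c)
      = injLV0 G ∘L (injLS G Φ (injLχ p R) * injK P * injDg Φ X.ht F
          * star (injLS G Φ (injLχ p R))) ∘L ContinuousLinearMap.adjoint (injLV0 G) := by
    rw [injLV_adjoint]
    have : injLS G Φ (injLχ p R) * injK P * injDg Φ X.ht F * star (injLS G Φ (injLχ p R))
        = injLS G Φ (injLχ p R) ∘L (injW X.ht c ∘L M ∘L ContinuousLinearMap.adjoint (injW X.ht c))
            ∘L star (injLS G Φ (injLχ p R)) := by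
      rw [t3]
      unfold injDg
      simp only [mul_assoc]
      rfl
    rw [this]
    rfl
  rw [t2] at t1
  set Q := (star (injU X τ0) * injU X τ0) ^ k * (star (injU X τ0) * injU X τ)
      * (star (injU X τ0) * injU X τ0) ^ k with hQ
  have hCf0 : 0 ≤ Cf := (norm_nonneg _).trans (hF 0)
  have hεx : 0 ≤ εx := (norm_nonneg _).trans hPx
  have hSχ := h.S_norm h.χ_fam
  have hSχ' : ‖star (injLS G Φ (injLχ p R))‖ ≤ 1 := by rw [inj_norm_star]; exact hSχ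
  have t5 : ‖injLS G Φ (injLχ p R) * injK Q * injDg Φ X.ht F * star (injLS G Φ (injLχ p R))
      - injLS G Φ (injLχ p R) * injK P * injDg Φ X.ht F * star (injLS G Φ (injLχ p R))‖
      ≤ εx * Cf := by
    have e : injLS G Φ (injLχ p R) * injK Q * injDg Φ X.ht F * star (injLS G Φ (injLχ p R))
      - injLS G Φ (injLχ p R) * injK P * injDg Φ X.ht F * star (injLS G Φ (injLχ p R))
      = injLS G Φ (injLχ p R) * (injK (Q - P) * injDg Φ X.ht F) * star (injLS G Φ (injLχ p R)) := by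
      rw [injK_sub]; noncomm_ring
    rw [e]
    have hKQ : ‖(injK (Q - P) : ScL2 (G.Γ × X.V) →L[ℂ] _)‖ ≤ εx := (injK_norm_le _).trans hPx
    have hDg : ‖injDg Φ X.ht F‖ ≤ Cf := injDg_norm_le Φ X.ht hCf0 hF
    have hmid : ‖(injK (Q - P) : ScL2 (G.Γ × X.V) →L[ℂ] _) * injDg Φ X.ht F‖ ≤ εx * Cf :=
      (norm_mul_le _ _).trans (mul_le_mul hKQ hDg (norm_nonneg _) hεx)
    have := inj_norm_mul3_le _ _ _ hSχ hmid hSχ'
    linarith
  rw [t4]
  have t6 := injTele_norm_W (injLV0 G) h.V0_norm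
    (injLS G Φ (injLχ p R) * injK Q * injDg Φ X.ht F * star (injLS G Φ (injLχ p R))
      - injLS G Φ (injLχ p R) * injK P * injDg Φ X.ht F * star (injLS G Φ (injLχ p R)))
  have e7 : (star C0 * C0) ^ k * (star C0 * Cτ) * (star C0 * C0) ^ k
      - injLV0 G ∘L (injLS G Φ (injLχ p R) * injK P * injDg Φ X.ht F
          * star (injLS G Φ (injLχ p R))) ∘L ContinuousLinearMap.adjoint (injLV0 G)
      = ((star C0 * C0) ^ k * (star C0 * Cτ) * (star C0 * C0) ^ k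
        - injLV0 G ∘L (injLS G Φ (injLχ p R) * injK Q * injDg Φ X.ht F
          * star (injLS G Φ (injLχ p R))) ∘L ContinuousLinearMap.adjoint (injLV0 G))
        + injLV0 G ∘L (injLS G Φ (injLχ p R) * injK Q * injDg Φ X.ht F
            * star (injLS G Φ (injLχ p R))
          - injLS G Φ (injLχ p R) * injK P * injDg Φ X.ht F * star (injLS G Φ (injLχ p R))) ∘L
            ContinuousLinearMap.adjoint (injLV0 G) := by
    ext1 ξ
    simp
  rw [e7]
  refine (norm_add_le _ _).trans ?_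
  linarith

/-- `V` is almost isometric on the carriers (6.17). -/
theorem InjLowHyp.isom (c : X.V → ℂ) (hc : InjUnitWt X.ht c) {δ : ℝ} (hδ : 0 ≤ δ)
    (hmχ : ∀ i, (2 : ℝ) ^ (10 * injH p.b (injH0 p) i) *
      ∫ θ : InjT, ∫ ξ : InjT, ‖injLχ p R i (θ, ξ)‖ ^ 2 ≤ δ ^ 2)
    (hr : ∀ i, star (injLχ p R i) = injLχ p R i)
    (cc : ScL2 (ℕ × G.Γ) →L[ℂ] ScL2 (ℕ × G.Γ))
    (hcc : InjHasBlocks cc (fun i k => if i = k then Φ (injLχ p R i ^ 2) else 0)) :
    ‖ContinuousLinearMap.adjoint (injLV G Φ R c) ∘L injLV G Φ R c - cc‖ ≤ δ ^ 2 := by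
  have hB : ∀ i, ‖Φ (injLχ p R i ^ 2)‖ ≤ 1 := fun i => by
    refine (inj_calc_norm_le Φ _).trans ?_
    have h1 := h.χ_fam.bd i
    calc ‖injLχ p R i ^ 2‖ ≤ ‖injLχ p R i‖ ^ 2 := norm_pow_le _ _
      _ ≤ 1 ^ 2 := pow_le_pow_left₀ (norm_nonneg _) h1 2
      _ = 1 := one_pow 2
  have t1 := injW_diag (Γ := G.Γ) hc (fun i => Φ (injLχ p R i ^ 2)) hB
  have e1 : cc = ContinuousLinearMap.adjoint (injW X.ht c) ∘L
      injFib (fun v => Φ (injLχ p R (X.ht v) ^ 2)) ∘L injW X.ht c := hcc.unique t1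
  have t2 : star (injLS G Φ (injLχ p R)) * injLS G Φ (injLχ p R)
      = injFib (fun v => Φ (injLχ p R (X.ht v) ^ 2)) := by
    have := injS_star_mul G.φ Φ h.h1 h.h2 p.b (injH0 p) (4 * R) h.hR4 h.hH X.ht h.χ_fam h.χ_fam
    unfold injLS
    rw [this]
    unfold injDg
    congr 1
    funext v
    show Φ (star (injLχ p R (X.ht v)) * injLχ p R (X.ht v)) = _
    rw [hr, sq]
  have e2 : ContinuousLinearMap.adjoint (injLV G Φ R c) ∘L injLV G Φ R c
      = ContinuousLinearMap.adjoint (injW X.ht c) ∘L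
          (star (injLS G Φ (injLχ p R)) * (ContinuousLinearMap.adjoint (injLV0 G) ∘L injLV0 G)
            * injLS G Φ (injLχ p R)) ∘L injW X.ht c := by
    rw [injLV_adjoint]
    rfl
  have e3 : star (injLS G Φ (injLχ p R)) * (1 - injLDc G) * injLS G Φ (injLχ p R)
      = injFib (fun v => Φ (injLχ p R (X.ht v) ^ 2))
        - star (injLDc G * injLS G Φ (injLχ p R)) * (injLDc G * injLS G Φ (injLχ p R)) := by
    rw [← t2, star_mul, injLDc_star]
    have : star (injLS G Φ (injLχ p R)) * injLDc G * (injLDc G * injLS G Φ (injLχ p R))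
        = star (injLS G Φ (injLχ p R)) * (injLDc G * injLDc G) * injLS G Φ (injLχ p R) := by
      simp only [mul_assoc]
    rw [this, injLDc_idem]
    noncomm_ring
  rw [e2, h.hD, e3, e1]
  have e4 : ContinuousLinearMap.adjoint (injW X.ht c) ∘L
      (injFib (fun v => Φ (injLχ p R (X.ht v) ^ 2))
        - star (injLDc G * injLS G Φ (injLχ p R)) * (injLDc G * injLS G Φ (injLχ p R))) ∘L
        injW X.ht c
      - ContinuousLinearMap.adjoint (injW X.ht c) ∘L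
      injFib (fun v => Φ (injLχ p R (X.ht v) ^ 2)) ∘L injW X.ht c
      = - (ContinuousLinearMap.adjoint (injW X.ht c) ∘L
        (star (injLDc G * injLS G Φ (injLχ p R)) * (injLDc G * injLS G Φ (injLχ p R))) ∘L
        injW X.ht c) := by
    ext1 ξ
    simp
  rw [e4, norm_neg]
  have hW : ‖(injW X.ht c : ScL2 (ℕ × G.Γ) →L[ℂ] ScL2 (G.Γ × X.V))‖ ≤ 1 := injW_norm_le hc
  have hW' : ‖ContinuousLinearMap.adjoint (injW X.ht c : ScL2 (ℕ × G.Γ) →L[ℂ] ScL2 (G.Γ × X.V))‖ ≤ 1 := by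
    rw [LinearIsometryEquiv.norm_map]; exact hW
  have ht := h.trim hδ h.χ_fam hmχ
  have ht' : ‖star (injLDc G * injLS G Φ (injLχ p R))‖ ≤ δ := by rw [inj_norm_star]; exact ht
  have hmid : ‖star (injLDc G * injLS G Φ (injLχ p R)) * (injLDc G * injLS G Φ (injLχ p R))‖
      ≤ δ ^ 2 := by
    rw [sq]
    exact (norm_mul_le _ _).trans (mul_le_mul ht' ht (norm_nonneg _) hδ)
  calc _ ≤ ‖ContinuousLinearMap.adjoint (injW X.ht c : ScL2 (ℕ × G.Γ) →L[ℂ] ScL2 (G.Γ × X.V))‖ *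
        ‖(star (injLDc G * injLS G Φ (injLχ p R)) * (injLDc G * injLS G Φ (injLχ p R))) ∘L
        (injW X.ht c : ScL2 (ℕ × G.Γ) →L[ℂ] ScL2 (G.Γ × X.V))‖ := ContinuousLinearMap.opNorm_comp_le _ _
    _ ≤ 1 * (δ ^ 2 * 1) := by
        refine mul_le_mul hW' ?_ (norm_nonneg _) zero_le_one
        exact (ContinuousLinearMap.opNorm_comp_le _ _).trans
          (mul_le_mul hmid hW (norm_nonneg _) (sq_nonneg _))
    _ = δ ^ 2 := by ring

/-- the physical root (6.20) -/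
theorem InjLowHyp.root (c : X.V → ℂ) (hc : InjUnitWt X.ht c) {δ : ℝ} (hδ : 0 ≤ δ)
    (hm : (2 : ℝ) ^ (10 * injH p.b (injH0 p) 0) *
      ∫ θ : InjT, ∫ ξ : InjT, ‖(injLχ p R 0 * injLχ p R 0) (θ, ξ)‖ ^ 2 ≤ δ ^ 2)
    (B0 : Finset X.V) (hB0 : ∀ v, v ∈ B0 ↔ X.ht v = 0 ∧ c v ≠ 0) :
    ‖(∑ v ∈ B0, c v • (scRho (G.t v)⁻¹ * (injT (injRhoRep G.φ) p.b (injH0 p) 0
          * Φ (injLχ p R 0 * injLχ p R 0))))
        - injLV G Φ R c ∘L injIn 0 ∘L Φ (injLχ p R 0)‖ ≤ (∑ v ∈ B0, ‖c v‖) * δ :=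
  inj_root G.φ h.good.φ_inj Φ h.h1 h.h2 p.b (injH0 p) (4 * R) h.hR4 h.hH X.ht G.t G.rem
    h.good.rem_fin h.good.rem_card h.good.ret_unique hδ h.χ_fam hm c hc B0 hB0

end core

end Claimed.Agent.R300
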