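/-
Row 300 / S0553 (INJ paper).  LOWER ASSEMBLY, final glue (owner: helper105):
`inj_low : InjGraphStmt → InjVoltStmt → InjGeoStmt → InjPhysStmt`.
-/
import Mathlib
import Claimed.Agent.R300.InjLowCore
import Claimed.Agent.R300.InjLowAux

set_option autoImplicit false

namespace Claimed.Agent.R300

open scoped ENNReal ComplexConjugate InnerProductSpace

/-- offsets of the types: type `0` is the cutoff type -/
def injLowOff {n : ℕ} (sym : Fin n → InjSym) : Fin (n + 1) → Lab.Off :=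
  Fin.cons Lab.Off.eq (fun τ => injOffOf (sym τ).off)

/-- symbols of the types -/
noncomputable def injLowSy (R : ℝ) {n : ℕ} (sym : Fin n → InjSym) : Fin (n + 1) → InjSy :=
  Fin.cons ⟨injChi R, injChi R, fun _ => True⟩ (fun τ => ⟨(sym τ).A, (sym τ).B, (sym τ).sel⟩)

theorem injLowSy_adm {R : ℝ} (hR : 1 ≤ R) {n : ℕ} (sym : Fin n → InjSym) (hadm : ∀ τ, (sym τ).Adm R)
    (τ : Fin (n + 1)) : (injLowSy R sym τ).Adm (2 * R) := by
  have hR0 : 0 < R := by linarith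
  refine Fin.cases ?_ (fun τ' => ?_) τ
  · exact ⟨injChi_contDiff hR0, injChi_contDiff hR0, fun x hx => injChi_zero_of_lt hR0 hx,
      fun x hx => injChi_zero_of_lt hR0 hx⟩
  · exact ⟨(hadm τ').smoothA, (hadm τ').smoothB, fun x hx => (hadm τ').suppA x (by linarith),
      fun x hx => (hadm τ').suppB x (by linarith)⟩

theorem injLowSy_succ_adm {R : ℝ} {n : ℕ} (sym : Fin n → InjSym) (hadm : ∀ τ, (sym τ).Adm R)
    (τ : Fin n) : (injLowSy R sym τ.succ).Adm R :=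
  ⟨(hadm τ).smoothA, (hadm τ).smoothB, (hadm τ).suppA, (hadm τ).suppB⟩

theorem InjAppr.mono {𝓗 𝓛 : Type*} [NormedAddCommGroup 𝓗] [InnerProductSpace ℂ 𝓗] [CompleteSpace 𝓗]
    [NormedAddCommGroup 𝓛] [InnerProductSpace ℂ 𝓛] [CompleteSpace 𝓛] {V0 : 𝓗 →L[ℂ] 𝓛}
    {Dc : 𝓗 →L[ℂ] 𝓗} {L θ θ' δ : ℝ} {C : 𝓛 →L[ℂ] 𝓛} {z : 𝓗 →L[ℂ] 𝓗}
    (h : InjAppr V0 Dc L θ δ C z) (hθ : θ ≤ θ') : InjAppr V0 Dc L θ' δ C z :=
  ⟨h.norm_le, h.appr.trans hθ, h.left, h.right⟩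

/-- the parameters of the tower -/
abbrev injLowPar (b s n0 : ℕ) {n : ℕ} (sym : Fin n → InjSym) : Lab.Par :=
  ⟨b, s, n0, n + 1, injLowOff sym⟩

/-- **Lower assembly with all parameters fixed.** -/
theorem inj_low_phys {b : ℕ} {R : ℝ} (hR : 1 ≤ R) {n : ℕ} (sym : Fin n → InjSym)
    (hadm : ∀ τ, (sym τ).Adm R) {η : ℝ} (s n0 : ℕ)
    (X : InjGr (injLowPar b s n0 sym)) (vol : X.E → InjHeis) (G : InjGeo X vol)
    (hX : X.Str) (hd : X.DegLe) (hG : G.Good) (hH : 100 * (4 * R) ≤ 2 ^ ((2 * n0 + 1) * s))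
    (ω : X.Lb → ℂ) (M : ℝ) (hω : ∀ a, ‖ω a‖ ≤ M) (m : Fin (n + 1) → ℕ → InjHeis →₀ ℂ)
    (hm : ∀ τ i, (m τ i).sum (fun _ c => ‖c‖) ≤ M) (ηV : ℝ)
    (h2a : ∀ τ, ‖smpConv (injSampCoef X τ vol (fun e => ω (X.lab e)) (fun i => m τ i))‖ ≤ ηV)
    (h2b : ∀ (τ : Fin (n + 1)) (i : ℕ) (Φ : C(InjT × InjT, ℂ) →⋆ₐ[ℂ] (ScL2 G.Γ →L[ℂ] ScL2 G.Γ)),
      Φ injE1 = scRho (G.φ InjHeis.z) → Φ injE2 = scRho (G.φ InjHeis.x) →
      ‖(m τ i).sum (fun g c => c • scRho (G.φ g))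
        - injMeanOp (injRhoRep G.φ) Φ b ((2 * n0 + 1) * s) (injLowSy R sym τ)
            (injOff (injLowOff sym τ)) i‖ ≤ ηV)
    (c : X.V → ℂ) (hc : InjUnitWt X.ht c) (B0 : Finset X.V)
    (hB0 : ∀ v, v ∈ B0 ↔ X.ht v = 0 ∧ c v ≠ 0) (k : ℕ) (εx : ℝ)
    (P : Fin (n + 1) → ScL2 X.V →L[ℂ] ScL2 X.V)
    (hP : ∀ τ, SmpHasKer (P τ) (injPK X.ht c (injOff (injLowOff sym τ))))
    (hPx : ∀ τ, ‖(star (injU X 0) * injU X 0) ^ k * (star (injU X 0) * injU X τ)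
      * (star (injU X 0) * injU X 0) ^ k - P τ‖ ≤ εx)
    (L δ θ : ℝ) (hL : 1 ≤ L) (CA CB : Fin (n + 1) → ℝ)
    (hCA : ∀ τ x, ‖(injLowSy R sym τ).A x‖ ≤ CA τ) (hCB : ∀ τ x, ‖(injLowSy R sym τ).B x‖ ≤ CB τ)
    (hCL : ∀ τ, CA τ * CB τ ≤ L) (hδ0 : 0 ≤ δ)
    (hδ : 64 * R ^ 2 * L ^ 2 / 2 ^ (690 * ((2 * n0 + 1) * s)) ≤ δ ^ 2)
    (hθ : ∀ τ : Fin (n + 1), 2 * (M / InjGr.qq (injLowPar b s n0 sym) τ)
      * Real.sqrt (Nat.card X.Lb) + 2 * ηV ≤ θ)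
    (herr1 : (4 * k + 2) * (θ + (L * δ) ^ 2) * (L + θ) ^ (4 * k + 2) + εx * L ≤ η)
    (herr2 : δ ^ 2 ≤ η) (herr3 : (∑ v ∈ B0, ‖c v‖) * δ ≤ η) :
    ∃ (G₀ : Subgroup G.Γ) (Φ : C(InjT × InjT, ℂ) →⋆ₐ[ℂ] (ScL2 G.Γ →L[ℂ] ScL2 G.Γ))
      (V : ScL2 (ℕ × G.Γ) →L[ℂ] ScL2 G.Γ),
      G₀.FG ∧ G.φ.range ≤ G₀ ∧
      Φ injE1 = scRho (G.φ InjHeis.z) ∧ Φ injE2 = scRho (G.φ InjHeis.x) ∧
      (∀ cc : ScL2 (ℕ × G.Γ) →L[ℂ] ScL2 (ℕ × G.Γ),
        InjHasBlocks cc (fun i k => if i = k then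
          Φ (injCut b ((2 * n0 + 1) * s) (2 * R) i ^ 2) else 0) →
        ‖ContinuousLinearMap.adjoint V ∘L V - cc‖ ≤ η) ∧
      (∀ (τ : Fin n) (Mo : ScL2 (ℕ × G.Γ) →L[ℂ] ScL2 (ℕ × G.Γ)),
        InjHasBlocks Mo ((sym τ).blocks b ((2 * n0 + 1) * s) Φ) →
        ∃ x ∈ injAlg G₀, ‖x - V ∘L Mo ∘L ContinuousLinearMap.adjoint V‖ ≤ η) ∧
      (∃ v ∈ injAlg G₀, ‖v - V ∘L injIn 0 ∘L Φ (injCut b ((2 * n0 + 1) * s) (2 * R) 0)‖ ≤ η) := by
  classical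
  have hR0 : 0 < R := by linarith
  -- the calculus
  obtain ⟨Φ, h1, h2⟩ := inj_calc_rep (injRhoRep G.φ)
  have h1' : Φ injE1 = scRho (G.φ InjHeis.z) := h1
  have h2' : Φ injE2 = scRho (G.φ InjHeis.x) := h2
  have h : InjLowHyp G Φ R := ⟨hX, hd, hG, h1', h2', hR, hH⟩
  -- the subgroup
  have hfinLb : Finite X.Lb := hX.fin_lb
  set Sg : Set G.Γ := Set.range G.sig ∪ {G.φ InjHeis.x, G.φ InjHeis.y, G.φ InjHeis.z}
    ∪ (G.t '' (B0 : Set X.V)) with hSg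
  have hSgfin : Sg.Finite :=
    ((Set.finite_range _).union (by simp)).union (B0.finite_toSet.image _)
  set G₀ : Subgroup G.Γ := Subgroup.closure Sg with hG₀
  have hsig : ∀ a, G.sig a ∈ G₀ := fun a =>
    Subgroup.subset_closure (Or.inl (Or.inl ⟨a, rfl⟩))
  have hrange : G.φ.range ≤ G₀ := inj_heis_range_le G.φ G₀
    (Subgroup.subset_closure (Or.inl (Or.inr (by simp))))
    (Subgroup.subset_closure (Or.inl (Or.inr (by simp))))
    (Subgroup.subset_closure (Or.inl (Or.inr (by simp))))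
  have ht : ∀ v ∈ B0, G.t v ∈ G₀ := fun v hv =>
    Subgroup.subset_closure (Or.inr ⟨v, hv, rfl⟩)
  have hΦmem : ∀ f, Φ f ∈ iuAlg G₀ := fun f =>
    inj_calc_mem Φ (iuAlg G₀) (iuAlg_isClosed G₀)
      (by rw [h1']; exact scRho_mem_iuAlg (hrange ⟨_, rfl⟩))
      (by rw [h2']; exact scRho_mem_iuAlg (hrange ⟨_, rfl⟩)) f
  -- numerics on `((2 * n0 + 1) * s)`
  have hH2 : 2 * (4 * R) < 2 ^ ((2 * n0 + 1) * s) := by linarith
  have hH4 : 4 * (2 * R) < 2 ^ ((2 * n0 + 1) * s) := by linarith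
  have hH4' : 4 * R < 2 ^ ((2 * n0 + 1) * s) := by linarith
  have hpow : (0 : ℝ) < 2 ^ (690 * ((2 * n0 + 1) * s)) := by positivity
  -- the families
  have hadm2 := injLowSy_adm hR sym hadm
  have hfam : ∀ τ : Fin (n + 1), InjFam b ((2 * n0 + 1) * s) (4 * R) (CA τ * CB τ)
      (injLf (p := (injLowPar b s n0 sym)) (injLowSy R sym τ) τ) := fun τ =>
    injSyF_fam b ((2 * n0 + 1) * s) (hadm2 τ) (by linarith) (hCA τ) (hCB τ) _ (by linarith) hH2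
  have hχstar : ∀ i, star (injLχ (injLowPar b s n0 sym) R i) = injLχ (injLowPar b s n0 sym) R i := fun i =>
    injCut_star_eq b ((2 * n0 + 1) * s) (by linarith) hH4 i
  have hfχ : ∀ (τ : Fin (n + 1)) (i k : ℕ), (k : ℤ) = i + injOff ((injLowPar b s n0 sym).off τ) →
      injLf (p := (injLowPar b s n0 sym)) (injLowSy R sym τ) τ i * star (injLχ (injLowPar b s n0 sym) R k)
        = injLf (p := (injLowPar b s n0 sym)) (injLowSy R sym τ) τ i := by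
    intro τ i k hik
    rw [hχstar, mul_comm]
    show injCut b ((2 * n0 + 1) * s) (2 * R) k * injSyF b ((2 * n0 + 1) * s) (injLowSy R sym τ) (injOff ((injLowPar b s n0 sym).off τ)) i
      = injSyF b ((2 * n0 + 1) * s) (injLowSy R sym τ) (injOff ((injLowPar b s n0 sym).off τ)) i
    rw [injSyF_eq_G b ((2 * n0 + 1) * s) _ _ i k hik]
    exact injCut_mul_syG b ((2 * n0 + 1) * s) (hadm2 τ) (by linarith) _ le_rfl hH4 k
  have hCAB0 : ∀ τ, 0 ≤ CA τ * CB τ := fun τ =>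
    mul_nonneg ((norm_nonneg _).trans (hCA τ 0)) ((norm_nonneg _).trans (hCB τ 0))
  have hmf : ∀ (τ : Fin (n + 1)) (i : ℕ), (2 : ℝ) ^ (10 * injH (injLowPar b s n0 sym).b (injH0 (injLowPar b s n0 sym)) i) *
      ∫ θ : InjT, ∫ ξ : InjT, ‖injLf (p := (injLowPar b s n0 sym)) (injLowSy R sym τ) τ i (θ, ξ)‖ ^ 2 ≤ δ ^ 2 := by
    intro τ i
    refine (injSyF_mass b ((2 * n0 + 1) * s) (hadm2 τ) (by linarith) (hCA τ) (hCB τ) _ (by linarith) i).trans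
      (le_trans ?_ hδ)
    refine div_le_div_of_nonneg_right ?_ hpow.le
    have : (CA τ * CB τ) ^ 2 ≤ L ^ 2 := pow_le_pow_left₀ (hCAB0 τ) (hCL τ) 2
    nlinarith [sq_nonneg R]
  have hmχ : ∀ i, (2 : ℝ) ^ (10 * injH (injLowPar b s n0 sym).b (injH0 (injLowPar b s n0 sym)) i) *
      ∫ θ : InjT, ∫ ξ : InjT, ‖injLχ (injLowPar b s n0 sym) R i (θ, ξ)‖ ^ 2 ≤ δ ^ 2 := by
    intro i
    refine (injCut_mass b ((2 * n0 + 1) * s) (by linarith) hH4 i).trans (le_trans ?_ hδ)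
    refine div_le_div_of_nonneg_right ?_ hpow.le
    have : (1 : ℝ) ≤ L ^ 2 := one_le_pow₀ hL
    nlinarith [sq_nonneg R]
  have hmχ2 : (2 : ℝ) ^ (10 * injH (injLowPar b s n0 sym).b (injH0 (injLowPar b s n0 sym)) 0) *
      ∫ θ : InjT, ∫ ξ : InjT, ‖(injLχ (injLowPar b s n0 sym) R 0 * injLχ (injLowPar b s n0 sym) R 0) (θ, ξ)‖ ^ 2 ≤ δ ^ 2 := by
    refine (injCut_sq_mass b ((2 * n0 + 1) * s) (by linarith) hH4 0).trans (le_trans ?_ hδ)
    refine div_le_div_of_nonneg_right ?_ hpow.le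
    have : (1 : ℝ) ≤ L ^ 2 := one_le_pow₀ hL
    nlinarith [sq_nonneg R]
  -- the factors
  have happr : ∀ τ : Fin (n + 1), InjAppr (injLV0 G) (injLDc G) L θ (L * δ) (injCay G ω τ)
      (injLZ G Φ R (injLowSy R sym τ) τ) := fun τ =>
    (h.appr ω hω (m τ) (hm τ) (injLowSy R sym τ) τ (hfam τ) (hfχ τ) hδ0 (hmf τ) hmχ (h2a τ)
      (fun i => h2b τ i Φ h1' h2') hL (hCL τ)).mono (hθ τ)
  have hθ0 : 0 ≤ θ := (norm_nonneg _).trans (happr 0).appr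
  refine ⟨G₀, Φ, injLV G Φ R c, (Subgroup.fg_iff _).2 ⟨Sg, rfl, hSgfin⟩, hrange, h1', h2', ?_, ?_, ?_⟩
  · intro cc hcc
    exact (h.isom c hc hδ0 hmχ hχstar cc hcc).trans herr2
  · intro τ Mo hMo
    have ho : injOff ((injLowPar b s n0 sym).off τ.succ) = (sym τ).off := injOff_offOf (hadm τ).off_mem
    have hf0 : injLf (p := (injLowPar b s n0 sym)) (injLowSy R sym 0) 0 = injCut b ((2 * n0 + 1) * s) R := by
      funext i
      exact injSyF_cut b ((2 * n0 + 1) * s) R i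
    have hσ := injLowSy_succ_adm sym hadm τ
    refine ⟨(star (injCay G ω 0) * injCay G ω 0) ^ k * (star (injCay G ω 0) * injCay G ω τ.succ)
      * (star (injCay G ω 0) * injCay G ω 0) ^ k, ?_, ?_⟩
    · rw [← mem_iuAlg]
      have m0 := injCay_mem_iuAlg G G₀ hsig ω 0
      have mτ := injCay_mem_iuAlg G G₀ hsig ω τ.succ
      exact mul_mem (mul_mem (pow_mem (mul_mem (star_mem m0) m0) k) (mul_mem (star_mem m0) mτ))
        (pow_mem (mul_mem (star_mem m0) m0) k)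
    · have hMo' : InjHasBlocks Mo (fun i k => if (k : ℤ) = i + injOff ((injLowPar b s n0 sym).off τ.succ) then
          Φ (injSyG b ((2 * n0 + 1) * s) (injLowSy R sym τ.succ) (injOff ((injLowPar b s n0 sym).off τ.succ)) k) else 0) := by
        rw [InjSym.blocks_eq] at hMo
        rw [ho]
        exact hMo
      have key := h.realise c hc (injLowSy R sym 0) (injLowSy R sym τ.succ) 0 τ.succ rfl k hL hθ0
        (mul_nonneg (by linarith) hδ0) (happr 0) (happr τ.succ) (hfam 0) (hfam τ.succ)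
        (injSyG b ((2 * n0 + 1) * s) (injLowSy R sym τ.succ) (injOff ((injLowPar b s n0 sym).off τ.succ)))
        (fun k' => injSyG_norm_le b ((2 * n0 + 1) * s) (hadm2 τ.succ) (by linarith) (hCA _) (hCB _) _ (by linarith) k')
        (fun i => by rw [hf0]; exact injCut_star_eq b ((2 * n0 + 1) * s) hR0 hH4' i) hχstar
        (fun i k' hik => injSyF_eq_G b ((2 * n0 + 1) * s) _ _ i k' hik)
        (fun i => by rw [hf0]; exact injCut_mul_syF b ((2 * n0 + 1) * s) hσ hR0 _ le_rfl hH4' i)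
        (fun i => injCut_mul_syF b ((2 * n0 + 1) * s) hσ hR0 _ (by linarith) hH4 i)
        (fun k' => by rw [hf0]; exact injCut_mul_syG b ((2 * n0 + 1) * s) hσ hR0 _ le_rfl hH4' k')
        (fun k' => injCut_mul_syG b ((2 * n0 + 1) * s) hσ hR0 _ (by linarith) hH4 k')
        (P τ.succ) (hP τ.succ) (hPx τ.succ) Mo hMo'
      refine key.trans (le_trans ?_ herr1)
      have hεx : 0 ≤ εx := (norm_nonneg _).trans (hPx 0)
      have := mul_le_mul_of_nonneg_left (hCL τ.succ) hεx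
      linarith
  · refine ⟨∑ v ∈ B0, c v • (scRho (G.t v)⁻¹ * (injT (injRhoRep G.φ) (injLowPar b s n0 sym).b (injH0 (injLowPar b s n0 sym)) 0
      * Φ (injLχ (injLowPar b s n0 sym) R 0 * injLχ (injLowPar b s n0 sym) R 0))), ?_, ?_⟩
    · rw [← mem_iuAlg]
      refine sum_mem fun v hv => ?_
      refine (iuAlg G₀).smul_mem ?_ _
      exact mul_mem (scRho_mem_iuAlg (G₀.inv_mem (ht v hv)))
        (mul_mem (injT_mem_iuAlg G.φ G₀ hrange _ _ _) (hΦmem _))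
    · exact (h.root c hc hδ0 hmχ2 B0 hB0).trans herr3

/-- arithmetic of the error terms -/
theorem inj_low_err {η L δ Y εx S : ℝ} (k : ℕ) (hη : 0 < η) (hL : 1 ≤ L) (hδ0 : 0 ≤ δ) (hY : 1 ≤ Y)
    (hx : εx * L ≤ η / 2) (hS0 : 0 ≤ S) (hS : S ≤ Y)
    (hYδ : Y * L * δ ≤ min η (min (η / (4 * (4 * k + 2) * (L + 1) ^ (4 * k + 2))) 1)) :
    (4 * k + 2) * (min 1 (η / (4 * (4 * k + 2) * (L + 1) ^ (4 * k + 2))) + (L * δ) ^ 2)
        * (L + min 1 (η / (4 * (4 * k + 2) * (L + 1) ^ (4 * k + 2)))) ^ (4 * k + 2) + εx * L ≤ η ∧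
      δ ^ 2 ≤ η ∧ S * δ ≤ η := by
  set K : ℝ := (L + 1) ^ (4 * k + 2) with hK
  have hK0 : 0 < K := by positivity
  have hk0 : (0 : ℝ) < 4 * k + 2 := by positivity
  set κ : ℝ := η / (4 * (4 * k + 2) * K) with hκ
  have hκ0 : 0 < κ := by positivity
  have h1 : L * δ ≤ Y * L * δ := by
    have : 0 ≤ L * δ := mul_nonneg (by linarith) hδ0
    nlinarith
  have hLδ0 : 0 ≤ L * δ := mul_nonneg (by linarith) hδ0
  have h2 : L * δ ≤ κ := h1.trans (hYδ.trans ((min_le_right _ _).trans (min_le_left _ _)))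
  have h3 : L * δ ≤ 1 := h1.trans (hYδ.trans ((min_le_right _ _).trans (min_le_right _ _)))
  have h4 : L * δ ≤ η := h1.trans (hYδ.trans (min_le_left _ _))
  have h5 : δ ≤ L * δ := by nlinarith
  have h6 : (L * δ) ^ 2 ≤ κ := by nlinarith
  refine ⟨?_, by nlinarith, ?_⟩
  · have h7 : (L + min 1 κ) ^ (4 * k + 2) ≤ K :=
      pow_le_pow_left₀ (by have := lt_min one_pos hκ0; linarith) (by have := min_le_left 1 κ; linarith) _
    have h8 : min 1 κ + (L * δ) ^ 2 ≤ 2 * κ := by have := min_le_right 1 κ; linarith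
    have h9 : 0 ≤ min 1 κ + (L * δ) ^ 2 := by have := lt_min one_pos hκ0; positivity
    have h10 : (4 * (k : ℝ) + 2) * (min 1 κ + (L * δ) ^ 2) * (L + min 1 κ) ^ (4 * k + 2)
        ≤ (4 * k + 2) * (2 * κ) * K :=
      mul_le_mul (mul_le_mul_of_nonneg_left h8 hk0.le) h7 (by have := lt_min one_pos hκ0; positivity)
        (by positivity)
    have h11 : (4 * (k : ℝ) + 2) * (2 * κ) * K = η / 2 := by
      rw [hκ]; field_simp; ring
    linarith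
  · calc S * δ ≤ Y * δ := mul_le_mul_of_nonneg_right hS hδ0
      _ ≤ Y * (L * δ) := mul_le_mul_of_nonneg_left h5 (by linarith)
      _ = Y * L * δ := by ring
      _ ≤ η := hYδ.trans (min_le_left _ _)


/-- the refined labels: letter and weight of the edge -/
def injLowLab {p : Lab.Par} (X : InjGr p) (wt : X.E → ℂ) : X.E → InjUsed X wt :=
  fun e => ⟨(X.lab e, wt e), e, rfl, rfl⟩

/-- forgetting the weight -/
def injLowPr {p : Lab.Par} (X : InjGr p) (wt : X.E → ℂ) : InjUsed X wt → X.Lb := fun a => a.1.1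

/-- the weight of a refined label -/
def injLowWt {p : Lab.Par} (X : InjGr p) (wt : X.E → ℂ) : InjUsed X wt → ℂ := fun a => a.1.2

theorem injLowLab_surj {p : Lab.Par} (X : InjGr p) (wt : X.E → ℂ) :
    Function.Surjective (injLowLab X wt) := by
  rintro ⟨⟨l, w⟩, e, h1, h2⟩
  refine ⟨e, ?_⟩
  apply Subtype.ext
  exact Prod.ext h1 h2

/-- the graph with the refined labels -/
def injLowRef {p : Lab.Par} (X : InjGr p) (wt : X.E → ℂ) : InjGr p :=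
  X.refine (InjUsed X wt) (injLowLab X wt) (injLowPr X wt)

/-- **Lower assembly: parameters, graph and voltages fixed.** -/
theorem inj_low_mid (hC : InjGeoStmt) {b : ℕ} {R : ℝ} (hR : 1 ≤ R) {n : ℕ} (sym : Fin n → InjSym)
    (hadm : ∀ τ, (sym τ).Adm R) {η : ℝ} (hη : 0 < η) (s n0 : ℕ)
    (hp : (injLowPar b s n0 sym).Adm)
    (hdeg : (n + 1) * 2 ^ b * 2 ^ (12001 * s / 20000) + 7 ≤ 2 ^ (61 * s / 100))
    (O : InjOld (injLowPar b s n0 sym)) {ε ρ : ℝ} (hε0 : 0 < ε) (hε : ε ≤ 1 / 4) (hρ0 : 0 < ρ)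
    (hρ : ρ < 1) (hE : O.Exp ε ρ) (hWU : O.sub.WordUnique)
    (vol : O.sub.E → InjHeis) (wt : O.sub.E → ℂ) (WW : Finset ℂ)
    (m : Fin (n + 1) → ℕ → InjHeis →₀ ℂ)
    (hvg : O.sub.VGirth603 vol) (hwt : ∀ e, wt e ∈ WW) (M : ℝ) (hWM : ∀ w ∈ WW, ‖w‖ ≤ M)
    (hm : ∀ τ i, (m τ i).sum (fun _ c => ‖c‖) ≤ M) (ηV : ℝ)
    (h2a : ∀ τ, ‖smpConv (injSampCoef O.sub τ vol wt (fun i => m τ i))‖ ≤ ηV)
    (h2b : ∀ (τ : Fin (n + 1)) (i : ℕ) (H : Type) [NormedAddCommGroup H] [InnerProductSpace ℂ H]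
      [CompleteSpace H] (π : InjRep H) (Φ : C(InjT × InjT, ℂ) →⋆ₐ[ℂ] (H →L[ℂ] H)),
      Φ injE1 = π.π InjHeis.z → Φ injE2 = π.π InjHeis.x →
      ‖(m τ i).sum (fun h c => c • π.π h)
        - injMeanOp π Φ b ((2 * n0 + 1) * s) (injLowSy R sym τ) (injOff (injLowOff sym τ)) i‖ ≤ ηV)
    (k : ℕ) (L : ℝ) (hL : 1 ≤ L) (CA CB : Fin (n + 1) → ℝ)
    (hCA : ∀ τ x, ‖(injLowSy R sym τ).A x‖ ≤ CA τ) (hCB : ∀ τ x, ‖(injLowSy R sym τ).B x‖ ≤ CB τ)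
    (hCL : ∀ τ, CA τ * CB τ ≤ L)
    (hkε : (ρ ^ (2 * k) + 100 * (k + 1) * Real.sqrt ε) * L ≤ η / 2)
    (hH : 100 * (4 * R) ≤ 2 ^ ((2 * n0 + 1) * s))
    (hHδ : (2 : ℝ) ^ ((2 * n0 + 1) * s) * L * (8 * R * L / 2 ^ (345 * ((2 * n0 + 1) * s)))
      ≤ min η (min (η / (4 * (4 * k + 2) * (L + 1) ^ (4 * k + 2))) 1))
    (hθ : ∀ N : ℕ, N ≤ Nat.card O.X0.Lb * WW.card →
      2 * (M / Real.sqrt ((2 : ℝ) ^ (8001 * s / 20000) * 2 ^ (12001 * s / 20000))) * Real.sqrt N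
        + 2 * ηV ≤ min 1 (η / (4 * (4 * k + 2) * (L + 1) ^ (4 * k + 2)))) :
    ∃ (Γ : Type) (_ : Group Γ) (φ : InjHeis →* Γ) (G₀ : Subgroup Γ)
      (Φ : C(InjT × InjT, ℂ) →⋆ₐ[ℂ] (ScL2 Γ →L[ℂ] ScL2 Γ))
      (V : ScL2 (ℕ × Γ) →L[ℂ] ScL2 Γ),
      Function.Injective φ ∧ (∀ g : Γ, IsOfFinOrder g → g = 1) ∧
      (∃ c : Γ → Γ → ℤ, (∀ a b d : Γ, c a b + c (a * b) d = c a (b * d) + c b d) ∧
        ∃ κ : InjHeis → ℤ, ∀ h h' : InjHeis,
          c (φ h) (φ h') = InjHeis.om h h' + (κ h + κ h' - κ (h * h'))) ∧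
      G₀.FG ∧ φ.range ≤ G₀ ∧
      Φ injE1 = scRho (φ InjHeis.z) ∧ Φ injE2 = scRho (φ InjHeis.x) ∧
      (∀ c : ScL2 (ℕ × Γ) →L[ℂ] ScL2 (ℕ × Γ),
        InjHasBlocks c (fun i k => if i = k then
          Φ (injCut b ((2 * n0 + 1) * s) (2 * R) i ^ 2) else 0) →
        ‖ContinuousLinearMap.adjoint V ∘L V - c‖ ≤ η) ∧
      (∀ (τ : Fin n) (Mo : ScL2 (ℕ × Γ) →L[ℂ] ScL2 (ℕ × Γ)),
        InjHasBlocks Mo ((sym τ).blocks b ((2 * n0 + 1) * s) Φ) →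
        ∃ x ∈ injAlg G₀, ‖x - V ∘L Mo ∘L ContinuousLinearMap.adjoint V‖ ≤ η) ∧
      (∃ v ∈ injAlg G₀, ‖v - V ∘L injIn 0 ∘L Φ (injCut b ((2 * n0 + 1) * s) (2 * R) 0)‖ ≤ η) := by
  classical
  have hXs := O.sub_str hE
  have hXd := O.sub_degLe hE
  obtain ⟨hfinSt, hcardSt⟩ := injUsed_finite O.sub hXs.fin_lb wt WW hwt
  have hpr : ∀ e, injLowPr O.sub wt (injLowLab O.sub wt e) = O.sub.lab e := fun e => rfl
  have hM0 : 0 ≤ M := le_trans (Finset.sum_nonneg fun _ _ => norm_nonneg _) (hm 0 0)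
  -- transport to the refined graph
  have hXs' : (injLowRef O.sub wt).Str := O.sub.refine_str _ _ hpr hXs hfinSt
  have hXd' : (injLowRef O.sub wt).DegLe := O.sub.refine_degLe _ _ hpr hXd
  have hWU' : (injLowRef O.sub wt).WordUnique := O.sub.refine_wordUnique _ _ hpr hWU
  have hsurj : Function.Surjective (injLowRef O.sub wt).lab := injLowLab_surj O.sub wt
  obtain ⟨vol', hvol'⟩ : ∃ vol' : (injLowRef O.sub wt).E → InjHeis, vol' = vol := ⟨vol, rfl⟩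
  have hvg' : (injLowRef O.sub wt).VGirth603 vol' := by
    rw [hvol']; exact O.sub.refine_vgirth _ _ vol hvg
  obtain ⟨c, hcdef⟩ : ∃ c : (injLowRef O.sub wt).V → ℂ, c = injCst O.sub := ⟨_, rfl⟩
  have hc : InjUnitWt (injLowRef O.sub wt).ht c := by
    rw [hcdef]; exact injCst_unit O hε hE
  have hne : Nonempty (injLowRef O.sub wt).V := by
    by_contra hcon
    rw [not_nonempty_iff] at hcon
    have h1 := (hc 0).2
    have : IsEmpty {v : (injLowRef O.sub wt).V // (injLowRef O.sub wt).ht v = 0} :=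
      ⟨fun v => hcon.false v.1⟩
    rw [finsum_of_isEmpty] at h1
    exact zero_ne_one h1
  have hex : ∀ τ : Fin (n + 1), ∃ P : ScL2 (injLowRef O.sub wt).V →L[ℂ] ScL2 (injLowRef O.sub wt).V,
      SmpHasKer P (injPK (injLowRef O.sub wt).ht c (injOff (injLowOff sym τ))) ∧
      ‖(star (injU (injLowRef O.sub wt) 0) * injU (injLowRef O.sub wt) 0) ^ k
          * (star (injU (injLowRef O.sub wt) 0) * injU (injLowRef O.sub wt) τ)
          * (star (injU (injLowRef O.sub wt) 0) * injU (injLowRef O.sub wt) 0) ^ k - P‖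
        ≤ ρ ^ (2 * k) + 100 * (k + 1) * Real.sqrt ε := fun τ => by
    have h0 : injU (injLowRef O.sub wt) 0 = injU O.sub 0 :=
      injU_refine O.sub (injLowLab O.sub wt) (injLowPr O.sub wt) hpr 0
    have hτ : injU (injLowRef O.sub wt) τ = injU O.sub τ :=
      injU_refine O.sub (injLowLab O.sub wt) (injLowPr O.sub wt) hpr τ
    rw [h0, hτ, hcdef]
    exact inj_extract O hε0 hε hρ0 hρ hE 0 τ rfl k
  choose P hP hPx using hex
  obtain ⟨ω, hωdef⟩ : ∃ ω : (injLowRef O.sub wt).Lb → ℂ, ω = injLowWt O.sub wt := ⟨_, rfl⟩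
  have hω : ∀ a, ‖ω a‖ ≤ M := by
    rw [hωdef]
    rintro ⟨⟨l, w⟩, e, h1, h2⟩
    have h2' : wt e = w := h2
    show ‖w‖ ≤ M
    rw [← h2']
    exact hWM _ (hwt e)
  have h2a' : ∀ τ, ‖smpConv (injSampCoef (injLowRef O.sub wt) τ vol'
      (fun e => ω ((injLowRef O.sub wt).lab e)) (fun i => m τ i))‖ ≤ ηV := fun τ => by
    rw [hvol', hωdef]
    have := injSampCoef_refine O.sub (injLowLab O.sub wt) (injLowPr O.sub wt) hpr τ vol wt
      (fun i => m τ i)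
    refine le_trans (le_of_eq ?_) (h2a τ)
    exact congrArg (fun c => ‖smpConv c‖) this
  have hcardLb : Nat.card (injLowRef O.sub wt).Lb ≤ Nat.card O.X0.Lb * WW.card := hcardSt
  obtain ⟨B0, hB0⟩ : ∃ B0 : Finset (injLowRef O.sub wt).V,
      ∀ v, v ∈ B0 ↔ (injLowRef O.sub wt).ht v = 0 ∧ c v ≠ 0 :=
    ⟨(hc 0).1.toFinset, fun v => by rw [Set.Finite.mem_toFinset]; rfl⟩
  have hS : ∑ v ∈ B0, ‖c v‖ ≤ (2 : ℝ) ^ ((2 * n0 + 1) * s) := by
    have hB0' := hB0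
    rw [hcdef] at hB0'
    have h1 := injCst_sum_le O.sub B0 hB0' (2 ^ ((2 * n0 + 1) * s))
      (hXs.fin_layer true 0) (by
        refine (injCst_card_le O hE 0).trans (le_of_eq ?_)
        show 2 ^ ((2 * n0 + 1) * s + b * 0) = _
        rw [Nat.mul_zero, Nat.add_zero])
    push_cast at h1
    rw [hcdef]
    exact h1
  -- the group
  obtain ⟨G, hG⟩ := hC (injLowPar b s n0 sym) hp hdeg (injLowRef O.sub wt) hne hXs' hXd' hWU' hsurj
    vol' hvg'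
  have hpow : (0 : ℝ) < 2 ^ (345 * ((2 * n0 + 1) * s)) := by positivity
  have hR0 : 0 < R := by linarith
  have hδ0 : 0 ≤ 8 * R * L / 2 ^ (345 * ((2 * n0 + 1) * s)) := by positivity
  obtain ⟨herr1, herr2, herr3⟩ := inj_low_err k hη hL hδ0
    (one_le_pow₀ (by norm_num : (1 : ℝ) ≤ 2)) hkε
    (Finset.sum_nonneg fun _ _ => norm_nonneg _) hS hHδ
  have h2b' : ∀ (τ : Fin (n + 1)) (i : ℕ)
      (Φ : C(InjT × InjT, ℂ) →⋆ₐ[ℂ] (ScL2 G.Γ →L[ℂ] ScL2 G.Γ)),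
      Φ injE1 = scRho (G.φ InjHeis.z) → Φ injE2 = scRho (G.φ InjHeis.x) →
      ‖(m τ i).sum (fun g c => c • scRho (G.φ g))
        - injMeanOp (injRhoRep G.φ) Φ b ((2 * n0 + 1) * s) (injLowSy R sym τ)
            (injOff (injLowOff sym τ)) i‖ ≤ ηV :=
    fun τ i Φ h1 h2 => h2b τ i (ScL2 G.Γ) (injRhoRep G.φ) Φ h1 h2
  have hδ : 64 * R ^ 2 * L ^ 2 / 2 ^ (690 * ((2 * n0 + 1) * s))
      ≤ (8 * R * L / 2 ^ (345 * ((2 * n0 + 1) * s))) ^ 2 := by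
    rw [div_pow, ← pow_mul]
    refine le_of_eq ?_
    congr 1
    · ring
    · congr 1; ring
  have hθ' : ∀ τ : Fin (n + 1), 2 * (M / InjGr.qq (injLowPar b s n0 sym) τ)
      * Real.sqrt (Nat.card (injLowRef O.sub wt).Lb) + 2 * ηV
        ≤ min 1 (η / (4 * (4 * k + 2) * (L + 1) ^ (4 * k + 2))) := fun τ => by
    refine le_trans ?_ (hθ (Nat.card (injLowRef O.sub wt).Lb) hcardLb)
    have hq := injQq_ge (injLowPar b s n0 sym) τ
    have hq0 : 0 < Real.sqrt ((2 : ℝ) ^ (8001 * s / 20000) * 2 ^ (12001 * s / 20000)) :=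
      Real.sqrt_pos.2 (by positivity)
    have h1 : M / InjGr.qq (injLowPar b s n0 sym) τ
        ≤ M / Real.sqrt ((2 : ℝ) ^ (8001 * s / 20000) * 2 ^ (12001 * s / 20000)) :=
      div_le_div_of_nonneg_left hM0 hq0 hq
    have h2 : 0 ≤ Real.sqrt (Nat.card (injLowRef O.sub wt).Lb) := Real.sqrt_nonneg _
    have h3 := mul_le_mul_of_nonneg_right (mul_le_mul_of_nonneg_left h1 zero_le_two) h2
    linarith
  obtain ⟨G₀, Φ, V, h⟩ := inj_low_phys hR sym hadm s n0 (injLowRef O.sub wt) vol' G hXs' hXd' hG hH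
    ω M hω m hm ηV h2a' h2b' c hc B0 hB0 k (ρ ^ (2 * k) + 100 * (k + 1) * Real.sqrt ε)
    P hP hPx L (8 * R * L / 2 ^ (345 * ((2 * n0 + 1) * s)))
    (min 1 (η / (4 * (4 * k + 2) * (L + 1) ^ (4 * k + 2)))) hL CA CB hCA hCB hCL hδ0 hδ hθ'
    herr1 herr2 herr3
  exact ⟨G.Γ, G.grp, G.φ, G₀, Φ, V, hG.φ_inj, hG.tf, hG.coc, h⟩

/-- **LOWER ASSEMBLY**: INJ Sec. 6.1-6.3 + choice of parameters. -/
theorem inj_low (hG : InjGraphStmt) (hV : InjVoltStmt) (hC : InjGeoStmt) : InjPhysStmt := by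
  obtain ⟨b, hb, ρ, hρ0, hρ, hGr⟩ := hG
  refine ⟨b, hb, fun R hR n sym hadm η hη Hmin => ?_⟩
  have hadm2 := injLowSy_adm hR sym hadm
  choose CA hCA1 hCA using fun τ => inj_profile_bdd (injLowSy R sym τ).A (hadm2 τ).suppA
  choose CB hCB1 hCB using fun τ => inj_profile_bdd (injLowSy R sym τ).B (hadm2 τ).suppB
  have hCAB0 : ∀ τ, 0 ≤ CA τ * CB τ := fun τ =>
    mul_nonneg (zero_le_one.trans (hCA1 τ)) (zero_le_one.trans (hCB1 τ))
  obtain ⟨L, hLdef⟩ : ∃ L : ℝ, L = 1 + ∑ τ, CA τ * CB τ := ⟨_, rfl⟩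
  have hL : 1 ≤ L := by
    rw [hLdef]
    have := Finset.sum_nonneg (s := Finset.univ) fun τ _ => hCAB0 τ
    linarith
  have hCL : ∀ τ, CA τ * CB τ ≤ L := fun τ => by
    rw [hLdef]
    have := Finset.single_le_sum (f := fun τ => CA τ * CB τ) (fun τ _ => hCAB0 τ) (Finset.mem_univ τ)
    linarith
  obtain ⟨k, ε, hε0, hε, hkε⟩ := inj_low_num_k hρ0 hρ hη hL
  obtain ⟨κ, hκdef⟩ : ∃ κ : ℝ, κ = η / (4 * (4 * k + 2) * (L + 1) ^ (4 * k + 2)) := ⟨_, rfl⟩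
  have hκ0 : 0 < κ := by rw [hκdef]; positivity
  have hκ1 : 0 < min 1 κ := lt_min one_pos hκ0
  obtain ⟨M, nW, s0V, hV1⟩ := hV b hb (2 * R) (by linarith) (n + 1) (injLowOff sym) (injLowSy R sym)
    hadm2 (min 1 κ / 4) (by positivity)
  obtain ⟨s0G, hG1⟩ := hGr (n + 1) (injLowOff sym) ε hε0
  obtain ⟨s, hs1, h20000, h5b, hs0, hslope, hdeg, hN⟩ := inj_low_num_s b (n + 1) nW hb (max M 0)
    (min 1 κ / 2) (le_max_right _ _) (by positivity) (max s0V s0G)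
  obtain ⟨n1V, hV2⟩ := hV1 s (le_trans (le_max_left _ _) hs1) h20000 h5b
  obtain ⟨n1G, hG2⟩ := hG1 s (le_trans (le_max_right _ _) hs1) h20000 h5b
  obtain ⟨n1H, hH⟩ := inj_low_num_H hR hL (κ := min η (min κ 1))
    (lt_min hη (lt_min hκ0 one_pos))
  obtain ⟨n0, hn0def⟩ : ∃ n0 : ℕ, n0 = max (max n1V n1G) (max 1000000 (max Hmin n1H)) := ⟨_, rfl⟩
  have hn1 : n1V ≤ n0 := by rw [hn0def]; exact le_trans (le_max_left _ _) (le_max_left _ _)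
  have hn2 : n1G ≤ n0 := by rw [hn0def]; exact le_trans (le_max_right _ _) (le_max_left _ _)
  have hn3 : 1000000 ≤ n0 := by rw [hn0def]; exact le_trans (le_max_left _ _) (le_max_right _ _)
  have hn4 : Hmin ≤ n0 := by
    rw [hn0def]
    exact le_trans (le_max_left _ _) (le_trans (le_max_right _ _) (le_max_right _ _))
  have hn5 : n1H ≤ n0 := by
    rw [hn0def]
    exact le_trans (le_max_right _ _) (le_trans (le_max_right _ _) (le_max_right _ _))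
  have hn0H : n0 ≤ (2 * n0 + 1) * s := by nlinarith
  obtain ⟨O, hE, hg93, hnl, hwu, hcard⟩ := hG2 n0 hn2
  obtain ⟨vol, wt, WW, m, hvg, hwt, hWWc, hWM, hm, h2a, h2b⟩ := hV2 n0 hn1 O.sub (O.sub_str hE)
    (O.sub_degLe hE) (O.sub_cardLe hE) hg93 hnl
  obtain ⟨hH1, hH2⟩ := hH ((2 * n0 + 1) * s) (hn5.trans hn0H)
  obtain ⟨Γ, grp, φ, G₀, Φ, V, h⟩ := inj_low_mid hC hR sym hadm hη s n0
    ⟨hb, hs0, h20000, h5b, hn3, hslope⟩ hdeg O hε0 hε hρ0 hρ hE hwu vol wt WW m hvg hwt (max M 0)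
    (fun w hw => (hWM w hw).trans (le_max_left _ _))
    (fun τ i => (hm τ i).trans (le_max_left _ _)) (min 1 κ / 4) h2a h2b k L hL CA CB hCA hCB hCL hkε
    hH1 (by rw [← hκdef]; exact hH2)
    (fun N hNle => by
      rw [← hκdef]
      have := hN N (hNle.trans (Nat.mul_le_mul hcard hWWc))
      linarith)
  exact ⟨(2 * n0 + 1) * s, Γ, grp, φ, G₀, Φ, V, hn4.trans hn0H, h⟩

end Claimed.Agent.R300
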