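import Claimed.Agent.R300.ShellCover

/-!
# INJ Lemma 5.1 (private completion), part 1: attaching private subdivided paths to a voltage graph

`PrivData V F P`: a family (indexed by `P`) of paths to be attached to a voltage graph on `V`:
origin `s p`, end `t p`, length `n p`, voltage `g p` (carried by the first edge).
Every added edge gets its own new letter.  `Y.priv D` is the completed voltage graph, on the alphabet
`S ⊕ D.PS` and the vertex set `V ⊕ D.PV`.   (leaf SHELL-19, owner helper185)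
-/

set_option linter.unusedSectionVars false

namespace Claimed.Agent.R300.Shell

universe u v w x

/-- a family of paths to be attached -/
structure PrivData (V : Type v) (F : Type w) (P : Type x) where
  s : P → V
  t : P → V
  n : P → ℕ
  g : P → F

namespace PrivData

variable {V : Type v} {F : Type w} {P : Type x} (D : PrivData V F P)

/-- private letters = added (positive) edges: `(p, j)` is the `j`-th edge of the path `p` -/
def PS : Type x := {q : P × ℕ // q.2 < D.n q.1}

/-- private vertices = interior vertices of the added paths -/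
def PV : Type x := {q : P × ℕ // 0 < q.2 ∧ q.2 < D.n q.1}

/-- the `j`-th vertex of the path `p` -/
def node (p : P) (j : ℕ) : V ⊕ D.PV :=
  if h : 0 < j ∧ j < D.n p then Sum.inr ⟨(p, j), h⟩
  else if j = 0 then Sum.inl (D.s p) else Sum.inl (D.t p)

@[simp] theorem node_zero (p : P) : D.node p 0 = Sum.inl (D.s p) := by
  simp [node]

theorem node_last (p : P) (h : 1 ≤ D.n p) : D.node p (D.n p) = Sum.inl (D.t p) := by
  have : D.n p ≠ 0 := by omega
  simp [node, this]

theorem node_int (p : P) (j : ℕ) (h : 0 < j ∧ j < D.n p) : D.node p j = Sum.inr ⟨(p, j), h⟩ := by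
  simp [node, h]

theorem node_eq_inr {p : P} {j : ℕ} {q : D.PV} (h : D.node p j = Sum.inr q) : q.1 = (p, j) := by
  unfold node at h
  split_ifs at h with h1 h2
  · rw [← Sum.inr.inj h]

end PrivData

variable {S : Type u} {V : Type v} {F : Type w} {P : Type x} [Group F]

/-- the edges of the completed graph -/
def privE (Y : VGraph S V F) (D : PrivData V F P) :
    (V ⊕ D.PV) → (S ⊕ D.PS) × Bool → (V ⊕ D.PV) → Prop
  | a, (Sum.inl s, d), b => ∃ a' b', a = Sum.inl a' ∧ b = Sum.inl b' ∧ Y.E a' (s, d) b'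
  | a, (Sum.inr σ, true), b => a = D.node σ.1.1 σ.1.2 ∧ b = D.node σ.1.1 (σ.1.2 + 1)
  | a, (Sum.inr σ, false), b => b = D.node σ.1.1 σ.1.2 ∧ a = D.node σ.1.1 (σ.1.2 + 1)

/-- the voltages of the completed graph -/
def privVol (Y : VGraph S V F) (D : PrivData V F P) : (V ⊕ D.PV) → (S ⊕ D.PS) × Bool → F
  | Sum.inl a, (Sum.inl s, d) => Y.vol a (s, d)
  | Sum.inr _, (Sum.inl _, _) => 1
  | _, (Sum.inr σ, true) => if σ.1.2 = 0 then D.g σ.1.1 else 1
  | _, (Sum.inr σ, false) => if σ.1.2 = 0 then (D.g σ.1.1)⁻¹ else 1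

theorem privE_sym (Y : VGraph S V F) (D : PrivData V F P) : GSym (privE Y D) := by
  rintro a ⟨s | σ, d⟩ b h
  · obtain ⟨a', b', rfl, rfl, h⟩ := h
    exact ⟨b', a', rfl, rfl, Y.sym h⟩
  · cases d
    · exact h
    · exact h

theorem privE_det (Y : VGraph S V F) (D : PrivData V F P) : GDet (privE Y D) := by
  rintro a ⟨s | σ, d⟩ b c h h'
  · obtain ⟨a', b', rfl, rfl, h⟩ := h
    obtain ⟨a'', c', e, rfl, h'⟩ := h'
    obtain rfl := Sum.inl.inj e
    rw [Y.det h h']
  · cases d
    · exact h.1.trans h'.1.symm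
    · exact h.2.trans h'.2.symm

/-- **The completed voltage graph.** -/
def VGraph.priv (Y : VGraph S V F) (D : PrivData V F P) : VGraph (S ⊕ D.PS) (V ⊕ D.PV) F where
  E := privE Y D
  sym := privE_sym Y D
  det := privE_det Y D
  vol := privVol Y D
  vol_inv := by
    rintro a ⟨s | σ, d⟩ b h
    · obtain ⟨a', b', rfl, rfl, h⟩ := h
      exact Y.vol_inv h
    · cases d
      · cases a <;> cases b <;> simp [privVol, linv] <;> split_ifs <;> simp
      · cases a <;> cases b <;> simp [privVol, linv] <;> split_ifs <;> simp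

section basic

variable {Y : VGraph S V F} {D : PrivData V F P}

@[simp] theorem priv_E_old {a b : V ⊕ D.PV} {s : S} {d : Bool} :
    (Y.priv D).E a (Sum.inl s, d) b ↔
      ∃ a' b', a = Sum.inl a' ∧ b = Sum.inl b' ∧ Y.E a' (s, d) b' := Iff.rfl

theorem priv_E_old' {a b : V} {s : S} {d : Bool} :
    (Y.priv D).E (Sum.inl a) (Sum.inl s, d) (Sum.inl b) ↔ Y.E a (s, d) b := by
  constructor
  · rintro ⟨a', b', e1, e2, h⟩
    rw [Sum.inl.inj e1, Sum.inl.inj e2]; exact h
  · intro h; exact ⟨a, b, rfl, rfl, h⟩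

@[simp] theorem priv_E_fwd {a b : V ⊕ D.PV} {σ : D.PS} :
    (Y.priv D).E a (Sum.inr σ, true) b ↔
      a = D.node σ.1.1 σ.1.2 ∧ b = D.node σ.1.1 (σ.1.2 + 1) := Iff.rfl

@[simp] theorem priv_E_bwd {a b : V ⊕ D.PV} {σ : D.PS} :
    (Y.priv D).E a (Sum.inr σ, false) b ↔
      b = D.node σ.1.1 σ.1.2 ∧ a = D.node σ.1.1 (σ.1.2 + 1) := Iff.rfl

/-- a private letter determines its base edge -/
theorem priv_E_unique {a b a' b' : V ⊕ D.PV} {σ : D.PS} {d : Bool}
    (h : (Y.priv D).E a (Sum.inr σ, d) b) (h' : (Y.priv D).E a' (Sum.inr σ, d) b') :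
    a = a' ∧ b = b' := by
  cases d
  · exact ⟨h.2.trans h'.2.symm, h.1.trans h'.1.symm⟩
  · exact ⟨h.1.trans h'.1.symm, h.2.trans h'.2.symm⟩

/-- the two darts at a private vertex -/
theorem priv_E_at_int {p : P} {j : ℕ} (hj : 0 < j ∧ j < D.n p) {l : (S ⊕ D.PS) × Bool}
    {b : V ⊕ D.PV} (h : (Y.priv D).E (D.node p j) l b) :
    (∃ σ : D.PS, σ.1 = (p, j) ∧ l = (Sum.inr σ, true)) ∨
      (∃ σ : D.PS, σ.1 = (p, j - 1) ∧ l = (Sum.inr σ, false)) := by
  rw [D.node_int p j hj] at h
  obtain ⟨s | σ, d⟩ := l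
  · obtain ⟨a', b', e, -, -⟩ := h
    cases e
  · cases d
    · right
      have h2 := D.node_eq_inr h.2.symm
      simp only [Prod.mk.injEq] at h2
      refine ⟨σ, ?_, rfl⟩
      apply Prod.ext
      · exact h2.1.symm
      · simp only; omega
    · left
      have h2 := D.node_eq_inr h.1.symm
      exact ⟨σ, h2.symm, rfl⟩

/-- lifting of old words -/
def liftW (D : PrivData V F P) (w : List (S × Bool)) : List ((S ⊕ D.PS) × Bool) :=
  w.map fun l => (Sum.inl l.1, l.2)

@[simp] theorem liftW_nil : liftW D ([] : List (S × Bool)) = [] := rfl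

@[simp] theorem liftW_cons (l : S × Bool) (w : List (S × Bool)) :
    liftW D (l :: w) = (Sum.inl l.1, l.2) :: liftW D w := rfl

@[simp] theorem liftW_length (w : List (S × Bool)) : (liftW D w).length = w.length := by
  simp [liftW]

theorem liftW_eq_nil {w : List (S × Bool)} : liftW D w = [] ↔ w = [] := by
  simp [liftW]

/-- a word without private letters is a lifted old word -/
theorem exists_liftW {W : List ((S ⊕ D.PS) × Bool)} (h : ∀ l ∈ W, ∀ σ : D.PS, l.1 ≠ Sum.inr σ) :
    ∃ w, W = liftW D w := by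
  induction W with
  | nil => exact ⟨[], rfl⟩
  | cons l W ih =>
    obtain ⟨w, rfl⟩ := ih fun l' hl' => h l' (List.mem_cons_of_mem _ hl')
    obtain ⟨s | σ, d⟩ := l
    · exact ⟨(s, d) :: w, rfl⟩
    · exact absurd rfl (h _ List.mem_cons_self σ)

theorem liftW_isReduced {w : List (S × Bool)} :
    FreeGroup.IsReduced (liftW D w) ↔ FreeGroup.IsReduced w := by
  unfold FreeGroup.IsReduced liftW
  rw [List.isChain_map]
  simp

theorem liftW_isCyclicallyReduced {w : List (S × Bool)} :
    FreeGroup.IsCyclicallyReduced (liftW D w) ↔ FreeGroup.IsCyclicallyReduced w := by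
  unfold FreeGroup.IsCyclicallyReduced
  rw [liftW_isReduced]
  refine and_congr_right fun _ => ?_
  simp only [liftW, List.getLast?_map, List.head?_map, Option.mem_def, Option.map_eq_some_iff]
  constructor
  · intro h a ha b hb hab
    exact h _ ⟨a, ha, rfl⟩ _ ⟨b, hb, rfl⟩ (by simp [hab])
  · rintro h _ ⟨a, ha, rfl⟩ _ ⟨b, hb, rfl⟩ hab
    exact h a ha b hb (by simpa using hab)

theorem path_liftW {a b : V} {w : List (S × Bool)} (h : Path Y.E a w b) :
    Path (Y.priv D).E (Sum.inl a) (liftW D w) (Sum.inl b) := by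
  induction h with
  | nil => exact Path.nil _
  | cons e _ ih => exact Path.cons ⟨_, _, rfl, rfl, e⟩ ih

theorem path_of_liftW {a : V} {z : V ⊕ D.PV} {w : List (S × Bool)}
    (h : Path (Y.priv D).E (Sum.inl a) (liftW D w) z) : ∃ b, z = Sum.inl b ∧ Path Y.E a w b := by
  induction w generalizing a with
  | nil => exact ⟨a, (path_nil_iff.1 h).symm, Path.nil _⟩
  | cons l w ih =>
    obtain ⟨y, e, hp⟩ := path_cons_iff.1 h
    obtain ⟨a', b', e1, rfl, e⟩ := e
    obtain rfl := Sum.inl.inj e1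
    obtain ⟨b, rfl, hb⟩ := ih hp
    exact ⟨b, rfl, Path.cons e hb⟩

/-- a nonempty lifted word can only be read from an old vertex -/
theorem old_of_path_liftW {a z : V ⊕ D.PV} {w : List (S × Bool)} (hw : w ≠ [])
    (h : Path (Y.priv D).E a (liftW D w) z) : ∃ a', a = Sum.inl a' := by
  cases w with
  | nil => exact absurd rfl hw
  | cons l w =>
    obtain ⟨y, e, -⟩ := path_cons_iff.1 h
    obtain ⟨a', b', e1, -, -⟩ := e
    exact ⟨a', e1⟩

theorem cpath_liftW {x z : V × F} {w : List (S × Bool)} (h : Path Y.cE x w z) :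
    Path (Y.priv D).cE (Sum.inl x.1, x.2) (liftW D w) (Sum.inl z.1, z.2) := by
  induction h with
  | nil => exact Path.nil _
  | cons e _ ih => exact Path.cons ⟨⟨_, _, rfl, rfl, e.1⟩, e.2⟩ ih

theorem cpath_of_liftW {a : V} {f : F} {z : (V ⊕ D.PV) × F} {w : List (S × Bool)}
    (h : Path (Y.priv D).cE (Sum.inl a, f) (liftW D w) z) :
    ∃ b, z.1 = Sum.inl b ∧ Path Y.cE (a, f) w (b, z.2) := by
  induction w generalizing a f with
  | nil =>
    obtain rfl := path_nil_iff.1 h
    exact ⟨a, rfl, Path.nil _⟩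
  | cons l w ih =>
    obtain ⟨⟨y, f'⟩, e, hp⟩ := path_cons_iff.1 h
    obtain ⟨⟨a', b', e1, e2, e⟩, ev⟩ := e
    obtain rfl := Sum.inl.inj e1
    simp only at e2 ev
    subst e2
    obtain ⟨b, hb1, hb⟩ := ih hp
    exact ⟨b, hb1, Path.cons ⟨e, ev⟩ hb⟩

end basic

end Claimed.Agent.R300.Shell
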