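import Claimed.Agent.R300.InjPrivDefs
import Claimed.Agent.R300.ShellWord

/-!
# INJ Lemma 5.1 (private completion), part 2: scale function, uniqueness of long words, girth

Main result: `BaseMetric.priv`: the completed voltage graph satisfies `BaseMetric` again.
(leaf SHELL-19, owner helper185)
-/

set_option linter.unusedSectionVars false

namespace Claimed.Agent.R300.Shell

universe u v w x

/-! ### general lemmas on closed walks -/

section general

variable {S : Type u} {V : Type v} {E : V → S × Bool → V → Prop}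

theorem mem_invRev_iff {l : S × Bool} {w : List (S × Bool)} :
    l ∈ FreeGroup.invRev w ↔ linv l ∈ w := by
  unfold FreeGroup.invRev
  rw [List.mem_reverse, List.mem_map]
  constructor
  · rintro ⟨a, ha, rfl⟩
    simpa [linv] using ha
  · intro h
    exact ⟨linv l, h, by simp [linv]⟩

theorem isCyclicallyReduced_invRev {w : List (S × Bool)} (h : FreeGroup.IsCyclicallyReduced w) :
    FreeGroup.IsCyclicallyReduced (FreeGroup.invRev w) := by
  refine ⟨isReduced_invRev h.1, ?_⟩
  intro a ha b hb hab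
  unfold FreeGroup.invRev at ha hb
  rw [List.getLast?_reverse, List.head?_map] at ha
  rw [List.head?_reverse, List.getLast?_map] at hb
  simp only [Option.mem_def, Option.map_eq_some_iff] at ha hb
  obtain ⟨a', ha', rfl⟩ := ha
  obtain ⟨b', hb', rfl⟩ := hb
  have := h.2 b' hb' a' ha' hab.symm
  simp [this]

theorem path_split_mem {a b : V} {w : List (S × Bool)} {l : S × Bool} (hp : Path E a w b)
    (hl : l ∈ w) : ∃ u v x y, w = u ++ l :: v ∧ Path E a u x ∧ E x l y ∧ Path E y v b := by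
  obtain ⟨u, v, rfl⟩ := List.append_of_mem hl
  obtain ⟨x, h1, h2⟩ := path_append_iff.1 hp
  obtain ⟨y, h3, h4⟩ := path_cons_iff.1 h2
  exact ⟨u, v, x, y, rfl, h1, h3, h4⟩

/-- In a cyclically reduced closed walk every letter is followed (cyclically) by a letter of the
walk which is not its inverse. -/
theorem next_letter {a : V} {w : List (S × Bool)} (hc : FreeGroup.IsCyclicallyReduced w)
    (hp : Path E a w a) {l : S × Bool} (hl : l ∈ w) :
    ∃ x y z l', E x l y ∧ E y l' z ∧ l' ∈ w ∧ l' ≠ linv l := by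
  obtain ⟨u, v, x, y, rfl, h1, h3, h4⟩ := path_split_mem hp hl
  cases v with
  | cons l' v =>
    obtain ⟨z, h5, -⟩ := path_cons_iff.1 h4
    refine ⟨x, y, z, l', h3, h5, by simp, ?_⟩
    have hr : FreeGroup.IsReduced (l :: l' :: v) := isReduced_right hc.1
    rw [FreeGroup.isReduced_cons_cons] at hr
    rintro rfl
    have := hr.1 rfl
    simp [linv] at this
  | nil =>
    obtain rfl := path_nil_iff.1 h4
    cases u with
    | nil =>
      obtain rfl := path_nil_iff.1 h1
      refine ⟨_, _, _, l, h3, h3, by simp, ?_⟩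
      intro h
      have := congrArg Prod.snd h
      simp [linv] at this
    | cons l' u =>
      obtain ⟨z, h5, -⟩ := path_cons_iff.1 h1
      refine ⟨x, y, z, l', h3, h5, by simp, ?_⟩
      have := hc.2 l (List.getLast?_concat (l := l' :: u)) l' (by simp)
      rintro rfl
      have h6 := this rfl
      simp [linv] at h6

theorem lip_path (hs : GSym E) {Λ : V → ℝ} {ε : ℝ} (hl : ∀ ⦃a l b⦄, E a l b → Λ b ≤ Λ a + ε)
    {a b : V} {w : List (S × Bool)} (hp : Path E a w b) : Λ a ≤ Λ b + ε * w.length := by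
  induction hp with
  | nil => simp
  | cons e _ ih =>
    have := hl (hs e)
    simp only [List.length_cons, Nat.cast_add, Nat.cast_one]
    linarith

/-- a list containing the values of an injective function on `Fin n` has length at least `n` -/
theorem length_ge_of_injective {α : Type*} {n : ℕ} (f : Fin n → α) (hf : Function.Injective f)
    (w : List α) (h : ∀ i, f i ∈ w) : n ≤ w.length := by
  classical
  calc n = (Finset.univ.image f).card := by
        rw [Finset.card_image_of_injective _ hf, Finset.card_univ, Fintype.card_fin]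
    _ ≤ w.toFinset.card := Finset.card_le_card fun x hx => by
        obtain ⟨i, -, rfl⟩ := Finset.mem_image.1 hx
        exact List.mem_toFinset.2 (h i)
    _ ≤ w.length := List.toFinset_card_le w

end general

variable {S : Type u} {V : Type v} {F : Type w} {P : Type x} [Group F]

/-! ### the scale function -/

/-- the scale function, interpolated linearly along the added paths -/
noncomputable def privLam (D : PrivData V F P) (Λ : V → ℝ) : V ⊕ D.PV → ℝ
  | Sum.inl a => Λ a
  | Sum.inr q => Λ (D.s q.1.1) + ((q.1.2 : ℝ) / D.n q.1.1) * (Λ (D.t q.1.1) - Λ (D.s q.1.1))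

/-- admissible families of paths: long enough for the slope and for the girth -/
structure PrivAdm (D : PrivData V F P) (Λ : V → ℝ) (ε κ : ℝ) : Prop where
  n_pos : ∀ p, 1 ≤ D.n p
  slope : ∀ p, |Λ (D.t p) - Λ (D.s p)| ≤ ε * D.n p
  long : ∀ p, κ * Λ (D.s p) ≤ D.n p

section scale

variable {D : PrivData V F P} {Λ : V → ℝ} {ε κ : ℝ}

@[simp] theorem privLam_inl (a : V) : privLam D Λ (Sum.inl a) = Λ a := rfl

theorem privLam_node (hn : ∀ p, 1 ≤ D.n p) (p : P) (j : ℕ) (hj : j ≤ D.n p) :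
    privLam D Λ (D.node p j) = Λ (D.s p) + ((j : ℝ) / D.n p) * (Λ (D.t p) - Λ (D.s p)) := by
  have hn' : (D.n p : ℝ) ≠ 0 := by
    have := hn p
    positivity
  rcases Nat.eq_zero_or_pos j with rfl | h0
  · simp
  · rcases Nat.lt_or_ge j (D.n p) with h1 | h1
    · rw [D.node_int p j ⟨h0, h1⟩]
      rfl
    · obtain rfl : j = D.n p := le_antisymm hj h1
      rw [D.node_last p (hn p), div_self hn']
      simp

theorem privLam_ge {c : ℝ} (hc : ∀ a, c ≤ Λ a) (z : V ⊕ D.PV) : c ≤ privLam D Λ z := by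
  rcases z with a | ⟨⟨p, j⟩, h0, h1⟩
  · exact hc a
  · simp only [privLam]
    have hn : (0 : ℝ) < D.n p := by
      have : 0 < D.n p := by simp only at h1; omega
      exact_mod_cast this
    have hθ0 : (0 : ℝ) ≤ (j : ℝ) / D.n p := by positivity
    have hθ1 : (j : ℝ) / D.n p ≤ 1 := by
      rw [div_le_one hn]
      exact_mod_cast (le_of_lt h1)
    have h2 := hc (D.s p)
    have h3 := hc (D.t p)
    nlinarith

theorem privLam_lip (Y : VGraph S V F) (hl : ∀ ⦃a l b⦄, Y.E a l b → Λ b ≤ Λ a + ε)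
    (hD : PrivAdm D Λ ε κ) ⦃a : V ⊕ D.PV⦄ ⦃l : (S ⊕ D.PS) × Bool⦄ ⦃b : V ⊕ D.PV⦄
    (h : (Y.priv D).E a l b) : privLam D Λ b ≤ privLam D Λ a + ε := by
  obtain ⟨s | ⟨⟨p, j⟩, hj⟩, d⟩ := l
  · obtain ⟨a', b', rfl, rfl, h⟩ := h
    exact hl h
  · simp only at hj
    have hn : (0 : ℝ) < D.n p := by
      have := hD.n_pos p
      exact_mod_cast this
    have e1 := privLam_node (Λ := Λ) hD.n_pos p j hj.le
    have e2 := privLam_node (Λ := Λ) hD.n_pos p (j + 1) hj
    have hs := abs_le.1 (hD.slope p)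
    have key : ((j + 1 : ℕ) : ℝ) / D.n p * (Λ (D.t p) - Λ (D.s p))
        = (j : ℝ) / D.n p * (Λ (D.t p) - Λ (D.s p)) + (Λ (D.t p) - Λ (D.s p)) / D.n p := by
      push_cast
      ring
    have k1 : (Λ (D.t p) - Λ (D.s p)) / D.n p ≤ ε := by
      rw [div_le_iff₀ hn]; exact hs.2
    have k2 : -ε ≤ (Λ (D.t p) - Λ (D.s p)) / D.n p := by
      rw [le_div_iff₀ hn]; linarith [hs.1]
    cases d
    · obtain ⟨rfl, rfl⟩ := h
      simp only
      rw [e1, e2, key]
      linarith
    · obtain ⟨rfl, rfl⟩ := h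
      simp only
      rw [e1, e2, key]
      linarith

end scale

/-! ### closed walks through a private edge -/

section traverse

variable {Y : VGraph S V F} {D : PrivData V F P}

theorem priv_fwd_step {a : V ⊕ D.PV} {w : List ((S ⊕ D.PS) × Bool)}
    (hc : FreeGroup.IsCyclicallyReduced w) (hp : Path (Y.priv D).E a w a) {p : P} {j : ℕ}
    (hj : j + 1 < D.n p)
    (h : ((Sum.inr ⟨(p, j), Nat.lt_of_succ_lt hj⟩ : S ⊕ D.PS), true) ∈ w) :
    ((Sum.inr ⟨(p, j + 1), hj⟩ : S ⊕ D.PS), true) ∈ w := by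
  obtain ⟨x, y, z, l', e1, e2, hl', hne⟩ := next_letter hc hp h
  obtain ⟨-, rfl⟩ := e1
  rcases priv_E_at_int (Y := Y) (p := p) (j := j + 1) ⟨Nat.succ_pos j, hj⟩ e2 with
    ⟨σ, hσ, rfl⟩ | ⟨σ, hσ, rfl⟩
  · have : σ = ⟨(p, j + 1), hj⟩ := Subtype.ext hσ
    rwa [this] at hl'
  · exfalso
    apply hne
    have : σ = ⟨(p, j), Nat.lt_of_succ_lt hj⟩ := Subtype.ext (by simpa using hσ)
    rw [this]
    rfl

theorem priv_bwd_step {a : V ⊕ D.PV} {w : List ((S ⊕ D.PS) × Bool)}
    (hc : FreeGroup.IsCyclicallyReduced w) (hp : Path (Y.priv D).E a w a) {p : P} {j : ℕ}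
    (hj : j + 1 < D.n p) (h : ((Sum.inr ⟨(p, j + 1), hj⟩ : S ⊕ D.PS), false) ∈ w) :
    ((Sum.inr ⟨(p, j), Nat.lt_of_succ_lt hj⟩ : S ⊕ D.PS), false) ∈ w := by
  obtain ⟨x, y, z, l', e1, e2, hl', hne⟩ := next_letter hc hp h
  obtain ⟨rfl, -⟩ := e1
  rcases priv_E_at_int (Y := Y) (p := p) (j := j + 1) ⟨Nat.succ_pos j, hj⟩ e2 with
    ⟨σ, hσ, rfl⟩ | ⟨σ, hσ, rfl⟩
  · exfalso
    apply hne
    have : σ = ⟨(p, j + 1), hj⟩ := Subtype.ext hσ
    rw [this]
    rfl
  · have : σ = ⟨(p, j), Nat.lt_of_succ_lt hj⟩ := Subtype.ext (by simpa using hσ)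
    rwa [this] at hl'

/-- a cyclically reduced closed walk which traverses a private edge forwards traverses the whole
private path forwards -/
theorem priv_all_fwd {a : V ⊕ D.PV} {w : List ((S ⊕ D.PS) × Bool)}
    (hc : FreeGroup.IsCyclicallyReduced w) (hp : Path (Y.priv D).E a w a) {p : P} {j₀ : ℕ}
    (hj₀ : j₀ < D.n p) (h : ((Sum.inr ⟨(p, j₀), hj₀⟩ : S ⊕ D.PS), true) ∈ w) (j : ℕ)
    (hj : j < D.n p) : ((Sum.inr ⟨(p, j), hj⟩ : S ⊕ D.PS), true) ∈ w := by
  have up : ∀ k, ∀ hk : j₀ + k < D.n p, ((Sum.inr ⟨(p, j₀ + k), hk⟩ : S ⊕ D.PS), true) ∈ w := by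
    intro k
    induction k with
    | zero => intro _; exact h
    | succ k ih =>
      intro hk
      exact priv_fwd_step hc hp (j := j₀ + k) hk (ih (Nat.lt_of_succ_lt hk))
  have hc' := isCyclicallyReduced_invRev hc
  have hp' := hp.inv (Y.priv D).sym
  have down1 : ∀ i, ∀ hi : i + 1 < D.n p, ((Sum.inr ⟨(p, i + 1), hi⟩ : S ⊕ D.PS), true) ∈ w →
      ((Sum.inr ⟨(p, i), Nat.lt_of_succ_lt hi⟩ : S ⊕ D.PS), true) ∈ w := by
    intro i hi hm
    have h1 : ((Sum.inr ⟨(p, i + 1), hi⟩ : S ⊕ D.PS), false) ∈ FreeGroup.invRev w :=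
      mem_invRev_iff.2 hm
    have h2 := priv_bwd_step hc' hp' hi h1
    exact mem_invRev_iff.1 h2
  have down : ∀ k, ∀ hk : k ≤ j₀,
      ((Sum.inr ⟨(p, j₀ - k), lt_of_le_of_lt (Nat.sub_le _ _) hj₀⟩ : S ⊕ D.PS), true) ∈ w := by
    intro k
    induction k with
    | zero => intro _; exact h
    | succ k ih =>
      intro hk
      have h1 := ih (Nat.le_of_succ_le hk)
      have e : j₀ - k = (j₀ - (k + 1)) + 1 := by omega
      have h2 : ∀ (m : ℕ) (hm : m < D.n p), m = (j₀ - (k + 1)) + 1 →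
          ((Sum.inr ⟨(p, m), hm⟩ : S ⊕ D.PS), true) ∈ w →
          ((Sum.inr ⟨(p, j₀ - (k + 1)), lt_of_le_of_lt (Nat.sub_le _ _) hj₀⟩ : S ⊕ D.PS), true)
            ∈ w := by
        rintro m hm rfl hmem
        exact down1 _ hm hmem
      exact h2 _ _ e h1
  rcases Nat.le_total j₀ j with hle | hle
  · obtain ⟨k, rfl⟩ := Nat.exists_eq_add_of_le hle
    exact up k hj
  · have h1 := down (j₀ - j) (Nat.sub_le _ _)
    have e : j₀ - (j₀ - j) = j := by omega
    have h2 : ∀ (m : ℕ) (hm : m < D.n p), m = j →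
        ((Sum.inr ⟨(p, m), hm⟩ : S ⊕ D.PS), true) ∈ w →
        ((Sum.inr ⟨(p, j), hj⟩ : S ⊕ D.PS), true) ∈ w := by
      rintro m hm rfl hmem
      exact hmem
    exact h2 _ _ e h1

/-- A cyclically reduced closed walk through a private edge of the path `p` has length at least
`n p` and passes through the origin of `p`. -/
theorem priv_long {a : V ⊕ D.PV} {w : List ((S ⊕ D.PS) × Bool)}
    (hc : FreeGroup.IsCyclicallyReduced w) (hp : Path (Y.priv D).E a w a) {σ : D.PS} {d : Bool}
    (h : ((Sum.inr σ : S ⊕ D.PS), d) ∈ w) :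
    D.n σ.1.1 ≤ w.length ∧
      ∃ u v, w = u ++ v ∧ Path (Y.priv D).E a u (Sum.inl (D.s σ.1.1)) := by
  -- reduce to the forward case
  suffices H : ∀ (a : V ⊕ D.PV) (w : List ((S ⊕ D.PS) × Bool)),
      FreeGroup.IsCyclicallyReduced w → Path (Y.priv D).E a w a →
      ((Sum.inr σ : S ⊕ D.PS), true) ∈ w →
      D.n σ.1.1 ≤ w.length ∧
        ∃ u v, w = u ++ v ∧ Path (Y.priv D).E a u (Sum.inl (D.s σ.1.1)) by
    cases d
    · obtain ⟨h1, u, v, e, hu⟩ := H a (FreeGroup.invRev w) (isCyclicallyReduced_invRev hc)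
        (hp.inv (Y.priv D).sym) (mem_invRev_iff.2 h)
      refine ⟨by simpa using h1, FreeGroup.invRev v, FreeGroup.invRev u, ?_, ?_⟩
      · rw [← FreeGroup.invRev_append, ← e, FreeGroup.invRev_invRev]
      · have hp' := hp.inv (Y.priv D).sym
        rw [e] at hp'
        obtain ⟨b, hb1, hb2⟩ := path_append_iff.1 hp'
        obtain rfl := hb1.det (Y.priv D).det hu
        exact hb2.inv (Y.priv D).sym
    · exact H a w hc hp h
  intro a w hc hp h
  obtain ⟨⟨p, j₀⟩, hj₀⟩ := σ
  simp only at hj₀ ⊢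
  have hall := priv_all_fwd hc hp hj₀ h
  refine ⟨?_, ?_⟩
  · refine length_ge_of_injective
      (fun i : Fin (D.n p) => ((Sum.inr ⟨(p, i), i.2⟩ : S ⊕ D.PS), true)) ?_ w
      (fun i => hall i i.2)
    intro i i' hii
    simp only [Prod.mk.injEq, and_true] at hii
    have := congrArg (fun q : D.PS => q.1.2) (Sum.inr.inj hii)
    exact Fin.ext this
  · have h0 := hall 0 (Nat.lt_of_le_of_lt (Nat.zero_le _) hj₀)
    obtain ⟨u, v, x, y, e, h1, h3, -⟩ := path_split_mem hp h0
    obtain ⟨rfl, -⟩ := h3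
    exact ⟨u, _, e, by simpa using h1⟩

end traverse

/-! ### the completed graph satisfies `BaseMetric` -/

section metric

open VGraph

variable {Y : VGraph S V F} {D : PrivData V F P} {Λ : V → ℝ} {ε c κ : ℝ}

/-- two readings of a word containing a private letter start at the same vertex -/
theorem priv_same_start {a a' b b' : V ⊕ D.PV} {W : List ((S ⊕ D.PS) × Bool)}
    (h : Path (Y.priv D).E a W b) (h' : Path (Y.priv D).E a' W b') {σ : D.PS} {d : Bool}
    (hm : ((Sum.inr σ : S ⊕ D.PS), d) ∈ W) : a' = a := by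
  obtain ⟨u, v, rfl⟩ := List.append_of_mem hm
  obtain ⟨x, h1, h2⟩ := path_append_iff.1 h
  obtain ⟨x', h1', h2'⟩ := path_append_iff.1 h'
  obtain ⟨y, e, -⟩ := path_cons_iff.1 h2
  obtain ⟨y', e', -⟩ := path_cons_iff.1 h2'
  obtain ⟨rfl, -⟩ := priv_E_unique e e'
  exact h1'.det_left (Y.priv D).sym (Y.priv D).det h1

/-- **INJ Lemma 5.1 (2), (4), (5).**  The completed graph satisfies the metric hypotheses. -/
theorem VGraph.BaseMetric.priv (hB : BaseMetric Y Λ ε c) (hpos : ∀ a, 0 < Λ a) (hD : PrivAdm D Λ ε κ)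
    (hε : 0 ≤ ε) (hc : 0 ≤ c) (hκ : 0 < κ) (hnum : c * (1 / κ + ε) < 1) :
    BaseMetric (Y.priv D) (privLam D Λ) ε c where
  nonneg := privLam_ge fun a => (hpos a).le
  lip := privLam_lip Y hB.lip hD
  uniq := by
    intro a a' b b' W hred h h' hlen
    by_cases hpr : ∃ (σ : D.PS) (d : Bool), ((Sum.inr σ : S ⊕ D.PS), d) ∈ W
    · obtain ⟨σ, d, hm⟩ := hpr
      exact priv_same_start h h' hm
    · obtain ⟨w, rfl⟩ := exists_liftW (D := D) (W := W) (by
        rintro ⟨s, d⟩ hl σ rfl
        exact hpr ⟨σ, d, hl⟩)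
      have hw : w ≠ [] := by
        rintro rfl
        obtain ⟨m, hm⟩ : ∃ m, 0 < m ∧ ∀ z : V ⊕ D.PV, z = a → m ≤ privLam D Λ z := by
          rcases a with a | ⟨⟨p, j⟩, hj⟩
          · exact ⟨Λ a, hpos a, by rintro _ rfl; exact le_refl _⟩
          · refine ⟨min (Λ (D.s p)) (Λ (D.t p)), lt_min (hpos _) (hpos _), ?_⟩
            rintro _ rfl
            simp only [privLam]
            have hn : (0 : ℝ) < D.n p := by
              have := hD.n_pos p
              exact_mod_cast this
            have hθ0 : (0 : ℝ) ≤ (j : ℝ) / D.n p := by positivity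
            have hθ1 : (j : ℝ) / D.n p ≤ 1 := by
              rw [div_le_one hn]
              exact_mod_cast (le_of_lt hj.2)
            have h2 := min_le_left (Λ (D.s p)) (Λ (D.t p))
            have h3 := min_le_right (Λ (D.s p)) (Λ (D.t p))
            nlinarith
        have := hm.2 a rfl
        simp at hlen
        linarith [hm.1]
      obtain ⟨a₀, rfl⟩ := old_of_path_liftW hw h
      obtain ⟨a₀', rfl⟩ := old_of_path_liftW hw h'
      obtain ⟨b₀, -, q⟩ := path_of_liftW h
      obtain ⟨b₀', -, q'⟩ := path_of_liftW h'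
      rw [hB.uniq (liftW_isReduced.1 hred) q q' (by simpa using hlen)]
  girth := by
    intro a W hne hcr hp
    by_cases hpr : ∃ (σ : D.PS) (d : Bool), ((Sum.inr σ : S ⊕ D.PS), d) ∈ W
    · obtain ⟨σ, d, hm⟩ := hpr
      obtain ⟨h1, u, v, e, hu⟩ := priv_long hcr (cpath_fst hp) hm
      have h2 := lip_path (Y.priv D).sym (privLam_lip Y hB.lip hD) hu
      rw [privLam_inl] at h2
      have h3 := hD.long σ.1.1
      have h4 : (u.length : ℝ) ≤ W.length := by
        rw [e, List.length_append]; push_cast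
        have : (0 : ℝ) ≤ v.length := by positivity
        linarith
      have h5 : (D.n σ.1.1 : ℝ) ≤ W.length := by exact_mod_cast h1
      have hW : (0 : ℝ) < W.length := by
        have := List.length_pos_iff.2 hne
        exact_mod_cast this
      have h6 : Λ (D.s σ.1.1) ≤ (1 / κ) * W.length := by
        rw [one_div, inv_mul_eq_div, le_div_iff₀ hκ]
        linarith
      have h7 : privLam D Λ a ≤ (1 / κ + ε) * W.length := by
        have : ε * u.length ≤ ε * W.length := mul_le_mul_of_nonneg_left h4 hε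
        simp only at h2
        linarith
      calc c * privLam D Λ a ≤ c * ((1 / κ + ε) * W.length) := mul_le_mul_of_nonneg_left h7 hc
        _ = (c * (1 / κ + ε)) * W.length := by ring
        _ < 1 * W.length := mul_lt_mul_of_pos_right hnum hW
        _ = W.length := one_mul _
    · obtain ⟨w, rfl⟩ := exists_liftW (D := D) (W := W) (by
        rintro ⟨s, d⟩ hl σ rfl
        exact hpr ⟨σ, d, hl⟩)
      have hw : w ≠ [] := fun h0 => hne (liftW_eq_nil.2 h0)
      obtain ⟨a₀, rfl⟩ := old_of_path_liftW hw (cpath_fst hp)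
      obtain ⟨b, hb, q⟩ := cpath_of_liftW hp
      obtain rfl := Sum.inl.inj hb
      have := hB.girth hw (liftW_isCyclicallyReduced.1 hcr) q
      simpa using this

/-- pieces of the completed cover contain no private letter -/
theorem priv_piece_old {x z : (V ⊕ D.PV) × F} {p : List ((S ⊕ D.PS) × Bool)}
    (h : Piece (Y.priv D).rel x p z) : ∃ w, p = liftW D w := by
  obtain ⟨h1, -, a', b', hne, h2⟩ := VGraph.piece_iff.1 h
  refine exists_liftW ?_
  rintro ⟨s, d⟩ hl σ rfl
  exact hne (priv_same_start (cpath_fst h1) h2 hl)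

end metric

end Claimed.Agent.R300.Shell
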