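/-
Row 300 / S0553 (INJ paper), UPPER ASSEMBLY, package IU-ALG (sub-captain: helper145).
Pure algebra of `2 × 2` matrices: the relation `IuQ a` ("`e11 + a` is a projection", written
entrywise so that it is preserved by non-unital homomorphisms), the coefficient tensor `iuCoef`
which assembles the six product terms `A_k(x) B_l(y)` into the matrix `a(x,y)`, and the exact
rotation lemma.
-/
import Mathlib

set_option autoImplicit false

namespace Claimed.Agent.R300

open Matrix

/-- the scalar projection `e11` (same shape as in the frozen statement S0553) -/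
def iuE (A : Type*) [Zero A] [One A] : Matrix (Fin 2) (Fin 2) A := Matrix.of ![![1, 0], ![0, 0]]

/-- `e11 + a` is a selfadjoint idempotent, written entrywise. -/
def IuQ {R : Type*} [NonUnitalNonAssocRing R] [Star R] (a : Matrix (Fin 2) (Fin 2) R) : Prop :=
  (∀ i k, star (a k i) = a i k) ∧
  ∀ i k, (if i = 0 then a i k else 0) + (if k = 0 then a i k else 0) + ∑ l, a i l * a l k = a i k

theorem iuAlg_E_mul_self (R : Type*) [Ring R] : iuE R * iuE R = iuE R := by
  ext i k
  fin_cases i <;> fin_cases k <;> simp [iuE, Matrix.mul_apply, Fin.sum_univ_two]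

theorem iuAlg_E_mul {R : Type*} [Ring R] (a : Matrix (Fin 2) (Fin 2) R) (i k : Fin 2) :
    (iuE R * a) i k = if i = 0 then a i k else 0 := by
  fin_cases i <;> simp [iuE, Matrix.mul_apply, Fin.sum_univ_two]

theorem iuAlg_mul_E {R : Type*} [Ring R] (a : Matrix (Fin 2) (Fin 2) R) (i k : Fin 2) :
    (a * iuE R) i k = if k = 0 then a i k else 0 := by
  fin_cases k <;> simp [iuE, Matrix.mul_apply, Fin.sum_univ_two]

theorem iuQ_iff {R : Type*} [Ring R] [StarRing R] (a : Matrix (Fin 2) (Fin 2) R) :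
    IuQ a ↔ aᴴ = a ∧ (iuE R + a) * (iuE R + a) = iuE R + a := by
  have hE : iuE R * iuE R = iuE R := iuAlg_E_mul_self R
  have key : (iuE R + a) * (iuE R + a) = iuE R + a ↔ iuE R * a + a * iuE R + a * a = a := by
    rw [add_mul, mul_add, mul_add, hE]
    constructor
    · intro h
      have h2 : iuE R + (iuE R * a + a * iuE R + a * a) = iuE R + a := by
        rw [← h]; abel
      exact add_left_cancel h2
    · intro h
      calc iuE R + iuE R * a + (a * iuE R + a * a)
          = iuE R + (iuE R * a + a * iuE R + a * a) := by abel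
        _ = iuE R + a := by rw [h]
  rw [key]
  unfold IuQ
  constructor
  · rintro ⟨h1, h2⟩
    refine ⟨?_, ?_⟩
    · ext i k
      exact h1 i k
    · ext i k
      rw [Matrix.add_apply, Matrix.add_apply, iuAlg_E_mul, iuAlg_mul_E, Matrix.mul_apply]
      exact h2 i k
  · rintro ⟨h1, h2⟩
    refine ⟨fun i k => ?_, fun i k => ?_⟩
    · have := congrFun (congrFun h1 i) k
      exact this
    · have := congrFun (congrFun h2 i) k
      rw [Matrix.add_apply, Matrix.add_apply, iuAlg_E_mul, iuAlg_mul_E, Matrix.mul_apply] at this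
      exact this

theorem iuE_conjTranspose (R : Type*) [Ring R] [StarRing R] : (iuE R)ᴴ = iuE R := by
  ext i k
  fin_cases i <;> fin_cases k <;> simp [iuE, Matrix.conjTranspose_apply]

theorem iuE_mul_self (R : Type*) [Ring R] : iuE R * iuE R = iuE R := by
  exact iuAlg_E_mul_self R

theorem iuQ_zero {R : Type*} [NonUnitalNonAssocRing R] [StarAddMonoid R] :
    IuQ (0 : Matrix (Fin 2) (Fin 2) R) := by
  refine ⟨fun i k => by simp, fun i k => by simp⟩

/-- preserved by (possibly non-unital) star homomorphisms, given as plain functions -/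
theorem IuQ.map {R R' : Type*} [NonUnitalNonAssocRing R] [Star R] [NonUnitalNonAssocRing R']
    [Star R'] {a : Matrix (Fin 2) (Fin 2) R} (h : IuQ a) (f : R → R') (h0 : f 0 = 0)
    (hadd : ∀ x y, f (x + y) = f x + f y) (hmul : ∀ x y, f (x * y) = f x * f y)
    (hstar : ∀ x, f (star x) = star (f x)) : IuQ (a.map f) := by
  obtain ⟨h1, h2⟩ := h
  refine ⟨fun i k => ?_, fun i k => ?_⟩
  · simp only [Matrix.map_apply]
    rw [← hstar, h1]
  · simp only [Matrix.map_apply]
    have hite : ∀ (p : Prop) [Decidable p] (x : R), f (if p then x else 0) = if p then f x else 0 := by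
      intro p _ x
      split_ifs
      · rfl
      · exact h0
    have h3 := congrArg f (h2 i k)
    rw [hadd, hadd, Fin.sum_univ_two, hadd, hmul, hmul, hite, hite] at h3
    rw [Fin.sum_univ_two]
    exact h3

/-- orthogonal sums -/
theorem IuQ.add {R : Type*} [NonUnitalNonAssocRing R] [StarAddMonoid R]
    {a a' : Matrix (Fin 2) (Fin 2) R} (h : IuQ a) (h' : IuQ a')
    (h1 : ∀ i l l' k, a i l * a' l' k = 0) (h2 : ∀ i l l' k, a' i l * a l' k = 0) :
    IuQ (a + a') := by
  obtain ⟨h1a, h2a⟩ := h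
  obtain ⟨h1b, h2b⟩ := h'
  refine ⟨fun i k => ?_, fun i k => ?_⟩
  · simp only [Matrix.add_apply]
    rw [star_add, h1a, h1b]
  · simp only [Matrix.add_apply]
    have e : ∑ l, (a i l + a' i l) * (a l k + a' l k)
        = ∑ l, a i l * a l k + ∑ l, a' i l * a' l k := by
      rw [← Finset.sum_add_distrib]
      apply Finset.sum_congr rfl
      intro l _
      rw [add_mul, mul_add, mul_add, h1 i l l k, h2 i l l k, add_zero, zero_add]
    rw [e]
    have ea := h2a i k
    have eb := h2b i k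
    have e1 : (if i = 0 then a i k + a' i k else 0)
        = (if i = 0 then a i k else 0) + (if i = 0 then a' i k else 0) := by
      split_ifs <;> simp
    have e2 : (if k = 0 then a i k + a' i k else 0)
        = (if k = 0 then a i k else 0) + (if k = 0 then a' i k else 0) := by
      split_ifs <;> simp
    rw [e1, e2]
    conv_rhs => rw [← ea, ← eb]
    abel

/-- EXACT ROTATION.  `(W a W^*)_{ik} = W a_{ik} W^*`; only `a W^* W a = a a` is needed. -/
theorem IuQ.conj {R : Type*} [Ring R] [StarRing R] {a : Matrix (Fin 2) (Fin 2) R} (h : IuQ a)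
    (W : R) (hW : ∀ i l l' k, a i l * (star W * W) * a l' k = a i l * a l' k) :
    IuQ (Matrix.of fun i k => W * a i k * star W) := by
  obtain ⟨h1, h2⟩ := h
  refine ⟨fun i k => ?_, fun i k => ?_⟩
  · simp only [Matrix.of_apply]
    rw [star_mul, star_mul, star_star, h1, mul_assoc]
  · simp only [Matrix.of_apply]
    have e : ∑ l, W * a i l * star W * (W * a l k * star W)
        = W * (∑ l, a i l * a l k) * star W := by
      rw [Finset.mul_sum, Finset.sum_mul]
      apply Finset.sum_congr rfl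
      intro l _
      rw [← hW i l l k]
      simp only [mul_assoc]
    rw [e]
    have e1 : (if i = 0 then W * a i k * star W else 0)
        = W * (if i = 0 then a i k else 0) * star W := by
      split_ifs <;> simp
    have e2 : (if k = 0 then W * a i k * star W else 0)
        = W * (if k = 0 then a i k else 0) * star W := by
      split_ifs <;> simp
    rw [e1, e2, ← add_mul, ← add_mul, ← mul_add, ← mul_add, h2]

/-- the rotation `W = c + s S`, `c^2 + s^2 = 1`, `S^* S = 1`, `a S a = 0`, expanded -/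
theorem IuQ.rot {R : Type*} [Ring R] [StarRing R] [Algebra ℂ R] [StarModule ℂ R]
    {a : Matrix (Fin 2) (Fin 2) R} (h : IuQ a) (S : R) (hS : star S * S = 1)
    (hSa : ∀ i l l' k, a i l * S * a l' k = 0) (c s : ℝ) (hcs : c ^ 2 + s ^ 2 = 1) :
    IuQ (Matrix.of fun i k => ((c ^ 2 : ℝ) : ℂ) • a i k
      + ((c * s : ℝ) : ℂ) • (S * a i k + a i k * star S) + ((s ^ 2 : ℝ) : ℂ) • (S * a i k * star S)) := by
  have h1 := h.1
  have hSa' : ∀ i l l' k, a i l * star S * a l' k = 0 := by
    intro i l l' k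
    have e : a i l * star S * a l' k = star (a k l' * S * a l i) := by
      rw [star_mul, star_mul, h1, h1, mul_assoc]
    rw [e, hSa, star_zero]
  set W : R := (c : ℂ) • (1 : R) + (s : ℂ) • S with hWdef
  have hWs : star W = (c : ℂ) • (1 : R) + (s : ℂ) • star S := by
    rw [hWdef, star_add, star_smul, star_smul, star_one]
    simp
  have hcs' : (c : ℂ) * c + (s : ℂ) * s = 1 := by
    have : ((c ^ 2 + s ^ 2 : ℝ) : ℂ) = 1 := by rw [hcs]; simp
    push_cast at this
    rw [← this]; ring
  have hWW : star W * W = 1 + ((c : ℂ) * s) • (S + star S) := by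
    rw [hWs, hWdef]
    simp only [add_mul, mul_add, smul_mul_assoc, mul_smul_comm, one_mul, mul_one, smul_smul, hS,
      smul_add]
    have e : (1 : R) = ((c : ℂ) * c + (s : ℂ) * s) • (1 : R) := by rw [hcs', one_smul]
    conv_rhs => rw [e]
    rw [add_smul, mul_comm (s : ℂ) (c : ℂ)]
    abel
  have hconj := h.conj W (by
    intro i l l' k
    rw [hWW, mul_add, mul_one, add_mul, mul_smul_comm, smul_mul_assoc, mul_add, add_mul, hSa, hSa',
      add_zero, smul_zero, add_zero])
  convert hconj using 1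
  ext i k
  simp only [Matrix.of_apply]
  rw [hWs, hWdef]
  simp only [add_mul, mul_add, smul_mul_assoc, mul_smul_comm, one_mul, mul_one, smul_smul, smul_add]
  push_cast
  rw [pow_two, pow_two, mul_comm (s : ℂ) (c : ℂ)]
  abel

/-! ### The coefficient tensor -/

/-- `a = [[T00 + T01, T10 - T21], [T11 - T20, -T00 - T01]]`, `T k l = A_k ⊗ B_l`,
`A = (h c s, h c^2, h s^2)`, `B = (β, conj β)`. -/
def iuCoef : Fin 2 → Fin 2 → Fin 3 → Fin 2 → ℂ :=
  ![![![![1, 1], ![0, 0], ![0, 0]], ![![0, 0], ![1, 0], ![0, -1]]],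
    ![![![0, 0], ![0, 1], ![-1, 0]], ![![-1, -1], ![0, 0], ![0, 0]]]]

/-- the matrix assembled from six terms -/
def iuMat {M : Type*} [AddCommMonoid M] [Module ℂ M] (T : Fin 3 → Fin 2 → M) :
    Matrix (Fin 2) (Fin 2) M :=
  Matrix.of fun i j => ∑ k, ∑ l, iuCoef i j k l • T k l

theorem iuCoef_norm_le (i j : Fin 2) (k : Fin 3) (l : Fin 2) : ‖iuCoef i j k l‖ ≤ 1 := by
  fin_cases i <;> fin_cases j <;> fin_cases k <;> fin_cases l <;> simp [iuCoef]

/-- in every entry only two coefficients are non zero -/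
theorem iuCoef_sum_norm (i j : Fin 2) : ∑ k, ∑ l, ‖iuCoef i j k l‖ = 2 := by
  fin_cases i <;> fin_cases j <;> simp [iuCoef, Fin.sum_univ_succ] <;> norm_num

theorem iuMat_map {M M' : Type*} [AddCommMonoid M] [Module ℂ M] [AddCommMonoid M'] [Module ℂ M']
    (f : M →ₗ[ℂ] M') (T : Fin 3 → Fin 2 → M) : (iuMat T).map f = iuMat fun k l => f (T k l) := by
  ext i j
  simp [iuMat, map_sum]

theorem iuMat_add {M : Type*} [AddCommMonoid M] [Module ℂ M] (T T' : Fin 3 → Fin 2 → M) :
    iuMat (fun k l => T k l + T' k l) = iuMat T + iuMat T' := by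
  ext i j
  simp [iuMat, smul_add, Finset.sum_add_distrib]

theorem iuMat_norm_le {M : Type*} [SeminormedAddCommGroup M] [NormedSpace ℂ M]
    (T : Fin 3 → Fin 2 → M) {C : ℝ} (h : ∀ k l, ‖T k l‖ ≤ C) (i j : Fin 2) :
    ‖iuMat T i j‖ ≤ 2 * C := by
  calc ‖iuMat T i j‖ = ‖∑ k, ∑ l, iuCoef i j k l • T k l‖ := rfl
    _ ≤ ∑ k, ‖∑ l, iuCoef i j k l • T k l‖ := norm_sum_le _ _
    _ ≤ ∑ k, ∑ l, ‖iuCoef i j k l • T k l‖ := Finset.sum_le_sum fun k _ => norm_sum_le _ _
    _ ≤ ∑ k, ∑ l, ‖iuCoef i j k l‖ * C := by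
        apply Finset.sum_le_sum; intro k _
        apply Finset.sum_le_sum; intro l _
        exact (norm_smul_le _ _).trans (mul_le_mul_of_nonneg_left (h k l) (norm_nonneg _))
    _ = (∑ k, ∑ l, ‖iuCoef i j k l‖) * C := by
        rw [Finset.sum_mul]
        apply Finset.sum_congr rfl; intro k _
        rw [Finset.sum_mul]
    _ = 2 * C := by rw [iuCoef_sum_norm]

theorem iuMat_norm_sub_le {M : Type*} [SeminormedAddCommGroup M] [NormedSpace ℂ M]
    (T T' : Fin 3 → Fin 2 → M) {C : ℝ} (h : ∀ k l, ‖T k l - T' k l‖ ≤ C) (i j : Fin 2) :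
    ‖iuMat T i j - iuMat T' i j‖ ≤ 2 * C := by
  have e : iuMat T i j - iuMat T' i j = iuMat (fun k l => T k l - T' k l) i j := by
    simp [iuMat, smul_sub, Finset.sum_sub_distrib]
  rw [e]
  exact iuMat_norm_le _ h i j

/-- the scalar identity behind everything: if `A = (h c s, h c^2, h s^2)` with `c^2 + s^2 = 1`,
`h (c s - h) = 0` (reals) and `B = (β, conj β)` with `β + conj β + β conj β = 0`
(i.e. `|1 + β| = 1`), then `e11 + a` is a projection. -/
theorem iuQ_scalar (h c s : ℝ) (β : ℂ) (hcs : c ^ 2 + s ^ 2 = 1) (hh : h * (c * s - h) = 0)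
    (hβ : β + star β + β * star β = 0) :
    IuQ (iuMat fun k l => (((![h * c * s, h * c ^ 2, h * s ^ 2] : Fin 3 → ℝ) k : ℝ) : ℂ) *
      (![β, star β] : Fin 2 → ℂ) l) := by
  have hcs' : (c : ℂ) ^ 2 + (s : ℂ) ^ 2 = 1 := by exact_mod_cast congrArg (fun x : ℝ => (x : ℂ)) hcs
  have hh' : (h : ℂ) * ((c : ℂ) * s - h) = 0 := by exact_mod_cast congrArg (fun x : ℝ => (x : ℂ)) hh
  have hsr : ∀ x : ℝ, star (x : ℂ) = x := fun x => Complex.conj_ofReal x
  obtain ⟨β', hβ'⟩ : ∃ β' : ℂ, β' = star β := ⟨_, rfl⟩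
  have hβs : star β' = β := by rw [hβ', star_star]
  rw [← hβ'] at hβ ⊢
  set a := iuMat fun k l => (((![h * c * s, h * c ^ 2, h * s ^ 2] : Fin 3 → ℝ) k : ℝ) : ℂ) *
      (![β, β'] : Fin 2 → ℂ) l with ha
  have a00 : a 0 0 = h * c * s * β + h * c * s * β' := by
    simp [ha, iuMat, iuCoef, Fin.sum_univ_succ]
  have a01 : a 0 1 = h * c ^ 2 * β - h * s ^ 2 * β' := by
    simp [ha, iuMat, iuCoef, Fin.sum_univ_succ]; ring
  have a10 : a 1 0 = h * c ^ 2 * β' - h * s ^ 2 * β := by
    simp [ha, iuMat, iuCoef, Fin.sum_univ_succ]; ring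
  have a11 : a 1 1 = -(h * c * s * β) - h * c * s * β' := by
    simp [ha, iuMat, iuCoef, Fin.sum_univ_succ]; ring
  refine ⟨fun i k => ?_, fun i k => ?_⟩
  · fin_cases i <;> fin_cases k
    · show star (a 0 0) = a 0 0
      rw [a00]
      simp only [star_add, star_mul', hsr, hβs, ← hβ']
      ring
    · show star (a 1 0) = a 0 1
      rw [a10, a01]
      simp only [star_sub, star_mul', star_pow, hsr, hβs, ← hβ']
    · show star (a 0 1) = a 1 0
      rw [a10, a01]
      simp only [star_sub, star_mul', star_pow, hsr, hβs, ← hβ']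
    · show star (a 1 1) = a 1 1
      rw [a11]
      simp only [star_sub, star_neg, star_mul', hsr, hβs, ← hβ']
      ring
  · fin_cases i <;> fin_cases k
    · show (if (0 : Fin 2) = 0 then a 0 0 else 0) + (if (0 : Fin 2) = 0 then a 0 0 else 0)
        + ∑ l, a 0 l * a l 0 = a 0 0
      rw [Fin.sum_univ_two, if_pos rfl, a00, a01, a10]
      linear_combination ((h : ℂ) ^ 2 * β * β' * ((c : ℂ) ^ 2 + (s : ℂ) ^ 2 + 1)) * hcs'
        + (h : ℂ) ^ 2 * hβ + (β + β') * hh'
    · show (if (0 : Fin 2) = 0 then a 0 1 else 0) + (if (1 : Fin 2) = 0 then a 0 1 else 0)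
        + ∑ l, a 0 l * a l 1 = a 0 1
      rw [Fin.sum_univ_two, if_pos rfl, if_neg (by decide), a00, a01, a11]
      ring
    · show (if (1 : Fin 2) = 0 then a 1 0 else 0) + (if (0 : Fin 2) = 0 then a 1 0 else 0)
        + ∑ l, a 1 l * a l 0 = a 1 0
      rw [Fin.sum_univ_two, if_pos rfl, if_neg (by decide), a00, a10, a11]
      ring
    · show (if (1 : Fin 2) = 0 then a 1 1 else 0) + (if (1 : Fin 2) = 0 then a 1 1 else 0)
        + ∑ l, a 1 l * a l 1 = a 1 1
      rw [Fin.sum_univ_two, if_neg (by decide), a11, a01, a10]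
      linear_combination ((h : ℂ) ^ 2 * β * β' * ((c : ℂ) ^ 2 + (s : ℂ) ^ 2 + 1)) * hcs'
        + (h : ℂ) ^ 2 * hβ + (β + β') * hh'

end Claimed.Agent.R300
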