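/-
Row 300 / S0553 (INJ paper), UPPER ASSEMBLY package U1 (owner: helper240).
Abstract C*-algebra toolkit: Murray-von Neumann equivalence, spectral cutting of approximate
projections, close projections, chains and continuous paths.
-/
import Mathlib

set_option autoImplicit false
set_option linter.unusedSimpArgs false

namespace Claimed.Agent.R300

/-- Murray-von Neumann equivalence `p ~ q`: `w* w = p`, `w w* = q`. -/
def IuMvN {A : Type*} [Mul A] [Star A] (p q : A) : Prop :=
  ∃ w : A, star w * w = p ∧ w * star w = q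

/-- the cutting function: `0` on `t ≤ 1/4`, `1` on `t ≥ 3/4`. -/
noncomputable def iuCut (t : ℝ) : ℝ := max 0 (min 1 (2 * t - 1 / 2))

theorem iuCut_continuous : Continuous iuCut := by
  unfold iuCut; fun_prop

theorem iuCut_of_le {t : ℝ} (h : t ≤ 1 / 4) : iuCut t = 0 := by
  unfold iuCut
  rw [max_eq_left]
  exact (min_le_right _ _).trans (by linarith)

theorem iuCut_of_ge {t : ℝ} (h : 3 / 4 ≤ t) : iuCut t = 1 := by
  unfold iuCut
  rw [min_eq_left (by linarith), max_eq_right (by norm_num)]

/-- a real number with `|t^2 - t| ≤ 1/8` is close to `0` or to `1`. -/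
theorem iu_real_gap {t d : ℝ} (h : |t * t - t| ≤ d) (hd : d ≤ 1 / 8) :
    (t ≤ 1 / 4 ∧ |t| ≤ 2 * d) ∨ (3 / 4 ≤ t ∧ |1 - t| ≤ 2 * d) := by
  rw [abs_le] at h
  obtain ⟨h1, h2⟩ := h
  rcases le_total t (1 / 2) with ht | ht
  · left
    have h3 : t ≤ 1 / 4 := by nlinarith
    have h4 : -(1 / 4) ≤ t := by nlinarith
    refine ⟨h3, ?_⟩
    rw [abs_le]
    constructor <;> nlinarith
  · right
    have h3 : 3 / 4 ≤ t := by nlinarith
    have h4 : t ≤ 5 / 4 := by nlinarith
    refine ⟨h3, ?_⟩
    rw [abs_le]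
    constructor <;> nlinarith

/-! ### Algebraic properties of Murray-von Neumann equivalence -/

section star

theorem IuMvN.symm {A : Type*} [Mul A] [InvolutiveStar A] {p q : A} (h : IuMvN p q) :
    IuMvN q p := by
  obtain ⟨w, h1, h2⟩ := h
  exact ⟨star w, by simpa using h2, by simpa using h1⟩

theorem IuMvN.trans {A : Type*} [Semigroup A] [StarMul A] {p q r : A}
    (hp : IsIdempotentElem p) (hr : IsIdempotentElem r) (h1 : IuMvN p q) (h2 : IuMvN q r) :
    IuMvN p r := by
  obtain ⟨w1, a1, b1⟩ := h1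
  obtain ⟨w2, a2, b2⟩ := h2
  refine ⟨w2 * w1, ?_, ?_⟩
  · calc star (w2 * w1) * (w2 * w1) = star w1 * (star w2 * w2) * w1 := by
          rw [star_mul]; simp only [mul_assoc]
      _ = (star w1 * w1) * (star w1 * w1) := by rw [a2, ← b1]; simp only [mul_assoc]
      _ = p := by rw [a1, hp.eq]
  · calc w2 * w1 * star (w2 * w1) = w2 * (w1 * star w1) * star w2 := by
          rw [star_mul]; simp only [mul_assoc]
      _ = (w2 * star w2) * (w2 * star w2) := by rw [b1, ← a2]; simp only [mul_assoc]
      _ = r := by rw [b2, hr.eq]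

theorem IuMvN.refl {A : Type*} [Mul A] [Star A] {p : A} (hp : IsStarProjection p) :
    IuMvN p p :=
  ⟨p, by rw [hp.isSelfAdjoint.star_eq, hp.isIdempotentElem.eq],
    by rw [hp.isSelfAdjoint.star_eq, hp.isIdempotentElem.eq]⟩

theorem IuMvN.of_eq {A : Type*} [Mul A] [Star A] {p q : A} (hp : IsStarProjection p)
    (h : p = q) : IuMvN p q := h ▸ IuMvN.refl hp

/-- the implementing element can be chosen with `q w = w = w p`. -/
theorem IuMvN.exists_good {A : Type*} [Semigroup A] [StarMul A] {p q : A}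
    (hp : IsIdempotentElem p) (hq : IsIdempotentElem q) (h : IuMvN p q) :
    ∃ w : A, star w * w = p ∧ w * star w = q ∧ q * w = w ∧ w * p = w := by
  obtain ⟨w, a, b⟩ := h
  have hsp : star p = p := by rw [← a]; simp
  have e1 : w * p * star w = q := by
    calc w * p * star w = (w * star w) * (w * star w) := by rw [← a]; simp only [mul_assoc]
      _ = q := by rw [b, hq.eq]
  refine ⟨w * p, ?_, ?_, ?_, ?_⟩
  · calc star (w * p) * (w * p) = p * (star w * w) * p := by
          rw [star_mul, hsp]; simp only [mul_assoc]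
      _ = p := by rw [a, hp.eq, hp.eq]
  · calc w * p * star (w * p) = w * (p * p) * star w := by
          rw [star_mul, hsp]; simp only [mul_assoc]
      _ = q := by rw [hp.eq, e1]
  · calc q * (w * p) = w * ((star w * w) * p) := by rw [← b]; simp only [mul_assoc]
      _ = w * p := by rw [a, hp.eq]
  · rw [mul_assoc, hp.eq]

theorem IuMvN.add {A : Type*} [NonUnitalRing A] [StarRing A] {p p' q q' : A}
    (hp : IsIdempotentElem p) (hq : IsIdempotentElem q)
    (hp' : IsIdempotentElem p') (hq' : IsIdempotentElem q')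
    (hpp : p * p' = 0) (hqq : q * q' = 0)
    (h : IuMvN p q) (h' : IuMvN p' q') : IuMvN (p + p') (q + q') := by
  obtain ⟨w, a, b, c, d⟩ := h.exists_good hp hq
  obtain ⟨w', a', b', c', d'⟩ := h'.exists_good hp' hq'
  have hsp : star p = p := by rw [← a]; simp
  have hsq : star q = q := by rw [← b]; simp
  have hsp' : star p' = p' := by rw [← a']; simp
  have hsq' : star q' = q' := by rw [← b']; simp
  have hpp2 : p' * p = 0 := by
    have := congrArg star hpp
    rwa [star_mul, hsp, hsp', star_zero] at this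
  have hqq2 : q' * q = 0 := by
    have := congrArg star hqq
    rwa [star_mul, hsq, hsq', star_zero] at this
  have x1 : star w * w' = 0 := by
    calc star w * w' = star (q * w) * (q' * w') := by rw [c, c']
      _ = star w * (q * q') * w' := by rw [star_mul, hsq]; simp only [mul_assoc]
      _ = 0 := by rw [hqq]; simp
  have x2 : star w' * w = 0 := by
    calc star w' * w = star (q' * w') * (q * w) := by rw [c, c']
      _ = star w' * (q' * q) * w := by rw [star_mul, hsq']; simp only [mul_assoc]
      _ = 0 := by rw [hqq2]; simp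
  have x3 : w * star w' = 0 := by
    calc w * star w' = (w * p) * star (w' * p') := by rw [d, d']
      _ = w * (p * p') * star w' := by rw [star_mul, hsp']; simp only [mul_assoc]
      _ = 0 := by rw [hpp]; simp
  have x4 : w' * star w = 0 := by
    calc w' * star w = (w' * p') * star (w * p) := by rw [d, d']
      _ = w' * (p' * p) * star w := by rw [star_mul, hsp]; simp only [mul_assoc]
      _ = 0 := by rw [hpp2]; simp
  refine ⟨w + w', ?_, ?_⟩
  · rw [star_add, add_mul, mul_add, mul_add, a, a', x1, x2]; simp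
  · rw [star_add, add_mul, mul_add, mul_add, b, b', x3, x4]; simp

/-- conjugation by an isometry -/
theorem iuMvN_conj {A : Type*} [Monoid A] [StarMul A] {u p : A} (hu : star u * u = 1)
    (hp : IsStarProjection p) : IuMvN p (u * p * star u) := by
  refine ⟨u * p, ?_, ?_⟩
  · calc star (u * p) * (u * p) = p * (star u * u) * p := by
          rw [star_mul, hp.isSelfAdjoint.star_eq]; simp only [mul_assoc]
      _ = p := by rw [hu, mul_one, hp.isIdempotentElem.eq]
  · calc u * p * star (u * p) = u * (p * p) * star u := by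
          rw [star_mul, hp.isSelfAdjoint.star_eq]; simp only [mul_assoc]
      _ = u * p * star u := by rw [hp.isIdempotentElem.eq]

/-- a star homomorphism (as a plain function) preserves the equivalence -/
theorem IuMvN.map {A B : Type*} [Mul A] [Star A] [Mul B] [Star B] (f : A → B)
    (hmul : ∀ x y, f (x * y) = f x * f y) (hstar : ∀ x, f (star x) = star (f x)) {p q : A}
    (h : IuMvN p q) : IuMvN (f p) (f q) := by
  obtain ⟨w, a, b⟩ := h
  exact ⟨f w, by rw [← hstar, ← hmul, a], by rw [← hstar, ← hmul, b]⟩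

end star

section alg

variable {A : Type*} [CStarAlgebra A]

/-- spectral cutting of an approximate projection -/
noncomputable def iuPi (x : A) : A := cfc iuCut x

theorem iu_spec_defect {x : A} (hx : IsSelfAdjoint x) {t : ℝ} (ht : t ∈ spectrum ℝ x) :
    |t * t - t| ≤ ‖x * x - x‖ := by
  have h1 : x * x - x = cfc (fun s : ℝ => s * s - s) x := by
    rw [cfc_sub (fun s : ℝ => s * s) (fun s : ℝ => s) x, cfc_mul (fun s : ℝ => s) (fun s : ℝ => s) x,
      cfc_id' ℝ x]
  have h2 : t * t - t ∈ spectrum ℝ (x * x - x) := by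
    rw [h1, cfc_map_spectrum (fun s : ℝ => s * s - s) x]
    exact ⟨t, ht, rfl⟩
  rcases subsingleton_or_nontrivial A with hA | hA
  · simp [spectrum.of_subsingleton] at ht
  · simpa using spectrum.norm_le_norm_of_mem h2

theorem iuPi_isSelfAdjoint (x : A) : IsSelfAdjoint (iuPi x) := by
  unfold iuPi
  exact cfc_predicate _ _

theorem iuPi_isStarProjection {x : A} (hx : IsSelfAdjoint x) (hd : ‖x * x - x‖ ≤ 1 / 8) :
    IsStarProjection (iuPi x) := by
  refine ⟨?_, iuPi_isSelfAdjoint x⟩
  unfold IsIdempotentElem iuPi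
  rw [← cfc_mul iuCut iuCut x (iuCut_continuous.continuousOn) (iuCut_continuous.continuousOn)]
  refine cfc_congr fun t ht => ?_
  rcases iu_real_gap (iu_spec_defect hx ht) hd with ⟨h, -⟩ | ⟨h, -⟩
  · simp [iuCut_of_le h]
  · simp [iuCut_of_ge h]

theorem iuPi_norm_sub_le {x : A} (hx : IsSelfAdjoint x) (hd : ‖x * x - x‖ ≤ 1 / 8) :
    ‖iuPi x - x‖ ≤ 2 * ‖x * x - x‖ := by
  have h1 : iuPi x - x = cfc (fun s : ℝ => iuCut s - s) x := by
    rw [cfc_sub iuCut (fun s : ℝ => s) x (iuCut_continuous.continuousOn), cfc_id' ℝ x, iuPi]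
  rw [h1]
  refine norm_cfc_le (by positivity) fun t ht => ?_
  rw [Real.norm_eq_abs]
  rcases iu_real_gap (iu_spec_defect hx ht) hd with ⟨h, h'⟩ | ⟨h, h'⟩
  · rw [iuCut_of_le h]; simpa using h'
  · rw [iuCut_of_ge h]; exact h'

theorem iuPi_of_proj {p : A} (hp : IsStarProjection p) : iuPi p = p := by
  have h0 : p * p - p = 0 := by rw [hp.isIdempotentElem.eq, sub_self]
  have h := iuPi_norm_sub_le hp.isSelfAdjoint (by rw [h0]; norm_num)
  rw [h0, norm_zero, mul_zero] at h
  exact sub_eq_zero.1 (norm_le_zero_iff.1 h)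

/-! ### Close projections -/

theorem iuMvN_of_norm_sub_lt_one {p q : A} (hp : IsStarProjection p) (hq : IsStarProjection q)
    (h : ‖p - q‖ < 1) : IuMvN p q := by
  have hpp := hp.isIdempotentElem.eq
  have hqq := hq.isIdempotentElem.eq
  have hpp' : ∀ x, p * (p * x) = p * x := fun x => by rw [← mul_assoc, hpp]
  have hqq' : ∀ x, q * (q * x) = q * x := fun x => by rw [← mul_assoc, hqq]
  set c : A := (p - q) * (p - q) with hc
  have hd : IsSelfAdjoint (p - q) := hp.isSelfAdjoint.sub hq.isSelfAdjoint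
  have hcsa : IsSelfAdjoint c := by
    unfold IsSelfAdjoint
    rw [hc, star_mul, hd.star_eq]
  have hcn : ‖c‖ < 1 := by
    calc ‖c‖ ≤ ‖p - q‖ * ‖p - q‖ := norm_mul_le _ _
      _ < 1 := by nlinarith [norm_nonneg (p - q)]
  have e1 : c * p = p - p * q * p := by
    simp only [hc, sub_mul, mul_sub, mul_assoc, hpp, hqq, hpp', hqq']; abel
  have e2 : p * c = p - p * q * p := by
    simp only [hc, sub_mul, mul_sub, mul_assoc, hpp, hqq, hpp', hqq']; abel
  have e3 : c * q = q - q * p * q := by
    simp only [hc, sub_mul, mul_sub, mul_assoc, hpp, hqq, hpp', hqq']; abel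
  have e4 : q * c = q - q * p * q := by
    simp only [hc, sub_mul, mul_sub, mul_assoc, hpp, hqq, hpp', hqq']; abel
  have hcp : Commute c p := e1.trans e2.symm
  have hcq : Commute c q := e3.trans e4.symm
  have hspec : ∀ t ∈ spectrum ℝ c, 0 < 1 - t := by
    intro t ht
    rcases subsingleton_or_nontrivial A with hA | hA
    · simp [spectrum.of_subsingleton] at ht
    · have := spectrum.norm_le_norm_of_mem ht
      rw [Real.norm_eq_abs] at this
      have := le_abs_self t
      linarith
  set f : ℝ → ℝ := fun t => (Real.sqrt (1 - t))⁻¹ with hf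
  have hfc : ContinuousOn f (spectrum ℝ c) := by
    refine ContinuousOn.inv₀ (by fun_prop) fun t ht => ?_
    exact (Real.sqrt_pos.2 (hspec t ht)).ne'
  set r : A := cfc f c with hr
  have hrsa : IsSelfAdjoint r := cfc_predicate _ _
  have hrp : Commute r p := hcp.cfc_real f
  have hrq : Commute r q := hcq.cfc_real f
  set y : A := 1 - c with hy
  have hy' : y = cfc (fun t : ℝ => 1 - t) c := by
    rw [cfc_sub (fun _ : ℝ => (1 : ℝ)) (fun t : ℝ => t) c, cfc_const_one ℝ c, cfc_id' ℝ c]
  have hrry : r * r * y = 1 := by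
    rw [hy', hr, ← cfc_mul f f c hfc hfc, ← cfc_mul (fun t => f t * f t) (fun t : ℝ => 1 - t) c
      (hfc.mul hfc) (by fun_prop), ← cfc_const_one ℝ c]
    refine cfc_congr fun t ht => ?_
    have h0 := hspec t ht
    have h1 : Real.sqrt (1 - t) * Real.sqrt (1 - t) = 1 - t := Real.mul_self_sqrt h0.le
    have h2 : Real.sqrt (1 - t) ≠ 0 := (Real.sqrt_pos.2 h0).ne'
    simp only [hf]
    field_simp
    nlinarith
  have hpqp : p * q * p = y * p := by rw [hy, sub_mul, one_mul, e1]; abel
  have hqpq : q * p * q = y * q := by rw [hy, sub_mul, one_mul, e3]; abel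
  have hyr : Commute r y := by
    have : Commute r c := (Commute.refl c).cfc_real f
    exact (Commute.one_right r).sub_right this
  refine ⟨q * p * r, ?_, ?_⟩
  · calc star (q * p * r) * (q * p * r) = r * (p * (q * q) * p) * r := by
          rw [star_mul, star_mul, hrsa.star_eq, hp.isSelfAdjoint.star_eq, hq.isSelfAdjoint.star_eq]
          simp only [mul_assoc]
      _ = r * y * (p * r) := by rw [hqq, hpqp]; simp only [mul_assoc]
      _ = r * y * (r * p) := by rw [hrp.eq]
      _ = r * (y * r) * p := by simp only [mul_assoc]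
      _ = r * r * y * p := by rw [← hyr.eq]; simp only [mul_assoc]
      _ = p := by rw [hrry, one_mul]
  · calc q * p * r * star (q * p * r) = q * (p * r) * (r * p) * q := by
          rw [star_mul, star_mul, hrsa.star_eq, hp.isSelfAdjoint.star_eq, hq.isSelfAdjoint.star_eq]
          simp only [mul_assoc]
      _ = q * (r * p) * (p * r) * q := by rw [hrp.eq]
      _ = q * r * (p * p) * (r * q) := by simp only [mul_assoc]
      _ = q * r * p * (q * r) := by rw [hpp, hrq.eq]
      _ = q * (r * p) * q * r := by simp only [mul_assoc]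
      _ = q * (p * r) * q * r := by rw [hrp.eq]
      _ = q * p * (r * q) * r := by simp only [mul_assoc]
      _ = q * p * (q * r) * r := by rw [hrq.eq]
      _ = (q * p * q) * r * r := by simp only [mul_assoc]
      _ = y * (q * r) * r := by rw [hqpq]; simp only [mul_assoc]
      _ = y * (r * q) * r := by rw [hrq.eq]
      _ = (y * r) * (q * r) := by simp only [mul_assoc]
      _ = (r * y) * (r * q) := by rw [hrq.eq, hyr.eq]
      _ = r * (y * r) * q := by simp only [mul_assoc]
      _ = r * r * y * q := by rw [← hyr.eq]; simp only [mul_assoc]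
      _ = q := by rw [hrry, one_mul]

/-- an approximate projection close to a projection -/
theorem iuMvN_pi_of_close {x q : A} (hx : IsSelfAdjoint x) (hd : ‖x * x - x‖ ≤ 1 / 100)
    (hq : IsStarProjection q) (h : ‖x - q‖ ≤ 1 / 2) : IuMvN (iuPi x) q := by
  refine iuMvN_of_norm_sub_lt_one (iuPi_isStarProjection hx (by linarith)) hq ?_
  have h1 := iuPi_norm_sub_le hx (by linarith)
  calc ‖iuPi x - q‖ = ‖(iuPi x - x) + (x - q)‖ := by congr 1; abel
    _ ≤ ‖iuPi x - x‖ + ‖x - q‖ := norm_add_le _ _
    _ < 1 := by linarith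

/-- two close approximate projections -/
theorem iuMvN_pi_pi {x y : A} (hx : IsSelfAdjoint x) (hdx : ‖x * x - x‖ ≤ 1 / 100)
    (hy : IsSelfAdjoint y) (hdy : ‖y * y - y‖ ≤ 1 / 100) (h : ‖x - y‖ ≤ 1 / 2) :
    IuMvN (iuPi x) (iuPi y) := by
  refine iuMvN_of_norm_sub_lt_one (iuPi_isStarProjection hx (by linarith))
    (iuPi_isStarProjection hy (by linarith)) ?_
  have h1 := iuPi_norm_sub_le hx (by linarith)
  have h2 := iuPi_norm_sub_le hy (by linarith)
  calc ‖iuPi x - iuPi y‖ = ‖(iuPi x - x) + (x - y) - (iuPi y - y)‖ := by congr 1; abel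
    _ ≤ ‖iuPi x - x‖ + ‖x - y‖ + ‖iuPi y - y‖ :=
        (norm_sub_le _ _).trans (add_le_add_left (norm_add_le _ _) _)
    _ < 1 := by linarith

/-- the class of approximate projections used in chains and paths -/
def IuAP (x : A) : Prop := IsSelfAdjoint x ∧ ‖x * x - x‖ ≤ 1 / 100

theorem IuAP.proj {x : A} (h : IuAP x) : IsStarProjection (iuPi x) :=
  iuPi_isStarProjection h.1 (h.2.trans (by norm_num))

theorem IuAP.of_proj {p : A} (hp : IsStarProjection p) : IuAP p :=
  ⟨hp.isSelfAdjoint, by rw [hp.isIdempotentElem.eq, sub_self, norm_zero]; norm_num⟩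

theorem IuAP.norm_sub_le {x : A} (h : IuAP x) : ‖iuPi x - x‖ ≤ 2 * ‖x * x - x‖ :=
  iuPi_norm_sub_le h.1 (h.2.trans (by norm_num))

theorem IuAP.step {x y : A} (hx : IuAP x) (hy : IuAP y) (h : ‖x - y‖ ≤ 1 / 2) :
    IuMvN (iuPi x) (iuPi y) := iuMvN_pi_pi hx.1 hx.2 hy.1 hy.2 h

theorem IuAP.close {x q : A} (hx : IuAP x) (hq : IsStarProjection q) (h : ‖x - q‖ ≤ 1 / 2) :
    IuMvN (iuPi x) q := iuMvN_pi_of_close hx.1 hx.2 hq h

/-- **K4**: finite chains. -/
theorem iuMvN_chain (x : ℕ → A) (N : ℕ) (hx : ∀ i ≤ N, IuAP (x i))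
    (hs : ∀ i < N, ‖x i - x (i + 1)‖ ≤ 1 / 2) : IuMvN (iuPi (x 0)) (iuPi (x N)) := by
  induction N with
  | zero => exact IuMvN.refl (hx 0 le_rfl).proj
  | succ N ih =>
    have h1 := ih (fun i hi => hx i (by omega)) (fun i hi => hs i (by omega))
    have h2 := (hx N (by omega)).step (hx (N + 1) le_rfl) (hs N (by omega))
    exact h1.trans (hx 0 (by omega)).proj.isIdempotentElem
      (hx (N + 1) le_rfl).proj.isIdempotentElem h2

/-- **K5**: continuous families over a preconnected set. -/
theorem iuMvN_path_on {X : Type*} [TopologicalSpace X] {S : Set X} (hS : IsPreconnected S)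
    (x : X → A) (hc : ContinuousOn x S) (hx : ∀ s ∈ S, IuAP (x s)) {s t : X} (hs : s ∈ S)
    (ht : t ∈ S) : IuMvN (iuPi (x s)) (iuPi (x t)) := by
  refine hS.induction₂ (fun a b => IuMvN (iuPi (x a)) (iuPi (x b))) ?_ ?_ ?_ hs ht
  · intro a ha
    have h1 : ∀ᶠ b in nhdsWithin a S, dist (x b) (x a) < 1 / 2 :=
      (hc a ha).eventually (Metric.ball_mem_nhds _ (by norm_num))
    filter_upwards [h1, self_mem_nhdsWithin] with b hb hbS
    refine (hx a ha).step (hx b hbS) ?_
    rw [← dist_eq_norm, dist_comm]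
    exact hb.le
  · intro a b c ha _ hc' h1 h2
    exact h1.trans (hx a ha).proj.isIdempotentElem (hx c hc').proj.isIdempotentElem h2
  · intro a b _ _ h
    exact h.symm

/-- **K5**: continuous families over a preconnected space. -/
theorem iuMvN_path {X : Type*} [TopologicalSpace X] [PreconnectedSpace X]
    (x : X → A) (hc : Continuous x) (hx : ∀ s, IuAP (x s)) (s t : X) :
    IuMvN (iuPi (x s)) (iuPi (x t)) :=
  iuMvN_path_on isPreconnected_univ x hc.continuousOn (fun s _ => hx s) (Set.mem_univ s)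
    (Set.mem_univ t)

end alg

end Claimed.Agent.R300
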