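/-
Row 300 / S0553 (INJ paper), UPPER ASSEMBLY package U1 (owner: helper240).
Matrices over a C*-algebra: entrywise norm bound (K6), matrix units with coefficients.
-/
import Mathlib
import Claimed.Agent.R300.IuKBasic

set_option autoImplicit false
set_option linter.unusedSectionVars false

namespace Claimed.Agent.R300

open scoped CStarAlgebra

section K6

variable {m n B : Type*} [Fintype m] [Fintype n]
  [NonUnitalCStarAlgebra B] [PartialOrder B] [StarOrderedRing B]

open CStarMatrix WithCStarModule in
/-- **K6**: the C*-norm of a matrix is at most the sum of the norms of the entries. -/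
theorem iuK_norm_le_sum (M : CStarMatrix m n B) : ‖M‖ ≤ ∑ j, ∑ i, ‖M i j‖ := by
  rw [CStarMatrix.norm_def]
  refine (toCLM M).opNorm_le_bound (by positivity) fun v => ?_
  simp only [toCLM_apply_eq_sum, Finset.sum_mul]
  apply pi_norm_le_sum_norm _ |>.trans
  gcongr with i _
  apply norm_sum_le _ _ |>.trans
  gcongr with j _
  apply norm_mul_le _ _ |>.trans
  rw [mul_comm]
  gcongr
  exact norm_apply_le_norm v j

/-- entrywise bound -/
theorem iuK_norm_le_card (M : CStarMatrix m n B) {c : ℝ} (h : ∀ i j, ‖M i j‖ ≤ c) :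
    ‖M‖ ≤ Fintype.card n * Fintype.card m * c := by
  refine (iuK_norm_le_sum M).trans ?_
  calc ∑ j, ∑ i, ‖M i j‖ ≤ ∑ _j : n, ∑ _i : m, c := by
        gcongr with j _ i _
        exact h i j
    _ = Fintype.card n * Fintype.card m * c := by simp [mul_assoc]

end K6

section units

variable {n B : Type*} [Fintype n] [DecidableEq n]
  [CStarAlgebra B] [PartialOrder B] [StarOrderedRing B]

/-- the matrix with the single entry `b` at `(i,j)` -/
def iuKE (i j : n) (b : B) : CStarMatrix n n B := CStarMatrix.ofMatrix (Matrix.single i j b)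

theorem iuKE_apply (i j : n) (b : B) (k l : n) :
    iuKE i j b k l = if i = k ∧ j = l then b else 0 := by
  simp [iuKE, CStarMatrix.ofMatrix_apply, Matrix.single_apply]

theorem iuKE_mul (i j k l : n) (b b' : B) :
    iuKE i j b * iuKE k l b' = if j = k then iuKE i l (b * b') else 0 := by
  change CStarMatrix.ofMatrix (Matrix.single i j b * Matrix.single k l b') = _
  split_ifs with h
  · subst h
    rw [Matrix.single_mul_single_same]; rfl
  · rw [Matrix.single_mul_single_of_ne _ _ _ _ h]; rfl

@[simp] theorem iuKE_mul_same (i j l : n) (b b' : B) :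
    iuKE i j b * iuKE j l b' = iuKE i l (b * b') := by simp [iuKE_mul]

theorem iuKE_mul_ne {j k : n} (h : j ≠ k) (i l : n) (b b' : B) :
    iuKE i j b * iuKE k l b' = 0 := by simp [iuKE_mul, h]

@[simp] theorem iuKE_star (i j : n) (b : B) : star (iuKE i j b) = iuKE j i (star b) := by
  change CStarMatrix.ofMatrix (Matrix.conjTranspose (Matrix.single i j b)) = _
  rw [Matrix.conjTranspose_single]; rfl

@[simp] theorem iuKE_zero (i j : n) : iuKE i j (0 : B) = 0 := by
  change CStarMatrix.ofMatrix (Matrix.single i j (0 : B)) = _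
  rw [Matrix.single_zero]; rfl

theorem iuKE_add (i j : n) (b b' : B) : iuKE i j (b + b') = iuKE i j b + iuKE i j b' := by
  change CStarMatrix.ofMatrix (Matrix.single i j (b + b')) = _
  rw [Matrix.single_add]; rfl

theorem iuKE_neg (i j : n) (b : B) : iuKE i j (-b) = -iuKE i j b := by
  have h := iuKE_add i j b (-b)
  rw [add_neg_cancel, iuKE_zero] at h
  exact (neg_eq_of_add_eq_zero_right h.symm).symm

theorem iuKE_sub (i j : n) (b b' : B) : iuKE i j (b - b') = iuKE i j b - iuKE i j b' := by
  rw [sub_eq_add_neg, iuKE_add, iuKE_neg, sub_eq_add_neg]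

theorem iuKE_smul (c : ℂ) (i j : n) (b : B) : iuKE i j (c • b) = c • iuKE i j b := by
  change CStarMatrix.ofMatrix (Matrix.single i j (c • b)) = _
  rw [← Matrix.smul_single]; rfl

theorem iuKE_norm_le (i j : n) (b : B) : ‖iuKE i j b‖ ≤ ‖b‖ := by
  refine (iuK_norm_le_sum _).trans ?_
  rw [Finset.sum_eq_single j, Finset.sum_eq_single i]
  · simp [iuKE_apply]
  · intro k _ hk
    simp [iuKE_apply, Ne.symm hk]
  · simp
  · intro l _ hl
    refine Finset.sum_eq_zero fun k _ => ?_
    simp [iuKE_apply, Ne.symm hl]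
  · simp

theorem iuK_sum_apply {ι : Type*} (s : Finset ι) (f : ι → CStarMatrix n n B) (k l : n) :
    (∑ i ∈ s, f i) k l = ∑ i ∈ s, f i k l := by
  classical
  induction s using Finset.induction_on with
  | empty => simp
  | insert a s ha ih => rw [Finset.sum_insert ha, Finset.sum_insert ha, CStarMatrix.add_apply, ih]

theorem iuKE_one_sum : (1 : CStarMatrix n n B) = ∑ i, iuKE i i (1 : B) := by
  ext k l
  rw [iuK_sum_apply]
  simp only [iuKE_apply, CStarMatrix.one_apply]
  by_cases h : k = l
  · subst h
    simp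
  · rw [if_neg h]
    symm
    refine Finset.sum_eq_zero fun i _ => ?_
    rw [if_neg]
    rintro ⟨rfl, rfl⟩
    exact h rfl

theorem iuKE_isSelfAdjoint (i : n) {b : B} (hb : IsSelfAdjoint b) : IsSelfAdjoint (iuKE i i b) := by
  unfold IsSelfAdjoint
  rw [iuKE_star, hb.star_eq]

theorem iuKE_isStarProjection (i : n) {b : B} (hb : IsStarProjection b) :
    IsStarProjection (iuKE i i b) :=
  ⟨by unfold IsIdempotentElem; rw [iuKE_mul_same, hb.isIdempotentElem.eq],
    iuKE_isSelfAdjoint i hb.isSelfAdjoint⟩

theorem iuKE_mvn (i : n) {p q : B} (h : IuMvN p q) : IuMvN (iuKE i i p) (iuKE i i q) := by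
  obtain ⟨w, a, b⟩ := h
  exact ⟨iuKE i i w, by rw [iuKE_star, iuKE_mul_same, a], by rw [iuKE_star, iuKE_mul_same, b]⟩

end units

end Claimed.Agent.R300
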