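/-
Row 300 / S0553 (INJ paper), UPPER ASSEMBLY, abstract half of U4/U5 (owner: helper240).
The Loring-Bott matrix `iuBott u v` in an arbitrary unital C*-algebra: it is the frozen
`bottProjection`, commutes with star homomorphisms, is a projection for commuting unitaries,
is norm continuous in `(u,v)` and hence homotopy invariant up to Murray-von Neumann equivalence.
-/
import Mathlib
import Claimed.Prelude.Def_0481
import Claimed.Agent.R300.IuKBasic
import Claimed.Agent.R300.IuKMat

set_option autoImplicit false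
set_option linter.unusedSimpArgs false
set_option linter.unusedSectionVars false
set_option linter.unnecessarySeqFocus false

namespace Claimed.Agent.R300

open scoped CStarAlgebra

section defs

variable {𝔄 : Type*} [CStarAlgebra 𝔄]

/-- `f = (2 + u + u*)/4` -/
noncomputable def iuBf (u : 𝔄) : 𝔄 := (1 / 4 : ℂ) • ((2 : ℂ) • (1 : 𝔄) + u + star u)
/-- `y = (u - u*)/(2i)` -/
noncomputable def iuBy (u : 𝔄) : 𝔄 := (-Complex.I / 2) • (u - star u)
/-- `g = y₊/2` -/
noncomputable def iuBg (u : 𝔄) : 𝔄 := (1 / 2 : ℂ) • cfc (fun t : ℝ => max t 0) (iuBy u)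
/-- `h = y₋/2` -/
noncomputable def iuBh (u : 𝔄) : 𝔄 := (1 / 2 : ℂ) • cfc (fun t : ℝ => max (-t) 0) (iuBy u)

/-- the Loring-Bott matrix -/
noncomputable def iuBott (u v : 𝔄) : Matrix (Fin 2) (Fin 2) 𝔄 :=
  Matrix.of ![![iuBf u, iuBg u + iuBh u * v], ![iuBg u + star v * iuBh u, 1 - iuBf u]]

theorem iuBott_eq_frozen {E : Type*} [NormedAddCommGroup E] [InnerProductSpace ℂ E]
    [CompleteSpace E] (u v : E →L[ℂ] E) : Claims.C0481.bottProjection u v = iuBott u v := rfl

theorem iuBy_isSelfAdjoint (u : 𝔄) : IsSelfAdjoint (iuBy u) := by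
  unfold IsSelfAdjoint iuBy
  rw [star_smul, star_sub, star_star]
  have : star (-Complex.I / 2) = Complex.I / 2 := by
    simp [Complex.star_def, map_div₀]
  rw [this, ← neg_sub, smul_neg, ← neg_smul]
  congr 1
  ring

theorem iuBf_isSelfAdjoint (u : 𝔄) : IsSelfAdjoint (iuBf u) := by
  unfold IsSelfAdjoint iuBf
  rw [star_smul, star_add, star_add, star_star, star_smul, star_one]
  have h1 : star (1 / 4 : ℂ) = 1 / 4 := by simp [Complex.star_def, map_div₀]
  have h2 : star (2 : ℂ) = 2 := by simp [Complex.star_def]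
  rw [h1, h2]
  congr 1
  abel

theorem iuBg_isSelfAdjoint (u : 𝔄) : IsSelfAdjoint (iuBg u) := by
  unfold IsSelfAdjoint iuBg
  have h1 : star (1 / 2 : ℂ) = 1 / 2 := by simp [Complex.star_def, map_div₀]
  have h2 : IsSelfAdjoint (cfc (fun t : ℝ => max t 0) (iuBy u)) := cfc_predicate _ _
  rw [star_smul, h1, h2.star_eq]

theorem iuBh_isSelfAdjoint (u : 𝔄) : IsSelfAdjoint (iuBh u) := by
  unfold IsSelfAdjoint iuBh
  have h1 : star (1 / 2 : ℂ) = 1 / 2 := by simp [Complex.star_def, map_div₀]
  have h2 : IsSelfAdjoint (cfc (fun t : ℝ => max (-t) 0) (iuBy u)) := cfc_predicate _ _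
  rw [star_smul, h1, h2.star_eq]

end defs

section map

variable {𝔄 𝔅 : Type*} [CStarAlgebra 𝔄] [CStarAlgebra 𝔅]

theorem iuBf_map (π : 𝔄 →⋆ₐ[ℂ] 𝔅) (u : 𝔄) : π (iuBf u) = iuBf (π u) := by
  simp [iuBf, map_smul, map_add, map_star]

theorem iuBy_map (π : 𝔄 →⋆ₐ[ℂ] 𝔅) (u : 𝔄) : π (iuBy u) = iuBy (π u) := by
  simp [iuBy, map_smul, map_sub, map_star]

theorem iuBg_map (π : 𝔄 →⋆ₐ[ℂ] 𝔅) (u : 𝔄) : π (iuBg u) = iuBg (π u) := by
  have hy := iuBy_isSelfAdjoint u
  have hy' := iuBy_isSelfAdjoint (π u)
  unfold iuBg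
  rw [map_smul, π.map_cfc (fun t : ℝ => max t 0) (iuBy u) (by fun_prop) (map_continuous π) hy
    (by rw [iuBy_map]; exact hy'), iuBy_map]

theorem iuBh_map (π : 𝔄 →⋆ₐ[ℂ] 𝔅) (u : 𝔄) : π (iuBh u) = iuBh (π u) := by
  have hy := iuBy_isSelfAdjoint u
  have hy' := iuBy_isSelfAdjoint (π u)
  unfold iuBh
  rw [map_smul, π.map_cfc (fun t : ℝ => max (-t) 0) (iuBy u) (by fun_prop) (map_continuous π) hy
    (by rw [iuBy_map]; exact hy'), iuBy_map]

/-- the Bott matrix commutes with star homomorphisms -/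
theorem iuBott_map (π : 𝔄 →⋆ₐ[ℂ] 𝔅) (u v : 𝔄) :
    (iuBott u v).map π = iuBott (π u) (π v) := by
  ext i j
  fin_cases i <;> fin_cases j <;>
    simp [iuBott, iuBf_map, iuBg_map, iuBh_map, map_add, map_mul, map_sub, map_star]

end map

section proj

theorem iu_bott_alg {R : Type*} [Ring R] {f g h v w : R}
    (fg : Commute f g) (fh : Commute f h) (fv : Commute f v) (fw : Commute f w)
    (gv : Commute g v) (gw : Commute g w) (hw : Commute h w)
    (vw : v * w = 1) (wv : w * v = 1) (gh : g * h = 0) (hg : h * g = 0)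
    (rel : g * g + h * h = f - f * f) :
    (Matrix.of ![![f, g + h * v], ![g + w * h, 1 - f]] : Matrix (Fin 2) (Fin 2) R)
        * Matrix.of ![![f, g + h * v], ![g + w * h, 1 - f]]
      = Matrix.of ![![f, g + h * v], ![g + w * h, 1 - f]] := by
  have e1 : g * (w * h) = 0 := by rw [← mul_assoc, gw.eq, mul_assoc, gh, mul_zero]
  have e2 : h * v * g = 0 := by rw [mul_assoc, ← gv.eq, ← mul_assoc, hg, zero_mul]
  have e3 : h * v * (w * h) = h * h := by rw [mul_assoc, ← mul_assoc v, vw, one_mul]
  have e4 : g * (h * v) = 0 := by rw [← mul_assoc, gh, zero_mul]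
  have e5 : w * h * g = 0 := by rw [mul_assoc, hg, mul_zero]
  have e6 : w * h * (h * v) = h * h := by
    rw [← hw.eq, mul_assoc, ← mul_assoc w, ← hw.eq, mul_assoc h w, wv, mul_one]
  have c1 : (g + h * v) * f = f * (g + h * v) := by
    rw [add_mul, mul_add, fg.eq, mul_assoc, ← fv.eq, ← mul_assoc, ← mul_assoc, fh.eq]
  have c2 : (g + w * h) * f = f * (g + w * h) := by
    rw [add_mul, mul_add, fg.eq, mul_assoc, ← fh.eq, ← mul_assoc, ← mul_assoc, fw.eq]
  ext i j
  fin_cases i <;> fin_cases j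
  · change (Matrix.of ![![f, g + h * v], ![g + w * h, 1 - f]] *
      Matrix.of ![![f, g + h * v], ![g + w * h, 1 - f]]) 0 0 = f
    rw [Matrix.mul_apply, Fin.sum_univ_two]
    change f * f + (g + h * v) * (g + w * h) = f
    calc f * f + (g + h * v) * (g + w * h)
        = f * f + (g * g + h * h) + (g * (w * h) + h * v * g) + (h * v * (w * h) - h * h) := by
          noncomm_ring
      _ = f := by rw [e1, e2, e3, rel]; abel
  · change (Matrix.of ![![f, g + h * v], ![g + w * h, 1 - f]] *
      Matrix.of ![![f, g + h * v], ![g + w * h, 1 - f]]) 0 1 = g + h * v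
    rw [Matrix.mul_apply, Fin.sum_univ_two]
    change f * (g + h * v) + (g + h * v) * (1 - f) = g + h * v
    rw [mul_sub, c1, mul_one]; abel
  · change (Matrix.of ![![f, g + h * v], ![g + w * h, 1 - f]] *
      Matrix.of ![![f, g + h * v], ![g + w * h, 1 - f]]) 1 0 = g + w * h
    rw [Matrix.mul_apply, Fin.sum_univ_two]
    change (g + w * h) * f + (1 - f) * (g + w * h) = g + w * h
    rw [sub_mul, c2, one_mul]; abel
  · change (Matrix.of ![![f, g + h * v], ![g + w * h, 1 - f]] *
      Matrix.of ![![f, g + h * v], ![g + w * h, 1 - f]]) 1 1 = 1 - f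
    rw [Matrix.mul_apply, Fin.sum_univ_two]
    change (g + w * h) * (g + h * v) + (1 - f) * (1 - f) = 1 - f
    calc (g + w * h) * (g + h * v) + (1 - f) * (1 - f)
        = (g * g + h * h) + (g * (h * v) + w * h * g) + (w * h * (h * v) - h * h)
          + (1 - f - f + f * f) := by noncomm_ring
      _ = 1 - f := by rw [e4, e5, e6, rel]; abel

variable {𝔄 : Type*} [CStarAlgebra 𝔄]

theorem iuBf_commute {c u : 𝔄} (h1 : Commute c u) (h2 : Commute c (star u)) :
    Commute c (iuBf u) := by
  unfold iuBf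
  exact ((((Commute.one_right c).smul_right _).add_right h1).add_right h2).smul_right _

theorem iuBy_commute {c u : 𝔄} (h1 : Commute c u) (h2 : Commute c (star u)) :
    Commute c (iuBy u) := by
  unfold iuBy
  exact (h1.sub_right h2).smul_right _

theorem iuBg_commute {c u : 𝔄} (h1 : Commute c u) (h2 : Commute c (star u)) :
    Commute c (iuBg u) := by
  unfold iuBg
  exact (((iuBy_commute h1 h2).symm.cfc_real _).symm).smul_right _

theorem iuBh_commute {c u : 𝔄} (h1 : Commute c u) (h2 : Commute c (star u)) :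
    Commute c (iuBh u) := by
  unfold iuBh
  exact (((iuBy_commute h1 h2).symm.cfc_real _).symm).smul_right _

theorem iuBg_mul_iuBh (u : 𝔄) : iuBg u * iuBh u = 0 := by
  have hy := iuBy_isSelfAdjoint u
  unfold iuBg iuBh
  rw [smul_mul_smul_comm, ← cfc_mul (fun t : ℝ => max t 0) (fun t : ℝ => max (-t) 0) (iuBy u)]
  have : cfc (fun t : ℝ => max t 0 * max (-t) 0) (iuBy u) = cfc (fun _ : ℝ => (0 : ℝ)) (iuBy u) := by
    refine cfc_congr fun t _ => ?_
    rcases le_total t 0 with h | h
    · simp [max_eq_right h]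
    · simp [max_eq_right (neg_nonpos.2 h)]
  rw [this, cfc_const_zero, smul_zero]

theorem iuBh_mul_iuBg (u : 𝔄) : iuBh u * iuBg u = 0 := by
  have := congrArg star (iuBg_mul_iuBh u)
  rwa [star_mul, (iuBg_isSelfAdjoint u).star_eq, (iuBh_isSelfAdjoint u).star_eq, star_zero] at this

theorem iuBg_sq_add_iuBh_sq (u : 𝔄) :
    iuBg u * iuBg u + iuBh u * iuBh u = (1 / 4 : ℂ) • (iuBy u * iuBy u) := by
  have hy := iuBy_isSelfAdjoint u
  unfold iuBg iuBh
  rw [smul_mul_smul_comm, smul_mul_smul_comm,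
    ← cfc_mul (fun t : ℝ => max t 0) (fun t : ℝ => max t 0) (iuBy u),
    ← cfc_mul (fun t : ℝ => max (-t) 0) (fun t : ℝ => max (-t) 0) (iuBy u), ← smul_add,
    ← cfc_add (a := iuBy u) (fun t : ℝ => max t 0 * max t 0)
      (fun t : ℝ => max (-t) 0 * max (-t) 0)]
  have : cfc (fun t : ℝ => max t 0 * max t 0 + max (-t) 0 * max (-t) 0) (iuBy u)
      = cfc (fun t : ℝ => t * t) (iuBy u) := by
    refine cfc_congr fun t _ => ?_
    rcases le_total t 0 with h | h
    · simp [max_eq_right h, max_eq_left (neg_nonneg.2 h)]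
    · simp [max_eq_right (neg_nonpos.2 h), max_eq_left h]
  rw [this, cfc_mul (fun t : ℝ => t) (fun t : ℝ => t) (iuBy u), cfc_id' ℝ (iuBy u)]
  norm_num

theorem iuBf_rel {u : 𝔄} (h1 : star u * u = 1) (h2 : u * star u = 1) :
    (1 / 4 : ℂ) • (iuBy u * iuBy u) = iuBf u - iuBf u * iuBf u := by
  have hI : (-Complex.I / 2) * (-Complex.I / 2) = (-1 / 4 : ℂ) := by
    have := Complex.I_mul_I
    linear_combination (1 / 4 : ℂ) * this
  unfold iuBy iuBf
  rw [smul_mul_smul_comm, smul_mul_smul_comm, hI]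
  have e1 : (u - star u) * (u - star u) = u * u + star u * star u - (2 : ℂ) • (1 : 𝔄) := by
    rw [sub_mul, mul_sub, mul_sub, h1, h2, two_smul]; abel
  have e2 : ((2 : ℂ) • (1 : 𝔄) + u + star u) * ((2 : ℂ) • (1 : 𝔄) + u + star u)
      = (6 : ℂ) • (1 : 𝔄) + (4 : ℂ) • u + (4 : ℂ) • star u + u * u + star u * star u := by
    simp only [add_mul, mul_add, smul_mul_assoc, mul_smul_comm, one_mul, mul_one, h1, h2, smul_smul]
    module
  rw [e1, e2]
  module

/-- the Bott matrix is always selfadjoint -/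
theorem iuBott_star (u v : 𝔄) : (iuBott u v).conjTranspose = iuBott u v := by
  ext i j
  rw [Matrix.conjTranspose_apply]
  fin_cases i <;> fin_cases j
  · exact (iuBf_isSelfAdjoint u).star_eq
  · change star (iuBg u + star v * iuBh u) = iuBg u + iuBh u * v
    rw [star_add, star_mul, star_star, (iuBg_isSelfAdjoint u).star_eq,
      (iuBh_isSelfAdjoint u).star_eq]
  · change star (iuBg u + iuBh u * v) = iuBg u + star v * iuBh u
    rw [star_add, star_mul, (iuBg_isSelfAdjoint u).star_eq, (iuBh_isSelfAdjoint u).star_eq]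
  · change star (1 - iuBf u) = 1 - iuBf u
    rw [star_sub, star_one, (iuBf_isSelfAdjoint u).star_eq]

/-- for commuting unitaries the Bott matrix is a projection -/
theorem iuBott_proj {u v : 𝔄} (hu1 : star u * u = 1) (hu2 : u * star u = 1)
    (hv1 : star v * v = 1) (hv2 : v * star v = 1) (huv : Commute u v) :
    iuBott u v * iuBott u v = iuBott u v ∧ (iuBott u v).conjTranspose = iuBott u v := by
  have hvu : Commute v u := huv.symm
  have hvu' : Commute v (star u) := by
    unfold Commute SemiconjBy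
    calc v * star u = (star u * u) * v * star u := by rw [hu1, one_mul]
      _ = star u * (u * v) * star u := by simp only [mul_assoc]
      _ = star u * (v * u) * star u := by rw [huv.eq]
      _ = star u * v * (u * star u) := by simp only [mul_assoc]
      _ = star u * v := by rw [hu2, mul_one]
  have hwu : Commute (star v) u := by
    have := hvu'.star_star
    rwa [star_star] at this
  have hwu' : Commute (star v) (star u) := hvu.star_star
  have huu : Commute u (star u) := hu2.trans hu1.symm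
  have hfu : Commute (iuBf u) u := (iuBf_commute (Commute.refl u) huu).symm
  have hfu' : Commute (iuBf u) (star u) := (iuBf_commute huu.symm (Commute.refl _)).symm
  constructor
  · exact iu_bott_alg (iuBg_commute hfu hfu') (iuBh_commute hfu hfu')
      (iuBf_commute hvu hvu').symm (iuBf_commute hwu hwu').symm
      (iuBg_commute hvu hvu').symm (iuBg_commute hwu hwu').symm (iuBh_commute hwu hwu').symm
      hv2 hv1 (iuBg_mul_iuBh u) (iuBh_mul_iuBg u)
      ((iuBg_sq_add_iuBh_sq u).trans (iuBf_rel hu1 hu2))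
  · ext i j
    rw [Matrix.conjTranspose_apply]
    fin_cases i <;> fin_cases j
    · exact (iuBf_isSelfAdjoint u).star_eq
    · change star (iuBg u + star v * iuBh u) = iuBg u + iuBh u * v
      rw [star_add, star_mul, star_star, (iuBg_isSelfAdjoint u).star_eq,
        (iuBh_isSelfAdjoint u).star_eq]
    · change star (iuBg u + iuBh u * v) = iuBg u + star v * iuBh u
      rw [star_add, star_mul, (iuBg_isSelfAdjoint u).star_eq, (iuBh_isSelfAdjoint u).star_eq]
    · change star (1 - iuBf u) = 1 - iuBf u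
      rw [star_sub, star_one, (iuBf_isSelfAdjoint u).star_eq]

end proj

section homotopy

variable {𝔄 : Type*} [CStarAlgebra 𝔄]

theorem iuBf_continuous {X : Type*} [TopologicalSpace X] {u : X → 𝔄} (hu : Continuous u) :
    Continuous fun s => iuBf (u s) := by
  unfold iuBf
  fun_prop

theorem iuBy_continuous {X : Type*} [TopologicalSpace X] {u : X → 𝔄} (hu : Continuous u) :
    Continuous fun s => iuBy (u s) := by
  unfold iuBy
  fun_prop

theorem iuBg_continuous {X : Type*} [TopologicalSpace X] {u : X → 𝔄} (hu : Continuous u) :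
    Continuous fun s => iuBg (u s) := by
  unfold iuBg
  refine Continuous.const_smul ?_ _
  exact Continuous.cfc_of_mem_nhdsSet (s := Set.univ) (fun t : ℝ => max t 0) Filter.univ_mem
    (iuBy_continuous hu) (fun x => iuBy_isSelfAdjoint (u x)) (by fun_prop)

theorem iuBh_continuous {X : Type*} [TopologicalSpace X] {u : X → 𝔄} (hu : Continuous u) :
    Continuous fun s => iuBh (u s) := by
  unfold iuBh
  refine Continuous.const_smul ?_ _
  exact Continuous.cfc_of_mem_nhdsSet (s := Set.univ) (fun t : ℝ => max (-t) 0) Filter.univ_mem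
    (iuBy_continuous hu) (fun x => iuBy_isSelfAdjoint (u x)) (by fun_prop)

variable [PartialOrder 𝔄] [StarOrderedRing 𝔄]

theorem iuBott_continuous {X : Type*} [TopologicalSpace X] {u v : X → 𝔄} (hu : Continuous u)
    (hv : Continuous v) : Continuous fun s => CStarMatrix.ofMatrix (iuBott (u s) (v s)) := by
  have h1 : Continuous fun s => iuBott (u s) (v s) := by
    refine continuous_matrix fun i j => ?_
    have hf := iuBf_continuous hu
    have hg := iuBg_continuous hu
    have hh := iuBh_continuous hu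
    fin_cases i <;> fin_cases j
    · exact hf
    · exact hg.add (hh.mul hv)
    · exact hg.add ((continuous_star.comp hv).mul hh)
    · exact continuous_const.sub hf
  exact (CStarMatrix.ofMatrixL (m := Fin 2) (n := Fin 2) (A := 𝔄)).continuous.comp h1

theorem iuBott_isStarProjection {u v : 𝔄} (hu1 : star u * u = 1) (hu2 : u * star u = 1)
    (hv1 : star v * v = 1) (hv2 : v * star v = 1) (huv : Commute u v) :
    IsStarProjection (CStarMatrix.ofMatrix (iuBott u v)) :=
  let h := iuBott_proj hu1 hu2 hv1 hv2 huv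
  ⟨h.1, h.2⟩

/-- **Homotopy invariance** of the Bott projection. -/
theorem iuBott_mvn_path {X : Type*} [TopologicalSpace X] [PreconnectedSpace X] {u v : X → 𝔄}
    (hu : Continuous u) (hv : Continuous v)
    (hu1 : ∀ s, star (u s) * u s = 1) (hu2 : ∀ s, u s * star (u s) = 1)
    (hv1 : ∀ s, star (v s) * v s = 1) (hv2 : ∀ s, v s * star (v s) = 1)
    (huv : ∀ s, Commute (u s) (v s)) (s t : X) :
    IuMvN (CStarMatrix.ofMatrix (iuBott (u s) (v s))) (CStarMatrix.ofMatrix (iuBott (u t) (v t))) := by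
  have hp : ∀ s, IsStarProjection (CStarMatrix.ofMatrix (iuBott (u s) (v s))) := fun s =>
    iuBott_isStarProjection (hu1 s) (hu2 s) (hv1 s) (hv2 s) (huv s)
  have := iuMvN_path (fun s => CStarMatrix.ofMatrix (iuBott (u s) (v s)))
    (iuBott_continuous hu hv) (fun s => IuAP.of_proj (hp s)) s t
  rwa [iuPi_of_proj (hp s), iuPi_of_proj (hp t)] at this

end homotopy

section plain

variable {𝔄 : Type*} [CStarAlgebra 𝔄]

/-- homotopy invariance, plain matrices, no order structure needed -/
theorem iuBott_mvn_path' {X : Type*} [TopologicalSpace X] [PreconnectedSpace X] {u v : X → 𝔄}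
    (hu : Continuous u) (hv : Continuous v)
    (hu1 : ∀ s, star (u s) * u s = 1) (hu2 : ∀ s, u s * star (u s) = 1)
    (hv1 : ∀ s, star (v s) * v s = 1) (hv2 : ∀ s, v s * star (v s) = 1)
    (huv : ∀ s, Commute (u s) (v s)) (s t : X) :
    IuMvN (iuBott (u s) (v s)) (iuBott (u t) (v t)) := by
  let _ := CStarAlgebra.spectralOrder 𝔄
  let _ := CStarAlgebra.spectralOrderedRing 𝔄
  exact iuBott_mvn_path hu hv hu1 hu2 hv1 hv2 huv s t

/-- entrywise application of a star homomorphism preserves the equivalence -/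
theorem IuMvN.matrix_map {𝔅 : Type*} [CStarAlgebra 𝔅] {n : Type*} [Fintype n]
    (π : 𝔄 →⋆ₐ[ℂ] 𝔅) {P Q : Matrix n n 𝔄} (h : IuMvN P Q) : IuMvN (P.map π) (Q.map π) := by
  refine h.map (fun M => M.map π) (fun M N => ?_) (fun M => ?_)
  · exact Matrix.map_mul
  · ext i j
    simp [Matrix.star_apply, map_star]

end plain

section scalar

theorem iuBy_complex (z : ℂ) : iuBy z = algebraMap ℝ ℂ z.im := by
  unfold iuBy
  apply Complex.ext
  · simp
    ring
  · simp

theorem iuBf_complex (z : ℂ) : iuBf z = (((1 + z.re) / 2 : ℝ) : ℂ) := by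
  unfold iuBf
  apply Complex.ext <;> simp <;> ring

theorem iuBg_complex (z : ℂ) : iuBg z = ((max z.im 0 / 2 : ℝ) : ℂ) := by
  unfold iuBg
  rw [iuBy_complex, cfc_algebraMap]
  apply Complex.ext <;> simp <;> ring

theorem iuBh_complex (z : ℂ) : iuBh z = ((max (-z.im) 0 / 2 : ℝ) : ℂ) := by
  unfold iuBh
  rw [iuBy_complex, cfc_algebraMap]
  apply Complex.ext <;> simp <;> ring

end scalar

section functions

variable {X : Type*} [TopologicalSpace X] [CompactSpace X]

theorem iuBf_apply (U : C(X, ℂ)) (x : X) : iuBf U x = (((1 + (U x).re) / 2 : ℝ) : ℂ) := by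
  have := iuBf_map (ContinuousMap.evalStarAlgHom ℂ ℂ x) U
  rw [ContinuousMap.evalStarAlgHom_apply, ContinuousMap.evalStarAlgHom_apply] at this
  rw [this, iuBf_complex]

theorem iuBg_apply (U : C(X, ℂ)) (x : X) : iuBg U x = ((max (U x).im 0 / 2 : ℝ) : ℂ) := by
  have := iuBg_map (ContinuousMap.evalStarAlgHom ℂ ℂ x) U
  rw [ContinuousMap.evalStarAlgHom_apply, ContinuousMap.evalStarAlgHom_apply] at this
  rw [this, iuBg_complex]

theorem iuBh_apply (U : C(X, ℂ)) (x : X) : iuBh U x = ((max (-(U x).im) 0 / 2 : ℝ) : ℂ) := by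
  have := iuBh_map (ContinuousMap.evalStarAlgHom ℂ ℂ x) U
  rw [ContinuousMap.evalStarAlgHom_apply, ContinuousMap.evalStarAlgHom_apply] at this
  rw [this, iuBh_complex]

theorem iu_unimod_star_mul {U : C(X, ℂ)} (h : ∀ x, ‖U x‖ = 1) : star U * U = 1 := by
  ext x
  simp only [ContinuousMap.mul_apply, ContinuousMap.star_apply, ContinuousMap.one_apply]
  rw [Complex.star_def, Complex.conj_mul', h x]
  simp

/-- homotopy invariance for unimodular functions: `F, G` jointly continuous on `ℝ × X`. -/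
theorem iuBott_mvn_fun (F G : C(ℝ × X, ℂ)) (hF : ∀ p, ‖F p‖ = 1) (hG : ∀ p, ‖G p‖ = 1)
    (s t : ℝ) :
    IuMvN (iuBott (F.curry s) (G.curry s)) (iuBott (F.curry t) (G.curry t)) := by
  have hF' : ∀ s, star (F.curry s) * F.curry s = 1 := fun s =>
    iu_unimod_star_mul fun x => hF (s, x)
  have hG' : ∀ s, star (G.curry s) * G.curry s = 1 := fun s =>
    iu_unimod_star_mul fun x => hG (s, x)
  exact iuBott_mvn_path' (u := fun s => F.curry s) (v := fun s => G.curry s)
    (map_continuous F.curry) (map_continuous G.curry) hF' (fun s => by rw [mul_comm]; exact hF' s)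
    hG' (fun s => by rw [mul_comm]; exact hG' s) (fun s => Commute.all _ _) s t

end functions

end Claimed.Agent.R300
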