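/-
Row 300 / S0553 (INJ paper), UPPER ASSEMBLY, package IU-BOTT (sub-captain: helper145; proofs: helper240).
The frozen `bottProjection` in an abstract C*-algebra (`iuBott`), naturality under star
homomorphisms, and its pointwise description in `C(X, ℂ)`.

`iuBott` (the formula of `Claims.C0481.bottProjection` in a C*-algebra) and `iuBott_map` are in
IuKBott.lean, together with `iuBott_proj`, `iuBott_star`, `iuBott_mvn_path'`, `iuBott_mvn_fun`.
-/
import Mathlib
import Claimed.Prelude.Def_0481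
import Claimed.Agent.R300.IuAlg
import Claimed.Agent.R300.IuKBott

set_option autoImplicit false
set_option linter.unnecessarySeqFocus false
set_option linter.unusedVariables false

namespace Claimed.Agent.R300

open Matrix
open scoped CStarAlgebra

theorem iuBott_eq {E : Type*} [NormedAddCommGroup E] [InnerProductSpace ℂ E] [CompleteSpace E]
    (u v : E →L[ℂ] E) : Claims.C0481.bottProjection u v = iuBott u v := rfl

/-- the real functional calculus of an abstract C*-algebra -/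
noncomputable def iuCfcR {A : Type*} [CStarAlgebra A] (φ : ℝ → ℝ) (a : A) : A := cfc φ a

theorem iuCfcR_map {A B : Type*} [CStarAlgebra A] [CStarAlgebra B] (π : A →⋆ₐ[ℂ] B) (φ : ℝ → ℝ)
    (hφ : Continuous φ) (a : A) (ha : IsSelfAdjoint a) : π (iuCfcR φ a) = iuCfcR φ (π a) := by
  unfold iuCfcR
  exact π.map_cfc φ a hφ.continuousOn (map_continuous π) ha (ha.map π)

theorem iuCfcR_complex (φ : ℝ → ℝ) (r : ℝ) : iuCfcR φ ((r : ℝ) : ℂ) = ((φ r : ℝ) : ℂ) :=
  cfc_algebraMap (A := ℂ) r φ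

section fn

variable {X : Type*} [TopologicalSpace X] [CompactSpace X]

/-- continuous functional calculus in `C(X, ℂ)` is composition.
(Stated through `iuCfcR` because the instance `ContinuousFunctionalCalculus ℝ C(X, ℂ) IsSelfAdjoint`
is only found through `CStarAlgebra C(X, ℂ)` for an abstract algebra: two `Algebra ℝ C(X, ℂ)`.) -/
theorem iu_cfc_apply (F : C(X, ℂ)) (hF : IsSelfAdjoint F) (φ : ℝ → ℝ) (hφ : Continuous φ) (p : X) :
    (iuCfcR φ F) p = ((φ (F p).re : ℝ) : ℂ) := by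
  have h := iuCfcR_map (ContinuousMap.evalStarAlgHom ℂ ℂ p) φ hφ F hF
  rw [ContinuousMap.evalStarAlgHom_apply, ContinuousMap.evalStarAlgHom_apply] at h
  have hp : F p = (((F p).re : ℝ) : ℂ) := by
    have h1 : star (F p) = F p := by
      have := congrArg (fun G : C(X, ℂ) => G p) hF.star_eq
      simpa using this
    exact (Complex.conj_eq_iff_real.1 h1).choose_spec ▸ by simp
  rw [h, hp, iuCfcR_complex]
  simp

/-- the Loring matrix of two complex numbers -/
noncomputable def iuLor (u v : ℂ) : Matrix (Fin 2) (Fin 2) ℂ :=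
  Matrix.of ![![(2 + u + star u) / 4, ((max u.im 0 : ℝ) : ℂ) / 2 + ((max (-u.im) 0 : ℝ) : ℂ) / 2 * v],
    ![((max u.im 0 : ℝ) : ℂ) / 2 + star v * (((max (-u.im) 0 : ℝ) : ℂ) / 2), 1 - (2 + u + star u) / 4]]

theorem iuLor_f (u : ℂ) : (2 + u + star u) / 4 = (((1 + u.re) / 2 : ℝ) : ℂ) := by
  apply Complex.ext <;> simp <;> ring

theorem iuLor_eq (u v : ℂ) : iuLor u v = iuBott u v := by
  ext i j
  fin_cases i <;> fin_cases j
  · change (2 + u + star u) / 4 = iuBf u
    rw [iuBf_complex, iuLor_f]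
  · change ((max u.im 0 : ℝ) : ℂ) / 2 + ((max (-u.im) 0 : ℝ) : ℂ) / 2 * v = iuBg u + iuBh u * v
    rw [iuBg_complex, iuBh_complex]
    push_cast
    ring
  · change ((max u.im 0 : ℝ) : ℂ) / 2 + star v * (((max (-u.im) 0 : ℝ) : ℂ) / 2)
      = iuBg u + star v * iuBh u
    rw [iuBg_complex, iuBh_complex]
    push_cast
    ring
  · change 1 - (2 + u + star u) / 4 = 1 - iuBf u
    rw [iuBf_complex, iuLor_f]

theorem iuBott_apply (U V : C(X, ℂ)) (p : X) (i j : Fin 2) :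
    iuBott U V i j p = iuLor (U p) (V p) i j := by
  have h := iuBott_map (ContinuousMap.evalStarAlgHom ℂ ℂ p) U V
  rw [ContinuousMap.evalStarAlgHom_apply, ContinuousMap.evalStarAlgHom_apply] at h
  rw [iuLor_eq, ← h]
  rfl

theorem iuLor_star (u v : ℂ) : (iuLor u v)ᴴ = iuLor u v := by
  rw [iuLor_eq]
  exact iuBott_star u v

theorem iu_star_mul_self_of_norm {u : ℂ} (hu : ‖u‖ = 1) : star u * u = 1 := by
  rw [Complex.star_def, Complex.conj_mul', hu]
  simp

theorem iuLor_mul_self {u v : ℂ} (hu : ‖u‖ = 1) (hv : ‖v‖ = 1) :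
    iuLor u v * iuLor u v = iuLor u v := by
  rw [iuLor_eq]
  have h1 := iu_star_mul_self_of_norm hu
  have h2 := iu_star_mul_self_of_norm hv
  exact (iuBott_proj h1 (by rw [mul_comm]; exact h1) h2 (by rw [mul_comm]; exact h2)
    (Commute.all _ _)).1

theorem iuLor_aux_f (u u' : ℂ) :
    ‖(2 + u + star u) / 4 - (2 + u' + star u') / 4‖ ≤ ‖u - u'‖ / 2 := by
  have : (2 + u + star u) / 4 - (2 + u' + star u') / 4 = ((u - u') + star (u - u')) / 4 := by
    rw [star_sub]; ring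
  rw [this, norm_div]
  have h1 : ‖(u - u') + star (u - u')‖ ≤ ‖u - u'‖ + ‖u - u'‖ := by
    refine (norm_add_le _ _).trans ?_
    rw [norm_star]
  have h2 : ‖(4 : ℂ)‖ = 4 := by simp
  rw [h2]
  linarith

theorem iuLor_aux_g (u u' : ℂ) :
    ‖((max u.im 0 : ℝ) : ℂ) / 2 - ((max u'.im 0 : ℝ) : ℂ) / 2‖ ≤ ‖u - u'‖ / 2 := by
  have : ((max u.im 0 : ℝ) : ℂ) / 2 - ((max u'.im 0 : ℝ) : ℂ) / 2
      = (((max u.im 0 - max u'.im 0) / 2 : ℝ) : ℂ) := by push_cast; ring
  rw [this, Complex.norm_real, Real.norm_eq_abs, abs_div, abs_two]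
  have h1 : |max u.im 0 - max u'.im 0| ≤ |u.im - u'.im| := abs_max_sub_max_le_abs _ _ _
  have h2 : |u.im - u'.im| ≤ ‖u - u'‖ := by
    rw [← Complex.sub_im]; exact Complex.abs_im_le_norm _
  linarith

theorem iuLor_aux_h (u u' : ℂ) :
    ‖((max (-u.im) 0 : ℝ) : ℂ) / 2 - ((max (-u'.im) 0 : ℝ) : ℂ) / 2‖ ≤ ‖u - u'‖ / 2 := by
  have : ((max (-u.im) 0 : ℝ) : ℂ) / 2 - ((max (-u'.im) 0 : ℝ) : ℂ) / 2
      = (((max (-u.im) 0 - max (-u'.im) 0) / 2 : ℝ) : ℂ) := by push_cast; ring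
  rw [this, Complex.norm_real, Real.norm_eq_abs, abs_div, abs_two]
  have h1 : |max (-u.im) 0 - max (-u'.im) 0| ≤ |(-u.im) - (-u'.im)| := abs_max_sub_max_le_abs _ _ _
  have h2 : |(-u.im) - (-u'.im)| ≤ ‖u - u'‖ := by
    have : (-u.im) - (-u'.im) = -(u - u').im := by rw [Complex.sub_im]; ring
    rw [this, abs_neg]; exact Complex.abs_im_le_norm _
  linarith

theorem iuLor_aux_h_norm {u : ℂ} (hu : ‖u‖ ≤ 1) : ‖((max (-u.im) 0 : ℝ) : ℂ) / 2‖ ≤ 1 / 2 := by
  have := iuLor_aux_h u 0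
  simp only [Complex.zero_im, neg_zero, max_self, Complex.ofReal_zero, zero_div, sub_zero] at this
  linarith

theorem iuLor_norm_sub_le {u v u' v' : ℂ} (hu : ‖u‖ ≤ 1) (hv : ‖v‖ ≤ 1) (hu' : ‖u'‖ ≤ 1)
    (hv' : ‖v'‖ ≤ 1) (i j : Fin 2) :
    ‖iuLor u v i j - iuLor u' v' i j‖ ≤ 2 * (‖u - u'‖ + ‖v - v'‖) := by
  have n1 := norm_nonneg (u - u')
  have n2 := norm_nonneg (v - v')
  have hf := iuLor_aux_f u u'
  have hg := iuLor_aux_g u u'
  have hh := iuLor_aux_h u u'
  have hh' := iuLor_aux_h_norm hu'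
  set g : ℂ := ((max u.im 0 : ℝ) : ℂ) / 2 with hgd
  set g' : ℂ := ((max u'.im 0 : ℝ) : ℂ) / 2 with hgd'
  set h : ℂ := ((max (-u.im) 0 : ℝ) : ℂ) / 2 with hhd
  set h' : ℂ := ((max (-u'.im) 0 : ℝ) : ℂ) / 2 with hhd'
  fin_cases i <;> fin_cases j
  · change ‖(2 + u + star u) / 4 - (2 + u' + star u') / 4‖ ≤ _
    linarith
  · change ‖(g + h * v) - (g' + h' * v')‖ ≤ _
    have e : (g + h * v) - (g' + h' * v') = (g - g') + (h - h') * v + h' * (v - v') := by ring
    rw [e]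
    have a1 : ‖(h - h') * v‖ ≤ ‖u - u'‖ / 2 * 1 := by
      rw [norm_mul]; exact mul_le_mul hh hv (norm_nonneg _) (by linarith)
    have a2 : ‖h' * (v - v')‖ ≤ 1 / 2 * ‖v - v'‖ := by
      rw [norm_mul]; exact mul_le_mul_of_nonneg_right hh' n2
    have a3 := norm_add_le ((g - g') + (h - h') * v) (h' * (v - v'))
    have a4 := norm_add_le (g - g') ((h - h') * v)
    linarith
  · change ‖(g + star v * h) - (g' + star v' * h')‖ ≤ _
    have e : (g + star v * h) - (g' + star v' * h')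
        = (g - g') + star v * (h - h') + star (v - v') * h' := by rw [star_sub]; ring
    rw [e]
    have a1 : ‖star v * (h - h')‖ ≤ 1 * (‖u - u'‖ / 2) := by
      rw [norm_mul, norm_star]; exact mul_le_mul hv hh (norm_nonneg _) (by norm_num)
    have a2 : ‖star (v - v') * h'‖ ≤ ‖v - v'‖ * (1 / 2) := by
      rw [norm_mul, norm_star]; exact mul_le_mul_of_nonneg_left hh' n2
    have a3 := norm_add_le ((g - g') + star v * (h - h')) (star (v - v') * h')
    have a4 := norm_add_le (g - g') (star v * (h - h'))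
    linarith
  · change ‖(1 - (2 + u + star u) / 4) - (1 - (2 + u' + star u') / 4)‖ ≤ _
    have e : (1 - (2 + u + star u) / 4) - (1 - (2 + u' + star u') / 4)
        = -((2 + u + star u) / 4 - (2 + u' + star u') / 4) := by ring
    rw [e, norm_neg]
    linarith

theorem iuBott_conjTranspose (U V : C(X, ℂ)) : (iuBott U V)ᴴ = iuBott U V := iuBott_star U V

theorem iuBott_mul_self {U V : C(X, ℂ)} (hU : ∀ p, ‖U p‖ = 1) (hV : ∀ p, ‖V p‖ = 1) :
    iuBott U V * iuBott U V = iuBott U V := by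
  have h1 := iu_unimod_star_mul hU
  have h2 := iu_unimod_star_mul hV
  exact (iuBott_proj h1 (by rw [mul_comm]; exact h1) h2 (by rw [mul_comm]; exact h2)
    (Commute.all _ _)).1

theorem iuBott_norm_sub_le {U V U' V' : C(X, ℂ)} (hU : ∀ p, ‖U p‖ = 1) (hV : ∀ p, ‖V p‖ = 1)
    (hU' : ∀ p, ‖U' p‖ = 1) (hV' : ∀ p, ‖V' p‖ = 1) (i j : Fin 2) :
    ‖iuBott U V i j - iuBott U' V' i j‖ ≤ 2 * (‖U - U'‖ + ‖V - V'‖) := by
  rw [ContinuousMap.norm_le _ (by positivity)]
  intro p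
  rw [ContinuousMap.sub_apply, iuBott_apply, iuBott_apply]
  refine (iuLor_norm_sub_le (hU p).le (hV p).le (hU' p).le (hV' p).le i j).trans ?_
  have h1 : ‖U p - U' p‖ ≤ ‖U - U'‖ := (U - U').norm_coe_le_norm p
  have h2 : ‖V p - V' p‖ ≤ ‖V - V'‖ := (V - V').norm_coe_le_norm p
  linarith

end fn

end Claimed.Agent.R300
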