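/-
Row 300 / S0553 (INJ paper), UPPER ASSEMBLY, package IU-PROF (sub-captain: helper145).
The one dimensional profile functions, built from `σ = Real.smoothTransition`:
  s1 x = σ(x+2), s2 x = σ(x-1)   [for every x: s2 x = 0 or s1 x = 1]
  h = (1/2) sin(π s2)  (supp in [1,2]),  γ = (π/2)(s1 - s2),  c = cos γ,  s = sin γ,
  ω y = exp(2 π i σ((y+1)/2)),  β = ω - 1  (supp in [-1,1]).
KEY IDENTITY  h (c s - h) = 0:   c s = (1/2) sin(π (s1 - s2)); if s2 = 0 then h = 0, if s1 = 1 then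
  c s = (1/2) sin(π - π s2) = h.
The `sorry`s are replaced IN PLACE by the owner (table subtask, target row300, name IU-PROF).
-/
import Mathlib
import Claimed.Agent.R300.IuAlg
import Claimed.Agent.R300.InjLoc

set_option autoImplicit false

namespace Claimed.Agent.R300

noncomputable def iuS1 (x : ℝ) : ℝ := Real.smoothTransition (x + 2)
noncomputable def iuS2 (x : ℝ) : ℝ := Real.smoothTransition (x - 1)
noncomputable def iuPh (x : ℝ) : ℝ := 1 / 2 * Real.sin (Real.pi * iuS2 x)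
noncomputable def iuGam (x : ℝ) : ℝ := Real.pi / 2 * (iuS1 x - iuS2 x)
noncomputable def iuPc (x : ℝ) : ℝ := Real.cos (iuGam x)
noncomputable def iuPs (x : ℝ) : ℝ := Real.sin (iuGam x)

/-- the three `x`-profiles `h c s`, `h c^2`, `h s^2` -/
noncomputable def iuPA : Fin 3 → ℝ → ℝ
  | 0, x => iuPh x * iuPc x * iuPs x
  | 1, x => iuPh x * iuPc x ^ 2
  | 2, x => iuPh x * iuPs x ^ 2

noncomputable def iuOm (y : ℝ) : ℂ :=
  Complex.exp (2 * Real.pi * Complex.I * (Real.smoothTransition ((y + 1) / 2) : ℝ))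

noncomputable def iuBe (y : ℝ) : ℂ := iuOm y - 1

/-- the two `y`-profiles `β`, `conj β` -/
noncomputable def iuPB : Fin 2 → ℝ → ℂ
  | 0, y => iuBe y
  | 1, y => star (iuBe y)

theorem iuS2_eq_zero_or (x : ℝ) : iuS2 x = 0 ∨ iuS1 x = 1 := by
  rcases le_or_gt x 1 with h | h
  · left
    exact Real.smoothTransition.zero_of_nonpos (by linarith)
  · right
    exact Real.smoothTransition.one_of_one_le (by linarith)

theorem iuPh_key (x : ℝ) : iuPh x * (iuPc x * iuPs x - iuPh x) = 0 := by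
  rcases iuS2_eq_zero_or x with h | h
  · have : iuPh x = 0 := by unfold iuPh; rw [h]; simp
    rw [this, zero_mul]
  · have e : iuPc x * iuPs x = iuPh x := by
      unfold iuPc iuPs iuPh iuGam
      rw [h]
      have h2 := Real.sin_two_mul (Real.pi / 2 * (1 - iuS2 x))
      have h3 : 2 * (Real.pi / 2 * (1 - iuS2 x)) = Real.pi - Real.pi * iuS2 x := by ring
      rw [h3, Real.sin_pi_sub] at h2
      rw [h2]
      ring
    rw [e, sub_self, mul_zero]

theorem iuOm_norm (y : ℝ) : ‖iuOm y‖ = 1 := by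
  unfold iuOm
  have e : 2 * (Real.pi : ℂ) * Complex.I * (Real.smoothTransition ((y + 1) / 2) : ℝ)
      = ((2 * Real.pi * Real.smoothTransition ((y + 1) / 2) : ℝ) : ℂ) * Complex.I := by
    push_cast; ring
  rw [e, Complex.norm_exp_ofReal_mul_I]

theorem iuOm_mul_star (y : ℝ) : iuOm y * star (iuOm y) = 1 := by
  have h := Complex.mul_conj (iuOm y)
  rw [Complex.normSq_eq_norm_sq, iuOm_norm] at h
  simpa using h

theorem iuBe_key (y : ℝ) : iuBe y + star (iuBe y) + iuBe y * star (iuBe y) = 0 := by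
  have h1 := iuOm_mul_star y
  unfold iuBe
  rw [star_sub, star_one]
  linear_combination h1

theorem iuS1_contDiff (m : ℕ) : ContDiff ℝ m iuS1 :=
  (Real.smoothTransition.contDiff (n := m)).comp (contDiff_id.add contDiff_const)

theorem iuS2_contDiff (m : ℕ) : ContDiff ℝ m iuS2 :=
  (Real.smoothTransition.contDiff (n := m)).comp (contDiff_id.sub contDiff_const)

theorem iuPh_contDiff (m : ℕ) : ContDiff ℝ m iuPh :=
  contDiff_const.mul (Real.contDiff_sin.comp (contDiff_const.mul (iuS2_contDiff m)))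

theorem iuGam_contDiff (m : ℕ) : ContDiff ℝ m iuGam :=
  contDiff_const.mul ((iuS1_contDiff m).sub (iuS2_contDiff m))

theorem iuPc_contDiff (m : ℕ) : ContDiff ℝ m iuPc := Real.contDiff_cos.comp (iuGam_contDiff m)

theorem iuPs_contDiff (m : ℕ) : ContDiff ℝ m iuPs := Real.contDiff_sin.comp (iuGam_contDiff m)

theorem iuPA_contDiff (k : Fin 3) (m : ℕ) : ContDiff ℝ m (iuPA k) := by
  have h1 := iuPh_contDiff m
  have h2 := iuPc_contDiff m
  have h3 := iuPs_contDiff m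
  fin_cases k
  · exact (h1.mul h2).mul h3
  · exact h1.mul (h2.pow 2)
  · exact h1.mul (h3.pow 2)

theorem iuOm_contDiff (m : ℕ) : ContDiff ℝ m iuOm := by
  unfold iuOm
  apply ContDiff.cexp
  apply contDiff_const.mul
  apply Complex.ofRealCLM.contDiff.comp
  exact (Real.smoothTransition.contDiff (n := m)).comp
    ((contDiff_id.add contDiff_const).div_const _)

theorem iuBe_contDiff (m : ℕ) : ContDiff ℝ m iuBe := (iuOm_contDiff m).sub contDiff_const

theorem iuPB_contDiff (l : Fin 2) (m : ℕ) : ContDiff ℝ m (iuPB l) := by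
  have h1 := iuBe_contDiff m
  fin_cases l
  · exact h1
  · exact Complex.conjCLE.contDiff.comp h1

theorem iuPA_continuous (k : Fin 3) : Continuous (iuPA k) := (iuPA_contDiff k 0).continuous

theorem iuPB_continuous (l : Fin 2) : Continuous (iuPB l) := (iuPB_contDiff l 0).continuous

theorem iuPA_eq_zero (k : Fin 3) {x : ℝ} (h : x ≤ 1 ∨ 2 ≤ x) : iuPA k x = 0 := by
  have h0 : iuPh x = 0 := by
    unfold iuPh iuS2
    rcases h with h | h
    · rw [Real.smoothTransition.zero_of_nonpos (by linarith)]; simp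
    · rw [Real.smoothTransition.one_of_one_le (by linarith)]; simp
  fin_cases k
  · show iuPh x * iuPc x * iuPs x = 0
    rw [h0]; ring
  · show iuPh x * iuPc x ^ 2 = 0
    rw [h0]; ring
  · show iuPh x * iuPs x ^ 2 = 0
    rw [h0]; ring

theorem iuPB_eq_zero (l : Fin 2) {y : ℝ} (h : 1 ≤ |y|) : iuPB l y = 0 := by
  have h0 : iuBe y = 0 := by
    unfold iuBe iuOm
    rcases le_abs'.1 h with h | h
    · rw [Real.smoothTransition.zero_of_nonpos (by linarith)]; simp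
    · rw [Real.smoothTransition.one_of_one_le (by linarith)]
      simp [Complex.exp_two_pi_mul_I]
  fin_cases l
  · exact h0
  · show star (iuBe y) = 0
    rw [h0, star_zero]

theorem iuPA_abs_le (k : Fin 3) (x : ℝ) : |iuPA k x| ≤ 1 / 2 := by
  have h1 : |iuPh x| ≤ 1 / 2 := by
    unfold iuPh
    rw [abs_mul, abs_of_pos (by norm_num : (0 : ℝ) < 1 / 2)]
    have := Real.abs_sin_le_one (Real.pi * iuS2 x)
    linarith
  have h2 : |iuPc x| ≤ 1 := Real.abs_cos_le_one _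
  have h3 : |iuPs x| ≤ 1 := Real.abs_sin_le_one _
  have n1 := abs_nonneg (iuPh x)
  have n2 := abs_nonneg (iuPc x)
  have n3 := abs_nonneg (iuPs x)
  fin_cases k
  · show |iuPh x * iuPc x * iuPs x| ≤ 1 / 2
    rw [abs_mul, abs_mul]
    calc |iuPh x| * |iuPc x| * |iuPs x| ≤ 1 / 2 * 1 * 1 :=
          mul_le_mul (mul_le_mul h1 h2 n2 (by norm_num)) h3 n3 (by norm_num)
      _ = 1 / 2 := by norm_num
  · show |iuPh x * iuPc x ^ 2| ≤ 1 / 2
    rw [abs_mul, abs_pow]
    calc |iuPh x| * |iuPc x| ^ 2 ≤ 1 / 2 * 1 ^ 2 :=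
          mul_le_mul h1 (pow_le_pow_left₀ n2 h2 2) (by positivity) (by norm_num)
      _ = 1 / 2 := by norm_num
  · show |iuPh x * iuPs x ^ 2| ≤ 1 / 2
    rw [abs_mul, abs_pow]
    calc |iuPh x| * |iuPs x| ^ 2 ≤ 1 / 2 * 1 ^ 2 :=
          mul_le_mul h1 (pow_le_pow_left₀ n3 h3 2) (by positivity) (by norm_num)
      _ = 1 / 2 := by norm_num

theorem iuPB_norm_le (l : Fin 2) (y : ℝ) : ‖iuPB l y‖ ≤ 2 := by
  have h0 : ‖iuBe y‖ ≤ 2 := by
    unfold iuBe
    calc ‖iuOm y - 1‖ ≤ ‖iuOm y‖ + ‖(1 : ℂ)‖ := norm_sub_le _ _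
      _ = 2 := by rw [iuOm_norm, norm_one]; norm_num
  fin_cases l
  · exact h0
  · show ‖star (iuBe y)‖ ≤ 2
    rw [norm_star]; exact h0

/-- `e11 + a(x,y)` is a projection for all `(x,y)`  (`iuQ_scalar`) -/
theorem iuQ_prof (x y : ℝ) : IuQ (iuMat fun k l => ((iuPA k x : ℝ) : ℂ) * iuPB l y) := by
  have h := iuQ_scalar (iuPh x) (iuPc x) (iuPs x) (iuBe y)
    (by unfold iuPc iuPs; exact Real.cos_sq_add_sin_sq _) (iuPh_key x) (iuBe_key y)
  convert h using 2
  funext k l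
  fin_cases k <;> fin_cases l <;> rfl

/-! ### dilated profiles as continuous maps -/

/-- `x ↦ A_k(lam x)` -/
noncomputable def iuA (k : Fin 3) (lam : ℝ) : C(ℝ, ℂ) :=
  ⟨fun x => ((iuPA k (lam * x) : ℝ) : ℂ),
    Complex.continuous_ofReal.comp ((iuPA_continuous k).comp (continuous_const.mul continuous_id))⟩

/-- `y ↦ B_l(mu y)` -/
noncomputable def iuB (l : Fin 2) (mu : ℝ) : C(ℝ, ℂ) :=
  ⟨fun y => iuPB l (mu * y), (iuPB_continuous l).comp (continuous_const.mul continuous_id)⟩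

theorem iuA_apply (k : Fin 3) (lam x : ℝ) : iuA k lam x = ((iuPA k (lam * x) : ℝ) : ℂ) := rfl
theorem iuB_apply (l : Fin 2) (mu y : ℝ) : iuB l mu y = iuPB l (mu * y) := rfl

theorem iuA_contDiff (k : Fin 3) (lam : ℝ) (m : ℕ) : ContDiff ℝ m (iuA k lam) := by
  exact Complex.ofRealCLM.contDiff.comp ((iuPA_contDiff k m).comp (contDiff_const.mul contDiff_id))

theorem iuB_contDiff (l : Fin 2) (mu : ℝ) (m : ℕ) : ContDiff ℝ m (iuB l mu) := by
  exact (iuPB_contDiff l m).comp (contDiff_const.mul contDiff_id)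

theorem iuA_supp (k : Fin 3) {lam R : ℝ} (hlam : 0 < lam) (hR : 2 ≤ lam * R) :
    InjSupp R (iuA k lam) := by
  intro x hx
  rw [iuA_apply]
  have : iuPA k (lam * x) = 0 := by
    apply iuPA_eq_zero
    rcases lt_abs.1 hx with h | h
    · right
      have := mul_lt_mul_of_pos_left h hlam
      linarith
    · left
      have := mul_lt_mul_of_pos_left h hlam
      nlinarith
  rw [this]; simp

theorem iuB_supp (l : Fin 2) {mu R : ℝ} (hmu : 0 < mu) (hR : 1 ≤ mu * R) :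
    InjSupp R (iuB l mu) := by
  intro y hy
  rw [iuB_apply]
  apply iuPB_eq_zero
  rw [abs_mul, abs_of_pos hmu]
  have := mul_lt_mul_of_pos_left hy hmu
  linarith

theorem iuA_norm_le (k : Fin 3) (lam x : ℝ) : ‖iuA k lam x‖ ≤ 1 / 2 := by
  rw [iuA_apply, Complex.norm_real]
  exact iuPA_abs_le k _

theorem iuB_norm_le (l : Fin 2) (mu y : ℝ) : ‖iuB l mu y‖ ≤ 2 := by
  rw [iuB_apply]
  exact iuPB_norm_le l _

theorem iuA_comp_mul (k : Fin 3) (lam c : ℝ) :
    (iuA k lam).comp ⟨fun x => c * x, by fun_prop⟩ = iuA k (lam * c) := by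
  ext x
  simp only [ContinuousMap.comp_apply, ContinuousMap.coe_mk, iuA_apply, mul_assoc]

theorem iuB_comp_mul (l : Fin 2) (mu c : ℝ) :
    (iuB l mu).comp ⟨fun x => c * x, by fun_prop⟩ = iuB l (mu * c) := by
  ext x
  simp only [ContinuousMap.comp_apply, ContinuousMap.coe_mk, iuB_apply, mul_assoc]

/-! ### the dilation parameters of the rescaling path -/

/-- `lam_j = 2^(-500 b (1 - j/N))`, `j = 0..N` -/
noncomputable def iuLam (b N j : ℕ) : ℝ := (2 : ℝ) ^ (-(500 * (b : ℝ)) * (1 - (j : ℝ) / N))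

/-- `mu_j = 2^(-200 b (1 - j/N))`, `j = 0..N` -/
noncomputable def iuMu (b N j : ℕ) : ℝ := (2 : ℝ) ^ (-(200 * (b : ℝ)) * (1 - (j : ℝ) / N))

theorem iuLam_pos (b N j : ℕ) : 0 < iuLam b N j := by
  exact Real.rpow_pos_of_pos (by norm_num) _

theorem iuMu_pos (b N j : ℕ) : 0 < iuMu b N j := by
  exact Real.rpow_pos_of_pos (by norm_num) _

theorem iuLam_zero (b N : ℕ) : iuLam b N 0 = ((2 : ℝ) ^ (500 * b))⁻¹ := by
  unfold iuLam
  have e : -(500 * (b : ℝ)) * (1 - ((0 : ℕ) : ℝ) / N) = -((500 * b : ℕ) : ℝ) := by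
    push_cast; ring
  rw [e, Real.rpow_neg (by norm_num), Real.rpow_natCast]

theorem iuMu_zero (b N : ℕ) : iuMu b N 0 = ((2 : ℝ) ^ (200 * b))⁻¹ := by
  unfold iuMu
  have e : -(200 * (b : ℝ)) * (1 - ((0 : ℕ) : ℝ) / N) = -((200 * b : ℕ) : ℝ) := by
    push_cast; ring
  rw [e, Real.rpow_neg (by norm_num), Real.rpow_natCast]

theorem iuLam_last (b : ℕ) {N : ℕ} (hN : 0 < N) : iuLam b N N = 1 := by
  unfold iuLam
  have hN' : (N : ℝ) ≠ 0 := by exact_mod_cast hN.ne'
  rw [div_self hN', sub_self, mul_zero, Real.rpow_zero]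

theorem iuMu_last (b : ℕ) {N : ℕ} (hN : 0 < N) : iuMu b N N = 1 := by
  unfold iuMu
  have hN' : (N : ℝ) ≠ 0 := by exact_mod_cast hN.ne'
  rw [div_self hN', sub_self, mul_zero, Real.rpow_zero]

theorem iuLam_ge (b : ℕ) {N j : ℕ} (hN : 0 < N) (hj : j ≤ N) :
    ((2 : ℝ) ^ (500 * b))⁻¹ ≤ iuLam b N j := by
  rw [← iuLam_zero b N]
  unfold iuLam
  apply Real.rpow_le_rpow_of_exponent_le (by norm_num)
  have h1 : (0 : ℝ) ≤ (j : ℝ) / N := by positivity
  have h2 : (0 : ℝ) ≤ 500 * (b : ℝ) := by positivity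
  have h3 := mul_nonneg h2 h1
  push_cast
  rw [zero_div]
  linarith

theorem iuMu_ge (b : ℕ) {N j : ℕ} (hN : 0 < N) (hj : j ≤ N) :
    ((2 : ℝ) ^ (200 * b))⁻¹ ≤ iuMu b N j := by
  rw [← iuMu_zero b N]
  unfold iuMu
  apply Real.rpow_le_rpow_of_exponent_le (by norm_num)
  have h1 : (0 : ℝ) ≤ (j : ℝ) / N := by positivity
  have h2 : (0 : ℝ) ≤ 200 * (b : ℝ) := by positivity
  have h3 := mul_nonneg h2 h1
  push_cast
  rw [zero_div]
  linarith

/-- the radius of all symbols -/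
noncomputable def iuR (b : ℕ) : ℝ := 2 * 2 ^ (500 * b)

theorem iuR_ge (b : ℕ) : 1 ≤ iuR b := by
  unfold iuR
  have : (1 : ℝ) ≤ 2 ^ (500 * b) := one_le_pow₀ (by norm_num)
  linarith

theorem iuA_supp_R (k : Fin 3) (b : ℕ) {N j : ℕ} (hN : 0 < N) (hj : j ≤ N) :
    InjSupp (iuR b) (iuA k (iuLam b N j)) := by
  apply iuA_supp k (iuLam_pos b N j)
  have h1 := iuLam_ge b hN hj
  have hp : (0 : ℝ) < 2 ^ (500 * b) := by positivity
  unfold iuR
  calc (2 : ℝ) = ((2 : ℝ) ^ (500 * b))⁻¹ * (2 * 2 ^ (500 * b)) := by field_simp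
    _ ≤ iuLam b N j * (2 * 2 ^ (500 * b)) := mul_le_mul_of_nonneg_right h1 (by positivity)

theorem iuB_supp_R (l : Fin 2) (b : ℕ) {N j : ℕ} (hN : 0 < N) (hj : j ≤ N) :
    InjSupp (iuR b) (iuB l (iuMu b N j)) := by
  apply iuB_supp l (iuMu_pos b N j)
  have h1 := iuMu_ge b hN hj
  have hp : (0 : ℝ) < 2 ^ (200 * b) := by positivity
  have h2 : (2 : ℝ) ^ (200 * b) ≤ 2 ^ (500 * b) :=
    pow_le_pow_right₀ (by norm_num) (by omega)
  unfold iuR
  calc (1 : ℝ) = ((2 : ℝ) ^ (200 * b))⁻¹ * 2 ^ (200 * b) := by field_simp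
    _ ≤ ((2 : ℝ) ^ (200 * b))⁻¹ * (2 * 2 ^ (500 * b)) :=
        mul_le_mul_of_nonneg_left (by linarith) (by positivity)
    _ ≤ iuMu b N j * (2 * 2 ^ (500 * b)) := mul_le_mul_of_nonneg_right h1 (by positivity)

/-- the rescaling path as a function of `(t, x, y)` with values in the six products -/
noncomputable def iuMeshF (b : ℕ) (p : ℝ × ℝ × ℝ) : Fin 3 × Fin 2 → ℂ := fun kl =>
  ((iuPA kl.1 ((2 : ℝ) ^ (-(500 * (b : ℝ)) * (1 - p.1)) * p.2.1) : ℝ) : ℂ) *
    iuPB kl.2 ((2 : ℝ) ^ (-(200 * (b : ℝ)) * (1 - p.1)) * p.2.2)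

theorem iuMeshF_continuous (b : ℕ) : Continuous (iuMeshF b) := by
  apply continuous_pi
  intro kl
  have h2 : Continuous fun x : ℝ => (2 : ℝ) ^ x := Real.continuous_const_rpow (by norm_num)
  apply Continuous.mul
  · apply Complex.continuous_ofReal.comp
    apply (iuPA_continuous kl.1).comp
    apply Continuous.mul
    · exact h2.comp (by fun_prop)
    · fun_prop
  · apply (iuPB_continuous kl.2).comp
    apply Continuous.mul
    · exact h2.comp (by fun_prop)
    · fun_prop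

/-- MESH.  `(t,x,y) ↦ A_k(2^(-500b(1-t)) x) B_l(2^(-200b(1-t)) y)` is continuous on `[0,1] × ℝ²` and
vanishes for `|x| > R` or `|y| > R`, hence is uniformly continuous.  (`A_k`, `B_l` are uniformly
continuous (compact support); `|lam x - lam' x| ≤ R |lam - lam'|` on the support; `t ↦ 2^(..)` is
uniformly continuous on `[0,1]`.) -/
theorem iu_mesh (b : ℕ) : ∃ N : ℕ, 0 < N ∧ ∀ j < N, ∀ (k : Fin 3) (l : Fin 2) (x y : ℝ),
    ‖iuA k (iuLam b N j) x * iuB l (iuMu b N j) y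
      - iuA k (iuLam b N (j + 1)) x * iuB l (iuMu b N (j + 1)) y‖ ≤ 1 / 1000 := by
  classical
  have hc := iuMeshF_continuous b
  have hK : IsCompact (Set.Icc (0 : ℝ) 1 ×ˢ (Set.Icc (-iuR b) (iuR b) ×ˢ Set.Icc (-iuR b) (iuR b))) :=
    isCompact_Icc.prod (isCompact_Icc.prod isCompact_Icc)
  have hu := hK.uniformContinuousOn_of_continuous hc.continuousOn
  rw [Metric.uniformContinuousOn_iff] at hu
  obtain ⟨δ, hδ, hu⟩ := hu (1 / 1000) (by norm_num)
  obtain ⟨n, hn⟩ := exists_nat_one_div_lt hδ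
  refine ⟨n + 1, Nat.succ_pos n, fun j hj k l x y => ?_⟩
  have hN : 0 < n + 1 := Nat.succ_pos n
  have hNr : (0 : ℝ) < ((n + 1 : ℕ) : ℝ) := by exact_mod_cast hN
  by_cases hx : |x| ≤ iuR b
  · by_cases hy : |y| ≤ iuR b
    · have hx' := abs_le.1 hx
      have hy' := abs_le.1 hy
      have ht0 : (0 : ℝ) ≤ (j : ℝ) / ((n + 1 : ℕ) : ℝ) := by positivity
      have ht1 : ((j + 1 : ℕ) : ℝ) / ((n + 1 : ℕ) : ℝ) ≤ 1 := by
        rw [div_le_one hNr]
        exact_mod_cast hj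
      have ht01 : (j : ℝ) / ((n + 1 : ℕ) : ℝ) ≤ ((j + 1 : ℕ) : ℝ) / ((n + 1 : ℕ) : ℝ) := by
        apply div_le_div_of_nonneg_right _ hNr.le
        push_cast; linarith
      have h := hu ((j : ℝ) / ((n + 1 : ℕ) : ℝ), x, y)
        ⟨⟨ht0, ht01.trans ht1⟩, ⟨hx'.1, hx'.2⟩, ⟨hy'.1, hy'.2⟩⟩
        (((j + 1 : ℕ) : ℝ) / ((n + 1 : ℕ) : ℝ), x, y)
        ⟨⟨ht0.trans ht01, ht1⟩, ⟨hx'.1, hx'.2⟩, ⟨hy'.1, hy'.2⟩⟩ (by
          rw [Prod.dist_eq, Prod.dist_eq]
          simp only [dist_self, max_self]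
          rw [max_eq_left dist_nonneg, Real.dist_eq, ← sub_div, abs_div, abs_of_pos hNr]
          have e : |(j : ℝ) - ((j + 1 : ℕ) : ℝ)| = 1 := by
            push_cast
            rw [show (j : ℝ) - ((j : ℝ) + 1) = -1 by ring]
            simp
          rw [e]
          push_cast
          exact hn)
      have h2 := (dist_le_pi_dist _ _ (k, l)).trans h.le
      rw [dist_eq_norm] at h2
      exact h2
    · have hy' : iuR b < |y| := not_le.1 hy
      rw [iuB_supp_R l b hN hj.le y hy', iuB_supp_R l b hN hj y hy']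
      simp
  · have hx' : iuR b < |x| := not_le.1 hx
    rw [iuA_supp_R k b hN hj.le x hx', iuA_supp_R k b hN hj x hx']
    simp

end Claimed.Agent.R300
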