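/-
Row 300 / S0553 (INJ paper), UPPER ASSEMBLY, package IU-FUN (sub-captain: helper145).
Facts about the localised product functions on the torus `T²` used by the band model:
simultaneous evaluation in a chart, the cutoffs, the matrix functions `iuF`, change of scale, mesh.
Everything follows from `injLoc_coe`, `injT_exists_rep`, `injLoc_scale`, `injLoc_mul_cut` (InjLoc.lean,
use the STATEMENTS there, they are being proved by the owner of INJ-L0) and from IuProf.lean.
The `sorry`s are replaced IN PLACE by the owner (table subtask, target row300, name IU-FUN).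
-/
import Mathlib
import Claimed.Agent.R300.IuProf
import Claimed.Agent.R300.InjStmt

set_option autoImplicit false

namespace Claimed.Agent.R300

/-- largeness of the base height -/
def IuBig (b H0 : ℕ) : Prop := 500 * b + 10 ≤ H0

theorem iuFun_big_pow {b H0 : ℕ} (h : IuBig b H0) : 2 * (4 * iuR b) < (2 : ℝ) ^ H0 := by
  have h1 : (2 : ℝ) ^ (500 * b + 10) ≤ 2 ^ H0 := pow_le_pow_right₀ (by norm_num) h
  have h2 : (0 : ℝ) < 2 ^ (500 * b) := by positivity
  unfold iuR
  rw [pow_add] at h1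
  nlinarith

theorem iu_big_Z {b H0 : ℕ} (h : IuBig b H0) (i : ℕ) : 2 * (4 * iuR b) < injZs b H0 i := by
  exact (iuFun_big_pow h).trans_le (injZs_ge b H0 i)

theorem iu_big_N {b H0 : ℕ} (h : IuBig b H0) (i : ℕ) : 2 * (4 * iuR b) < injNs b H0 i := by
  exact (iuFun_big_pow h).trans_le (injNs_ge b H0 i)

theorem injZs_succ (b H0 i : ℕ) : injZs b H0 i = ((2 : ℝ) ^ (500 * b))⁻¹ * injZs b H0 (i + 1) := by
  have e : 500 * injH b H0 (i + 1) = 500 * b + 500 * injH b H0 i := by unfold injH; ring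
  unfold injZs
  rw [e, pow_add, inv_mul_cancel_left₀ (by positivity)]

theorem injNs_succ (b H0 i : ℕ) : injNs b H0 i = ((2 : ℝ) ^ (200 * b))⁻¹ * injNs b H0 (i + 1) := by
  have e : 200 * injH b H0 (i + 1) = 200 * b + 200 * injH b H0 i := by unfold injH; ring
  unfold injNs
  rw [e, pow_add, inv_mul_cancel_left₀ (by positivity)]

theorem injZs_mono (b H0 : ℕ) {i k : ℕ} (h : i ≤ k) : injZs b H0 i ≤ injZs b H0 k := by
  exact injZs_le_of_le b H0 h

theorem injNs_mono (b H0 : ℕ) {i k : ℕ} (h : i ≤ k) : injNs b H0 i ≤ injNs b H0 k := by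
  exact injNs_le_of_le b H0 h

theorem InjSupp.mono {R R' : ℝ} {A : C(ℝ, ℂ)} (h : InjSupp R A) (hR : R ≤ R') : InjSupp R' A :=
  fun x hx => h x (lt_of_le_of_lt hR hx)

/-- SIMULTANEOUS EVALUATION: at a point `p` of the torus all product functions of height `i`
with profiles supported in `[-R,R]` are evaluated at one and the same point `(x,y)` of the plane. -/
theorem iu_loc2_eval (b H0 i : ℕ) {R : ℝ} (hZ : 2 * R < injZs b H0 i) (hN : 2 * R < injNs b H0 i)
    (p : InjT × InjT) : ∃ x y : ℝ, ∀ A B : C(ℝ, ℂ), InjSupp R A → InjSupp R B →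
      injLoc2 b H0 A B i p = A x * B y := by
  obtain ⟨t, ht, ht'⟩ := injT_exists_rep injAlpha p.1
  obtain ⟨u, hu, hu'⟩ := injT_exists_rep 0 p.2
  refine ⟨injZs b H0 i * (t - injAlpha), injNs b H0 i * (u - 0), fun A B hA hB => ?_⟩
  rw [injLoc2_apply, ← ht, ← hu, injLoc_coe hA hZ t ht', injLoc_coe hB hN u hu']

/-! ### the cutoff -/

theorem injChi_eq_one {R x : ℝ} (hR : 0 < R) (hx : |x| ≤ R) : injChi R x = 1 := by
  obtain ⟨h1, h2⟩ := abs_le.mp hx
  have h3 : x / R ≤ 1 := (div_le_one hR).mpr h2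
  have h4 : -1 ≤ x / R := by rw [le_div_iff₀ hR]; linarith
  show ((Real.smoothTransition (2 - x / R) * Real.smoothTransition (2 + x / R) : ℝ) : ℂ) = 1
  rw [Real.smoothTransition.one_of_one_le (by linarith),
    Real.smoothTransition.one_of_one_le (by linarith)]
  simp

theorem injChi_supp {R : ℝ} (hR : 0 < R) : InjSupp (2 * R) (injChi R) := by
  intro x hx
  show ((Real.smoothTransition (2 - x / R) * Real.smoothTransition (2 + x / R) : ℝ) : ℂ) = 0
  rcases lt_abs.mp hx with h | h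
  · have h3 : 2 < x / R := by rw [lt_div_iff₀ hR]; exact h
    rw [Real.smoothTransition.zero_of_nonpos (by linarith)]
    simp
  · have h3 : x / R < -2 := by rw [div_lt_iff₀ hR]; linarith
    rw [Real.smoothTransition.zero_of_nonpos (x := 2 + x / R) (by linarith)]
    simp

theorem injChi_norm_le (R x : ℝ) : ‖injChi R x‖ ≤ 1 := by
  show ‖((Real.smoothTransition (2 - x / R) * Real.smoothTransition (2 + x / R) : ℝ) : ℂ)‖ ≤ 1
  rw [Complex.norm_real, Real.norm_of_nonneg
    (mul_nonneg (Real.smoothTransition.nonneg _) (Real.smoothTransition.nonneg _))]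
  exact mul_le_one₀ (Real.smoothTransition.le_one _) (Real.smoothTransition.nonneg _)
    (Real.smoothTransition.le_one _)

theorem injChi_star (R : ℝ) : star (injChi R) = injChi R := by
  ext x
  show (starRingEnd ℂ)
      ((Real.smoothTransition (2 - x / R) * Real.smoothTransition (2 + x / R) : ℝ) : ℂ)
    = ((Real.smoothTransition (2 - x / R) * Real.smoothTransition (2 + x / R) : ℝ) : ℂ)
  exact Complex.conj_ofReal _

theorem injCut_norm_le {b H0 : ℕ} (h : IuBig b H0) (i : ℕ) : ‖injCut b H0 (2 * iuR b) i‖ ≤ 1 := by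
  have hR : 0 < 2 * iuR b := by have := iuR_ge b; linarith
  have hs := injChi_supp hR
  have hH : 2 * (2 * (2 * iuR b)) < (2 : ℝ) ^ H0 := by
    have := iuFun_big_pow h
    linarith
  have := injLoc2_norm_le hs hs b H0 i hH zero_le_one zero_le_one (injChi_norm_le _)
    (injChi_norm_le _)
  simpa [injCut] using this

theorem injCut_star {b H0 : ℕ} (h : IuBig b H0) (i : ℕ) :
    star (injCut b H0 (2 * iuR b) i) = injCut b H0 (2 * iuR b) i := by
  have hR : 0 < 2 * iuR b := by have := iuR_ge b; linarith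
  have hs := injChi_supp hR
  have hZ : 2 * (2 * (2 * iuR b)) < injZs b H0 i := by have := iu_big_Z h i; linarith
  have hN : 2 * (2 * (2 * iuR b)) < injNs b H0 i := by have := iu_big_N h i; linarith
  ext p
  obtain ⟨x, y, hxy⟩ := iu_loc2_eval b H0 i hZ hN p
  have e : ∀ x : ℝ, star (injChi (2 * iuR b) x) = injChi (2 * iuR b) x := fun x => by
    have := congrArg (fun f : C(ℝ, ℂ) => f x) (injChi_star (2 * iuR b))
    simpa using this
  rw [ContinuousMap.star_apply]
  unfold injCut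
  rw [hxy _ _ hs hs, star_mul', e, e]

/-- a cutoff at a coarser or equal height acts as one -/
theorem iu_cut_mul {b H0 : ℕ} (h : IuBig b H0) {A B : C(ℝ, ℂ)} (hA : InjSupp (iuR b) A)
    (hB : InjSupp (iuR b) B) {i' i : ℕ} (hi : i' ≤ i) :
    injCut b H0 (2 * iuR b) i' * injLoc2 b H0 A B i = injLoc2 b H0 A B i := by
  have hR1 := iuR_ge b
  have hR : 0 < 2 * iuR b := by linarith
  have hs := injChi_supp hR
  have hone : ∀ x : ℝ, |x| ≤ iuR b → injChi (2 * iuR b) x = 1 := fun x hx =>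
    injChi_eq_one hR (by linarith)
  have h1 := injLoc_mul_cut hA hs hone (a := injAlpha) (L := injZs b H0 i) (L' := injZs b H0 i')
    (by linarith) (by have := iu_big_Z h i; linarith) (by have := iu_big_Z h i'; linarith)
    (injZs_mono b H0 hi)
  have h2 := injLoc_mul_cut hB hs hone (a := 0) (L := injNs b H0 i) (L' := injNs b H0 i')
    (by linarith) (by have := iu_big_N h i; linarith) (by have := iu_big_N h i'; linarith)
    (injNs_mono b H0 hi)
  ext p
  have e1 := congrArg (fun f : C(InjT, ℂ) => f p.1) h1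
  have e2 := congrArg (fun f : C(InjT, ℂ) => f p.2) h2
  simp only [ContinuousMap.mul_apply] at e1 e2
  unfold injCut
  rw [ContinuousMap.mul_apply, injLoc2_apply, injLoc2_apply]
  calc _ = (injLoc (injChi (2 * iuR b)) injAlpha (injZs b H0 i') p.1
            * injLoc A injAlpha (injZs b H0 i) p.1)
          * (injLoc (injChi (2 * iuR b)) 0 (injNs b H0 i') p.2
            * injLoc B 0 (injNs b H0 i) p.2) := by ring
    _ = _ := by rw [e1, e2]

/-! ### the six terms and the matrix function at mesh index `j`, height `i` -/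

/-- `(θ,ξ) ↦ A_k(lam_j Z_i (θ-α)) B_l(mu_j N_i ξ)` -/
noncomputable def iuT (b H0 N j i : ℕ) (k : Fin 3) (l : Fin 2) : C(InjT × InjT, ℂ) :=
  injLoc2 b H0 (iuA k (iuLam b N j)) (iuB l (iuMu b N j)) i

/-- the matrix function `a` at mesh index `j`, height `i` -/
noncomputable def iuF (b H0 N j i : ℕ) : Matrix (Fin 2) (Fin 2) C(InjT × InjT, ℂ) :=
  iuMat (iuT b H0 N j i)

variable {b H0 N : ℕ}

theorem iuT_norm_le (h : IuBig b H0) (hN : 0 < N) {j : ℕ} (hj : j ≤ N) (i : ℕ) (k : Fin 3)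
    (l : Fin 2) : ‖iuT b H0 N j i k l‖ ≤ 1 := by
  have hH : 2 * iuR b < (2 : ℝ) ^ H0 := by
    have := iuFun_big_pow h
    have := iuR_ge b
    linarith
  have := injLoc2_norm_le (iuA_supp_R k b hN hj) (iuB_supp_R l b hN hj) b H0 i hH
    (by norm_num : (0 : ℝ) ≤ 1 / 2) (by norm_num : (0 : ℝ) ≤ 2) (iuA_norm_le k _) (iuB_norm_le l _)
  unfold iuT
  linarith

theorem iuF_norm_le (h : IuBig b H0) (hN : 0 < N) {j : ℕ} (hj : j ≤ N) (i : ℕ) (r s : Fin 2) :
    ‖iuF b H0 N j i r s‖ ≤ 2 := by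
  have := iuMat_norm_le (iuT b H0 N j i) (C := 1) (fun k l => iuT_norm_le h hN hj i k l) r s
  unfold iuF
  linarith

/-- `e11 + a` is a projection valued function (`iu_loc2_eval`, `iuQ_prof`) -/
theorem iuFun_mat_apply {Y : Type*} [TopologicalSpace Y] (T : Fin 3 → Fin 2 → C(Y, ℂ))
    (r s : Fin 2) (p : Y) : iuMat T r s p = iuMat (fun k l => T k l p) r s := by
  simp [iuMat, Fin.sum_univ_succ]

/-- `IuQ` for matrices of continuous functions is checked pointwise -/
theorem iuFun_Q_of_pointwise {Y : Type*} [TopologicalSpace Y] (T : Fin 3 → Fin 2 → C(Y, ℂ))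
    (h : ∀ p, IuQ (iuMat fun k l => T k l p)) : IuQ (iuMat T) := by
  refine ⟨fun i k => ?_, fun i k => ?_⟩
  · ext p
    rw [ContinuousMap.star_apply, iuFun_mat_apply, iuFun_mat_apply]
    exact (h p).1 i k
  · ext p
    have h2 := (h p).2 i k
    rw [Fin.sum_univ_two] at h2 ⊢
    simp only [ContinuousMap.add_apply, ContinuousMap.mul_apply]
    rw [← iuFun_mat_apply, ← iuFun_mat_apply, ← iuFun_mat_apply, ← iuFun_mat_apply,
      ← iuFun_mat_apply] at h2
    rw [← h2]
    congr 1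
    congr 1
    · split_ifs <;> rfl
    · split_ifs <;> rfl

theorem iuQ_F (h : IuBig b H0) (hN : 0 < N) {j : ℕ} (hj : j ≤ N) (i : ℕ) :
    IuQ (iuF b H0 N j i) := by
  have hR1 := iuR_ge b
  have hZ : 2 * iuR b < injZs b H0 i := by have := iu_big_Z h i; linarith
  have hN' : 2 * iuR b < injNs b H0 i := by have := iu_big_N h i; linarith
  apply iuFun_Q_of_pointwise
  intro p
  obtain ⟨x, y, hxy⟩ := iu_loc2_eval b H0 i hZ hN' p
  have e : (fun k l => iuT b H0 N j i k l p)
      = fun k l => ((iuPA k (iuLam b N j * x) : ℝ) : ℂ) * iuPB l (iuMu b N j * y) := by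
    funext k l
    unfold iuT
    rw [hxy _ _ (iuA_supp_R k b hN hj) (iuB_supp_R l b hN hj), iuA_apply, iuB_apply]
  rw [e]
  exact iuQ_prof _ _

theorem iuT_cut (h : IuBig b H0) (hN : 0 < N) {j : ℕ} (hj : j ≤ N) {i' i : ℕ} (hi : i' ≤ i)
    (k : Fin 3) (l : Fin 2) :
    injCut b H0 (2 * iuR b) i' * iuT b H0 N j i k l = iuT b H0 N j i k l := by
  exact iu_cut_mul h (iuA_supp_R k b hN hj) (iuB_supp_R l b hN hj) hi

theorem iuF_cut (h : IuBig b H0) (hN : 0 < N) {j : ℕ} (hj : j ≤ N) {i' i : ℕ} (hi : i' ≤ i)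
    (r s : Fin 2) :
    injCut b H0 (2 * iuR b) i' * iuF b H0 N j i r s = iuF b H0 N j i r s := by
  unfold iuF iuMat
  simp only [Matrix.of_apply, Finset.mul_sum, mul_smul_comm, iuT_cut h hN hj hi]

/-- CHANGE OF SCALE: the undilated profile at height `i` is the fully dilated one at `i+1` -/
theorem iuT_scale (hN : 0 < N) (i : ℕ) (k : Fin 3) (l : Fin 2) :
    iuT b H0 N N i k l = iuT b H0 N 0 (i + 1) k l := by
  unfold iuT injLoc2
  rw [iuLam_last b hN, iuMu_last b hN, iuLam_zero, iuMu_zero, injZs_succ b H0 i, injNs_succ b H0 i,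
    injLoc_scale, injLoc_scale, iuA_comp_mul, iuB_comp_mul, one_mul, one_mul]

theorem iuF_scale (hN : 0 < N) (i : ℕ) : iuF b H0 N N i = iuF b H0 N 0 (i + 1) := by
  unfold iuF
  congr 1
  funext k l
  exact iuT_scale hN i k l

/-- the mesh property of `N` (an `N` with this property exists by `iu_mesh`) -/
def IuMesh (b N : ℕ) : Prop :=
  0 < N ∧ ∀ j < N, ∀ (k : Fin 3) (l : Fin 2) (x y : ℝ),
    ‖iuA k (iuLam b N j) x * iuB l (iuMu b N j) y
      - iuA k (iuLam b N (j + 1)) x * iuB l (iuMu b N (j + 1)) y‖ ≤ 1 / 1000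

theorem iuT_mesh (h : IuBig b H0) (hN : IuMesh b N) {j : ℕ} (hj : j < N) (i : ℕ) (k : Fin 3)
    (l : Fin 2) : ‖iuT b H0 N j i k l - iuT b H0 N (j + 1) i k l‖ ≤ 1 / 1000 := by
  have hR1 := iuR_ge b
  have hZ : 2 * iuR b < injZs b H0 i := by have := iu_big_Z h i; linarith
  have hN' : 2 * iuR b < injNs b H0 i := by have := iu_big_N h i; linarith
  rw [ContinuousMap.norm_le _ (by norm_num)]
  intro p
  obtain ⟨x, y, hxy⟩ := iu_loc2_eval b H0 i hZ hN' p
  unfold iuT
  rw [ContinuousMap.sub_apply, hxy _ _ (iuA_supp_R k b hN.1 hj.le) (iuB_supp_R l b hN.1 hj.le),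
    hxy _ _ (iuA_supp_R k b hN.1 hj) (iuB_supp_R l b hN.1 hj)]
  exact hN.2 j hj k l x y

theorem iuF_mesh (h : IuBig b H0) (hN : IuMesh b N) {j : ℕ} (hj : j < N) (i : ℕ) (r s : Fin 2) :
    ‖iuF b H0 N j i r s - iuF b H0 N (j + 1) i r s‖ ≤ 1 / 500 := by
  have := iuMat_norm_sub_le (iuT b H0 N j i) (iuT b H0 N (j + 1) i) (C := 1 / 1000)
    (fun k l => iuT_mesh h hN hj i k l) r s
  unfold iuF
  linarith

end Claimed.Agent.R300
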