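/-
Row 300 / S0553 (INJ paper), UPPER ASSEMBLY, package IU-LINK (sub-captain: helper145).
In `M_2(C(T²))` the Bott projection of the coordinate unitaries `e(θ), e(ξ)` is Murray-von Neumann
equivalent to the localised projection `e11 + a_0`.
Proofs: helper240 (subtask IU-LINK).  Only `iu_bott_link` is consumed.

Plan.  `κ = (s1+s2)/2` and `κ' y = σ((y+1)/2)` are continuous, `0` on `(-∞,-2]`, `1` on `[2,∞)`.
1. `iu_lift`: `d := AddCircle.liftIco 1 (a - 1/2) (fun t => κ (L (t-a)) - t)` is continuous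
   (`AddCircle.liftIco_continuous`: both end values are `1/2 - a`).
2. `U_s := e(θ) exp(2 π i s d(θ))`, `V_s := e(ξ) exp(2 π i s d'(ξ))`, `s ∈ [0,1]`: unimodular functions,
   `‖U_s - U_s'‖ ≤ 2 π |s-s'| ‖d‖`.  By `iuBott_mul_self`, `iuBott_conjTranspose`, `iuBott_norm_sub_le` and
   K6 (`‖M‖ ≤ ∑ ‖M i j‖` in `CStarMatrix`, helper240's IuK files) `s ↦ CStarMatrix.ofMatrix (iuBott U_s V_s)` is a
   norm continuous path of projections: `iuMvN_path_on` + `iuPi_of_proj` (IuKBasic.lean) give `w1` with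
   `w1ᴴ w1 = iuBott U_0 V_0 = iuBott injE1 injE2`, `w1 w1ᴴ = iuBott U_1 V_1`.
   (Order on `C(T²)`: `letI := CStarAlgebra.spectralOrder C(InjT × InjT, ℂ)`,
   `haveI := CStarAlgebra.spectralOrderedRing C(InjT × InjT, ℂ)`.)
3. `W := [[c, -s], [s, c]]` with `c = 1 + injLoc (cos γ - 1)`, `s = injLoc (sin γ)` (functions of `θ`),
   `Wᴴ W = W Wᴴ = 1`.  Endpoint identity `Wᴴ (iuBott U_1 V_1) W = e11 + iuF b H0 N N 0`: pointwise, in the chart
   `x = Z_0 (t - α)`, `y = N_0 t'` it is `iu_endpoint`.   Then `w := Wᴴ w1`.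
-/
import Mathlib
import Claimed.Agent.R300.IuBott
import Claimed.Agent.R300.IuFun
import Claimed.Agent.R300.IuKBasic

set_option autoImplicit false

namespace Claimed.Agent.R300

open Matrix

noncomputable def iuKap (x : ℝ) : ℝ := (iuS1 x + iuS2 x) / 2

/-- a degree one step map of the circle is `id + d` with `d` continuous -/
theorem iu_lift (κ : ℝ → ℝ) (hκ : Continuous κ) (h0 : ∀ x ≤ -2, κ x = 0) (h1 : ∀ x, 2 ≤ x → κ x = 1)
    (a L : ℝ) (hL : 4 < L) : ∃ d : C(InjT, ℝ), ∀ t : ℝ, |t - a| ≤ 1 / 2 →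
      Complex.exp (2 * Real.pi * Complex.I * t) * Complex.exp (2 * Real.pi * Complex.I * d (t : InjT))
        = Complex.exp (2 * Real.pi * Complex.I * κ (L * (t - a))) := by
  set D : ℝ → ℝ := fun t => κ (L * (t - a)) - t with hD
  have hDc : Continuous D := by
    have : Continuous fun t : ℝ => κ (L * (t - a)) := hκ.comp (by fun_prop)
    exact this.sub continuous_id
  have e0 : D (a - 1 / 2) = 1 / 2 - a := by
    simp only [hD]
    rw [h0 _ (by nlinarith)]
    ring
  have e1 : D (a - 1 / 2 + 1) = 1 / 2 - a := by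
    simp only [hD]
    rw [h1 _ (by nlinarith)]
    ring
  refine ⟨⟨AddCircle.liftIco 1 (a - 1 / 2) D,
    AddCircle.liftIco_continuous (e0.trans e1.symm) hDc.continuousOn⟩, fun t ht => ?_⟩
  rw [ContinuousMap.coe_mk, ← Complex.exp_add]
  rw [abs_le] at ht
  rcases lt_or_eq_of_le ht.2 with hlt | heq
  · rw [AddCircle.liftIco_coe_apply (by constructor <;> linarith)]
    congr 1
    simp only [hD]
    push_cast
    ring
  · have ht' : t = (a - 1 / 2) + 1 := by linarith
    have hc : ((t : ℝ) : InjT) = ((a - 1 / 2 : ℝ) : InjT) := by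
      rw [ht']
      exact AddCircle.coe_add_period 1 _
    rw [hc, AddCircle.liftIco_coe_apply (by constructor <;> linarith), e0,
      h1 _ (by rw [heq]; linarith)]
    congr 1
    rw [ht']
    push_cast
    ring

/-- homotopy invariance: two pairs of unimodular functions joined by `exp(2 π i s d)` -/
theorem iu_bott_homotopy {X : Type*} [TopologicalSpace X] [CompactSpace X] (U V : C(X, ℂ))
    (hU : ∀ p, ‖U p‖ = 1) (hV : ∀ p, ‖V p‖ = 1) (d d' : C(X, ℝ)) (U' V' : C(X, ℂ))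
    (hU' : ∀ p, U' p = U p * Complex.exp (2 * Real.pi * Complex.I * d p))
    (hV' : ∀ p, V' p = V p * Complex.exp (2 * Real.pi * Complex.I * d' p)) :
    ∃ w : Matrix (Fin 2) (Fin 2) C(X, ℂ), wᴴ * w = iuBott U V ∧ w * wᴴ = iuBott U' V' := by
  let F : C(ℝ × X, ℂ) := ⟨fun q => U q.2 * Complex.exp (2 * Real.pi * Complex.I * (q.1 * d q.2 : ℝ)),
    by fun_prop⟩
  let G : C(ℝ × X, ℂ) := ⟨fun q => V q.2 * Complex.exp (2 * Real.pi * Complex.I * (q.1 * d' q.2 : ℝ)),
    by fun_prop⟩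
  have hexp : ∀ r : ℝ, ‖Complex.exp (2 * Real.pi * Complex.I * (r : ℝ))‖ = 1 := by
    intro r
    have : 2 * Real.pi * Complex.I * (r : ℝ) = ((2 * Real.pi * r : ℝ) : ℂ) * Complex.I := by
      push_cast; ring
    rw [this, Complex.norm_exp_ofReal_mul_I]
  have hF : ∀ q, ‖F q‖ = 1 := fun q => by
    change ‖U q.2 * Complex.exp (2 * Real.pi * Complex.I * (q.1 * d q.2 : ℝ))‖ = 1
    rw [norm_mul, hU, hexp, one_mul]
  have hG : ∀ q, ‖G q‖ = 1 := fun q => by
    change ‖V q.2 * Complex.exp (2 * Real.pi * Complex.I * (q.1 * d' q.2 : ℝ))‖ = 1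
    rw [norm_mul, hV, hexp, one_mul]
  have key := iuBott_mvn_fun F G hF hG 0 1
  have f0 : F.curry 0 = U := by
    ext p
    change U p * Complex.exp (2 * Real.pi * Complex.I * ((0 : ℝ) * d p : ℝ)) = U p
    simp
  have g0 : G.curry 0 = V := by
    ext p
    change V p * Complex.exp (2 * Real.pi * Complex.I * ((0 : ℝ) * d' p : ℝ)) = V p
    simp
  have f1 : F.curry 1 = U' := by
    ext p
    change U p * Complex.exp (2 * Real.pi * Complex.I * ((1 : ℝ) * d p : ℝ)) = U' p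
    rw [hU', one_mul]
  have g1 : G.curry 1 = V' := by
    ext p
    change V p * Complex.exp (2 * Real.pi * Complex.I * ((1 : ℝ) * d' p : ℝ)) = V' p
    rw [hV', one_mul]
  rw [f0, g0, f1, g1] at key
  exact key

theorem iuGam_mem (x : ℝ) : 0 ≤ iuGam x ∧ iuGam x ≤ Real.pi / 2 := by
  have hpi := Real.pi_pos
  have a1 : 0 ≤ iuS1 x := Real.smoothTransition.nonneg _
  have a2 : iuS1 x ≤ 1 := Real.smoothTransition.le_one _
  have b1 : 0 ≤ iuS2 x := Real.smoothTransition.nonneg _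
  have b2 : iuS2 x ≤ 1 := Real.smoothTransition.le_one _
  unfold iuGam
  rcases iuS2_eq_zero_or x with h | h
  · rw [h]
    constructor <;> nlinarith
  · rw [h]
    constructor <;> nlinarith

theorem iuPc_nonneg (x : ℝ) : 0 ≤ iuPc x := by
  have h := iuGam_mem x
  exact Real.cos_nonneg_of_neg_pi_div_two_le_of_le (by linarith [Real.pi_pos]) h.2

theorem iuPs_nonneg (x : ℝ) : 0 ≤ iuPs x := by
  have h := iuGam_mem x
  exact Real.sin_nonneg_of_nonneg_of_le_pi h.1 (by linarith [Real.pi_pos])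

theorem iuKap_trig (x : ℝ) :
    Real.cos (2 * Real.pi * iuKap x) = 2 * iuPc x ^ 2 - 1 ∧
    max (Real.sin (2 * Real.pi * iuKap x)) 0 = 2 * (iuPc x * iuPs x - iuPh x) ∧
    max (-Real.sin (2 * Real.pi * iuKap x)) 0 = 2 * iuPh x := by
  have hc := iuPc_nonneg x
  have hs := iuPs_nonneg x
  have hcs : 0 ≤ iuPc x * iuPs x := mul_nonneg hc hs
  have c2 : Real.cos (2 * iuGam x) = 2 * iuPc x ^ 2 - 1 := Real.cos_two_mul _
  have s2 : Real.sin (2 * iuGam x) = 2 * iuPs x * iuPc x := Real.sin_two_mul _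
  rcases iuS2_eq_zero_or x with h | h
  · have e : 2 * Real.pi * iuKap x = 2 * iuGam x := by
      unfold iuKap iuGam; rw [h]; ring
    have hh : iuPh x = 0 := by unfold iuPh; rw [h]; simp
    rw [e, c2, s2, hh]
    refine ⟨rfl, ?_, ?_⟩
    · rw [max_eq_left (by nlinarith)]; ring
    · rw [max_eq_right (by nlinarith)]; ring
  · have e : 2 * Real.pi * iuKap x = 2 * Real.pi - 2 * iuGam x := by
      unfold iuKap iuGam; rw [h]; ring
    have hh : iuPh x = iuPc x * iuPs x := by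
      have : Real.pi * iuS2 x = Real.pi - 2 * iuGam x := by
        unfold iuGam; rw [h]; ring
      unfold iuPh
      rw [this, Real.sin_pi_sub, s2]; ring
    rw [e, Real.cos_two_pi_sub, Real.sin_two_pi_sub, c2, s2, hh]
    refine ⟨rfl, ?_, ?_⟩
    · rw [max_eq_right (by nlinarith)]; ring
    · rw [max_eq_left (by nlinarith)]; ring

theorem iuLor_kap (x : ℝ) (v : ℂ) :
    iuLor (Complex.exp (2 * Real.pi * Complex.I * iuKap x)) v =
      Matrix.of ![![(iuPc x : ℂ) ^ 2, ((iuPc x * iuPs x - iuPh x : ℝ) : ℂ) + (iuPh x : ℂ) * v],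
        ![((iuPc x * iuPs x - iuPh x : ℝ) : ℂ) + star v * (iuPh x : ℂ), 1 - (iuPc x : ℂ) ^ 2]] := by
  obtain ⟨t1, t2, t3⟩ := iuKap_trig x
  set u : ℂ := Complex.exp (2 * Real.pi * Complex.I * iuKap x) with hu
  have hu' : u = Complex.exp (((2 * Real.pi * iuKap x : ℝ) : ℂ) * Complex.I) := by
    rw [hu]; congr 1; push_cast; ring
  have hre : u.re = Real.cos (2 * Real.pi * iuKap x) := by
    rw [hu', Complex.exp_ofReal_mul_I_re]
  have him : u.im = Real.sin (2 * Real.pi * iuKap x) := by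
    rw [hu', Complex.exp_ofReal_mul_I_im]
  have f1 : (2 + u + star u) / 4 = (iuPc x : ℂ) ^ 2 := by
    rw [iuLor_f, hre, t1]; push_cast; ring
  have f2 : ((max u.im 0 : ℝ) : ℂ) / 2 = ((iuPc x * iuPs x - iuPh x : ℝ) : ℂ) := by
    rw [him, t2]; push_cast; ring
  have f3 : ((max (-u.im) 0 : ℝ) : ℂ) / 2 = (iuPh x : ℂ) := by
    rw [him, t3]; push_cast; ring
  unfold iuLor
  rw [f1, f2, f3]

theorem iuMat_apply_00 {M : Type*} [AddCommGroup M] [Module ℂ M] (T : Fin 3 → Fin 2 → M) :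
    iuMat T 0 0 = T 0 0 + T 0 1 := by
  simp [iuMat, iuCoef, Fin.sum_univ_three, Fin.sum_univ_two]

theorem iuMat_apply_01 {M : Type*} [AddCommGroup M] [Module ℂ M] (T : Fin 3 → Fin 2 → M) :
    iuMat T 0 1 = T 1 0 - T 2 1 := by
  simp [iuMat, iuCoef, Fin.sum_univ_three, Fin.sum_univ_two, sub_eq_add_neg]

theorem iuMat_apply_10 {M : Type*} [AddCommGroup M] [Module ℂ M] (T : Fin 3 → Fin 2 → M) :
    iuMat T 1 0 = T 1 1 - T 2 0 := by
  simp [iuMat, iuCoef, Fin.sum_univ_three, Fin.sum_univ_two, sub_eq_add_neg]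

theorem iuMat_apply_11 {M : Type*} [AddCommGroup M] [Module ℂ M] (T : Fin 3 → Fin 2 → M) :
    iuMat T 1 1 = -T 0 0 - T 0 1 := by
  simp [iuMat, iuCoef, Fin.sum_univ_three, Fin.sum_univ_two, sub_eq_add_neg]

/-- the scalar endpoint identity: `rot(γ)^* L(e(κ x), ω y) rot(γ) = e11 + a(x,y)`. -/
theorem iu_endpoint (x y : ℝ) :
    (Matrix.of ![![(iuPc x : ℂ), (iuPs x : ℂ)], ![-(iuPs x : ℂ), (iuPc x : ℂ)]]) *
      iuLor (Complex.exp (2 * Real.pi * Complex.I * iuKap x)) (iuOm y) *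
      (Matrix.of ![![(iuPc x : ℂ), -(iuPs x : ℂ)], ![(iuPs x : ℂ), (iuPc x : ℂ)]]) =
    iuE ℂ + iuMat fun k l => ((iuPA k x : ℝ) : ℂ) * iuPB l y := by
  rw [iuLor_kap]
  have E : (iuPc x : ℂ) ^ 2 + (iuPs x : ℂ) ^ 2 = 1 := by
    have := Real.cos_sq_add_sin_sq (iuGam x)
    unfold iuPc iuPs
    exact_mod_cast this
  set C : ℂ := (iuPc x : ℂ) with hC
  set S : ℂ := (iuPs x : ℂ) with hS
  set h : ℂ := (iuPh x : ℂ) with hh
  set ω : ℂ := iuOm y with hω
  have a0 : ((iuPA 0 x : ℝ) : ℂ) = h * C * S := by simp [iuPA, hh, hC, hS]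
  have a1 : ((iuPA 1 x : ℝ) : ℂ) = h * C ^ 2 := by simp [iuPA, hh, hC]
  have a2 : ((iuPA 2 x : ℝ) : ℂ) = h * S ^ 2 := by simp [iuPA, hh, hS]
  have b0 : iuPB 0 y = ω - 1 := rfl
  have b1 : iuPB 1 y = star ω - 1 := by
    change star (iuOm y - 1) = _
    rw [star_sub, star_one]
  have g : ((iuPc x * iuPs x - iuPh x : ℝ) : ℂ) = C * S - h := by push_cast; rfl
  rw [g]
  ext i j
  fin_cases i <;> fin_cases j
  · change ((Matrix.of ![![C, S], ![-S, C]]) * Matrix.of ![![C ^ 2, C * S - h + h * ω],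
      ![C * S - h + star ω * h, 1 - C ^ 2]] * (Matrix.of ![![C, -S], ![S, C]])) 0 0
        = iuE ℂ 0 0 + iuMat (fun k l => ((iuPA k x : ℝ) : ℂ) * iuPB l y) 0 0
    rw [iuMat_apply_00, a0, b0, b1, Matrix.mul_apply, Fin.sum_univ_two, Matrix.mul_apply,
      Matrix.mul_apply, Fin.sum_univ_two, Fin.sum_univ_two]
    change (C * C ^ 2 + S * (C * S - h + star ω * h)) * C
      + (C * (C * S - h + h * ω) + S * (1 - C ^ 2)) * S = 1 + (h * C * S * (ω - 1)
        + h * C * S * (star ω - 1))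
    linear_combination (C ^ 2 + 1) * E
  · change ((Matrix.of ![![C, S], ![-S, C]]) * Matrix.of ![![C ^ 2, C * S - h + h * ω],
      ![C * S - h + star ω * h, 1 - C ^ 2]] * (Matrix.of ![![C, -S], ![S, C]])) 0 1
        = iuE ℂ 0 1 + iuMat (fun k l => ((iuPA k x : ℝ) : ℂ) * iuPB l y) 0 1
    rw [iuMat_apply_01, a1, a2, b0, b1, Matrix.mul_apply, Fin.sum_univ_two, Matrix.mul_apply,
      Matrix.mul_apply, Fin.sum_univ_two, Fin.sum_univ_two]
    change (C * C ^ 2 + S * (C * S - h + star ω * h)) * (-S)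
      + (C * (C * S - h + h * ω) + S * (1 - C ^ 2)) * C = 0 + (h * C ^ 2 * (ω - 1)
        - h * S ^ 2 * (star ω - 1))
    linear_combination (-C * S) * E
  · change ((Matrix.of ![![C, S], ![-S, C]]) * Matrix.of ![![C ^ 2, C * S - h + h * ω],
      ![C * S - h + star ω * h, 1 - C ^ 2]] * (Matrix.of ![![C, -S], ![S, C]])) 1 0
        = iuE ℂ 1 0 + iuMat (fun k l => ((iuPA k x : ℝ) : ℂ) * iuPB l y) 1 0
    rw [iuMat_apply_10, a1, a2, b0, b1, Matrix.mul_apply, Fin.sum_univ_two, Matrix.mul_apply,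
      Matrix.mul_apply, Fin.sum_univ_two, Fin.sum_univ_two]
    change (-S * C ^ 2 + C * (C * S - h + star ω * h)) * C
      + (-S * (C * S - h + h * ω) + C * (1 - C ^ 2)) * S = 0 + (h * C ^ 2 * (star ω - 1)
        - h * S ^ 2 * (ω - 1))
    linear_combination (-C * S) * E
  · change ((Matrix.of ![![C, S], ![-S, C]]) * Matrix.of ![![C ^ 2, C * S - h + h * ω],
      ![C * S - h + star ω * h, 1 - C ^ 2]] * (Matrix.of ![![C, -S], ![S, C]])) 1 1
        = iuE ℂ 1 1 + iuMat (fun k l => ((iuPA k x : ℝ) : ℂ) * iuPB l y) 1 1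
    rw [iuMat_apply_11, a0, b0, b1, Matrix.mul_apply, Fin.sum_univ_two, Matrix.mul_apply,
      Matrix.mul_apply, Fin.sum_univ_two, Fin.sum_univ_two]
    change (-S * C ^ 2 + C * (C * S - h + star ω * h)) * (-S)
      + (-S * (C * S - h + h * ω) + C * (1 - C ^ 2)) * C = 0 + (-(h * C * S * (ω - 1))
        - h * C * S * (star ω - 1))
    linear_combination (-C ^ 2) * E

/-! ### the link -/

theorem iuS1_continuous : Continuous iuS1 := by
  unfold iuS1
  exact Real.smoothTransition.continuous.comp (by fun_prop)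

theorem iuS2_continuous : Continuous iuS2 := by
  unfold iuS2
  exact Real.smoothTransition.continuous.comp (by fun_prop)

theorem iuGam_continuous : Continuous iuGam := by
  unfold iuGam
  exact continuous_const.mul (iuS1_continuous.sub iuS2_continuous)

theorem iuKap_continuous : Continuous iuKap := by
  unfold iuKap
  exact (iuS1_continuous.add iuS2_continuous).div_const _

theorem iuKap_zero {x : ℝ} (h : x ≤ -2) : iuKap x = 0 := by
  unfold iuKap iuS1 iuS2
  rw [Real.smoothTransition.zero_of_nonpos (by linarith),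
    Real.smoothTransition.zero_of_nonpos (by linarith)]
  norm_num

theorem iuKap_one {x : ℝ} (h : 2 ≤ x) : iuKap x = 1 := by
  unfold iuKap iuS1 iuS2
  rw [Real.smoothTransition.one_of_one_le (by linarith),
    Real.smoothTransition.one_of_one_le (by linarith)]
  norm_num

theorem iuGam_eq_zero {x : ℝ} (h : 2 < |x|) : iuGam x = 0 := by
  unfold iuGam iuS1 iuS2
  rcases lt_abs.1 h with h | h
  · rw [Real.smoothTransition.one_of_one_le (by linarith),
      Real.smoothTransition.one_of_one_le (by linarith)]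
    norm_num
  · rw [Real.smoothTransition.zero_of_nonpos (by linarith),
      Real.smoothTransition.zero_of_nonpos (by linarith)]
    norm_num

/-- the profile `cos γ - 1` -/
noncomputable def iuPcm : C(ℝ, ℂ) :=
  ⟨fun x => ((iuPc x - 1 : ℝ) : ℂ), by
    unfold iuPc
    exact Complex.continuous_ofReal.comp
      ((Real.continuous_cos.comp iuGam_continuous).sub continuous_const)⟩

/-- the profile `sin γ` -/
noncomputable def iuPsm : C(ℝ, ℂ) :=
  ⟨fun x => ((iuPs x : ℝ) : ℂ), by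
    unfold iuPs
    exact Complex.continuous_ofReal.comp (Real.continuous_sin.comp iuGam_continuous)⟩

theorem iuPcm_supp : InjSupp 2 iuPcm := fun x hx => by
  change ((iuPc x - 1 : ℝ) : ℂ) = 0
  unfold iuPc
  rw [iuGam_eq_zero hx]; simp

theorem iuPsm_supp : InjSupp 2 iuPsm := fun x hx => by
  change ((iuPs x : ℝ) : ℂ) = 0
  unfold iuPs
  rw [iuGam_eq_zero hx]; simp

theorem iuMat_eval {X : Type*} [TopologicalSpace X] (T : Fin 3 → Fin 2 → C(X, ℂ)) (i j : Fin 2)
    (p : X) : iuMat T i j p = iuMat (fun k l => T k l p) i j := by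
  fin_cases i <;> fin_cases j
  · change iuMat T 0 0 p = iuMat (fun k l => T k l p) 0 0
    rw [iuMat_apply_00, iuMat_apply_00]; rfl
  · change iuMat T 0 1 p = iuMat (fun k l => T k l p) 0 1
    rw [iuMat_apply_01, iuMat_apply_01]; rfl
  · change iuMat T 1 0 p = iuMat (fun k l => T k l p) 1 0
    rw [iuMat_apply_10, iuMat_apply_10]; rfl
  · change iuMat T 1 1 p = iuMat (fun k l => T k l p) 1 1
    rw [iuMat_apply_11, iuMat_apply_11]; rfl

theorem iuE_eval {X : Type*} [TopologicalSpace X] (i j : Fin 2) (p : X) :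
    iuE C(X, ℂ) i j p = iuE ℂ i j := by
  fin_cases i <;> fin_cases j <;> rfl

theorem injE1_coe (t : ℝ) (ξ : InjT) :
    injE1 ((t : InjT), ξ) = Complex.exp (2 * Real.pi * Complex.I * t) := by
  change fourier 1 (t : InjT) = _
  rw [fourier_coe_apply]
  congr 1
  push_cast
  ring

theorem injE2_coe (θ : InjT) (t : ℝ) :
    injE2 (θ, (t : InjT)) = Complex.exp (2 * Real.pi * Complex.I * t) := by
  change fourier 1 (t : InjT) = _
  rw [fourier_coe_apply]
  congr 1
  push_cast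
  ring

theorem injE1_norm (p : InjT × InjT) : ‖injE1 p‖ = 1 := by
  change ‖fourier 1 p.1‖ = 1
  rw [fourier_apply]
  exact Circle.norm_coe _

theorem injE2_norm (p : InjT × InjT) : ‖injE2 p‖ = 1 := by
  change ‖fourier 1 p.2‖ = 1
  rw [fourier_apply]
  exact Circle.norm_coe _

/-- **U4.** -/
theorem iu_bott_link {b H0 N : ℕ} (h : IuBig b H0) (hN : 0 < N) :
    ∃ w : Matrix (Fin 2) (Fin 2) C(InjT × InjT, ℂ),
      wᴴ * w = iuBott injE1 injE2 ∧ w * wᴴ = iuE C(InjT × InjT, ℂ) + iuF b H0 N N 0 := by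
  have hR := iuR_ge b
  have hZ : 8 < injZs b H0 0 := by have := iu_big_Z h 0; linarith
  have hNn : 8 < injNs b H0 0 := by have := iu_big_N h 0; linarith
  set Z : ℝ := injZs b H0 0 with hZd
  set Nn : ℝ := injNs b H0 0 with hNd
  obtain ⟨d, hd⟩ := iu_lift iuKap iuKap_continuous (fun x hx => iuKap_zero hx)
    (fun x hx => iuKap_one hx) injAlpha Z (by linarith)
  obtain ⟨d', hd'⟩ := iu_lift (fun y => Real.smoothTransition ((y + 1) / 2))
    (Real.smoothTransition.continuous.comp (by fun_prop))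
    (fun x hx => Real.smoothTransition.zero_of_nonpos (by linarith))
    (fun x hx => Real.smoothTransition.one_of_one_le (by linarith)) 0 Nn (by linarith)
  let U' : C(InjT × InjT, ℂ) :=
    ⟨fun p => injE1 p * Complex.exp (2 * Real.pi * Complex.I * d p.1), by fun_prop⟩
  let V' : C(InjT × InjT, ℂ) :=
    ⟨fun p => injE2 p * Complex.exp (2 * Real.pi * Complex.I * d' p.2), by fun_prop⟩
  obtain ⟨w1, hw1, hw2⟩ := iu_bott_homotopy injE1 injE2 injE1_norm injE2_norm
    (d.comp ContinuousMap.fst) (d'.comp ContinuousMap.snd) U' V' (fun p => rfl) (fun p => rfl)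
  let cc : C(InjT × InjT, ℂ) := 1 + (injLoc iuPcm injAlpha Z).comp ContinuousMap.fst
  let ss : C(InjT × InjT, ℂ) := (injLoc iuPsm injAlpha Z).comp ContinuousMap.fst
  let Wt : Matrix (Fin 2) (Fin 2) C(InjT × InjT, ℂ) := Matrix.of ![![cc, ss], ![-ss, cc]]
  -- evaluation in the chart
  have chart : ∀ p : InjT × InjT, ∃ x y : ℝ, cc p = (iuPc x : ℂ) ∧ ss p = (iuPs x : ℂ) ∧
      U' p = Complex.exp (2 * Real.pi * Complex.I * iuKap x) ∧ V' p = iuOm y ∧
      ∀ k l, iuT b H0 N N 0 k l p = ((iuPA k x : ℝ) : ℂ) * iuPB l y := by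
    rintro ⟨θ, ξ⟩
    obtain ⟨t, rfl, ht⟩ := injT_exists_rep injAlpha θ
    obtain ⟨t', rfl, ht'⟩ := injT_exists_rep 0 ξ
    refine ⟨Z * (t - injAlpha), Nn * (t' - 0), ?_, ?_, ?_, ?_, ?_⟩
    · change 1 + injLoc iuPcm injAlpha Z (t : InjT) = _
      rw [injLoc_coe iuPcm_supp (by linarith) t ht]
      change 1 + ((iuPc (Z * (t - injAlpha)) - 1 : ℝ) : ℂ) = _
      push_cast; ring
    · change injLoc iuPsm injAlpha Z (t : InjT) = _
      rw [injLoc_coe iuPsm_supp (by linarith) t ht]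
      rfl
    · change injE1 ((t : InjT), (t' : InjT)) * Complex.exp (2 * Real.pi * Complex.I * d (t : InjT)) = _
      rw [injE1_coe, hd t ht]
    · change injE2 ((t : InjT), (t' : InjT)) * Complex.exp (2 * Real.pi * Complex.I * d' (t' : InjT)) = _
      rw [injE2_coe, hd' t' ht']
      rfl
    · intro k l
      change injLoc (iuA k (iuLam b N N)) injAlpha Z (t : InjT)
        * injLoc (iuB l (iuMu b N N)) 0 Nn (t' : InjT) = _
      rw [iuLam_last b hN, iuMu_last b hN,
        injLoc_coe (iuA_supp k (R := 2) one_pos (by norm_num)) (by linarith) t ht,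
        injLoc_coe (iuB_supp l (R := 2) one_pos (by norm_num)) (by linarith) t' ht',
        iuA_apply, iuB_apply, one_mul, one_mul]
  have hWt : ∀ p : InjT × InjT, ∀ x : ℝ, cc p = (iuPc x : ℂ) → ss p = (iuPs x : ℂ) →
      Wt.map (ContinuousMap.evalStarAlgHom ℂ ℂ p)
        = Matrix.of ![![(iuPc x : ℂ), (iuPs x : ℂ)], ![-(iuPs x : ℂ), (iuPc x : ℂ)]] := by
    intro p x h1 h2
    ext i j
    fin_cases i <;> fin_cases j
    · exact h1
    · exact h2
    · change -(ss p) = _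
      rw [h2]; rfl
    · exact h1
  have hWtH : ∀ p : InjT × InjT, ∀ x : ℝ, cc p = (iuPc x : ℂ) → ss p = (iuPs x : ℂ) →
      Wtᴴ.map (ContinuousMap.evalStarAlgHom ℂ ℂ p)
        = Matrix.of ![![(iuPc x : ℂ), -(iuPs x : ℂ)], ![(iuPs x : ℂ), (iuPc x : ℂ)]] := by
    intro p x h1 h2
    ext i j
    fin_cases i <;> fin_cases j
    · change star (cc p) = _
      rw [h1]; simp
    · change star (-(ss p)) = _
      rw [h2]; simp
    · change star (ss p) = _
      rw [h2]; simp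
    · change star (cc p) = _
      rw [h1]; simp
  have ext_eval : ∀ M M' : Matrix (Fin 2) (Fin 2) C(InjT × InjT, ℂ),
      (∀ p, M.map (ContinuousMap.evalStarAlgHom ℂ ℂ p) = M'.map (ContinuousMap.evalStarAlgHom ℂ ℂ p))
        → M = M' := by
    intro M M' hM
    ext i j p
    exact congrFun (congrFun (hM p) i) j
  have hunit : Wtᴴ * Wt = 1 := by
    apply ext_eval
    intro p
    obtain ⟨x, y, h1, h2, -⟩ := chart p
    rw [Matrix.map_mul, hWt p x h1 h2, hWtH p x h1 h2]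
    have E : (iuPc x : ℂ) ^ 2 + (iuPs x : ℂ) ^ 2 = 1 := by
      have := Real.cos_sq_add_sin_sq (iuGam x)
      unfold iuPc iuPs
      exact_mod_cast this
    ext i j
    fin_cases i <;> fin_cases j
    · change _ = (1 : ℂ)
      rw [Matrix.mul_apply, Fin.sum_univ_two]
      change (iuPc x : ℂ) * (iuPc x : ℂ) + -(iuPs x : ℂ) * -(iuPs x : ℂ) = 1
      linear_combination E
    · change _ = (0 : ℂ)
      rw [Matrix.mul_apply, Fin.sum_univ_two]
      change (iuPc x : ℂ) * (iuPs x : ℂ) + -(iuPs x : ℂ) * (iuPc x : ℂ) = 0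
      ring
    · change _ = (0 : ℂ)
      rw [Matrix.mul_apply, Fin.sum_univ_two]
      change (iuPs x : ℂ) * (iuPc x : ℂ) + (iuPc x : ℂ) * -(iuPs x : ℂ) = 0
      ring
    · change _ = (1 : ℂ)
      rw [Matrix.mul_apply, Fin.sum_univ_two]
      change (iuPs x : ℂ) * (iuPs x : ℂ) + (iuPc x : ℂ) * (iuPc x : ℂ) = 1
      linear_combination E
  have hend : Wt * iuBott U' V' * Wtᴴ = iuE C(InjT × InjT, ℂ) + iuF b H0 N N 0 := by
    apply ext_eval
    intro p
    obtain ⟨x, y, h1, h2, h3, h4, h5⟩ := chart p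
    rw [Matrix.map_mul, Matrix.map_mul, hWt p x h1 h2, hWtH p x h1 h2]
    have hB : (iuBott U' V').map (ContinuousMap.evalStarAlgHom ℂ ℂ p)
        = iuLor (Complex.exp (2 * Real.pi * Complex.I * iuKap x)) (iuOm y) := by
      ext i j
      change iuBott U' V' i j p = _
      rw [iuBott_apply, h3, h4]
    rw [hB, iu_endpoint]
    ext i j
    change _ = iuE C(InjT × InjT, ℂ) i j p + iuMat (iuT b H0 N N 0) i j p
    rw [iuE_eval, iuMat_eval]
    simp only [h5]
    rfl
  refine ⟨Wt * w1, ?_, ?_⟩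
  · rw [Matrix.conjTranspose_mul, Matrix.mul_assoc, ← Matrix.mul_assoc Wtᴴ, hunit, Matrix.one_mul, hw1]
  · rw [Matrix.conjTranspose_mul, Matrix.mul_assoc, ← Matrix.mul_assoc w1, hw2, ← Matrix.mul_assoc,
      hend]

end Claimed.Agent.R300
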