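/-
Row 300 / S0553 (INJ paper), UPPER ASSEMBLY package U1 (owner: helper240).
The abstract rotation homotopy `Q + W_t α W_t*`, `W_t = cos t w₁ + sin t w₂`.
-/
import Mathlib
import Claimed.Agent.R300.IuKBasic

set_option autoImplicit false
set_option linter.unusedSimpArgs false

namespace Claimed.Agent.R300

variable {D : Type*} [CStarAlgebra D]

/-- defect of `Q + W α W*`. -/
theorem iu_rot_defect {Q α e₀ W : D} (hQ : IsSelfAdjoint Q) (hα : IsSelfAdjoint α)
    (he : IsSelfAdjoint e₀) {δ C C' : ℝ}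
    (h1 : ‖Q * Q - Q‖ ≤ δ) (h2 : ‖Q * W * α - W * e₀ * α‖ ≤ δ)
    (h3 : ‖star W * W * α - α‖ ≤ δ) (h4 : ‖e₀ * α + α * e₀ + α * α - α‖ ≤ δ)
    (hW : ‖W‖ ≤ C) (hαn : ‖α‖ ≤ C') :
    ‖(Q + W * α * star W) * (Q + W * α * star W) - (Q + W * α * star W)‖
      ≤ δ * (1 + 2 * C + C ^ 2 * (C' + 1)) := by
  have hδ : 0 ≤ δ := (norm_nonneg _).trans h1
  have hC : 0 ≤ C := (norm_nonneg _).trans hW
  have hC' : 0 ≤ C' := (norm_nonneg _).trans hαn
  set R1 : D := Q * W * α - W * e₀ * α with hR1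
  set R2 : D := star W * W * α - α with hR2
  set R3 : D := e₀ * α + α * e₀ + α * α - α with hR3
  have hsR1 : star R1 = α * star W * Q - α * e₀ * star W := by
    rw [hR1, star_sub, star_mul, star_mul, star_mul, star_mul, hQ.star_eq, hα.star_eq, he.star_eq]
    simp only [mul_assoc]
  have key : (Q + W * α * star W) * (Q + W * α * star W) - (Q + W * α * star W)
      = (Q * Q - Q) + R1 * star W + W * star R1 + W * α * R2 * star W + W * R3 * star W := by
    rw [hsR1, hR1, hR2, hR3]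
    noncomm_ring
  rw [key]
  have hsW : ‖star W‖ ≤ C := by rwa [norm_star]
  have n1 : ‖R1 * star W‖ ≤ δ * C :=
    (norm_mul_le _ _).trans (mul_le_mul h2 hsW (norm_nonneg _) hδ)
  have n2 : ‖W * star R1‖ ≤ C * δ := by
    refine (norm_mul_le _ _).trans (mul_le_mul hW ?_ (norm_nonneg _) hC)
    rwa [norm_star]
  have n3 : ‖W * α * R2 * star W‖ ≤ C * C' * δ * C := by
    refine (norm_mul_le _ _).trans (mul_le_mul ?_ hsW (norm_nonneg _) (by positivity))
    refine (norm_mul_le _ _).trans (mul_le_mul ?_ h3 (norm_nonneg _) (by positivity))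
    exact (norm_mul_le _ _).trans (mul_le_mul hW hαn (norm_nonneg _) hC)
  have n4 : ‖W * R3 * star W‖ ≤ C * δ * C := by
    refine (norm_mul_le _ _).trans (mul_le_mul ?_ hsW (norm_nonneg _) (by positivity))
    exact (norm_mul_le _ _).trans (mul_le_mul hW h4 (norm_nonneg _) hC)
  calc ‖(Q * Q - Q) + R1 * star W + W * star R1 + W * α * R2 * star W + W * R3 * star W‖
      ≤ ‖Q * Q - Q‖ + ‖R1 * star W‖ + ‖W * star R1‖ + ‖W * α * R2 * star W‖
          + ‖W * R3 * star W‖ := by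
        refine (norm_add_le _ _).trans (add_le_add_left ?_ _)
        refine (norm_add_le _ _).trans (add_le_add_left ?_ _)
        refine (norm_add_le _ _).trans (add_le_add_left ?_ _)
        exact norm_add_le _ _
    _ ≤ δ + δ * C + C * δ + C * C' * δ * C + C * δ * C := by linarith
    _ = δ * (1 + 2 * C + C ^ 2 * (C' + 1)) := by ring

theorem iu_rot_sa {Q α W : D} (hQ : IsSelfAdjoint Q) (hα : IsSelfAdjoint α) :
    IsSelfAdjoint (Q + W * α * star W) := by
  refine hQ.add ?_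
  unfold IsSelfAdjoint
  rw [star_mul, star_mul, star_star, hα.star_eq, mul_assoc]

/-- the rotating column -/
noncomputable def iuW (w1 w2 : D) (t : ℝ) : D :=
  ((Real.cos t : ℝ) : ℂ) • w1 + ((Real.sin t : ℝ) : ℂ) • w2

theorem iuW_continuous (w1 w2 : D) : Continuous (iuW w1 w2) := by
  unfold iuW
  have h1 : Continuous fun t : ℝ => ((Real.cos t : ℝ) : ℂ) :=
    Complex.continuous_ofReal.comp Real.continuous_cos
  have h2 : Continuous fun t : ℝ => ((Real.sin t : ℝ) : ℂ) :=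
    Complex.continuous_ofReal.comp Real.continuous_sin
  exact (h1.smul continuous_const).add (h2.smul continuous_const)

theorem iuW_zero (w1 w2 : D) : iuW w1 w2 0 = w1 := by simp [iuW]

theorem iuW_pi_div_two (w1 w2 : D) : iuW w1 w2 (Real.pi / 2) = w2 := by simp [iuW]

theorem iuW_star (w1 w2 : D) (t : ℝ) :
    star (iuW w1 w2 t) = ((Real.cos t : ℝ) : ℂ) • star w1 + ((Real.sin t : ℝ) : ℂ) • star w2 := by
  simp only [iuW, star_add, star_smul, Complex.star_def, Complex.conj_ofReal]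

theorem iu_norm_ofReal_smul_le (c : ℝ) (hc : |c| ≤ 1) (x : D) {δ : ℝ} (hx : ‖x‖ ≤ δ) :
    ‖((c : ℝ) : ℂ) • x‖ ≤ δ := by
  rw [norm_smul, Complex.norm_real, Real.norm_eq_abs]
  calc |c| * ‖x‖ ≤ 1 * ‖x‖ := mul_le_mul_of_nonneg_right hc (norm_nonneg _)
    _ ≤ δ := by rw [one_mul]; exact hx

theorem iu_rot_alg (c s : ℂ) (h : c * c + s * s = 1) (w1 w2 α : D) :
    (c • star w1 + s • star w2) * (c • w1 + s • w2) * α - α
      = (c * c) • (star w1 * w1 * α - α) + (s * s) • (star w2 * w2 * α - α)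
        + (c * s) • (star w1 * w2 * α) + (c * s) • (star w2 * w1 * α) := by
  have h1 : (c • star w1 + s • star w2) * (c • w1 + s • w2) * α - α
      = (c * c) • (star w1 * w1 * α - α) + (s * s) • (star w2 * w2 * α - α)
        + (c * s) • (star w1 * w2 * α) + (c * s) • (star w2 * w1 * α)
        + (c * c + s * s - 1) • α := by
    simp only [add_mul, mul_add, smul_mul_assoc, mul_smul_comm, smul_smul]
    module
  rw [h1, h, sub_self, zero_smul, add_zero]

/-- **Rotation lemma.** -/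
theorem iu_rot_path {Q α e₀ w1 w2 : D} (hQ : IsSelfAdjoint Q) (hα : IsSelfAdjoint α)
    (he : IsSelfAdjoint e₀) {δ C C' : ℝ}
    (h1 : ‖Q * Q - Q‖ ≤ δ)
    (h21 : ‖Q * w1 * α - w1 * e₀ * α‖ ≤ δ) (h22 : ‖Q * w2 * α - w2 * e₀ * α‖ ≤ δ)
    (h31 : ‖star w1 * w1 * α - α‖ ≤ δ) (h32 : ‖star w2 * w2 * α - α‖ ≤ δ)
    (h33 : ‖star w1 * w2 * α‖ ≤ δ) (h34 : ‖star w2 * w1 * α‖ ≤ δ)
    (h4 : ‖e₀ * α + α * e₀ + α * α - α‖ ≤ δ)
    (hw1 : ‖w1‖ ≤ C) (hw2 : ‖w2‖ ≤ C) (hαn : ‖α‖ ≤ C')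
    (hsmall : 4 * δ * (1 + 2 * (2 * C) + (2 * C) ^ 2 * (C' + 1)) ≤ 1 / 100) :
    IuAP (Q + w1 * α * star w1) ∧ IuAP (Q + w2 * α * star w2) ∧
    IuMvN (iuPi (Q + w1 * α * star w1)) (iuPi (Q + w2 * α * star w2)) := by
  have hδ : 0 ≤ δ := (norm_nonneg _).trans h1
  set X : ℝ → D := fun t => Q + iuW w1 w2 t * α * star (iuW w1 w2 t) with hX
  have hXc : Continuous X := by
    have h := iuW_continuous w1 w2
    exact continuous_const.add ((h.mul continuous_const).mul (continuous_star.comp h))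
  have hAP : ∀ t, IuAP (X t) := by
    intro t
    refine ⟨iu_rot_sa hQ hα, ?_⟩
    have hc : |Real.cos t| ≤ 1 := Real.abs_cos_le_one t
    have hs : |Real.sin t| ≤ 1 := Real.abs_sin_le_one t
    have hcc : |Real.cos t * Real.cos t| ≤ 1 := by
      rw [abs_mul]; exact mul_le_one₀ hc (abs_nonneg _) hc
    have hss : |Real.sin t * Real.sin t| ≤ 1 := by
      rw [abs_mul]; exact mul_le_one₀ hs (abs_nonneg _) hs
    have hcs : |Real.cos t * Real.sin t| ≤ 1 := by
      rw [abs_mul]; exact mul_le_one₀ hc (abs_nonneg _) hs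
    refine (iu_rot_defect (δ := 4 * δ) (C := 2 * C) (C' := C') hQ hα he (by linarith) ?_ ?_
      (by linarith) ?_ hαn).trans hsmall
    · have : Q * iuW w1 w2 t * α - iuW w1 w2 t * e₀ * α
          = ((Real.cos t : ℝ) : ℂ) • (Q * w1 * α - w1 * e₀ * α)
            + ((Real.sin t : ℝ) : ℂ) • (Q * w2 * α - w2 * e₀ * α) := by
        simp only [iuW, mul_add, add_mul, smul_sub, mul_smul_comm, smul_mul_assoc]
        abel
      rw [this]
      have a1 := iu_norm_ofReal_smul_le _ hc _ h21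
      have a2 := iu_norm_ofReal_smul_le _ hs _ h22
      exact (norm_add_le _ _).trans (by linarith)
    · have hone : ((Real.cos t * Real.cos t : ℝ) : ℂ) + ((Real.sin t * Real.sin t : ℝ) : ℂ) = 1 := by
        rw [← Complex.ofReal_add]
        have := Real.cos_sq_add_sin_sq t
        rw [sq, sq] at this
        rw [this, Complex.ofReal_one]
      have : star (iuW w1 w2 t) * iuW w1 w2 t * α - α
          = ((Real.cos t * Real.cos t : ℝ) : ℂ) • (star w1 * w1 * α - α)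
            + ((Real.sin t * Real.sin t : ℝ) : ℂ) • (star w2 * w2 * α - α)
            + ((Real.cos t * Real.sin t : ℝ) : ℂ) • (star w1 * w2 * α)
            + ((Real.cos t * Real.sin t : ℝ) : ℂ) • (star w2 * w1 * α) := by
        rw [iuW_star, iuW, Complex.ofReal_mul, Complex.ofReal_mul, Complex.ofReal_mul]
        rw [Complex.ofReal_mul, Complex.ofReal_mul] at hone
        exact iu_rot_alg _ _ hone w1 w2 α
      rw [this]
      have a1 := iu_norm_ofReal_smul_le _ hcc _ h31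
      have a2 := iu_norm_ofReal_smul_le _ hss _ h32
      have a3 := iu_norm_ofReal_smul_le _ hcs _ h33
      have a4 := iu_norm_ofReal_smul_le _ hcs _ h34
      refine (norm_add_le _ _).trans ?_
      have b1 := norm_add_le (((Real.cos t * Real.cos t : ℝ) : ℂ) • (star w1 * w1 * α - α)
            + ((Real.sin t * Real.sin t : ℝ) : ℂ) • (star w2 * w2 * α - α))
            (((Real.cos t * Real.sin t : ℝ) : ℂ) • (star w1 * w2 * α))
      have b2 := norm_add_le (((Real.cos t * Real.cos t : ℝ) : ℂ) • (star w1 * w1 * α - α))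
            (((Real.sin t * Real.sin t : ℝ) : ℂ) • (star w2 * w2 * α - α))
      linarith
    · have a1 := iu_norm_ofReal_smul_le _ hc _ hw1
      have a2 := iu_norm_ofReal_smul_le _ hs _ hw2
      exact (norm_add_le _ _).trans (by linarith)
  have h0 : X 0 = Q + w1 * α * star w1 := by simp only [hX, iuW_zero]
  have h2 : X (Real.pi / 2) = Q + w2 * α * star w2 := by simp only [hX, iuW_pi_div_two]
  refine ⟨h0 ▸ hAP 0, h2 ▸ hAP (Real.pi / 2), ?_⟩
  have := iuMvN_path X hXc hAP 0 (Real.pi / 2)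
  rwa [h0, h2] at this

/-! ### Sandwiched form (hypotheses `α W* W α ≈ α α`), as consumed by the band rotations -/

/-- defect of `Q + W α W*`, sandwiched hypotheses. -/
theorem iu_rot_defect' {Q α e₀ W : D} (hQ : IsSelfAdjoint Q) (hα : IsSelfAdjoint α)
    (he : IsSelfAdjoint e₀) {δ1 δ2 δ3 δ4 C : ℝ}
    (h1 : ‖Q * Q - Q‖ ≤ δ1) (h2 : ‖Q * W * α - W * e₀ * α‖ ≤ δ2)
    (h3 : ‖α * star W * W * α - α * α‖ ≤ δ3) (h4 : ‖e₀ * α + α * e₀ + α * α - α‖ ≤ δ4)
    (hW : ‖W‖ ≤ C) :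
    ‖(Q + W * α * star W) * (Q + W * α * star W) - (Q + W * α * star W)‖
      ≤ δ1 + 2 * C * δ2 + C ^ 2 * (δ3 + δ4) := by
  have hδ2 : 0 ≤ δ2 := (norm_nonneg _).trans h2
  have hδ3 : 0 ≤ δ3 := (norm_nonneg _).trans h3
  have hδ4 : 0 ≤ δ4 := (norm_nonneg _).trans h4
  have hC : 0 ≤ C := (norm_nonneg _).trans hW
  set R1 : D := Q * W * α - W * e₀ * α with hR1
  set R2 : D := α * star W * W * α - α * α with hR2
  set R3 : D := e₀ * α + α * e₀ + α * α - α with hR3
  have hsR1 : star R1 = α * star W * Q - α * e₀ * star W := by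
    rw [hR1, star_sub, star_mul, star_mul, star_mul, star_mul, hQ.star_eq, hα.star_eq, he.star_eq]
    simp only [mul_assoc]
  have key : (Q + W * α * star W) * (Q + W * α * star W) - (Q + W * α * star W)
      = (Q * Q - Q) + R1 * star W + W * star R1 + W * R2 * star W + W * R3 * star W := by
    rw [hsR1, hR1, hR2, hR3]
    noncomm_ring
  rw [key]
  have hsW : ‖star W‖ ≤ C := by rwa [norm_star]
  have n1 : ‖R1 * star W‖ ≤ δ2 * C :=
    (norm_mul_le _ _).trans (mul_le_mul h2 hsW (norm_nonneg _) hδ2)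
  have n2 : ‖W * star R1‖ ≤ C * δ2 := by
    refine (norm_mul_le _ _).trans (mul_le_mul hW ?_ (norm_nonneg _) hC)
    rwa [norm_star]
  have n3 : ‖W * R2 * star W‖ ≤ C * δ3 * C := by
    refine (norm_mul_le _ _).trans (mul_le_mul ?_ hsW (norm_nonneg _) (by positivity))
    exact (norm_mul_le _ _).trans (mul_le_mul hW h3 (norm_nonneg _) hC)
  have n4 : ‖W * R3 * star W‖ ≤ C * δ4 * C := by
    refine (norm_mul_le _ _).trans (mul_le_mul ?_ hsW (norm_nonneg _) (by positivity))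
    exact (norm_mul_le _ _).trans (mul_le_mul hW h4 (norm_nonneg _) hC)
  calc ‖(Q * Q - Q) + R1 * star W + W * star R1 + W * R2 * star W + W * R3 * star W‖
      ≤ ‖Q * Q - Q‖ + ‖R1 * star W‖ + ‖W * star R1‖ + ‖W * R2 * star W‖
          + ‖W * R3 * star W‖ := by
        refine (norm_add_le _ _).trans (add_le_add_left ?_ _)
        refine (norm_add_le _ _).trans (add_le_add_left ?_ _)
        refine (norm_add_le _ _).trans (add_le_add_left ?_ _)
        exact norm_add_le _ _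
    _ ≤ δ1 + δ2 * C + C * δ2 + C * δ3 * C + C * δ4 * C := by linarith
    _ = δ1 + 2 * C * δ2 + C ^ 2 * (δ3 + δ4) := by ring

theorem iu_rot_alg' (c s : ℂ) (h : c * c + s * s = 1) (w1 w2 α : D) :
    α * (c • star w1 + s • star w2) * (c • w1 + s • w2) * α - α * α
      = (c * c) • (α * star w1 * w1 * α - α * α) + (s * s) • (α * star w2 * w2 * α - α * α)
        + (c * s) • (α * star w1 * w2 * α) + (c * s) • (α * star w2 * w1 * α) := by
  have h1 : α * (c • star w1 + s • star w2) * (c • w1 + s • w2) * α - α * α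
      = (c * c) • (α * star w1 * w1 * α - α * α) + (s * s) • (α * star w2 * w2 * α - α * α)
        + (c * s) • (α * star w1 * w2 * α) + (c * s) • (α * star w2 * w1 * α)
        + (c * c + s * s - 1) • (α * α) := by
    simp only [add_mul, mul_add, smul_mul_assoc, mul_smul_comm, smul_smul]
    module
  rw [h1, h, sub_self, zero_smul, add_zero]

/-- **Rotation lemma (ROT)**, sandwiched form; general constants. -/
theorem iu_rot_path_gen {Q α e₀ w1 w2 : D} (hQ : IsSelfAdjoint Q) (hα : IsSelfAdjoint α)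
    (he : IsSelfAdjoint e₀) {δ C : ℝ}
    (h1 : ‖Q * Q - Q‖ ≤ δ)
    (h21 : ‖Q * w1 * α - w1 * e₀ * α‖ ≤ δ) (h22 : ‖Q * w2 * α - w2 * e₀ * α‖ ≤ δ)
    (h31 : ‖α * star w1 * w1 * α - α * α‖ ≤ δ) (h32 : ‖α * star w2 * w2 * α - α * α‖ ≤ δ)
    (h33 : ‖α * star w1 * w2 * α‖ ≤ δ)
    (h4 : ‖e₀ * α + α * e₀ + α * α - α‖ ≤ δ)
    (hw1 : ‖w1‖ ≤ C) (hw2 : ‖w2‖ ≤ C)
    (hsmall : δ * (1 + 8 * C + 20 * C ^ 2) ≤ 1 / 100) :
    (∀ t : ℝ, IuAP (Q + iuW w1 w2 t * α * star (iuW w1 w2 t))) ∧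
    IuAP (Q + w1 * α * star w1) ∧ IuAP (Q + w2 * α * star w2) ∧
    IuMvN (iuPi (Q + w1 * α * star w1)) (iuPi (Q + w2 * α * star w2)) := by
  have hδ : 0 ≤ δ := (norm_nonneg _).trans h1
  have h34 : ‖α * star w2 * w1 * α‖ ≤ δ := by
    have : α * star w2 * w1 * α = star (α * star w1 * w2 * α) := by
      simp only [star_mul, star_star, hα.star_eq, mul_assoc]
    rw [this, norm_star]; exact h33
  set X : ℝ → D := fun t => Q + iuW w1 w2 t * α * star (iuW w1 w2 t) with hX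
  have hXc : Continuous X := by
    have h := iuW_continuous w1 w2
    exact continuous_const.add ((h.mul continuous_const).mul (continuous_star.comp h))
  have hAP : ∀ t, IuAP (X t) := by
    intro t
    refine ⟨iu_rot_sa hQ hα, ?_⟩
    have hc : |Real.cos t| ≤ 1 := Real.abs_cos_le_one t
    have hs : |Real.sin t| ≤ 1 := Real.abs_sin_le_one t
    have hcc : |Real.cos t * Real.cos t| ≤ 1 := by
      rw [abs_mul]; exact mul_le_one₀ hc (abs_nonneg _) hc
    have hss : |Real.sin t * Real.sin t| ≤ 1 := by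
      rw [abs_mul]; exact mul_le_one₀ hs (abs_nonneg _) hs
    have hcs : |Real.cos t * Real.sin t| ≤ 1 := by
      rw [abs_mul]; exact mul_le_one₀ hc (abs_nonneg _) hs
    refine (iu_rot_defect' (δ1 := δ) (δ2 := 2 * δ) (δ3 := 4 * δ) (δ4 := δ) (C := 2 * C)
      hQ hα he h1 ?_ ?_ h4 ?_).trans (le_trans (le_of_eq (by ring)) hsmall)
    · have : Q * iuW w1 w2 t * α - iuW w1 w2 t * e₀ * α
          = ((Real.cos t : ℝ) : ℂ) • (Q * w1 * α - w1 * e₀ * α)
            + ((Real.sin t : ℝ) : ℂ) • (Q * w2 * α - w2 * e₀ * α) := by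
        simp only [iuW, mul_add, add_mul, smul_sub, mul_smul_comm, smul_mul_assoc]
        abel
      rw [this]
      have a1 := iu_norm_ofReal_smul_le _ hc _ h21
      have a2 := iu_norm_ofReal_smul_le _ hs _ h22
      exact (norm_add_le _ _).trans (by linarith)
    · have hone : ((Real.cos t * Real.cos t : ℝ) : ℂ) + ((Real.sin t * Real.sin t : ℝ) : ℂ) = 1 := by
        rw [← Complex.ofReal_add]
        have := Real.cos_sq_add_sin_sq t
        rw [sq, sq] at this
        rw [this, Complex.ofReal_one]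
      have : α * star (iuW w1 w2 t) * iuW w1 w2 t * α - α * α
          = ((Real.cos t * Real.cos t : ℝ) : ℂ) • (α * star w1 * w1 * α - α * α)
            + ((Real.sin t * Real.sin t : ℝ) : ℂ) • (α * star w2 * w2 * α - α * α)
            + ((Real.cos t * Real.sin t : ℝ) : ℂ) • (α * star w1 * w2 * α)
            + ((Real.cos t * Real.sin t : ℝ) : ℂ) • (α * star w2 * w1 * α) := by
        rw [iuW_star, iuW, Complex.ofReal_mul, Complex.ofReal_mul, Complex.ofReal_mul]
        rw [Complex.ofReal_mul, Complex.ofReal_mul] at hone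
        exact iu_rot_alg' _ _ hone w1 w2 α
      rw [this]
      have a1 := iu_norm_ofReal_smul_le _ hcc _ h31
      have a2 := iu_norm_ofReal_smul_le _ hss _ h32
      have a3 := iu_norm_ofReal_smul_le _ hcs _ h33
      have a4 := iu_norm_ofReal_smul_le _ hcs _ h34
      refine (norm_add_le _ _).trans ?_
      have b1 := norm_add_le (((Real.cos t * Real.cos t : ℝ) : ℂ) • (α * star w1 * w1 * α - α * α)
            + ((Real.sin t * Real.sin t : ℝ) : ℂ) • (α * star w2 * w2 * α - α * α))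
            (((Real.cos t * Real.sin t : ℝ) : ℂ) • (α * star w1 * w2 * α))
      have b2 := norm_add_le (((Real.cos t * Real.cos t : ℝ) : ℂ) • (α * star w1 * w1 * α - α * α))
            (((Real.sin t * Real.sin t : ℝ) : ℂ) • (α * star w2 * w2 * α - α * α))
      linarith
    · have a1 := iu_norm_ofReal_smul_le _ hc _ hw1
      have a2 := iu_norm_ofReal_smul_le _ hs _ hw2
      exact (norm_add_le _ _).trans (by linarith)
  have h0 : X 0 = Q + w1 * α * star w1 := by simp only [hX, iuW_zero]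
  have h2 : X (Real.pi / 2) = Q + w2 * α * star w2 := by simp only [hX, iuW_pi_div_two]
  refine ⟨hAP, h0 ▸ hAP 0, h2 ▸ hAP (Real.pi / 2), ?_⟩
  have := iuMvN_path X hXc hAP 0 (Real.pi / 2)
  rwa [h0, h2] at this

/-- **(ROT)** in the shape requested by the upper assembly: `‖W₀‖, ‖W₁‖ ≤ 2`, `ε ≤ 10⁻⁴`. -/
theorem iu_rot {x0 a W0 W1 e0 : D} {ε : ℝ} (hε : ε ≤ 1 / 10 ^ 4)
    (hx0 : IsSelfAdjoint x0) (ha : IsSelfAdjoint a) (he0 : IsSelfAdjoint e0)
    (h1 : ‖x0 * x0 - x0‖ ≤ ε)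
    (h20 : ‖x0 * W0 * a - W0 * e0 * a‖ ≤ ε) (h21 : ‖x0 * W1 * a - W1 * e0 * a‖ ≤ ε)
    (h30 : ‖a * star W0 * W0 * a - a * a‖ ≤ ε) (h31 : ‖a * star W1 * W1 * a - a * a‖ ≤ ε)
    (h32 : ‖a * star W0 * W1 * a‖ ≤ ε)
    (h4 : ‖e0 * a + a * e0 + a * a - a‖ ≤ ε)
    (hW0 : ‖W0‖ ≤ 2) (hW1 : ‖W1‖ ≤ 2) :
    IuMvN (iuPi (x0 + W0 * a * star W0)) (iuPi (x0 + W1 * a * star W1)) :=
  (iu_rot_path_gen hx0 ha he0 h1 h20 h21 h30 h31 h32 h4 hW0 hW1
    (by norm_num at hε ⊢; linarith)).2.2.2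

theorem iu_rot_ap {x0 a W0 W1 e0 : D} {ε : ℝ} (hε : ε ≤ 1 / 10 ^ 4)
    (hx0 : IsSelfAdjoint x0) (ha : IsSelfAdjoint a) (he0 : IsSelfAdjoint e0)
    (h1 : ‖x0 * x0 - x0‖ ≤ ε)
    (h20 : ‖x0 * W0 * a - W0 * e0 * a‖ ≤ ε) (h21 : ‖x0 * W1 * a - W1 * e0 * a‖ ≤ ε)
    (h30 : ‖a * star W0 * W0 * a - a * a‖ ≤ ε) (h31 : ‖a * star W1 * W1 * a - a * a‖ ≤ ε)
    (h32 : ‖a * star W0 * W1 * a‖ ≤ ε)
    (h4 : ‖e0 * a + a * e0 + a * a - a‖ ≤ ε)
    (hW0 : ‖W0‖ ≤ 2) (hW1 : ‖W1‖ ≤ 2) :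
    IuAP (x0 + W0 * a * star W0) ∧ IuAP (x0 + W1 * a * star W1) :=
  let h := iu_rot_path_gen hx0 ha he0 h1 h20 h21 h30 h31 h32 h4 hW0 hW1
    (by norm_num at hε ⊢; linarith)
  ⟨h.2.1, h.2.2.1⟩

end Claimed.Agent.R300
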