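/-
Row 300 / S0553 (INJ paper), UPPER ASSEMBLY package U1 (owner: helper240).
Theorem AbsK in `M_3(B)`, `B` an abstract unital C*-algebra with a projection `e` and an
element `V` commuting with `e`.
-/
import Mathlib
import Claimed.Agent.R300.IuKBasic
import Claimed.Agent.R300.IuKMat
import Claimed.Agent.R300.IuKRot

set_option autoImplicit false
set_option linter.unusedSimpArgs false
set_option linter.unusedSectionVars false

namespace Claimed.Agent.R300

open scoped CStarAlgebra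

variable {B : Type*} [CStarAlgebra B] [PartialOrder B] [StarOrderedRing B]

/-- diagonal `3 × 3` matrices -/
def iuDiag (b0 b1 b2 : B) : CStarMatrix (Fin 3) (Fin 3) B :=
  iuKE 0 0 b0 + iuKE 1 1 b1 + iuKE 2 2 b2

theorem iuDiag_mul (a0 a1 a2 b0 b1 b2 : B) :
    iuDiag a0 a1 a2 * iuDiag b0 b1 b2 = iuDiag (a0 * b0) (a1 * b1) (a2 * b2) := by
  simp [iuDiag, add_mul, mul_add, iuKE_mul]

theorem iuDiag_star (b0 b1 b2 : B) :
    star (iuDiag b0 b1 b2) = iuDiag (star b0) (star b1) (star b2) := by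
  simp [iuDiag]

theorem iuDiag_add (a0 a1 a2 b0 b1 b2 : B) :
    iuDiag a0 a1 a2 + iuDiag b0 b1 b2 = iuDiag (a0 + b0) (a1 + b1) (a2 + b2) := by
  simp only [iuDiag, iuKE_add]; abel

theorem iuDiag_sub (a0 a1 a2 b0 b1 b2 : B) :
    iuDiag a0 a1 a2 - iuDiag b0 b1 b2 = iuDiag (a0 - b0) (a1 - b1) (a2 - b2) := by
  simp only [iuDiag, iuKE_sub]; abel

theorem iuDiag_one : iuDiag (1 : B) 1 1 = 1 := by
  rw [iuKE_one_sum, Fin.sum_univ_three]; rfl

theorem iuDiag_zero : iuDiag (0 : B) 0 0 = 0 := by simp [iuDiag]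

theorem iuDiag_norm_le (b0 b1 b2 : B) : ‖iuDiag b0 b1 b2‖ ≤ ‖b0‖ + ‖b1‖ + ‖b2‖ := by
  unfold iuDiag
  refine (norm_add_le _ _).trans (add_le_add ((norm_add_le _ _).trans (add_le_add ?_ ?_)) ?_) <;>
    exact iuKE_norm_le _ _ _

theorem iuDiag_isSelfAdjoint {b0 b1 b2 : B} (h0 : IsSelfAdjoint b0) (h1 : IsSelfAdjoint b1)
    (h2 : IsSelfAdjoint b2) : IsSelfAdjoint (iuDiag b0 b1 b2) := by
  unfold IsSelfAdjoint
  rw [iuDiag_star, h0.star_eq, h1.star_eq, h2.star_eq]

theorem iuDiag_proj {b0 b1 b2 : B} (h0 : IsStarProjection b0) (h1 : IsStarProjection b1)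
    (h2 : IsStarProjection b2) : IsStarProjection (iuDiag b0 b1 b2) :=
  ⟨by unfold IsIdempotentElem
      rw [iuDiag_mul, h0.isIdempotentElem.eq, h1.isIdempotentElem.eq, h2.isIdempotentElem.eq],
    iuDiag_isSelfAdjoint h0.isSelfAdjoint h1.isSelfAdjoint h2.isSelfAdjoint⟩

theorem iuDiag_mvn {a0 a1 a2 b0 b1 b2 : B} (h0 : IuMvN a0 b0) (h1 : IuMvN a1 b1)
    (h2 : IuMvN a2 b2) : IuMvN (iuDiag a0 a1 a2) (iuDiag b0 b1 b2) := by
  obtain ⟨w0, x0, y0⟩ := h0
  obtain ⟨w1, x1, y1⟩ := h1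
  obtain ⟨w2, x2, y2⟩ := h2
  exact ⟨iuDiag w0 w1 w2, by rw [iuDiag_star, iuDiag_mul, x0, x1, x2],
    by rw [iuDiag_star, iuDiag_mul, y0, y1, y2]⟩

/-- **Step (A)**: the supported rotation `diag(P,e,r) ~ diag(e, e + V a V*, r)`. -/
theorem iuK_stepA {e V P r : B} (he : IsStarProjection e) (hVe : Commute V e)
    (hP : IsStarProjection P) (hr : IsStarProjection r) (hV : ‖V‖ ≤ 4) {ε : ℝ}
    (h1 : ‖star V * V * (P - e) - (P - e)‖ ≤ ε) (hε : ε ≤ 1 / 100000) :
    IuAP (iuDiag e (e + V * (P - e) * star V) r) ∧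
    IuMvN (iuDiag P e r) (iuPi (iuDiag e (e + V * (P - e) * star V) r)) := by
  set a : B := P - e with ha
  have hasa : IsSelfAdjoint a := hP.isSelfAdjoint.sub he.isSelfAdjoint
  have hε0 : 0 ≤ ε := (norm_nonneg _).trans h1
  have han : ‖a‖ ≤ 2 := by
    have := IsStarProjection.norm_le P hP
    have := IsStarProjection.norm_le e he
    exact (norm_sub_le _ _).trans (by linarith)
  have hrel : e * a + a * e + a * a - a = 0 := by
    have h := hP.isIdempotentElem.eq
    have h' := he.isIdempotentElem.eq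
    have : e * a + a * e + a * a - a = (P * P - P) - (e * e - e) := by
      rw [ha]; noncomm_ring
    rw [this, h, h']; simp
  have key := iu_rot_path (D := CStarMatrix (Fin 3) (Fin 3) B) (Q := iuDiag e e r)
    (α := iuKE 0 0 a) (e₀ := iuKE 0 0 e) (w1 := iuKE 0 0 1) (w2 := iuKE 1 0 V) (δ := ε) (C := 4)
    (C' := 2)
    (iuDiag_isSelfAdjoint he.isSelfAdjoint he.isSelfAdjoint hr.isSelfAdjoint)
    (iuKE_isSelfAdjoint 0 hasa) (iuKE_isSelfAdjoint 0 he.isSelfAdjoint)
    (by rw [(iuDiag_proj he he hr).isIdempotentElem.eq, sub_self, norm_zero]; exact hε0)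
    (by simp [iuDiag, add_mul, mul_add, iuKE_mul, hε0])
    (by simp [iuDiag, add_mul, mul_add, iuKE_mul, hε0, hVe.eq])
    (by simp [iuDiag, add_mul, mul_add, iuKE_mul, hε0])
    (by
      have : star (iuKE (1 : Fin 3) 0 V) * iuKE 1 0 V * iuKE 0 0 a - iuKE 0 0 a
          = iuKE 0 0 (star V * V * a - a) := by
        simp [iuKE_mul, iuKE_sub]
      rw [this]
      exact (iuKE_norm_le _ _ _).trans h1)
    (by simp [iuDiag, add_mul, mul_add, iuKE_mul, hε0])
    (by simp [iuDiag, add_mul, mul_add, iuKE_mul, hε0])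
    (by
      have : iuKE (0 : Fin 3) 0 e * iuKE 0 0 a + iuKE 0 0 a * iuKE 0 0 e + iuKE 0 0 a * iuKE 0 0 a
          - iuKE 0 0 a = iuKE 0 0 (e * a + a * e + a * a - a) := by
        simp [iuKE_mul, iuKE_sub, iuKE_add]
      rw [this, hrel]; simpa using hε0)
    ((iuKE_norm_le _ _ _).trans ((IsStarProjection.norm_le 1 (IsStarProjection.one B)).trans
      (by norm_num)))
    ((iuKE_norm_le _ _ _).trans hV) ((iuKE_norm_le _ _ _).trans han) (by norm_num; linarith)
  have e1 : iuDiag e e r + iuKE 0 0 1 * iuKE 0 0 a * star (iuKE (0 : Fin 3) 0 (1 : B))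
      = iuDiag P e r := by
    have : P = e + a := by rw [ha]; abel
    simp only [iuKE_star, iuKE_mul_same, iuDiag, this, iuKE_add, star_one, mul_one, one_mul]
    abel
  have e2 : iuDiag e e r + iuKE 1 0 V * iuKE 0 0 a * star (iuKE (1 : Fin 3) 0 V)
      = iuDiag e (e + V * a * star V) r := by
    simp only [iuKE_star, iuKE_mul_same, iuDiag, iuKE_add]
    abel
  rw [e1, e2, iuPi_of_proj (iuDiag_proj hP he hr)] at key
  exact ⟨key.2.1, key.2.2⟩

/-- **Step (B)**: the finite additivity rotation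
`diag(e, e + a', e + a'') ~ diag(e, e, e + a'' + a')`. -/
theorem iuK_stepB {e a' a'' : B} (he : IsStarProjection e)
    (ha' : IsSelfAdjoint a') (ha'' : IsSelfAdjoint a'') (hn' : ‖a'‖ ≤ 32) {ε : ℝ}
    (h1 : ‖(e + a') * (e + a') - (e + a')‖ ≤ ε) (h2 : ‖(e + a'') * (e + a'') - (e + a'')‖ ≤ ε)
    (h3 : ‖a' * a''‖ ≤ ε) (hε : ε ≤ 1 / 100000) :
    IuAP (iuDiag e (e + a') (e + a'')) ∧ IuAP (iuDiag e e (e + a'' + a')) ∧
    IuMvN (iuPi (iuDiag e (e + a') (e + a''))) (iuPi (iuDiag e e (e + a'' + a'))) := by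
  have hε0 : 0 ≤ ε := (norm_nonneg _).trans h1
  have hee := he.isIdempotentElem.eq
  have h3' : ‖a'' * a'‖ ≤ ε := by
    have : a'' * a' = star (a' * a'') := by rw [star_mul, ha'.star_eq, ha''.star_eq]
    rw [this, norm_star]; exact h3
  have key := iu_rot_path (D := CStarMatrix (Fin 3) (Fin 3) B) (Q := iuDiag e e (e + a''))
    (α := iuKE 1 1 a') (e₀ := iuKE 1 1 e) (w1 := iuKE 1 1 1) (w2 := iuKE 2 1 1) (δ := ε) (C := 1)
    (C' := 32)
    (iuDiag_isSelfAdjoint he.isSelfAdjoint he.isSelfAdjoint (he.isSelfAdjoint.add ha''))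
    (iuKE_isSelfAdjoint 1 ha') (iuKE_isSelfAdjoint 1 he.isSelfAdjoint)
    (by
      have : iuDiag e e (e + a'') * iuDiag e e (e + a'') - iuDiag e e (e + a'')
          = iuKE 2 2 ((e + a'') * (e + a'') - (e + a'')) := by
        rw [iuDiag_mul, iuDiag_sub, hee, sub_self]; simp [iuDiag]
      rw [this]
      exact (iuKE_norm_le _ _ _).trans h2)
    (by simp [iuDiag, add_mul, mul_add, iuKE_mul, hε0])
    (by
      have : iuDiag e e (e + a'') * iuKE 2 1 1 * iuKE 1 1 a' - iuKE 2 1 1 * iuKE 1 1 e * iuKE 1 1 a'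
          = iuKE 2 1 (a'' * a') := by
        simp [iuDiag, add_mul, mul_add, iuKE_mul, iuKE_add]
      rw [this]
      exact (iuKE_norm_le _ _ _).trans h3')
    (by simp [iuDiag, add_mul, mul_add, iuKE_mul, hε0])
    (by simp [iuDiag, add_mul, mul_add, iuKE_mul, hε0])
    (by simp [iuDiag, add_mul, mul_add, iuKE_mul, hε0])
    (by simp [iuDiag, add_mul, mul_add, iuKE_mul, hε0])
    (by
      have : iuKE (1 : Fin 3) 1 e * iuKE 1 1 a' + iuKE 1 1 a' * iuKE 1 1 e + iuKE 1 1 a' * iuKE 1 1 a'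
          - iuKE 1 1 a' = iuKE 1 1 ((e + a') * (e + a') - (e + a')) := by
        have : (e + a') * (e + a') - (e + a') = e * a' + a' * e + a' * a' - a' := by
          have : (e + a') * (e + a') - (e + a') = (e * e - e) + (e * a' + a' * e + a' * a' - a') := by
            noncomm_ring
          rw [this, hee, sub_self, zero_add]
        rw [this]
        simp [iuKE_mul, iuKE_sub, iuKE_add]
      rw [this]
      exact (iuKE_norm_le _ _ _).trans h1)
    ((iuKE_norm_le _ _ _).trans (IsStarProjection.norm_le 1 (IsStarProjection.one B)))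
    ((iuKE_norm_le _ _ _).trans (IsStarProjection.norm_le 1 (IsStarProjection.one B)))
    ((iuKE_norm_le _ _ _).trans hn') (by norm_num; linarith)
  have e1 : iuDiag e e (e + a'') + iuKE 1 1 1 * iuKE 1 1 a' * star (iuKE (1 : Fin 3) 1 (1 : B))
      = iuDiag e (e + a') (e + a'') := by
    simp only [iuKE_star, iuKE_mul_same, iuDiag, iuKE_add, star_one, mul_one, one_mul]
    abel
  have e2 : iuDiag e e (e + a'') + iuKE 2 1 1 * iuKE 1 1 a' * star (iuKE (2 : Fin 3) 1 (1 : B))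
      = iuDiag e e (e + a'' + a') := by
    simp only [iuKE_star, iuKE_mul_same, iuDiag, iuKE_add, star_one, mul_one, one_mul]
    abel
  rw [e1, e2] at key
  exact key

/-- defect of `e + a' + a''`. -/
theorem iuK_defect_sum {e a' a'' : B} (he : IsStarProjection e)
    (ha' : IsSelfAdjoint a') (ha'' : IsSelfAdjoint a'') {ε : ℝ}
    (h1 : ‖(e + a') * (e + a') - (e + a')‖ ≤ ε) (h2 : ‖(e + a'') * (e + a'') - (e + a'')‖ ≤ ε)
    (h3 : ‖a' * a''‖ ≤ ε) :
    ‖(e + a' + a'') * (e + a' + a'') - (e + a' + a'')‖ ≤ 4 * ε := by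
  have hee := he.isIdempotentElem.eq
  have h3' : ‖a'' * a'‖ ≤ ε := by
    have : a'' * a' = star (a' * a'') := by rw [star_mul, ha'.star_eq, ha''.star_eq]
    rw [this, norm_star]; exact h3
  have : (e + a' + a'') * (e + a' + a'') - (e + a' + a'')
      = ((e + a') * (e + a') - (e + a')) + ((e + a'') * (e + a'') - (e + a'')) + a' * a''
        + a'' * a' - (e * e - e) := by noncomm_ring
  rw [this, hee, sub_self, sub_zero]
  refine (norm_add_le _ _).trans ?_
  have b1 := norm_add_le (((e + a') * (e + a') - (e + a')) + ((e + a'') * (e + a'') - (e + a'')))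
    (a' * a'')
  have b2 := norm_add_le ((e + a') * (e + a') - (e + a')) ((e + a'') * (e + a'') - (e + a''))
  linarith

/-- **Theorem AbsK**, abstract form in `M_3(B)`. -/
theorem iuK_abs {e V P a' a'' : B} (he : IsStarProjection e) (hVe : Commute V e)
    (hP : IsStarProjection P) (hV : ‖V‖ ≤ 4)
    (ha' : IsSelfAdjoint a') (ha'' : IsSelfAdjoint a'') (hn' : ‖a'‖ ≤ 32) {ε : ℝ}
    (hε : ε ≤ 1 / 100000)
    (h1 : ‖star V * V * (P - e) - (P - e)‖ ≤ ε)
    (h2 : ‖V * (P - e) * star V - a'‖ ≤ ε)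
    (h3 : ‖(e + a') * (e + a') - (e + a')‖ ≤ ε)
    (h4 : ‖(e + a'') * (e + a'') - (e + a'')‖ ≤ ε)
    (h5 : ‖a' * a''‖ ≤ ε)
    (h6 : IuMvN (iuPi (e + a' + a'')) (iuPi (e + a''))) :
    IuMvN (iuDiag P 1 1) (iuDiag e 1 1) := by
  have hε0 : 0 ≤ ε := (norm_nonneg _).trans h1
  have ap0 : IuAP (e + a') := ⟨he.isSelfAdjoint.add ha', h3.trans (by linarith)⟩
  have app : IuAP (e + a'') := ⟨he.isSelfAdjoint.add ha'', h4.trans (by linarith)⟩
  have hdev := iuK_defect_sum he ha' ha'' h3 h4 h5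
  have apev : IuAP (e + a' + a'') :=
    ⟨(he.isSelfAdjoint.add ha').add ha'', hdev.trans (by linarith)⟩
  set p0 : B := iuPi (e + a') with hp0
  set pp : B := iuPi (e + a'') with hpp
  set pev : B := iuPi (e + a' + a'') with hpev
  have n0 : ‖p0 - (e + a')‖ ≤ 2 * ε := ap0.norm_sub_le.trans (by linarith)
  have np : ‖pp - (e + a'')‖ ≤ 2 * ε := app.norm_sub_le.trans (by linarith)
  have nev : ‖pev - (e + a' + a'')‖ ≤ 8 * ε := apev.norm_sub_le.trans (by linarith)
  obtain ⟨A1, A2⟩ := iuK_stepA he hVe hP app.proj hV h1 hε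
  obtain ⟨B1, B2, B3⟩ := iuK_stepB he ha' ha'' hn' h3 h4 h5 hε
  -- projections
  have q1 : IsStarProjection (iuDiag P e pp) := iuDiag_proj hP he app.proj
  have q2 : IsStarProjection (iuDiag e p0 pp) := iuDiag_proj he ap0.proj app.proj
  have q3 : IsStarProjection (iuDiag e e pev) := iuDiag_proj he he apev.proj
  have q4 : IsStarProjection (iuDiag e e pp) := iuDiag_proj he he app.proj
  -- closeness
  have c1 : IuMvN (iuPi (iuDiag e (e + V * (P - e) * star V) pp)) (iuDiag e p0 pp) := by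
    refine A1.close q2 ?_
    rw [iuDiag_sub, sub_self, sub_self]
    refine (iuDiag_norm_le _ _ _).trans ?_
    have : e + V * (P - e) * star V - p0 = (V * (P - e) * star V - a') - (p0 - (e + a')) := by abel
    rw [this, norm_zero]
    have := norm_sub_le (V * (P - e) * star V - a') (p0 - (e + a'))
    linarith
  have c2 : IuMvN (iuPi (iuDiag e (e + a') (e + a''))) (iuDiag e p0 pp) := by
    refine B1.close q2 ?_
    rw [iuDiag_sub, sub_self]
    refine (iuDiag_norm_le _ _ _).trans ?_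
    rw [norm_zero, norm_sub_rev (e + a') p0, norm_sub_rev (e + a'') pp]
    linarith
  have c3 : IuMvN (iuPi (iuDiag e e (e + a'' + a'))) (iuDiag e e pev) := by
    refine B2.close q3 ?_
    rw [iuDiag_sub, sub_self]
    refine (iuDiag_norm_le _ _ _).trans ?_
    have : e + a'' + a' - pev = -(pev - (e + a' + a'')) := by abel
    rw [norm_zero, this, norm_neg]
    linarith
  have c4 : IuMvN (iuDiag e e pev) (iuDiag e e pp) :=
    iuDiag_mvn (IuMvN.refl he) (IuMvN.refl he) h6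
  -- the chain
  have t1 : IuMvN (iuDiag P e pp) (iuDiag e p0 pp) :=
    A2.trans q1.isIdempotentElem q2.isIdempotentElem c1
  have t2 : IuMvN (iuDiag e p0 pp) (iuPi (iuDiag e e (e + a'' + a'))) :=
    c2.symm.trans q2.isIdempotentElem B2.proj.isIdempotentElem B3
  have t3 : IuMvN (iuDiag e p0 pp) (iuDiag e e pev) :=
    t2.trans q2.isIdempotentElem q3.isIdempotentElem c3
  have t4 : IuMvN (iuDiag P e pp) (iuDiag e e pp) :=
    (t1.trans q1.isIdempotentElem q3.isIdempotentElem t3).trans q1.isIdempotentElem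
      q4.isIdempotentElem c4
  -- complement
  have q5 : IsStarProjection (iuDiag 0 (1 - e) (1 - pp)) :=
    iuDiag_proj (IsStarProjection.zero B) he.one_sub app.proj.one_sub
  have fin := IuMvN.add q1.isIdempotentElem q4.isIdempotentElem q5.isIdempotentElem
    q5.isIdempotentElem
    (by rw [iuDiag_mul, mul_zero, he.mul_one_sub_self, app.proj.mul_one_sub_self, iuDiag_zero])
    (by rw [iuDiag_mul, mul_zero, he.mul_one_sub_self, app.proj.mul_one_sub_self, iuDiag_zero])
    t4 (IuMvN.refl q5)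
  rw [iuDiag_add, iuDiag_add] at fin
  simpa using fin

end Claimed.Agent.R300
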