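/-
Row 300 / S0553 (INJ paper), UPPER ASSEMBLY package U1 (owner: helper240).
Theorem AbsK for `B = M_2(A)` and the transport `M_3(M_2(A)) = M_{2+4}(A)`.
-/
import Mathlib
import Claimed.Agent.R300.IuKBasic
import Claimed.Agent.R300.IuKMat
import Claimed.Agent.R300.IuKRot
import Claimed.Agent.R300.IuKAbs

set_option autoImplicit false
set_option linter.unusedSimpArgs false
set_option linter.unusedSectionVars false

namespace Claimed.Agent.R300

open scoped CStarAlgebra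

/-- the index bijection `Fin 2 ⊕ Fin 4 ≃ Fin 3 × Fin 2`, `inl j ↦ (0,j)`. -/
def iuSig : Fin 2 ⊕ Fin 4 ≃ Fin 3 × Fin 2 where
  toFun
    | .inl j => (0, j)
    | .inr 0 => (1, 0)
    | .inr 1 => (1, 1)
    | .inr 2 => (2, 0)
    | .inr 3 => (2, 1)
  invFun
    | (0, j) => .inl j
    | (1, 0) => .inr 0
    | (1, 1) => .inr 1
    | (2, 0) => .inr 2
    | (2, 1) => .inr 3
  left_inv := by decide
  right_inv := by decide

theorem iuSig_inl (j : Fin 2) : iuSig (Sum.inl j) = (0, j) := rfl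
theorem iuSig_inr0 : iuSig (Sum.inr 0) = (1, 0) := rfl
theorem iuSig_inr1 : iuSig (Sum.inr 1) = (1, 1) := rfl
theorem iuSig_inr2 : iuSig (Sum.inr 2) = (2, 0) := rfl
theorem iuSig_inr3 : iuSig (Sum.inr 3) = (2, 1) := rfl

section transport

variable {A : Type*} [CStarAlgebra A] [PartialOrder A] [StarOrderedRing A]

/-- flattening `M_3(M_2(A)) → M_{2+4}(A)` -/
def iuFlat (x : CStarMatrix (Fin 3) (Fin 3) (CStarMatrix (Fin 2) (Fin 2) A)) :
    Matrix (Fin 2 ⊕ Fin 4) (Fin 2 ⊕ Fin 4) A :=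
  Matrix.of fun a b => x (iuSig a).1 (iuSig b).1 (iuSig a).2 (iuSig b).2

theorem iuFlat_apply (x : CStarMatrix (Fin 3) (Fin 3) (CStarMatrix (Fin 2) (Fin 2) A))
    (a b : Fin 2 ⊕ Fin 4) :
    iuFlat x a b = x (iuSig a).1 (iuSig b).1 (iuSig a).2 (iuSig b).2 := rfl

theorem iuFlat_mul (x y : CStarMatrix (Fin 3) (Fin 3) (CStarMatrix (Fin 2) (Fin 2) A)) :
    iuFlat (x * y) = iuFlat x * iuFlat y := by
  ext a b
  rw [Matrix.mul_apply, iuFlat_apply, CStarMatrix.mul_apply, iuK_sum_apply]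
  simp only [iuFlat_apply, CStarMatrix.mul_apply]
  rw [← Equiv.sum_comp iuSig.symm, Fintype.sum_prod_type]
  simp only [Equiv.apply_symm_apply]

theorem iuFlat_star (x : CStarMatrix (Fin 3) (Fin 3) (CStarMatrix (Fin 2) (Fin 2) A)) :
    iuFlat (star x) = star (iuFlat x) := by
  ext a b
  rw [Matrix.star_apply, iuFlat_apply, iuFlat_apply, CStarMatrix.star_apply,
    CStarMatrix.star_apply]

theorem iuDiag_apply_ne {B : Type*} [CStarAlgebra B] [PartialOrder B] [StarOrderedRing B]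
    (b0 b1 b2 : B) {i j : Fin 3} (h : i ≠ j) : iuDiag b0 b1 b2 i j = 0 := by
  simp only [iuDiag, CStarMatrix.add_apply, iuKE_apply]
  rw [if_neg, if_neg, if_neg]
  · simp
  all_goals
    rintro ⟨rfl, rfl⟩
    exact h rfl

theorem iuDiag_apply_0 {B : Type*} [CStarAlgebra B] [PartialOrder B] [StarOrderedRing B]
    (b0 b1 b2 : B) : iuDiag b0 b1 b2 0 0 = b0 := by
  simp [iuDiag, CStarMatrix.add_apply, iuKE_apply]

theorem iuDiag_apply_1 {B : Type*} [CStarAlgebra B] [PartialOrder B] [StarOrderedRing B]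
    (b0 b1 b2 : B) : iuDiag b0 b1 b2 1 1 = b1 := by
  simp [iuDiag, CStarMatrix.add_apply, iuKE_apply]

theorem iuDiag_apply_2 {B : Type*} [CStarAlgebra B] [PartialOrder B] [StarOrderedRing B]
    (b0 b1 b2 : B) : iuDiag b0 b1 b2 2 2 = b2 := by
  simp [iuDiag, CStarMatrix.add_apply, iuKE_apply]

theorem iuFlat_diag (P : CStarMatrix (Fin 2) (Fin 2) A) :
    iuFlat (iuDiag P 1 1) = Matrix.fromBlocks (CStarMatrix.ofMatrix.symm P) 0 0 1 := by
  have h01 : (0 : Fin 3) ≠ 1 := by decide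
  have h02 : (0 : Fin 3) ≠ 2 := by decide
  have h12 : (1 : Fin 3) ≠ 2 := by decide
  ext a b
  rw [iuFlat_apply]
  rcases a with a | a <;> rcases b with b | b
  · rw [iuSig_inl, iuSig_inl, iuDiag_apply_0]; rfl
  · rw [iuSig_inl, Matrix.fromBlocks_apply₁₂]
    fin_cases b
    · change iuDiag P 1 1 0 1 a 0 = 0
      rw [iuDiag_apply_ne _ _ _ h01]; rfl
    · change iuDiag P 1 1 0 1 a 1 = 0
      rw [iuDiag_apply_ne _ _ _ h01]; rfl
    · change iuDiag P 1 1 0 2 a 0 = 0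
      rw [iuDiag_apply_ne _ _ _ h02]; rfl
    · change iuDiag P 1 1 0 2 a 1 = 0
      rw [iuDiag_apply_ne _ _ _ h02]; rfl
  · rw [iuSig_inl, Matrix.fromBlocks_apply₂₁]
    fin_cases a
    · change iuDiag P 1 1 1 0 0 b = 0
      rw [iuDiag_apply_ne _ _ _ h01.symm]; rfl
    · change iuDiag P 1 1 1 0 1 b = 0
      rw [iuDiag_apply_ne _ _ _ h01.symm]; rfl
    · change iuDiag P 1 1 2 0 0 b = 0
      rw [iuDiag_apply_ne _ _ _ h02.symm]; rfl
    · change iuDiag P 1 1 2 0 1 b = 0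
      rw [iuDiag_apply_ne _ _ _ h02.symm]; rfl
  · rw [Matrix.fromBlocks_apply₂₂]
    have key : ∀ x y : Fin 3 × Fin 2, x.1 ≠ 0 → y.1 ≠ 0 →
        iuDiag P 1 1 x.1 y.1 x.2 y.2 = if x = y then 1 else 0 := by
      rintro ⟨i, k⟩ ⟨j, l⟩ hi hj
      by_cases hij : i = j
      · subst hij
        have : iuDiag P 1 1 i i = 1 := by
          fin_cases i
          · exact absurd rfl hi
          · exact iuDiag_apply_1 _ _ _
          · exact iuDiag_apply_2 _ _ _
        simp only [this, CStarMatrix.one_apply, Prod.mk.injEq, true_and]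
      · simp only [iuDiag_apply_ne _ _ _ hij, Prod.mk.injEq, hij, false_and, if_false]
        rfl
    rw [key _ _ (by revert a; decide) (by revert b; decide), Matrix.one_apply]
    simp only [EmbeddingLike.apply_eq_iff_eq, Sum.inr.injEq]

theorem iuFlat_mvn {x y : CStarMatrix (Fin 3) (Fin 3) (CStarMatrix (Fin 2) (Fin 2) A)}
    (h : IuMvN x y) : IuMvN (iuFlat x) (iuFlat y) :=
  h.map iuFlat iuFlat_mul iuFlat_star

/-- `e₁₁ ∈ M_2(A)` -/
def iuKE11 : CStarMatrix (Fin 2) (Fin 2) A := iuKE 0 0 1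

/-- `v ⊗ 1 ∈ M_2(A)` -/
def iuAmp (v : A) : CStarMatrix (Fin 2) (Fin 2) A := iuKE 0 0 v + iuKE 1 1 v

theorem iuKE11_proj : IsStarProjection (iuKE11 : CStarMatrix (Fin 2) (Fin 2) A) :=
  iuKE_isStarProjection 0 (IsStarProjection.one A)

theorem iuKE11_eq :
    CStarMatrix.ofMatrix.symm (iuKE11 : CStarMatrix (Fin 2) (Fin 2) A)
      = Matrix.of ![![(1 : A), 0], ![0, 0]] := by
  ext i j
  change iuKE (0 : Fin 2) 0 (1 : A) i j = _
  rw [iuKE_apply]
  fin_cases i <;> fin_cases j <;> rfl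

theorem iuAmp_apply (v : A) (i j : Fin 2) : iuAmp v i j = if i = j then v else 0 := by
  simp only [iuAmp, CStarMatrix.add_apply, iuKE_apply]
  fin_cases i <;> fin_cases j <;> simp

theorem iuAmp_star (v : A) : star (iuAmp v) = iuAmp (star v) := by
  simp [iuAmp]

theorem iuAmp_mul (v w : A) : iuAmp v * iuAmp w = iuAmp (v * w) := by
  simp [iuAmp, add_mul, mul_add, iuKE_mul]

theorem iuAmp_add (v w : A) : iuAmp (v + w) = iuAmp v + iuAmp w := by
  simp only [iuAmp, iuKE_add]; abel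

theorem iuAmp_sub (v w : A) : iuAmp (v - w) = iuAmp v - iuAmp w := by
  simp only [iuAmp, iuKE_sub]; abel

theorem iuAmp_smul (c : ℂ) (v : A) : iuAmp (c • v) = c • iuAmp v := by
  simp only [iuAmp, iuKE_smul, smul_add]

theorem iuAmp_one : iuAmp (1 : A) = 1 := by
  rw [iuKE_one_sum, Fin.sum_univ_two]; rfl

theorem iuAmp_norm_le (v : A) : ‖iuAmp v‖ ≤ 2 * ‖v‖ := by
  unfold iuAmp
  have h0 := iuKE_norm_le (0 : Fin 2) 0 v
  have h1 := iuKE_norm_le (1 : Fin 2) 1 v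
  exact (norm_add_le _ _).trans (by linarith)

theorem iuAmp_commute_e11 (v : A) : Commute (iuAmp v) iuKE11 := by
  unfold Commute SemiconjBy
  simp [iuAmp, iuKE11, add_mul, mul_add, iuKE_mul]

theorem iuAmp_mul_apply (v : A) (M : CStarMatrix (Fin 2) (Fin 2) A) (i j : Fin 2) :
    (iuAmp v * M) i j = v * M i j := by
  rw [CStarMatrix.mul_apply, Fin.sum_univ_two]
  simp only [iuAmp_apply]
  fin_cases i <;> simp

theorem iuMul_amp_apply (v : A) (M : CStarMatrix (Fin 2) (Fin 2) A) (i j : Fin 2) :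
    (M * iuAmp v) i j = M i j * v := by
  rw [CStarMatrix.mul_apply, Fin.sum_univ_two]
  simp only [iuAmp_apply]
  fin_cases j <;> simp

/-- **Theorem AbsK** (`INJ_upper.md`, U1).  `[P] = [e₁₁]` with the explicit stabilisation `1_4`. -/
theorem iuK_main {P a' a'' : CStarMatrix (Fin 2) (Fin 2) A} {v : A}
    (hP : IsStarProjection P) (hv : ‖v‖ ≤ 2)
    (ha' : IsSelfAdjoint a') (ha'' : IsSelfAdjoint a'') (hn' : ‖a'‖ ≤ 32) {ε : ℝ}
    (hε : ε ≤ 1 / 100000)
    (h1 : ‖iuAmp (star v * v) * (P - iuKE11) - (P - iuKE11)‖ ≤ ε)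
    (h2 : ‖iuAmp v * (P - iuKE11) * iuAmp (star v) - a'‖ ≤ ε)
    (h3 : ‖(iuKE11 + a') * (iuKE11 + a') - (iuKE11 + a')‖ ≤ ε)
    (h4 : ‖(iuKE11 + a'') * (iuKE11 + a'') - (iuKE11 + a'')‖ ≤ ε)
    (h5 : ‖a' * a''‖ ≤ ε)
    (h6 : IuMvN (iuPi (iuKE11 + a' + a'')) (iuPi (iuKE11 + a''))) :
    IuMvN (Matrix.fromBlocks (CStarMatrix.ofMatrix.symm P) 0 0 (1 : Matrix (Fin 4) (Fin 4) A))
      (Matrix.fromBlocks (Matrix.of ![![(1 : A), 0], ![0, 0]]) 0 0 1) := by
  have key := iuK_abs (e := iuKE11) (V := iuAmp v) (P := P) (a' := a') (a'' := a'') iuKE11_proj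
    (iuAmp_commute_e11 v) hP ((iuAmp_norm_le v).trans (by linarith)) ha' ha'' hn' hε
    (by rw [iuAmp_star, iuAmp_mul]; exact h1) (by rw [iuAmp_star]; exact h2) h3 h4 h5 h6
  have := iuFlat_mvn key
  rwa [iuFlat_diag, iuFlat_diag, iuKE11_eq] at this

end transport

section stab

variable {A : Type*} [Ring A] [StarRing A] {m k : Type*} [Fintype m] [Fintype k]
  [DecidableEq m] [DecidableEq k]

/-- stabilisation by a unit block -/
theorem iuK_stab {p q : Matrix m m A} (h : IuMvN p q) :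
    IuMvN (Matrix.fromBlocks p 0 0 (1 : Matrix k k A)) (Matrix.fromBlocks q 0 0 1) := by
  obtain ⟨w, a, b⟩ := h
  rw [Matrix.star_eq_conjTranspose] at a b
  refine ⟨Matrix.fromBlocks w 0 0 1, ?_, ?_⟩
  · rw [Matrix.star_eq_conjTranspose, Matrix.fromBlocks_conjTranspose, Matrix.fromBlocks_multiply]
    simp [a]
  · rw [Matrix.star_eq_conjTranspose, Matrix.fromBlocks_conjTranspose, Matrix.fromBlocks_multiply]
    simp [b]

theorem iuK_stab_idem {p : Matrix m m A} (h : IsIdempotentElem p) :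
    IsIdempotentElem (Matrix.fromBlocks p 0 0 (1 : Matrix k k A)) := by
  unfold IsIdempotentElem
  rw [Matrix.fromBlocks_multiply]
  simp [h.eq]

/-- transport of an implementing matrix along a star ring homomorphism -/
theorem iuK_map_blocks {A' : Type*} [Ring A'] [StarRing A'] (f : A →+* A')
    (hf : ∀ x, f (star x) = star (f x)) (w : Matrix (m ⊕ k) (m ⊕ k) A) {p q : Matrix m m A}
    (h1 : w.conjTranspose * w = Matrix.fromBlocks p 0 0 1)
    (h2 : w * w.conjTranspose = Matrix.fromBlocks q 0 0 1) :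
    (w.map f).conjTranspose * (w.map f) = Matrix.fromBlocks (p.map f) 0 0 1 ∧
    (w.map f) * (w.map f).conjTranspose = Matrix.fromBlocks (q.map f) 0 0 1 := by
  have hc : (w.map f).conjTranspose = (w.conjTranspose).map f := by
    ext i j
    simp [Matrix.conjTranspose_apply, hf]
  have hb : ∀ r : Matrix m m A, (Matrix.fromBlocks r 0 0 (1 : Matrix k k A)).map f
      = Matrix.fromBlocks (r.map f) 0 0 1 := by
    intro r
    rw [Matrix.fromBlocks_map]
    simp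
  constructor
  · rw [hc, ← Matrix.map_mul, h1, hb]
  · rw [hc, ← Matrix.map_mul, h2, hb]

end stab

section final

variable {A : Type*} [CStarAlgebra A] [PartialOrder A] [StarOrderedRing A]

theorem iuMvN_toMatrix {n : Type*} [Fintype n] {p q : CStarMatrix n n A} (h : IuMvN p q) :
    IuMvN (CStarMatrix.ofMatrix.symm p) (CStarMatrix.ofMatrix.symm q) := h

/-- **Theorem AbsK**, final form: `P0 ~ P`, `P` as in `iuK_main`. -/
theorem iuK_final {P0 P a' a'' : CStarMatrix (Fin 2) (Fin 2) A} {v : A}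
    (hP0 : IsStarProjection P0) (h0 : IuMvN P0 P)
    (hP : IsStarProjection P) (hv : ‖v‖ ≤ 2)
    (ha' : IsSelfAdjoint a') (ha'' : IsSelfAdjoint a'') (hn' : ‖a'‖ ≤ 32) {ε : ℝ}
    (hε : ε ≤ 1 / 100000)
    (h1 : ‖iuAmp (star v * v) * (P - iuKE11) - (P - iuKE11)‖ ≤ ε)
    (h2 : ‖iuAmp v * (P - iuKE11) * iuAmp (star v) - a'‖ ≤ ε)
    (h3 : ‖(iuKE11 + a') * (iuKE11 + a') - (iuKE11 + a')‖ ≤ ε)
    (h4 : ‖(iuKE11 + a'') * (iuKE11 + a'') - (iuKE11 + a'')‖ ≤ ε)
    (h5 : ‖a' * a''‖ ≤ ε)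
    (h6 : IuMvN (iuPi (iuKE11 + a' + a'')) (iuPi (iuKE11 + a''))) :
    ∃ w : Matrix (Fin 2 ⊕ Fin 4) (Fin 2 ⊕ Fin 4) A,
      w.conjTranspose * w = Matrix.fromBlocks (CStarMatrix.ofMatrix.symm P0) 0 0 1 ∧
      w * w.conjTranspose = Matrix.fromBlocks (Matrix.of ![![(1 : A), 0], ![0, 0]]) 0 0 1 := by
  have k1 := iuK_main hP hv ha' ha'' hn' hε h1 h2 h3 h4 h5 h6
  have k0 : IuMvN (Matrix.fromBlocks (CStarMatrix.ofMatrix.symm P0) 0 0
      (1 : Matrix (Fin 4) (Fin 4) A)) (Matrix.fromBlocks (CStarMatrix.ofMatrix.symm P) 0 0 1) :=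
    iuK_stab (iuMvN_toMatrix h0)
  have i0 : IsIdempotentElem (CStarMatrix.ofMatrix.symm P0) := hP0.isIdempotentElem
  have i1 : IsIdempotentElem (Matrix.of ![![(1 : A), 0], ![0, 0]]) := by
    rw [← iuKE11_eq]
    exact iuKE11_proj.isIdempotentElem
  obtain ⟨w, a, b⟩ := k0.trans (iuK_stab_idem i0) (iuK_stab_idem i1) k1
  exact ⟨w, a, b⟩

/-! ### Dictionary `Matrix` / `CStarMatrix` -/

theorem iuK_isSelfAdjoint_ofMatrix {n : Type*} [Fintype n] {M : Matrix n n A} :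
    IsSelfAdjoint (CStarMatrix.ofMatrix M) ↔ M.conjTranspose = M := Iff.rfl

theorem iuK_isIdempotentElem_ofMatrix {n : Type*} [Fintype n] {M : Matrix n n A} :
    IsIdempotentElem (CStarMatrix.ofMatrix M) ↔ M * M = M := Iff.rfl

theorem iuK_isStarProjection_ofMatrix {n : Type*} [Fintype n] {M : Matrix n n A} :
    IsStarProjection (CStarMatrix.ofMatrix M) ↔ M * M = M ∧ M.conjTranspose = M :=
  ⟨fun h => ⟨h.isIdempotentElem, h.isSelfAdjoint⟩, fun h => ⟨h.1, h.2⟩⟩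

theorem iuMvN_ofMatrix_iff {n : Type*} [Fintype n] {P Q : Matrix n n A} :
    IuMvN (CStarMatrix.ofMatrix P) (CStarMatrix.ofMatrix Q) ↔
      ∃ w : Matrix n n A, w.conjTranspose * w = P ∧ w * w.conjTranspose = Q := Iff.rfl

/-- entrywise bound for `2 × 2` matrices -/
theorem iuK_norm_le_four (M : Matrix (Fin 2) (Fin 2) A) {c : ℝ} (h : ∀ i j, ‖M i j‖ ≤ c) :
    ‖CStarMatrix.ofMatrix M‖ ≤ 4 * c := by
  have := iuK_norm_le_card (CStarMatrix.ofMatrix M) (c := c) h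
  simp only [Fintype.card_fin] at this
  norm_num at this
  linarith

theorem iuKE11_eq' :
    (iuKE11 : CStarMatrix (Fin 2) (Fin 2) A)
      = CStarMatrix.ofMatrix (Matrix.of ![![(1 : A), 0], ![0, 0]]) := by
  rw [← iuKE11_eq]; rfl

/-- **(ABSK)**, entrywise hypotheses on plain matrices, in the shape requested by the upper
assembly. -/
theorem iuK_absk {a a' a'' : Matrix (Fin 2) (Fin 2) A} {v : A} {ε : ℝ} (hε : ε ≤ 1 / 10 ^ 6)
    (ha : a.conjTranspose = a)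
    (hP : (Matrix.of ![![(1 : A), 0], ![0, 0]] + a) * (Matrix.of ![![(1 : A), 0], ![0, 0]] + a)
      = Matrix.of ![![(1 : A), 0], ![0, 0]] + a)
    (ha' : a'.conjTranspose = a') (ha'' : a''.conjTranspose = a'') (hv : ‖v‖ ≤ 2)
    (hn' : ∀ i j, ‖a' i j‖ ≤ 8)
    (h1 : ∀ i j, ‖star v * v * a i j - a i j‖ ≤ ε)
    (h2 : ∀ i j, ‖v * a i j * star v - a' i j‖ ≤ ε)
    (h3 : ∀ i j, ‖((Matrix.of ![![(1 : A), 0], ![0, 0]] + a') *
      (Matrix.of ![![(1 : A), 0], ![0, 0]] + a') - (Matrix.of ![![(1 : A), 0], ![0, 0]] + a')) i j‖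
        ≤ ε)
    (h4 : ∀ i j, ‖((Matrix.of ![![(1 : A), 0], ![0, 0]] + a'') *
      (Matrix.of ![![(1 : A), 0], ![0, 0]] + a'') - (Matrix.of ![![(1 : A), 0], ![0, 0]] + a'')) i j‖
        ≤ ε)
    (h5 : ∀ i j, ‖(a' * a'') i j‖ ≤ ε)
    (h6 : IuMvN (iuPi (CStarMatrix.ofMatrix (Matrix.of ![![(1 : A), 0], ![0, 0]] + a' + a'')))
      (iuPi (CStarMatrix.ofMatrix (Matrix.of ![![(1 : A), 0], ![0, 0]] + a'')))) :
    ∃ w : Matrix (Fin 2 ⊕ Fin 4) (Fin 2 ⊕ Fin 4) A,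
      w.conjTranspose * w = Matrix.fromBlocks (Matrix.of ![![(1 : A), 0], ![0, 0]] + a) 0 0 1 ∧
      w * w.conjTranspose = Matrix.fromBlocks (Matrix.of ![![(1 : A), 0], ![0, 0]]) 0 0 1 := by
  set e : Matrix (Fin 2) (Fin 2) A := Matrix.of ![![(1 : A), 0], ![0, 0]] with he
  have hee : (iuKE11 : CStarMatrix (Fin 2) (Fin 2) A) = CStarMatrix.ofMatrix e := iuKE11_eq'
  have hesa : e.conjTranspose = e := by
    have := (iuKE11_proj (A := A)).isSelfAdjoint
    rw [hee] at this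
    exact this
  have hPp : IsStarProjection (CStarMatrix.ofMatrix (e + a)) :=
    iuK_isStarProjection_ofMatrix.2 ⟨hP, by rw [Matrix.conjTranspose_add, hesa, ha]⟩
  have hsub : CStarMatrix.ofMatrix (e + a) - iuKE11 = CStarMatrix.ofMatrix a := by
    rw [hee]
    change CStarMatrix.ofMatrix (e + a - e) = _
    rw [add_sub_cancel_left]
  have hε4 : 4 * ε ≤ 1 / 100000 := by norm_num at hε ⊢; linarith
  refine iuK_final (P0 := CStarMatrix.ofMatrix (e + a)) (P := CStarMatrix.ofMatrix (e + a))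
    (a' := CStarMatrix.ofMatrix a') (a'' := CStarMatrix.ofMatrix a'') (v := v) (ε := 4 * ε)
    hPp (IuMvN.refl hPp) hPp hv ha' ha'' ?_ hε4 ?_ ?_ ?_ ?_ ?_ ?_
  · exact (iuK_norm_le_four a' hn').trans (by norm_num)
  · rw [hsub]
    refine iuK_norm_le_four (CStarMatrix.ofMatrix.symm (iuAmp (star v * v) * CStarMatrix.ofMatrix a
      - CStarMatrix.ofMatrix a)) fun i j => ?_
    change ‖(iuAmp (star v * v) * CStarMatrix.ofMatrix a) i j - a i j‖ ≤ ε
    rw [iuAmp_mul_apply]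
    exact h1 i j
  · rw [hsub]
    refine iuK_norm_le_four (CStarMatrix.ofMatrix.symm (iuAmp v * CStarMatrix.ofMatrix a
      * iuAmp (star v) - CStarMatrix.ofMatrix a')) fun i j => ?_
    change ‖(iuAmp v * CStarMatrix.ofMatrix a * iuAmp (star v)) i j - a' i j‖ ≤ ε
    rw [iuMul_amp_apply, iuAmp_mul_apply]
    exact h2 i j
  · rw [hee]
    exact iuK_norm_le_four _ h3
  · rw [hee]
    exact iuK_norm_le_four _ h4
  · exact iuK_norm_le_four _ h5
  · rw [hee]
    exact h6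

end final

end Claimed.Agent.R300
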