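/-
Row 300 / S0553 (INJ paper), UPPER ASSEMBLY, package IU-TR (sub-captain: helper145).
ABSTRACT TRANSFER.  `𝔐` = model algebra (`B(ℓ²(ℕ × Γ))`), `𝔄 = B(ℓ²(Γ))`, `𝒜` = the closed subalgebra in
which all equivalences must take place, `ι : 𝒜 → 𝔄` the (isometric) inclusion, `θ z = V z V^*` an almost
multiplicative linear map.  A model matrix `A` with `e11 + A` a projection (`IuQ A`), carried by `c`,
whose entries are realised up to `δ` by elements of `𝒜`, gives an approximate projection `e11 + X` over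
`𝒜`; small steps / exact rotations in the model give Murray-von Neumann equivalences over `𝒜`.
Uses helper240's U1 toolkit (IuKBasic, IuKMat, IuKMain: `IuMvN`, `iuPi`, `IuAP`, `IuAP.step`, `iuMvN_chain`,
`iuK_norm_le_four`, `iuK_isSelfAdjoint_ofMatrix`).
Proofs: helper240 (subtask IU-TR).

Estimates (all entrywise, `Θ = θ(A)`, `X = Θ + Δ`, `‖Δ_ij‖ ≤ δ`, `‖A_ij‖ ≤ 8`, `‖Θ_ij‖ ≤ 16`):
 `(e+X)² - (e+X) = [eΘ + Θe + Θ² - Θ] + [eΔ + Δe - Δ + ΘΔ + ΔΘ + Δ²]`, and by `IuQ A` and linearity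
 `eΘ + Θe - Θ = - θ(A²)`, so the first bracket is `Θ² - θ(A²)`, entries `≤ 2 · 2η · 64`;
 the second has entries `≤ 3δ + 64δ + 2δ²`.
-/
import Mathlib
import Claimed.Agent.R300.IuAlg
import Claimed.Agent.R300.IuKMain

set_option autoImplicit false
set_option linter.unusedSimpArgs false
set_option linter.unusedVariables false
set_option linter.unusedSectionVars false

namespace Claimed.Agent.R300

open Matrix

/-- the transfer data -/
structure IuTr (𝔐 𝔄 𝒜 : Type*) [CStarAlgebra 𝔐] [CStarAlgebra 𝔄] [CStarAlgebra 𝒜] (η : ℝ) where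
  θ : 𝔐 →ₗ[ℂ] 𝔄
  ι : 𝒜 →⋆ₐ[ℂ] 𝔄
  c : 𝔐
  ι_norm : ∀ x, ‖ι x‖ = ‖x‖
  θ_star : ∀ z, θ (star z) = star (θ z)
  θ_norm : ∀ z, ‖θ z‖ ≤ 2 * ‖z‖
  θ_mul : ∀ z z', c * z' = z' → ‖θ z * θ z' - θ (z * z')‖ ≤ 2 * η * ‖z‖ * ‖z'‖

/-- smallness of the two error parameters -/
def IuSmall (η δ : ℝ) : Prop := 0 ≤ η ∧ η ≤ 1 / 10 ^ 9 ∧ 0 ≤ δ ∧ δ ≤ 1 / 10 ^ 9

variable {𝔐 𝔄 𝒜 : Type*} [CStarAlgebra 𝔐] [CStarAlgebra 𝔄] [CStarAlgebra 𝒜] {η : ℝ}

namespace IuTr

variable (T : IuTr 𝔐 𝔄 𝒜 η)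

/-- `z` is realised up to `δ` -/
def Rz (δ : ℝ) (z : 𝔐) : Prop := ∃ x : 𝒜, ‖T.ι x - T.θ z‖ ≤ δ

/-- `X` is a selfadjoint physical approximant of the model matrix `A` -/
def Phys (δ : ℝ) (A : Matrix (Fin 2) (Fin 2) 𝔐) (X : Matrix (Fin 2) (Fin 2) 𝒜) : Prop :=
  Xᴴ = X ∧ ∀ i j, ‖T.ι (X i j) - T.θ (A i j)‖ ≤ δ

/-- good model matrices -/
structure Good (δ : ℝ) (A : Matrix (Fin 2) (Fin 2) 𝔐) : Prop where
  q : IuQ A
  car : ∀ i j, T.c * A i j = A i j
  bd : ∀ i j, ‖A i j‖ ≤ 8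
  rz : ∀ i j, T.Rz δ (A i j)

variable {T}

theorem Rz.mono {δ δ' : ℝ} {z : 𝔐} (h : T.Rz δ z) (hδ : δ ≤ δ') : T.Rz δ' z := by
  obtain ⟨x, hx⟩ := h
  exact ⟨x, hx.trans hδ⟩

theorem Rz.zero {δ : ℝ} (hδ : 0 ≤ δ) : T.Rz δ 0 := by
  exact ⟨0, by simpa using hδ⟩

theorem Rz.add {δ δ' : ℝ} {z z' : 𝔐} (h : T.Rz δ z) (h' : T.Rz δ' z') : T.Rz (δ + δ') (z + z') := by
  obtain ⟨x, hx⟩ := h
  obtain ⟨x', hx'⟩ := h'
  refine ⟨x + x', ?_⟩
  have : T.ι (x + x') - T.θ (z + z') = (T.ι x - T.θ z) + (T.ι x' - T.θ z') := by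
    rw [map_add, map_add]; abel
  rw [this]
  exact (norm_add_le _ _).trans (add_le_add hx hx')

theorem Rz.smul {δ : ℝ} {z : 𝔐} (h : T.Rz δ z) (c : ℂ) : T.Rz (‖c‖ * δ) (c • z) := by
  obtain ⟨x, hx⟩ := h
  refine ⟨c • x, ?_⟩
  have : T.ι (c • x) - T.θ (c • z) = c • (T.ι x - T.θ z) := by
    rw [map_smul, map_smul, smul_sub]
  rw [this, norm_smul]
  exact mul_le_mul_of_nonneg_left hx (norm_nonneg _)

theorem Rz.sum {κ : Type*} (s : Finset κ) (δ : κ → ℝ) (z : κ → 𝔐) (h : ∀ k ∈ s, T.Rz (δ k) (z k)) :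
    T.Rz (∑ k ∈ s, δ k) (∑ k ∈ s, z k) := by
  classical
  induction s using Finset.induction_on with
  | empty => simpa using Rz.zero (T := T) le_rfl
  | insert a s ha ih =>
    rw [Finset.sum_insert ha, Finset.sum_insert ha]
    exact (h a (Finset.mem_insert_self a s)).add
      (ih fun k hk => h k (Finset.mem_insert_of_mem hk))

/-- entries of `iuMat`: two non zero coefficients of modulus one -/
theorem Rz.mat {δ : ℝ} {M : Fin 3 → Fin 2 → 𝔐} (h : ∀ k l, T.Rz δ (M k l)) (i j : Fin 2) :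
    T.Rz (2 * δ) (iuMat M i j) := by
  have h1 : T.Rz (∑ k, ∑ l, ‖iuCoef i j k l‖ * δ) (iuMat M i j) := by
    change T.Rz _ (∑ k, ∑ l, iuCoef i j k l • M k l)
    exact Rz.sum _ _ _ fun k _ => Rz.sum _ _ _ fun l _ => (h k l).smul _
  have h2 : ∑ k, ∑ l, ‖iuCoef i j k l‖ * δ = 2 * δ := by
    simp_rw [← Finset.sum_mul]
    rw [iuCoef_sum_norm]
  rwa [h2] at h1

theorem Phys.mono {δ δ' : ℝ} {A : Matrix (Fin 2) (Fin 2) 𝔐} {X : Matrix (Fin 2) (Fin 2) 𝒜}
    (h : T.Phys δ A X) (hδ : δ ≤ δ') : T.Phys δ' A X := by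
  exact ⟨h.1, fun i j => (h.2 i j).trans hδ⟩

theorem Phys.add {δ δ' : ℝ} {A A' : Matrix (Fin 2) (Fin 2) 𝔐} {X X' : Matrix (Fin 2) (Fin 2) 𝒜}
    (h : T.Phys δ A X) (h' : T.Phys δ' A' X') : T.Phys (δ + δ') (A + A') (X + X') := by
  refine ⟨by rw [Matrix.conjTranspose_add, h.1, h'.1], fun i j => ?_⟩
  have : T.ι ((X + X') i j) - T.θ ((A + A') i j)
      = (T.ι (X i j) - T.θ (A i j)) + (T.ι (X' i j) - T.θ (A' i j)) := by
    rw [Matrix.add_apply, Matrix.add_apply, map_add, map_add]; abel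
  rw [this]
  exact (norm_add_le _ _).trans (add_le_add (h.2 i j) (h'.2 i j))

theorem Phys.norm_le {δ C : ℝ} {A : Matrix (Fin 2) (Fin 2) 𝔐} {X : Matrix (Fin 2) (Fin 2) 𝒜}
    (h : T.Phys δ A X) {i j : Fin 2} (hA : ‖A i j‖ ≤ C) : ‖X i j‖ ≤ 2 * C + δ := by
  rw [← T.ι_norm]
  have h1 : T.ι (X i j) = (T.ι (X i j) - T.θ (A i j)) + T.θ (A i j) := by abel
  rw [h1]
  have h2 := T.θ_norm (A i j)
  have h3 := h.2 i j
  have h4 := norm_add_le (T.ι (X i j) - T.θ (A i j)) (T.θ (A i j))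
  linarith

/-- symmetrisation: `X := (Y + Yᴴ)/2` -/
theorem exists_phys {δ : ℝ} {A : Matrix (Fin 2) (Fin 2) 𝔐} (hA : ∀ i k, star (A k i) = A i k)
    (h : ∀ i j, T.Rz δ (A i j)) : ∃ X, T.Phys δ A X := by
  choose Y hY using h
  refine ⟨Matrix.of fun i j => (1 / 2 : ℂ) • (Y i j + star (Y j i)), ?_, fun i j => ?_⟩
  · ext i j
    rw [Matrix.conjTranspose_apply, Matrix.of_apply, Matrix.of_apply, star_smul, star_add, star_star,
      add_comm]
    congr 1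
    simp [Complex.star_def, map_div₀]
  · have e : T.ι ((Matrix.of fun i j => (1 / 2 : ℂ) • (Y i j + star (Y j i))) i j) - T.θ (A i j)
        = (1 / 2 : ℂ) • ((T.ι (Y i j) - T.θ (A i j)) + star (T.ι (Y j i) - T.θ (A j i))) := by
      rw [Matrix.of_apply, map_smul, map_add, map_star, star_sub, ← T.θ_star, hA i j]
      module
    rw [e, norm_smul]
    have h1 := norm_add_le (T.ι (Y i j) - T.θ (A i j)) (star (T.ι (Y j i) - T.θ (A j i)))
    rw [norm_star] at h1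
    have h2 := hY i j
    have h3 := hY j i
    have h4 : ‖(1 / 2 : ℂ)‖ = 1 / 2 := by simp
    rw [h4]
    linarith

theorem Good.exists_phys {δ : ℝ} {A : Matrix (Fin 2) (Fin 2) 𝔐} (h : T.Good δ A) :
    ∃ X, T.Phys δ A X :=
  IuTr.exists_phys h.q.1 h.rz

theorem Good.mono {δ δ' : ℝ} {A : Matrix (Fin 2) (Fin 2) 𝔐} (h : T.Good δ A) (hδ : δ ≤ δ') :
    T.Good δ' A :=
  ⟨h.q, h.car, h.bd, fun i j => (h.rz i j).mono hδ⟩

/-- core estimate: the product of two approximants -/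
theorem mul_est {δ : ℝ} (hη : 0 ≤ η) (hδ : 0 ≤ δ) {z z' : 𝔐} {x x' : 𝔄} (hz : ‖z‖ ≤ 8)
    (hz' : ‖z'‖ ≤ 8) (hc : T.c * z' = z') (hx : ‖x - T.θ z‖ ≤ δ) (hx' : ‖x' - T.θ z'‖ ≤ δ) :
    ‖x * x' - T.θ (z * z')‖ ≤ 128 * η + 32 * δ + δ ^ 2 := by
  have e : x * x' - T.θ (z * z') = (T.θ z * T.θ z' - T.θ (z * z')) + T.θ z * (x' - T.θ z')
      + (x - T.θ z) * T.θ z' + (x - T.θ z) * (x' - T.θ z') := by noncomm_ring
  have n0 : ‖T.θ z‖ ≤ 16 := (T.θ_norm z).trans (by linarith)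
  have n0' : ‖T.θ z'‖ ≤ 16 := (T.θ_norm z').trans (by linarith)
  have n1 : ‖T.θ z * T.θ z' - T.θ (z * z')‖ ≤ 128 * η := by
    refine (T.θ_mul z z' hc).trans ?_
    have : ‖z‖ * ‖z'‖ ≤ 8 * 8 := mul_le_mul hz hz' (norm_nonneg _) (by norm_num)
    calc 2 * η * ‖z‖ * ‖z'‖ = 2 * η * (‖z‖ * ‖z'‖) := by ring
      _ ≤ 2 * η * (8 * 8) := mul_le_mul_of_nonneg_left this (by linarith)
      _ = 128 * η := by ring
  have n2 : ‖T.θ z * (x' - T.θ z')‖ ≤ 16 * δ :=
    (norm_mul_le _ _).trans (mul_le_mul n0 hx' (norm_nonneg _) (by norm_num))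
  have n3 : ‖(x - T.θ z) * T.θ z'‖ ≤ δ * 16 :=
    (norm_mul_le _ _).trans (mul_le_mul hx n0' (norm_nonneg _) hδ)
  have n4 : ‖(x - T.θ z) * (x' - T.θ z')‖ ≤ δ * δ :=
    (norm_mul_le _ _).trans (mul_le_mul hx hx' (norm_nonneg _) hδ)
  rw [e]
  have a1 := norm_add_le ((T.θ z * T.θ z' - T.θ (z * z')) + T.θ z * (x' - T.θ z')
      + (x - T.θ z) * T.θ z') ((x - T.θ z) * (x' - T.θ z'))
  have a2 := norm_add_le ((T.θ z * T.θ z' - T.θ (z * z')) + T.θ z * (x' - T.θ z'))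
      ((x - T.θ z) * T.θ z')
  have a3 := norm_add_le (T.θ z * T.θ z' - T.θ (z * z')) (T.θ z * (x' - T.θ z'))
  nlinarith

theorem add_aux {G : Type*} [AddCommGroup G] (a1 a2 S1 x b1 b2 S2 t : G) (h : b1 + b2 + S2 = t) :
    a1 + a2 + S1 - x = (a1 - b1) + (a2 - b2) - (x - t) + (S1 - S2) := by
  subst h; abel

theorem entry_formula {R : Type*} [Ring R] (X : Matrix (Fin 2) (Fin 2) R) (i j : Fin 2) :
    ((iuE R + X) * (iuE R + X) - (iuE R + X)) i j
      = (if i = 0 then X i j else 0) + (if j = 0 then X i j else 0) + ∑ l, X i l * X l j - X i j := by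
  have : (iuE R + X) * (iuE R + X) - (iuE R + X) = iuE R * X + X * iuE R + X * X - X := by
    rw [add_mul, mul_add, mul_add, iuE_mul_self]; abel
  rw [this, Matrix.sub_apply, Matrix.add_apply, Matrix.add_apply, iuAlg_E_mul, iuAlg_mul_E,
    Matrix.mul_apply]

/-- the defect of `e11 + X`, entrywise -/
theorem Good.defect {δ : ℝ} (hs : IuSmall η δ) {A : Matrix (Fin 2) (Fin 2) 𝔐}
    {X : Matrix (Fin 2) (Fin 2) 𝒜} (h : T.Good δ A) (hX : T.Phys δ A X) (i j : Fin 2) :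
    ‖((iuE 𝒜 + X) * (iuE 𝒜 + X) - (iuE 𝒜 + X)) i j‖ ≤ 300 * (η + δ) := by
  obtain ⟨hη0, hη1, hδ0, hδ1⟩ := hs
  rw [← T.ι_norm, entry_formula]
  have hι : T.ι ((if i = 0 then X i j else 0) + (if j = 0 then X i j else 0)
      + ∑ l, X i l * X l j - X i j)
      = (if i = 0 then T.ι (X i j) else 0) + (if j = 0 then T.ι (X i j) else 0)
        + ∑ l, T.ι (X i l) * T.ι (X l j) - T.ι (X i j) := by
    simp only [map_sub, map_add, map_sum, map_mul, apply_ite T.ι, map_zero]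
  have hθ : (if i = 0 then T.θ (A i j) else 0) + (if j = 0 then T.θ (A i j) else 0)
      + ∑ l, T.θ (A i l * A l j) = T.θ (A i j) := by
    have := congrArg T.θ (h.q.2 i j)
    simpa only [map_add, map_sum, apply_ite T.θ, map_zero] using this
  have key : (if i = 0 then T.ι (X i j) else 0) + (if j = 0 then T.ι (X i j) else 0)
        + ∑ l, T.ι (X i l) * T.ι (X l j) - T.ι (X i j)
      = ((if i = 0 then T.ι (X i j) else 0) - (if i = 0 then T.θ (A i j) else 0))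
        + ((if j = 0 then T.ι (X i j) else 0) - (if j = 0 then T.θ (A i j) else 0))
        - (T.ι (X i j) - T.θ (A i j))
        + ∑ l, (T.ι (X i l) * T.ι (X l j) - T.θ (A i l * A l j)) := by
    rw [Finset.sum_sub_distrib]
    exact add_aux _ _ _ _ _ _ _ _ hθ
  rw [hι, key]
  have b1 : ‖(if i = 0 then T.ι (X i j) else 0) - (if i = 0 then T.θ (A i j) else 0)‖ ≤ δ := by
    split_ifs
    · exact hX.2 i j
    · simpa using hδ0
  have b2 : ‖(if j = 0 then T.ι (X i j) else 0) - (if j = 0 then T.θ (A i j) else 0)‖ ≤ δ := by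
    split_ifs
    · exact hX.2 i j
    · simpa using hδ0
  have b3 := hX.2 i j
  have b4 : ‖∑ l, (T.ι (X i l) * T.ι (X l j) - T.θ (A i l * A l j))‖
      ≤ 2 * (128 * η + 32 * δ + δ ^ 2) := by
    rw [Fin.sum_univ_two]
    have c0 := mul_est (T := T) hη0 hδ0 (h.bd i 0) (h.bd 0 j) (h.car 0 j) (hX.2 i 0) (hX.2 0 j)
    have c1 := mul_est (T := T) hη0 hδ0 (h.bd i 1) (h.bd 1 j) (h.car 1 j) (hX.2 i 1) (hX.2 1 j)
    exact (norm_add_le _ _).trans (by linarith)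
  have a1 := norm_add_le (((if i = 0 then T.ι (X i j) else 0) - (if i = 0 then T.θ (A i j) else 0))
        + ((if j = 0 then T.ι (X i j) else 0) - (if j = 0 then T.θ (A i j) else 0))
        - (T.ι (X i j) - T.θ (A i j))) (∑ l, (T.ι (X i l) * T.ι (X l j) - T.θ (A i l * A l j)))
  have a2 := norm_sub_le (((if i = 0 then T.ι (X i j) else 0) - (if i = 0 then T.θ (A i j) else 0))
        + ((if j = 0 then T.ι (X i j) else 0) - (if j = 0 then T.θ (A i j) else 0)))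
        (T.ι (X i j) - T.θ (A i j))
  have a3 := norm_add_le ((if i = 0 then T.ι (X i j) else 0) - (if i = 0 then T.θ (A i j) else 0))
        ((if j = 0 then T.ι (X i j) else 0) - (if j = 0 then T.θ (A i j) else 0))
  have hsq : δ ^ 2 ≤ δ := by nlinarith
  linarith

/-- products of physical approximants of orthogonal model matrices are small -/
theorem phys_mul_small {δ : ℝ} (hs : IuSmall η δ) {A A' : Matrix (Fin 2) (Fin 2) 𝔐}
    {X X' : Matrix (Fin 2) (Fin 2) 𝒜} (hb : ∀ i j, ‖A i j‖ ≤ 8) (hb' : ∀ i j, ‖A' i j‖ ≤ 8)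
    (hc' : ∀ i j, T.c * A' i j = A' i j) (h0 : ∀ i l l' j, A i l * A' l' j = 0)
    (hX : T.Phys δ A X) (hX' : T.Phys δ A' X') (i j : Fin 2) :
    ‖(X * X') i j‖ ≤ 300 * (η + δ) := by
  obtain ⟨hη0, hη1, hδ0, hδ1⟩ := hs
  rw [← T.ι_norm, Matrix.mul_apply, map_sum, Fin.sum_univ_two, map_mul, map_mul]
  have c0 := mul_est (T := T) hη0 hδ0 (hb i 0) (hb' 0 j) (hc' 0 j) (hX.2 i 0) (hX'.2 0 j)
  have c1 := mul_est (T := T) hη0 hδ0 (hb i 1) (hb' 1 j) (hc' 1 j) (hX.2 i 1) (hX'.2 1 j)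
  rw [h0, map_zero, sub_zero] at c0 c1
  have hsq : δ ^ 2 ≤ δ := by nlinarith
  exact (norm_add_le _ _).trans (by linarith)

/-- THE ROOT.  `v0 = V J_0 Φ(χ_0)`. -/
theorem root {δ : ℝ} (hs : IuSmall η δ) {a : Matrix (Fin 2) (Fin 2) 𝒜}
    {A0 : Matrix (Fin 2) (Fin 2) 𝔐} {v : 𝒜} {v0 : 𝔄} (hv : ‖T.ι v - v0‖ ≤ η) (hv0 : ‖v0‖ ≤ 3 / 2)
    (ha : ∀ i j, ‖a i j‖ ≤ 2)
    (h1 : ∀ i j, ‖star v0 * v0 * T.ι (a i j) - T.ι (a i j)‖ ≤ 2 * η)
    (h2 : ∀ i j, v0 * T.ι (a i j) * star v0 = T.θ (A0 i j))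
    {X : Matrix (Fin 2) (Fin 2) 𝒜} (hX : T.Phys δ A0 X) :
    ‖v‖ ≤ 2 ∧ (∀ i j, ‖star v * v * a i j - a i j‖ ≤ 20 * η) ∧
      ∀ i j, ‖v * a i j * star v - X i j‖ ≤ 20 * η + δ := by
  obtain ⟨hη0, hη1, hδ0, hδ1⟩ := hs
  set V : 𝔄 := T.ι v with hV
  set r : 𝔄 := V - v0 with hr
  have hVr : V = v0 + r := by rw [hr]; abel
  have hVn : ‖V‖ ≤ 2 := by
    rw [hVr]
    exact (norm_add_le _ _).trans (by linarith)
  have hsr : ‖star r‖ ≤ η := by rwa [norm_star]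
  have hsv0 : ‖star v0‖ ≤ 3 / 2 := by rwa [norm_star]
  have hsV : ‖star V‖ ≤ 2 := by rwa [norm_star]
  have han : ∀ i j, ‖T.ι (a i j)‖ ≤ 2 := fun i j => by rw [T.ι_norm]; exact ha i j
  refine ⟨by rw [← T.ι_norm]; exact hVn, fun i j => ?_, fun i j => ?_⟩
  · rw [← T.ι_norm, map_sub, map_mul, map_mul, map_star]
    set α : 𝔄 := T.ι (a i j) with hα
    have e : star V * V * α - α = (star v0 * v0 * α - α) + star v0 * r * α + star r * V * α := by
      rw [hVr]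
      simp only [star_add]
      noncomm_ring
    rw [e]
    have n1 : ‖star v0 * r * α‖ ≤ 3 / 2 * η * 2 := by
      refine (norm_mul_le _ _).trans (mul_le_mul ?_ (han i j) (norm_nonneg _) (by positivity))
      exact (norm_mul_le _ _).trans (mul_le_mul hsv0 hv (norm_nonneg _) (by norm_num))
    have n2 : ‖star r * V * α‖ ≤ η * 2 * 2 := by
      refine (norm_mul_le _ _).trans (mul_le_mul ?_ (han i j) (norm_nonneg _) (by positivity))
      exact (norm_mul_le _ _).trans (mul_le_mul hsr hVn (norm_nonneg _) hη0)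
    have a1 := norm_add_le ((star v0 * v0 * α - α) + star v0 * r * α) (star r * V * α)
    have a2 := norm_add_le (star v0 * v0 * α - α) (star v0 * r * α)
    have := h1 i j
    linarith
  · rw [← T.ι_norm, map_sub, map_mul, map_mul, map_star]
    set α : 𝔄 := T.ι (a i j) with hα
    have e : V * α * star V - T.ι (X i j)
        = r * α * star V + v0 * α * star r - (T.ι (X i j) - T.θ (A0 i j)) := by
      rw [← h2 i j, hVr]
      simp only [star_add]
      noncomm_ring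
    rw [e]
    have n1 : ‖r * α * star V‖ ≤ η * 2 * 2 := by
      refine (norm_mul_le _ _).trans (mul_le_mul ?_ hsV (norm_nonneg _) (by positivity))
      exact (norm_mul_le _ _).trans (mul_le_mul hv (han i j) (norm_nonneg _) hη0)
    have n2 : ‖v0 * α * star r‖ ≤ 3 / 2 * 2 * η := by
      refine (norm_mul_le _ _).trans (mul_le_mul ?_ hsr (norm_nonneg _) (by positivity))
      exact (norm_mul_le _ _).trans (mul_le_mul hv0 (han i j) (norm_nonneg _) (by norm_num))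
    have a1 := norm_sub_le (r * α * star V + v0 * α * star r) (T.ι (X i j) - T.θ (A0 i j))
    have a2 := norm_add_le (r * α * star V) (v0 * α * star r)
    have := hX.2 i j
    linarith

variable [PartialOrder 𝒜] [StarOrderedRing 𝒜]

variable (T) in
/-- all physical approximants of `A` and of `A'` give equivalent projections -/
def Link (δ : ℝ) (A A' : Matrix (Fin 2) (Fin 2) 𝔐) : Prop :=
  ∀ X X', T.Phys δ A X → T.Phys δ A' X' →
    IuMvN (iuPi (CStarMatrix.ofMatrix (iuE 𝒜 + X))) (iuPi (CStarMatrix.ofMatrix (iuE 𝒜 + X')))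

theorem Good.ap {δ : ℝ} (hs : IuSmall η δ) {A : Matrix (Fin 2) (Fin 2) 𝔐}
    {X : Matrix (Fin 2) (Fin 2) 𝒜} (h : T.Good δ A) (hX : T.Phys δ A X) :
    IuAP (CStarMatrix.ofMatrix (iuE 𝒜 + X)) := by
  refine ⟨?_, ?_⟩
  · rw [iuK_isSelfAdjoint_ofMatrix, Matrix.conjTranspose_add, iuE_conjTranspose, hX.1]
  · have h1 := iuK_norm_le_four ((iuE 𝒜 + X) * (iuE 𝒜 + X) - (iuE 𝒜 + X))
      (fun i j => h.defect hs hX i j)
    obtain ⟨hη0, hη1, hδ0, hδ1⟩ := hs
    refine le_trans h1 ?_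
    norm_num at hη1 hδ1 ⊢
    linarith

/-- a small step in the model -/
theorem link_step {δ : ℝ} (hs : IuSmall η δ) {A A' : Matrix (Fin 2) (Fin 2) 𝔐} (h : T.Good δ A)
    (h' : T.Good δ A') (hstep : ∀ i j, ‖A i j - A' i j‖ ≤ 1 / 100) : T.Link δ A A' := by
  intro X X' hX hX'
  refine (h.ap hs hX).step (h'.ap hs hX') ?_
  obtain ⟨hη0, hη1, hδ0, hδ1⟩ := hs
  have h1 : ∀ i j, ‖((iuE 𝒜 + X) - (iuE 𝒜 + X')) i j‖ ≤ 2 * (1 / 100) + 2 * δ := by
    intro i j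
    rw [← T.ι_norm]
    have e : T.ι (((iuE 𝒜 + X) - (iuE 𝒜 + X')) i j)
        = (T.ι (X i j) - T.θ (A i j)) - (T.ι (X' i j) - T.θ (A' i j)) + T.θ (A i j - A' i j) := by
      rw [add_sub_add_left_eq_sub, Matrix.sub_apply, map_sub, map_sub]; abel
    rw [e]
    have a1 := norm_add_le ((T.ι (X i j) - T.θ (A i j)) - (T.ι (X' i j) - T.θ (A' i j)))
      (T.θ (A i j - A' i j))
    have a2 := norm_sub_le (T.ι (X i j) - T.θ (A i j)) (T.ι (X' i j) - T.θ (A' i j))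
    have a3 := T.θ_norm (A i j - A' i j)
    have a4 := hstep i j
    have a5 := hX.2 i j
    have a6 := hX'.2 i j
    linarith
  have h2 := iuK_norm_le_four _ h1
  refine le_trans h2 ?_
  norm_num at hδ1 ⊢
  linarith

theorem link_trans {δ : ℝ} (hs : IuSmall η δ) {A A' A'' : Matrix (Fin 2) (Fin 2) 𝔐}
    (h : T.Good δ A) (h' : T.Good δ A') (h'' : T.Good δ A'') (l : T.Link δ A A')
    (l' : T.Link δ A' A'') : T.Link δ A A'' := by
  intro X X'' hX hX''
  obtain ⟨X', hX'⟩ := h'.exists_phys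
  exact (l X X' hX hX').trans (h.ap hs hX).proj.isIdempotentElem
    (h''.ap hs hX'').proj.isIdempotentElem (l' X' X'' hX' hX'')

theorem link_chain {δ : ℝ} (hs : IuSmall η δ) (A : ℕ → Matrix (Fin 2) (Fin 2) 𝔐) (N : ℕ)
    (h : ∀ j ≤ N, T.Good δ (A j)) (hstep : ∀ j < N, ∀ r s, ‖A j r s - A (j + 1) r s‖ ≤ 1 / 100) :
    T.Link δ (A 0) (A N) := by
  induction N with
  | zero =>
    exact link_step hs (h 0 le_rfl) (h 0 le_rfl) (fun i j => by simp)
  | succ N ih =>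
    have h1 := ih (fun j hj => h j (by omega)) (fun j hj => hstep j (by omega))
    have h2 := link_step hs (h N (by omega)) (h (N + 1) le_rfl) (hstep N (by omega))
    exact link_trans hs (h 0 (by omega)) (h N (by omega)) (h (N + 1) le_rfl) h1 h2

/-- the rotated matrix `W_t A W_t^*`, `W_t = cos t + sin t S`, is good -/
theorem good_rot {δ : ℝ} (hδ : 0 ≤ δ) {A : Matrix (Fin 2) (Fin 2) 𝔐} {S : 𝔐} (hS : star S * S = 1)
    (hq : IuQ A) (hSa : ∀ i l l' k, A i l * S * A l' k = 0) (hbd : ∀ i j, ‖A i j‖ ≤ 2)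
    (c1 : ∀ i j, T.c * A i j = A i j) (c2 : ∀ i j, T.c * (S * A i j) = S * A i j)
    (c3 : ∀ i j, T.c * (A i j * star S) = A i j * star S)
    (c4 : ∀ i j, T.c * (S * A i j * star S) = S * A i j * star S)
    (r1 : ∀ i j, T.Rz (δ / 4) (A i j)) (r2 : ∀ i j, T.Rz (δ / 4) (S * A i j))
    (r3 : ∀ i j, T.Rz (δ / 4) (A i j * star S)) (r4 : ∀ i j, T.Rz (δ / 4) (S * A i j * star S))
    (t : ℝ) :
    T.Good δ (Matrix.of fun i k => ((Real.cos t ^ 2 : ℝ) : ℂ) • A i k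
      + ((Real.cos t * Real.sin t : ℝ) : ℂ) • (S * A i k + A i k * star S)
      + ((Real.sin t ^ 2 : ℝ) : ℂ) • (S * A i k * star S)) := by
  have hSn : ‖S‖ ≤ 1 := by
    have h1 : ‖S‖ * ‖S‖ = ‖(1 : 𝔐)‖ := by rw [← CStarRing.norm_star_mul_self, hS]
    have h2 : ‖(1 : 𝔐)‖ ≤ 1 := IsStarProjection.norm_le 1 (IsStarProjection.one 𝔐)
    nlinarith [norm_nonneg S]
  have hSs : ‖star S‖ ≤ 1 := by rwa [norm_star]
  have hc : |Real.cos t| ≤ 1 := Real.abs_cos_le_one t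
  have hs : |Real.sin t| ≤ 1 := Real.abs_sin_le_one t
  have hcc : ‖((Real.cos t ^ 2 : ℝ) : ℂ)‖ ≤ 1 := by
    rw [Complex.norm_real, Real.norm_eq_abs, abs_pow]; exact pow_le_one₀ (abs_nonneg _) hc
  have hss : ‖((Real.sin t ^ 2 : ℝ) : ℂ)‖ ≤ 1 := by
    rw [Complex.norm_real, Real.norm_eq_abs, abs_pow]; exact pow_le_one₀ (abs_nonneg _) hs
  have hcs : ‖((Real.cos t * Real.sin t : ℝ) : ℂ)‖ ≤ 1 := by
    rw [Complex.norm_real, Real.norm_eq_abs, abs_mul]; exact mul_le_one₀ hc (abs_nonneg _) hs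
  refine ⟨hq.rot S hS hSa (Real.cos t) (Real.sin t) (Real.cos_sq_add_sin_sq t), fun i j => ?_,
    fun i j => ?_, fun i j => ?_⟩
  · rw [Matrix.of_apply, mul_add, mul_add, mul_smul_comm, mul_smul_comm, mul_smul_comm, mul_add,
      c1, c2, c3, c4]
  · rw [Matrix.of_apply]
    have n1 : ‖S * A i j‖ ≤ 2 := by
      refine (norm_mul_le _ _).trans ?_
      calc ‖S‖ * ‖A i j‖ ≤ 1 * 2 := mul_le_mul hSn (hbd i j) (norm_nonneg _) (by norm_num)
        _ = 2 := by norm_num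
    have n2 : ‖A i j * star S‖ ≤ 2 := by
      refine (norm_mul_le _ _).trans ?_
      calc ‖A i j‖ * ‖star S‖ ≤ 2 * 1 := mul_le_mul (hbd i j) hSs (norm_nonneg _) (by norm_num)
        _ = 2 := by norm_num
    have n3 : ‖S * A i j * star S‖ ≤ 2 := by
      refine (norm_mul_le _ _).trans ?_
      calc ‖S * A i j‖ * ‖star S‖ ≤ 2 * 1 := mul_le_mul n1 hSs (norm_nonneg _) (by norm_num)
        _ = 2 := by norm_num
    have m1 : ‖((Real.cos t ^ 2 : ℝ) : ℂ) • A i j‖ ≤ 2 := by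
      rw [norm_smul]
      calc _ ≤ 1 * 2 := mul_le_mul hcc (hbd i j) (norm_nonneg _) (by norm_num)
        _ = 2 := by norm_num
    have m2 : ‖((Real.cos t * Real.sin t : ℝ) : ℂ) • (S * A i j + A i j * star S)‖ ≤ 4 := by
      rw [norm_smul]
      have : ‖S * A i j + A i j * star S‖ ≤ 4 := (norm_add_le _ _).trans (by linarith)
      calc _ ≤ 1 * 4 := mul_le_mul hcs this (norm_nonneg _) (by norm_num)
        _ = 4 := by norm_num
    have m3 : ‖((Real.sin t ^ 2 : ℝ) : ℂ) • (S * A i j * star S)‖ ≤ 2 := by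
      rw [norm_smul]
      calc _ ≤ 1 * 2 := mul_le_mul hss n3 (norm_nonneg _) (by norm_num)
        _ = 2 := by norm_num
    have a1 := norm_add_le (((Real.cos t ^ 2 : ℝ) : ℂ) • A i j
      + ((Real.cos t * Real.sin t : ℝ) : ℂ) • (S * A i j + A i j * star S))
      (((Real.sin t ^ 2 : ℝ) : ℂ) • (S * A i j * star S))
    have a2 := norm_add_le (((Real.cos t ^ 2 : ℝ) : ℂ) • A i j)
      (((Real.cos t * Real.sin t : ℝ) : ℂ) • (S * A i j + A i j * star S))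
    linarith
  · rw [Matrix.of_apply]
    have q1 := ((r1 i j).smul ((Real.cos t ^ 2 : ℝ) : ℂ)).mono
      (mul_le_of_le_one_left (by linarith : 0 ≤ δ / 4) hcc)
    have q2 := (((r2 i j).add (r3 i j)).smul ((Real.cos t * Real.sin t : ℝ) : ℂ)).mono
      (mul_le_of_le_one_left (by linarith : 0 ≤ δ / 4 + δ / 4) hcs)
    have q3 := ((r4 i j).smul ((Real.sin t ^ 2 : ℝ) : ℂ)).mono
      (mul_le_of_le_one_left (by linarith : 0 ≤ δ / 4) hss)
    exact ((q1.add q2).add q3).mono (by linarith)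

/-- EXACT ROTATION IN THE MODEL: `A` is linked to `S A S^*`
(`good_rot` at `t_j = (π/2) j / 4000`, `link_chain`). -/
theorem link_rot {δ : ℝ} (hs : IuSmall η δ) {A : Matrix (Fin 2) (Fin 2) 𝔐} {S : 𝔐}
    (hS : star S * S = 1)
    (hq : IuQ A) (hSa : ∀ i l l' k, A i l * S * A l' k = 0) (hbd : ∀ i j, ‖A i j‖ ≤ 2)
    (c1 : ∀ i j, T.c * A i j = A i j) (c2 : ∀ i j, T.c * (S * A i j) = S * A i j)
    (c3 : ∀ i j, T.c * (A i j * star S) = A i j * star S)
    (c4 : ∀ i j, T.c * (S * A i j * star S) = S * A i j * star S)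
    (r1 : ∀ i j, T.Rz (δ / 4) (A i j)) (r2 : ∀ i j, T.Rz (δ / 4) (S * A i j))
    (r3 : ∀ i j, T.Rz (δ / 4) (A i j * star S)) (r4 : ∀ i j, T.Rz (δ / 4) (S * A i j * star S)) :
    T.Link δ A (Matrix.of fun i j => S * A i j * star S) := by
  have hδ : 0 ≤ δ := hs.2.2.1
  set B : ℝ → Matrix (Fin 2) (Fin 2) 𝔐 := fun t =>
    Matrix.of fun i k => ((Real.cos t ^ 2 : ℝ) : ℂ) • A i k
      + ((Real.cos t * Real.sin t : ℝ) : ℂ) • (S * A i k + A i k * star S)
      + ((Real.sin t ^ 2 : ℝ) : ℂ) • (S * A i k * star S) with hB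
  have hgood : ∀ t, T.Good δ (B t) := fun t =>
    good_rot hδ hS hq hSa hbd c1 c2 c3 c4 r1 r2 r3 r4 t
  have hSn : ‖S‖ ≤ 1 := by
    have h1 : ‖S‖ * ‖S‖ = ‖(1 : 𝔐)‖ := by rw [← CStarRing.norm_star_mul_self, hS]
    have h2 : ‖(1 : 𝔐)‖ ≤ 1 := IsStarProjection.norm_le 1 (IsStarProjection.one 𝔐)
    nlinarith [norm_nonneg S]
  have hSs : ‖star S‖ ≤ 1 := by rwa [norm_star]
  have hlip : ∀ t t' : ℝ, ∀ i j, ‖B t i j - B t' i j‖ ≤ 16 * |t - t'| := by
    intro t t' i j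
    have hc : |Real.cos t| ≤ 1 := Real.abs_cos_le_one t
    have hs' : |Real.sin t| ≤ 1 := Real.abs_sin_le_one t
    have hc' : |Real.cos t'| ≤ 1 := Real.abs_cos_le_one t'
    have hs'' : |Real.sin t'| ≤ 1 := Real.abs_sin_le_one t'
    have dc := Real.abs_cos_sub_cos_le t t'
    have ds := Real.abs_sin_sub_sin_le t t'
    have d0 := abs_nonneg (t - t')
    have l1 : |Real.cos t ^ 2 - Real.cos t' ^ 2| ≤ 2 * |t - t'| := by
      have : Real.cos t ^ 2 - Real.cos t' ^ 2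
          = (Real.cos t - Real.cos t') * (Real.cos t + Real.cos t') := by ring
      rw [this, abs_mul]
      have : |Real.cos t + Real.cos t'| ≤ 2 := (abs_add_le _ _).trans (by linarith)
      calc _ ≤ |t - t'| * 2 := mul_le_mul dc this (abs_nonneg _) d0
        _ = 2 * |t - t'| := by ring
    have l3 : |Real.sin t ^ 2 - Real.sin t' ^ 2| ≤ 2 * |t - t'| := by
      have : Real.sin t ^ 2 - Real.sin t' ^ 2
          = (Real.sin t - Real.sin t') * (Real.sin t + Real.sin t') := by ring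
      rw [this, abs_mul]
      have : |Real.sin t + Real.sin t'| ≤ 2 := (abs_add_le _ _).trans (by linarith)
      calc _ ≤ |t - t'| * 2 := mul_le_mul ds this (abs_nonneg _) d0
        _ = 2 * |t - t'| := by ring
    have l2 : |Real.cos t * Real.sin t - Real.cos t' * Real.sin t'| ≤ 2 * |t - t'| := by
      have : Real.cos t * Real.sin t - Real.cos t' * Real.sin t'
          = (Real.cos t - Real.cos t') * Real.sin t + Real.cos t' * (Real.sin t - Real.sin t') := by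
        ring
      rw [this]
      refine (abs_add_le _ _).trans ?_
      rw [abs_mul, abs_mul]
      have e1 : |Real.cos t - Real.cos t'| * |Real.sin t| ≤ |t - t'| * 1 :=
        mul_le_mul dc hs' (abs_nonneg _) d0
      have e2 : |Real.cos t'| * |Real.sin t - Real.sin t'| ≤ 1 * |t - t'| :=
        mul_le_mul hc' ds (abs_nonneg _) (by norm_num)
      linarith
    have n1 : ‖S * A i j‖ ≤ 2 := by
      refine (norm_mul_le _ _).trans ?_
      calc ‖S‖ * ‖A i j‖ ≤ 1 * 2 := mul_le_mul hSn (hbd i j) (norm_nonneg _) (by norm_num)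
        _ = 2 := by norm_num
    have n2 : ‖A i j * star S‖ ≤ 2 := by
      refine (norm_mul_le _ _).trans ?_
      calc ‖A i j‖ * ‖star S‖ ≤ 2 * 1 := mul_le_mul (hbd i j) hSs (norm_nonneg _) (by norm_num)
        _ = 2 := by norm_num
    have n3 : ‖S * A i j * star S‖ ≤ 2 := by
      refine (norm_mul_le _ _).trans ?_
      calc ‖S * A i j‖ * ‖star S‖ ≤ 2 * 1 := mul_le_mul n1 hSs (norm_nonneg _) (by norm_num)
        _ = 2 := by norm_num
    have n4 : ‖S * A i j + A i j * star S‖ ≤ 4 := (norm_add_le _ _).trans (by linarith)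
    have e : B t i j - B t' i j
        = ((Real.cos t ^ 2 - Real.cos t' ^ 2 : ℝ) : ℂ) • A i j
          + ((Real.cos t * Real.sin t - Real.cos t' * Real.sin t' : ℝ) : ℂ)
            • (S * A i j + A i j * star S)
          + ((Real.sin t ^ 2 - Real.sin t' ^ 2 : ℝ) : ℂ) • (S * A i j * star S) := by
      simp only [hB, Matrix.of_apply]
      rw [Complex.ofReal_sub, Complex.ofReal_sub, Complex.ofReal_sub]
      module
    rw [e]
    have m1 : ‖((Real.cos t ^ 2 - Real.cos t' ^ 2 : ℝ) : ℂ) • A i j‖ ≤ 2 * |t - t'| * 2 := by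
      rw [norm_smul, Complex.norm_real, Real.norm_eq_abs]
      exact mul_le_mul l1 (hbd i j) (norm_nonneg _) (by positivity)
    have m2 : ‖((Real.cos t * Real.sin t - Real.cos t' * Real.sin t' : ℝ) : ℂ)
        • (S * A i j + A i j * star S)‖ ≤ 2 * |t - t'| * 4 := by
      rw [norm_smul, Complex.norm_real, Real.norm_eq_abs]
      exact mul_le_mul l2 n4 (norm_nonneg _) (by positivity)
    have m3 : ‖((Real.sin t ^ 2 - Real.sin t' ^ 2 : ℝ) : ℂ) • (S * A i j * star S)‖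
        ≤ 2 * |t - t'| * 2 := by
      rw [norm_smul, Complex.norm_real, Real.norm_eq_abs]
      exact mul_le_mul l3 n3 (norm_nonneg _) (by positivity)
    have a1 := norm_add_le (((Real.cos t ^ 2 - Real.cos t' ^ 2 : ℝ) : ℂ) • A i j
          + ((Real.cos t * Real.sin t - Real.cos t' * Real.sin t' : ℝ) : ℂ)
            • (S * A i j + A i j * star S))
          (((Real.sin t ^ 2 - Real.sin t' ^ 2 : ℝ) : ℂ) • (S * A i j * star S))
    have a2 := norm_add_le (((Real.cos t ^ 2 - Real.cos t' ^ 2 : ℝ) : ℂ) • A i j)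
          (((Real.cos t * Real.sin t - Real.cos t' * Real.sin t' : ℝ) : ℂ)
            • (S * A i j + A i j * star S))
    linarith
  have key := link_chain hs (fun j : ℕ => B (Real.pi / 2 * j / 4000)) 4000
    (fun j _ => hgood _) (fun j _ r s => by
      refine (hlip _ _ r s).trans ?_
      have : Real.pi / 2 * (j : ℝ) / 4000 - Real.pi / 2 * ((j + 1 : ℕ) : ℝ) / 4000
          = -(Real.pi / 8000) := by push_cast; ring
      rw [this, abs_neg, abs_of_pos (by positivity)]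
      have := Real.pi_lt_d2
      linarith)
  have e0 : B (Real.pi / 2 * ((0 : ℕ) : ℝ) / 4000) = A := by
    ext i j
    simp [hB]
  have e1 : B (Real.pi / 2 * ((4000 : ℕ) : ℝ) / 4000) = Matrix.of fun i j => S * A i j * star S := by
    have : Real.pi / 2 * ((4000 : ℕ) : ℝ) / 4000 = Real.pi / 2 := by push_cast; ring
    rw [this]
    ext i j
    simp [hB]
  rw [e0, e1] at key
  exact key

end IuTr

end Claimed.Agent.R300
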