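/-
Row 300 / S0553 (INJ paper), UPPER ASSEMBLY (sub-captain: helper145).
THE SWINDLE: from the physical realisation of the symbol list `iuSym` to
`(e11 + Φ(a_0)) ⊕ 1_4 ~ e11 ⊕ 1_4` over the closed star subalgebra `S`.
Part 1 (package IU-PHYS, sorried lemmas): the concrete transfer `θ z = V z V^*` and the root.
Part 2: the chain (proved from IuTr, IuModel, IuKMain).
-/
import Mathlib
import Claimed.Agent.R300.IuTr
import Claimed.Agent.R300.IuModel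

set_option autoImplicit false

namespace Claimed.Agent.R300

open Matrix

variable {X : Type}

/-! ### Part 1: the concrete transfer -/

/-- `θ z = V z V^*` -/
noncomputable def iuTheta (V : ScL2 (ℕ × X) →L[ℂ] ScL2 X) : IuOp (ℕ × X) →ₗ[ℂ] IuOp X where
  toFun z := V ∘L z ∘L ContinuousLinearMap.adjoint V
  map_add' z z' := by simp [ContinuousLinearMap.add_comp, ContinuousLinearMap.comp_add]
  map_smul' c z := by simp [ContinuousLinearMap.smul_comp]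

theorem iuTheta_apply (V : ScL2 (ℕ × X) →L[ℂ] ScL2 X) (z : IuOp (ℕ × X)) :
    iuTheta V z = V ∘L z ∘L ContinuousLinearMap.adjoint V := rfl

theorem iuTheta_star (V : ScL2 (ℕ × X) →L[ℂ] ScL2 X) (z : IuOp (ℕ × X)) :
    iuTheta V (star z) = star (iuTheta V z) := by
  rw [iuTheta_apply, iuTheta_apply, ContinuousLinearMap.star_eq_adjoint,
    ContinuousLinearMap.star_eq_adjoint, ContinuousLinearMap.adjoint_comp,
    ContinuousLinearMap.adjoint_comp, ContinuousLinearMap.adjoint_adjoint,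
    ContinuousLinearMap.comp_assoc]

/-- `‖V‖² = ‖V^* V‖ ≤ ‖c‖ + η ≤ 2` -/
theorem iu_V_norm_sq_le {V : ScL2 (ℕ × X) →L[ℂ] ScL2 X} {c : IuOp (ℕ × X)} {η : ℝ} (hc : ‖c‖ ≤ 1)
    (hV : ‖ContinuousLinearMap.adjoint V ∘L V - c‖ ≤ η) (hη : η ≤ 1) : ‖V‖ ^ 2 ≤ 2 := by
  have h1 : ‖ContinuousLinearMap.adjoint V ∘L V‖ = ‖V‖ * ‖V‖ :=
    ContinuousLinearMap.norm_adjoint_comp_self V
  have h2 : ‖ContinuousLinearMap.adjoint V ∘L V‖ ≤
      ‖ContinuousLinearMap.adjoint V ∘L V - c‖ + ‖c‖ := by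
    have := norm_add_le (ContinuousLinearMap.adjoint V ∘L V - c) c
    rwa [sub_add_cancel] at this
  rw [sq, ← h1]
  linarith

theorem iu_adjoint_norm (V : ScL2 (ℕ × X) →L[ℂ] ScL2 X) :
    ‖ContinuousLinearMap.adjoint V‖ = ‖V‖ := LinearIsometryEquiv.norm_map _ _

theorem iuTheta_norm_le {V : ScL2 (ℕ × X) →L[ℂ] ScL2 X} (hV : ‖V‖ ^ 2 ≤ 2) (z : IuOp (ℕ × X)) :
    ‖iuTheta V z‖ ≤ 2 * ‖z‖ := by
  rw [iuTheta_apply]
  calc ‖V ∘L z ∘L ContinuousLinearMap.adjoint V‖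
      ≤ ‖V‖ * (‖z‖ * ‖ContinuousLinearMap.adjoint V‖) :=
        (ContinuousLinearMap.opNorm_comp_le _ _).trans
          (mul_le_mul_of_nonneg_left (ContinuousLinearMap.opNorm_comp_le _ _) (norm_nonneg _))
    _ = ‖V‖ ^ 2 * ‖z‖ := by rw [iu_adjoint_norm]; ring
    _ ≤ 2 * ‖z‖ := mul_le_mul_of_nonneg_right hV (norm_nonneg _)

/-- `θ z θ z' - θ (z z') = V z (V^* V - c) z' V^*` if `c z' = z'` -/
theorem iuTheta_mul {V : ScL2 (ℕ × X) →L[ℂ] ScL2 X} {c : IuOp (ℕ × X)} {η : ℝ} (hV2 : ‖V‖ ^ 2 ≤ 2)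
    (hV : ‖ContinuousLinearMap.adjoint V ∘L V - c‖ ≤ η) (z z' : IuOp (ℕ × X)) (hz : c * z' = z') :
    ‖iuTheta V z * iuTheta V z' - iuTheta V (z * z')‖ ≤ 2 * η * ‖z‖ * ‖z'‖ := by
  have e : iuTheta V z * iuTheta V z' - iuTheta V (z * z') =
      V ∘L z ∘L (ContinuousLinearMap.adjoint V ∘L V - c) ∘L z' ∘L
        ContinuousLinearMap.adjoint V := by
    ext1 ξ
    have h1 : c (z' (ContinuousLinearMap.adjoint V ξ)) = z' (ContinuousLinearMap.adjoint V ξ) := by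
      have := congrArg (fun T : IuOp (ℕ × X) => T (ContinuousLinearMap.adjoint V ξ)) hz
      simpa using this
    simp only [iuTheta_apply, _root_.sub_apply, mul_apply_eq_comp,
      ContinuousLinearMap.comp_apply, h1, map_sub]
  rw [e]
  have hη : 0 ≤ η := (norm_nonneg _).trans hV
  calc _ ≤ ‖V‖ * (‖z‖ * (‖ContinuousLinearMap.adjoint V ∘L V - c‖ *
        (‖z'‖ * ‖ContinuousLinearMap.adjoint V‖))) := by
        refine (ContinuousLinearMap.opNorm_comp_le _ _).trans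
          (mul_le_mul_of_nonneg_left ?_ (norm_nonneg _))
        refine (ContinuousLinearMap.opNorm_comp_le _ _).trans
          (mul_le_mul_of_nonneg_left ?_ (norm_nonneg _))
        refine (ContinuousLinearMap.opNorm_comp_le _ _).trans
          (mul_le_mul_of_nonneg_left ?_ (norm_nonneg _))
        exact ContinuousLinearMap.opNorm_comp_le _ _
    _ = ‖V‖ ^ 2 * (‖ContinuousLinearMap.adjoint V ∘L V - c‖ * (‖z‖ * ‖z'‖)) := by
        rw [iu_adjoint_norm]; ring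
    _ ≤ 2 * (η * (‖z‖ * ‖z'‖)) := by
        refine mul_le_mul hV2 (mul_le_mul_of_nonneg_right hV (by positivity)) (by positivity)
          (by norm_num)
    _ = 2 * η * ‖z‖ * ‖z'‖ := by ring

/-- the concrete transfer data -/
noncomputable def iuTrOf (S : StarSubalgebra ℂ (IuOp X)) [IsClosed (S : Set (IuOp X))]
    (V : ScL2 (ℕ × X) →L[ℂ] ScL2 X) (c : IuOp (ℕ × X)) {η : ℝ} (hc : ‖c‖ ≤ 1)
    (hV : ‖ContinuousLinearMap.adjoint V ∘L V - c‖ ≤ η) (hη : η ≤ 1) :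
    IuTr (IuOp (ℕ × X)) (IuOp X) S η where
  θ := iuTheta V
  ι := S.subtype
  c := c
  ι_norm _ := rfl
  θ_star := iuTheta_star V
  θ_norm := iuTheta_norm_le (iu_V_norm_sq_le hc hV hη)
  θ_mul := iuTheta_mul (iu_V_norm_sq_le hc hV hη) hV

section root

variable {Φ : C(InjT × InjT, ℂ) →⋆ₐ[ℂ] IuOp X} {b H0 N : ℕ} {V : ScL2 (ℕ × X) →L[ℂ] ScL2 X} {η : ℝ}

theorem iu_Phi_cut_norm (h : IuBig b H0) : ‖Φ (injCut b H0 (2 * iuR b) 0)‖ ≤ 1 :=
  (iu_Phi_norm_le Φ _).trans (injCut_norm_le h 0)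

theorem iu_root_in_norm (h : IuBig b H0) :
    ‖(injIn 0 : ScL2 X →L[ℂ] ScL2 (ℕ × X)) ∘L Φ (injCut b H0 (2 * iuR b) 0)‖ ≤ 1 :=
  calc _ ≤ ‖(injIn 0 : ScL2 X →L[ℂ] ScL2 (ℕ × X))‖ * ‖Φ (injCut b H0 (2 * iuR b) 0)‖ :=
        ContinuousLinearMap.opNorm_comp_le _ _
    _ ≤ 1 * 1 := mul_le_mul (injIn_norm_le 0) (iu_Phi_cut_norm h) (norm_nonneg _) zero_le_one
    _ = 1 := one_mul 1

theorem iu_Phi_star_cut (h : IuBig b H0) :
    ContinuousLinearMap.adjoint (Φ (injCut b H0 (2 * iuR b) 0)) =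
      Φ (injCut b H0 (2 * iuR b) 0) := by
  rw [← ContinuousLinearMap.star_eq_adjoint, ← map_star, injCut_star h]

theorem iu_adjoint_in : ContinuousLinearMap.adjoint (injIn 0 : ScL2 X →L[ℂ] ScL2 (ℕ × X)) =
    injSl 0 := ContinuousLinearMap.adjoint_adjoint _

/-- adjoint of the root -/
theorem iu_root_star (h : IuBig b H0) :
    star (V ∘L injIn 0 ∘L Φ (injCut b H0 (2 * iuR b) 0)) =
      Φ (injCut b H0 (2 * iuR b) 0) ∘L injSl 0 ∘L ContinuousLinearMap.adjoint V := by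
  rw [ContinuousLinearMap.star_eq_adjoint, ContinuousLinearMap.adjoint_comp,
    ContinuousLinearMap.adjoint_comp, iu_Phi_star_cut h, iu_adjoint_in,
    ContinuousLinearMap.comp_assoc]

/-- `‖V J_0 Φ(χ_0)‖ ≤ ‖V‖ ≤ √2` -/
theorem iu_root_norm (h : IuBig b H0) (hV2 : ‖V‖ ^ 2 ≤ 2) :
    ‖V ∘L injIn 0 ∘L Φ (injCut b H0 (2 * iuR b) 0)‖ ≤ 3 / 2 := by
  have h1 : ‖V‖ ≤ 3 / 2 := by
    by_contra hcon
    rw [not_le] at hcon
    nlinarith [norm_nonneg V]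
  have h2 := iu_root_in_norm (Φ := Φ) h
  calc _ ≤ ‖V‖ * ‖injIn 0 ∘L Φ (injCut b H0 (2 * iuR b) 0)‖ :=
        ContinuousLinearMap.opNorm_comp_le _ _
    _ ≤ 3 / 2 * 1 := mul_le_mul h1 h2 (norm_nonneg _) (by norm_num)
    _ = 3 / 2 := by norm_num

/-- `v0^* v0 ≈ Φ(χ_0) J_0^* c J_0 Φ(χ_0) = Φ(χ_0⁴)`, `χ_0 a = a`, `‖a_rs‖ ≤ 2` -/
theorem iu_root_one (h : IuBig b H0) (hN : 0 < N)
    (hV : ‖ContinuousLinearMap.adjoint V ∘L V - iuC Φ b H0‖ ≤ η) (r s : Fin 2) :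
    ‖star (V ∘L injIn 0 ∘L Φ (injCut b H0 (2 * iuR b) 0)) *
        (V ∘L injIn 0 ∘L Φ (injCut b H0 (2 * iuR b) 0)) * Φ (iuF b H0 N N 0 r s)
      - Φ (iuF b H0 N N 0 r s)‖ ≤ 2 * η := by
  set χ := injCut b H0 (2 * iuR b) 0 with hχ
  set a := iuF b H0 N N 0 r s with ha
  have hcut : χ * a = a := iuF_cut h hN le_rfl le_rfl r s
  have hblk : injSl 0 ∘L iuC Φ b H0 ∘L injIn 0 = Φ (χ ^ 2) := by
    have := iuC_blocks (Φ := Φ) h 0 0
    simpa using this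
  have hΦ : Φ χ * Φ (χ ^ 2) * Φ χ * Φ a = Φ a := by
    rw [← map_mul, ← map_mul, ← map_mul]
    congr 1
    calc χ * χ ^ 2 * χ * a = χ * (χ * (χ * (χ * a))) := by ring
      _ = a := by rw [hcut, hcut, hcut, hcut]
  have e : star (V ∘L injIn 0 ∘L Φ χ) * (V ∘L injIn 0 ∘L Φ χ) * Φ a - Φ a =
      Φ χ ∘L injSl 0 ∘L (ContinuousLinearMap.adjoint V ∘L V - iuC Φ b H0) ∘L
        (injIn 0 ∘L Φ χ) ∘L Φ a := by
    have hst := iu_root_star (V := V) (Φ := Φ) h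
    rw [← hχ] at hst
    rw [hst]
    ext1 ξ
    have h1 : injSl 0 (iuC Φ b H0 (injIn 0 (Φ χ (Φ a ξ)))) = Φ (χ ^ 2) (Φ χ (Φ a ξ)) := by
      have := congrArg (fun T : IuOp X => T (Φ χ (Φ a ξ))) hblk
      simpa using this
    have h2 : Φ χ (Φ (χ ^ 2) (Φ χ (Φ a ξ))) = Φ a ξ := by
      have := congrArg (fun T : IuOp X => T ξ) hΦ
      simpa using this
    simp only [_root_.sub_apply, mul_apply_eq_comp,
      ContinuousLinearMap.comp_apply, map_sub, h1, h2]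
  rw [e]
  have hη : 0 ≤ η := (norm_nonneg _).trans hV
  have n1 : ‖Φ χ‖ ≤ 1 := iu_Phi_cut_norm h
  have n2 : ‖(injSl 0 : ScL2 (ℕ × X) →L[ℂ] ScL2 X)‖ ≤ 1 := injSl_norm_le 0
  have n3 : ‖(injIn 0 : ScL2 X →L[ℂ] ScL2 (ℕ × X)) ∘L Φ χ‖ ≤ 1 := iu_root_in_norm h
  have n4 : ‖Φ a‖ ≤ 2 := (iu_Phi_norm_le Φ _).trans (iuF_norm_le h hN le_rfl 0 r s)
  calc _ ≤ ‖Φ χ‖ * (‖(injSl 0 : ScL2 (ℕ × X) →L[ℂ] ScL2 X)‖ *
        (‖ContinuousLinearMap.adjoint V ∘L V - iuC Φ b H0‖ *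
          (‖(injIn 0 : ScL2 X →L[ℂ] ScL2 (ℕ × X)) ∘L Φ χ‖ * ‖Φ a‖))) := by
        refine (ContinuousLinearMap.opNorm_comp_le _ _).trans
          (mul_le_mul_of_nonneg_left ?_ (norm_nonneg _))
        refine (ContinuousLinearMap.opNorm_comp_le _ _).trans
          (mul_le_mul_of_nonneg_left ?_ (norm_nonneg _))
        refine (ContinuousLinearMap.opNorm_comp_le _ _).trans
          (mul_le_mul_of_nonneg_left ?_ (norm_nonneg _))
        exact ContinuousLinearMap.opNorm_comp_le _ _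
    _ ≤ 1 * (1 * (η * (1 * 2))) := by
        gcongr
    _ = 2 * η := by ring

/-- `v0 Φ(a) v0^* = V J_0 Φ(χ_0 a χ_0) J_0^* V^* = θ(A_0)` -/
theorem iu_root_two (h : IuBig b H0) (hN : 0 < N) (r s : Fin 2) :
    (V ∘L injIn 0 ∘L Φ (injCut b H0 (2 * iuR b) 0)) * Φ (iuF b H0 N N 0 r s) *
        star (V ∘L injIn 0 ∘L Φ (injCut b H0 (2 * iuR b) 0))
      = iuTheta V (iuAm Φ b H0 N N (iuSel 0) r s) := by
  set χ := injCut b H0 (2 * iuR b) 0 with hχ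
  set a := iuF b H0 N N 0 r s with ha
  have hcut : χ * a = a := iuF_cut h hN le_rfl le_rfl r s
  have hΦ : Φ χ * Φ a * Φ χ = Φ a := by
    rw [← map_mul, ← map_mul]
    congr 1
    calc χ * a * χ = χ * (χ * a) := by ring
      _ = a := by rw [hcut, hcut]
  have hst := iu_root_star (V := V) (Φ := Φ) h
  rw [← hχ] at hst
  rw [hst, iuTheta_apply, iuAm_zero h hN le_rfl, ← ha]
  ext1 ξ
  have h2 : Φ χ (Φ a (Φ χ (injSl 0 (ContinuousLinearMap.adjoint V ξ)))) =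
      Φ a (injSl 0 (ContinuousLinearMap.adjoint V ξ)) := by
    have := congrArg (fun T : IuOp X => T (injSl 0 (ContinuousLinearMap.adjoint V ξ))) hΦ
    simpa using this
  simp only [mul_apply_eq_comp, ContinuousLinearMap.comp_apply, h2]

end root

/-! ### Part 2: the chain -/

section chain

variable {S : StarSubalgebra ℂ (IuOp X)} [IsClosed (S : Set (IuOp X))]
  {Φ : C(InjT × InjT, ℂ) →⋆ₐ[ℂ] IuOp X} {b H0 N : ℕ} {η : ℝ}
  {T : IuTr (IuOp (ℕ × X)) (IuOp X) S η}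

/-- the model matrices on the four selections are good -/
theorem iu_good (hbig : IuBig b H0) (hN : 0 < N) (hη : 0 ≤ η) (hc : T.c = iuC Φ b H0)
    (hz : ∀ (j : Fin (N + 1)) (s : Fin 4) (k : Fin 3) (l : Fin 2),
      T.Rz η (iuD (iuFam Φ b H0 N j (iuSel s) 0 k l)))
    {j : ℕ} (hj : j ≤ N) (s : Fin 4) : T.Good (8 * η) (iuAm Φ b H0 N j (iuSel s)) where
  q := iuQ_Am hbig hN hj _
  car r s' := by rw [hc]; exact iuC_mul_Am hbig hN hj _ r s'
  bd r s' := (iuAm_norm_le hbig hN hj _ r s').trans (by norm_num)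
  rz r s' := by
    have h1 : T.Rz (2 * η) (iuAm Φ b H0 N j (iuSel s) r s') :=
      IuTr.Rz.mat (fun k l => hz ⟨j, by omega⟩ s k l) r s'
    exact h1.mono (by linarith)

variable [PartialOrder S] [StarOrderedRing S]

/-- one rotation: from the selection `P` at mesh index `N` to the next selection at mesh index `0` -/
theorem iu_link_rot (hbig : IuBig b H0) (hN : 0 < N) (hs : IuSmall η (8 * η))
    (hc : T.c = iuC Φ b H0)
    (hz : ∀ (j : Fin (N + 1)) (s : Fin 4) (k : Fin 3) (l : Fin 2),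
      T.Rz η (iuD (iuFam Φ b H0 N j (iuSel s) 0 k l)))
    (hzm : ∀ (j : Fin (N + 1)) (s : Fin 4) (k : Fin 3) (l : Fin 2),
      T.Rz η (iuD (iuFam Φ b H0 N j (iuSel s) 0 k l) * iuS))
    (hzp : ∀ (j : Fin (N + 1)) (s : Fin 4) (k : Fin 3) (l : Fin 2),
      T.Rz η (iuD (iuFam Φ b H0 N j (iuSel s) 1 k l) * star iuS))
    (s s' : Fin 4) (hss : iuNext (iuSel s) = iuSel s')
    (hP : ∀ i, ¬ (iuSel s (i + 1) ∧ iuSel s i)) :
    T.Link (8 * η) (iuAm Φ b H0 N N (iuSel s)) (iuAm Φ b H0 N 0 (iuSel s')) := by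
  have e : (8 * η) / 4 = 2 * η := by ring
  have key := IuTr.link_rot (T := T) hs (A := iuAm Φ b H0 N N (iuSel s)) (S := iuS)
    iuS_star_mul_self (iuQ_Am hbig hN le_rfl _)
    (fun i l l' k => iuAm_S_Am hbig hN le_rfl _ hP i l l' k)
    (fun i j => iuAm_norm_le hbig hN le_rfl _ i j)
    (fun i j => by rw [hc]; exact iuC_mul_Am hbig hN le_rfl _ i j)
    (fun i j => by rw [hc]; exact iuC_mul_S_Am hbig hN _ i j)
    (fun i j => by rw [hc]; exact iuC_mul_Am_Ss hbig hN _ i j)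
    (fun i j => by rw [hc]; exact iuC_mul_S_Am_Ss hbig hN _ i j)
    (fun i j => by
      rw [e]; exact IuTr.Rz.mat (fun k l => hz ⟨N, by omega⟩ s k l) i j)
    (fun i j => by
      rw [e, iuS_mul_Am hbig hN, hss]
      exact IuTr.Rz.mat (fun k l => hzm ⟨0, by omega⟩ s' k l) i j)
    (fun i j => by
      rw [e, iuAm_mul_Ss hbig hN]
      exact IuTr.Rz.mat (fun k l => hzp ⟨0, by omega⟩ s k l) i j)
    (fun i j => by
      rw [e, iuS_conj_Am hbig hN, hss]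
      exact IuTr.Rz.mat (fun k l => hz ⟨0, by omega⟩ s' k l) i j)
  have e2 : (Matrix.of fun i j => iuS * iuAm Φ b H0 N N (iuSel s) i j * star iuS)
      = iuAm Φ b H0 N 0 (iuSel s') := by
    ext i j
    rw [Matrix.of_apply, iuS_conj_Am hbig hN, hss]
  rwa [e2] at key

/-- one rescaling: from mesh index `0` to mesh index `N` on a fixed selection -/
theorem iu_link_rescale (hbig : IuBig b H0) (hN : IuMesh b N) (hs : IuSmall η (8 * η))
    (hc : T.c = iuC Φ b H0)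
    (hz : ∀ (j : Fin (N + 1)) (s : Fin 4) (k : Fin 3) (l : Fin 2),
      T.Rz η (iuD (iuFam Φ b H0 N j (iuSel s) 0 k l)))
    (s : Fin 4) :
    T.Link (8 * η) (iuAm Φ b H0 N 0 (iuSel s)) (iuAm Φ b H0 N N (iuSel s)) :=
  IuTr.link_chain hs (fun j => iuAm Φ b H0 N j (iuSel s)) N
    (fun _ hj => iu_good hbig hN.1 hs.1 hc hz hj s)
    (fun _ hj r s' => iuAm_mesh hbig hN hj _ r s')

/-- THE SWINDLE in the model: even positions are linked to even positions `≥ 2` -/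
theorem iu_link_swindle (hbig : IuBig b H0) (hN : IuMesh b N) (hs : IuSmall η (8 * η))
    (hc : T.c = iuC Φ b H0)
    (hz : ∀ (j : Fin (N + 1)) (s : Fin 4) (k : Fin 3) (l : Fin 2),
      T.Rz η (iuD (iuFam Φ b H0 N j (iuSel s) 0 k l)))
    (hzm : ∀ (j : Fin (N + 1)) (s : Fin 4) (k : Fin 3) (l : Fin 2),
      T.Rz η (iuD (iuFam Φ b H0 N j (iuSel s) 0 k l) * iuS))
    (hzp : ∀ (j : Fin (N + 1)) (s : Fin 4) (k : Fin 3) (l : Fin 2),
      T.Rz η (iuD (iuFam Φ b H0 N j (iuSel s) 1 k l) * star iuS)) :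
    T.Link (8 * η) (iuAm Φ b H0 N N (iuSel 3)) (iuAm Φ b H0 N N (iuSel 1)) := by
  have g : ∀ {j : ℕ}, j ≤ N → ∀ s : Fin 4, T.Good (8 * η) (iuAm Φ b H0 N j (iuSel s)) :=
    fun hj s => iu_good hbig hN.1 hs.1 hc hz hj s
  have l1 := iu_link_rot hbig hN.1 hs hc hz hzm hzp 3 2 iuNext_even (by
    rintro i ⟨h1, h2⟩
    simp only [iuSel] at h1 h2
    exact (Nat.even_add_one.1 h1) h2)
  have l2 := iu_link_rescale hbig hN hs hc hz 2
  have l3 := iu_link_rot hbig hN.1 hs hc hz hzm hzp 2 1 iuNext_odd (by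
    rintro i ⟨h1, h2⟩
    simp only [iuSel] at h1 h2
    exact (Nat.not_even_iff_odd.2 h2) (by
      rcases h1 with ⟨m, hm⟩; exact ⟨m, by omega⟩))
  have l4 := iu_link_rescale hbig hN hs hc hz 1
  have l12 := IuTr.link_trans hs (g le_rfl 3) (g (Nat.zero_le _) 2) (g le_rfl 2) l1 l2
  have l34 := IuTr.link_trans hs (g le_rfl 2) (g (Nat.zero_le _) 1) (g le_rfl 1) l3 l4
  exact IuTr.link_trans hs (g le_rfl 3) (g le_rfl 2) (g le_rfl 1) l12 l34

end chain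

/-- **The swindle.** -/
theorem iu_swindle (S : StarSubalgebra ℂ (IuOp X)) [IsClosed (S : Set (IuOp X))] {b H0 N : ℕ}
    (hbig : IuBig b H0) (hN : IuMesh b N) (Φ : C(InjT × InjT, ℂ) →⋆ₐ[ℂ] IuOp X)
    (hΦ : ∀ f, Φ f ∈ S) (V : ScL2 (ℕ × X) →L[ℂ] ScL2 X) {η : ℝ} (hη0 : 0 ≤ η)
    (hη : η ≤ 1 / 10 ^ 11)
    (hV : ∀ c : IuOp (ℕ × X),
      InjHasBlocks c (fun i k => if i = k then Φ (injCut b H0 (2 * iuR b) i ^ 2) else 0) →
      ‖ContinuousLinearMap.adjoint V ∘L V - c‖ ≤ η)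
    (hsym : ∀ (τ : IuIdx N) (M : IuOp (ℕ × X)), InjHasBlocks M ((iuSym b N τ).blocks b H0 Φ) →
      ∃ x ∈ S, ‖x - V ∘L M ∘L ContinuousLinearMap.adjoint V‖ ≤ η)
    (hroot : ∃ v ∈ S, ‖v - V ∘L injIn 0 ∘L Φ (injCut b H0 (2 * iuR b) 0)‖ ≤ η) :
    ∃ w : Matrix (Fin 2 ⊕ Fin 4) (Fin 2 ⊕ Fin 4) S,
      wᴴ * w = Matrix.fromBlocks (iuE S + (iuF b H0 N N 0).map (Φ.codRestrict S hΦ)) 0 0 1 ∧
      w * wᴴ = Matrix.fromBlocks (iuE S) 0 0 1 := by
  letI : PartialOrder S := CStarAlgebra.spectralOrder S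
  haveI : StarOrderedRing S := CStarAlgebra.spectralOrderedRing S
  have hVc := hV _ (iuC_blocks (Φ := Φ) hbig)
  have hη1 : η ≤ 1 := hη.trans (by norm_num)
  have hV2 := iu_V_norm_sq_le (iuC_norm_le (Φ := Φ) hbig) hVc hη1
  set T : IuTr (IuOp (ℕ × X)) (IuOp X) S η :=
    iuTrOf S V (iuC Φ b H0) (iuC_norm_le hbig) hVc hη1 with hT
  have hc : T.c = iuC Φ b H0 := rfl
  have hs : IuSmall η (8 * η) := ⟨hη0, hη.trans (by norm_num), by positivity, by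
    calc 8 * η ≤ 8 * (1 / 10 ^ 11) := by linarith
      _ ≤ 1 / 10 ^ 9 := by norm_num⟩
  have hrz : ∀ (τ : IuIdx N) (M : IuOp (ℕ × X)), InjHasBlocks M ((iuSym b N τ).blocks b H0 Φ) →
      T.Rz η M := by
    intro τ M hM
    obtain ⟨x, hx, hxM⟩ := hsym τ M hM
    exact ⟨⟨x, hx⟩, hxM⟩
  have hz : ∀ (j : Fin (N + 1)) (s : Fin 4) (k : Fin 3) (l : Fin 2),
      T.Rz η (iuD (iuFam Φ b H0 N j (iuSel s) 0 k l)) :=
    fun j s k l => hrz _ _ (iu_blocks_zero hbig hN.1 j s k l)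
  have hzm : ∀ (j : Fin (N + 1)) (s : Fin 4) (k : Fin 3) (l : Fin 2),
      T.Rz η (iuD (iuFam Φ b H0 N j (iuSel s) 0 k l) * iuS) :=
    fun j s k l => hrz _ _ (iu_blocks_minus hbig hN.1 j s k l)
  have hzp : ∀ (j : Fin (N + 1)) (s : Fin 4) (k : Fin 3) (l : Fin 2),
      T.Rz η (iuD (iuFam Φ b H0 N j (iuSel s) 1 k l) * star iuS) :=
    fun j s k l => hrz _ _ (iu_blocks_plus hbig hN.1 j s k l)
  have link := iu_link_swindle hbig hN hs hc hz hzm hzp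
  have g0 := iu_good hbig hN.1 hη0 hc hz (le_refl N) 0
  have g1 := iu_good hbig hN.1 hη0 hc hz (le_refl N) 1
  -- physical approximants with tolerance `2 η`
  obtain ⟨X0, hX0⟩ := IuTr.exists_phys (T := T) (δ := 2 * η) g0.q.1
    (fun r s' => IuTr.Rz.mat (fun k l => hz ⟨N, by omega⟩ 0 k l) r s')
  obtain ⟨X1, hX1⟩ := IuTr.exists_phys (T := T) (δ := 2 * η) g1.q.1
    (fun r s' => IuTr.Rz.mat (fun k l => hz ⟨N, by omega⟩ 1 k l) r s')
  have hX0' : T.Phys (8 * η) _ X0 := hX0.mono (by linarith)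
  have hX1' : T.Phys (8 * η) _ X1 := hX1.mono (by linarith)
  have hdisj : ∀ i, ¬ (iuSel 0 i ∧ iuSel 1 i) := by
    rintro i ⟨h1, h2⟩
    simp only [iuSel] at h1 h2
    omega
  have hsum : T.Phys (8 * η) (iuAm Φ b H0 N N (iuSel 3)) (X0 + X1) := by
    have h1 := (hX0.add hX1).mono (δ' := 8 * η) (by linarith)
    rwa [← iuAm_union hbig hN.1 le_rfl _ _ hdisj, ← iuSel_even_eq] at h1
  have h6 := link _ _ hsum hX1'
  -- the exact projection
  set ΦS : C(InjT × InjT, ℂ) →⋆ₐ[ℂ] S := Φ.codRestrict S hΦ with hΦS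
  set a : Matrix (Fin 2) (Fin 2) S := (iuF b H0 N N 0).map ΦS with ha
  have hqa : IuQ a := (iuQ_F hbig hN.1 le_rfl 0).map ΦS (map_zero _) (map_add _) (map_mul _)
    (map_star _)
  obtain ⟨ha1, ha2⟩ := (iuQ_iff a).1 hqa
  -- the root
  obtain ⟨v, hvS, hv⟩ := hroot
  have hιa : ∀ r s', T.ι (a r s') = Φ (iuF b H0 N N 0 r s') := fun r s' => rfl
  obtain ⟨r1, r2, r3⟩ := IuTr.root (T := T) hs (a := a) (A0 := iuAm Φ b H0 N N (iuSel 0))
    (v := ⟨v, hvS⟩) (v0 := V ∘L injIn 0 ∘L Φ (injCut b H0 (2 * iuR b) 0)) hv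
    (iu_root_norm hbig hV2)
    (fun r s' => by
      rw [← T.ι_norm, hιa]
      exact (iu_Phi_norm_le Φ _).trans (iuF_norm_le hbig hN.1 le_rfl 0 r s'))
    (fun r s' => by rw [hιa]; exact iu_root_one hbig hN.1 hVc r s')
    (fun r s' => by rw [hιa]; exact iu_root_two hbig hN.1 r s') hX0'
  have hε : ∀ {t : ℝ}, t ≤ 300 * (η + 8 * η) → t ≤ 1 / 10 ^ 6 := fun ht =>
    ht.trans (by
      calc 300 * (η + 8 * η) = 2700 * η := by ring
        _ ≤ 2700 * (1 / 10 ^ 11) := by linarith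
        _ ≤ 1 / 10 ^ 6 := by norm_num)
  have hε' : ∀ {t : ℝ}, t ≤ 20 * η + 8 * η → t ≤ 1 / 10 ^ 6 := fun ht =>
    ht.trans (by
      calc 20 * η + 8 * η = 28 * η := by ring
        _ ≤ 28 * (1 / 10 ^ 11) := by linarith
        _ ≤ 1 / 10 ^ 6 := by norm_num)
  refine iuK_absk (A := S) (a := a) (a' := X0) (a'' := X1) (v := ⟨v, hvS⟩) (ε := 1 / 10 ^ 6)
    le_rfl ha1 ha2 hX0.1 hX1.1 r1 ?_ ?_ ?_ ?_ ?_ ?_ ?_
  · intro r s'
    have := hX0.norm_le (iuAm_norm_le (Φ := Φ) hbig hN.1 le_rfl (iuSel 0) r s')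
    linarith
  · intro r s'
    exact hε' ((r2 r s').trans (by linarith))
  · intro r s'
    exact hε' (r3 r s')
  · intro r s'
    exact hε (g0.defect hs hX0' r s')
  · intro r s'
    exact hε (g1.defect hs hX1' r s')
  · intro r s'
    exact hε (IuTr.phys_mul_small hs g0.bd g1.bd g1.car
      (fun i l l' j => iuAm_mul_disj hbig hN.1 le_rfl _ _ hdisj i l l' j) hX0' hX1' r s')
  · have e : iuE S + (X0 + X1) = iuE S + X0 + X1 := by rw [add_assoc]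
    rw [e] at h6
    exact h6

end Claimed.Agent.R300
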