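import Claimed.Agent.R300.ScAlg
import Claimed.Prelude.Def_0479
import Claimed.Prelude.Def_0480
import Claimed.Prelude.Def_0481

/-!
# Row 300: the three Prelude copies of `C*_r(G)` and of the trace in terms of `scRed`, `scTr`
-/

set_option autoImplicit false

namespace Claimed.Agent.R300

variable {G : Type} [Group G]

theorem sc479_isLeftTranslation_iff (g : G) (T : ScL2 G →L[ℂ] ScL2 G) :
    Claims.C0479.IsLeftTranslation g T ↔ T = scLam g := by
  constructor
  · intro h; ext ξ x; exact h ξ x
  · rintro rfl ξ x; rfl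

theorem sc479_reduced_eq (G : Type) [Group G] :
    Claims.C0479.reducedGroupCStarAlgebra G = (scRed G : Set (ScL2 G →L[ℂ] ScL2 G)) := by
  have : {T : ScL2 G →L[ℂ] ScL2 G | ∃ g : G, Claims.C0479.IsLeftTranslation g T} =
      Set.range (scLam (G := G)) := by
    ext T
    simp only [sc479_isLeftTranslation_iff, Set.mem_ofPred_eq, Set.mem_range, eq_comm]
  rw [scRed_coe, ← this]; rfl

theorem sc479_trace_eq (x : ScL2 G →L[ℂ] ScL2 G) :
    Claims.C0479.canonicalGroupTrace G x = scTr x := by
  classical
  unfold Claims.C0479.canonicalGroupTrace scTr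
  rw [scDelta_eq_single]

theorem sc480_isLeftTranslation_iff (g : G) (T : ScL2 G →L[ℂ] ScL2 G) :
    Claims.C0480.IsLeftTranslation g T ↔ T = scLam g := by
  constructor
  · intro h; ext ξ x; exact h ξ x
  · rintro rfl ξ x; rfl

theorem sc480_reduced_eq (G : Type) [Group G] :
    Claims.C0480.reducedGroupCStarAlgebra G = (scRed G : Set (ScL2 G →L[ℂ] ScL2 G)) := by
  have : {T : ScL2 G →L[ℂ] ScL2 G | ∃ g : G, Claims.C0480.IsLeftTranslation g T} =
      Set.range (scLam (G := G)) := by
    ext T
    simp only [sc480_isLeftTranslation_iff, Set.mem_ofPred_eq, Set.mem_range, eq_comm]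
  rw [scRed_coe, ← this]; rfl

theorem sc480_trace_eq (x : ScL2 G →L[ℂ] ScL2 G) :
    Claims.C0480.canonicalGroupTrace G x = scTr x := by
  classical
  unfold Claims.C0480.canonicalGroupTrace scTr
  rw [scDelta_eq_single]

theorem sc481_isLeftTranslation_iff (g : G) (T : ScL2 G →L[ℂ] ScL2 G) :
    Claims.C0481.IsLeftTranslation g T ↔ T = scLam g := by
  constructor
  · intro h; ext ξ x; exact h ξ x
  · rintro rfl ξ x; rfl

theorem sc481_reduced_eq (G : Type) [Group G] :
    Claims.C0481.reducedGroupCStarAlgebra G = (scRed G : Set (ScL2 G →L[ℂ] ScL2 G)) := by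
  have : {T : ScL2 G →L[ℂ] ScL2 G | ∃ g : G, Claims.C0481.IsLeftTranslation g T} =
      Set.range (scLam (G := G)) := by
    ext T
    simp only [sc481_isLeftTranslation_iff, Set.mem_ofPred_eq, Set.mem_range, eq_comm]
  rw [scRed_coe, ← this]; rfl

end Claimed.Agent.R300
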