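/-
Row 300 / S0553 (INJ paper), UPPER ASSEMBLY, top file (sub-captain: helper145).
`iu_upper : InjPhysStmt → InjGoal`.
-/
import Mathlib
import Claimed.Agent.R300.IuSwindle
import Claimed.Agent.R300.IuLink
import Claimed.Agent.R300.IuFin
import Claimed.Agent.R300.InjCalc
import Claimed.Agent.R300.ScBridge

set_option autoImplicit false

namespace Claimed.Agent.R300

open Matrix Claims Claims.C0481

/-- the K-theoretic core: over `S = iuAlg G₀`, `bott(ρ z, ρ x) ⊕ 1_4 ~ e11 ⊕ 1_4`. -/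
theorem iu_core {X : Type} (S : StarSubalgebra ℂ (IuOp X)) [IsClosed (S : Set (IuOp X))]
    {b H0 N : ℕ} (hbig : IuBig b H0) (hN : IuMesh b N) (Φ : C(InjT × InjT, ℂ) →⋆ₐ[ℂ] IuOp X)
    (hΦ : ∀ f, Φ f ∈ S) (V : ScL2 (ℕ × X) →L[ℂ] ScL2 X) {η : ℝ} (hη0 : 0 ≤ η)
    (hη : η ≤ 1 / 10 ^ 11)
    (hV : ∀ c : IuOp (ℕ × X),
      InjHasBlocks c (fun i k => if i = k then Φ (injCut b H0 (2 * iuR b) i ^ 2) else 0) →
      ‖ContinuousLinearMap.adjoint V ∘L V - c‖ ≤ η)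
    (hsym : ∀ (τ : IuIdx N) (M : IuOp (ℕ × X)), InjHasBlocks M ((iuSym b N τ).blocks b H0 Φ) →
      ∃ x ∈ S, ‖x - V ∘L M ∘L ContinuousLinearMap.adjoint V‖ ≤ η)
    (hroot : ∃ v ∈ S, ‖v - V ∘L injIn 0 ∘L Φ (injCut b H0 (2 * iuR b) 0)‖ ≤ η) :
    ∃ w : Matrix (Fin 2 ⊕ Fin 4) (Fin 2 ⊕ Fin 4) S,
      wᴴ * w = Matrix.fromBlocks
        (iuBott (Φ.codRestrict S hΦ injE1) (Φ.codRestrict S hΦ injE2)) 0 0 1 ∧
      w * wᴴ = Matrix.fromBlocks (iuE S) 0 0 1 := by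
  obtain ⟨w1, h1, h2⟩ := iu_swindle S hbig hN Φ hΦ V hη0 hη hV hsym hroot
  obtain ⟨w0, h3, h4⟩ := iu_bott_link (N := N) hbig hN.1
  set ΦS : C(InjT × InjT, ℂ) →⋆ₐ[ℂ] S := Φ.codRestrict S hΦ with hΦS
  have k0 : IuMvN (iuBott injE1 injE2) (iuE C(InjT × InjT, ℂ) + iuF b H0 N N 0) :=
    ⟨w0, by rw [Matrix.star_eq_conjTranspose]; exact h3,
      by rw [Matrix.star_eq_conjTranspose]; exact h4⟩
  have k1 := k0.matrix_map ΦS
  have e1 : (iuE C(InjT × InjT, ℂ) + iuF b H0 N N 0).map ΦS = iuE S + (iuF b H0 N N 0).map ΦS := by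
    ext i j
    fin_cases i <;> fin_cases j <;> simp [iuE]
  rw [iuBott_map, e1] at k1
  have k2 : IuMvN (Matrix.fromBlocks (iuBott (ΦS injE1) (ΦS injE2)) 0 0
      (1 : Matrix (Fin 4) (Fin 4) S)) (Matrix.fromBlocks (iuE S + (iuF b H0 N N 0).map ΦS) 0 0 1) :=
    iuK_stab k1
  have k3 : IuMvN (Matrix.fromBlocks (iuE S + (iuF b H0 N N 0).map ΦS) 0 0
      (1 : Matrix (Fin 4) (Fin 4) S)) (Matrix.fromBlocks (iuE S) 0 0 1) :=
    ⟨w1, by rw [Matrix.star_eq_conjTranspose]; exact h1,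
      by rw [Matrix.star_eq_conjTranspose]; exact h2⟩
  have hu : ∀ p : InjT × InjT, ‖injE1 p‖ = 1 := fun p => by
    simp only [injE1, ContinuousMap.comp_apply, fourier_apply]
    exact Circle.norm_coe _
  have hv : ∀ p : InjT × InjT, ‖injE2 p‖ = 1 := fun p => by
    simp only [injE2, ContinuousMap.comp_apply, fourier_apply]
    exact Circle.norm_coe _
  have i0 : IsIdempotentElem (iuBott (ΦS injE1) (ΦS injE2)) := by
    have hu1 := iu_unimod_star_mul hu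
    have hv1 := iu_unimod_star_mul hv
    have := (iuBott_proj (u := injE1) (v := injE2) hu1 (by rw [mul_comm]; exact hu1) hv1
      (by rw [mul_comm]; exact hv1) (Commute.all _ _)).1
    have h5 := congrArg (fun M => M.map ΦS) this
    simp only [Matrix.map_mul, iuBott_map] at h5
    exact h5
  have i1 : IsIdempotentElem (iuE S) := iuE_mul_self S
  obtain ⟨w, a, c⟩ := k2.trans (iuK_stab_idem i0) (iuK_stab_idem i1) k3
  exact ⟨w, by rw [← Matrix.star_eq_conjTranspose]; exact a,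
    by rw [← Matrix.star_eq_conjTranspose]; exact c⟩

/-- **UPPER ASSEMBLY.** -/
theorem iu_upper (h : InjPhysStmt) : InjGoal := by
  obtain ⟨b, -, h⟩ := h
  obtain ⟨N, hN0, hmesh⟩ := iu_mesh b
  have hN : IuMesh b N := ⟨hN0, hmesh⟩
  obtain ⟨H0, Γ, _, φ, G₀, Φ, V, hH0, hφ, htf, ⟨c, hc, κ, hκ⟩, hfg, hrange, hΦ1, hΦ2, hV, hsym,
      hroot⟩ :=
    h (iuR b) (iuR_ge b) _ (fun τ => iuSym b N ((Fintype.equivFin (IuIdx N)).symm τ))
      (fun τ => iuSym_adm b hN0 _) (1 / 10 ^ 11) (by positivity) (500 * b + 10)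
  have hbig : IuBig b H0 := hH0
  have hmem : ∀ g : InjHeis, φ g ∈ G₀ := fun g => hrange ⟨g, rfl⟩
  have hΦ : ∀ f, Φ f ∈ iuAlg G₀ := fun f =>
    inj_calc_mem Φ (iuAlg G₀) (iuAlg_isClosed G₀) (by rw [hΦ1]; exact scRho_mem_iuAlg (hmem _))
      (by rw [hΦ2]; exact scRho_mem_iuAlg (hmem _)) f
  obtain ⟨w, hw1, hw2⟩ := iu_core (iuAlg G₀) hbig hN Φ hΦ V (by positivity) le_rfl hV
    (fun τ M hM => by
      obtain ⟨x, hx, hxM⟩ := hsym (Fintype.equivFin (IuIdx N) τ) M (by simpa using hM)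
      exact ⟨x, mem_iuAlg.2 hx, hxM⟩)
    (by
      obtain ⟨v, hv, hvM⟩ := hroot
      exact ⟨v, mem_iuAlg.2 hv, hvM⟩)
  obtain ⟨r, hr1, hr2⟩ := iu_compress G₀
  obtain ⟨m1, m2⟩ := iuK_map_blocks (r : iuAlg G₀ →+* IuOp G₀) (fun x => map_star r x) w hw1 hw2
  -- the group
  let i : Multiplicative (ℤ × ℤ) →* G₀ := (φ.comp InjHeis.torus).codRestrict G₀ (fun x => hmem _)
  refine ⟨G₀, inferInstance, (Group.fg_iff_subgroup_fg G₀).2 hfg, ?_, i, ?_, ?_, ?_⟩
  · intro g hg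
    have : IsOfFinOrder (g : Γ) := G₀.subtype.isOfFinOrder hg
    exact Subtype.ext (htf _ this)
  · intro x y hxy
    have := congrArg Subtype.val hxy
    exact InjHeis.torus_injective (hφ this)
  · refine ⟨fun a b => c a b, fun a b d => hc a b d, 1, Or.inl rfl,
      fun x => κ (InjHeis.torus x), fun x y => ?_⟩
    have := hκ (InjHeis.torus x) (InjHeis.torus y)
    rw [InjHeis.om_torus, ← map_mul] at this
    rw [one_mul]
    exact this
  · intro u v hu hv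
    rw [sc481_isLeftTranslation_iff] at hu hv
    refine ⟨4, w.map r, fun a b => ?_, ?_, ?_⟩
    · rw [sc481_reduced_eq]
      exact hr1 _
    · have e1 : (iuBott ((Φ.codRestrict (iuAlg G₀) hΦ) injE1)
          ((Φ.codRestrict (iuAlg G₀) hΦ) injE2)).map r = bottProjection u v := by
        rw [iuBott_eq_frozen, iuBott_map]
        congr 1
        · rw [hu]
          have : (Φ.codRestrict (iuAlg G₀) hΦ) injE1
              = ⟨scRho (φ InjHeis.z), scRho_mem_iuAlg (hmem _)⟩ := Subtype.ext hΦ1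
          rw [this, hr2]
          rfl
        · rw [hv]
          have : (Φ.codRestrict (iuAlg G₀) hΦ) injE2
              = ⟨scRho (φ InjHeis.x), scRho_mem_iuAlg (hmem _)⟩ := Subtype.ext hΦ2
          rw [this, hr2]
          rfl
      rw [← e1]
      exact m1
    · have e2 : (iuE (iuAlg G₀)).map r
          = Matrix.of ![![(1 : GroupL2 G₀ →L[ℂ] GroupL2 G₀), 0], ![0, 0]] := by
        ext i j
        fin_cases i <;> fin_cases j <;> simp [iuE]
      rw [← e2]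
      exact m2

end Claimed.Agent.R300
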