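/-
Row 300 / S0553 (INJ paper), Section 4 = `inj_volt : InjVoltStmt` (Proposition 4.2).  INTERFACE of the two halves
(owner: helper105, INJ captain).  Sorry-free definitions.
  * `IvSamplerStmt`  (IV-A, deterministic analysis, Lemmas 4.3 + 4.4): every spread product symbol
    `T_i Φ(A(Z(θ-α)) B(N ξ)) T_k*` is, up to `η` in EVERY representation, the mean of a finite PRODUCT sampler:
    three independent integer coordinates `(c,n,l)`, voltage `z^c x^n y^l`, weight `W c n l` in a fixed finite net.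
  * `IvRealizeStmt`  (IV-B, probability, Lemmas 4.5-4.9 + selection): given such samplers on the edges of the graph,
    one choice of all samples has voltage girth `> 6.03 m_i` and all centred blocks of norm `≤ η`.
  * `inj_volt` follows (IvGlue.lean).
-/
import Mathlib
import Claimed.Agent.R300.InjGraph

set_option autoImplicit false

namespace Claimed.Agent.R300

/-- a finitely supported probability law on `ℤ` -/
structure IvLaw where
  S : Finset ℤ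
  w : ℤ → ℝ
  nonneg : ∀ k, 0 ≤ w k
  sum_one : ∑ k ∈ S, w k = 1

/-- the voltage `z^c x^n y^l = (n, l, c + n l)` -/
def ivVol (c n l : ℤ) : InjHeis := ⟨n, l, c + n * l⟩

/-- a product sampler: independent coordinates `c` (index 0), `n` (index 1), `l` (index 2) -/
structure IvSampler where
  law : Fin 3 → IvLaw
  W : ℤ → ℤ → ℤ → ℂ

namespace IvSampler

variable (S : IvSampler)

/-- the sample points -/
def Pt : Type := ∀ s : Fin 3, ↥((S.law s).S)

instance : Fintype S.Pt := inferInstanceAs (Fintype (∀ s : Fin 3, ↥((S.law s).S)))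
instance : DecidableEq S.Pt := inferInstanceAs (DecidableEq (∀ s : Fin 3, ↥((S.law s).S)))

/-- the product weight of a sample point -/
def p (x : S.Pt) : ℝ := ∏ s, (S.law s).w (x s)
/-- its voltage -/
def vol (x : S.Pt) : InjHeis := ivVol (x 0) (x 1) (x 2)
/-- its scalar weight -/
def wt (x : S.Pt) : ℂ := S.W (x 0) (x 1) (x 2)

/-- the mean `E[W δ_v] ∈ ℂ[Heis]` -/
noncomputable def mean : InjHeis →₀ ℂ := ∑ x : S.Pt, Finsupp.single (S.vol x) ((S.p x : ℂ) * S.wt x)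

/-- diffuse coordinates (atoms `≤ 2^(-49 H)`), voltages and inverses of size `≤ 2^(502 H)`, weights `≤ M` -/
structure Ok (H : ℕ) (M : ℝ) : Prop where
  atom : ∀ s k, (S.law s).w k ≤ 1 / 2 ^ (49 * H)
  coord : ∀ x : S.Pt, |(S.vol x).a| ≤ 2 ^ (502 * H) ∧ |(S.vol x).b| ≤ 2 ^ (502 * H) ∧
    |(S.vol x).c| ≤ 2 ^ (502 * H) ∧ |((S.vol x)⁻¹).c| ≤ 2 ^ (502 * H)
  bd : ∀ c n l, ‖S.W c n l‖ ≤ M

/-- the same law with zero weights -/
def zero : IvSampler := { S with W := fun _ _ _ => 0 }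

end IvSampler

/-- **IV-A** (Lemmas 4.3, 4.4): finite product samplers for the spread product symbols. -/
def IvSamplerStmt : Prop :=
  ∀ b : ℕ, 1 ≤ b → ∀ R : ℝ, 1 ≤ R → ∀ A B : C(ℝ, ℂ), (∀ m : ℕ, ContDiff ℝ m A) →
    (∀ m : ℕ, ContDiff ℝ m B) → (∀ x : ℝ, R < |x| → A x = 0) → (∀ x : ℝ, R < |x| → B x = 0) →
    ∀ η : ℝ, 0 < η →
  ∃ (M : ℝ) (WW : Finset ℂ), (0 : ℂ) ∈ WW ∧ (∀ w ∈ WW, ‖w‖ ≤ M) ∧
  ∃ Hmin : ℕ, ∀ H0 : ℕ, Hmin ≤ H0 → ∀ i k : ℕ, (k = i ∨ k = i + 1 ∨ i = k + 1) →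
  ∃ S : IvSampler, S.Ok (injH b H0 i) M ∧ (∀ c n l, S.W c n l ∈ WW) ∧
    ∀ (H : Type) [NormedAddCommGroup H] [InnerProductSpace ℂ H] [CompleteSpace H] (π : InjRep H)
      (Φ : C(InjT × InjT, ℂ) →⋆ₐ[ℂ] (H →L[ℂ] H)),
      Φ injE1 = π.π InjHeis.z → Φ injE2 = π.π InjHeis.x →
      ‖S.mean.sum (fun h c => c • π.π h)
        - injT π b H0 i * Φ (injLoc2 b H0 A B (max i k)) * star (injT π b H0 k)‖ ≤ η

/-- **IV-B** (Lemmas 4.5-4.9, Section 4.6): realisation of given product samplers on the edges. -/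
def IvRealizeStmt : Prop :=
  ∀ b : ℕ, 1 ≤ b → ∀ (T : ℕ) (off : Fin T → Lab.Off) (M : ℝ), 0 ≤ M → ∀ η : ℝ, 0 < η →
  ∃ s0 : ℕ, ∀ s : ℕ, s0 ≤ s → 20000 ∣ s → 5 * b ∣ s →
  ∃ n1 : ℕ, ∀ n0 : ℕ, n1 ≤ n0 → ∀ X : InjGr ⟨b, s, n0, T, off⟩,
    X.Str → X.DegLe → X.CardLe → X.Girth93 → X.NonLaw604 →
    ∀ S : Fin T → ℕ → IvSampler, (∀ τ i, (S τ i).Ok (injH b ((2 * n0 + 1) * s) i) M) →
  ∃ ω : ∀ e : X.E, (S (X.ety e) (X.ht (X.src e))).Pt,
    X.VGirth603 (fun e => (S (X.ety e) (X.ht (X.src e))).vol (ω e)) ∧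
    ∀ τ, ‖smpConv (injSampCoef X τ (fun e => (S (X.ety e) (X.ht (X.src e))).vol (ω e))
      (fun e => (S (X.ety e) (X.ht (X.src e))).wt (ω e)) (fun i => (S τ i).mean))‖ ≤ η

end Claimed.Agent.R300
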