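/-
Row 300 / S0553 (INJ paper), Section 4: `InjVoltStmt` from the two halves (IvDefs.lean).
INJ captain: helper105.  The `sorry`s are replaced IN PLACE by the owner (table subtask, target row300, name IV-GLUE).

Plan for `inj_volt_of`.  Given `b R T off sy η`: for every `τ` take `(M_τ, WW_τ, Hmin_τ)` from `hA` for
`(sy τ).A, (sy τ).B, η`;  `M := ∑ τ, M_τ` (`0 ≤ M_τ` because `0 ∈ WW_τ`), `WW := ⋃ WW_τ`, `nW := WW.card`;
`s0` from `hB b T off M η`;  `n1 := max n1' (max_τ Hmin_τ)` (`H0 = (2 n0 + 1) s ≥ n0`, `s ≥ 1` from `20000 ∣ s`... take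
`s0 ≥ 1`).  Samplers: `S τ i :=` the sampler of `hA` for `(i, k = (i + o).toNat)` if `sel i ∧ 0 ≤ i + o`, else
`(the sampler for (i,i)).zero`.  `vol, wt` from `ω`; `m τ i := (S τ i).mean`.  (2b): `injMeanOp` unfolds to the two cases;
`IvSampler.zero_mean`.
-/
import Mathlib
import Claimed.Agent.R300.IvDefs

set_option autoImplicit false

namespace Claimed.Agent.R300

theorem IvSampler.p_nonneg (S : IvSampler) (x : S.Pt) : 0 ≤ S.p x :=
  Finset.prod_nonneg fun s _ => (S.law s).nonneg _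

theorem IvSampler.p_sum (S : IvSampler) : ∑ x : S.Pt, S.p x = 1 := by
  have h := (Finset.prod_univ_sum (fun s : Fin 3 => (Finset.univ : Finset ↥((S.law s).S)))
    (fun s (k : ↥((S.law s).S)) => (S.law s).w k)).symm
  rw [Fintype.piFinset_univ] at h
  refine Eq.trans h ?_
  refine Finset.prod_eq_one fun s _ => ?_
  rw [Finset.sum_coe_sort (S.law s).S (fun k => (S.law s).w k)]
  exact (S.law s).sum_one

theorem IvSampler.zero_mean (S : IvSampler) : S.zero.mean = 0 := by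
  unfold IvSampler.mean
  refine Finset.sum_eq_zero fun x _ => ?_
  have h : S.zero.wt x = 0 := rfl
  rw [h, mul_zero, Finsupp.single_zero]

theorem IvSampler.zero_ok (S : IvSampler) {H : ℕ} {M : ℝ} (h : S.Ok H M) : S.zero.Ok H M where
  atom := h.atom
  coord := h.coord
  bd := fun _ _ _ => by
    show ‖(0 : ℂ)‖ ≤ M
    rw [norm_zero]
    exact (norm_nonneg _).trans (h.bd 0 0 0)

/-- evaluation of the mean -/
theorem IvSampler.mean_apply (S : IvSampler) (h : InjHeis) :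
    S.mean h = ∑ x : S.Pt, if S.vol x = h then (S.p x : ℂ) * S.wt x else 0 := by
  unfold IvSampler.mean
  rw [Finsupp.finsetSum_apply]
  refine Finset.sum_congr rfl fun x _ => ?_
  rw [Finsupp.single_apply]

/-- `ℓ¹` norm of the mean -/
theorem IvSampler.mean_l1_le (S : IvSampler) {M : ℝ} (hM : ∀ c n l, ‖S.W c n l‖ ≤ M) :
    S.mean.sum (fun _ c => ‖c‖) ≤ M := by
  have hM0 : 0 ≤ M := (norm_nonneg _).trans (hM 0 0 0)
  unfold Finsupp.sum
  calc ∑ h ∈ S.mean.support, ‖S.mean h‖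
      ≤ ∑ h ∈ S.mean.support, ∑ x : S.Pt, if S.vol x = h then S.p x * M else 0 := by
        refine Finset.sum_le_sum fun h _ => ?_
        rw [S.mean_apply h]
        refine (norm_sum_le _ _).trans (Finset.sum_le_sum fun x _ => ?_)
        split_ifs
        · rw [norm_mul, Complex.norm_real, Real.norm_of_nonneg (S.p_nonneg x)]
          exact mul_le_mul_of_nonneg_left (hM _ _ _) (S.p_nonneg x)
        · simp
    _ = ∑ x : S.Pt, ∑ h ∈ S.mean.support, if S.vol x = h then S.p x * M else 0 := Finset.sum_comm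
    _ ≤ ∑ x : S.Pt, S.p x * M := by
        refine Finset.sum_le_sum fun x _ => ?_
        rw [Finset.sum_ite_eq]
        split_ifs
        · exact le_refl _
        · exact mul_nonneg (S.p_nonneg x) hM0
    _ = M := by rw [← Finset.sum_mul, S.p_sum, one_mul]

/-- `Ok` is monotone in the weight bound -/
theorem IvSampler.Ok.mono {S : IvSampler} {H : ℕ} {M M' : ℝ} (h : S.Ok H M) (hM : M ≤ M') : S.Ok H M' where
  atom := h.atom
  coord := h.coord
  bd := fun c n l => (h.bd c n l).trans hM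

/-- the block index `k = i + o` is a neighbour of `i` -/
theorem iv_glue_nbr (o : Lab.Off) (i : ℕ) (h : 0 ≤ (i : ℤ) + injOff o) :
    ((i : ℤ) + injOff o).toNat = i ∨ ((i : ℤ) + injOff o).toNat = i + 1 ∨
      i = ((i : ℤ) + injOff o).toNat + 1 := by
  cases o <;> simp only [injOff] at h ⊢ <;> omega

theorem inj_volt_of (hA : IvSamplerStmt) (hB : IvRealizeStmt) : InjVoltStmt := by
  classical
  intro b hb R hR T off sy hadm η hη
  have hA' := fun τ : Fin T => hA b hb R hR (sy τ).A (sy τ).B (hadm τ).smoothA (hadm τ).smoothB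
    (hadm τ).suppA (hadm τ).suppB η hη
  choose Mf WWf h0 hbd Hminf hS using hA'
  choose Sf hSok hSW hSmean using hS
  have hMf0 : ∀ τ, 0 ≤ Mf τ := fun τ => by
    have := hbd τ 0 (h0 τ)
    rwa [norm_zero] at this
  set M : ℝ := ∑ τ, Mf τ with hMdef
  have hM0 : 0 ≤ M := Finset.sum_nonneg fun τ _ => hMf0 τ
  have hMle : ∀ τ, Mf τ ≤ M := fun τ =>
    Finset.single_le_sum (fun τ' _ => hMf0 τ') (Finset.mem_univ τ)
  set WW : Finset ℂ := Finset.univ.biUnion WWf with hWWdef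
  obtain ⟨s0, hs0⟩ := hB b hb T off M hM0 η hη
  refine ⟨M, WW.card, max s0 1, ?_⟩
  intro s hs h20 h5b
  have hs1 : 1 ≤ s := (le_max_right _ _).trans hs
  obtain ⟨n1, hn1⟩ := hs0 s ((le_max_left _ _).trans hs) h20 h5b
  refine ⟨max n1 (∑ τ, Hminf τ), ?_⟩
  intro n0 hn0 X hStr hDeg hCard hG93 hNL
  have hH0 : ∀ τ, Hminf τ ≤ (2 * n0 + 1) * s := by
    intro τ
    have h1 : Hminf τ ≤ ∑ τ, Hminf τ :=
      Finset.single_le_sum (fun τ' _ => Nat.zero_le _) (Finset.mem_univ τ)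
    have h2 : ∑ τ, Hminf τ ≤ n0 := (le_max_right _ _).trans hn0
    calc Hminf τ ≤ n0 := h1.trans h2
      _ ≤ (2 * n0 + 1) * 1 := by omega
      _ ≤ (2 * n0 + 1) * s := Nat.mul_le_mul_left _ hs1
  -- the samplers
  set H0 : ℕ := (2 * n0 + 1) * s with hH0def
  let S : Fin T → ℕ → IvSampler := fun τ i =>
    if h : (sy τ).sel i ∧ 0 ≤ (i : ℤ) + injOff (off τ) then
      Sf τ H0 (hH0 τ) i ((i : ℤ) + injOff (off τ)).toNat (iv_glue_nbr (off τ) i h.2)
    else (Sf τ H0 (hH0 τ) i i (Or.inl rfl)).zero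
  have hSok' : ∀ τ i, (S τ i).Ok (injH b H0 i) M := by
    intro τ i
    by_cases h : (sy τ).sel i ∧ 0 ≤ (i : ℤ) + injOff (off τ)
    · simp only [S, dif_pos h]
      exact (hSok τ H0 (hH0 τ) i _ _).mono (hMle τ)
    · simp only [S, dif_neg h]
      exact IvSampler.zero_ok _ ((hSok τ H0 (hH0 τ) i i _).mono (hMle τ))
  have hSW' : ∀ τ i c n l, (S τ i).W c n l ∈ WW := by
    intro τ i c n l
    refine Finset.mem_biUnion.2 ⟨τ, Finset.mem_univ _, ?_⟩
    by_cases h : (sy τ).sel i ∧ 0 ≤ (i : ℤ) + injOff (off τ)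
    · simp only [S, dif_pos h]
      exact hSW τ H0 (hH0 τ) i _ _ c n l
    · simp only [S, dif_neg h]
      exact h0 τ
  obtain ⟨ω, hω1, hω2⟩ := hn1 n0 ((le_max_left _ _).trans hn0) X hStr hDeg hCard hG93 hNL S hSok'
  refine ⟨fun e => (S (X.ety e) (X.ht (X.src e))).vol (ω e),
    fun e => (S (X.ety e) (X.ht (X.src e))).wt (ω e), WW, fun τ i => (S τ i).mean,
    hω1, ?_, le_refl _, ?_, ?_, hω2, ?_⟩
  · intro e
    exact hSW' _ _ _ _ _
  · intro w hw
    obtain ⟨τ, _, hτ⟩ := Finset.mem_biUnion.1 hw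
    exact (hbd τ w hτ).trans (hMle τ)
  · intro τ i
    exact (S τ i).mean_l1_le (hSok' τ i).bd
  · intro τ i H _ _ _ π Φ hΦ1 hΦ2
    unfold injMeanOp
    by_cases h : (sy τ).sel i ∧ 0 ≤ (i : ℤ) + injOff (off τ)
    · rw [if_pos h]
      simp only [S, dif_pos h]
      exact hSmean τ H0 (hH0 τ) i _ _ H π Φ hΦ1 hΦ2
    · rw [if_neg h]
      simp only [S, dif_neg h]
      rw [IvSampler.zero_mean, Finsupp.sum_zero_index, sub_zero, norm_zero]
      exact hη.le

end Claimed.Agent.R300
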