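/-
Row 300 / S0553 (INJ paper), IV-A = `IvSamplerStmt` (IvDefs.lean).  Sub-captain: helper62.  DEFINITIONS of the package (sorry-free).
Blueprint: helper105's notes/INJ_IVA.md, SIMPLIFIED as follows (all sums are FINITE sums over `Finset ℤ`, no `tsum`):
  `e(t) = ivaE t`,  `x_n = ivaX n = nα - round(nα)`,  `D_J(n) = ivaD J n = 1/(1+(J x_n)²)`,  `U_L(c) = ivaU L c = L/(L²+c²)`,
  `S_l(n) = ivaS Ji Jk l n = ∑_j a_ij a_(k,j-l) e(-j n α)`.
  (F)  IvaFour : `∑_{c∈s} U_L(c) ≤ 5`, tails `≤ 4/Λ`, `|Â(u)| ≤ C/(1+u²)`, `|fourierCoeff (injLoc A a L) c| ≤ C U_L(c)`, sup-norm truncation of the Fourier series.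
  (S)  IvaSum  : `|S_l(n)| ≤ K D_Ji(n)` (summation by parts twice), `K` depends only on the ratio bound `q`.
  (P)  IvaPack : `∑_{n∈s} U_N(n) D_J(n) ≤ 1000/J`, tails `≤ 1000/(Λ J)` (golden mean: `n ↦ ⌊3N x_n⌋` is injective on blocks of length `N`).
  (O)  IvaOp   : operator identity + triangle inequality: `T_i Φ(f1⊗f2) T_k* ≈ ∑_{c,n,l} Ah_c Bh_n S_l(n) π(z^c x^n y^l)` with four explicit error terms.
  (L)  IvaLaw  : normalised laws, mean of a sampler as a triple sum, rounding to a finite net.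
  (M)  IvaMain : choice of constants, `iva_main : IvSamplerStmt`.
Sampler: law 0: `U_Z(c)/K0` on `|c| ≤ ΛZ`;  law 1: `U_N(n)(Ji D_Ji(n)+1)/K1` on `|n| ≤ ΛN`;  law 2: uniform on `|l| ≤ Ji+Jk`.
-/
import Mathlib
import Claimed.Agent.R300.IvDefs
import Claimed.Agent.R300.InjLoc
import Claimed.Agent.R300.InjCalc
import Claimed.Agent.R300.InjGold

set_option autoImplicit false

namespace Claimed.Agent.R300

/-- `e(t) = exp(2π i t)` -/
noncomputable def ivaE (t : ℝ) : ℂ := Complex.exp (2 * Real.pi * Complex.I * t)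

/-- signed distance of `n α` to the nearest integer -/
noncomputable def ivaX (n : ℤ) : ℝ := (n : ℝ) * injAlpha - round ((n : ℝ) * injAlpha)

/-- the majorant `1/(1+(J‖nα‖)²)` of the exponential sums -/
noncomputable def ivaD (J : ℝ) (n : ℤ) : ℝ := 1 / (1 + (J * ivaX n) ^ 2)

/-- Cauchy weights `L/(L²+c²) = L⁻¹/(1+(c/L)²)` -/
noncomputable def ivaU (L : ℝ) (c : ℤ) : ℝ := L / (L ^ 2 + (c : ℝ) ^ 2)

/-- the exponential sums `S_l(n) = ∑_j a_ij a_(k,j-l) e(-j n α)` -/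
noncomputable def ivaS (Ji Jk : ℕ) (l n : ℤ) : ℂ :=
  ∑ j ∈ Finset.Icc (-(Ji : ℤ)) Ji,
    ((injCoef Ji j * injCoef Jk (j - l) : ℝ) : ℂ) * ivaE (-((j * n : ℤ) : ℝ) * injAlpha)

/-- the box of the coordinate `l` -/
noncomputable def ivaL (Ji Jk : ℕ) : Finset ℤ := Finset.Icc (-((Ji + Jk : ℕ) : ℤ)) ((Ji + Jk : ℕ) : ℤ)

/-- the symmetric box `|c| ≤ K` -/
noncomputable def ivaBox (K : ℕ) : Finset ℤ := Finset.Icc (-(K : ℤ)) (K : ℤ)

end Claimed.Agent.R300
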