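/-
Row 300 / S0553, IV-A package (S) = IvaSum.  Sub-captain helper62.  Replace the sorries IN PLACE (owner: table subtask, name IVA-SUM).
The exponential sums `S_l(n) = ∑_j a_ij a_(k,j-l) e(-j n α)` are `≤ K/(1+(Ji x_n)²)`.

Proof plan.  `β = injBump` is `C^∞`, `0 ≤ β ≤ 1`, `β t = 0` for `1 ≤ |t|`, `β 0 = 1`.
 (B1) `∃ C1 C2`, `|β(t+h) - β(t)| ≤ C1 |h|`, `|β(t+h) - 2β(t) + β(t-h)| ≤ C2 h²`  (derivatives are continuous with compact support, hence bounded; mean value theorem twice: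
      `Convex.norm_image_sub_le_of_norm_deriv_le` for `β` and for `s ↦ β(s+h) - β(s)`).
 (B2) `∃ δ > 0`, `δ J ≤ injBumpNorm J` for `J ≥ 1`  (continuity at `0`: `β ≥ 1/2` on `[-δ',δ']`; at least `δ' J` integers `k` with `|k| ≤ δ' J`, counting `k = 0`).
      So `|injCoef J j| ≤ 1/√(δ J)`.
 (S0) `|S| ≤ (2Ji+1)/(δ √(Ji Jk)) ≤ 3 √q/δ`.
 (S1) `g j := β(j/Ji) β((j-l)/Jk)` vanishes for `|j| ≥ Ji`;  `ω = e(-nα)`, `e(-jnα) = ω^j`;
      `(2 - ω - ω⁻¹) ∑_j g(j) ω^j = - ∑_j (g(j+1) - 2 g(j) + g(j-1)) ω^j`   (shift invariance of a sum of a function vanishing for `|j| ≥ m` over `Icc (-m) m`, e.g. via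
      `tsum_eq_sum` and `(Equiv.addRight 1).tsum_eq`; take `m = Ji + 1`);
      discrete Leibniz: `Δ²(uv) = (Δ²u) v + u (Δ²v) + (u₊-u)(v₊-v) + (u₋-u)(v₋-v)`, so `|Δ² g(j)| ≤ C2/Ji² + C2/Jk² + 2 C1²/(Ji Jk) ≤ (2C2+2C1²) q²/Ji²`;
      `|2 - ω - ω⁻¹| = |1-ω|² = 4 sin²(π x_n) ≥ 16 x_n²`   (`|x_n| ≤ 1/2` by `abs_sub_round`, `Real.mul_le_sin`; `e(-nα) = e(-x_n)`).
      Hence `16 x_n² |S| ≤ (2Ji+3)(2C2+2C1²) q²/(Ji² δ √(Ji Jk))`, i.e. `(Ji x_n)² |S| ≤ K1(q)`.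
 Conclusion `|S| (1 + (Ji x_n)²) ≤ K := 3√q/δ + K1`.
 NOTE (helper87): `iva_coef_eq_zero` got the extra hypothesis `1 ≤ J` (false for `J = 0`: `j/0 = 0`, `injCoef 0 j = 1`).
 Explicit constants: `J/32 ≤ injBumpNorm J`, `K = 96 q + 6 M q`, `M = C2 + C2 q² + 2 C1² q`.  Helper lemmas have the prefix `ivas_`.
-/
import Mathlib
import Claimed.Agent.R300.IvaDefs

set_option autoImplicit false

namespace Claimed.Agent.R300

theorem ivaD_pos (J : ℝ) (n : ℤ) : 0 < ivaD J n := by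
  unfold ivaD; positivity

theorem ivaD_le_one (J : ℝ) (n : ℤ) : ivaD J n ≤ 1 := by
  unfold ivaD
  rw [div_le_one (by positivity)]
  nlinarith [sq_nonneg (J * ivaX n)]

theorem iva_bump_eq_zero {t : ℝ} (ht : 1 ≤ |t|) : injBump t = 0 := by
  unfold injBump
  rcases le_abs.1 ht with h | h
  · rw [Real.smoothTransition.zero_of_nonpos (by linarith), zero_mul]
  · rw [Real.smoothTransition.zero_of_nonpos (show 1 + t ≤ 0 by linarith), mul_zero]

theorem ivas_bump_nonneg (t : ℝ) : 0 ≤ injBump t :=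
  mul_nonneg (Real.smoothTransition.nonneg _) (Real.smoothTransition.nonneg _)

theorem ivas_bump_le_one (t : ℝ) : injBump t ≤ 1 :=
  mul_le_one₀ (Real.smoothTransition.le_one _) (Real.smoothTransition.nonneg _)
    (Real.smoothTransition.le_one _)

theorem ivas_bump_abs_le_one (t : ℝ) : |injBump t| ≤ 1 := by
  rw [abs_of_nonneg (ivas_bump_nonneg t)]
  exact ivas_bump_le_one t

theorem ivas_bumpNorm_one_le (J : ℕ) : 1 ≤ injBumpNorm J := by
  have h0 : (0 : ℤ) ∈ Finset.Icc (-(J : ℤ)) J := by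
    rw [Finset.mem_Icc]; constructor <;> omega
  have h1 : injBump (((0 : ℤ) : ℝ) / J) ^ 2 ≤ injBumpNorm J :=
    Finset.single_le_sum (f := fun k : ℤ => injBump ((k : ℝ) / J) ^ 2)
      (fun k _ => sq_nonneg _) h0
  rw [Int.cast_zero, zero_div, injBump_zero] at h1
  linarith

theorem iva_coef_eq_zero {J : ℕ} (hJ : 1 ≤ J) {j : ℤ} (hj : (J : ℤ) ≤ |j|) : injCoef J j = 0 := by
  unfold injCoef
  rw [iva_bump_eq_zero, zero_div]
  have hJ' : (0 : ℝ) < J := by exact_mod_cast hJ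
  rw [abs_div, abs_of_pos hJ', le_div_iff₀ hJ', one_mul]
  exact_mod_cast hj

/-- `|a_ij| ≤ 1` -/
theorem iva_coef_abs_le_one (J : ℕ) (j : ℤ) : |injCoef J j| ≤ 1 := by
  unfold injCoef
  have h1 : (1 : ℝ) ≤ Real.sqrt (injBumpNorm J) := by
    rw [Real.one_le_sqrt]
    exact ivas_bumpNorm_one_le J
  rw [abs_div, abs_of_pos (by linarith : (0 : ℝ) < Real.sqrt (injBumpNorm J)),
    div_le_one (by linarith)]
  exact (ivas_bump_abs_le_one _).trans h1

theorem ivas_bump_contDiff : ContDiff ℝ 2 injBump := by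
  unfold injBump
  exact (Real.smoothTransition.contDiff.comp (contDiff_const.sub contDiff_id)).mul
    (Real.smoothTransition.contDiff.comp (contDiff_const.add contDiff_id))

theorem ivas_bump_compact : HasCompactSupport injBump := by
  refine HasCompactSupport.intro (isCompact_Icc : IsCompact (Set.Icc (-1 : ℝ) 1)) (fun x hx => ?_)
  apply iva_bump_eq_zero
  by_contra hcon
  push Not at hcon
  exact hx ⟨(abs_lt.1 hcon).1.le, (abs_lt.1 hcon).2.le⟩

theorem ivas_bump_lip : ∃ C1 : ℝ, 0 ≤ C1 ∧ ∀ t h : ℝ, |injBump (t + h) - injBump t| ≤ C1 * |h| := by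
  obtain ⟨C, hC⟩ := (ivas_bump_contDiff.continuous_deriv (by norm_num)).bounded_above_of_compact_support
    ivas_bump_compact.deriv
  refine ⟨C, (norm_nonneg _).trans (hC 0), fun t h => ?_⟩
  have hd : Differentiable ℝ injBump := ivas_bump_contDiff.differentiable (by norm_num)
  have := Convex.norm_image_sub_le_of_norm_deriv_le (f := injBump) (s := Set.univ) (C := C)
    (x := t) (y := t + h) (fun x _ => hd x) (fun x _ => hC x) convex_univ trivial trivial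
  simpa [Real.norm_eq_abs] using this

theorem ivas_bump_lip2 : ∃ C2 : ℝ, 0 ≤ C2 ∧
    ∀ t h : ℝ, |injBump (t + h) - 2 * injBump t + injBump (t - h)| ≤ C2 * h ^ 2 := by
  have hd : Differentiable ℝ injBump := ivas_bump_contDiff.differentiable (by norm_num)
  have hd1 : ContDiff ℝ 1 (deriv injBump) :=
    (contDiff_succ_iff_deriv (n := 1).1 ivas_bump_contDiff).2.2
  have hdd : Differentiable ℝ (deriv injBump) := hd1.differentiable (by norm_num)
  obtain ⟨C, hC⟩ := (hd1.continuous_deriv (by norm_num)).bounded_above_of_compact_support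
    ivas_bump_compact.deriv.deriv
  have hC0 : 0 ≤ C := (norm_nonneg _).trans (hC 0)
  refine ⟨C, hC0, fun t h => ?_⟩
  have h1 : ∀ s : ℝ, ‖deriv injBump (s + h) - deriv injBump s‖ ≤ C * ‖h‖ := by
    intro s
    have := Convex.norm_image_sub_le_of_norm_deriv_le (f := deriv injBump) (s := Set.univ) (C := C)
      (x := s) (y := s + h) (fun x _ => hdd x) (fun x _ => hC x) convex_univ trivial trivial
    simpa using this
  have hφd : ∀ s : ℝ, HasDerivAt (fun s => injBump (s + h) - injBump s)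
      (deriv injBump (s + h) - deriv injBump s) s := by
    intro s
    exact ((hd (s + h)).hasDerivAt.comp_add_const s h).sub (hd s).hasDerivAt
  have := Convex.norm_image_sub_le_of_norm_deriv_le (f := fun s => injBump (s + h) - injBump s)
    (s := Set.univ) (C := C * ‖h‖) (x := t - h) (y := t) (fun x _ => (hφd x).differentiableAt)
    (fun x _ => by rw [(hφd x).deriv]; exact h1 x) convex_univ trivial trivial
  have e : injBump (t + h) - 2 * injBump t + injBump (t - h)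
      = (injBump (t + h) - injBump t) - (injBump (t - h + h) - injBump (t - h)) := by
    rw [sub_add_cancel]; ring
  rw [e, ← Real.norm_eq_abs]
  refine this.trans (le_of_eq ?_)
  rw [sub_sub_cancel, Real.norm_eq_abs, mul_assoc, abs_mul_abs_self, pow_two]

theorem ivas_smooth_half : Real.smoothTransition (1 / 2) = 1 / 2 := by
  have h := expNegInvGlue.pos_of_pos (show (0 : ℝ) < 1 / 2 by norm_num)
  unfold Real.smoothTransition
  rw [show (1 : ℝ) - 1 / 2 = 1 / 2 by norm_num]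
  field_simp
  norm_num

theorem ivas_bump_ge {t : ℝ} (ht : |t| ≤ 1 / 2) : 1 / 4 ≤ injBump t := by
  unfold injBump
  have h1 : 1 / 2 ≤ Real.smoothTransition (1 - t) := by
    rw [← ivas_smooth_half]
    exact Real.smoothTransition.monotone (by linarith [(abs_le.1 ht).2])
  have h2 : 1 / 2 ≤ Real.smoothTransition (1 + t) := by
    rw [← ivas_smooth_half]
    exact Real.smoothTransition.monotone (by linarith [(abs_le.1 ht).1])
  nlinarith

theorem ivas_bumpNorm_ge (J : ℕ) (hJ : 1 ≤ J) : (J : ℝ) / 32 ≤ injBumpNorm J := by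
  have hJ' : (0 : ℝ) < J := by exact_mod_cast hJ
  have hsub : Finset.Icc (0 : ℤ) ((J / 2 : ℕ) : ℤ) ⊆ Finset.Icc (-(J : ℤ)) J := by
    intro k hk
    rw [Finset.mem_Icc] at hk ⊢
    have : ((J / 2 : ℕ) : ℤ) ≤ J := by exact_mod_cast Nat.div_le_self J 2
    constructor <;> omega
  have h1 : ∑ k ∈ Finset.Icc (0 : ℤ) ((J / 2 : ℕ) : ℤ), (1 / 16 : ℝ)
      ≤ ∑ k ∈ Finset.Icc (0 : ℤ) ((J / 2 : ℕ) : ℤ), injBump ((k : ℝ) / J) ^ 2 := by
    refine Finset.sum_le_sum (fun k hk => ?_)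
    rw [Finset.mem_Icc] at hk
    have hk0 : (0 : ℝ) ≤ k := by exact_mod_cast hk.1
    have hk1 : (k : ℝ) * 2 ≤ J := by
      have h2 : k * 2 ≤ (J : ℤ) := by
        have : ((J / 2 : ℕ) : ℤ) * 2 ≤ J := by exact_mod_cast Nat.div_mul_le_self J 2
        omega
      exact_mod_cast h2
    have hb : 1 / 4 ≤ injBump ((k : ℝ) / J) := by
      apply ivas_bump_ge
      rw [abs_of_nonneg (by positivity), div_le_iff₀ hJ']
      linarith
    nlinarith
  have h2 : ∑ k ∈ Finset.Icc (0 : ℤ) ((J / 2 : ℕ) : ℤ), injBump ((k : ℝ) / J) ^ 2 ≤ injBumpNorm J :=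
    Finset.sum_le_sum_of_subset_of_nonneg hsub (fun k _ _ => sq_nonneg _)
  have h3 : ∑ k ∈ Finset.Icc (0 : ℤ) ((J / 2 : ℕ) : ℤ), (1 / 16 : ℝ) = ((J / 2 : ℕ) + 1 : ℝ) / 16 := by
    rw [Finset.sum_const, Int.card_Icc, nsmul_eq_mul]
    have : ((J / 2 : ℕ) : ℤ) + 1 - 0 = ((J / 2 + 1 : ℕ) : ℤ) := by push_cast; ring
    rw [this, Int.toNat_natCast]
    push_cast
    ring
  have h4 : (J : ℝ) ≤ 2 * ((J / 2 : ℕ) + 1 : ℝ) := by
    have : J ≤ 2 * (J / 2 + 1) := by omega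
    exact_mod_cast this
  linarith

theorem ivas_E_norm (t : ℝ) : ‖ivaE t‖ = 1 := by
  unfold ivaE
  rw [show (2 * Real.pi * Complex.I * t : ℂ) = ((2 * Real.pi * t : ℝ) : ℂ) * Complex.I by
    push_cast; ring]
  exact Complex.norm_exp_ofReal_mul_I _

theorem ivas_E_add (s t : ℝ) : ivaE (s + t) = ivaE s * ivaE t := by
  unfold ivaE
  rw [← Complex.exp_add]
  congr 1
  push_cast
  ring

theorem ivas_E_zero : ivaE 0 = 1 := by
  unfold ivaE
  simp

theorem ivas_E_add_neg (t : ℝ) : ivaE t + ivaE (-t) = ((2 * Real.cos (2 * Real.pi * t) : ℝ) : ℂ) := by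
  unfold ivaE
  push_cast
  rw [Complex.two_cos]
  congr 1 <;> congr 1 <;> ring

theorem ivas_X_abs_le (n : ℤ) : |ivaX n| ≤ 1 / 2 := abs_sub_round _

theorem ivas_cos_ge (n : ℤ) :
    16 * ivaX n ^ 2 ≤ 2 - 2 * Real.cos (2 * Real.pi * ((n : ℝ) * injAlpha)) := by
  have e1 : 2 * Real.pi * ((n : ℝ) * injAlpha)
      = 2 * (Real.pi * ivaX n) + (round ((n : ℝ) * injAlpha) : ℤ) * (2 * Real.pi) := by
    unfold ivaX
    ring
  rw [e1, Real.cos_add_int_mul_two_pi, Real.cos_two_mul]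
  have h1 : |Real.pi * ivaX n| ≤ Real.pi / 2 := by
    rw [abs_mul, abs_of_pos Real.pi_pos]
    have := ivas_X_abs_le n
    nlinarith [Real.pi_pos]
  have h2 := Real.mul_abs_le_abs_sin h1
  rw [abs_mul, abs_of_pos Real.pi_pos] at h2
  have h3 : 2 / Real.pi * (Real.pi * |ivaX n|) = 2 * |ivaX n| := by
    field_simp
  rw [h3] at h2
  have h4 : (2 * |ivaX n|) ^ 2 ≤ |Real.sin (Real.pi * ivaX n)| ^ 2 :=
    pow_le_pow_left₀ (by positivity) h2 2
  rw [sq_abs, mul_pow, sq_abs] at h4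
  have h5 := Real.sin_sq_add_cos_sq (Real.pi * ivaX n)
  nlinarith

theorem ivas_sum_shift (F : ℤ → ℂ) (m : ℕ) (hF : ∀ j : ℤ, (m : ℤ) ≤ |j| → F j = 0) (c : ℤ)
    (hc : |c| ≤ 1) :
    ∑ j ∈ Finset.Icc (-(m : ℤ)) m, F (j + c) = ∑ j ∈ Finset.Icc (-(m : ℤ)) m, F j := by
  obtain ⟨hc1, hc2⟩ := abs_le.1 hc
  have h1 : ∑' j, F (j + c) = ∑ j ∈ Finset.Icc (-(m : ℤ)) m, F (j + c) := by
    refine tsum_eq_sum (fun j hj => hF _ ?_)
    rw [Finset.mem_Icc] at hj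
    rw [le_abs]
    by_cases h : -(m : ℤ) ≤ j
    · left
      have : ¬ j ≤ m := fun h' => hj ⟨h, h'⟩
      omega
    · right
      omega
  have h2 : ∑' j, F j = ∑ j ∈ Finset.Icc (-(m : ℤ)) m, F j := by
    refine tsum_eq_sum (fun j hj => hF _ ?_)
    rw [Finset.mem_Icc] at hj
    rw [le_abs]
    by_cases h : -(m : ℤ) ≤ j
    · left
      have : ¬ j ≤ m := fun h' => hj ⟨h, h'⟩
      omega
    · right
      omega
  rw [← h1, ← h2]
  exact (Equiv.addRight c).tsum_eq F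

/-- discrete Leibniz estimate -/
theorem ivas_leibniz {u0 u1 u2 v0 v1 v2 a b a2 b2 : ℝ} (hu0 : |u0| ≤ 1) (hv0 : |v0| ≤ 1)
    (hu1 : |u1 - u0| ≤ a) (hu2 : |u2 - u0| ≤ a) (hv1 : |v1 - v0| ≤ b) (hv2 : |v2 - v0| ≤ b)
    (hu : |u1 - 2 * u0 + u2| ≤ a2) (hv : |v1 - 2 * v0 + v2| ≤ b2) :
    |u1 * v1 - 2 * (u0 * v0) + u2 * v2| ≤ a2 + b2 + 2 * (a * b) := by
  have e : u1 * v1 - 2 * (u0 * v0) + u2 * v2
      = (u1 - 2 * u0 + u2) * v0 + u0 * (v1 - 2 * v0 + v2) + (u1 - u0) * (v1 - v0)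
        + (u2 - u0) * (v2 - v0) := by ring
  have ha : 0 ≤ a := (abs_nonneg _).trans hu1
  have hb : 0 ≤ b := (abs_nonneg _).trans hv1
  have ha2 : 0 ≤ a2 := (abs_nonneg _).trans hu
  have hb2 : 0 ≤ b2 := (abs_nonneg _).trans hv
  rw [e]
  have t1 : |(u1 - 2 * u0 + u2) * v0| ≤ a2 := by
    rw [abs_mul]
    calc _ ≤ a2 * 1 := mul_le_mul hu hv0 (abs_nonneg _) ha2
      _ = a2 := mul_one _
  have t2 : |u0 * (v1 - 2 * v0 + v2)| ≤ b2 := by
    rw [abs_mul]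
    calc _ ≤ 1 * b2 := mul_le_mul hu0 hv (abs_nonneg _) zero_le_one
      _ = b2 := one_mul _
  have t3 : |(u1 - u0) * (v1 - v0)| ≤ a * b := by
    rw [abs_mul]
    exact mul_le_mul hu1 hv1 (abs_nonneg _) ha
  have t4 : |(u2 - u0) * (v2 - v0)| ≤ a * b := by
    rw [abs_mul]
    exact mul_le_mul hu2 hv2 (abs_nonneg _) ha
  have s1 := abs_add_le ((u1 - 2 * u0 + u2) * v0 + u0 * (v1 - 2 * v0 + v2) + (u1 - u0) * (v1 - v0))
    ((u2 - u0) * (v2 - v0))
  have s2 := abs_add_le ((u1 - 2 * u0 + u2) * v0 + u0 * (v1 - 2 * v0 + v2)) ((u1 - u0) * (v1 - v0))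
  have s3 := abs_add_le ((u1 - 2 * u0 + u2) * v0) (u0 * (v1 - 2 * v0 + v2))
  linarith


/-- second difference of the product profile -/
theorem ivas_diff2 {C1 C2 : ℝ} (hL1 : ∀ t h : ℝ, |injBump (t + h) - injBump t| ≤ C1 * |h|)
    (hL2 : ∀ t h : ℝ, |injBump (t + h) - 2 * injBump t + injBump (t - h)| ≤ C2 * h ^ 2)
    (hC1 : 0 ≤ C1) (hC2 : 0 ≤ C2) (q Ji Jk : ℕ) (hJi : 1 ≤ Ji) (hJk : 1 ≤ Jk) (hik : Ji ≤ q * Jk)
    (l j : ℤ) :
    |injBump (((j + 1 : ℤ) : ℝ) / Ji) * injBump (((j + 1 - l : ℤ) : ℝ) / Jk)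
      - 2 * (injBump ((j : ℝ) / Ji) * injBump (((j - l : ℤ) : ℝ) / Jk))
      + injBump (((j + -1 : ℤ) : ℝ) / Ji) * injBump (((j + -1 - l : ℤ) : ℝ) / Jk)|
      ≤ (C2 + C2 * q ^ 2 + 2 * C1 ^ 2 * q) / (Ji : ℝ) ^ 2 := by
  have hJi' : (0 : ℝ) < Ji := by exact_mod_cast hJi
  have hJk' : (0 : ℝ) < Jk := by exact_mod_cast hJk
  have hik' : (Ji : ℝ) ≤ q * Jk := by exact_mod_cast hik
  set h : ℝ := 1 / Ji with hh
  set h' : ℝ := 1 / Jk with hh'
  have hpos : 0 < h := by positivity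
  have hpos' : 0 < h' := by positivity
  have hle : h' ≤ q * h := by
    rw [hh, hh', mul_one_div, div_le_div_iff₀ hJk' hJi']
    linarith
  have e1 : ((j + 1 : ℤ) : ℝ) / Ji = (j : ℝ) / Ji + h := by
    rw [hh]; push_cast; ring
  have e2 : ((j + -1 : ℤ) : ℝ) / Ji = (j : ℝ) / Ji - h := by
    rw [hh]; push_cast; ring
  have e3 : ((j + 1 - l : ℤ) : ℝ) / Jk = ((j - l : ℤ) : ℝ) / Jk + h' := by
    rw [hh']; push_cast; ring
  have e4 : ((j + -1 - l : ℤ) : ℝ) / Jk = ((j - l : ℤ) : ℝ) / Jk - h' := by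
    rw [hh']; push_cast; ring
  rw [e1, e2, e3, e4]
  set a : ℝ := (j : ℝ) / Ji
  set b : ℝ := ((j - l : ℤ) : ℝ) / Jk
  have k1 : |injBump (a + h) - injBump a| ≤ C1 * h := by
    have := hL1 a h
    rwa [abs_of_pos hpos] at this
  have k2 : |injBump (a - h) - injBump a| ≤ C1 * h := by
    have := hL1 a (-h)
    rwa [abs_neg, abs_of_pos hpos, ← sub_eq_add_neg] at this
  have k3 : |injBump (b + h') - injBump b| ≤ C1 * h' := by
    have := hL1 b h'
    rwa [abs_of_pos hpos'] at this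
  have k4 : |injBump (b - h') - injBump b| ≤ C1 * h' := by
    have := hL1 b (-h')
    rwa [abs_neg, abs_of_pos hpos', ← sub_eq_add_neg] at this
  have key := ivas_leibniz (ivas_bump_abs_le_one a) (ivas_bump_abs_le_one b) k1 k2 k3 k4 (hL2 a h)
    (hL2 b h')
  refine key.trans ?_
  have hq0 : (0 : ℝ) ≤ q := Nat.cast_nonneg q
  have m1 : h' ^ 2 ≤ (q * h) ^ 2 := pow_le_pow_left₀ hpos'.le hle 2
  have m2 : C2 * h' ^ 2 ≤ C2 * (q * h) ^ 2 := mul_le_mul_of_nonneg_left m1 hC2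
  have m3 : C1 * h * (C1 * h') ≤ C1 * h * (C1 * (q * h)) :=
    mul_le_mul_of_nonneg_left (mul_le_mul_of_nonneg_left hle hC1) (by positivity)
  have e5 : (C2 + C2 * q ^ 2 + 2 * C1 ^ 2 * q) / (Ji : ℝ) ^ 2
      = C2 * h ^ 2 + C2 * (q * h) ^ 2 + 2 * (C1 * h * (C1 * (q * h))) := by
    rw [hh]; field_simp
  rw [e5]
  linarith

/-- **(S)**: uniform bound of the exponential sums -/
theorem iva_S_le (q : ℕ) (hq : 1 ≤ q) : ∃ K : ℝ, 0 ≤ K ∧ ∀ Ji Jk : ℕ, 1 ≤ Ji → 1 ≤ Jk → Ji ≤ q * Jk → Jk ≤ q * Ji →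
    ∀ l n : ℤ, ‖ivaS Ji Jk l n‖ ≤ K * ivaD Ji n := by
  obtain ⟨C1, hC1, hL1⟩ := ivas_bump_lip
  obtain ⟨C2, hC2, hL2⟩ := ivas_bump_lip2
  set M : ℝ := C2 + C2 * q ^ 2 + 2 * C1 ^ 2 * q with hM
  have hM0 : 0 ≤ M := by positivity
  refine ⟨96 * q + 6 * M * q, by positivity, ?_⟩
  intro Ji Jk hJi hJk hik _ l n
  have hJi' : (0 : ℝ) < Ji := by exact_mod_cast hJi
  have hJi1 : (1 : ℝ) ≤ Ji := by exact_mod_cast hJi
  have hJk' : (0 : ℝ) < Jk := by exact_mod_cast hJk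
  have hq' : (1 : ℝ) ≤ q := by exact_mod_cast hq
  have hq0 : (0 : ℝ) < q := by linarith
  have hik' : (Ji : ℝ) ≤ q * Jk := by exact_mod_cast hik
  -- notation
  set g : ℤ → ℝ := fun j => injBump ((j : ℝ) / Ji) * injBump (((j - l : ℤ) : ℝ) / Jk) with hg
  set E : ℤ → ℂ := fun j => ivaE (-((j * n : ℤ) : ℝ) * injAlpha) with hE
  set G : ℤ → ℂ := fun j => (g j : ℂ) * E j with hG
  set I : Finset ℤ := Finset.Icc (-(Ji : ℤ)) Ji with hI
  set W : ℂ := ∑ j ∈ I, G j with hW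
  set R : ℝ := Real.sqrt (injBumpNorm Ji) * Real.sqrt (injBumpNorm Jk) with hR
  set r : ℝ := (Ji : ℝ) / (32 * q) with hr
  have hr0 : 0 < r := by positivity
  have hcard : (I.card : ℝ) = 2 * Ji + 1 := by
    rw [hI, Int.card_Icc]
    have : (Ji : ℤ) + 1 - -(Ji : ℤ) = ((2 * Ji + 1 : ℕ) : ℤ) := by push_cast; ring
    rw [this, Int.toNat_natCast]
    push_cast
    ring
  -- lower bound of the normalisation
  have hrR : r ≤ R := by
    have h1 : r ≤ injBumpNorm Ji := by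
      refine le_trans ?_ (ivas_bumpNorm_ge Ji hJi)
      rw [hr, div_le_div_iff₀ (by positivity) (by norm_num)]
      nlinarith
    have h2 : r ≤ injBumpNorm Jk := by
      refine le_trans ?_ (ivas_bumpNorm_ge Jk hJk)
      rw [hr, div_le_div_iff₀ (by positivity) (by norm_num)]
      nlinarith
    calc r = Real.sqrt r * Real.sqrt r := (Real.mul_self_sqrt hr0.le).symm
      _ ≤ R := mul_le_mul (Real.sqrt_le_sqrt h1) (Real.sqrt_le_sqrt h2) (Real.sqrt_nonneg _)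
          (Real.sqrt_nonneg _)
  have hR0 : 0 < R := lt_of_lt_of_le hr0 hrR
  -- the sum in terms of `W`
  have hS : ivaS Ji Jk l n = W / (R : ℂ) := by
    rw [hW, Finset.sum_div]
    unfold ivaS
    refine Finset.sum_congr rfl (fun j _ => ?_)
    have : injCoef Ji j * injCoef Jk (j - l) = g j / R := by
      rw [hg, hR]
      unfold injCoef
      rw [div_mul_div_comm]
    rw [this]
    change ((g j / R : ℝ) : ℂ) * E j = (g j : ℂ) * E j / (R : ℂ)
    rw [Complex.ofReal_div]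
    ring
  have hSn : ‖ivaS Ji Jk l n‖ = ‖W‖ / R := by
    rw [hS, norm_div, Complex.norm_real, Real.norm_eq_abs, abs_of_pos hR0]
  have hSle : ‖ivaS Ji Jk l n‖ ≤ ‖W‖ * (32 * q / Ji) := by
    rw [hSn]
    calc ‖W‖ / R ≤ ‖W‖ / r := div_le_div_of_nonneg_left (norm_nonneg _) hr0 hrR
      _ = ‖W‖ * (32 * q / Ji) := by rw [hr]; field_simp
  have hEn : ∀ j, ‖E j‖ = 1 := fun j => ivas_E_norm _
  have hg1 : ∀ j, |g j| ≤ 1 := by
    intro j
    rw [hg, abs_mul]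
    exact mul_le_one₀ (ivas_bump_abs_le_one _) (abs_nonneg _) (ivas_bump_abs_le_one _)
  -- trivial bound
  have hW1 : ‖W‖ ≤ 3 * Ji := by
    calc ‖W‖ ≤ ∑ j ∈ I, ‖G j‖ := norm_sum_le _ _
      _ ≤ ∑ j ∈ I, (1 : ℝ) := by
          refine Finset.sum_le_sum (fun j _ => ?_)
          rw [hG, norm_mul, hEn, mul_one, Complex.norm_real, Real.norm_eq_abs]
          exact hg1 j
      _ = 2 * Ji + 1 := by rw [Finset.sum_const, nsmul_eq_mul, mul_one, hcard]
      _ ≤ 3 * Ji := by linarith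
  -- summation by parts
  have hGz : ∀ j : ℤ, (Ji : ℤ) ≤ |j| → G j = 0 := by
    intro j hj
    have : injBump ((j : ℝ) / Ji) = 0 := by
      apply iva_bump_eq_zero
      rw [abs_div, abs_of_pos hJi', le_div_iff₀ hJi', one_mul]
      exact_mod_cast hj
    rw [hG, hg]
    simp only [this, zero_mul, Complex.ofReal_zero]
  set ω : ℂ := ivaE (-((n : ℝ) * injAlpha)) with hω
  set ω' : ℂ := ivaE ((n : ℝ) * injAlpha) with hω'
  have hE1 : ∀ j, E j = E (j + 1) * ω' := by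
    intro j
    change ivaE (-((j * n : ℤ) : ℝ) * injAlpha)
      = ivaE (-(((j + 1) * n : ℤ) : ℝ) * injAlpha) * ivaE ((n : ℝ) * injAlpha)
    rw [← ivas_E_add]
    congr 1
    push_cast
    ring
  have hE2 : ∀ j, E j = E (j + -1) * ω := by
    intro j
    change ivaE (-((j * n : ℤ) : ℝ) * injAlpha)
      = ivaE (-(((j + -1) * n : ℤ) : ℝ) * injAlpha) * ivaE (-((n : ℝ) * injAlpha))
    rw [← ivas_E_add]
    congr 1
    push_cast
    ring
  have hid : ∑ j ∈ I, ((g (j + 1) - 2 * g j + g (j + -1) : ℝ) : ℂ) * E j = (ω' + ω - 2) * W := by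
    have t : ∀ j, ((g (j + 1) - 2 * g j + g (j + -1) : ℝ) : ℂ) * E j
        = G (j + 1) * ω' - 2 * G j + G (j + -1) * ω := by
      intro j
      have a1 : G (j + 1) * ω' = (g (j + 1) : ℂ) * E j := by
        rw [hE1 j, hG]; ring
      have a2 : G (j + -1) * ω = (g (j + -1) : ℂ) * E j := by
        rw [hE2 j, hG]; ring
      rw [a1, a2, hG]
      push_cast
      ring
    rw [Finset.sum_congr rfl (fun j _ => t j), Finset.sum_add_distrib, Finset.sum_sub_distrib,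
      ← Finset.sum_mul, ← Finset.sum_mul, ← Finset.mul_sum, hI,
      ivas_sum_shift G Ji hGz 1 (by norm_num), ivas_sum_shift G Ji hGz (-1) (by norm_num), ← hI, ← hW]
    ring
  have hωω : ω' + ω - 2 = ((-(2 - 2 * Real.cos (2 * Real.pi * ((n : ℝ) * injAlpha))) : ℝ) : ℂ) := by
    rw [hω, hω', ivas_E_add_neg]
    push_cast
    ring
  have hcos := ivas_cos_ge n
  have hW2 : 16 * ivaX n ^ 2 * ‖W‖ ≤ (2 * Ji + 1) * (M / (Ji : ℝ) ^ 2) := by
    have h1 : ‖(ω' + ω - 2) * W‖ ≤ (2 * Ji + 1) * (M / (Ji : ℝ) ^ 2) := by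
      rw [← hid]
      calc ‖∑ j ∈ I, ((g (j + 1) - 2 * g j + g (j + -1) : ℝ) : ℂ) * E j‖
          ≤ ∑ j ∈ I, ‖((g (j + 1) - 2 * g j + g (j + -1) : ℝ) : ℂ) * E j‖ := norm_sum_le _ _
        _ ≤ ∑ j ∈ I, M / (Ji : ℝ) ^ 2 := by
            refine Finset.sum_le_sum (fun j _ => ?_)
            rw [norm_mul, hEn, mul_one, Complex.norm_real, Real.norm_eq_abs]
            exact ivas_diff2 hL1 hL2 hC1 hC2 q Ji Jk hJi hJk hik l j
        _ = (2 * Ji + 1) * (M / (Ji : ℝ) ^ 2) := by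
            rw [Finset.sum_const, nsmul_eq_mul, hcard]
    rw [norm_mul, hωω, Complex.norm_real, Real.norm_eq_abs, abs_neg] at h1
    have h2 : 16 * ivaX n ^ 2 ≤ |2 - 2 * Real.cos (2 * Real.pi * ((n : ℝ) * injAlpha))| :=
      hcos.trans (le_abs_self _)
    exact (mul_le_mul_of_nonneg_right h2 (norm_nonneg _)).trans h1
  -- conclusion
  have hfin : ‖ivaS Ji Jk l n‖ * (1 + ((Ji : ℝ) * ivaX n) ^ 2) ≤ 96 * q + 6 * M * q := by
    have p1 : ‖ivaS Ji Jk l n‖ ≤ 96 * q := by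
      refine hSle.trans ?_
      calc ‖W‖ * (32 * q / Ji) ≤ 3 * Ji * (32 * q / Ji) :=
            mul_le_mul_of_nonneg_right hW1 (by positivity)
        _ = 96 * q := by field_simp; ring
    have p2 : ‖ivaS Ji Jk l n‖ * ((Ji : ℝ) * ivaX n) ^ 2 ≤ 6 * M * q := by
      calc ‖ivaS Ji Jk l n‖ * ((Ji : ℝ) * ivaX n) ^ 2
          ≤ ‖W‖ * (32 * q / Ji) * ((Ji : ℝ) * ivaX n) ^ 2 :=
            mul_le_mul_of_nonneg_right hSle (sq_nonneg _)
        _ = (16 * ivaX n ^ 2 * ‖W‖) * (2 * q * Ji) := by field_simp; ring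
        _ ≤ ((2 * Ji + 1) * (M / (Ji : ℝ) ^ 2)) * (2 * q * Ji) :=
            mul_le_mul_of_nonneg_right hW2 (by positivity)
        _ ≤ ((3 * Ji) * (M / (Ji : ℝ) ^ 2)) * (2 * q * Ji) := by
            refine mul_le_mul_of_nonneg_right ?_ (by positivity)
            exact mul_le_mul_of_nonneg_right (by linarith) (by positivity)
        _ = 6 * M * q := by field_simp; ring
    linarith
  unfold ivaD
  rw [mul_one_div, le_div_iff₀ (by positivity)]
  exact hfin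

end Claimed.Agent.R300
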