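/-
Row 300 / S0553, IV-A package (O) = IvaOp.  Sub-captain helper62.  Replace the sorries IN PLACE (owner: table subtask, name IVA-OP).
Operator identity + triangle inequality.  No analysis: `Ah`, `Bh` are ARBITRARY coefficient functions, all sums are finite.

Notation: `a_j = injCoef Ji j`, `a'_j = injCoef Jk j`, `Y^j = π(y^j)`, `F1 = f1 ∘ fst`, `P2 = ∑_{n∈s2} Bh n • fourier n`, `P1 = ∑_{c∈s0} Ah c • fourier c`.
 Step 1  `‖T_i‖ ≤ 2Ji+1` (`|a_j| ≤ 1`, `‖π g‖ ≤ 1`), same for `T_k*`;  `‖Φ h‖ ≤ ‖h‖` (`inj_calc_norm_le`), `‖g ∘ fst‖ ≤ ‖g‖`: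
         `‖T_i Φ(F1 · f2∘snd) T_k* - T_i Φ(F1 · P2∘snd) T_k*‖ ≤ (2Ji+1)(2Jk+1) ‖f1‖ ‖f2 - P2‖`.
 Step 2  `T_i Φ(F1 · P2∘snd) T_k* = ∑_{n∈s2} Bh n ∑_j ∑_j' a_j a'_j' Y^j Φ(F1 · injMono 0 n) Y^(-j')`   (`injTJ`, `injTJ_star`),
         `Y^j Φ(h) Y^(-j') = Φ(h ∘ injShear j) Y^(j-j')` (`inj_calc_shear`),   `(F1 · injMono 0 n) ∘ injShear j = (f1 · fourier (-(j n))) ∘ fst · injMono 0 n`,
         `Φ(injMono 0 n) = π(x^n)` (`injc_mono`).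
 Step 3  `‖Φ((f1 · fourier (-(j n))) ∘ fst) - e(-jnα) Φ(F1)‖ ≤ δ`.
 Step 4  `∑_j ∑_j' a_j a'_j' e(-jnα) π(x^n y^(j-j')) = ∑_{l ∈ ivaL} S_l(n) π(x^n y^l)`    (for fixed `j` substitute `l = j - j'`; `a'_(j-l) = 0` outside, `iva_coef_eq_zero`).
 Step 5  drop `n ∈ s2 \ s1`:  norm `≤ ‖f1‖ ∑_{n ∈ s2 \ s1} ∑_l |Bh n| |S_l(n)|`.
 Step 6  `‖Φ(F1) - ∑_{c∈s0} Ah c π(z^c)‖ ≤ ‖f1 - P1‖`;   `π(z^c) π(x^n y^l) = π(ivVol c n l)`.
STATEMENT CHANGE (helper87, helper236): `iva_op_approx` has the extra hypothesis `hJk : 1 ≤ Jk` (false for `Jk = 0`, `Ji ≥ 1`: `injCoef 0 j = 1` for all `j`).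
`iva_freeze`: if `injLoc A α L θ ≠ 0` then `θ = t mod 1`, `|t - α| ≤ R/L` (`injLoc_ne_zero`), `|e(m t) - e(m α)| ≤ 2π |m| |t - α|`
 (`Complex.norm_exp_I_mul_ofReal_sub_one_le` or `Real`-Lipschitz of `exp(i·)`), `fourier_coe_apply`; `ContinuousMap.norm_le`.
-/
import Mathlib
import Claimed.Agent.R300.IvaSum

set_option autoImplicit false

namespace Claimed.Agent.R300

variable {H : Type*} [NormedAddCommGroup H] [InnerProductSpace ℂ H] [CompleteSpace H]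

theorem iva_rep_norm_le_one (π : InjRep H) (g : InjHeis) : ‖π.π g‖ ≤ 1 := by
  have h1 : star (π.π g) * π.π g = 1 := (Unitary.mem_iff.1 (π.mem_unitary g)).1
  have h2 : ‖π.π g‖ * ‖π.π g‖ = ‖(1 : H →L[ℂ] H)‖ := by
    rw [← h1, CStarRing.norm_star_mul_self]
  have h3 : ‖(1 : H →L[ℂ] H)‖ ≤ 1 := ContinuousLinearMap.norm_id_le
  nlinarith [norm_nonneg (π.π g)]

theorem iva_vol (c n l : ℤ) : InjHeis.z ^ c * InjHeis.x ^ n * InjHeis.y ^ l = ivVol c n l := by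
  rw [injc_zx, injc_y_zpow]
  ext <;> simp [ivVol]

theorem iva_E_sub_le (a b : ℝ) : ‖ivaE a - ivaE b‖ ≤ 2 * Real.pi * |a - b| := by
  have h : ivaE a - ivaE b = ivaE b * (Complex.exp (Complex.I * ((2 * Real.pi * (a - b) : ℝ) : ℂ)) - 1) := by
    unfold ivaE
    rw [mul_sub, ← Complex.exp_add, mul_one]
    congr 2
    push_cast
    ring
  have hb : ‖ivaE b‖ = 1 := by
    unfold ivaE
    rw [show (2 * Real.pi * Complex.I * b : ℂ) = ((2 * Real.pi * b : ℝ) : ℂ) * Complex.I by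
      push_cast; ring]
    exact Complex.norm_exp_ofReal_mul_I _
  rw [h, norm_mul, hb, one_mul]
  refine (Real.norm_exp_I_mul_ofReal_sub_one_le).trans ?_
  rw [Real.norm_eq_abs, abs_mul, abs_of_pos (by positivity : (0:ℝ) < 2 * Real.pi)]

theorem iva_fourier_coe (m : ℤ) (t : ℝ) : (fourier m : C(InjT, ℂ)) (t : InjT) = ivaE ((m : ℝ) * t) := by
  rw [fourier_coe_apply]
  unfold ivaE
  congr 1
  push_cast
  ring

theorem iva_freeze {R : ℝ} {A : C(ℝ, ℂ)} (hA : InjSupp R A) (hR : 0 ≤ R) {L : ℝ} (hL : 2 * R < L) {sA : ℝ}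
    (hsA : ∀ x, ‖A x‖ ≤ sA) (m : ℤ) :
    ‖injLoc A injAlpha L *
        ((fourier m : C(InjT, ℂ)) - ContinuousMap.const InjT (ivaE ((m : ℝ) * injAlpha)))‖
      ≤ sA * (2 * Real.pi * |(m : ℝ)| * R / L) := by
  have hs0 : 0 ≤ sA := (norm_nonneg _).trans (hsA 0)
  have hL0 : 0 < L := by linarith
  have hrhs : 0 ≤ sA * (2 * Real.pi * |(m : ℝ)| * R / L) := by positivity
  rw [ContinuousMap.norm_le _ hrhs]
  intro θ
  rw [ContinuousMap.mul_apply, norm_mul]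
  by_cases h0 : injLoc A injAlpha L θ = 0
  · rw [h0, norm_zero, zero_mul]; exact hrhs
  · obtain ⟨t, rfl, ht, he⟩ := injLoc_ne_zero hA hR hL θ h0
    rw [he]
    refine mul_le_mul (hsA _) ?_ (norm_nonneg _) hs0
    rw [ContinuousMap.sub_apply, ContinuousMap.const_apply, iva_fourier_coe]
    refine (iva_E_sub_le _ _).trans ?_
    rw [← mul_sub, abs_mul]
    calc 2 * Real.pi * (|(m : ℝ)| * |t - injAlpha|) ≤ 2 * Real.pi * (|(m : ℝ)| * (R / L)) := by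
          gcongr
      _ = _ := by ring

/-! ### the coefficients -/

theorem ivao_bump_eq_zero {t : ℝ} (ht : 1 ≤ |t|) : injBump t = 0 := by
  unfold injBump
  rcases le_abs.1 ht with h | h
  · rw [Real.smoothTransition.zero_of_nonpos (by linarith), zero_mul]
  · rw [Real.smoothTransition.zero_of_nonpos (x := 1 + t) (by linarith), mul_zero]

theorem ivao_coef_eq_zero {J : ℕ} (hJ : 1 ≤ J) {j : ℤ} (hj : (J : ℤ) ≤ |j|) : injCoef J j = 0 := by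
  unfold injCoef
  rw [ivao_bump_eq_zero, zero_div]
  have hJ0 : (0 : ℝ) < J := by exact_mod_cast hJ
  rw [abs_div, abs_of_pos hJ0, le_div_iff₀ hJ0, one_mul]
  exact_mod_cast hj

theorem ivao_card_Icc (J : ℕ) : ((Finset.Icc (-(J : ℤ)) J).card : ℝ) = 2 * J + 1 := by
  rw [Int.card_Icc]
  have : ((J : ℤ) + 1 - -(J : ℤ)).toNat = 2 * J + 1 := by omega
  rw [this]
  push_cast
  ring

theorem ivao_coef_norm_le (J : ℕ) (j : ℤ) : ‖(injCoef J j : ℂ)‖ ≤ 1 := by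
  rw [Complex.norm_real, Real.norm_eq_abs]
  exact iva_coef_abs_le_one J j

theorem ivao_TJ_norm_le (π : InjRep H) (J : ℕ) : ‖injTJ π J‖ ≤ 2 * J + 1 := by
  unfold injTJ
  calc _ ≤ ∑ j ∈ Finset.Icc (-(J : ℤ)) J, ‖(injCoef J j : ℂ) • π.π (InjHeis.y ^ j)‖ :=
        norm_sum_le _ _
    _ ≤ ∑ _j ∈ Finset.Icc (-(J : ℤ)) J, (1 : ℝ) := by
        refine Finset.sum_le_sum fun j _ => ?_
        rw [norm_smul]
        exact mul_le_one₀ (ivao_coef_norm_le J j) (norm_nonneg _) (iva_rep_norm_le_one π _)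
    _ = 2 * J + 1 := by rw [Finset.sum_const, nsmul_eq_mul, mul_one, ivao_card_Icc]

theorem ivao_yxy (j n j' : ℤ) :
    InjHeis.y ^ j * InjHeis.x ^ n * InjHeis.y ^ (-j') =
      InjHeis.z ^ (-(j * n)) * (InjHeis.x ^ n * InjHeis.y ^ (j - j')) := by
  rw [injc_x_zpow, injc_y_zpow, injc_y_zpow, injc_y_zpow, injc_z_zpow]
  ext <;> simp <;> ring

theorem ivao_expand (π : InjRep H) (Ji Jk : ℕ) (X : H →L[ℂ] H) :
    injTJ π Ji * X * star (injTJ π Jk) =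
      ∑ j ∈ Finset.Icc (-(Ji : ℤ)) Ji, ∑ j' ∈ Finset.Icc (-(Jk : ℤ)) Jk,
        ((injCoef Ji j : ℂ) * (injCoef Jk j' : ℂ)) •
          (π.π (InjHeis.y ^ j) * X * π.π (InjHeis.y ^ (-j'))) := by
  rw [injTJ_star, injTJ, Finset.sum_mul, Finset.sum_mul]
  refine Finset.sum_congr rfl fun j _ => ?_
  rw [Finset.mul_sum]
  refine Finset.sum_congr rfl fun j' _ => ?_
  rw [smul_mul_assoc, smul_mul_assoc, mul_smul_comm, smul_smul]

/-- reindexing `l = j - j'` -/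
theorem ivao_reindex {M : Type*} [AddCommGroup M] [Module ℂ M] (Ji Jk : ℕ) (hJk : 1 ≤ Jk) (n : ℤ)
    (V : ℤ → M) :
    ∑ l ∈ ivaL Ji Jk, ivaS Ji Jk l n • V l =
      ∑ j ∈ Finset.Icc (-(Ji : ℤ)) Ji, ∑ j' ∈ Finset.Icc (-(Jk : ℤ)) Jk,
        ((injCoef Ji j : ℂ) * (injCoef Jk j' : ℂ)) •
          (ivaE (-((j * n : ℤ) : ℝ) * injAlpha) • V (j - j')) := by
  have h1 : ∀ l, ivaS Ji Jk l n • V l = ∑ j ∈ Finset.Icc (-(Ji : ℤ)) Ji,
      ((injCoef Ji j : ℂ) * (injCoef Jk (j - l) : ℂ)) •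
          (ivaE (-((j * n : ℤ) : ℝ) * injAlpha) • V (j - (j - l))) := by
    intro l
    rw [ivaS, Finset.sum_smul]
    refine Finset.sum_congr rfl fun j _ => ?_
    rw [smul_smul, sub_sub_cancel]
    push_cast
    rfl
  rw [Finset.sum_congr rfl fun l _ => h1 l, Finset.sum_comm]
  refine Finset.sum_congr rfl fun j hj => ?_
  rw [Finset.mem_Icc] at hj
  set G : ℤ → M := fun j' => ((injCoef Ji j : ℂ) * (injCoef Jk j' : ℂ)) •
          (ivaE (-((j * n : ℤ) : ℝ) * injAlpha) • V (j - j')) with hG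
  show ∑ l ∈ ivaL Ji Jk, G (j - l) = ∑ j' ∈ Finset.Icc (-(Jk : ℤ)) Jk, G j'
  have h2 : ∑ j' ∈ Finset.Icc (-(Jk : ℤ)) Jk, G j' =
      ∑ j' ∈ Finset.Icc (j - ((Ji + Jk : ℕ) : ℤ)) (j + ((Ji + Jk : ℕ) : ℤ)), G j' := by
    apply Finset.sum_subset
    · intro x hx
      rw [Finset.mem_Icc] at hx ⊢
      push_cast
      constructor <;> linarith [hx.1, hx.2, hj.1, hj.2]
    · intro x _ hx
      rw [Finset.mem_Icc, not_and_or, not_le, not_le] at hx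
      have : injCoef Jk x = 0 := by
        apply ivao_coef_eq_zero hJk
        rcases hx with h | h
        · exact le_trans (by linarith) (neg_le_abs x)
        · exact le_trans h.le (le_abs_self x)
      rw [hG]
      simp only [this, Complex.ofReal_zero, mul_zero, zero_smul]
  rw [h2]
  refine Finset.sum_equiv (Equiv.subLeft j) ?_ ?_
  · intro l
    rw [ivaL, Finset.mem_Icc, Finset.mem_Icc, Equiv.subLeft_apply]
    constructor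
    · intro h; constructor <;> linarith [h.1, h.2]
    · intro h; constructor <;> linarith [h.1, h.2]
  · intro l _
    rfl

/-! ### the abstract computation -/

section core

variable (π : InjRep H) (Φ1 Φ2 : C(InjT, ℂ) →⋆ₐ[ℂ] (H →L[ℂ] H))

theorem ivao_norm_le (Ψ : C(InjT, ℂ) →⋆ₐ[ℂ] (H →L[ℂ] H)) (g : C(InjT, ℂ)) : ‖Ψ g‖ ≤ ‖g‖ :=
  NonUnitalStarAlgHom.norm_apply_le Ψ g

theorem ivao_term (hz : ∀ c : ℤ, Φ1 (fourier c) = π.π (InjHeis.z ^ c))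
    (hx : ∀ n : ℤ, Φ2 (fourier n) = π.π (InjHeis.x ^ n))
    (hc : ∀ (j : ℤ) (g : C(InjT, ℂ)), π.π (InjHeis.y ^ j) * Φ1 g = Φ1 g * π.π (InjHeis.y ^ j))
    (f1 : C(InjT, ℂ)) (n j j' : ℤ) :
    π.π (InjHeis.y ^ j) * (Φ1 f1 * Φ2 (fourier n)) * π.π (InjHeis.y ^ (-j')) =
      Φ1 (f1 * fourier (-(j * n))) * π.π (InjHeis.x ^ n * InjHeis.y ^ (j - j')) := by
  calc π.π (InjHeis.y ^ j) * (Φ1 f1 * Φ2 (fourier n)) * π.π (InjHeis.y ^ (-j'))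
      = (π.π (InjHeis.y ^ j) * Φ1 f1) * Φ2 (fourier n) * π.π (InjHeis.y ^ (-j')) := by
        simp only [mul_assoc]
    _ = Φ1 f1 * π.π (InjHeis.y ^ j * InjHeis.x ^ n * InjHeis.y ^ (-j')) := by
        rw [hc, hx, map_mul, map_mul]; simp only [mul_assoc]
    _ = _ := by
        rw [ivao_yxy, map_mul π.π, ← hz, map_mul Φ1, mul_assoc]

theorem ivao_freeze_op (f1 : C(InjT, ℂ)) (m : ℤ) (e : ℂ) :
    ‖Φ1 (f1 * fourier m) - e • Φ1 f1‖ ≤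
      ‖f1 * ((fourier m : C(InjT, ℂ)) - ContinuousMap.const InjT e)‖ := by
  have : Φ1 (f1 * fourier m) - e • Φ1 f1 =
      Φ1 (f1 * ((fourier m : C(InjT, ℂ)) - ContinuousMap.const InjT e)) := by
    rw [← map_smul, ← map_sub]
    congr 1
    ext θ
    simp only [ContinuousMap.sub_apply, ContinuousMap.mul_apply, ContinuousMap.smul_apply,
      ContinuousMap.const_apply, smul_eq_mul]
    ring
  rw [this]
  exact ivao_norm_le Φ1 _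

/-- the operator `W_n = ∑_l S_l(n) π(x^n y^l)` -/
noncomputable def ivaoW (Ji Jk : ℕ) (n : ℤ) : H →L[ℂ] H :=
  ∑ l ∈ ivaL Ji Jk, ivaS Ji Jk l n • π.π (InjHeis.x ^ n * InjHeis.y ^ l)

theorem ivaoW_eqns : True := by
  have := @ivaoW.eq_1.{0}
  have := @ivaoW.eq_def.{0}
  trivial

theorem ivaoW_norm_le (Ji Jk : ℕ) (n : ℤ) :
    ‖ivaoW π Ji Jk n‖ ≤ ∑ l ∈ ivaL Ji Jk, ‖ivaS Ji Jk l n‖ := by
  unfold ivaoW
  refine (norm_sum_le _ _).trans (Finset.sum_le_sum fun l _ => ?_)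
  rw [norm_smul]
  exact mul_le_of_le_one_right (norm_nonneg _) (iva_rep_norm_le_one π _)

theorem ivao_per_n (hz : ∀ c : ℤ, Φ1 (fourier c) = π.π (InjHeis.z ^ c))
    (hx : ∀ n : ℤ, Φ2 (fourier n) = π.π (InjHeis.x ^ n))
    (hc : ∀ (j : ℤ) (g : C(InjT, ℂ)), π.π (InjHeis.y ^ j) * Φ1 g = Φ1 g * π.π (InjHeis.y ^ j))
    (f1 : C(InjT, ℂ)) (Ji Jk : ℕ) (hJk : 1 ≤ Jk) (n : ℤ) (δ : ℝ)
    (hδ : ∀ j ∈ Finset.Icc (-(Ji : ℤ)) Ji,
      ‖f1 * ((fourier (-(j * n)) : C(InjT, ℂ))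
        - ContinuousMap.const InjT (ivaE (-((j * n : ℤ) : ℝ) * injAlpha)))‖ ≤ δ) :
    ‖injTJ π Ji * (Φ1 f1 * Φ2 (fourier n)) * star (injTJ π Jk) - Φ1 f1 * ivaoW π Ji Jk n‖
      ≤ (2 * Ji + 1) * (2 * Jk + 1) * δ := by
  have hδ0 : 0 ≤ δ := (norm_nonneg _).trans (hδ 0 (by simp))
  rw [ivao_expand, ivaoW, ivao_reindex Ji Jk hJk, Finset.mul_sum, ← Finset.sum_sub_distrib]
  calc _ ≤ ∑ j ∈ Finset.Icc (-(Ji : ℤ)) Ji, (2 * (Jk : ℝ) + 1) * δ := by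
        refine (norm_sum_le _ _).trans (Finset.sum_le_sum fun j hj => ?_)
        rw [Finset.mul_sum, ← Finset.sum_sub_distrib]
        calc _ ≤ ∑ j' ∈ Finset.Icc (-(Jk : ℤ)) Jk, δ := by
              refine (norm_sum_le _ _).trans (Finset.sum_le_sum fun j' _ => ?_)
              rw [ivao_term π Φ1 Φ2 hz hx hc, mul_smul_comm, ← smul_sub, mul_smul_comm,
                ← smul_mul_assoc, ← sub_mul, norm_smul, norm_mul]
              have h1 := (ivao_freeze_op Φ1 f1 (-(j * n))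
                (ivaE (-((j * n : ℤ) : ℝ) * injAlpha))).trans (hδ j hj)
              have h2 := iva_rep_norm_le_one π (InjHeis.x ^ n * InjHeis.y ^ (j - j'))
              have h3 := ivao_coef_norm_le Ji j
              have h4 := ivao_coef_norm_le Jk j'
              calc _ ≤ (1 * 1) * (δ * 1) := by
                    refine mul_le_mul (mul_le_mul h3 h4 (norm_nonneg _) zero_le_one)
                      ((norm_mul_le _ _).trans (mul_le_mul h1 h2 (norm_nonneg _) hδ0))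
                      (norm_nonneg _) (by norm_num)
                _ = δ := by ring
          _ = _ := by rw [Finset.sum_const, nsmul_eq_mul, ivao_card_Icc]
    _ = _ := by rw [Finset.sum_const, nsmul_eq_mul, ivao_card_Icc]; ring

theorem ivao_target (hz : ∀ c : ℤ, Φ1 (fourier c) = π.π (InjHeis.z ^ c))
    (Ah Bh : ℤ → ℂ) (Ji Jk : ℕ) (s0 s1 : Finset ℤ) :
    ∑ n ∈ s1, Bh n • (Φ1 (∑ c ∈ s0, Ah c • (fourier c : C(InjT, ℂ))) * ivaoW π Ji Jk n) =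
      ∑ c ∈ s0, ∑ n ∈ s1, ∑ l ∈ ivaL Ji Jk,
        (Ah c * Bh n * ivaS Ji Jk l n) • π.π (ivVol c n l) := by
  rw [Finset.sum_comm]
  refine Finset.sum_congr rfl fun n _ => ?_
  rw [map_sum, Finset.sum_mul, Finset.smul_sum]
  refine Finset.sum_congr rfl fun c _ => ?_
  rw [map_smul, hz, ivaoW, Finset.mul_sum, Finset.smul_sum]
  refine Finset.sum_congr rfl fun l _ => ?_
  rw [smul_mul_assoc, mul_smul_comm, ← map_mul, ← mul_assoc, iva_vol, smul_smul, smul_smul]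
  congr 1
  ring

theorem ivao_core (hz : ∀ c : ℤ, Φ1 (fourier c) = π.π (InjHeis.z ^ c))
    (hx : ∀ n : ℤ, Φ2 (fourier n) = π.π (InjHeis.x ^ n))
    (hc : ∀ (j : ℤ) (g : C(InjT, ℂ)), π.π (InjHeis.y ^ j) * Φ1 g = Φ1 g * π.π (InjHeis.y ^ j))
    (f1 f2 : C(InjT, ℂ)) (Ah Bh : ℤ → ℂ) (Ji Jk : ℕ) (hJk : 1 ≤ Jk) (s0 s1 s2 : Finset ℤ)
    (hs : s1 ⊆ s2) (δ : ℝ)
    (hδ : ∀ n ∈ s2, ∀ j ∈ Finset.Icc (-(Ji : ℤ)) Ji,
      ‖f1 * ((fourier (-(j * n)) : C(InjT, ℂ))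
        - ContinuousMap.const InjT (ivaE (-((j * n : ℤ) : ℝ) * injAlpha)))‖ ≤ δ) :
    ‖injTJ π Ji * (Φ1 f1 * Φ2 f2) * star (injTJ π Jk)
        - ∑ c ∈ s0, ∑ n ∈ s1, ∑ l ∈ ivaL Ji Jk, (Ah c * Bh n * ivaS Ji Jk l n) • π.π (ivVol c n l)‖
      ≤ (2 * Ji + 1) * (2 * Jk + 1) * ‖f1‖ * ‖f2 - ∑ n ∈ s2, Bh n • (fourier n : C(InjT, ℂ))‖
        + (2 * Ji + 1) * (2 * Jk + 1) * δ * ∑ n ∈ s2, ‖Bh n‖
        + ‖f1‖ * ∑ n ∈ s2 \ s1, ∑ l ∈ ivaL Ji Jk, ‖Bh n‖ * ‖ivaS Ji Jk l n‖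
        + ‖f1 - ∑ c ∈ s0, Ah c • (fourier c : C(InjT, ℂ))‖ *
            ∑ n ∈ s1, ∑ l ∈ ivaL Ji Jk, ‖Bh n‖ * ‖ivaS Ji Jk l n‖ := by
  rw [← ivao_target π Φ1 hz]
  set P1 : C(InjT, ℂ) := ∑ c ∈ s0, Ah c • (fourier c : C(InjT, ℂ)) with hP1
  set P2 : C(InjT, ℂ) := ∑ n ∈ s2, Bh n • (fourier n : C(InjT, ℂ)) with hP2
  set T := injTJ π Ji with hT
  set T' := star (injTJ π Jk) with hT'
  have hTn : ‖T‖ ≤ 2 * Ji + 1 := ivao_TJ_norm_le π Ji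
  have hTn' : ‖T'‖ ≤ 2 * Jk + 1 := by rw [hT', norm_star]; exact ivao_TJ_norm_le π Jk
  -- step 1
  have e1 : ‖T * (Φ1 f1 * Φ2 f2) * T' - T * (Φ1 f1 * Φ2 P2) * T'‖ ≤
      (2 * Ji + 1) * (2 * Jk + 1) * ‖f1‖ * ‖f2 - P2‖ := by
    have : T * (Φ1 f1 * Φ2 f2) * T' - T * (Φ1 f1 * Φ2 P2) * T' =
        T * (Φ1 f1 * Φ2 (f2 - P2)) * T' := by
      rw [map_sub, mul_sub, mul_sub, sub_mul]
    rw [this]
    calc _ ≤ ‖T‖ * (‖Φ1 f1‖ * ‖Φ2 (f2 - P2)‖) * ‖T'‖ :=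
          (norm_mul_le _ _).trans (mul_le_mul_of_nonneg_right
            ((norm_mul_le _ _).trans (mul_le_mul_of_nonneg_left (norm_mul_le _ _) (norm_nonneg _)))
            (norm_nonneg _))
      _ ≤ (2 * Ji + 1) * (‖f1‖ * ‖f2 - P2‖) * (2 * Jk + 1) := by
          have a1 := ivao_norm_le Φ1 f1
          have a2 := ivao_norm_le Φ2 (f2 - P2)
          gcongr
      _ = _ := by ring
  -- step 2-4
  have e2 : ‖T * (Φ1 f1 * Φ2 P2) * T' - ∑ n ∈ s2, Bh n • (Φ1 f1 * ivaoW π Ji Jk n)‖ ≤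
      (2 * Ji + 1) * (2 * Jk + 1) * δ * ∑ n ∈ s2, ‖Bh n‖ := by
    have : T * (Φ1 f1 * Φ2 P2) * T' =
        ∑ n ∈ s2, Bh n • (T * (Φ1 f1 * Φ2 (fourier n)) * T') := by
      rw [hP2, map_sum, Finset.mul_sum, Finset.mul_sum, Finset.sum_mul]
      refine Finset.sum_congr rfl fun n _ => ?_
      rw [map_smul, mul_smul_comm, mul_smul_comm, smul_mul_assoc]
    rw [this, ← Finset.sum_sub_distrib, Finset.mul_sum]
    refine (norm_sum_le _ _).trans (Finset.sum_le_sum fun n hn => ?_)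
    rw [← smul_sub, norm_smul, mul_comm]
    exact mul_le_mul_of_nonneg_right
      (ivao_per_n π Φ1 Φ2 hz hx hc f1 Ji Jk hJk n δ (hδ n hn)) (norm_nonneg _)
  -- step 5
  have e3 : ‖∑ n ∈ s2, Bh n • (Φ1 f1 * ivaoW π Ji Jk n) -
      ∑ n ∈ s1, Bh n • (Φ1 f1 * ivaoW π Ji Jk n)‖ ≤
      ‖f1‖ * ∑ n ∈ s2 \ s1, ∑ l ∈ ivaL Ji Jk, ‖Bh n‖ * ‖ivaS Ji Jk l n‖ := by
    rw [← Finset.sum_sdiff hs, add_sub_cancel_right, Finset.mul_sum]
    refine (norm_sum_le _ _).trans (Finset.sum_le_sum fun n _ => ?_)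
    rw [norm_smul, ← Finset.mul_sum]
    calc _ ≤ ‖Bh n‖ * (‖f1‖ * ∑ l ∈ ivaL Ji Jk, ‖ivaS Ji Jk l n‖) := by
          refine mul_le_mul_of_nonneg_left ((norm_mul_le _ _).trans ?_) (norm_nonneg _)
          exact mul_le_mul (ivao_norm_le Φ1 f1) (ivaoW_norm_le π Ji Jk n) (norm_nonneg _)
            (norm_nonneg _)
      _ = _ := by ring
  -- step 6
  have e4 : ‖∑ n ∈ s1, Bh n • (Φ1 f1 * ivaoW π Ji Jk n) -
      ∑ n ∈ s1, Bh n • (Φ1 P1 * ivaoW π Ji Jk n)‖ ≤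
      ‖f1 - P1‖ * ∑ n ∈ s1, ∑ l ∈ ivaL Ji Jk, ‖Bh n‖ * ‖ivaS Ji Jk l n‖ := by
    rw [← Finset.sum_sub_distrib, Finset.mul_sum]
    refine (norm_sum_le _ _).trans (Finset.sum_le_sum fun n _ => ?_)
    rw [← smul_sub, ← sub_mul, ← map_sub, norm_smul, ← Finset.mul_sum]
    calc _ ≤ ‖Bh n‖ * (‖f1 - P1‖ * ∑ l ∈ ivaL Ji Jk, ‖ivaS Ji Jk l n‖) := by
          refine mul_le_mul_of_nonneg_left ((norm_mul_le _ _).trans ?_) (norm_nonneg _)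
          exact mul_le_mul (ivao_norm_le Φ1 _) (ivaoW_norm_le π Ji Jk n) (norm_nonneg _)
            (norm_nonneg _)
      _ = _ := by ring
  calc _ = ‖(T * (Φ1 f1 * Φ2 f2) * T' - T * (Φ1 f1 * Φ2 P2) * T') +
        (T * (Φ1 f1 * Φ2 P2) * T' - ∑ n ∈ s2, Bh n • (Φ1 f1 * ivaoW π Ji Jk n)) +
        (∑ n ∈ s2, Bh n • (Φ1 f1 * ivaoW π Ji Jk n) -
          ∑ n ∈ s1, Bh n • (Φ1 f1 * ivaoW π Ji Jk n)) +
        (∑ n ∈ s1, Bh n • (Φ1 f1 * ivaoW π Ji Jk n) -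
          ∑ n ∈ s1, Bh n • (Φ1 P1 * ivaoW π Ji Jk n))‖ := by
        congr 1; abel
    _ ≤ _ := by
        refine (norm_add_le _ _).trans (add_le_add ?_ e4)
        refine (norm_add_le _ _).trans (add_le_add ?_ e3)
        exact (norm_add_le _ _).trans (add_le_add e1 e2)

end core

theorem iva_op_approx (π : InjRep H) (Φ : C(InjT × InjT, ℂ) →⋆ₐ[ℂ] (H →L[ℂ] H))
    (h1 : Φ injE1 = π.π InjHeis.z) (h2 : Φ injE2 = π.π InjHeis.x)
    (f1 f2 : C(InjT, ℂ)) (Ah Bh : ℤ → ℂ) (Ji Jk : ℕ) (hJk : 1 ≤ Jk) (s0 s1 s2 : Finset ℤ)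
    (hs : s1 ⊆ s2) (δ : ℝ)
    (hδ : ∀ n ∈ s2, ∀ j ∈ Finset.Icc (-(Ji : ℤ)) Ji,
      ‖f1 * ((fourier (-(j * n)) : C(InjT, ℂ))
        - ContinuousMap.const InjT (ivaE (-((j * n : ℤ) : ℝ) * injAlpha)))‖ ≤ δ) :
    ‖injTJ π Ji * Φ (f1.comp ContinuousMap.fst * f2.comp ContinuousMap.snd) * star (injTJ π Jk)
        - ∑ c ∈ s0, ∑ n ∈ s1, ∑ l ∈ ivaL Ji Jk, (Ah c * Bh n * ivaS Ji Jk l n) • π.π (ivVol c n l)‖
      ≤ (2 * Ji + 1) * (2 * Jk + 1) * ‖f1‖ * ‖f2 - ∑ n ∈ s2, Bh n • (fourier n : C(InjT, ℂ))‖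
        + (2 * Ji + 1) * (2 * Jk + 1) * δ * ∑ n ∈ s2, ‖Bh n‖
        + ‖f1‖ * ∑ n ∈ s2 \ s1, ∑ l ∈ ivaL Ji Jk, ‖Bh n‖ * ‖ivaS Ji Jk l n‖
        + ‖f1 - ∑ c ∈ s0, Ah c • (fourier c : C(InjT, ℂ))‖ *
            ∑ n ∈ s1, ∑ l ∈ ivaL Ji Jk, ‖Bh n‖ * ‖ivaS Ji Jk l n‖ := by
  let Φ1 : C(InjT, ℂ) →⋆ₐ[ℂ] (H →L[ℂ] H) :=
    Φ.comp (ContinuousMap.compStarAlgHom' ℂ ℂ (ContinuousMap.fst : C(InjT × InjT, InjT)))
  let Φ2 : C(InjT, ℂ) →⋆ₐ[ℂ] (H →L[ℂ] H) :=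
    Φ.comp (ContinuousMap.compStarAlgHom' ℂ ℂ (ContinuousMap.snd : C(InjT × InjT, InjT)))
  have d1 : ∀ g, Φ1 g = Φ (g.comp ContinuousMap.fst) := fun g => rfl
  have d2 : ∀ g, Φ2 g = Φ (g.comp ContinuousMap.snd) := fun g => rfl
  have hz : ∀ c : ℤ, Φ1 (fourier c) = π.π (InjHeis.z ^ c) := by
    intro c
    have : (fourier c : C(InjT, ℂ)).comp (ContinuousMap.fst : C(InjT × InjT, InjT)) =
        injMono c 0 := by
      ext p
      rw [injMono_apply, fourier_zero, mul_one]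
      rfl
    rw [d1, this, injc_mono π Φ h1 h2, zpow_zero, mul_one]
  have hx : ∀ n : ℤ, Φ2 (fourier n) = π.π (InjHeis.x ^ n) := by
    intro n
    have : (fourier n : C(InjT, ℂ)).comp (ContinuousMap.snd : C(InjT × InjT, InjT)) =
        injMono 0 n := by
      ext p
      rw [injMono_apply, fourier_zero, one_mul]
      rfl
    rw [d2, this, injc_mono π Φ h1 h2, zpow_zero, one_mul]
  have hc : ∀ (j : ℤ) (g : C(InjT, ℂ)),
      π.π (InjHeis.y ^ j) * Φ1 g = Φ1 g * π.π (InjHeis.y ^ j) := by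
    intro j g
    have hsh := inj_calc_shear π Φ h1 h2 j (g.comp ContinuousMap.fst)
    have hcomp : (g.comp (ContinuousMap.fst : C(InjT × InjT, InjT))).comp (injShear j) =
        g.comp ContinuousMap.fst := rfl
    rw [hcomp] at hsh
    have hinv : π.π (InjHeis.y ^ (-j)) * π.π (InjHeis.y ^ j) = 1 := by
      rw [← map_mul, zpow_neg, inv_mul_cancel, map_one]
    calc π.π (InjHeis.y ^ j) * Φ1 g
        = π.π (InjHeis.y ^ j) * Φ1 g * (π.π (InjHeis.y ^ (-j)) * π.π (InjHeis.y ^ j)) := by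
          rw [hinv, mul_one]
      _ = (π.π (InjHeis.y ^ j) * Φ (g.comp ContinuousMap.fst) * π.π (InjHeis.y ^ (-j))) *
            π.π (InjHeis.y ^ j) := by rw [d1]; simp only [mul_assoc]
      _ = _ := by rw [hsh, d1]
  have := ivao_core π Φ1 Φ2 hz hx hc f1 f2 Ah Bh Ji Jk hJk s0 s1 s2 hs δ hδ
  rwa [d1, d2, ← map_mul] at this

end Claimed.Agent.R300
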