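/-
Row 300 / S0553, IV-A package (L) = IvaLaw.  Sub-captain helper62.  All statements proved (helper127).
Abstract construction of a product sampler from three positive weights and a coefficient function dominated by the product law; rounding to a finite net.

Proof plan.
* `iva_mean_sum`: `Finsupp.sum` of a finite sum of `single`s for the additive `fun h c => c • π.π h` (`Finsupp.sum_finset_sum_index`/`Finsupp.sum_sum_index'`, `Finsupp.sum_single_index`);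
  then `∑ x : S.Pt` = triple sum: explicit equivalence `S.Pt ≃ ↥S0 × ↥S1 × ↥S2` (`x ↦ (x 0, x 1, x 2)`; inverse by `Fin.cases`/`match`), `Fintype.sum_prod_type`, `Finset.sum_coe_sort`;
  `S.p x = w0 (x 0) * w1 (x 1) * w2 (x 2)` by `Fin.prod_univ_three`.
* `iva_net`: grid `ε (u + i v)`, `|u|,|v| ≤ Q := ⌈M0/ε⌉ + 1`, filtered by `‖w‖ ≤ M0 + 2ε`;  `rd w = ε (⌊re w/ε⌋ + i ⌊im w/ε⌋)`.
* `iva_sampler`: `W c n l := rd (coef c n l / (w0 c w1 n w2 l))`;  `‖coef/(w0 w1 w2)‖ ≤ M0`;  the mean with the unrounded weight is EXACTLY the triple sum of `coef`;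
  the difference is `≤ ∑ w0 w1 w2 ε = ε` (`‖π g‖ ≤ 1`, `iva_rep_norm_le_one`).
-/
import Mathlib
import Claimed.Agent.R300.IvaOp

set_option autoImplicit false

namespace Claimed.Agent.R300

/-- the law `u / ∑_s u` on `s` -/
noncomputable def ivaLaw (s : Finset ℤ) (u : ℤ → ℝ) (hu : ∀ k, 0 < u k) (hs : s.Nonempty) : IvLaw where
  S := s
  w := fun k => u k / ∑ k' ∈ s, u k'
  nonneg := fun k => div_nonneg (hu k).le (Finset.sum_nonneg fun k' _ => (hu k').le)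
  sum_one := by
    rw [← Finset.sum_div]
    exact div_self (Finset.sum_pos (fun k' _ => hu k') hs).ne'

/-- sample points as triples -/
def ivaPtEquiv (S : IvSampler) :
    S.Pt ≃ ↥((S.law 0).S) × ↥((S.law 1).S) × ↥((S.law 2).S) where
  toFun x := (x 0, x 1, x 2)
  invFun y := fun s => match s with
    | 0 => y.1
    | 1 => y.2.1
    | 2 => y.2.2
  left_inv x := by
    funext s
    fin_cases s <;> rfl
  right_inv y := rfl

/-- forces the equation lemmas of the definitions to live in this file (RULES.md, rule 6) -/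
theorem iva_law_eqns : True := by
  have := @ivaLaw.eq_1
  have := @ivaLaw.eq_def
  have := @ivaPtEquiv.eq_1
  have := @ivaPtEquiv.eq_def
  trivial

theorem iva_sum_Pt {E : Type*} [AddCommMonoid E] (S : IvSampler) (F : ℤ → ℤ → ℤ → E) :
    ∑ x : S.Pt, F (x 0) (x 1) (x 2)
      = ∑ c ∈ (S.law 0).S, ∑ n ∈ (S.law 1).S, ∑ l ∈ (S.law 2).S, F c n l := by
  rw [Fintype.sum_equiv (ivaPtEquiv S) (fun x : S.Pt => F (x 0) (x 1) (x 2))
    (fun y => F y.1 y.2.1 y.2.2) (fun x => rfl), Fintype.sum_prod_type]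
  simp only [Fintype.sum_prod_type]
  rw [← Finset.sum_coe_sort (S.law 0).S]
  refine Finset.sum_congr rfl fun c _ => ?_
  rw [← Finset.sum_coe_sort (S.law 1).S]
  refine Finset.sum_congr rfl fun n _ => ?_
  rw [← Finset.sum_coe_sort (S.law 2).S]

theorem iva_mean_sum {H : Type*} [NormedAddCommGroup H] [InnerProductSpace ℂ H] [CompleteSpace H]
    (S : IvSampler) (π : InjRep H) :
    S.mean.sum (fun h c => c • π.π h) = ∑ c ∈ (S.law 0).S, ∑ n ∈ (S.law 1).S, ∑ l ∈ (S.law 2).S,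
      ((((S.law 0).w c * (S.law 1).w n * (S.law 2).w l : ℝ) : ℂ) * S.W c n l) • π.π (ivVol c n l) := by
  rw [IvSampler.mean, ← Finsupp.sum_finsetSum_index (h := fun h c => c • π.π h)
    (fun a => zero_smul _ _) (fun a b₁ b₂ => add_smul _ _ _)]
  rw [← iva_sum_Pt S (fun c n l =>
    ((((S.law 0).w c * (S.law 1).w n * (S.law 2).w l : ℝ) : ℂ) * S.W c n l) • π.π (ivVol c n l))]
  refine Finset.sum_congr rfl fun x _ => ?_
  rw [Finsupp.sum_single_index (h := fun h c => c • π.π h) (zero_smul _ _)]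
  simp only [IvSampler.p, IvSampler.wt, IvSampler.vol, Fin.prod_univ_three]

theorem iva_net (M0 ε : ℝ) (hM : 0 ≤ M0) (hε : 0 < ε) : ∃ (WW : Finset ℂ) (rd : ℂ → ℂ), (0 : ℂ) ∈ WW ∧
    (∀ w ∈ WW, ‖w‖ ≤ M0 + 2 * ε) ∧ ∀ w, ‖w‖ ≤ M0 → rd w ∈ WW ∧ ‖rd w - w‖ ≤ 2 * ε := by
  classical
  set Q : ℤ := ⌈M0 / ε⌉ + 1 with hQ
  have hQ0 : 0 ≤ Q := by
    have : 0 ≤ ⌈M0 / ε⌉ := Int.ceil_nonneg (by positivity)
    omega
  let gr : ℤ × ℤ → ℂ := fun uv => (ε : ℂ) * ((uv.1 : ℂ) + Complex.I * (uv.2 : ℂ))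
  let rd : ℂ → ℂ := fun w => gr (⌊w.re / ε⌋, ⌊w.im / ε⌋)
  refine ⟨((Finset.Icc (-Q) Q ×ˢ Finset.Icc (-Q) Q).image gr).filter (fun w => ‖w‖ ≤ M0 + 2 * ε),
    rd, ?_, ?_, ?_⟩
  · rw [Finset.mem_filter]
    refine ⟨Finset.mem_image.mpr ⟨(0, 0), ?_, by simp [gr]⟩, by simp; positivity⟩
    simp [hQ0]
  · intro w hw
    exact (Finset.mem_filter.mp hw).2
  · intro w hw
    have hfl : ∀ t : ℝ, |t| ≤ M0 → ⌊t / ε⌋ ∈ Finset.Icc (-Q) Q ∧ |ε * (⌊t / ε⌋ : ℝ) - t| ≤ ε := by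
      intro t ht
      have h1 := Int.floor_le (t / ε)
      have h2 := Int.lt_floor_add_one (t / ε)
      have hc := Int.le_ceil (M0 / ε)
      have ht' := abs_le.mp ht
      have hd1 : t / ε ≤ M0 / ε := div_le_div_of_nonneg_right ht'.2 hε.le
      have hd2 : -(M0 / ε) ≤ t / ε := by
        rw [← neg_div]; exact div_le_div_of_nonneg_right ht'.1 hε.le
      refine ⟨Finset.mem_Icc.mpr ⟨?_, ?_⟩, ?_⟩
      · have : (-(Q : ℝ)) ≤ (⌊t / ε⌋ : ℝ) := by
          rw [hQ]; push_cast; linarith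
        exact_mod_cast this
      · have : (⌊t / ε⌋ : ℝ) ≤ (Q : ℝ) := by
          rw [hQ]; push_cast; linarith
        exact_mod_cast this
      · have e : t = ε * (t / ε) := by field_simp
        rw [abs_le]
        constructor
        · nlinarith
        · nlinarith
    have hre := hfl w.re (le_trans (Complex.abs_re_le_norm w) hw)
    have him := hfl w.im (le_trans (Complex.abs_im_le_norm w) hw)
    have hdist : ‖rd w - w‖ ≤ 2 * ε := by
      have h := Complex.norm_le_abs_re_add_abs_im (rd w - w)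
      have e1 : (rd w - w).re = ε * (⌊w.re / ε⌋ : ℝ) - w.re := by
        simp [rd, gr]
      have e2 : (rd w - w).im = ε * (⌊w.im / ε⌋ : ℝ) - w.im := by
        simp [rd, gr]
      rw [e1, e2] at h
      linarith [hre.2, him.2]
    refine ⟨?_, hdist⟩
    rw [Finset.mem_filter]
    refine ⟨Finset.mem_image.mpr ⟨(⌊w.re / ε⌋, ⌊w.im / ε⌋),
      Finset.mem_product.mpr ⟨hre.1, him.1⟩, rfl⟩, ?_⟩
    have := norm_add_le (rd w - w) w
    rw [sub_add_cancel] at this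
    linarith

theorem iva_sampler (s : Fin 3 → Finset ℤ) (u : Fin 3 → ℤ → ℝ) (hu : ∀ t k, 0 < u t k)
    (hs : ∀ t, (s t).Nonempty) (coef : ℤ → ℤ → ℤ → ℂ) (M0 : ℝ)
    (hcoef : ∀ c n l, ‖coef c n l‖ ≤ M0 * ((u 0 c / ∑ k ∈ s 0, u 0 k) * (u 1 n / ∑ k ∈ s 1, u 1 k) *
      (u 2 l / ∑ k ∈ s 2, u 2 k)))
    (WW : Finset ℂ) (rd : ℂ → ℂ) (ε : ℝ) (hrd : ∀ w, ‖w‖ ≤ M0 → rd w ∈ WW ∧ ‖rd w - w‖ ≤ ε) :
    ∃ S : IvSampler, (∀ t, (S.law t).S = s t) ∧ (∀ t k, (S.law t).w k = u t k / ∑ k' ∈ s t, u t k') ∧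
      (∀ c n l, S.W c n l ∈ WW) ∧
      ∀ (H : Type) [NormedAddCommGroup H] [InnerProductSpace ℂ H] [CompleteSpace H] (π : InjRep H),
        ‖S.mean.sum (fun h c => c • π.π h)
          - ∑ c ∈ s 0, ∑ n ∈ s 1, ∑ l ∈ s 2, coef c n l • π.π (ivVol c n l)‖ ≤ ε := by
  set w : Fin 3 → ℤ → ℝ := fun t k => u t k / ∑ k' ∈ s t, u t k' with hw
  have hwpos : ∀ t k, 0 < w t k := fun t k =>
    div_pos (hu t k) (Finset.sum_pos (fun k' _ => hu t k') (hs t))
  have hwsum : ∀ t, ∑ k ∈ s t, w t k = 1 := fun t => (ivaLaw (s t) (u t) (hu t) (hs t)).sum_one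
  set P : ℤ → ℤ → ℤ → ℝ := fun c n l => w 0 c * w 1 n * w 2 l with hP
  have hPpos : ∀ c n l, 0 < P c n l := fun c n l =>
    mul_pos (mul_pos (hwpos 0 c) (hwpos 1 n)) (hwpos 2 l)
  have hq : ∀ c n l, ‖coef c n l / (P c n l : ℂ)‖ ≤ M0 := by
    intro c n l
    rw [norm_div, Complex.norm_real, Real.norm_of_nonneg (hPpos c n l).le,
      div_le_iff₀ (hPpos c n l)]
    exact hcoef c n l
  refine ⟨⟨fun t => ivaLaw (s t) (u t) (hu t) (hs t),
    fun c n l => rd (coef c n l / (P c n l : ℂ))⟩, fun t => rfl, fun t k => rfl,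
    fun c n l => (hrd _ (hq c n l)).1, ?_⟩
  intro H _ _ _ π
  rw [iva_mean_sum]
  show ‖∑ c ∈ s 0, ∑ n ∈ s 1, ∑ l ∈ s 2,
      (((P c n l : ℝ) : ℂ) * rd (coef c n l / (P c n l : ℂ))) • π.π (ivVol c n l)
      - ∑ c ∈ s 0, ∑ n ∈ s 1, ∑ l ∈ s 2, coef c n l • π.π (ivVol c n l)‖ ≤ ε
  simp only [← Finset.sum_sub_distrib, ← sub_smul]
  have hε : 0 ≤ ε := le_trans (norm_nonneg _) (hrd 0 (by
    rw [norm_zero]
    exact le_trans (norm_nonneg _) (hq 0 0 0))).2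
  have hterm : ∀ c n l, ‖(((P c n l : ℝ) : ℂ) * rd (coef c n l / (P c n l : ℂ)) - coef c n l) •
      π.π (ivVol c n l)‖ ≤ P c n l * ε := by
    intro c n l
    have hne : ((P c n l : ℝ) : ℂ) ≠ 0 := by exact_mod_cast (hPpos c n l).ne'
    have e : ((P c n l : ℝ) : ℂ) * rd (coef c n l / (P c n l : ℂ)) - coef c n l
        = ((P c n l : ℝ) : ℂ) * (rd (coef c n l / (P c n l : ℂ)) - coef c n l / (P c n l : ℂ)) := by
      field_simp
    rw [norm_smul, e, norm_mul, Complex.norm_real, Real.norm_of_nonneg (hPpos c n l).le]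
    calc P c n l * ‖rd (coef c n l / (P c n l : ℂ)) - coef c n l / (P c n l : ℂ)‖ *
          ‖π.π (ivVol c n l)‖
        ≤ P c n l * ε * 1 :=
          mul_le_mul (mul_le_mul_of_nonneg_left (hrd _ (hq c n l)).2 (hPpos c n l).le)
            (iva_rep_norm_le_one π _) (norm_nonneg _) (mul_nonneg (hPpos c n l).le hε)
      _ = P c n l * ε := mul_one _
  calc ‖∑ c ∈ s 0, ∑ n ∈ s 1, ∑ l ∈ s 2,
        (((P c n l : ℝ) : ℂ) * rd (coef c n l / (P c n l : ℂ)) - coef c n l) • π.π (ivVol c n l)‖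
      ≤ ∑ c ∈ s 0, ∑ n ∈ s 1, ∑ l ∈ s 2, P c n l * ε := by
        refine (norm_sum_le _ _).trans (Finset.sum_le_sum fun c _ => ?_)
        refine (norm_sum_le _ _).trans (Finset.sum_le_sum fun n _ => ?_)
        exact (norm_sum_le _ _).trans (Finset.sum_le_sum fun l _ => hterm c n l)
    _ = (∑ c ∈ s 0, w 0 c) * (∑ n ∈ s 1, w 1 n) * (∑ l ∈ s 2, w 2 l) * ε := by
        simp only [hP, ← Finset.sum_mul, ← Finset.mul_sum]
    _ = ε := by rw [hwsum, hwsum, hwsum]; ring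

end Claimed.Agent.R300
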