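/-
Row 300 / S0553, IV-A package (F) = IvaFour.  Sub-captain helper62.  Replace the sorries IN PLACE (owner: see table subtask, name IVA-FOUR).
Elementary sums of Cauchy weights, decay of Fourier transforms, truncation of Fourier series in sup norm.

Proof hints.
* KEY telescoping inequality, `L > 0`, `q ≥ 1` integer:  `U_L(q) = L/(L²+q²) ≤ 2L (1/(L+q-1) - 1/(L+q))`   because `(L+q-1)(L+q) ≤ (L+q)² ≤ 2(L²+q²)`.
  Hence `∑_{q=m+1}^{K} U_L(q) ≤ 2L/(L+m)`.  `m = 0`: `≤ 2`; with `U_L(0) = 1/L ≤ 1` and the symmetry `U_L(-q) = U_L(q)`: total `≤ 5`.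
  tail: all `|c| > ΛL`, `m = ⌊ΛL⌋`, `L + m ≥ ΛL` (as `L ≥ 1`): each side `≤ 2/Λ`.
  A finite set `s` is contained in `Icc (-K) K` for `K` large; the terms are nonnegative (`Finset.sum_le_sum_of_subset_of_nonneg`).
* `iva_sum_U_ge`: the `2L+1` terms with `|c| ≤ L` are `≥ L/(2L²)`.
* `iva_fourier_decay`: `A` is a Schwartz function (`HasCompactSupport.toSchwartzMap`), so is its Fourier transform
  (`SchwartzMap.fourierTransformCLM` / `𝓕`), use `SchwartzMap.decay` with `k = 0, 2`, `n = 0`.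
* `iva_trunc`: coefficients are summable (`summable_of_sum_le` with `iva_sum_U_le`), `hasSum_fourier_series_of_summable`; the partial sums over `s' ⊇ s` differ from
  the one over `s` by at most `C ∑_{s' \ s} U_L ≤ 4C/Λ` (`‖fourier c‖ = 1`); pass to the limit (`le_of_tendsto`, `HasSum` = `Tendsto` along `atTop`).
-/
import Mathlib
import Claimed.Agent.R300.IvaDefs

set_option autoImplicit false

namespace Claimed.Agent.R300

open scoped FourierTransform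

theorem ivaU_nonneg {L : ℝ} (hL : 0 ≤ L) (c : ℤ) : 0 ≤ ivaU L c := by
  unfold ivaU; positivity

theorem ivaU_pos {L : ℝ} (hL : 0 < L) (c : ℤ) : 0 < ivaU L c := by
  unfold ivaU; positivity

theorem ivaU_le_inv {L : ℝ} (hL : 0 < L) (c : ℤ) : ivaU L c ≤ 1 / L := by
  unfold ivaU
  rw [div_le_div_iff₀ (by positivity) hL]
  nlinarith [sq_nonneg (c : ℝ)]

theorem ivaU_natAbs (L : ℝ) (c : ℤ) : ivaU L c = ivaU L ((c.natAbs : ℕ) : ℤ) := by
  unfold ivaU
  congr 2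
  rw [Int.natCast_natAbs, Int.cast_abs, sq_abs]

/-- telescoping bound -/
theorem ivaU_tele {L : ℝ} (hL : 0 < L) (m : ℕ) (K : ℕ) (hmK : m ≤ K) :
    ∑ q ∈ Finset.Ioc m K, ivaU L ((q : ℕ) : ℤ) ≤ 2 * L * (1 / (L + m) - 1 / (L + K)) := by
  induction K, hmK using Nat.le_induction with
  | base => simp
  | succ K hK ih =>
    rw [Finset.sum_Ioc_succ_top hK]
    have key : ivaU L ((K + 1 : ℕ) : ℤ) ≤ 2 * L * (1 / (L + K) - 1 / (L + (K + 1 : ℕ))) := by
      unfold ivaU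
      have hK0 : (0 : ℝ) ≤ K := Nat.cast_nonneg K
      have h1 : (0 : ℝ) < L + K := by positivity
      have h2 : (0 : ℝ) < L + (K + 1 : ℕ) := by positivity
      have e : 2 * L * (1 / (L + K) - 1 / (L + (K + 1 : ℕ))) = 2 * L / ((L + K) * (L + (K + 1 : ℕ))) := by
        push_cast
        push_cast at h2
        field_simp
        ring
      rw [e, div_le_div_iff₀ (by positivity) (by positivity)]
      push_cast
      have : (L + K) * (L + (K + 1)) ≤ 2 * (L ^ 2 + ((K : ℝ) + 1) ^ 2) := by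
        nlinarith [sq_nonneg (L - (K + 1)), hL.le, hK0]
      nlinarith [mul_le_mul_of_nonneg_left this hL.le]
    linarith

theorem ivaU_tele' {L : ℝ} (hL : 0 < L) (m : ℕ) (K : ℕ) :
    ∑ q ∈ Finset.Ioc m K, ivaU L ((q : ℕ) : ℤ) ≤ 2 * L / (L + m) := by
  rcases le_total m K with h | h
  · have := ivaU_tele hL m K h
    have h2 : 0 ≤ 2 * L * (1 / (L + K)) := by positivity
    have e : 2 * L / (L + m) = 2 * L * (1 / (L + m)) := by ring
    rw [e]
    nlinarith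
  · rw [Finset.Ioc_eq_empty_of_le h, Finset.sum_empty]
    positivity

/-- sums over finite sets of integers of absolute value `> m` -/
theorem ivaU_sum_gt {L : ℝ} (hL : 0 < L) (m : ℕ) (t : Finset ℤ) (ht : ∀ c ∈ t, m < c.natAbs) :
    ∑ c ∈ t, ivaU L c ≤ 4 * L / (L + m) := by
  classical
  obtain ⟨K, hK⟩ : ∃ K : ℕ, ∀ c ∈ t, c.natAbs ≤ K :=
    ⟨t.sup Int.natAbs, fun c hc => Finset.le_sup (f := Int.natAbs) hc⟩
  have hsub : t ⊆ (Finset.Ioc m K).image (fun q : ℕ => (q : ℤ)) ∪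
      (Finset.Ioc m K).image (fun q : ℕ => -(q : ℤ)) := by
    intro c hc
    rw [Finset.mem_union, Finset.mem_image, Finset.mem_image]
    rcases Int.natAbs_eq c with h | h
    · exact Or.inl ⟨c.natAbs, Finset.mem_Ioc.2 ⟨ht c hc, hK c hc⟩, h.symm⟩
    · exact Or.inr ⟨c.natAbs, Finset.mem_Ioc.2 ⟨ht c hc, hK c hc⟩, h.symm⟩
  have h1 : ∑ c ∈ (Finset.Ioc m K).image (fun q : ℕ => (q : ℤ)), ivaU L c
      = ∑ q ∈ Finset.Ioc m K, ivaU L ((q : ℕ) : ℤ) :=
    Finset.sum_image (fun a _ b _ h => by exact_mod_cast h)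
  have h2 : ∑ c ∈ (Finset.Ioc m K).image (fun q : ℕ => -(q : ℤ)), ivaU L c
      = ∑ q ∈ Finset.Ioc m K, ivaU L ((q : ℕ) : ℤ) := by
    rw [Finset.sum_image (fun a _ b _ h => by simpa using h)]
    refine Finset.sum_congr rfl fun q _ => ?_
    rw [ivaU_natAbs L (-(q : ℤ))]
    simp
  calc ∑ c ∈ t, ivaU L c
      ≤ ∑ c ∈ (Finset.Ioc m K).image (fun q : ℕ => (q : ℤ)) ∪
          (Finset.Ioc m K).image (fun q : ℕ => -(q : ℤ)), ivaU L c :=
        Finset.sum_le_sum_of_subset_of_nonneg hsub fun c _ _ => ivaU_nonneg hL.le c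
    _ ≤ ∑ c ∈ (Finset.Ioc m K).image (fun q : ℕ => (q : ℤ)), ivaU L c +
          ∑ c ∈ (Finset.Ioc m K).image (fun q : ℕ => -(q : ℤ)), ivaU L c := by
        rw [← Finset.sum_union_inter]
        exact le_add_of_nonneg_right (Finset.sum_nonneg fun c _ => ivaU_nonneg hL.le c)
    _ ≤ 2 * L / (L + m) + 2 * L / (L + m) := by
        rw [h1, h2]
        exact add_le_add (ivaU_tele' hL m K) (ivaU_tele' hL m K)
    _ = 4 * L / (L + m) := by ring

theorem iva_sum_U_le {L : ℝ} (hL : 1 ≤ L) (s : Finset ℤ) : ∑ c ∈ s, ivaU L c ≤ 5 := by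
  classical
  have hL0 : 0 < L := by linarith
  have h1 : ∑ c ∈ s.filter (fun c => c ≠ 0), ivaU L c ≤ 4 := by
    have := ivaU_sum_gt hL0 0 (s.filter (fun c => c ≠ 0)) (fun c hc => by
      have := (Finset.mem_filter.1 hc).2
      exact Int.natAbs_pos.2 this)
    have e : 4 * L / (L + (0 : ℕ)) = 4 := by
      rw [Nat.cast_zero, add_zero]; field_simp
    rwa [e] at this
  have h2 : ∑ c ∈ s.filter (fun c => ¬ c ≠ 0), ivaU L c ≤ 1 := by
    have hsub : s.filter (fun c => ¬ c ≠ 0) ⊆ {0} := by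
      intro c hc
      have := (Finset.mem_filter.1 hc).2
      rw [Finset.mem_singleton]
      exact not_not.1 this
    refine (Finset.sum_le_sum_of_subset_of_nonneg hsub fun c _ _ => ivaU_nonneg hL0.le c).trans ?_
    rw [Finset.sum_singleton]
    refine (ivaU_le_inv hL0 0).trans ?_
    rw [div_le_one hL0]; exact hL
  rw [← Finset.sum_filter_add_sum_filter_not s (fun c => c ≠ 0)]
  linarith

theorem iva_sum_U_tail {L : ℝ} (hL : 1 ≤ L) {Λ : ℝ} (hΛ : 0 < Λ) (s : Finset ℤ)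
    (hs : ∀ c ∈ s, Λ * L < |(c : ℝ)|) : ∑ c ∈ s, ivaU L c ≤ 4 / Λ := by
  have hL0 : 0 < L := by linarith
  have hΛL : 0 < Λ * L := by positivity
  have h := ivaU_sum_gt hL0 ⌊Λ * L⌋₊ s (fun c hc => by
    have h1 := hs c hc
    have h2 : |(c : ℝ)| = (c.natAbs : ℝ) := by
      rw [Nat.cast_natAbs, Int.cast_abs]
    rw [h2] at h1
    exact (Nat.floor_lt hΛL.le).2 h1)
  refine h.trans ?_
  have h3 : Λ * L < ⌊Λ * L⌋₊ + 1 := Nat.lt_floor_add_one _
  have h4 : (0 : ℝ) ≤ ⌊Λ * L⌋₊ := Nat.cast_nonneg _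
  rw [div_le_div_iff₀ (by positivity) hΛ]
  nlinarith

theorem iva_sum_U_ge {L K : ℕ} (hL : 1 ≤ L) (hK : L ≤ K) : 1 ≤ ∑ c ∈ ivaBox K, ivaU L c := by
  have hL0 : (0 : ℝ) < L := by exact_mod_cast hL
  have hsub : ivaBox L ⊆ ivaBox K := by
    unfold ivaBox
    apply Finset.Icc_subset_Icc <;> omega
  refine le_trans ?_ (Finset.sum_le_sum_of_subset_of_nonneg hsub fun c _ _ => ivaU_nonneg hL0.le c)
  have hterm : ∀ c ∈ ivaBox L, 1 / (2 * (L : ℝ)) ≤ ivaU L c := by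
    intro c hc
    unfold ivaBox at hc
    rw [Finset.mem_Icc] at hc
    have h1 : (c : ℝ) ^ 2 ≤ (L : ℝ) ^ 2 := by
      apply sq_le_sq'
      · exact_mod_cast hc.1
      · exact_mod_cast hc.2
    unfold ivaU
    rw [div_le_div_iff₀ (by positivity) (by positivity)]
    nlinarith
  have h := Finset.card_nsmul_le_sum (ivaBox L) (fun c => ivaU L c) _ hterm
  refine le_trans ?_ h
  have hcard : (ivaBox L).card = 2 * L + 1 := by
    unfold ivaBox
    rw [Int.card_Icc]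
    omega
  rw [hcard, nsmul_eq_mul]
  push_cast
  rw [mul_one_div, le_div_iff₀ (by positivity)]
  linarith

theorem iva_hasCompactSupport (A : C(ℝ, ℂ)) {R : ℝ} (hs : InjSupp R A) :
    HasCompactSupport (A : ℝ → ℂ) := by
  refine HasCompactSupport.intro (isCompact_Icc (a := -R) (b := R)) fun x hx => ?_
  apply hs
  by_contra h
  exact hx (abs_le.1 (not_lt.1 h))

theorem iva_fourier_decay (A : C(ℝ, ℂ)) (hA : ∀ m : ℕ, ContDiff ℝ m A) {R : ℝ} (hs : InjSupp R A) :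
    ∃ C : ℝ, 0 ≤ C ∧ ∀ u : ℝ, ‖𝓕 (A : ℝ → ℂ) u‖ ≤ C / (1 + u ^ 2) := by
  have hsm : ContDiff ℝ (⊤ : ℕ∞) (A : ℝ → ℂ) := contDiff_infty.2 hA
  set f : SchwartzMap ℝ ℂ := (iva_hasCompactSupport A hs).toSchwartzMap hsm with hf
  have hfc : ((𝓕 f : SchwartzMap ℝ ℂ) : ℝ → ℂ) = 𝓕 (A : ℝ → ℂ) := SchwartzMap.fourier_coe f
  obtain ⟨C0, hC0, h0⟩ := (𝓕 f : SchwartzMap ℝ ℂ).decay 0 0
  obtain ⟨C2, hC2, h2⟩ := (𝓕 f : SchwartzMap ℝ ℂ).decay 2 0
  refine ⟨C0 + C2, by positivity, fun u => ?_⟩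
  have a0 := h0 u
  have a2 := h2 u
  rw [norm_iteratedFDeriv_zero, hfc] at a0 a2
  rw [le_div_iff₀ (by positivity)]
  rw [pow_zero, one_mul] at a0
  rw [Real.norm_eq_abs, sq_abs] at a2
  nlinarith

theorem iva_bdd (A : C(ℝ, ℂ)) {R : ℝ} (hs : InjSupp R A) : ∃ C : ℝ, 0 ≤ C ∧ ∀ x : ℝ, ‖A x‖ ≤ C := by
  obtain ⟨C, hC⟩ := (isCompact_Icc (a := -R) (b := R)).exists_bound_of_continuousOn
    A.continuous.continuousOn
  refine ⟨max C 0, le_max_right _ _, fun x => ?_⟩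
  by_cases hx : |x| ≤ R
  · exact (hC x (abs_le.1 hx)).trans (le_max_left _ _)
  · rw [hs x (not_le.1 hx), norm_zero]
    exact le_max_right _ _

theorem iva_coeff_le {A : C(ℝ, ℂ)} {R C : ℝ} (hs : InjSupp R A) (hR : 0 ≤ R)
    (hC : ∀ u : ℝ, ‖𝓕 (A : ℝ → ℂ) u‖ ≤ C / (1 + u ^ 2)) {a L : ℝ} (hL : 2 * R < L) (m : ℤ) :
    ‖fourierCoeff (injLoc A a L) m‖ ≤ C * ivaU L m := by
  have hL0 : 0 < L := by linarith
  rw [injLoc_fourierCoeff hs hR hL m, norm_mul, norm_mul]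
  have h1 : ‖Complex.exp (-2 * Real.pi * Complex.I * m * a)‖ = 1 := by
    have : (-2 * Real.pi * Complex.I * m * a : ℂ) = ((-2 * Real.pi * m * a : ℝ) : ℂ) * Complex.I := by
      push_cast; ring
    rw [this, Complex.norm_exp_ofReal_mul_I]
  rw [h1, mul_one, Complex.norm_real, Real.norm_eq_abs, abs_of_pos (by positivity)]
  have h2 := hC (m / L)
  have e : C * ivaU L m = 1 / L * (C / (1 + ((m : ℝ) / L) ^ 2)) := by
    unfold ivaU
    field_simp
  rw [e]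
  exact mul_le_mul_of_nonneg_left h2 (by positivity)

/-- truncation of the Fourier series in sup norm -/
theorem iva_trunc (f : C(InjT, ℂ)) {C L : ℝ} (hC : 0 ≤ C) (hL : 1 ≤ L)
    (hf : ∀ m : ℤ, ‖fourierCoeff f m‖ ≤ C * ivaU L m) {Λ : ℝ} (hΛ : 0 < Λ) (s : Finset ℤ)
    (hs : ∀ c : ℤ, |(c : ℝ)| ≤ Λ * L → c ∈ s) :
    ‖f - ∑ c ∈ s, fourierCoeff f c • (fourier c : C(InjT, ℂ))‖ ≤ C * (4 / Λ) := by
  classical
  have hL0 : 0 < L := by linarith
  have hsumU : Summable (fun c : ℤ => ivaU L c) :=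
    summable_of_sum_le (fun c => ivaU_nonneg hL0.le c) (fun u => iva_sum_U_le hL u)
  have hsum : Summable (fourierCoeff f) :=
    Summable.of_norm_bounded (hsumU.mul_left C) hf
  have hS := hasSum_fourier_series_of_summable hsum
  have hT : Filter.Tendsto (fun t : Finset ℤ =>
      ‖∑ c ∈ t, fourierCoeff f c • (fourier c : C(InjT, ℂ))
        - ∑ c ∈ s, fourierCoeff f c • (fourier c : C(InjT, ℂ))‖) Filter.atTop
      (nhds ‖f - ∑ c ∈ s, fourierCoeff f c • (fourier c : C(InjT, ℂ))‖) :=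
    (Filter.Tendsto.sub_const hS _).norm
  refine le_of_tendsto hT ?_
  filter_upwards [Filter.eventually_ge_atTop s] with t ht
  rw [← Finset.sum_sdiff ht, add_sub_cancel_right]
  calc ‖∑ c ∈ t \ s, fourierCoeff f c • (fourier c : C(InjT, ℂ))‖
      ≤ ∑ c ∈ t \ s, ‖fourierCoeff f c • (fourier c : C(InjT, ℂ))‖ := norm_sum_le _ _
    _ ≤ ∑ c ∈ t \ s, C * ivaU L c := by
        refine Finset.sum_le_sum fun c _ => ?_
        rw [norm_smul, fourier_norm, mul_one]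
        exact hf c
    _ = C * ∑ c ∈ t \ s, ivaU L c := by rw [Finset.mul_sum]
    _ ≤ C * (4 / Λ) := by
        refine mul_le_mul_of_nonneg_left (iva_sum_U_tail hL hΛ _ fun c hc => ?_) hC
        by_contra h
        exact (Finset.mem_sdiff.1 hc).2 (hs c (not_lt.1 h))

end Claimed.Agent.R300
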