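/-
Row 300 / S0553, IV-A package (P) = IvaPack.  Sub-captain helper62.  All statements proved (helper127).
Golden mean packing:  `∑_{n∈s} U_N(n) D_J(n) ≤ 1000/J` for EVERY finite set `s ⊆ ℤ`, `1 ≤ J ≤ N`.

Proof plan.
 (P1) separation: `n ≠ n'`, `|n - n'| ≤ M`  ==>  `1/(3M) ≤ |x_n - x_n'|`      (`x_n - x_n' = (n-n') α - integer`, `inj_golden`).
 (P2) so `n ↦ q_n := ⌊3 M x_n⌋` is injective on a set of diameter `≤ M`; `|x_n| ≥ (|q_n| - 1)/(3M)`.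
 (P3) `ρ := 3M/J ≥ 3`:  `D_J(n) ≤ 2ρ²/(ρ²+q_n²) = 2ρ U_ρ(q_n)`      [`q² ≤ ρ² + 2 (|q|-1)²` for `|q| ≥ 1`: `(|q|-2)² - 2 + ρ² ≥ 0`].
      Hence `∑_{n∈t} D_J(n) ≤ 2ρ ∑_{q ∈ image} U_ρ(q) ≤ 10 ρ = 30 M/J`   (`Finset.sum_image`, `iva_sum_U_le`)   = `iva_block`.
 (P4) blocks `m = n / N` (`Int.ediv`, floor): `n, n'` in one block have `|n-n'| ≤ N`;  `U_N(n) ≤ (3/N) U_1(m)`     [`1+x² ≥ (1+m²)/3` for `m ≤ x < m+1`].
      `∑_{n∈s} U_N(n) D_J(n) ≤ ∑_{m ∈ s.image (·/N)} (3/N) U_1(m) ∑_{n∈s, n/N=m} D_J(n) ≤ (90/J) ∑_m U_1(m) ≤ 450/J`   (`Finset.sum_fiberwise_of_maps_to`).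
      tail: `|n| > ΛN` gives `|m| ≥ Λ > Λ/2`, `iva_sum_U_tail` with `L = 1`: `≤ (90/J)(8/Λ)`.
-/
import Mathlib
import Claimed.Agent.R300.IvaFour
import Claimed.Agent.R300.IvaSum

set_option autoImplicit false

namespace Claimed.Agent.R300

theorem ivaX_abs_le (n : ℤ) : |ivaX n| ≤ 1 / 2 := abs_sub_round _

/-- (P1) separation -/
theorem ivaX_sep {M : ℕ} {n n' : ℤ} (hne : n ≠ n') (h : |n - n'| ≤ (M : ℤ)) :
    1 / (3 * (M : ℝ)) ≤ |ivaX n - ivaX n'| := by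
  have h0 : n - n' ≠ 0 := sub_ne_zero.mpr hne
  have hg := inj_golden (n - n') (round ((n : ℝ) * injAlpha) - round ((n' : ℝ) * injAlpha)) h0
  have e : ((n - n' : ℤ) : ℝ) * injAlpha
      - ((round ((n : ℝ) * injAlpha) - round ((n' : ℝ) * injAlpha) : ℤ) : ℝ)
      = ivaX n - ivaX n' := by
    unfold ivaX; push_cast; ring
  rw [e] at hg
  refine le_trans ?_ hg
  have hpos : 0 < |((n - n' : ℤ) : ℝ)| := abs_pos.mpr (by exact_mod_cast h0)
  have hle : |((n - n' : ℤ) : ℝ)| ≤ M := by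
    have : ((|n - n'| : ℤ) : ℝ) ≤ ((M : ℤ) : ℝ) := by exact_mod_cast h
    simpa using this
  exact one_div_le_one_div_of_le (by positivity) (by linarith)

/-- (P2) `n ↦ ⌊3 M x_n⌋` is injective on sets of diameter `≤ M` -/
theorem ivaX_floor_injOn {M : ℕ} (hM : 1 ≤ M) (t : Finset ℤ)
    (ht : ∀ n ∈ t, ∀ n' ∈ t, |n - n'| ≤ (M : ℤ)) :
    Set.InjOn (fun n : ℤ => ⌊3 * (M : ℝ) * ivaX n⌋) (t : Set ℤ) := by
  intro n hn n' hn' hq
  by_contra hne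
  have hsep := ivaX_sep hne (ht n hn n' hn')
  have hlt := Int.abs_sub_lt_one_of_floor_eq_floor hq
  have hMpos : (0 : ℝ) < M := by exact_mod_cast hM
  have e : 3 * (M : ℝ) * ivaX n - 3 * (M : ℝ) * ivaX n' = 3 * (M : ℝ) * (ivaX n - ivaX n') := by ring
  rw [e, abs_mul, abs_of_pos (by positivity : (0 : ℝ) < 3 * M)] at hlt
  rw [div_le_iff₀ (by positivity)] at hsep
  linarith

theorem iva_floor_sq_le (y : ℝ) : ((⌊y⌋ : ℤ) : ℝ) ^ 2 ≤ 9 + 2 * y ^ 2 := by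
  have h1 := Int.floor_le y
  have h2 := Int.lt_floor_add_one y
  rcases le_or_gt 0 ⌊y⌋ with h | h
  · have h' : (0 : ℝ) ≤ (⌊y⌋ : ℤ) := by exact_mod_cast h
    nlinarith
  · have h' : ((⌊y⌋ : ℤ) : ℝ) ≤ -1 := by
      have : ⌊y⌋ ≤ -1 := by omega
      exact_mod_cast this
    nlinarith [sq_nonneg (((⌊y⌋ : ℤ) : ℝ) + 2)]

/-- (P3) -/
theorem ivaD_le_U {J M : ℕ} (hJ : 1 ≤ J) (hJM : J ≤ M) (n : ℤ) :
    ivaD J n ≤ 2 * (3 * (M : ℝ) / J) * ivaU (3 * (M : ℝ) / J) ⌊3 * (M : ℝ) * ivaX n⌋ := by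
  have hJpos : (0 : ℝ) < J := by exact_mod_cast hJ
  have hJM' : (J : ℝ) ≤ M := by exact_mod_cast hJM
  have hMpos : (0 : ℝ) < M := lt_of_lt_of_le hJpos hJM'
  set ρ : ℝ := 3 * (M : ℝ) / J with hρ
  have hρ3 : 3 ≤ ρ := by
    rw [hρ, le_div_iff₀ hJpos]; linarith
  have hy : 3 * (M : ℝ) * ivaX n = ρ * (J * ivaX n) := by
    rw [hρ]; field_simp
  have hk := iva_floor_sq_le (3 * (M : ℝ) * ivaX n)
  set q : ℝ := ((⌊3 * (M : ℝ) * ivaX n⌋ : ℤ) : ℝ) with hq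
  unfold ivaD ivaU
  rw [← hq, mul_div_assoc', div_le_div_iff₀ (by positivity) (by positivity)]
  rw [hy] at hk
  nlinarith

/-- one block -/
theorem iva_block {J M : ℕ} (hJ : 1 ≤ J) (hJM : J ≤ M) (t : Finset ℤ)
    (ht : ∀ n ∈ t, ∀ n' ∈ t, |n - n'| ≤ (M : ℤ)) : ∑ n ∈ t, ivaD J n ≤ 30 * M / J := by
  have hJpos : (0 : ℝ) < J := by exact_mod_cast hJ
  have hJM' : (J : ℝ) ≤ M := by exact_mod_cast hJM
  have hρ1 : (1 : ℝ) ≤ 3 * (M : ℝ) / J := by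
    rw [le_div_iff₀ hJpos]; linarith
  calc ∑ n ∈ t, ivaD J n
      ≤ ∑ n ∈ t, 2 * (3 * (M : ℝ) / J) * ivaU (3 * (M : ℝ) / J) ⌊3 * (M : ℝ) * ivaX n⌋ :=
        Finset.sum_le_sum fun n _ => ivaD_le_U hJ hJM n
    _ = 2 * (3 * (M : ℝ) / J) *
          ∑ c ∈ t.image (fun n : ℤ => ⌊3 * (M : ℝ) * ivaX n⌋), ivaU (3 * (M : ℝ) / J) c := by
        rw [Finset.sum_image (ivaX_floor_injOn (le_trans hJ hJM) t ht), Finset.mul_sum]
    _ ≤ 2 * (3 * (M : ℝ) / J) * 5 :=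
        mul_le_mul_of_nonneg_left (iva_sum_U_le hρ1 _) (by positivity)
    _ = 30 * M / J := by ring

/-- (P4) -/
theorem ivaU_block {N : ℕ} (hN : 1 ≤ N) (n : ℤ) :
    ivaU N n ≤ 3 / N * ivaU 1 (n / (N : ℤ)) := by
  have hNpos : (0 : ℝ) < N := by exact_mod_cast hN
  have hNz : (0 : ℤ) < (N : ℤ) := by exact_mod_cast hN
  have h1 : (((n / (N : ℤ) : ℤ)) : ℝ) * N ≤ n := by
    have := Int.ediv_mul_le n hNz.ne'
    exact_mod_cast this
  have h2 : (n : ℝ) < ((((n / (N : ℤ) : ℤ)) : ℝ) + 1) * N := by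
    have := Int.lt_ediv_add_one_mul_self n hNz
    exact_mod_cast this
  set m : ℤ := n / (N : ℤ) with hm
  unfold ivaU
  rw [div_mul_div_comm, div_le_div_iff₀ (by positivity) (by positivity)]
  set a : ℝ := (m : ℝ) * N with ha
  have key : (N : ℝ) ^ 2 + a ^ 2 ≤ 3 * ((N : ℝ) ^ 2 + (n : ℝ) ^ 2) := by
    rcases le_or_gt 0 m with h | h
    · have h' : (0 : ℝ) ≤ a := by
        have : (0 : ℝ) ≤ (m : ℝ) := by exact_mod_cast h
        positivity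
      nlinarith
    · have h' : a + N ≤ 0 := by
        have : (m : ℝ) ≤ -1 := by
          have : m ≤ -1 := by omega
          exact_mod_cast this
        rw [ha]; nlinarith
      have h3 : (n : ℝ) < a + N := by rw [ha]; linarith
      nlinarith [sq_nonneg (2 * a + 3 * N)]
  have e : (N : ℝ) * ((N : ℝ) * (1 ^ 2 + (m : ℝ) ^ 2)) = (N : ℝ) ^ 2 + a ^ 2 := by rw [ha]; ring
  rw [e]
  linarith

theorem iva_pack_aux {J N : ℕ} (hJ : 1 ≤ J) (hJN : J ≤ N) (s : Finset ℤ) :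
    ∑ n ∈ s, ivaU N n * ivaD J n ≤ 90 / J * ∑ m ∈ s.image (fun n : ℤ => n / (N : ℤ)), ivaU 1 m := by
  have hN : 1 ≤ N := le_trans hJ hJN
  have hJpos : (0 : ℝ) < J := by exact_mod_cast hJ
  have hNpos : (0 : ℝ) < N := by exact_mod_cast hN
  have hNz : (0 : ℤ) < (N : ℤ) := by exact_mod_cast hN
  rw [← Finset.sum_fiberwise_of_maps_to (g := fun n : ℤ => n / (N : ℤ))
    (fun n hn => Finset.mem_image_of_mem _ hn), Finset.mul_sum]
  refine Finset.sum_le_sum fun m _ => ?_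
  have hblock : ∑ n ∈ s with n / (N : ℤ) = m, ivaD J n ≤ 30 * N / J := by
    refine iva_block hJ hJN _ ?_
    intro n hn n' hn'
    have e1 := (Finset.mem_filter.mp hn).2
    have e2 := (Finset.mem_filter.mp hn').2
    have a1 := Int.ediv_mul_le n hNz.ne'
    have a2 := Int.lt_ediv_add_one_mul_self n hNz
    have b1 := Int.ediv_mul_le n' hNz.ne'
    have b2 := Int.lt_ediv_add_one_mul_self n' hNz
    rw [e1] at a1 a2
    rw [e2] at b1 b2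
    rw [add_mul, one_mul] at a2 b2
    rw [abs_le]
    constructor <;> linarith
  calc ∑ n ∈ s with n / (N : ℤ) = m, ivaU N n * ivaD J n
      ≤ ∑ n ∈ s with n / (N : ℤ) = m, 3 / N * ivaU 1 m * ivaD J n := by
        refine Finset.sum_le_sum fun n hn => ?_
        have e1 := (Finset.mem_filter.mp hn).2
        have := ivaU_block hN n
        rw [e1] at this
        exact mul_le_mul_of_nonneg_right this (ivaD_pos _ _).le
    _ = 3 / N * ivaU 1 m * ∑ n ∈ s with n / (N : ℤ) = m, ivaD J n := by rw [Finset.mul_sum]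
    _ ≤ 3 / N * ivaU 1 m * (30 * N / J) :=
        mul_le_mul_of_nonneg_left hblock
          (mul_nonneg (by positivity) (ivaU_nonneg zero_le_one m))
    _ = 90 / J * ivaU 1 m := by field_simp; ring

theorem iva_pack {J N : ℕ} (hJ : 1 ≤ J) (hJN : J ≤ N) (s : Finset ℤ) :
    ∑ n ∈ s, ivaU N n * ivaD J n ≤ 1000 / J := by
  have hJpos : (0 : ℝ) < J := by exact_mod_cast hJ
  calc ∑ n ∈ s, ivaU N n * ivaD J n
      ≤ 90 / J * ∑ m ∈ s.image (fun n : ℤ => n / (N : ℤ)), ivaU 1 m := iva_pack_aux hJ hJN s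
    _ ≤ 90 / J * 5 := mul_le_mul_of_nonneg_left (iva_sum_U_le le_rfl _) (by positivity)
    _ ≤ 1000 / J := by
        rw [div_mul_eq_mul_div]
        exact div_le_div_of_nonneg_right (by norm_num) hJpos.le

theorem iva_pack_tail {J N : ℕ} (hJ : 1 ≤ J) (hJN : J ≤ N) {Λ : ℕ} (hΛ : 1 ≤ Λ) (s : Finset ℤ)
    (hs : ∀ n ∈ s, ((Λ * N : ℕ) : ℤ) < |n|) : ∑ n ∈ s, ivaU N n * ivaD J n ≤ 1000 / (Λ * J) := by
  have hN : 1 ≤ N := le_trans hJ hJN
  have hJpos : (0 : ℝ) < J := by exact_mod_cast hJ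
  have hΛpos : (0 : ℝ) < Λ := by exact_mod_cast hΛ
  have hNz : (0 : ℤ) < (N : ℤ) := by exact_mod_cast hN
  have htail : ∑ m ∈ s.image (fun n : ℤ => n / (N : ℤ)), ivaU 1 m ≤ 4 / ((Λ : ℝ) / 2) := by
    refine iva_sum_U_tail le_rfl (by positivity) _ ?_
    intro c hc
    obtain ⟨n, hn, rfl⟩ := Finset.mem_image.mp hc
    have h := hs n hn
    have hm : (Λ : ℤ) ≤ |n / (N : ℤ)| := by
      push_cast at h
      rcases le_or_gt 0 n with h0 | h0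
      · rw [abs_of_nonneg h0] at h
        have : (Λ : ℤ) ≤ n / (N : ℤ) := by
          rw [Int.le_ediv_iff_mul_le hNz]; exact h.le
        exact le_trans this (le_abs_self _)
      · rw [abs_of_neg h0] at h
        have : n / (N : ℤ) < -(Λ : ℤ) := by
          rw [Int.ediv_lt_iff_lt_mul hNz]; linarith
        have h2 := neg_le_abs (n / (N : ℤ))
        linarith
    have hm' : (Λ : ℝ) ≤ |((n / (N : ℤ) : ℤ) : ℝ)| := by
      have : ((Λ : ℤ) : ℝ) ≤ ((|n / (N : ℤ)| : ℤ) : ℝ) := by exact_mod_cast hm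
      simpa using this
    linarith
  calc ∑ n ∈ s, ivaU N n * ivaD J n
      ≤ 90 / J * ∑ m ∈ s.image (fun n : ℤ => n / (N : ℤ)), ivaU 1 m := iva_pack_aux hJ hJN s
    _ ≤ 90 / J * (4 / ((Λ : ℝ) / 2)) := mul_le_mul_of_nonneg_left htail (by positivity)
    _ = 720 / (Λ * J) := by field_simp; ring
    _ ≤ 1000 / (Λ * J) := div_le_div_of_nonneg_right (by norm_num) (by positivity)

end Claimed.Agent.R300
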