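/-
Row 300 / S0553, IV-A: the sampler at one scale (helper62).  No own sorry: `iva_scale` is PROVED from the statements of IvaFour, IvaSum, IvaPack, IvaOp, IvaLaw.
Parameters: naturals `Zn, Nn, Ji, Jk, Λ`; weights `ivaW`, boxes `ivaB`; error = rounding + `E/Λ` + freezing term.
-/
import Mathlib
import Claimed.Agent.R300.IvaPack
import Claimed.Agent.R300.IvaLaw

set_option autoImplicit false

namespace Claimed.Agent.R300

open scoped FourierTransform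

theorem ivaBox_mem {K : ℕ} {c : ℤ} : c ∈ ivaBox K ↔ |c| ≤ (K : ℤ) := by
  rw [ivaBox, Finset.mem_Icc, abs_le]

theorem ivaL_mem {Ji Jk : ℕ} {c : ℤ} : c ∈ ivaL Ji Jk ↔ |c| ≤ ((Ji + Jk : ℕ) : ℤ) := by
  rw [ivaL, Finset.mem_Icc, abs_le]

theorem ivaBox_nonempty (K : ℕ) : (ivaBox K).Nonempty := ⟨0, by rw [ivaBox_mem]; simp⟩

theorem ivaL_nonempty (Ji Jk : ℕ) : (ivaL Ji Jk).Nonempty :=
  ⟨0, by rw [ivaL_mem, abs_zero]; exact Int.natCast_nonneg _⟩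

theorem ivaL_card (Ji Jk : ℕ) : ((ivaL Ji Jk).card : ℝ) = 2 * (Ji + Jk) + 1 := by
  rw [ivaL, Int.card_Icc]
  have : ((Ji + Jk : ℕ) : ℤ) + 1 - -((Ji + Jk : ℕ) : ℤ) = ((2 * (Ji + Jk) + 1 : ℕ) : ℤ) := by
    push_cast; ring
  rw [this, Int.toNat_natCast]
  push_cast; ring

/-- `∑_n ∑_l |Bh n| |S_l(n)|` in terms of the packing sums -/
theorem iva_V_le {Bh : ℤ → ℂ} {CB K : ℝ} {Nn Ji Jk : ℕ} (hCB0 : 0 ≤ CB)
    (hBh : ∀ n, ‖Bh n‖ ≤ CB * ivaU Nn n) (hK : ∀ l n : ℤ, ‖ivaS Ji Jk l n‖ ≤ K * ivaD Ji n)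
    (s : Finset ℤ) :
    ∑ n ∈ s, ∑ l ∈ ivaL Ji Jk, ‖Bh n‖ * ‖ivaS Ji Jk l n‖
      ≤ (2 * (Ji + Jk) + 1) * CB * K * ∑ n ∈ s, ivaU Nn n * ivaD Ji n := by
  rw [Finset.mul_sum]
  refine Finset.sum_le_sum fun n _ => ?_
  have h1 : ∀ l ∈ ivaL Ji Jk, ‖Bh n‖ * ‖ivaS Ji Jk l n‖ ≤ CB * ivaU Nn n * (K * ivaD Ji n) :=
    fun l _ => mul_le_mul (hBh n) (hK l n) (norm_nonneg _)
      (mul_nonneg hCB0 (ivaU_nonneg (Nat.cast_nonneg _) n))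
  refine (Finset.sum_le_sum h1).trans ?_
  rw [Finset.sum_const, nsmul_eq_mul, ivaL_card]
  apply le_of_eq
  ring

/-- the three weights -/
noncomputable def ivaW (Zn Nn Ji : ℕ) : Fin 3 → ℤ → ℝ
  | 0 => fun c => ivaU Zn c
  | 1 => fun n => ivaU Nn n * (Ji * ivaD Ji n + 1)
  | 2 => fun _ => 1

/-- the three boxes -/
noncomputable def ivaB (Zn Nn Ji Jk Λ : ℕ) : Fin 3 → Finset ℤ
  | 0 => ivaBox (Λ * Zn)
  | 1 => ivaBox (Λ * Nn)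
  | 2 => ivaL Ji Jk

theorem ivaW_pos {Zn Nn Ji : ℕ} (hZ : 1 ≤ Zn) (hN : 1 ≤ Nn) (t : Fin 3) (k : ℤ) : 0 < ivaW Zn Nn Ji t k := by
  have hZ' : (0 : ℝ) < Zn := by exact_mod_cast hZ
  have hN' : (0 : ℝ) < Nn := by exact_mod_cast hN
  fin_cases t
  · exact ivaU_pos hZ' k
  · exact mul_pos (ivaU_pos hN' k)
      (add_pos_of_nonneg_of_pos (mul_nonneg (Nat.cast_nonneg _) (ivaD_pos _ _).le) one_pos)
  · exact one_pos

theorem ivaB_nonempty (Zn Nn Ji Jk Λ : ℕ) (t : Fin 3) : (ivaB Zn Nn Ji Jk Λ t).Nonempty := by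
  fin_cases t
  · exact ivaBox_nonempty _
  · exact ivaBox_nonempty _
  · exact ivaL_nonempty _ _

/-- normalising constants -/
theorem iva_K0 {Zn Λ : ℕ} (hZ : 1 ≤ Zn) (hΛ : 1 ≤ Λ) :
    1 ≤ ∑ c ∈ ivaBox (Λ * Zn), ivaU Zn c ∧ ∑ c ∈ ivaBox (Λ * Zn), ivaU Zn c ≤ 5 :=
  ⟨iva_sum_U_ge hZ (Nat.le_mul_of_pos_left _ hΛ), iva_sum_U_le (by exact_mod_cast hZ) _⟩

theorem iva_K1 {Nn Ji Λ : ℕ} (hJi : 1 ≤ Ji) (hJN : Ji ≤ Nn) (hΛ : 1 ≤ Λ) :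
    1 ≤ ∑ n ∈ ivaBox (Λ * Nn), ivaU Nn n * (Ji * ivaD Ji n + 1) ∧
      ∑ n ∈ ivaBox (Λ * Nn), ivaU Nn n * (Ji * ivaD Ji n + 1) ≤ 1005 := by
  have hN : 1 ≤ Nn := hJi.trans hJN
  have hJ' : (0 : ℝ) < Ji := by exact_mod_cast hJi
  have e : ∑ n ∈ ivaBox (Λ * Nn), ivaU Nn n * (Ji * ivaD Ji n + 1)
      = Ji * ∑ n ∈ ivaBox (Λ * Nn), ivaU Nn n * ivaD Ji n + ∑ n ∈ ivaBox (Λ * Nn), ivaU Nn n := by
    rw [Finset.mul_sum, ← Finset.sum_add_distrib]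
    exact Finset.sum_congr rfl fun n _ => by ring
  rw [e]
  obtain ⟨h1, h2⟩ := iva_K0 (Λ := Λ) hN hΛ
  have h3 := iva_pack hJi hJN (ivaBox (Λ * Nn))
  have h4 : 0 ≤ ∑ n ∈ ivaBox (Λ * Nn), ivaU Nn n * ivaD Ji n :=
    Finset.sum_nonneg fun n _ => mul_nonneg (ivaU_nonneg (Nat.cast_nonneg _) n) (ivaD_pos _ _).le
  constructor
  · have := mul_nonneg hJ'.le h4
    linarith
  · have h5 : (Ji : ℝ) * ∑ n ∈ ivaBox (Λ * Nn), ivaU Nn n * ivaD Ji n ≤ Ji * (1000 / Ji) :=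
      mul_le_mul_of_nonneg_left h3 hJ'.le
    rw [mul_div_cancel₀ _ hJ'.ne'] at h5
    linarith

theorem iva_dom_aux {CA CB K D U0 U1 K0 K1 K2 G J : ℝ} (hCA : 0 ≤ CA) (hCB : 0 ≤ CB) (hK : 0 ≤ K)
    (hD : 0 ≤ D) (hU0 : 0 ≤ U0) (hU1 : 0 ≤ U1) (hK0 : 0 < K0) (hK0' : K0 ≤ 5) (hK1 : 0 < K1)
    (hK1' : K1 ≤ 1005) (hK2 : 0 < K2) (hK2' : K2 ≤ G * J) (hJ : 0 ≤ J) (hG : 0 ≤ G) :
    CA * U0 * (CB * U1) * (K * D)
      ≤ 5 * 1005 * G * CA * CB * K * ((U0 / K0) * (U1 * (J * D + 1) / K1) * (1 / K2)) := by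
  have hprod : K0 * K1 * K2 ≤ 5 * 1005 * (G * J) := by
    have h1 : K0 * K1 ≤ 5 * 1005 := mul_le_mul hK0' hK1' hK1.le (by norm_num)
    exact mul_le_mul h1 hK2' hK2.le (by norm_num)
  have hc : 0 ≤ CA * CB * K * D := by positivity
  have key : CA * CB * K * D * (K0 * K1 * K2) ≤ 5 * 1005 * G * CA * CB * K * (J * D + 1) := by
    calc CA * CB * K * D * (K0 * K1 * K2) ≤ CA * CB * K * D * (5 * 1005 * (G * J)) :=
          mul_le_mul_of_nonneg_left hprod hc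
      _ = 5 * 1005 * G * CA * CB * K * (J * D) := by ring
      _ ≤ 5 * 1005 * G * CA * CB * K * (J * D + 1) := by
          apply mul_le_mul_of_nonneg_left (by linarith) (by positivity)
  have e : 5 * 1005 * G * CA * CB * K * ((U0 / K0) * (U1 * (J * D + 1) / K1) * (1 / K2))
      = (U0 * U1) * (5 * 1005 * G * CA * CB * K * (J * D + 1)) / (K0 * K1 * K2) := by
    field_simp
  rw [e, le_div_iff₀ (by positivity)]
  calc CA * U0 * (CB * U1) * (K * D) * (K0 * K1 * K2)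
      = (U0 * U1) * (CA * CB * K * D * (K0 * K1 * K2)) := by ring
    _ ≤ (U0 * U1) * (5 * 1005 * G * CA * CB * K * (J * D + 1)) :=
        mul_le_mul_of_nonneg_left key (by positivity)

theorem iva_scale {A B : C(ℝ, ℂ)} {R CA CB sA K : ℝ} (hR : 0 ≤ R) (hSA : InjSupp R A) (hSB : InjSupp R B)
    (hCA0 : 0 ≤ CA) (hCB0 : 0 ≤ CB) (hK0 : 0 ≤ K)
    (hCA : ∀ u : ℝ, ‖𝓕 (A : ℝ → ℂ) u‖ ≤ CA / (1 + u ^ 2))
    (hCB : ∀ u : ℝ, ‖𝓕 (B : ℝ → ℂ) u‖ ≤ CB / (1 + u ^ 2))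
    (hsA : ∀ x, ‖A x‖ ≤ sA)
    {q Zn Nn Ji Jk Λ : ℕ} (hJi : 1 ≤ Ji) (hJk : 1 ≤ Jk) (hJkq : Jk ≤ q * Ji) (hJN : Ji ≤ Nn)
    (hN : 2 * R < Nn) (hZ : 2 * R < Zn) (hZ1 : 1 ≤ Zn) (hΛ : 1 ≤ Λ)
    (hK : ∀ l n : ℤ, ‖ivaS Ji Jk l n‖ ≤ K * ivaD Ji n)
    (WW : Finset ℂ) (rd : ℂ → ℂ) (ε : ℝ)
    (hrd : ∀ w, ‖w‖ ≤ 5 * 1005 * (2 * (1 + q) + 1) * CA * CB * K → rd w ∈ WW ∧ ‖rd w - w‖ ≤ ε) :
    ∃ S : IvSampler, (∀ t, (S.law t).S = ivaB Zn Nn Ji Jk Λ t) ∧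
      (∀ k, (S.law 0).w k ≤ 1 / Zn) ∧ (∀ k, (S.law 1).w k ≤ (Ji + 1) / Nn) ∧
      (∀ k, (S.law 2).w k ≤ 1 / Ji) ∧ (∀ c n l, S.W c n l ∈ WW) ∧
      ∀ (H : Type) [NormedAddCommGroup H] [InnerProductSpace ℂ H] [CompleteSpace H] (π : InjRep H)
        (Φ : C(InjT × InjT, ℂ) →⋆ₐ[ℂ] (H →L[ℂ] H)), Φ injE1 = π.π InjHeis.z → Φ injE2 = π.π InjHeis.x →
        ‖S.mean.sum (fun h c => c • π.π h) - injTJ π Ji *
            Φ ((injLoc A injAlpha Zn).comp ContinuousMap.fst * (injLoc B 0 Nn).comp ContinuousMap.snd) *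
            star (injTJ π Jk)‖
          ≤ ε + (sA * (1000 * (2 * (1 + q) + 1) * CB * K) + 4 * CA * (1000 * (2 * (1 + q) + 1) * CB * K)
              + 4 * sA * CB) / Λ
            + 10 * Real.pi * sA * CB * R * Λ * ((2 * Ji + 1) * (2 * Jk + 1)) ^ 2 * Ji * Nn / Zn := by
  have hN1 : 1 ≤ Nn := hJi.trans hJN
  have hsA0 : 0 ≤ sA := (norm_nonneg _).trans (hsA 0)
  have hZr : (0 : ℝ) < Zn := by exact_mod_cast hZ1
  have hNr : (0 : ℝ) < Nn := by exact_mod_cast hN1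
  have hJr : (1 : ℝ) ≤ Ji := by exact_mod_cast hJi
  have hAh : ∀ c, ‖fourierCoeff (injLoc A injAlpha Zn) c‖ ≤ CA * ivaU Zn c :=
    fun c => iva_coeff_le hSA hR hCA hZ c
  have hBh : ∀ n, ‖fourierCoeff (injLoc B 0 Nn) n‖ ≤ CB * ivaU Nn n :=
    fun n => iva_coeff_le hSB hR hCB hN n
  have hf1 : ‖injLoc A injAlpha Zn‖ ≤ sA := injLoc_norm_le hSA hZ hsA0 hsA
  have hfr : ∀ m : ℤ, ‖injLoc A injAlpha Zn *
      ((fourier m : C(InjT, ℂ)) - ContinuousMap.const InjT (ivaE ((m : ℝ) * injAlpha)))‖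
      ≤ sA * (2 * Real.pi * |(m : ℝ)| * R / Zn) := fun m => iva_freeze hSA hR hZ hsA m
  generalize injLoc A injAlpha Zn = f1 at *
  generalize injLoc B 0 Nn = f2 at *
  obtain ⟨hK0a, hK0b⟩ := iva_K0 (Λ := Λ) hZ1 hΛ
  obtain ⟨hK1a, hK1b⟩ := iva_K1 (Λ := Λ) hJi hJN hΛ
  have hK2 : ∑ _l ∈ ivaL Ji Jk, (1 : ℝ) = 2 * (Ji + Jk) + 1 := by
    rw [Finset.sum_const, nsmul_eq_mul, mul_one, ivaL_card]
  have hK2le : (2 * (Ji + Jk) + 1 : ℝ) ≤ (2 * (1 + q) + 1) * Ji := by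
    have h1 : (Jk : ℝ) ≤ q * Ji := by exact_mod_cast hJkq
    nlinarith
  have hcoef : ∀ c n l : ℤ, ‖fourierCoeff f1 c * fourierCoeff f2 n * ivaS Ji Jk l n‖
      ≤ 5 * 1005 * (2 * (1 + q) + 1) * CA * CB * K *
        ((ivaW Zn Nn Ji 0 c / ∑ k ∈ ivaB Zn Nn Ji Jk Λ 0, ivaW Zn Nn Ji 0 k) *
         (ivaW Zn Nn Ji 1 n / ∑ k ∈ ivaB Zn Nn Ji Jk Λ 1, ivaW Zn Nn Ji 1 k) *
         (ivaW Zn Nn Ji 2 l / ∑ k ∈ ivaB Zn Nn Ji Jk Λ 2, ivaW Zn Nn Ji 2 k)) := by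
    intro c n l
    show _ ≤ 5 * 1005 * (2 * (1 + q) + 1) * CA * CB * K *
        ((ivaU Zn c / ∑ k ∈ ivaBox (Λ * Zn), ivaU Zn k) *
         (ivaU Nn n * (Ji * ivaD Ji n + 1) / ∑ k ∈ ivaBox (Λ * Nn), ivaU Nn k * (Ji * ivaD Ji k + 1)) *
         (1 / ∑ _k ∈ ivaL Ji Jk, (1 : ℝ)))
    rw [norm_mul, norm_mul]
    refine le_trans ?_ (iva_dom_aux hCA0 hCB0 hK0 (ivaD_pos Ji n).le (ivaU_nonneg hZr.le c)
      (ivaU_nonneg hNr.le n) (by linarith) hK0b (by linarith) hK1b (by rw [hK2]; positivity)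
      (by rw [hK2]; exact hK2le) (by linarith) (by positivity))
    exact mul_le_mul (mul_le_mul (hAh c) (hBh n) (norm_nonneg _)
      (mul_nonneg hCA0 (ivaU_nonneg hZr.le c))) (hK l n) (norm_nonneg _)
      (mul_nonneg (mul_nonneg hCA0 (ivaU_nonneg hZr.le c)) (mul_nonneg hCB0 (ivaU_nonneg hNr.le n)))
  obtain ⟨S, hS1, hS2, hS3, hS4⟩ := iva_sampler (ivaB Zn Nn Ji Jk Λ) (ivaW Zn Nn Ji)
    (ivaW_pos hZ1 hN1) (ivaB_nonempty Zn Nn Ji Jk Λ)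
    (fun c n l => fourierCoeff f1 c * fourierCoeff f2 n * ivaS Ji Jk l n) _ hcoef WW rd ε hrd
  refine ⟨S, hS1, ?_, ?_, ?_, hS3, ?_⟩
  · intro k
    rw [hS2 0 k]
    exact (div_le_self (ivaU_nonneg hZr.le k) hK0a).trans (ivaU_le_inv hZr k)
  · intro k
    rw [hS2 1 k]
    refine (div_le_self (ivaW_pos hZ1 hN1 1 k).le hK1a).trans ?_
    show ivaU Nn k * (Ji * ivaD Ji k + 1) ≤ (Ji + 1) / Nn
    have h1 := ivaU_le_inv hNr k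
    have h2 : (Ji : ℝ) * ivaD Ji k + 1 ≤ Ji + 1 := by
      have := mul_le_mul_of_nonneg_left (ivaD_le_one Ji k) (by linarith : (0 : ℝ) ≤ Ji)
      linarith
    calc ivaU Nn k * (Ji * ivaD Ji k + 1) ≤ 1 / Nn * (Ji + 1) :=
          mul_le_mul h1 h2 (by have := (ivaD_pos Ji k).le; positivity) (by positivity)
      _ = (Ji + 1) / Nn := by ring
  · intro k
    rw [hS2 2 k]
    show 1 / ∑ _k ∈ ivaL Ji Jk, (1 : ℝ) ≤ 1 / Ji
    rw [hK2]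
    apply one_div_le_one_div_of_le (by linarith)
    have : (0 : ℝ) ≤ Jk := Nat.cast_nonneg _
    linarith
  · intro H _ _ _ π Φ h1 h2
    have hA := hS4 H π
    change ‖S.mean.sum (fun h c => c • π.π h) - ∑ c ∈ ivaBox (Λ * Zn), ∑ n ∈ ivaBox (Λ * Nn),
      ∑ l ∈ ivaL Ji Jk, (fourierCoeff f1 c * fourierCoeff f2 n * ivaS Ji Jk l n) • π.π (ivVol c n l)‖
      ≤ ε at hA
    have hΛr : (1 : ℝ) ≤ Λ := by exact_mod_cast hΛ
    have hJk0 : (0 : ℝ) ≤ Jk := Nat.cast_nonneg _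
    have hPP : (0 : ℝ) < (2 * Ji + 1) * (2 * Jk + 1) := by positivity
    have hΛ2 : ((Λ * ((2 * Ji + 1) * (2 * Jk + 1)) : ℕ) : ℝ) = Λ * ((2 * Ji + 1) * (2 * Jk + 1)) := by
      push_cast; ring
    have hsub : ivaBox (Λ * Nn) ⊆ ivaBox (Λ * ((2 * Ji + 1) * (2 * Jk + 1)) * Nn) := by
      intro n hn
      rw [ivaBox_mem] at hn ⊢
      refine hn.trans ?_
      have : Λ * Nn ≤ Λ * ((2 * Ji + 1) * (2 * Jk + 1)) * Nn :=
        Nat.mul_le_mul_right _ (Nat.le_mul_of_pos_right _ (by positivity))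
      exact_mod_cast this
    have hδ : ∀ n ∈ ivaBox (Λ * ((2 * Ji + 1) * (2 * Jk + 1)) * Nn), ∀ j ∈ Finset.Icc (-(Ji : ℤ)) Ji,
        ‖f1 * ((fourier (-(j * n)) : C(InjT, ℂ))
          - ContinuousMap.const InjT (ivaE (-((j * n : ℤ) : ℝ) * injAlpha)))‖
        ≤ sA * (2 * Real.pi * (Ji * (Λ * ((2 * Ji + 1) * (2 * Jk + 1)) * Nn)) * R / Zn) := by
      intro n hn j hj
      have h := hfr (-(j * n))
      rw [Int.cast_neg] at h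
      refine h.trans (mul_le_mul_of_nonneg_left ?_ hsA0)
      rw [ivaBox_mem] at hn
      rw [Finset.mem_Icc, ← abs_le] at hj
      have hj' : |(j : ℝ)| ≤ Ji := by exact_mod_cast hj
      have hn' : |(n : ℝ)| ≤ Λ * ((2 * Ji + 1) * (2 * Jk + 1)) * Nn := by
        have : |(n : ℝ)| ≤ ((Λ * ((2 * Ji + 1) * (2 * Jk + 1)) * Nn : ℕ) : ℝ) := by exact_mod_cast hn
        rw [Nat.cast_mul, hΛ2] at this
        exact this
      have hm : |(-((j * n : ℤ) : ℝ))| ≤ Ji * (Λ * ((2 * Ji + 1) * (2 * Jk + 1)) * Nn) := by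
        rw [abs_neg, Int.cast_mul, abs_mul]
        exact mul_le_mul hj' hn' (abs_nonneg _) (by linarith)
      gcongr
    have hB := iva_op_approx π Φ h1 h2 f1 f2 (fourierCoeff f1) (fourierCoeff f2) Ji Jk hJk
      (ivaBox (Λ * Zn)) (ivaBox (Λ * Nn)) (ivaBox (Λ * ((2 * Ji + 1) * (2 * Jk + 1)) * Nn)) hsub _ hδ
    -- the four error terms
    have T1a : ‖f2 - ∑ n ∈ ivaBox (Λ * ((2 * Ji + 1) * (2 * Jk + 1)) * Nn),
        fourierCoeff f2 n • (fourier n : C(InjT, ℂ))‖ ≤ CB * (4 / (Λ * ((2 * Ji + 1) * (2 * Jk + 1)))) := by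
      refine iva_trunc f2 hCB0 (by exact_mod_cast hN1) hBh (by positivity) _ fun c hc => ?_
      rw [ivaBox_mem]
      have : |(c : ℝ)| ≤ ((Λ * ((2 * Ji + 1) * (2 * Jk + 1)) * Nn : ℕ) : ℝ) := by
        rw [Nat.cast_mul, hΛ2]; exact hc
      exact_mod_cast this
    have T1 : (2 * Ji + 1) * (2 * Jk + 1) * ‖f1‖ * ‖f2 - ∑ n ∈ ivaBox (Λ * ((2 * Ji + 1) * (2 * Jk + 1)) * Nn),
        fourierCoeff f2 n • (fourier n : C(InjT, ℂ))‖ ≤ 4 * sA * CB / Λ := by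
      calc (2 * Ji + 1) * (2 * Jk + 1) * ‖f1‖ * ‖f2 - ∑ n ∈ ivaBox (Λ * ((2 * Ji + 1) * (2 * Jk + 1)) * Nn),
            fourierCoeff f2 n • (fourier n : C(InjT, ℂ))‖
          ≤ (2 * Ji + 1) * (2 * Jk + 1) * sA * (CB * (4 / (Λ * ((2 * Ji + 1) * (2 * Jk + 1))))) :=
            mul_le_mul (mul_le_mul_of_nonneg_left hf1 hPP.le) T1a (norm_nonneg _)
              (mul_nonneg hPP.le hsA0)
        _ = 4 * sA * CB / Λ := by field_simp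
    have T2a : ∑ n ∈ ivaBox (Λ * ((2 * Ji + 1) * (2 * Jk + 1)) * Nn), ‖fourierCoeff f2 n‖ ≤ CB * 5 := by
      refine (Finset.sum_le_sum fun n _ => hBh n).trans ?_
      rw [← Finset.mul_sum]
      exact mul_le_mul_of_nonneg_left (iva_sum_U_le (by exact_mod_cast hN1) _) hCB0
    have T2 : (2 * Ji + 1) * (2 * Jk + 1) *
        (sA * (2 * Real.pi * (Ji * (Λ * ((2 * Ji + 1) * (2 * Jk + 1)) * Nn)) * R / Zn)) *
        ∑ n ∈ ivaBox (Λ * ((2 * Ji + 1) * (2 * Jk + 1)) * Nn), ‖fourierCoeff f2 n‖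
        ≤ 10 * Real.pi * sA * CB * R * Λ * ((2 * Ji + 1) * (2 * Jk + 1)) ^ 2 * Ji * Nn / Zn := by
      have h0 : 0 ≤ (2 * (Ji : ℝ) + 1) * (2 * Jk + 1) *
          (sA * (2 * Real.pi * (Ji * (Λ * ((2 * Ji + 1) * (2 * Jk + 1)) * Nn)) * R / Zn)) := by
        have := Real.pi_pos
        positivity
      refine (mul_le_mul_of_nonneg_left T2a h0).trans (le_of_eq ?_)
      field_simp
      ring
    have hG : (2 * ((Ji : ℝ) + Jk) + 1) * CB * K ≤ (2 * (1 + q) + 1) * Ji * CB * K :=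
      mul_le_mul_of_nonneg_right (mul_le_mul_of_nonneg_right hK2le hCB0) hK0
    have hG0 : 0 ≤ (2 * ((Ji : ℝ) + Jk) + 1) * CB * K := by positivity
    have T3a : ∑ n ∈ ivaBox (Λ * ((2 * Ji + 1) * (2 * Jk + 1)) * Nn) \ ivaBox (Λ * Nn),
        ∑ l ∈ ivaL Ji Jk, ‖fourierCoeff f2 n‖ * ‖ivaS Ji Jk l n‖
        ≤ 1000 * (2 * (1 + q) + 1) * CB * K / Λ := by
      refine (iva_V_le hCB0 hBh hK _).trans ?_
      have hp := iva_pack_tail hJi hJN hΛ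
        (ivaBox (Λ * ((2 * Ji + 1) * (2 * Jk + 1)) * Nn) \ ivaBox (Λ * Nn)) (fun n hn => by
          rw [Finset.mem_sdiff, ivaBox_mem, ivaBox_mem, not_le] at hn
          exact hn.2)
      calc (2 * ((Ji : ℝ) + Jk) + 1) * CB * K * _
          ≤ (2 * ((Ji : ℝ) + Jk) + 1) * CB * K * (1000 / (Λ * Ji)) :=
            mul_le_mul_of_nonneg_left hp hG0
        _ ≤ (2 * (1 + q) + 1) * Ji * CB * K * (1000 / (Λ * Ji)) :=
            mul_le_mul_of_nonneg_right hG (by positivity)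
        _ = 1000 * (2 * (1 + q) + 1) * CB * K / Λ := by field_simp
    have T4a : ∑ n ∈ ivaBox (Λ * Nn), ∑ l ∈ ivaL Ji Jk, ‖fourierCoeff f2 n‖ * ‖ivaS Ji Jk l n‖
        ≤ 1000 * (2 * (1 + q) + 1) * CB * K := by
      refine (iva_V_le hCB0 hBh hK _).trans ?_
      have hp := iva_pack hJi hJN (ivaBox (Λ * Nn))
      calc (2 * ((Ji : ℝ) + Jk) + 1) * CB * K * _
          ≤ (2 * ((Ji : ℝ) + Jk) + 1) * CB * K * (1000 / Ji) :=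
            mul_le_mul_of_nonneg_left hp hG0
        _ ≤ (2 * (1 + q) + 1) * Ji * CB * K * (1000 / Ji) :=
            mul_le_mul_of_nonneg_right hG (by positivity)
        _ = 1000 * (2 * (1 + q) + 1) * CB * K := by field_simp
    have T4b : ‖f1 - ∑ c ∈ ivaBox (Λ * Zn), fourierCoeff f1 c • (fourier c : C(InjT, ℂ))‖
        ≤ CA * (4 / Λ) := by
      refine iva_trunc f1 hCA0 (by exact_mod_cast hZ1) hAh (by positivity) _ fun c hc => ?_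
      rw [ivaBox_mem]
      have : |(c : ℝ)| ≤ ((Λ * Zn : ℕ) : ℝ) := by rw [Nat.cast_mul]; exact hc
      exact_mod_cast this
    have hV0 : 0 ≤ 1000 * (2 * (1 + (q : ℝ)) + 1) * CB * K := by positivity
    have T3 := mul_le_mul hf1 T3a (Finset.sum_nonneg fun n _ => Finset.sum_nonneg fun l _ =>
      mul_nonneg (norm_nonneg _) (norm_nonneg _)) hsA0
    have T4 := mul_le_mul T4b T4a (Finset.sum_nonneg fun n _ => Finset.sum_nonneg fun l _ =>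
      mul_nonneg (norm_nonneg _) (norm_nonneg _)) (by positivity)
    have e : (sA * (1000 * (2 * (1 + q) + 1) * CB * K) + 4 * CA * (1000 * (2 * (1 + q) + 1) * CB * K)
        + 4 * sA * CB) / Λ = 4 * sA * CB / Λ + sA * (1000 * (2 * (1 + q) + 1) * CB * K / Λ)
        + CA * (4 / Λ) * (1000 * (2 * (1 + q) + 1) * CB * K) := by
      field_simp
      ring
    rw [e]
    have htri := norm_sub_le_norm_sub_add_norm_sub (S.mean.sum (fun h c => c • π.π h))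
      (∑ c ∈ ivaBox (Λ * Zn), ∑ n ∈ ivaBox (Λ * Nn),
        ∑ l ∈ ivaL Ji Jk, (fourierCoeff f1 c * fourierCoeff f2 n * ivaS Ji Jk l n) • π.π (ivVol c n l))
      (injTJ π Ji * Φ (f1.comp ContinuousMap.fst * f2.comp ContinuousMap.snd) * star (injTJ π Jk))
    rw [norm_sub_rev (∑ c ∈ ivaBox (Λ * Zn), _)] at htri
    linarith

end Claimed.Agent.R300
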