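/-
Row 300 / S0553, IV-A: `iva_main : IvSamplerStmt` (helper62).  No own sorry: PROVED from `iva_scale` (IvaScale.lean) and the leaf statements
`iva_fourier_decay`, `iva_bdd`, `iva_S_le`, `iva_net`.  Choice of constants: `q = 2^(50 b)`, `Λ ≥ 4E/η`, net of mesh `η/8`,
`Hmin = max (g1, g2, 500 b + Λ + 1)` with `2^g1 > 4·810 π sA CB R Λ/η`, `2^g2 > 2R`.
-/
import Mathlib
import Claimed.Agent.R300.IvaScale

set_option autoImplicit false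

namespace Claimed.Agent.R300

open scoped FourierTransform

/-- numerics of the freezing term -/
theorem iva_num_freeze {F' X Ji Jk Nn Zn : ℝ} (hF : 0 ≤ F') (hX : 1 ≤ X) (hJi0 : 1 ≤ Ji) (hJk0 : 1 ≤ Jk)
    (hJi : Ji ≤ X) (hJk : Jk ≤ X) (hN : Nn = X ^ 4) (hZ : Zn = X ^ 10) :
    10 * F' * ((2 * Ji + 1) * (2 * Jk + 1)) ^ 2 * Ji * Nn / Zn ≤ 810 * F' / X := by
  have hX0 : 0 < X := by linarith
  have h1 : (2 * Ji + 1) * (2 * Jk + 1) ≤ (3 * X) * (3 * X) :=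
    mul_le_mul (by linarith) (by linarith) (by linarith) (by linarith)
  have h2 : ((2 * Ji + 1) * (2 * Jk + 1)) ^ 2 ≤ ((3 * X) * (3 * X)) ^ 2 :=
    pow_le_pow_left₀ (by positivity) h1 2
  have h3 : ((2 * Ji + 1) * (2 * Jk + 1)) ^ 2 * Ji ≤ ((3 * X) * (3 * X)) ^ 2 * X :=
    mul_le_mul h2 hJi (by linarith) (by positivity)
  rw [hN, hZ, div_le_div_iff₀ (by positivity) hX0]
  calc 10 * F' * ((2 * Ji + 1) * (2 * Jk + 1)) ^ 2 * Ji * X ^ 4 * X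
      = 10 * F' * X ^ 5 * (((2 * Ji + 1) * (2 * Jk + 1)) ^ 2 * Ji) := by ring
    _ ≤ 10 * F' * X ^ 5 * (((3 * X) * (3 * X)) ^ 2 * X) :=
        mul_le_mul_of_nonneg_left h3 (by positivity)
    _ = 810 * F' * X ^ 10 := by ring

/-- **IV-A** -/
theorem iva_main : IvSamplerStmt := by
  intro b hb R hR A B hA hB hsA hsB η hη
  have hSA : InjSupp R A := hsA
  have hSB : InjSupp R B := hsB
  have hR0 : 0 ≤ R := by linarith
  obtain ⟨CA, hCA0, hCA⟩ := iva_fourier_decay A hA hSA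
  obtain ⟨CB, hCB0, hCB⟩ := iva_fourier_decay B hB hSB
  obtain ⟨sA, hsA0, hsAb⟩ := iva_bdd A hSA
  obtain ⟨K, hK0, hK⟩ := iva_S_le (2 ^ (50 * b)) Nat.one_le_two_pow
  generalize hq : (2 : ℕ) ^ (50 * b) = q at hK
  have hE0 : 0 ≤ sA * (1000 * (2 * (1 + (q : ℝ)) + 1) * CB * K)
      + 4 * CA * (1000 * (2 * (1 + (q : ℝ)) + 1) * CB * K) + 4 * sA * CB := by positivity
  obtain ⟨Λ, hΛ1, hΛ⟩ : ∃ Λ : ℕ, 1 ≤ Λ ∧ (sA * (1000 * (2 * (1 + (q : ℝ)) + 1) * CB * K)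
      + 4 * CA * (1000 * (2 * (1 + (q : ℝ)) + 1) * CB * K) + 4 * sA * CB) / Λ ≤ η / 4 := by
    generalize sA * (1000 * (2 * (1 + (q : ℝ)) + 1) * CB * K)
      + 4 * CA * (1000 * (2 * (1 + (q : ℝ)) + 1) * CB * K) + 4 * sA * CB = E at *
    obtain ⟨n, hn⟩ := exists_nat_ge (4 * E / η)
    refine ⟨n + 1, by omega, ?_⟩
    rw [div_le_iff₀ (by positivity)]
    rw [div_le_iff₀ hη] at hn
    push_cast
    nlinarith
  obtain ⟨WW, rd, h0W, hWb, hrd⟩ := iva_net (5 * 1005 * (2 * (1 + (q : ℝ)) + 1) * CA * CB * K) (η / 8)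
    (by positivity) (by positivity)
  refine ⟨5 * 1005 * (2 * (1 + (q : ℝ)) + 1) * CA * CB * K + 2 * (η / 8), WW, h0W, hWb, ?_⟩
  obtain ⟨g1, hg1⟩ := pow_unbounded_of_one_lt (4 * (810 * (Real.pi * sA * CB * R * Λ)) / η)
    (one_lt_two : (1 : ℝ) < 2)
  obtain ⟨g2, hg2⟩ := pow_unbounded_of_one_lt (2 * R) (one_lt_two : (1 : ℝ) < 2)
  refine ⟨max (max g1 g2) (500 * b + Λ + 1), fun H0 hH0 i k hik => ?_⟩
  have hH1 : g1 ≤ H0 := (le_max_left _ _).trans ((le_max_left _ _).trans hH0)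
  have hH2 : g2 ≤ H0 := (le_max_right _ _).trans ((le_max_left _ _).trans hH0)
  have hH3 : 500 * b + Λ + 1 ≤ H0 := (le_max_right _ _).trans hH0
  -- heights
  have hZs : injZs b H0 (max i k) = ((2 ^ (500 * injH b H0 (max i k)) : ℕ) : ℝ) := by
    unfold injZs; push_cast; rfl
  have hNs : injNs b H0 (max i k) = ((2 ^ (200 * injH b H0 (max i k)) : ℕ) : ℝ) := by
    unfold injNs; push_cast; rfl
  have hTi : ∀ (H : Type) [NormedAddCommGroup H] [InnerProductSpace ℂ H] [CompleteSpace H]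
      (π : InjRep H), injT π b H0 i = injTJ π (2 ^ (50 * injH b H0 i)) := fun _ _ _ _ _ => rfl
  have hTk : ∀ (H : Type) [NormedAddCommGroup H] [InnerProductSpace ℂ H] [CompleteSpace H]
      (π : InjRep H), injT π b H0 k = injTJ π (2 ^ (50 * injH b H0 k)) := fun _ _ _ _ _ => rfl
  have a1 : H0 ≤ injH b H0 i := Nat.le_add_right _ _
  have a2 : injH b H0 i ≤ injH b H0 (max i k) :=
    Nat.add_le_add_left (Nat.mul_le_mul_left _ (le_max_left _ _)) _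
  have a3 : injH b H0 k ≤ injH b H0 (max i k) :=
    Nat.add_le_add_left (Nat.mul_le_mul_left _ (le_max_right _ _)) _
  have a4 : injH b H0 (max i k) ≤ injH b H0 i + b := by
    unfold injH
    rcases hik with rfl | rfl | rfl
    · rw [max_self]; omega
    · rw [max_eq_right (Nat.le_succ i), Nat.mul_succ]; omega
    · rw [max_eq_left (Nat.le_succ k)]; exact Nat.le_add_right _ _
  have a5 : injH b H0 i ≤ injH b H0 k + b := by
    unfold injH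
    rcases hik with rfl | rfl | rfl
    · omega
    · rw [Nat.mul_add, Nat.mul_one]; omega
    · rw [Nat.mul_add, Nat.mul_one]; omega
  have a6 : injH b H0 k ≤ injH b H0 i + b := a3.trans a4
  generalize injH b H0 i = Hi at *
  generalize injH b H0 k = Hk at *
  generalize injH b H0 (max i k) = Ht at *
  have p2 : ∀ {m n : ℕ}, m ≤ n → (2 : ℕ) ^ m ≤ 2 ^ n := fun h => Nat.pow_le_pow_right (by norm_num) h
  have b1 : 1 ≤ (2 : ℕ) ^ (50 * Hi) := Nat.one_le_two_pow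
  have b2 : 1 ≤ (2 : ℕ) ^ (50 * Hk) := Nat.one_le_two_pow
  have b3 : (2 : ℕ) ^ (50 * Hi) ≤ q * 2 ^ (50 * Hk) := by
    rw [← hq, ← pow_add]; exact p2 (by omega)
  have b4 : (2 : ℕ) ^ (50 * Hk) ≤ q * 2 ^ (50 * Hi) := by
    rw [← hq, ← pow_add]; exact p2 (by omega)
  have b5 : (2 : ℕ) ^ (50 * Hi) ≤ 2 ^ (200 * Ht) := p2 (by omega)
  have b6 : 2 * R < ((2 ^ (200 * Ht) : ℕ) : ℝ) := by
    refine hg2.trans_le ?_
    push_cast
    exact pow_le_pow_right₀ (by norm_num) (by omega)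
  have b7 : 2 * R < ((2 ^ (500 * Ht) : ℕ) : ℝ) := by
    refine hg2.trans_le ?_
    push_cast
    exact pow_le_pow_right₀ (by norm_num) (by omega)
  obtain ⟨S, hS1, hw0, hw1, hw2, hSW, hS⟩ := iva_scale hR0 hSA hSB hCA0 hCB0 hK0 hCA hCB hsAb
    (q := q) (Λ := Λ) b1 b2 b4 b5 b6 b7 Nat.one_le_two_pow hΛ1
    (hK _ _ b1 b2 b3 b4) WW rd (2 * (η / 8)) hrd
  refine ⟨S, ⟨?_, ?_, fun c n l => hWb _ (hSW c n l)⟩, hSW, ?_⟩
  · intro s k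
    have c0 : (0 : ℝ) < 2 ^ (49 * Hi) := by positivity
    fin_cases s
    · refine (hw0 k).trans (one_div_le_one_div_of_le c0 ?_)
      push_cast
      exact pow_le_pow_right₀ (by norm_num) (by omega)
    · refine (hw1 k).trans ?_
      rw [div_le_div_iff₀ (by positivity) c0, one_mul]
      push_cast
      have h1 : ((2 : ℝ) ^ (50 * Hi) + 1) ≤ 2 ^ (50 * Hi + 1) := by
        have := one_le_pow₀ (one_le_two : (1 : ℝ) ≤ 2) (n := 50 * Hi)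
        rw [pow_succ]; linarith
      calc ((2 : ℝ) ^ (50 * Hi) + 1) * 2 ^ (49 * Hi) ≤ 2 ^ (50 * Hi + 1) * 2 ^ (49 * Hi) :=
            mul_le_mul_of_nonneg_right h1 c0.le
        _ = 2 ^ (50 * Hi + 1 + 49 * Hi) := (pow_add _ _ _).symm
        _ ≤ 2 ^ (200 * Ht) := pow_le_pow_right₀ (by norm_num) (by omega)
    · refine (hw2 k).trans (one_div_le_one_div_of_le c0 ?_)
      push_cast
      exact pow_le_pow_right₀ (by norm_num) (by omega)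
  · intro x
    have h0 : |((x 0 : ℤ))| ≤ ((Λ * 2 ^ (500 * Ht) : ℕ) : ℤ) := by
      have h : (x 0 : ℤ) ∈ ivaB (2 ^ (500 * Ht)) (2 ^ (200 * Ht)) (2 ^ (50 * Hi)) (2 ^ (50 * Hk)) Λ 0 := by
        rw [← hS1 0]; exact (x 0).2
      exact ivaBox_mem.1 h
    have h1 : |((x 1 : ℤ))| ≤ ((Λ * 2 ^ (200 * Ht) : ℕ) : ℤ) := by
      have h : (x 1 : ℤ) ∈ ivaB (2 ^ (500 * Ht)) (2 ^ (200 * Ht)) (2 ^ (50 * Hi)) (2 ^ (50 * Hk)) Λ 1 := by
        rw [← hS1 1]; exact (x 1).2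
      exact ivaBox_mem.1 h
    have h2 : |((x 2 : ℤ))| ≤ ((2 ^ (50 * Hi) + 2 ^ (50 * Hk) : ℕ) : ℤ) := by
      have h : (x 2 : ℤ) ∈ ivaB (2 ^ (500 * Ht)) (2 ^ (200 * Ht)) (2 ^ (50 * Hi)) (2 ^ (50 * Hk)) Λ 2 := by
        rw [← hS1 2]; exact (x 2).2
      exact ivaL_mem.1 h
    have n1 : 2 * (Λ * 2 ^ (500 * Ht)) ≤ 2 ^ (502 * Hi) := by
      calc 2 * (Λ * 2 ^ (500 * Ht)) ≤ 2 * (2 ^ Λ * 2 ^ (500 * Ht)) :=
            Nat.mul_le_mul_left _ (Nat.mul_le_mul_right _ Nat.lt_two_pow_self.le)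
        _ = 2 ^ (1 + (Λ + 500 * Ht)) := by rw [pow_add, pow_add, pow_one]
        _ ≤ 2 ^ (502 * Hi) := p2 (by omega)
    have n2 : 2 ^ (200 * Ht) * (2 ^ (50 * Hi) + 2 ^ (50 * Hk)) ≤ 2 ^ (500 * Ht) := by
      calc 2 ^ (200 * Ht) * (2 ^ (50 * Hi) + 2 ^ (50 * Hk))
          ≤ 2 ^ (200 * Ht) * (2 ^ (50 * Ht) + 2 ^ (50 * Ht)) :=
            Nat.mul_le_mul_left _ (Nat.add_le_add (p2 (by omega)) (p2 (by omega)))
        _ = 2 ^ (200 * Ht + (50 * Ht + 1)) := by rw [pow_add, pow_add, pow_one]; ring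
        _ ≤ 2 ^ (500 * Ht) := p2 (by omega)
    have n3 : Λ * 2 ^ (200 * Ht) ≤ Λ * 2 ^ (500 * Ht) := Nat.mul_le_mul_left _ (p2 (by omega))
    have n4 : 2 ^ (50 * Hi) + 2 ^ (50 * Hk) ≤ 2 ^ (500 * Ht) :=
      (Nat.le_mul_of_pos_left _ (by positivity)).trans n2
    have n5 : 2 ^ (500 * Ht) ≤ Λ * 2 ^ (500 * Ht) := Nat.le_mul_of_pos_left _ hΛ1
    have n6 : Λ * 2 ^ (200 * Ht) * (2 ^ (50 * Hi) + 2 ^ (50 * Hk)) ≤ Λ * 2 ^ (500 * Ht) := by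
      rw [Nat.mul_assoc]; exact Nat.mul_le_mul_left _ n2
    have hP : ((2 ^ (502 * Hi) : ℕ) : ℤ) = 2 ^ (502 * Hi) := by push_cast; rfl
    show |(x 1 : ℤ)| ≤ 2 ^ (502 * Hi) ∧ |(x 2 : ℤ)| ≤ 2 ^ (502 * Hi) ∧
      |(x 0 : ℤ) + x 1 * x 2| ≤ 2 ^ (502 * Hi) ∧ |-((x 0 : ℤ) + x 1 * x 2) + x 1 * x 2| ≤ 2 ^ (502 * Hi)
    rw [← hP]
    generalize (x 0 : ℤ) = c at *
    generalize (x 1 : ℤ) = n at *
    generalize (x 2 : ℤ) = l at *
    have m1 : |n * l| ≤ ((Λ * 2 ^ (500 * Ht) : ℕ) : ℤ) := by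
      rw [abs_mul]
      calc |n| * |l| ≤ ((Λ * 2 ^ (200 * Ht) : ℕ) : ℤ) * ((2 ^ (50 * Hi) + 2 ^ (50 * Hk) : ℕ) : ℤ) :=
            mul_le_mul h1 h2 (abs_nonneg _) (Int.natCast_nonneg _)
        _ ≤ ((Λ * 2 ^ (500 * Ht) : ℕ) : ℤ) := by exact_mod_cast n6
    have z1 : ((Λ * 2 ^ (500 * Ht) : ℕ) : ℤ) + ((Λ * 2 ^ (500 * Ht) : ℕ) : ℤ) ≤ ((2 ^ (502 * Hi) : ℕ) : ℤ) := by
      have : Λ * 2 ^ (500 * Ht) + Λ * 2 ^ (500 * Ht) ≤ 2 ^ (502 * Hi) := by omega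
      exact_mod_cast this
    have z0 : (0 : ℤ) ≤ ((Λ * 2 ^ (500 * Ht) : ℕ) : ℤ) := Int.natCast_nonneg _
    refine ⟨?_, ?_, ?_, ?_⟩
    · have : ((Λ * 2 ^ (200 * Ht) : ℕ) : ℤ) ≤ ((Λ * 2 ^ (500 * Ht) : ℕ) : ℤ) := by exact_mod_cast n3
      linarith
    · have : ((2 ^ (50 * Hi) + 2 ^ (50 * Hk) : ℕ) : ℤ) ≤ ((Λ * 2 ^ (500 * Ht) : ℕ) : ℤ) := by
        exact_mod_cast n4.trans n5
      linarith
    · have := abs_add_le c (n * l)
      linarith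
    · have e : -(c + n * l) + n * l = -c := by ring
      rw [e, abs_neg]
      linarith
  · intro H _ _ _ π Φ h1 h2
    have h := hS H π Φ h1 h2
    rw [hTi, hTk, injLoc2, hZs, hNs]
    refine h.trans ?_
    have hX : (1 : ℝ) ≤ 2 ^ (50 * Ht) := one_le_pow₀ one_le_two
    have hfz := iva_num_freeze (F' := Real.pi * sA * CB * R * Λ) (X := 2 ^ (50 * Ht))
      (Ji := ((2 ^ (50 * Hi) : ℕ) : ℝ)) (Jk := ((2 ^ (50 * Hk) : ℕ) : ℝ))
      (Nn := ((2 ^ (200 * Ht) : ℕ) : ℝ)) (Zn := ((2 ^ (500 * Ht) : ℕ) : ℝ))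
      (by have := Real.pi_pos; positivity) hX (by exact_mod_cast b1) (by exact_mod_cast b2)
      (by push_cast; exact pow_le_pow_right₀ (by norm_num) (by omega))
      (by push_cast; exact pow_le_pow_right₀ (by norm_num) (by omega))
      (by push_cast; rw [← pow_mul]; congr 1; ring) (by push_cast; rw [← pow_mul]; congr 1; ring)
    have hlast : 810 * (Real.pi * sA * CB * R * Λ) / 2 ^ (50 * Ht) ≤ η / 4 := by
      have h3 : 4 * (810 * (Real.pi * sA * CB * R * Λ)) / η < 2 ^ (50 * Ht) :=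
        hg1.trans_le (pow_le_pow_right₀ (by norm_num) (by omega))
      rw [div_lt_iff₀ hη] at h3
      rw [div_le_iff₀ (by positivity)]
      linarith
    have e : 10 * Real.pi * sA * CB * R * Λ * ((2 * ((2 ^ (50 * Hi) : ℕ) : ℝ) + 1) * (2 * ((2 ^ (50 * Hk) : ℕ) : ℝ) + 1)) ^ 2
        * ((2 ^ (50 * Hi) : ℕ) : ℝ) * ((2 ^ (200 * Ht) : ℕ) : ℝ) / ((2 ^ (500 * Ht) : ℕ) : ℝ)
        = 10 * (Real.pi * sA * CB * R * Λ) * ((2 * ((2 ^ (50 * Hi) : ℕ) : ℝ) + 1) * (2 * ((2 ^ (50 * Hk) : ℕ) : ℝ) + 1)) ^ 2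
        * ((2 ^ (50 * Hi) : ℕ) : ℝ) * ((2 ^ (200 * Ht) : ℕ) : ℝ) / ((2 ^ (500 * Ht) : ℕ) : ℝ) := by ring
    rw [e]
    linarith

end Claimed.Agent.R300
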