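/-
Row 300, shared sampling machine (SMP): Schwartz-Zippel with atoms and the selection principle.
Sub-captain: helper21.  Proofs: helper141.
`smp_poly_atom`: induction on the number of variables (one coordinate is split off with
`Equiv.piSplitAt` / `MvPolynomial.optionEquivLeft`).
`smp_select`: Mathlib's `MeasureTheory.Measure.infinitePi` (cylinder formula) + countable subadditivity.
-/
import Claimed.Agent.R300.SmpProb

set_option autoImplicit false

namespace Claimed.Agent.R300

open Finset

universe u v w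

section split

variable {ι : Type u} [Fintype ι] [DecidableEq ι] {Ω : ι → Type v} [∀ i, Fintype (Ω i)]
variable (p : ∀ i, Ω i → ℝ)

omit [Fintype ι] [∀ i, Fintype (Ω i)] in
theorem smp_split_ne (i₀ : ι) (a : Ω i₀) (ρ : ∀ j : {j // j ≠ i₀}, Ω j) (j : {j // j ≠ i₀}) :
    (Equiv.piSplitAt i₀ Ω).symm (a, ρ) j = ρ j := by
  simp [Equiv.piSplitAt, j.2]

omit [∀ i, Fintype (Ω i)] in
theorem smp_weight_split (i₀ : ι) (a : Ω i₀) (ρ : ∀ j : {j // j ≠ i₀}, Ω j) :
    ∏ i, p i ((Equiv.piSplitAt i₀ Ω).symm (a, ρ) i) =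
      p i₀ a * ∏ j : {j // j ≠ i₀}, p j (ρ j) := by
  rw [Fintype.prod_eq_mul_prod_subtype_ne _ i₀, smp_split_self]
  congr 1
  refine Finset.prod_congr rfl fun j _ => ?_
  rw [smp_split_ne]

/-- Fubini for `smpE`: integrate the coordinate `i₀` first. -/
theorem smpE_split {M : Type w} [AddCommMonoid M] [Module ℝ M] (i₀ : ι) (f : (∀ i, Ω i) → M) :
    smpE p f = smpE (fun j : {j // j ≠ i₀} => p j)
      (fun ρ => ∑ a, p i₀ a • f ((Equiv.piSplitAt i₀ Ω).symm (a, ρ))) := by
  unfold smpE
  rw [smp_sum_split i₀]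
  refine Finset.sum_congr rfl fun ρ _ => ?_
  rw [Finset.smul_sum]
  refine Finset.sum_congr rfl fun a _ => ?_
  rw [smp_weight_split, mul_comm, mul_smul]

theorem smpE_add {M : Type w} [AddCommMonoid M] [Module ℝ M] (f g : (∀ i, Ω i) → M) :
    smpE p (fun ω => f ω + g ω) = smpE p f + smpE p g := by
  unfold smpE
  rw [← Finset.sum_add_distrib]
  exact Finset.sum_congr rfl fun ω _ => smul_add _ _ _

end split

/-- one variable: a nonzero polynomial vanishes with probability at most `deg * κ`. -/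
theorem smp_root_atom {A : Type v} [Fintype A] (q : A → ℝ) (hq0 : ∀ a, 0 ≤ q a) (Y : A → ℤ)
    (κ : ℝ) (hatom : ∀ c : ℤ, ∑ a with Y a = c, q a ≤ κ) (g : Polynomial ℤ) (hg : g ≠ 0) :
    ∑ a with g.eval (Y a) = 0, q a ≤ g.natDegree * κ := by
  classical
  have hκ : 0 ≤ κ := le_trans (Finset.sum_nonneg fun a _ => hq0 a) (hatom 0)
  have hmaps : ∀ a ∈ univ.filter (fun a => g.eval (Y a) = 0), Y a ∈ g.roots.toFinset := by
    intro a ha
    rw [Multiset.mem_toFinset, Polynomial.mem_roots hg]
    exact (Finset.mem_filter.1 ha).2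
  rw [← Finset.sum_fiberwise_of_maps_to hmaps]
  calc ∑ c ∈ g.roots.toFinset, ∑ a ∈ univ.filter (fun a => g.eval (Y a) = 0) with Y a = c, q a
      ≤ ∑ c ∈ g.roots.toFinset, κ := by
        refine Finset.sum_le_sum fun c _ => le_trans ?_ (hatom c)
        refine Finset.sum_le_sum_of_subset_of_nonneg ?_ fun a _ _ => hq0 a
        intro a ha
        rw [Finset.mem_filter] at ha ⊢
        exact ⟨Finset.mem_univ a, ha.2⟩
    _ = (g.roots.toFinset.card : ℝ) * κ := by rw [Finset.sum_const, nsmul_eq_mul]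
    _ ≤ g.natDegree * κ := by
        refine mul_le_mul_of_nonneg_right ?_ hκ
        exact_mod_cast (Multiset.toFinset_card_le _).trans (Polynomial.card_roots' g)

theorem smp_poly_atom_aux (n : ℕ) : ∀ {ι : Type u} [Fintype ι] [DecidableEq ι] {Ω : ι → Type v}
    [∀ i, Fintype (Ω i)], Fintype.card ι = n → ∀ (p : ∀ i, Ω i → ℝ) (_ : ∀ i a, 0 ≤ p i a)
    (_ : ∀ i, ∑ a, p i a = 1) (X : ∀ i, Ω i → ℤ)
    (κ : ℝ) (_ : ∀ i (c : ℤ), ∑ a with X i a = c, p i a ≤ κ)
    (P : MvPolynomial ι ℤ) (_ : P ≠ 0),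
    smpP p (fun ω => MvPolynomial.eval (fun i => X i (ω i)) P = 0) ≤ P.totalDegree * κ := by
  classical
  induction n with
  | zero =>
    intro ι _ _ Ω _ hcard p hp0 hp1 X κ hatom P hP
    have : IsEmpty ι := Fintype.card_eq_zero_iff.1 hcard
    have hC := MvPolynomial.eq_C_of_isEmpty P
    have hc : MvPolynomial.coeff 0 P ≠ 0 := by
      intro h0
      rw [h0, map_zero] at hC
      exact hP hC
    have h1 : smpP p (fun ω => MvPolynomial.eval (fun i => X i (ω i)) P = 0) = 0 := by
      rw [smpP_eq]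
      unfold smpE
      refine Finset.sum_eq_zero fun ω _ => ?_
      have h2 : MvPolynomial.eval (fun i => X i (ω i)) P ≠ 0 := by
        rw [hC, MvPolynomial.eval_C]
        exact hc
      simp [h2]
    have h3 : P.totalDegree = 0 := by
      rw [hC, MvPolynomial.totalDegree_C]
    rw [h1, h3]
    simp
  | succ n ih =>
    intro ι _ _ Ω _ hcard p hp0 hp1 X κ hatom P hP
    have hne : Nonempty ι := Fintype.card_pos_iff.1 (by omega)
    obtain ⟨i₀⟩ := hne
    have hκ : 0 ≤ κ := le_trans (Finset.sum_nonneg fun a _ => hp0 i₀ a) (hatom i₀ 0)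
    have hcard' : Fintype.card {j // j ≠ i₀} = n := by
      rw [Fintype.card_subtype_compl, Fintype.card_subtype_eq, hcard]
      rfl
    set e := Equiv.optionSubtypeNe i₀ with he
    set F : MvPolynomial (Option {j // j ≠ i₀}) ℤ := MvPolynomial.rename e.symm P with hF
    have hF0 : F ≠ 0 := by
      intro h0
      apply hP
      apply MvPolynomial.rename_injective e.symm e.symm.injective
      rw [← hF, h0, map_zero]
    set G := MvPolynomial.optionEquivLeft ℤ {j // j ≠ i₀} F with hG
    have hG0 : G ≠ 0 := EmbeddingLike.map_ne_zero_iff.2 hF0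
    set K := G.natDegree with hK
    set Q := G.leadingCoeff with hQ
    have hQ0 : Q ≠ 0 := Polynomial.leadingCoeff_ne_zero.2 hG0
    have hdeg : Q.totalDegree + K ≤ P.totalDegree := by
      have h1 : K ≤ F.totalDegree := by
        rw [hK, hG, MvPolynomial.natDegree_optionEquivLeft]
        exact MvPolynomial.degreeOf_le_totalDegree F none
      have h2 := MvPolynomial.totalDegree_coeff_optionEquivLeft_add_le ℤ {j // j ≠ i₀} F K h1
      exact h2.trans (MvPolynomial.totalDegree_rename_le _ _)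
    -- evaluation
    have heval : ∀ x : ι → ℤ, MvPolynomial.eval x P =
        Polynomial.eval (x i₀) (G.map (MvPolynomial.eval fun j : {j // j ≠ i₀} => x j)) := by
      intro x
      rw [hG, ← MvPolynomial.optionEquivLeft_elim_eval, hF, MvPolynomial.eval_rename]
      congr 2
      funext i
      simp only [Function.comp]
      by_cases hi : i = i₀
      · subst hi
        rw [he, Equiv.optionSubtypeNe_symm_self]
        rfl
      · rw [he, Equiv.optionSubtypeNe_symm_of_ne hi]
        rfl
    set p' : ∀ j : {j // j ≠ i₀}, Ω j → ℝ := fun j => p j with hp'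
    have hIH := ih hcard' p' (fun j a => hp0 j a) (fun j => hp1 j) (fun j => X j) κ
      (fun j c => hatom j c) Q hQ0
    -- Fubini
    rw [smpP_eq, smpE_split p i₀]
    have hpt : ∀ ρ : (∀ j : {j // j ≠ i₀}, Ω j),
        (∑ a, p i₀ a • (if MvPolynomial.eval
          (fun i => X i ((Equiv.piSplitAt i₀ Ω).symm (a, ρ) i)) P = 0 then (1 : ℝ) else 0)) ≤
        (if MvPolynomial.eval (fun j : {j // j ≠ i₀} => X j (ρ j)) Q = 0 then (1 : ℝ) else 0) +
          K * κ := by
      intro ρ
      have h1 : ∀ a : Ω i₀, MvPolynomial.eval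
          (fun i => X i ((Equiv.piSplitAt i₀ Ω).symm (a, ρ) i)) P =
          Polynomial.eval (X i₀ a)
            (G.map (MvPolynomial.eval fun j : {j // j ≠ i₀} => X j (ρ j))) := by
        intro a
        rw [heval, smp_split_self]
        congr 3
        funext j
        rw [smp_split_ne]
      simp only [h1, smul_eq_mul, mul_ite, mul_one, mul_zero]
      rw [← Finset.sum_filter]
      by_cases hQρ : MvPolynomial.eval (fun j : {j // j ≠ i₀} => X j (ρ j)) Q = 0
      · rw [if_pos hQρ]
        have h2 : ∑ a with Polynomial.eval (X i₀ a)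
            (G.map (MvPolynomial.eval fun j : {j // j ≠ i₀} => X j (ρ j))) = 0, p i₀ a ≤ 1 := by
          rw [← hp1 i₀]
          exact Finset.sum_le_sum_of_subset_of_nonneg (Finset.filter_subset _ _)
            fun a _ _ => hp0 i₀ a
        have h3 : 0 ≤ (K : ℝ) * κ := by positivity
        linarith
      · rw [if_neg hQρ, zero_add]
        set g := G.map (MvPolynomial.eval fun j : {j // j ≠ i₀} => X j (ρ j)) with hg
        have hgdeg : g.natDegree = K :=
          Polynomial.natDegree_map_of_leadingCoeff_ne_zero _ hQρ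
        have hg0 : g ≠ 0 := by
          intro h0
          apply hQρ
          have h4 : g.coeff K = 0 := by rw [h0, Polynomial.coeff_zero]
          rw [hg, Polynomial.coeff_map] at h4
          exact h4
        have h5 := smp_root_atom (p i₀) (hp0 i₀) (X i₀) κ (hatom i₀) g hg0
        rwa [hgdeg] at h5
    refine (smpE_mono p' (fun j a => hp0 j a) hpt).trans ?_
    have hsum : smpE p' (fun ρ =>
        (if MvPolynomial.eval (fun j : {j // j ≠ i₀} => X j (ρ j)) Q = 0 then (1 : ℝ) else 0) +
          K * κ) =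
        smpP p' (fun ρ => MvPolynomial.eval (fun j : {j // j ≠ i₀} => X j (ρ j)) Q = 0) +
          K * κ := by
      rw [smpP_eq, smpE_add, smpE_const p' (fun j => hp1 j)]
    rw [hsum]
    have hfin : (Q.totalDegree : ℝ) * κ + K * κ ≤ P.totalDegree * κ := by
      rw [← add_mul]
      refine mul_le_mul_of_nonneg_right ?_ hκ
      exact_mod_cast hdeg
    linarith

/-- **Schwartz-Zippel with atoms** (KK 9.g, INJ 4.5): independent integer variables all of whose
atoms have mass at most `κ`; a nonzero polynomial vanishes with probability at most `deg * κ`. -/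
theorem smp_poly_atom {ι : Type u} [Fintype ι] [DecidableEq ι] {Ω : ι → Type v}
    [∀ i, Fintype (Ω i)] (p : ∀ i, Ω i → ℝ) (hp0 : ∀ i a, 0 ≤ p i a) (hp1 : ∀ i, ∑ a, p i a = 1) (X : ∀ i, Ω i → ℤ)
    (κ : ℝ) (hatom : ∀ i (c : ℤ), ∑ a with X i a = c, p i a ≤ κ)
    (P : MvPolynomial ι ℤ) (hP : P ≠ 0) :
    smpP p (fun ω => MvPolynomial.eval (fun i => X i (ω i)) P = 0) ≤ P.totalDegree * κ :=
  smp_poly_atom_aux (Fintype.card ι) rfl p hp0 hp1 X κ hatom P hP

open MeasureTheory in
/-- finite products: `Measure.pi` of the point-mass measures is `smpP`. -/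
theorem smp_pi_measure {ι : Type u} [Fintype ι] [DecidableEq ι] {Ω : ι → Type v}
    [∀ i, Fintype (Ω i)] [∀ i, MeasurableSpace (Ω i)] [∀ i, MeasurableSingletonClass (Ω i)]
    (p : ∀ i, Ω i → ℝ) (hp0 : ∀ i a, 0 ≤ p i a)
    (μ : ∀ i, Measure (Ω i)) [∀ i, SigmaFinite (μ i)]
    (hμ : ∀ i a, μ i {a} = ENNReal.ofReal (p i a)) (B : (∀ i, Ω i) → Prop) :
    Measure.pi μ {x | B x} = ENNReal.ofReal (smpP p B) := by
  classical
  have h1 : Measure.pi μ {x | B x} = ∑ x ∈ univ.filter B, Measure.pi μ {x} := by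
    rw [sum_measure_singleton]
    congr 1
    ext x
    simp
  rw [h1, smpP_eq]
  unfold smpE
  simp only [smul_eq_mul, mul_ite, mul_one, mul_zero]
  rw [← Finset.sum_filter, ENNReal.ofReal_sum_of_nonneg fun x _ => smp_weight_nonneg p hp0 x]
  refine Finset.sum_congr rfl fun x _ => ?_
  rw [Measure.pi_singleton, ENNReal.ofReal_prod_of_nonneg fun i _ => hp0 i (x i)]
  exact Finset.prod_congr rfl fun i _ => hμ i (x i)

open MeasureTheory in
/-- **Selection** (KK 9.i / INJ end of Section 4).  Arbitrarily many finite weighted coordinates,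
countably many bad events, each depending on finitely many coordinates; if the probabilities
(computed on those finitely many coordinates) have sum `< 1`, all bad events can be avoided. -/
theorem smp_select {ι : Type u} [DecidableEq ι] {Ω : ι → Type v} [∀ i, Fintype (Ω i)]
    (p : ∀ i, Ω i → ℝ) (hp0 : ∀ i a, 0 ≤ p i a) (hp1 : ∀ i, ∑ a, p i a = 1)
    {κ : Type w} [Countable κ] (S : κ → Finset ι)
    (Bad : ∀ k, (∀ i : S k, Ω i) → Prop) (ε : κ → ℝ)
    (hε : ∀ k, smpP (fun i : S k => p i) (Bad k) ≤ ε k)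
    (hsum : Summable ε) (hlt : ∑' k, ε k < 1) :
    ∃ ω : ∀ i, Ω i, ∀ k, ¬ Bad k (fun i : S k => ω i) := by
  classical
  let _ : ∀ i, MeasurableSpace (Ω i) := fun _ => ⊤
  have hms : ∀ i, MeasurableSingletonClass (Ω i) := fun i => ⟨fun _ => trivial⟩
  have hone : ∀ i, ∑ a, ENNReal.ofReal (p i a) = 1 := by
    intro i
    rw [← ENNReal.ofReal_sum_of_nonneg fun a _ => hp0 i a, hp1 i, ENNReal.ofReal_one]
  set μ : ∀ i, Measure (Ω i) :=
    fun i => (PMF.ofFintype (fun a => ENNReal.ofReal (p i a)) (hone i)).toMeasure with hμ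
  have hμs : ∀ i a, μ i {a} = ENNReal.ofReal (p i a) := by
    intro i a
    rw [hμ]
    simp only
    rw [PMF.toMeasure_apply_singleton _ _ (measurableSet_singleton a), PMF.ofFintype_apply]
  have hprob : ∀ i, IsProbabilityMeasure (μ i) := fun i => by
    rw [hμ]; infer_instance
  have hcyl : ∀ k, Measure.infinitePi μ (cylinder (S k) {x | Bad k x}) =
      ENNReal.ofReal (smpP (fun i : S k => p i) (Bad k)) := by
    intro k
    rw [Measure.infinitePi_cylinder μ (Set.toFinite _).measurableSet]
    exact smp_pi_measure (fun i : S k => p i) (fun i a => hp0 i a) (fun i : S k => μ i)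
      (fun i a => hμs i a) (Bad k)
  have hε0 : ∀ k, 0 ≤ ε k := fun k =>
    (smpP_nonneg (fun i : S k => p i) (fun i a => hp0 i a) (Bad k)).trans (hε k)
  have hun : Measure.infinitePi μ (⋃ k, cylinder (S k) {x | Bad k x}) < 1 := by
    calc Measure.infinitePi μ (⋃ k, cylinder (S k) {x | Bad k x})
        ≤ ∑' k, Measure.infinitePi μ (cylinder (S k) {x | Bad k x}) := measure_iUnion_le _
      _ ≤ ∑' k, ENNReal.ofReal (ε k) := by
          refine ENNReal.tsum_le_tsum fun k => ?_
          rw [hcyl]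
          exact ENNReal.ofReal_le_ofReal (hε k)
      _ = ENNReal.ofReal (∑' k, ε k) := (ENNReal.ofReal_tsum_of_nonneg hε0 hsum).symm
      _ < 1 := by
          rw [← ENNReal.ofReal_one]
          exact (ENNReal.ofReal_lt_ofReal_iff one_pos).2 hlt
  by_contra hcon
  push Not at hcon
  have huniv : (⋃ k, cylinder (S k) {x | Bad k x}) = (Set.univ : Set (∀ i, Ω i)) := by
    refine Set.eq_univ_of_forall fun ω => ?_
    obtain ⟨k, hk⟩ := hcon ω
    exact Set.mem_iUnion.2 ⟨k, hk⟩
  rw [huniv, measure_univ] at hun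
  exact lt_irrefl _ hun

end Claimed.Agent.R300
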