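/-
Row 300, shared sampling machine (SMP), trace method for independent centred matrix entries on the
edges of a finite multigraph (KK step 9.h and Lemma 9.4, INJ Lemma 4.9).  Sub-captain: helper21.
Hints.  `smp_norm_pow_le_trace`: `A ^ (2 l) = (A ^ l)ᴴ * A ^ l` is positive semidefinite with
`‖A ^ l‖ ^ 2 = ‖A ^ (2 l)‖`; `‖A ^ l‖ = ‖A‖ ^ l` for selfadjoint elements of a C*-algebra
(`IsSelfAdjoint.nnnorm_pow_two_pow` + monotonicity trick, or the spectral radius); the norm of a positive
semidefinite matrix is at most its trace.  `smp_mat_tail`: `smp_moment_abstract` with `R = Matrix K K ℂ`,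
`t = Re tr`, `c = card K * M ^ (2 l)`, then `smpP_markov` for `‖A‖ ^ (2 l)`.
-/
import Claimed.Agent.R300.SmpPath

set_option autoImplicit false

namespace Claimed.Agent.R300

open HeisLaw Finset Matrix
open scoped Matrix.Norms.L2Operator Kronecker

universe u

section matrix

variable {K : Type u} [Fintype K] [DecidableEq K]

/-- `|tr B| ≤ |K| ‖B‖` for the `ℓ²` operator norm. -/
theorem smp_abs_trace_le (B : Matrix K K ℂ) : ‖Matrix.trace B‖ ≤ Fintype.card K * ‖B‖ := by
  have hentry : ∀ i, ‖B i i‖ ≤ ‖B‖ := by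
    intro i
    have h1 := Matrix.l2_opNorm_mulVec B (EuclideanSpace.single i (1 : ℂ))
    rw [EuclideanSpace.single, PiLp.norm_single, norm_one, mul_one] at h1
    have h2 := PiLp.norm_apply_le (WithLp.toLp 2 (B *ᵥ (EuclideanSpace.single i (1 : ℂ)).ofLp)) i
    have h3 : (WithLp.toLp 2 (B *ᵥ (EuclideanSpace.single i (1 : ℂ)).ofLp)) i = B i i := by
      simp [Matrix.mulVec_single]
    rw [h3] at h2
    exact h2.trans h1
  calc ‖Matrix.trace B‖ ≤ ∑ i, ‖B i i‖ := norm_sum_le _ _
    _ ≤ ∑ _i : K, ‖B‖ := Finset.sum_le_sum fun i _ => hentry i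
    _ = Fintype.card K * ‖B‖ := by rw [Finset.sum_const, nsmul_eq_mul, Finset.card_univ]

/-- the norm of a Hermitian matrix is the sup norm of its eigenvalues. -/
theorem smp_norm_eq_eigenvalues (A : Matrix K K ℂ) (hA : A.IsHermitian) :
    ‖A‖ = ‖(fun i => ((hA.eigenvalues i : ℝ) : ℂ))‖ := by
  conv_lhs => rw [hA.spectral_theorem, Unitary.conjStarAlgAut_apply]
  rw [← Unitary.coe_star, CStarRing.norm_mul_coe_unitary, CStarRing.norm_coe_unitary_mul,
    Matrix.l2_opNorm_diagonal]
  rfl

theorem smp_trace_pow_eigenvalues (A : Matrix K K ℂ) (hA : A.IsHermitian) (n : ℕ) :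
    Matrix.trace (A ^ n) = ∑ i, ((hA.eigenvalues i : ℝ) : ℂ) ^ n := by
  conv_lhs => rw [hA.spectral_theorem, ← map_pow, Unitary.conjStarAlgAut_apply]
  rw [Matrix.trace_mul_cycle, Unitary.coe_star_mul_self, one_mul, Matrix.diagonal_pow,
    Matrix.trace_diagonal]
  rfl

/-- For a Hermitian matrix, `‖A‖ ^ (2 l) ≤ Re tr (A ^ (2 l))`.
(`Nonempty K` added by helper217: the statement fails for `K = ∅`, `l = 0`.) -/
theorem smp_norm_pow_le_trace [Nonempty K] (A : Matrix K K ℂ) (hA : A.IsHermitian) (l : ℕ) :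
    ‖A‖ ^ (2 * l) ≤ (Matrix.trace (A ^ (2 * l))).re := by
  rw [smp_norm_eq_eigenvalues A hA, smp_trace_pow_eigenvalues A hA]
  have h1 : (∑ i, ((hA.eigenvalues i : ℝ) : ℂ) ^ (2 * l)).re = ∑ i, (hA.eigenvalues i) ^ (2 * l) := by
    rw [Complex.re_sum]
    refine Finset.sum_congr rfl fun i _ => ?_
    rw [← Complex.ofReal_pow, Complex.ofReal_re]
  rw [h1, Pi.norm_def]
  obtain ⟨i₀, -, hi₀⟩ := Finset.exists_mem_eq_sup (Finset.univ : Finset K) Finset.univ_nonempty
    (fun i => ‖((hA.eigenvalues i : ℝ) : ℂ)‖₊)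
  rw [hi₀, coe_nnnorm, Complex.norm_real, Real.norm_eq_abs, pow_mul, sq_abs, ← pow_mul]
  exact Finset.single_le_sum (f := fun i => (hA.eigenvalues i) ^ (2 * l))
    (fun i _ => by rw [pow_mul]; positivity) (Finset.mem_univ i₀)

variable {V E : Type u} [Fintype V] [DecidableEq V] [Fintype E] [DecidableEq E]

/-- The Hermitian matrix on `V × K` with the block `y e` at `(src e, tgt e)` and its adjoint at
`(tgt e, src e)`. -/
noncomputable def smpMat (src tgt : E → V) (y : E → Matrix K K ℂ) : Matrix (V × K) (V × K) ℂ :=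
  ∑ e, ((Matrix.single (src e) (tgt e) (1 : ℂ)) ⊗ₖ (y e)
    + (Matrix.single (tgt e) (src e) (1 : ℂ)) ⊗ₖ (y e)ᴴ)

theorem smpMat_isHermitian (src tgt : E → V) (y : E → Matrix K K ℂ) :
    (smpMat src tgt y).IsHermitian := by
  unfold Matrix.IsHermitian smpMat
  rw [Matrix.conjTranspose_sum]
  refine Finset.sum_congr rfl fun e _ => ?_
  rw [Matrix.conjTranspose_add, Matrix.conjTranspose_kronecker, Matrix.conjTranspose_kronecker,
    Matrix.conjTranspose_single, Matrix.conjTranspose_single, Matrix.conjTranspose_conjTranspose,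
    star_one, add_comm]

theorem smpMat_apply (src tgt : E → V) (y : E → Matrix K K ℂ) (a b : V × K) :
    smpMat src tgt y a b = ∑ e, ((if src e = a.1 ∧ tgt e = b.1 then y e a.2 b.2 else 0)
      + (if tgt e = a.1 ∧ src e = b.1 then star (y e b.2 a.2) else 0)) := by
  obtain ⟨a1, a2⟩ := a
  obtain ⟨b1, b2⟩ := b
  simp only [smpMat, Matrix.sum_apply, Matrix.add_apply, Matrix.kroneckerMap_apply,
    Matrix.single_apply, Matrix.conjTranspose_apply, ite_mul, one_mul, zero_mul]

/-- `smpMat` is `smpRMat` over the ring `Matrix K K ℂ`, flattened. -/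
theorem smpMat_eq_comp (src tgt : E → V) (y : E → Matrix K K ℂ) :
    smpMat src tgt y = Matrix.comp V V K K ℂ (smpRMat src tgt y (fun e => (y e)ᴴ)) := by
  ext a b
  rw [smpMat_apply]
  obtain ⟨a1, a2⟩ := a
  obtain ⟨b1, b2⟩ := b
  simp only [Matrix.comp_apply, smpRMat, Matrix.sum_apply, Matrix.add_apply, Matrix.single_apply]
  refine Finset.sum_congr rfl fun e _ => ?_
  congr 1
  · split_ifs <;> simp
  · split_ifs <;> simp

theorem smpMat_trace_pow (src tgt : E → V) (y : E → Matrix K K ℂ) (n : ℕ) :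
    Matrix.trace (smpMat src tgt y ^ n)
      = ∑ v, Matrix.trace ((smpRMat src tgt y (fun e => (y e)ᴴ) ^ n) v v) := by
  rw [smpMat_eq_comp, ← Matrix.compRingEquiv_apply, ← map_pow, Matrix.compRingEquiv_apply]
  simp only [Matrix.trace, Matrix.diag_apply, Fintype.sum_prod_type, Matrix.comp_apply]

variable {Ω : E → Type u} [∀ e, Fintype (Ω e)]

/-- **Tail bound** (engine of KK 9.h, 9.4 and INJ 4.9): independent centred blocks of norm `≤ M`
on the edges of a finite multigraph; `Wn` bounds the number of closed walks of length `2 l`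
without singleton edge from any vertex. -/
theorem smp_mat_tail (src tgt : E → V) (p : ∀ e, Ω e → ℝ) (hp0 : ∀ e a, 0 ≤ p e a)
    (hp1 : ∀ e, ∑ a, p e a = 1) (x : ∀ e, Ω e → Matrix K K ℂ) (M : ℝ)
    (hM : ∀ e a, ‖x e a‖ ≤ M) (hc : ∀ e, ∑ a, p e a • x e a = 0) (l Wn : ℕ)
    (hW : ∀ (v : V) (S : Finset (List (E × Bool))),
      (∀ w ∈ S, w.length = 2 * l ∧ (smpGraph src tgt).IsWalk v w v ∧
        smpNoSingle (smpGraph src tgt) w) → S.card ≤ Wn)
    (τ : ℝ) (hτ : 0 < τ) :
    smpP p (fun ω => τ ≤ ‖smpMat src tgt (fun e => x e (ω e))‖)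
      ≤ (Fintype.card V * Fintype.card K * Wn) * (M / τ) ^ (2 * l) := by
  classical
  have hpow0 : 0 ≤ M ^ (2 * l) := by rw [pow_mul]; positivity
  rcases isEmpty_or_nonempty (V × K) with hemp | hne
  · have h0 : ∀ ω : ∀ e, Ω e, ¬ (τ ≤ ‖smpMat src tgt (fun e => x e (ω e))‖) := by
      intro ω
      have : smpMat src tgt (fun e => x e (ω e)) = 0 := Subsingleton.elim _ _
      rw [this, norm_zero]; exact not_le.mpr hτ
    have h1 : smpP p (fun ω => τ ≤ ‖smpMat src tgt (fun e => x e (ω e))‖) = 0 := by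
      rw [smpP_eq]
      simp only [h0, if_false]
      simp [smpE]
    rw [h1, div_pow]
    positivity
  obtain ⟨⟨v₀, k₀⟩⟩ := hne
  have : Nonempty K := ⟨k₀⟩
  have : Nonempty (V × K) := ⟨(v₀, k₀)⟩
  set t : Matrix K K ℂ →ₗ[ℝ] ℝ := Complex.reLm ∘ₗ (Matrix.traceLinearMap K ℝ ℂ) with ht
  have ht_apply : ∀ B : Matrix K K ℂ, t B = (Matrix.trace B).re := fun B => rfl
  have hcs : ∀ e, ∑ a, p e a • (x e a)ᴴ = 0 := by
    intro e
    have := congrArg Matrix.conjTranspose (hc e)
    rw [Matrix.conjTranspose_sum, Matrix.conjTranspose_zero] at this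
    rw [← this]
    refine Finset.sum_congr rfl fun a _ => ?_
    rw [Matrix.conjTranspose_smul, star_trivial]
  have hval : ∀ (ω : ∀ e, Ω e) (d : E × Bool),
      ‖smpDVal (fun e => x e (ω e)) (fun e => (x e (ω e))ᴴ) d‖ ≤ M := by
    intro ω d
    unfold smpDVal
    split_ifs
    · rw [Matrix.l2_opNorm_conjTranspose]; exact hM _ _
    · exact hM _ _
  have hprod : ∀ (ω : ∀ e, Ω e) (w : List (E × Bool)),
      ‖(w.map (smpDVal (fun e => x e (ω e)) (fun e => (x e (ω e))ᴴ))).prod‖ ≤ M ^ w.length := by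
    intro ω w
    induction w with
    | nil => simp
    | cons d w ih =>
      rw [List.map_cons, List.prod_cons, List.length_cons, pow_succ']
      have hM0 : 0 ≤ M := (norm_nonneg _).trans (hval ω d)
      exact (norm_mul_le _ _).trans (mul_le_mul (hval ω d) ih (norm_nonneg _) hM0)
  have hmom := smp_moment_abstract p hp0 hp1 x (fun e a => (x e a)ᴴ) hc hcs src tgt (2 * l) Wn t
    (Fintype.card K * M ^ (2 * l)) (by positivity)
    (by
      intro ω w hw
      rw [ht_apply]
      calc |(Matrix.trace (w.map (smpDVal (fun e => x e (ω e)) (fun e => (x e (ω e))ᴴ))).prod).re|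
          ≤ ‖Matrix.trace (w.map (smpDVal (fun e => x e (ω e)) (fun e => (x e (ω e))ᴴ))).prod‖ :=
            Complex.abs_re_le_norm _
        _ ≤ Fintype.card K * ‖(w.map (smpDVal (fun e => x e (ω e)) (fun e => (x e (ω e))ᴴ))).prod‖ :=
            smp_abs_trace_le _
        _ ≤ Fintype.card K * M ^ (2 * l) := by
            have := hprod ω w
            rw [hw] at this
            exact mul_le_mul_of_nonneg_left this (by positivity))
    hW
  have htr : ∀ ω : ∀ e, Ω e,
      ‖smpMat src tgt (fun e => x e (ω e))‖ ^ (2 * l) ≤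
      ∑ v, t ((smpRMat src tgt (fun e => x e (ω e)) (fun e => (x e (ω e))ᴴ) ^ (2 * l)) v v) := by
    intro ω
    refine (smp_norm_pow_le_trace _ (smpMat_isHermitian src tgt _) l).trans (le_of_eq ?_)
    rw [smpMat_trace_pow, Complex.re_sum]
    rfl
  have hτn : 0 < τ ^ (2 * l) := by positivity
  calc smpP p (fun ω => τ ≤ ‖smpMat src tgt (fun e => x e (ω e))‖)
      ≤ smpP p (fun ω => τ ^ (2 * l) ≤ ‖smpMat src tgt (fun e => x e (ω e))‖ ^ (2 * l)) :=
        smpP_mono p hp0 (fun ω h => pow_le_pow_left₀ hτ.le h _)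
    _ ≤ smpE p (fun ω => ‖smpMat src tgt (fun e => x e (ω e))‖ ^ (2 * l)) / τ ^ (2 * l) :=
        smpP_markov p hp0 _ (fun ω => by positivity) _ hτn
    _ ≤ (Fintype.card V * Wn * (Fintype.card K * M ^ (2 * l))) / τ ^ (2 * l) := by
        apply div_le_div_of_nonneg_right _ hτn.le
        exact (smpE_mono p hp0 htr).trans hmom
    _ = (Fintype.card V * Fintype.card K * Wn) * (M / τ) ^ (2 * l) := by
        rw [div_pow]; ring

end matrix

/-- Sequences of length `2 k` in a set of `m` elements in which no element occurs exactly once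
(walk count for the graph with two vertices and `m` parallel edges; KK Lemma 9.4). -/
theorem smp_dipole_count {E : Type u} [Fintype E] [DecidableEq E] (k : ℕ)
    (S : Finset (List E)) (hS : ∀ w ∈ S, w.length = 2 * k ∧ ∀ e, w.count e ≠ 1) :
    S.card ≤ (k + 1) * (k ^ 2 * Fintype.card E) ^ k := by
  classical
  -- every sequence of the family factors through `Fin k`
  have hsurj : ∀ w ∈ S, ∃ q : (Fin k → E) × (Fin (2 * k) → Fin k), List.ofFn (q.1 ∘ q.2) = w := by
    intro w hw
    obtain ⟨hlen, hcnt⟩ := hS w hw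
    have hcard : w.toFinset.card ≤ k := by
      have h1 : ∑ e ∈ w.toFinset, w.count e = w.length := List.sum_toFinset_count_eq_length w
      have h2 : ∑ _e ∈ w.toFinset, 2 ≤ ∑ e ∈ w.toFinset, w.count e := by
        apply Finset.sum_le_sum
        intro e he
        have h3 := List.count_pos_iff.mpr (List.mem_toFinset.mp he)
        have h4 := hcnt e
        omega
      rw [Finset.sum_const, smul_eq_mul, h1, hlen] at h2
      omega
    rcases Nat.eq_zero_or_pos k with rfl | hk
    · have : w = [] := List.length_eq_zero_iff.mp (by simpa using hlen)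
      subst this
      exact ⟨(fun i => i.elim0, fun i => i.elim0), by simp⟩
    have hne : w ≠ [] := by
      intro h; rw [h] at hlen; simp at hlen; omega
    obtain ⟨e₀, -⟩ := List.exists_mem_of_ne_nil w hne
    obtain ⟨ι⟩ : Nonempty (w.toFinset ↪ Fin k) :=
      Function.Embedding.nonempty_of_card_le (by
        rw [Fintype.card_coe, Fintype.card_fin]; exact hcard)
    refine ⟨(Function.extend ι Subtype.val (fun _ => e₀),
      fun i => ι ⟨w[(i : ℕ)]'(by rw [hlen]; exact i.2), List.mem_toFinset.mpr (List.getElem_mem _)⟩), ?_⟩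
    apply List.ext_getElem
    · simp [hlen]
    · intro i h1 h2
      simp only [List.getElem_ofFn, Function.comp_apply]
      rw [ι.injective.extend_apply]
  have hcard : S.card ≤ (Finset.univ : Finset ((Fin k → E) × (Fin (2 * k) → Fin k))).card := by
    apply Finset.card_le_card_of_surjOn (fun q => List.ofFn (q.1 ∘ q.2))
    intro w hw
    obtain ⟨q, hq⟩ := hsurj w hw
    exact ⟨q, Finset.mem_coe.mpr (Finset.mem_univ _), hq⟩
  rw [Finset.card_univ, Fintype.card_prod, Fintype.card_fun, Fintype.card_fun, Fintype.card_fin,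
    Fintype.card_fin] at hcard
  calc S.card ≤ Fintype.card E ^ k * k ^ (2 * k) := hcard
    _ = (k ^ 2 * Fintype.card E) ^ k := by rw [mul_pow, ← pow_mul, mul_comm]
    _ ≤ (k + 1) * (k ^ 2 * Fintype.card E) ^ k := Nat.le_mul_of_pos_left _ (by omega)

end Claimed.Agent.R300
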