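/-
Row 300, shared sampling machine (SMP): the centred random block  (KK step 9.h = INJ Lemma 4.9).
Sub-captain: helper21.  Proofs: helper141 (auxiliary names: prefix `smpb`).

`smpCoef src tgt W z` are the coefficients of the selfadjoint operator
`∑ e, (E_{src e, tgt e} ⊗ W e ⊗ ρ (z e) + adjoint)` on `ℓ²(G × (V × ι))`.
-/
import Claimed.Agent.R300.SmpConv
import Claimed.Agent.R300.SmpTrace
import Claimed.Agent.R300.SmpSelect
import Claimed.Agent.R298.OpNorm

set_option autoImplicit false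
set_option linter.unusedSectionVars false

namespace Claimed.Agent.R300

open HeisLaw Finset Matrix
open scoped Matrix.Norms.L2Operator
open Claimed.Agent.R298 (opnSq opnSq_mulVec_le opn_le_iff opn_submatrix_equiv opnSq_nonneg)

variable {G : Type} [Group G] [DecidableEq G]
variable {V E ι : Type} [Fintype V] [DecidableEq V] [Fintype E] [DecidableEq E]
  [Fintype ι] [DecidableEq ι]

/-- Coefficients of `∑ e, (E_{src e, tgt e} ⊗ W e ⊗ ρ (z e) + adjoint)`. -/
def smpCoef (src tgt : E → V) (W : E → Matrix ι ι ℂ) (z : E → G) :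
    V × ι → V × ι → G → ℂ := fun a b g =>
  ∑ e, ((if src e = a.1 ∧ tgt e = b.1 ∧ z e = g then W e a.2 b.2 else 0)
    + (if tgt e = a.1 ∧ src e = b.1 ∧ (z e)⁻¹ = g then star (W e b.2 a.2) else 0))

/-! ### darts -/

/-- block carried by a dart. -/
def smpbW (W : E → Matrix ι ι ℂ) (d : E × Bool) : Matrix ι ι ℂ :=
  if d.2 then (W d.1)ᴴ else W d.1

/-- group element carried by a dart. -/
def smpbZ (z : E → G) (d : E × Bool) : G := if d.2 then (z d.1)⁻¹ else z d.1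

omit [Fintype V] [Fintype ι] [DecidableEq ι] [DecidableEq E] in
theorem smpCoef_eq_darts (src tgt : E → V) (W : E → Matrix ι ι ℂ) (z : E → G) (a b : V × ι)
    (g : G) : smpCoef src tgt W z a b g = ∑ d : E × Bool,
      if (smpGraph src tgt).src d = a.1 ∧ (smpGraph src tgt).tgt d = b.1 ∧ smpbZ z d = g
        then smpbW W d a.2 b.2 else 0 := by
  rw [Fintype.sum_prod_type]
  simp only [smpCoef, Fintype.sum_bool, smpGraph, HlGraph.tgt, smpbW, smpbZ]
  refine Finset.sum_congr rfl fun e _ => ?_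
  simp [add_comm, Matrix.conjTranspose_apply]

theorem smpb_norm_W (W : E → Matrix ι ι ℂ) (M : ℝ) (hM : ∀ e, ‖W e‖ ≤ M) (d : E × Bool) :
    ‖smpbW W d‖ ≤ M := by
  unfold smpbW
  split_ifs
  · rw [Matrix.l2_opNorm_conjTranspose]; exact hM _
  · exact hM _

/-- entries are bounded by the operator norm. -/
theorem smpb_entry_le (A : Matrix ι ι ℂ) (i j : ι) : ‖A i j‖ ≤ ‖A‖ := by
  have h := opnSq_mulVec_le A (Pi.single j 1)
  have h1 : opnSq (Pi.single j (1 : ℂ) : ι → ℂ) = 1 := by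
    unfold opnSq
    rw [Finset.sum_eq_single j]
    · simp
    · intro b _ hb; simp [hb]
    · simp
  rw [h1, mul_one] at h
  have h2 : ‖A i j‖ ^ 2 ≤ opnSq (A *ᵥ Pi.single j 1) := by
    unfold opnSq
    have := Finset.single_le_sum (f := fun i => ‖(A *ᵥ Pi.single j 1) i‖ ^ 2)
      (fun i _ => sq_nonneg _) (Finset.mem_univ i)
    simpa using this
  exact (pow_le_pow_iff_left₀ (norm_nonneg _) (norm_nonneg _) two_ne_zero).1 (h2.trans h)

/-- number of darts leaving / entering a vertex. -/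
theorem smpb_card_src (src tgt : E → V) (Δ : ℕ)
    (hΔ : ∀ (x : V) (T : Finset (E × Bool)), (∀ d ∈ T, (smpGraph src tgt).src d = x) → T.card ≤ Δ)
    (x : V) : (univ.filter fun d => (smpGraph src tgt).src d = x).card ≤ Δ :=
  hΔ x _ fun _ hd => (Finset.mem_filter.1 hd).2

theorem smpb_card_tgt (src tgt : E → V) (Δ : ℕ)
    (hΔ : ∀ (x : V) (T : Finset (E × Bool)), (∀ d ∈ T, (smpGraph src tgt).src d = x) → T.card ≤ Δ)
    (x : V) : (univ.filter fun d => (smpGraph src tgt).tgt d = x).card ≤ Δ := by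
  have hinj : Function.Injective (smpGraph src tgt).inv := fun a b h => by
    rw [← (smpGraph src tgt).inv_inv a, h, (smpGraph src tgt).inv_inv]
  rw [← Finset.card_image_of_injective _ hinj]
  refine hΔ x _ fun d hd => ?_
  obtain ⟨d', hd', rfl⟩ := Finset.mem_image.1 hd
  exact (Finset.mem_filter.1 hd').2

/-! ### scalar row and column sums -/

theorem smpb_inner (P : Prop) [Decidable P] (t0 : V) (g0 : G) (Sg : Finset G) (M : ℝ)
    (hM0 : 0 ≤ M) :
    ∑ v : V × ι, ∑ g ∈ Sg, (if P ∧ t0 = v.1 ∧ g0 = g then M else 0) ≤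
      if P then (Fintype.card ι : ℝ) * M else 0 := by
  by_cases hP : P
  · simp only [hP, true_and, if_true]
    have h1 : ∀ v : V × ι, ∑ g ∈ Sg, (if t0 = v.1 ∧ g0 = g then M else 0) ≤
        if t0 = v.1 then M else 0 := by
      intro v
      by_cases hv : t0 = v.1
      · simp only [hv, true_and, if_true]
        rw [Finset.sum_ite_eq]
        split_ifs
        · exact le_rfl
        · exact hM0
      · simp [hv]
    refine (Finset.sum_le_sum fun v _ => h1 v).trans (le_of_eq ?_)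
    rw [Fintype.sum_prod_type]
    rw [Finset.sum_eq_single t0]
    · simp
    · intro b _ hb
      simp [Ne.symm hb]
    · simp
  · simp [hP]

theorem smpb_norm_coef_le (src tgt : E → V) (W : E → Matrix ι ι ℂ) (z : E → G) (M : ℝ)
    (hM : ∀ e, ‖W e‖ ≤ M) (a b : V × ι) (g : G) :
    ‖smpCoef src tgt W z a b g‖ ≤ ∑ d : E × Bool,
      if (smpGraph src tgt).src d = a.1 ∧ (smpGraph src tgt).tgt d = b.1 ∧ smpbZ z d = g
        then M else 0 := by
  rw [smpCoef_eq_darts]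
  refine (norm_sum_le _ _).trans (Finset.sum_le_sum fun d _ => ?_)
  split_ifs
  · exact (smpb_entry_le _ _ _).trans (smpb_norm_W W M hM d)
  · simp

theorem smpb_row (src tgt : E → V) (W : E → Matrix ι ι ℂ) (z : E → G) (M : ℝ)
    (hM0 : 0 ≤ M) (hM : ∀ e, ‖W e‖ ≤ M) (Δ : ℕ)
    (hΔ : ∀ (x : V) (T : Finset (E × Bool)), (∀ d ∈ T, (smpGraph src tgt).src d = x) → T.card ≤ Δ)
    (Sg : Finset G) (u : V × ι) :
    ∑ v : V × ι, ∑ g ∈ Sg, ‖smpCoef src tgt W z u v g‖ ≤ Δ * M * Fintype.card ι := by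
  calc ∑ v : V × ι, ∑ g ∈ Sg, ‖smpCoef src tgt W z u v g‖
      ≤ ∑ v : V × ι, ∑ g ∈ Sg, ∑ d : E × Bool,
        (if (smpGraph src tgt).src d = u.1 ∧ (smpGraph src tgt).tgt d = v.1 ∧ smpbZ z d = g
          then M else 0) :=
        Finset.sum_le_sum fun v _ => Finset.sum_le_sum fun g _ =>
          smpb_norm_coef_le src tgt W z M hM u v g
    _ = ∑ d : E × Bool, ∑ v : V × ι, ∑ g ∈ Sg,
        (if (smpGraph src tgt).src d = u.1 ∧ (smpGraph src tgt).tgt d = v.1 ∧ smpbZ z d = g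
          then M else 0) :=
        (Finset.sum_congr rfl fun v _ => Finset.sum_comm).trans Finset.sum_comm
    _ ≤ ∑ d : E × Bool, (if (smpGraph src tgt).src d = u.1 then (Fintype.card ι : ℝ) * M else 0) :=
        Finset.sum_le_sum fun d _ => smpb_inner _ _ _ Sg M hM0
    _ = ((univ.filter fun d => (smpGraph src tgt).src d = u.1).card : ℝ) *
          ((Fintype.card ι : ℝ) * M) := by
        rw [← Finset.sum_filter, Finset.sum_const, nsmul_eq_mul]
    _ ≤ Δ * ((Fintype.card ι : ℝ) * M) := by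
        refine mul_le_mul_of_nonneg_right ?_ (by positivity)
        exact_mod_cast smpb_card_src src tgt Δ hΔ u.1
    _ = Δ * M * Fintype.card ι := by ring

theorem smpb_col (src tgt : E → V) (W : E → Matrix ι ι ℂ) (z : E → G) (M : ℝ)
    (hM0 : 0 ≤ M) (hM : ∀ e, ‖W e‖ ≤ M) (Δ : ℕ)
    (hΔ : ∀ (x : V) (T : Finset (E × Bool)), (∀ d ∈ T, (smpGraph src tgt).src d = x) → T.card ≤ Δ)
    (Sg : Finset G) (v : V × ι) :
    ∑ u : V × ι, ∑ g ∈ Sg, ‖smpCoef src tgt W z u v g‖ ≤ Δ * M * Fintype.card ι := by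
  calc ∑ u : V × ι, ∑ g ∈ Sg, ‖smpCoef src tgt W z u v g‖
      ≤ ∑ u : V × ι, ∑ g ∈ Sg, ∑ d : E × Bool,
        (if (smpGraph src tgt).tgt d = v.1 ∧ (smpGraph src tgt).src d = u.1 ∧ smpbZ z d = g
          then M else 0) :=
        Finset.sum_le_sum fun u _ => Finset.sum_le_sum fun g _ => by
          refine (smpb_norm_coef_le src tgt W z M hM u v g).trans (le_of_eq ?_)
          refine Finset.sum_congr rfl fun d _ => ?_
          simp only [and_left_comm]
    _ = ∑ d : E × Bool, ∑ u : V × ι, ∑ g ∈ Sg,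
        (if (smpGraph src tgt).tgt d = v.1 ∧ (smpGraph src tgt).src d = u.1 ∧ smpbZ z d = g
          then M else 0) :=
        (Finset.sum_congr rfl fun v _ => Finset.sum_comm).trans Finset.sum_comm
    _ ≤ ∑ d : E × Bool, (if (smpGraph src tgt).tgt d = v.1 then (Fintype.card ι : ℝ) * M else 0) :=
        Finset.sum_le_sum fun d _ => smpb_inner _ _ _ Sg M hM0
    _ = ((univ.filter fun d => (smpGraph src tgt).tgt d = v.1).card : ℝ) *
          ((Fintype.card ι : ℝ) * M) := by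
        rw [← Finset.sum_filter, Finset.sum_const, nsmul_eq_mul]
    _ ≤ Δ * ((Fintype.card ι : ℝ) * M) := by
        refine mul_le_mul_of_nonneg_right ?_ (by positivity)
        exact_mod_cast smpb_card_tgt src tgt Δ hΔ v.1
    _ = Δ * M * Fintype.card ι := by ring

theorem smpCoef_support (src tgt : E → V) (W : E → Matrix ι ι ℂ) (z : E → G) (a b : V × ι) (g : G)
    (hg : g ∉ (Finset.univ.image z ∪ Finset.univ.image fun e => (z e)⁻¹)) :
    smpCoef src tgt W z a b g = 0 := by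
  unfold smpCoef
  refine Finset.sum_eq_zero fun e _ => ?_
  rw [Finset.mem_union, not_or] at hg
  have h1 : z e ≠ g := fun h => hg.1 (Finset.mem_image.2 ⟨e, Finset.mem_univ e, h⟩)
  have h2 : (z e)⁻¹ ≠ g := fun h => hg.2 (Finset.mem_image.2 ⟨e, Finset.mem_univ e, h⟩)
  simp [h1, h2]

/-- Scalar Schur bound for the coefficients: degree `≤ Δ`, blocks of norm `≤ M`. -/
theorem smpCoef_bd (src tgt : E → V) (W : E → Matrix ι ι ℂ) (z : E → G) (M : ℝ)
    (hM0 : 0 ≤ M) (hM : ∀ e, ‖W e‖ ≤ M) (Δ : ℕ)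
    (hΔ : ∀ (x : V) (T : Finset (E × Bool)), (∀ d ∈ T, (smpGraph src tgt).src d = x) → T.card ≤ Δ) :
    SmpCoefBd (smpCoef src tgt W z) (Δ * M * Fintype.card ι) :=
  smpCoefBd_of_finite _ _ (fun u v g hg => smpCoef_support src tgt W z u v g hg) _
    (fun u => smpb_row src tgt W z M hM0 hM Δ hΔ _ u)
    (fun v => smpb_col src tgt W z M hM0 hM Δ hΔ _ v)

/-- some Schur bound always holds. -/
theorem smpb_bd_exists (src tgt : E → V) (W : E → Matrix ι ι ℂ) (z : E → G) :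
    ∃ R : ℝ, SmpCoefBd (smpCoef src tgt W z) R := by
  obtain ⟨M, hM⟩ : ∃ M : ℝ, ∀ e, ‖W e‖ ≤ M :=
    ⟨∑ e, ‖W e‖, fun e => Finset.single_le_sum (f := fun e => ‖W e‖)
      (fun _ _ => norm_nonneg _) (Finset.mem_univ e)⟩
  have hM0 : 0 ≤ max M 0 := le_max_right _ _
  exact ⟨_, smpCoef_bd src tgt W z (max M 0) hM0 (fun e => (hM e).trans (le_max_left _ _))
    (Fintype.card (E × Bool)) (fun _ T _ => Finset.card_le_univ T)⟩

theorem smpCoef_symm (src tgt : E → V) (W : E → Matrix ι ι ℂ) (z : E → G) (a b : V × ι) (g : G) :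
    star (smpCoef src tgt W z b a g⁻¹) = smpCoef src tgt W z a b g := by
  unfold smpCoef
  rw [star_sum]
  refine Finset.sum_congr rfl fun e _ => ?_
  rw [star_add, add_comm]
  have h1 : (z e)⁻¹ = g⁻¹ ↔ z e = g := inv_inj
  have h2 : z e = g⁻¹ ↔ (z e)⁻¹ = g := by
    constructor
    · intro h; rw [h, inv_inv]
    · intro h; rw [← h, inv_inv]
  congr 1
  · simp only [h1, apply_ite star, star_star, star_zero]
    congr 1
    simp only [and_left_comm]
  · simp only [h2, apply_ite star, star_zero]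
    congr 1
    simp only [eq_iff_iff]
    tauto

/-- `smpConv (smpCoef ..)` is selfadjoint. -/
theorem smpConv_smpCoef_isSelfAdjoint (src tgt : E → V) (W : E → Matrix ι ι ℂ) (z : E → G) :
    IsSelfAdjoint (smpConv (smpCoef src tgt W z)) := by
  obtain ⟨R, hR⟩ := smpb_bd_exists src tgt W z
  have hK : SmpHasKer (smpConv (smpCoef src tgt W z)) (smpConvK (smpCoef src tgt W z)) :=
    hR.schur.hasKer
  rw [ContinuousLinearMap.isSelfAdjoint_iff']
  refine hK.adjoint.unique ?_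
  intro x y
  rw [hK x y]
  simp only [smpConvK]
  rw [← smpCoef_symm src tgt W z x.2 y.2]
  simp

/-! ### the operator norm bound (block Schur test) -/

theorem smpb_hasSum_fib {I : Type} [Fintype I] (η : ScL2 (G × I)) :
    HasSum (fun f => ∑ u, ‖η (f, u)‖ ^ 2) (‖η‖ ^ 2) :=
  (scL2_hasSum_sq η).prod_fiberwise fun f => hasSum_fintype fun u => ‖η (f, u)‖ ^ 2

theorem smpb_hasSum_layer (ξ : ScL2 (G × (V × ι))) (v : V) :
    HasSum (fun f => ∑ j, ‖ξ (f, (v, j))‖ ^ 2)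
      (‖scRestr {x : G × (V × ι) | x.2.1 = v} ξ‖ ^ 2) := by
  have h := smpb_hasSum_fib (scRestr {x : G × (V × ι) | x.2.1 = v} ξ)
  convert h using 2 with f
  rw [Fintype.sum_prod_type, Finset.sum_eq_single v]
  · refine Finset.sum_congr rfl fun j _ => ?_
    rw [scRestr_apply_mem ξ (show ((f, (v, j)) : G × (V × ι)) ∈ {x : G × (V × ι) | x.2.1 = v} from rfl)]
  · intro b _ hb
    refine Finset.sum_eq_zero fun j _ => ?_
    rw [scRestr_apply_not_mem ξ
      (show ((f, (b, j)) : G × (V × ι)) ∉ {x : G × (V × ι) | x.2.1 = v} from hb)]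
    simp
  · simp

theorem smpb_hasSum_layer_shift (ξ : ScL2 (G × (V × ι))) (v : V) (g : G) :
    HasSum (fun f => ∑ j, ‖ξ (f * g, (v, j))‖ ^ 2)
      (‖scRestr {x : G × (V × ι) | x.2.1 = v} ξ‖ ^ 2) := by
  have h := smpb_hasSum_layer ξ v
  have h2 := (Equiv.mulRight g).hasSum_iff.2 h
  exact h2

theorem smpb_sum_layers (ξ : ScL2 (G × (V × ι))) :
    ∑ v, ‖scRestr {x : G × (V × ι) | x.2.1 = v} ξ‖ ^ 2 = ‖ξ‖ ^ 2 :=
  (hasSum_fintype _).unique (smp_hasSum_fibres (fun x : G × (V × ι) => x.2.1) ξ)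

/-- values of the operator. -/
theorem smpb_apply (src tgt : E → V) (W : E → Matrix ι ι ℂ) (z : E → G)
    (ξ : ScL2 (G × (V × ι))) (f : G) (v : V) (i : ι) :
    smpConv (smpCoef src tgt W z) ξ (f, (v, i)) =
      ∑ d ∈ univ.filter (fun d => (smpGraph src tgt).src d = v),
        (smpbW W d *ᵥ fun j => ξ (f * smpbZ z d, ((smpGraph src tgt).tgt d, j))) i := by
  obtain ⟨R, hR⟩ := smpb_bd_exists src tgt W z
  refine (hR.hasSum ξ f (v, i)).unique ?_
  set F : E × Bool → (V × ι) × G → ℂ := fun d p =>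
    if (smpGraph src tgt).src d = v ∧ (smpGraph src tgt).tgt d = p.1.1 ∧ smpbZ z d = p.2
      then smpbW W d i p.1.2 * ξ (f * p.2, p.1) else 0 with hF
  have h1 : (fun p : (V × ι) × G => smpCoef src tgt W z (v, i) p.1 p.2 * ξ (f * p.2, p.1)) =
      fun p => ∑ d, F d p := by
    funext p
    rw [smpCoef_eq_darts, Finset.sum_mul]
    refine Finset.sum_congr rfl fun d _ => ?_
    simp only [hF]
    split_ifs <;> simp
  have h2 : ∀ d, HasSum (F d) (if (smpGraph src tgt).src d = v then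
      (smpbW W d *ᵥ fun j => ξ (f * smpbZ z d, ((smpGraph src tgt).tgt d, j))) i else 0) := by
    intro d
    have h3 : ∀ p ∉ univ.image (fun j : ι => ((((smpGraph src tgt).tgt d, j), smpbZ z d) :
        (V × ι) × G)), F d p = 0 := by
      intro p hp
      simp only [hF]
      rw [if_neg]
      rintro ⟨-, h4, h5⟩
      apply hp
      refine Finset.mem_image.2 ⟨p.1.2, Finset.mem_univ _, ?_⟩
      rw [h4, h5]
    have h6 : HasSum (F d) (∑ p ∈ univ.image (fun j : ι =>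
        ((((smpGraph src tgt).tgt d, j), smpbZ z d) : (V × ι) × G)), F d p) :=
      hasSum_sum_of_ne_finset_zero h3
    rw [Finset.sum_image (fun a _ b _ hab => by simpa using hab)] at h6
    convert h6 using 1
    by_cases hs : (smpGraph src tgt).src d = v
    · simp [hF, hs, Matrix.mulVec, dotProduct]
    · simp [hF, hs]
  rw [h1, Finset.sum_filter]
  exact hasSum_sum fun d _ => h2 d

theorem smpb_norm_sq_sum_le {κ : Type*} (T : Finset κ) (x : κ → ℂ) :
    ‖∑ d ∈ T, x d‖ ^ 2 ≤ T.card * ∑ d ∈ T, ‖x d‖ ^ 2 :=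
  (pow_le_pow_left₀ (norm_nonneg _) (norm_sum_le _ _) 2).trans sq_sum_le_card_mul_sum_sq

theorem smpb_pointwise (src tgt : E → V) (W : E → Matrix ι ι ℂ) (z : E → G) (M : ℝ)
    (hM : ∀ e, ‖W e‖ ≤ M) (Δ : ℕ)
    (hΔ : ∀ (x : V) (T : Finset (E × Bool)), (∀ d ∈ T, (smpGraph src tgt).src d = x) → T.card ≤ Δ)
    (ξ : ScL2 (G × (V × ι))) (f : G) :
    ∑ u : V × ι, ‖smpConv (smpCoef src tgt W z) ξ (f, u)‖ ^ 2 ≤
      Δ * M ^ 2 * ∑ d : E × Bool, ∑ j, ‖ξ (f * smpbZ z d, ((smpGraph src tgt).tgt d, j))‖ ^ 2 := by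
  rw [Fintype.sum_prod_type]
  have h1 : ∀ v : V, ∑ i, ‖smpConv (smpCoef src tgt W z) ξ (f, (v, i))‖ ^ 2 ≤
      Δ * M ^ 2 * ∑ d ∈ univ.filter (fun d => (smpGraph src tgt).src d = v),
        ∑ j, ‖ξ (f * smpbZ z d, ((smpGraph src tgt).tgt d, j))‖ ^ 2 := by
    intro v
    set T := univ.filter (fun d => (smpGraph src tgt).src d = v) with hT
    calc ∑ i, ‖smpConv (smpCoef src tgt W z) ξ (f, (v, i))‖ ^ 2
        ≤ ∑ i, (T.card : ℝ) * ∑ d ∈ T,
          ‖(smpbW W d *ᵥ fun j => ξ (f * smpbZ z d, ((smpGraph src tgt).tgt d, j))) i‖ ^ 2 := by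
          refine Finset.sum_le_sum fun i _ => ?_
          rw [smpb_apply]
          exact smpb_norm_sq_sum_le T _
      _ = (T.card : ℝ) * ∑ d ∈ T,
          opnSq (smpbW W d *ᵥ fun j => ξ (f * smpbZ z d, ((smpGraph src tgt).tgt d, j))) := by
          rw [← Finset.mul_sum, Finset.sum_comm]
          rfl
      _ ≤ (T.card : ℝ) * ∑ d ∈ T,
          M ^ 2 * ∑ j, ‖ξ (f * smpbZ z d, ((smpGraph src tgt).tgt d, j))‖ ^ 2 := by
          refine mul_le_mul_of_nonneg_left (Finset.sum_le_sum fun d _ => ?_) (Nat.cast_nonneg _)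
          refine (opnSq_mulVec_le _ _).trans ?_
          refine mul_le_mul_of_nonneg_right ?_ (opnSq_nonneg _)
          exact pow_le_pow_left₀ (norm_nonneg _) (smpb_norm_W W M hM d) 2
      _ ≤ (Δ : ℝ) * ∑ d ∈ T,
          M ^ 2 * ∑ j, ‖ξ (f * smpbZ z d, ((smpGraph src tgt).tgt d, j))‖ ^ 2 := by
          refine mul_le_mul_of_nonneg_right ?_ (Finset.sum_nonneg fun d _ => by positivity)
          exact_mod_cast smpb_card_src src tgt Δ hΔ v
      _ = _ := by rw [← Finset.mul_sum]; ring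
  refine (Finset.sum_le_sum fun v _ => h1 v).trans (le_of_eq ?_)
  rw [← Finset.mul_sum, Finset.sum_fiberwise]

/-- Operator norm bound (no loss of `card ι`): `‖∑ e ...‖ ≤ Δ M`. -/
theorem smpConv_smpCoef_norm_le (src tgt : E → V) (W : E → Matrix ι ι ℂ) (z : E → G) (M : ℝ)
    (hM0 : 0 ≤ M) (hM : ∀ e, ‖W e‖ ≤ M) (Δ : ℕ)
    (hΔ : ∀ (x : V) (T : Finset (E × Bool)), (∀ d ∈ T, (smpGraph src tgt).src d = x) → T.card ≤ Δ) :
    ‖smpConv (smpCoef src tgt W z)‖ ≤ Δ * M := by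
  refine smp_norm_le_of_sq _ _ (by positivity) fun ξ => ?_
  have h1 := smpb_hasSum_fib (smpConv (smpCoef src tgt W z) ξ)
  have h2 : HasSum (fun f => Δ * M ^ 2 * ∑ d : E × Bool,
      ∑ j, ‖ξ (f * smpbZ z d, ((smpGraph src tgt).tgt d, j))‖ ^ 2)
      (Δ * M ^ 2 * ∑ d : E × Bool,
        ‖scRestr {x : G × (V × ι) | x.2.1 = (smpGraph src tgt).tgt d} ξ‖ ^ 2) :=
    (hasSum_sum fun d _ => smpb_hasSum_layer_shift ξ _ _).mul_left _
  have h3 := hasSum_le (fun f => smpb_pointwise src tgt W z M hM Δ hΔ ξ f) h1 h2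
  have h4 : ∑ d : E × Bool,
      ‖scRestr {x : G × (V × ι) | x.2.1 = (smpGraph src tgt).tgt d} ξ‖ ^ 2 ≤ Δ * ‖ξ‖ ^ 2 := by
    rw [← Finset.sum_fiberwise univ (fun d => (smpGraph src tgt).tgt d), ← smpb_sum_layers ξ,
      Finset.mul_sum]
    refine Finset.sum_le_sum fun v _ => ?_
    have h5 : ∑ d ∈ univ.filter (fun d => (smpGraph src tgt).tgt d = v),
        ‖scRestr {x : G × (V × ι) | x.2.1 = (smpGraph src tgt).tgt d} ξ‖ ^ 2 =
        ∑ d ∈ univ.filter (fun d => (smpGraph src tgt).tgt d = v),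
        ‖scRestr {x : G × (V × ι) | x.2.1 = v} ξ‖ ^ 2 := by
      refine Finset.sum_congr rfl fun d hd => ?_
      rw [(Finset.mem_filter.1 hd).2]
    rw [h5, Finset.sum_const, nsmul_eq_mul]
    refine mul_le_mul_of_nonneg_right ?_ (sq_nonneg _)
    exact_mod_cast smpb_card_tgt src tgt Δ hΔ v
  calc ‖smpConv (smpCoef src tgt W z) ξ‖ ^ 2
      ≤ Δ * M ^ 2 * ∑ d : E × Bool,
        ‖scRestr {x : G × (V × ι) | x.2.1 = (smpGraph src tgt).tgt d} ξ‖ ^ 2 := h3
    _ ≤ Δ * M ^ 2 * (Δ * ‖ξ‖ ^ 2) := mul_le_mul_of_nonneg_left h4 (by positivity)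
    _ = (Δ * M) ^ 2 * ‖ξ‖ ^ 2 := by ring

/-! ### means -/

section mean

variable {Ω : E → Type} [∀ e, Fintype (Ω e)]

theorem smpb_smpE_apply (p : ∀ e, Ω e → ℝ) (F : (∀ e, Ω e) → V × ι → V × ι → G → ℂ)
    (a b : V × ι) (g : G) : smpE p F a b g = smpE p (fun ω => F ω a b g) := by
  unfold smpE
  simp [Finset.sum_apply]

/-- expectation of a function of one coordinate. -/
theorem smpE_coord {M : Type*} [AddCommMonoid M] [Module ℝ M] (p : ∀ e, Ω e → ℝ)
    (hp1 : ∀ e, ∑ a, p e a = 1) (e : E) (h : Ω e → M) :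
    smpE p (fun ω => h (ω e)) = ∑ x, p e x • h x := by
  rw [smpE_split p e]
  simp only [smp_split_self]
  exact smpE_const (fun j : {j // j ≠ e} => p j) (fun j => hp1 j) (∑ x, p e x • h x)

theorem smpE_norm_le {M : Type*} [SeminormedAddCommGroup M] [NormedSpace ℝ M] (p : ∀ e, Ω e → ℝ)
    (hp0 : ∀ e a, 0 ≤ p e a) (F : (∀ e, Ω e) → M) : ‖smpE p F‖ ≤ smpE p (fun ω => ‖F ω‖) := by
  unfold smpE
  refine (norm_sum_le _ _).trans (Finset.sum_le_sum fun ω _ => ?_)
  rw [norm_smul, Real.norm_of_nonneg (smp_weight_nonneg p hp0 ω), smul_eq_mul]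

/-- The mean of the coefficients is the coefficient function of the edgewise means. -/
theorem smpE_smpCoef (src tgt : E → V) (p : ∀ e, Ω e → ℝ) (hp1 : ∀ e, ∑ a, p e a = 1)
    (W : ∀ e, Ω e → Matrix ι ι ℂ) (z : ∀ e, Ω e → G) (a b : V × ι) (g : G) :
    smpE p (fun ω => smpCoef src tgt (fun e => W e (ω e)) (fun e => z e (ω e))) a b g
      = ∑ e, ((if src e = a.1 ∧ tgt e = b.1 then
            ∑ x, (p e x : ℂ) * (if z e x = g then W e x a.2 b.2 else 0) else 0)
          + (if tgt e = a.1 ∧ src e = b.1 then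
            ∑ x, (p e x : ℂ) * (if (z e x)⁻¹ = g then star (W e x b.2 a.2) else 0) else 0)) := by
  rw [smpb_smpE_apply]
  unfold smpCoef
  rw [smpE_sum]
  refine Finset.sum_congr rfl fun e _ => ?_
  rw [smpE_add,
    smpE_coord p hp1 e (fun x => if src e = a.1 ∧ tgt e = b.1 ∧ z e x = g
      then W e x a.2 b.2 else 0),
    smpE_coord p hp1 e (fun x => if tgt e = a.1 ∧ src e = b.1 ∧ (z e x)⁻¹ = g
      then star (W e x b.2 a.2) else 0)]
  congr 1
  · by_cases h : src e = a.1 ∧ tgt e = b.1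
    · rw [if_pos h]
      refine Finset.sum_congr rfl fun x _ => ?_
      rw [Complex.real_smul]
      simp only [h.1, h.2, true_and]
    · rw [if_neg h]
      refine Finset.sum_eq_zero fun x _ => ?_
      rw [if_neg (fun h' => h ⟨h'.1, h'.2.1⟩), smul_zero]
  · by_cases h : tgt e = a.1 ∧ src e = b.1
    · rw [if_pos h]
      refine Finset.sum_congr rfl fun x _ => ?_
      rw [Complex.real_smul]
      simp only [h.1, h.2, true_and]
    · rw [if_neg h]
      refine Finset.sum_eq_zero fun x _ => ?_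
      rw [if_neg (fun h' => h ⟨h'.1, h'.2.1⟩), smul_zero]

end mean

/-! ### the compressed blocks -/

theorem smpb_sq_single {κ : Type*} [Fintype κ] (P : κ → Prop) [DecidablePred P]
    (hP : ∀ a b, P a → P b → a = b) (x : κ → ℂ) :
    ‖∑ a, if P a then x a else 0‖ ^ 2 = ∑ a, if P a then ‖x a‖ ^ 2 else 0 := by
  classical
  by_cases h : ∃ a, P a
  · obtain ⟨a0, ha0⟩ := h
    rw [Finset.sum_eq_single a0, Finset.sum_eq_single a0]
    · simp [ha0]
    · intro b _ hb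
      rw [if_neg fun hb' => hb (hP b a0 hb' ha0)]
    · simp
    · intro b _ hb
      rw [if_neg fun hb' => hb (hP b a0 hb' ha0)]
    · simp
  · push Not at h
    simp [h]

theorem smpb_sum_single_le {κ : Type*} [Fintype κ] (P : κ → Prop) [DecidablePred P]
    (hP : ∀ a b, P a → P b → a = b) (c : ℝ) (hc : 0 ≤ c) :
    ∑ a, (if P a then c else 0) ≤ c := by
  classical
  by_cases h : ∃ a, P a
  · obtain ⟨a0, ha0⟩ := h
    rw [Finset.sum_eq_single a0]
    · simp [ha0]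
    · intro b _ hb
      rw [if_neg fun hb' => hb (hP b a0 hb' ha0)]
    · simp
  · push Not at h
    simpa [h] using hc

/-- the compression of `A ⊗ ρ_g` to the box. -/
def smpbY (Bx : Finset G) (A : Matrix ι ι ℂ) (g : G) : Matrix (ι × Bx) (ι × Bx) ℂ :=
  Matrix.of fun k k' => if g = (k.2 : G)⁻¹ * (k'.2 : G) then A k.1 k'.1 else 0

theorem smpbY_norm_le (Bx : Finset G) (A : Matrix ι ι ℂ) (g : G) : ‖smpbY Bx A g‖ ≤ ‖A‖ := by
  refine (opn_le_iff _ (norm_nonneg _)).2 fun v => ?_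
  set u : Bx → ι → ℂ := fun f j => ∑ f' : Bx, if g = (f : G)⁻¹ * (f' : G) then v (j, f') else 0
    with hu
  have h1 : ∀ (i : ι) (f : Bx), (smpbY Bx A g *ᵥ v) (i, f) = (A *ᵥ u f) i := by
    intro i f
    simp only [Matrix.mulVec, dotProduct, smpbY, Matrix.of_apply, hu]
    rw [Fintype.sum_prod_type]
    refine Finset.sum_congr rfl fun j _ => ?_
    rw [Finset.mul_sum]
    refine Finset.sum_congr rfl fun f' _ => ?_
    split_ifs <;> simp
  have h2 : opnSq (smpbY Bx A g *ᵥ v) = ∑ f : Bx, opnSq (A *ᵥ u f) := by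
    unfold opnSq
    rw [Fintype.sum_prod_type_right]
    exact Finset.sum_congr rfl fun f _ => Finset.sum_congr rfl fun i _ => by rw [h1]
  have h3 : ∑ f : Bx, opnSq (u f) ≤ opnSq v := by
    unfold opnSq
    rw [Finset.sum_comm, Fintype.sum_prod_type]
    refine Finset.sum_le_sum fun j _ => ?_
    have h4 : ∀ f : Bx, ‖u f j‖ ^ 2 =
        ∑ f' : Bx, if g = (f : G)⁻¹ * (f' : G) then ‖v (j, f')‖ ^ 2 else 0 := by
      intro f
      simp only [hu]
      refine smpb_sq_single (fun f' : Bx => g = (f : G)⁻¹ * (f' : G)) ?_ _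
      intro a b ha hb
      have : (f : G)⁻¹ * (a : G) = (f : G)⁻¹ * (b : G) := ha.symm.trans hb
      exact Subtype.ext (mul_left_cancel this)
    rw [Finset.sum_congr rfl fun f _ => h4 f, Finset.sum_comm]
    refine Finset.sum_le_sum fun f' _ => ?_
    refine smpb_sum_single_le (fun f : Bx => g = (f : G)⁻¹ * (f' : G)) ?_ _ (sq_nonneg _)
    intro a b ha hb
    have : (a : G)⁻¹ * (f' : G) = (b : G)⁻¹ * (f' : G) := ha.symm.trans hb
    exact Subtype.ext (inv_injective (mul_right_cancel this))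
  rw [h2]
  calc ∑ f : Bx, opnSq (A *ᵥ u f) ≤ ∑ f : Bx, ‖A‖ ^ 2 * opnSq (u f) :=
        Finset.sum_le_sum fun f _ => opnSq_mulVec_le A (u f)
    _ = ‖A‖ ^ 2 * ∑ f : Bx, opnSq (u f) := by rw [Finset.mul_sum]
    _ ≤ ‖A‖ ^ 2 * opnSq v := mul_le_mul_of_nonneg_left h3 (sq_nonneg _)

/-! ### the centred block -/

section tail

variable {Ω : E → Type} [∀ e, Fintype (Ω e)]

/-- all group elements that can occur. -/
def smpbSg (z : ∀ e, Ω e → G) : Finset G :=
  (univ : Finset (Σ e, Ω e)).image (fun s => z s.1 s.2) ∪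
    (univ : Finset (Σ e, Ω e)).image (fun s => (z s.1 s.2)⁻¹)

theorem smpb_supp (src tgt : E → V) (W : ∀ e, Ω e → Matrix ι ι ℂ) (z : ∀ e, Ω e → G)
    (ω : ∀ e, Ω e) (u v : V × ι) (g : G) (hg : g ∉ smpbSg z) :
    smpCoef src tgt (fun e => W e (ω e)) (fun e => z e (ω e)) u v g = 0 := by
  refine smpCoef_support _ _ _ _ _ _ _ fun h => hg ?_
  unfold smpbSg
  rw [Finset.mem_union] at h ⊢
  rcases h with h | h
  · left
    obtain ⟨e, -, rfl⟩ := Finset.mem_image.1 h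
    exact Finset.mem_image.2 ⟨⟨e, ω e⟩, Finset.mem_univ _, rfl⟩
  · right
    obtain ⟨e, -, rfl⟩ := Finset.mem_image.1 h
    exact Finset.mem_image.2 ⟨⟨e, ω e⟩, Finset.mem_univ _, rfl⟩

theorem smpb_mean_sum_le {κ : Type*} (p : ∀ e, Ω e → ℝ) (hp0 : ∀ e a, 0 ≤ p e a)
    (hp1 : ∀ e, ∑ a, p e a = 1) (T : Finset κ) (i1 i2 : κ → V × ι) (i3 : κ → G)
    (F : (∀ e, Ω e) → V × ι → V × ι → G → ℂ) (R0 : ℝ)
    (h : ∀ ω, ∑ k ∈ T, ‖F ω (i1 k) (i2 k) (i3 k)‖ ≤ R0) :
    ∑ k ∈ T, ‖smpE p F (i1 k) (i2 k) (i3 k)‖ ≤ R0 := by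
  calc ∑ k ∈ T, ‖smpE p F (i1 k) (i2 k) (i3 k)‖
      ≤ ∑ k ∈ T, smpE p (fun ω => ‖F ω (i1 k) (i2 k) (i3 k)‖) := by
        refine Finset.sum_le_sum fun k _ => ?_
        rw [smpb_smpE_apply]
        exact smpE_norm_le p hp0 _
    _ = smpE p (fun ω => ∑ k ∈ T, ‖F ω (i1 k) (i2 k) (i3 k)‖) := (smpE_sum p T _).symm
    _ ≤ smpE p (fun _ => R0) := smpE_mono p hp0 h
    _ = R0 := smpE_const p hp1 R0

/-- the centred compressed blocks. -/
noncomputable def smpbX (Bx : Finset G) (p : ∀ e, Ω e → ℝ) (W : ∀ e, Ω e → Matrix ι ι ℂ)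
    (z : ∀ e, Ω e → G) (e : E) (a : Ω e) : Matrix (ι × Bx) (ι × Bx) ℂ :=
  smpbY Bx (W e a) (z e a) - ∑ b, p e b • smpbY Bx (W e b) (z e b)

theorem smpbX_apply (Bx : Finset G) (p : ∀ e, Ω e → ℝ) (W : ∀ e, Ω e → Matrix ι ι ℂ)
    (z : ∀ e, Ω e → G) (e : E) (a : Ω e) (k k' : ι × Bx) :
    smpbX Bx p W z e a k k' =
      (if z e a = (k.2 : G)⁻¹ * (k'.2 : G) then W e a k.1 k'.1 else 0) -
        ∑ b, (p e b : ℂ) * (if z e b = (k.2 : G)⁻¹ * (k'.2 : G) then W e b k.1 k'.1 else 0) := by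
  simp [smpbX, smpbY, Matrix.sub_apply, Matrix.sum_apply]

theorem smpbX_center (Bx : Finset G) (p : ∀ e, Ω e → ℝ) (hp1 : ∀ e, ∑ a, p e a = 1)
    (W : ∀ e, Ω e → Matrix ι ι ℂ) (z : ∀ e, Ω e → G) (e : E) :
    ∑ a, p e a • smpbX Bx p W z e a = 0 := by
  unfold smpbX
  simp only [smul_sub]
  rw [Finset.sum_sub_distrib, ← Finset.sum_smul, hp1 e, one_smul, sub_self]

theorem smpb_norm_real_smul {κ : Type*} [Fintype κ] [DecidableEq κ] (r : ℝ) (hr : 0 ≤ r)
    (Y : Matrix κ κ ℂ) : ‖r • Y‖ = r * ‖Y‖ := by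
  have h : r • Y = (r : ℂ) • Y := by
    ext i j
    simp
  rw [h, norm_smul, Complex.norm_real, Real.norm_of_nonneg hr]

theorem smpbX_norm_le (Bx : Finset G) (p : ∀ e, Ω e → ℝ) (hp0 : ∀ e a, 0 ≤ p e a)
    (hp1 : ∀ e, ∑ a, p e a = 1) (W : ∀ e, Ω e → Matrix ι ι ℂ) (z : ∀ e, Ω e → G) (M : ℝ)
    (hM : ∀ e a, ‖W e a‖ ≤ M) (e : E) (a : Ω e) : ‖smpbX Bx p W z e a‖ ≤ 2 * M := by
  unfold smpbX
  have h1 : ∀ b, ‖smpbY Bx (W e b) (z e b)‖ ≤ M := fun b => (smpbY_norm_le _ _ _).trans (hM e b)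
  have h2 : ‖∑ b, p e b • smpbY Bx (W e b) (z e b)‖ ≤ M := by
    calc ‖∑ b, p e b • smpbY Bx (W e b) (z e b)‖
        ≤ ∑ b, ‖p e b • smpbY Bx (W e b) (z e b)‖ := norm_sum_le _ _
      _ ≤ ∑ b, p e b * M := by
          refine Finset.sum_le_sum fun b _ => ?_
          rw [smpb_norm_real_smul _ (hp0 e b)]
          exact mul_le_mul_of_nonneg_left (h1 b) (hp0 e b)
      _ = M := by rw [← Finset.sum_mul, hp1 e, one_mul]
  calc _ ≤ ‖smpbY Bx (W e a) (z e a)‖ + ‖∑ b, p e b • smpbY Bx (W e b) (z e b)‖ := norm_sub_le _ _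
    _ ≤ 2 * M := by linarith [h1 a]

theorem smpb_matrix_eq (src tgt : E → V) (p : ∀ e, Ω e → ℝ) (hp1 : ∀ e, ∑ a, p e a = 1)
    (W : ∀ e, Ω e → Matrix ι ι ℂ) (z : ∀ e, Ω e → G) (Bx : Finset G) (ω : ∀ e, Ω e) :
    (Matrix.of fun (x y : (V × ι) × Bx) =>
      (smpCoef src tgt (fun e => W e (ω e)) (fun e => z e (ω e))
        - smpE p (fun ω' => smpCoef src tgt (fun e => W e (ω' e)) (fun e => z e (ω' e))))
        x.1 y.1 ((x.2 : G)⁻¹ * (y.2 : G)) : Matrix ((V × ι) × Bx) ((V × ι) × Bx) ℂ) =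
      (smpMat src tgt (fun e => smpbX Bx p W z e (ω e))).submatrix
        (Equiv.prodAssoc V ι Bx) (Equiv.prodAssoc V ι Bx) := by
  ext x y
  obtain ⟨⟨v, i⟩, f⟩ := x
  obtain ⟨⟨v', j⟩, f'⟩ := y
  simp only [Matrix.of_apply, Matrix.submatrix_apply, Pi.sub_apply, smpMat_apply,
    smpE_smpCoef src tgt p hp1, Equiv.prodAssoc_apply, smpbX_apply]
  unfold smpCoef
  rw [← Finset.sum_sub_distrib]
  refine Finset.sum_congr rfl fun e _ => ?_
  have hz : ∀ a : Ω e, ((z e a)⁻¹ = (f : G)⁻¹ * (f' : G)) ↔ (z e a = (f' : G)⁻¹ * (f : G)) := by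
    intro a
    constructor
    · intro h
      rw [← inv_inv (z e a), h]
      group
    · intro h
      rw [h]
      group
  have e1 : (if src e = v ∧ tgt e = v' ∧ z e (ω e) = (f : G)⁻¹ * (f' : G)
        then W e (ω e) i j else 0) -
      (if src e = v ∧ tgt e = v' then
        ∑ x, (p e x : ℂ) * (if z e x = (f : G)⁻¹ * (f' : G) then W e x i j else 0) else 0) =
      (if src e = v ∧ tgt e = v' then
        (if z e (ω e) = (f : G)⁻¹ * (f' : G) then W e (ω e) i j else 0) -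
          ∑ b, (p e b : ℂ) * (if z e b = (f : G)⁻¹ * (f' : G) then W e b i j else 0) else 0) := by
    by_cases h : src e = v ∧ tgt e = v'
    · simp only [h.1, h.2, true_and, and_self, if_true]
    · rw [if_neg h, if_neg h, if_neg (fun h' => h ⟨h'.1, h'.2.1⟩), sub_zero]
  have e2 : (if tgt e = v ∧ src e = v' ∧ (z e (ω e))⁻¹ = (f : G)⁻¹ * (f' : G)
        then star (W e (ω e) j i) else 0) -
      (if tgt e = v ∧ src e = v' then
        ∑ x, (p e x : ℂ) * (if (z e x)⁻¹ = (f : G)⁻¹ * (f' : G) then star (W e x j i) else 0)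
          else 0) =
      (if tgt e = v ∧ src e = v' then
        star ((if z e (ω e) = (f' : G)⁻¹ * (f : G) then W e (ω e) j i else 0) -
          ∑ b, (p e b : ℂ) * (if z e b = (f' : G)⁻¹ * (f : G) then W e b j i else 0)) else 0) := by
    by_cases h : tgt e = v ∧ src e = v'
    · simp only [h.1, h.2, true_and, and_self, if_true, hz, star_sub, star_sum, star_mul',
        apply_ite star, star_zero, Complex.star_def, Complex.conj_ofReal]
    · rw [if_neg h, if_neg h, if_neg (fun h' => h ⟨h'.1, h'.2.1⟩), sub_zero]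
  simp only at e1 e2 ⊢
  linear_combination e1 + e2

/-- **Centred block** (KK 9.h, INJ 4.9).  Independent edges `(W e, z e)`, `‖W e‖ ≤ M`, degree `≤ Δ`,
`Bx` a `κ`-invariant box for all `z e`, `(z e)⁻¹`, and `Wn` a bound for the number of closed walks of
length `2 l` without singleton edge.  Proof: `smp_finite_test`, `smp_compress_norm_le`, the compressed
matrix is `smpMat src tgt y` with `K = ι × Bx` (up to reindexing) and centred `y e` of norm `≤ 2 M`,
then `smp_mat_tail`. -/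
theorem smp_block_tail (src tgt : E → V) (p : ∀ e, Ω e → ℝ) (hp0 : ∀ e a, 0 ≤ p e a)
    (hp1 : ∀ e, ∑ a, p e a = 1) (W : ∀ e, Ω e → Matrix ι ι ℂ) (z : ∀ e, Ω e → G) (M : ℝ)
    (hM0 : 0 ≤ M) (hM : ∀ e a, ‖W e a‖ ≤ M) (Δ : ℕ)
    (hΔ : ∀ (x : V) (T : Finset (E × Bool)), (∀ d ∈ T, (smpGraph src tgt).src d = x) → T.card ≤ Δ)
    (Bx : Finset G) (hBx : Bx.Nonempty) (κ : ℝ) (hκ0 : 0 ≤ κ)
    (hκ : ∀ e a, ((Bx.filter fun f => f * z e a ∉ Bx).card : ℝ) ≤ κ * Bx.card ∧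
      ((Bx.filter fun f => f * (z e a)⁻¹ ∉ Bx).card : ℝ) ≤ κ * Bx.card)
    (l Wn : ℕ)
    (hW : ∀ (v : V) (S : Finset (List (E × Bool))),
      (∀ w ∈ S, w.length = 2 * l ∧ (smpGraph src tgt).IsWalk v w v ∧
        smpNoSingle (smpGraph src tgt) w) → S.card ≤ Wn)
    (τ : ℝ) (hτ : 0 < τ) :
    smpP p (fun ω => τ + κ * (2 * Δ * M * Fintype.card ι) ≤
        ‖smpConv (smpCoef src tgt (fun e => W e (ω e)) (fun e => z e (ω e))
          - smpE p (fun ω' => smpCoef src tgt (fun e => W e (ω' e)) (fun e => z e (ω' e))))‖)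
      ≤ (Fintype.card V * (Fintype.card ι * Bx.card) * Wn) * (2 * M / τ) ^ (2 * l) := by
  set mean := smpE p (fun ω' => smpCoef src tgt (fun e => W e (ω' e)) (fun e => z e (ω' e)))
    with hmean
  have htail := smp_mat_tail src tgt p hp0 hp1 (smpbX Bx p W z) (2 * M)
    (smpbX_norm_le Bx p hp0 hp1 W z M hM) (smpbX_center Bx p hp1 W z) l Wn hW τ hτ
  have hcard : (Fintype.card (ι × Bx) : ℝ) = Fintype.card ι * Bx.card := by
    rw [Fintype.card_prod, Fintype.card_coe, Nat.cast_mul]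
  rw [hcard] at htail
  refine le_trans (smpP_mono p hp0 fun ω hω => ?_) htail
  set c := smpCoef src tgt (fun e => W e (ω e)) (fun e => z e (ω e)) - mean with hc
  have hR0 : (0 : ℝ) ≤ 2 * Δ * M * Fintype.card ι := by positivity
  -- support
  have hsupp : ∀ u v g, g ∉ smpbSg z → c u v g = 0 := by
    intro u v g hg
    simp only [hc, Pi.sub_apply, hmean]
    rw [smpb_supp src tgt W z ω u v g hg, smpb_smpE_apply,
      smpE_congr p (fun ω' => smpb_supp src tgt W z ω' u v g hg)]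
    unfold smpE
    simp
  -- rows and columns
  have hrow : ∀ u, ∑ v, ∑ g ∈ smpbSg z, ‖c u v g‖ ≤ 2 * Δ * M * Fintype.card ι := by
    intro u
    have h1 := smpb_row src tgt (fun e => W e (ω e)) (fun e => z e (ω e)) M hM0
      (fun e => hM e _) Δ hΔ (smpbSg z) u
    have h2 := smpb_mean_sum_le p hp0 hp1 (univ ×ˢ smpbSg z) (fun _ => u) (fun k => k.1)
      (fun k => k.2) (fun ω' => smpCoef src tgt (fun e => W e (ω' e)) (fun e => z e (ω' e)))
      (Δ * M * Fintype.card ι) (fun ω' => by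
        rw [Finset.sum_product]
        exact smpb_row src tgt (fun e => W e (ω' e)) (fun e => z e (ω' e)) M hM0
          (fun e => hM e _) Δ hΔ (smpbSg z) u)
    rw [Finset.sum_product] at h2
    calc ∑ v, ∑ g ∈ smpbSg z, ‖c u v g‖
        ≤ ∑ v, ∑ g ∈ smpbSg z,
          (‖smpCoef src tgt (fun e => W e (ω e)) (fun e => z e (ω e)) u v g‖ + ‖mean u v g‖) :=
          Finset.sum_le_sum fun v _ => Finset.sum_le_sum fun g _ => norm_sub_le _ _
      _ = ∑ v, ∑ g ∈ smpbSg z,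
            ‖smpCoef src tgt (fun e => W e (ω e)) (fun e => z e (ω e)) u v g‖ +
          ∑ v, ∑ g ∈ smpbSg z, ‖mean u v g‖ := by
          simp only [Finset.sum_add_distrib]
      _ ≤ 2 * Δ * M * Fintype.card ι := by linarith
  have hcol : ∀ v, ∑ u, ∑ g ∈ smpbSg z, ‖c u v g‖ ≤ 2 * Δ * M * Fintype.card ι := by
    intro v
    have h1 := smpb_col src tgt (fun e => W e (ω e)) (fun e => z e (ω e)) M hM0
      (fun e => hM e _) Δ hΔ (smpbSg z) v
    have h2 := smpb_mean_sum_le p hp0 hp1 (univ ×ˢ smpbSg z) (fun k => k.1) (fun _ => v)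
      (fun k => k.2) (fun ω' => smpCoef src tgt (fun e => W e (ω' e)) (fun e => z e (ω' e)))
      (Δ * M * Fintype.card ι) (fun ω' => by
        rw [Finset.sum_product]
        exact smpb_col src tgt (fun e => W e (ω' e)) (fun e => z e (ω' e)) M hM0
          (fun e => hM e _) Δ hΔ (smpbSg z) v)
    rw [Finset.sum_product] at h2
    calc ∑ u, ∑ g ∈ smpbSg z, ‖c u v g‖
        ≤ ∑ u, ∑ g ∈ smpbSg z,
          (‖smpCoef src tgt (fun e => W e (ω e)) (fun e => z e (ω e)) u v g‖ + ‖mean u v g‖) :=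
          Finset.sum_le_sum fun u _ => Finset.sum_le_sum fun g _ => norm_sub_le _ _
      _ = ∑ u, ∑ g ∈ smpbSg z,
            ‖smpCoef src tgt (fun e => W e (ω e)) (fun e => z e (ω e)) u v g‖ +
          ∑ u, ∑ g ∈ smpbSg z, ‖mean u v g‖ := by
          simp only [Finset.sum_add_distrib]
      _ ≤ 2 * Δ * M * Fintype.card ι := by linarith
  -- invariance of the box
  have hinv : ∀ g ∈ smpbSg z, ((Bx.filter fun f => f * g ∉ Bx).card : ℝ) ≤ κ * Bx.card := by
    intro g hg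
    unfold smpbSg at hg
    rcases Finset.mem_union.1 hg with h | h
    · obtain ⟨s, -, rfl⟩ := Finset.mem_image.1 h
      exact (hκ s.1 s.2).1
    · obtain ⟨s, -, rfl⟩ := Finset.mem_image.1 h
      exact (hκ s.1 s.2).2
  have h1 := smp_finite_test c (smpbSg z) hsupp _ κ hR0 hκ0 hrow hcol Bx hBx hinv
  have h2 := smp_compress_norm_le c (smpbSg z) hsupp Bx
  have h3 : ‖(Matrix.of fun (x y : (V × ι) × Bx) => c x.1 y.1 ((x.2 : G)⁻¹ * (y.2 : G)) :
      Matrix ((V × ι) × Bx) ((V × ι) × Bx) ℂ)‖ =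
      ‖smpMat src tgt (fun e => smpbX Bx p W z e (ω e))‖ := by
    rw [hc, hmean, smpb_matrix_eq src tgt p hp1 W z Bx ω, opn_submatrix_equiv]
  show τ ≤ ‖smpMat src tgt (fun e => smpbX Bx p W z e (ω e))‖
  rw [← h3]
  linarith

end tail

end Claimed.Agent.R300
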