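/-
Row 300, shared sampling machine (SMP): free reduction of walks by a stack, used by `SmpRank` and `SmpCount`.
Owner: helper217.

Histories are lists of darts with the LATEST dart first (`w.reverse` for a walk `w`).
* `smpCur`, `smpRW` : current vertex, "is a walk" for histories; `smp_isWalk_iff`.
* `smpStk` : the stack = freely reduced form of the history (top first); it is a reduced history with the same
  end point, its darts are darts of the history, signed traversal numbers are preserved.
* `smp_exists_cycRed` : a closed walk with `count d ≠ count (inv d)` for some dart contains a nonempty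
  cyclically reduced closed walk which is not longer.
* `smp_rank_mono` : `2 |V(w) \ VK| ≤ |D(w) \ DK|` for every "subgraph" `(VK, DK)` containing the base point.
* `smp_sum_count`, `smp_sum_count_inv`, `smp_card_le_countP` : counting traversals.
-/
import Claimed.Agent.R300.SmpWalk

set_option autoImplicit false

namespace Claimed.Agent.R300

open HeisLaw

universe u v

variable {V : Type u} {D : Type v} (G : HlGraph V D)

/-! ### Histories -/

/-- current vertex of a history (latest dart first) which started at `v`. -/
def smpCur (v : V) : List D → V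
  | [] => v
  | d :: _ => G.tgt d

/-- the history (latest dart first) is a walk which started at `v`. -/
def smpRW (v : V) : List D → Prop
  | [] => True
  | d :: u => G.src d = smpCur G v u ∧ smpRW v u

@[simp] lemma smpCur_nil (v : V) : smpCur G v [] = v := rfl
@[simp] lemma smpCur_cons (v : V) (d : D) (u : List D) : smpCur G v (d :: u) = G.tgt d := rfl
@[simp] lemma smpRW_nil (v : V) : smpRW G v [] := trivial
@[simp] lemma smpRW_cons (v : V) (d : D) (u : List D) :
    smpRW G v (d :: u) ↔ G.src d = smpCur G v u ∧ smpRW G v u := Iff.rfl

lemma smp_isWalk_iff (v x : V) (w : List D) :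
    G.IsWalk v w x ↔ smpRW G v w.reverse ∧ smpCur G v w.reverse = x := by
  induction w using List.reverseRecOn generalizing x with
  | nil => simp
  | append_singleton w d ih =>
    rw [HlGraph.isWalk_append, List.reverse_append]
    simp only [List.reverse_cons, List.reverse_nil, List.nil_append, List.singleton_append,
      smpRW_cons, smpCur_cons, HlGraph.isWalk_cons, HlGraph.isWalk_nil]
    constructor
    · rintro ⟨c, h1, h2, h3⟩
      obtain ⟨h4, h5⟩ := (ih c).1 h1
      exact ⟨⟨h2.trans h5.symm, h4⟩, h3⟩
    · rintro ⟨⟨h1, h2⟩, h3⟩
      exact ⟨_, (ih _).2 ⟨h2, rfl⟩, h1, h3⟩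

lemma smpRW_append (v : V) (s t : List D) :
    smpRW G v (s ++ t) ↔ smpRW G v t ∧ smpRW G (smpCur G v t) s := by
  induction s with
  | nil => simp
  | cons d s ih =>
    cases s with
    | nil => simp [and_comm]
    | cons e s =>
      simp only [List.cons_append, smpRW_cons, smpCur_cons] at ih ⊢
      rw [ih]; tauto

lemma smpCur_append_of_ne_nil (v : V) {s : List D} (hs : s ≠ []) (t : List D) (v' : V) :
    smpCur G v (s ++ t) = smpCur G v' s := by
  cases s with
  | nil => exact absurd rfl hs
  | cons d s => rfl

/-! ### supports -/

section Supp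
variable [DecidableEq V] [DecidableEq D]

omit [DecidableEq D] in
lemma smpVSupp_reverse (v : V) (w : List D) : smpVSupp G v w.reverse = smpVSupp G v w := by
  ext x; simp [smpVSupp]

omit [DecidableEq V] in
lemma smpDSupp_reverse (w : List D) : smpDSupp G w.reverse = smpDSupp G w := by
  ext x; simp [smpDSupp]

omit [DecidableEq V] in
lemma mem_smpDSupp {w : List D} {d : D} : d ∈ smpDSupp G w ↔ d ∈ w ∨ G.inv d ∈ w := by
  simp only [smpDSupp, List.mem_toFinset, List.mem_append, List.mem_map]
  constructor
  · rintro (h | ⟨e, he, rfl⟩)
    · exact Or.inl h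
    · right; rwa [G.inv_inv]
  · rintro (h | h)
    · exact Or.inl h
    · exact Or.inr ⟨_, h, G.inv_inv d⟩

omit [DecidableEq V] in
lemma inv_mem_smpDSupp {w : List D} {d : D} : G.inv d ∈ smpDSupp G w ↔ d ∈ smpDSupp G w := by
  rw [mem_smpDSupp, mem_smpDSupp, G.inv_inv, or_comm]

omit [DecidableEq D] in
lemma mem_smpVSupp {v x : V} {w : List D} : x ∈ smpVSupp G v w ↔ x = v ∨ ∃ d ∈ w, G.tgt d = x := by
  simp [smpVSupp]

omit [DecidableEq D] in
lemma smpVSupp_cons (v : V) (d : D) (w : List D) :
    smpVSupp G v (d :: w) = insert (G.tgt d) (smpVSupp G v w) := by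
  ext x; simp only [mem_smpVSupp, Finset.mem_insert, List.mem_cons]
  constructor
  · rintro (h | ⟨e, rfl | he, rfl⟩)
    · exact Or.inr (Or.inl h)
    · exact Or.inl rfl
    · exact Or.inr (Or.inr ⟨e, he, rfl⟩)
  · rintro (h | h | ⟨e, he, rfl⟩)
    · exact Or.inr ⟨d, Or.inl rfl, h.symm⟩
    · exact Or.inl h
    · exact Or.inr ⟨e, Or.inr he, rfl⟩

omit [DecidableEq V] in
lemma smpDSupp_cons (d : D) (w : List D) :
    smpDSupp G (d :: w) = insert d (insert (G.inv d) (smpDSupp G w)) := by
  ext x; simp only [mem_smpDSupp, Finset.mem_insert, List.mem_cons, G.inv_eq_iff]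
  tauto

omit [DecidableEq D] in
lemma smpCur_mem_smpVSupp (v : V) (u : List D) : smpCur G v u ∈ smpVSupp G v u := by
  cases u with
  | nil => simp [smpVSupp]
  | cons d u => simp [smpVSupp]

/-- both end points of the darts of a history are visited vertices. -/
lemma smpRW_ends {v : V} {u : List D} (h : smpRW G v u) {d : D} (hd : d ∈ smpDSupp G u) :
    G.src d ∈ smpVSupp G v u ∧ G.tgt d ∈ smpVSupp G v u := by
  induction u with
  | nil => simp [smpDSupp] at hd
  | cons e u ih =>
    rw [smpRW_cons] at h
    rw [smpDSupp_cons, Finset.mem_insert, Finset.mem_insert] at hd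
    rw [smpVSupp_cons]
    have hc : G.src e ∈ smpVSupp G v u := h.1 ▸ smpCur_mem_smpVSupp G v u
    rcases hd with rfl | rfl | hd
    · exact ⟨Finset.mem_insert_of_mem hc, Finset.mem_insert_self _ _⟩
    · simp only [HlGraph.src_inv, HlGraph.tgt_inv]
      exact ⟨Finset.mem_insert_self _ _, Finset.mem_insert_of_mem hc⟩
    · exact ⟨Finset.mem_insert_of_mem (ih h.2 hd).1, Finset.mem_insert_of_mem (ih h.2 hd).2⟩

end Supp

/-! ### The stack -/

section Stack
variable [DecidableEq D]

/-- one step of the free reduction. -/
def smpPush (d : D) (s : List D) : List D :=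
  if s.head? = some (G.inv d) then s.tail else d :: s

/-- the freely reduced form of a history (top = latest first). -/
def smpStk : List D → List D
  | [] => []
  | d :: u => smpPush G d (smpStk u)

@[simp] lemma smpStk_nil : smpStk G ([] : List D) = [] := rfl
lemma smpStk_cons (d : D) (u : List D) : smpStk G (d :: u) = smpPush G d (smpStk G u) := rfl

lemma smpPush_pop {d : D} {s : List D} (h : s.head? = some (G.inv d)) :
    smpPush G d s = s.tail ∧ s = G.inv d :: s.tail := by
  refine ⟨if_pos h, ?_⟩
  cases s with
  | nil => simp at h
  | cons e s => simp only [List.head?_cons, Option.some.injEq] at h; simp [h]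

lemma smpPush_push {d : D} {s : List D} (h : ¬ s.head? = some (G.inv d)) :
    smpPush G d s = d :: s := if_neg h

lemma smpStk_subset (u : List D) : ∀ d ∈ smpStk G u, d ∈ u := by
  induction u with
  | nil => simp
  | cons e u ih =>
    intro d hd
    rw [smpStk_cons] at hd
    by_cases h : (smpStk G u).head? = some (G.inv e)
    · rw [(smpPush_pop G h).1] at hd
      exact List.mem_cons_of_mem _ (ih d (List.mem_of_mem_tail hd))
    · rw [smpPush_push G h, List.mem_cons] at hd
      rcases hd with rfl | hd
      · exact List.mem_cons_self
      · exact List.mem_cons_of_mem _ (ih d hd)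

lemma smpStk_length_le (u : List D) : (smpStk G u).length ≤ u.length := by
  induction u with
  | nil => simp
  | cons e u ih =>
    rw [smpStk_cons]
    by_cases h : (smpStk G u).head? = some (G.inv e)
    · rw [(smpPush_pop G h).1, List.length_tail, List.length_cons]; omega
    · rw [smpPush_push G h, List.length_cons, List.length_cons]; omega

lemma smpStk_rw {v : V} {u : List D} (h : smpRW G v u) :
    smpRW G v (smpStk G u) ∧ smpCur G v (smpStk G u) = smpCur G v u := by
  induction u with
  | nil => simp
  | cons e u ih =>
    rw [smpRW_cons] at h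
    obtain ⟨h1, h2⟩ := ih h.2
    rw [smpStk_cons]
    by_cases hp : (smpStk G u).head? = some (G.inv e)
    · obtain ⟨e1, e2⟩ := smpPush_pop G hp
      rw [e1]
      rw [e2, smpRW_cons] at h1
      refine ⟨h1.2, ?_⟩
      rw [← h1.1]; simp
    · rw [smpPush_push G hp]
      exact ⟨⟨h.1.trans h2.symm, h1⟩, rfl⟩

/-- the stack is reduced. -/
lemma smpStk_chain (u : List D) : (smpStk G u).IsChain (fun a b => a ≠ G.inv b) := by
  induction u with
  | nil => simp
  | cons e u ih =>
    rw [smpStk_cons]
    by_cases hp : (smpStk G u).head? = some (G.inv e)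
    · rw [(smpPush_pop G hp).1]
      exact ih.tail
    · rw [smpPush_push G hp]
      cases hs : smpStk G u with
      | nil => simp
      | cons f s =>
        rw [hs] at ih hp
        rw [List.isChain_cons_cons]
        refine ⟨fun h => hp ?_, ih⟩
        rw [h, G.inv_inv]; rfl

/-- signed traversal numbers are preserved by the reduction. -/
lemma smpStk_count (u : List D) (f : D) :
    (smpStk G u).count f + u.count (G.inv f) = u.count f + (smpStk G u).count (G.inv f) := by
  induction u with
  | nil => simp
  | cons e u ih =>
    rw [smpStk_cons]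
    by_cases hp : (smpStk G u).head? = some (G.inv e)
    · obtain ⟨e1, e2⟩ := smpPush_pop G hp
      rw [e1]
      rw [e2] at ih
      simp only [List.count_cons, beq_iff_eq] at ih ⊢
      have a1 : (G.inv e = G.inv f) ↔ (e = f) := G.inv_injective.eq_iff
      have a2 : (e = G.inv f) ↔ (G.inv e = f) := (G.inv_eq_iff).symm
      simp only [a1, a2] at ih ⊢
      omega
    · rw [smpPush_push G hp]
      simp only [List.count_cons] at ih ⊢
      omega

end Stack

/-! ### Cyclic reduction -/

/-- a nonempty reduced closed walk contains a nonempty cyclically reduced closed walk. -/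
lemma smp_cycRed_of_reduced (n : ℕ) : ∀ (x : V) (r : List D), r.length ≤ n → r ≠ [] → G.IsWalk x r x →
    G.Reduced r → ∃ (y : V) (c : List D), c ≠ [] ∧ G.IsWalk y c y ∧ G.CycRed c ∧ c.length ≤ r.length := by
  induction n with
  | zero =>
    intro x r hn hr
    exact absurd (List.length_eq_zero_iff.mp (Nat.le_zero.mp hn)) hr
  | succ n ih =>
    intro x r hn hr hw hred
    by_cases hc : G.CycRed r
    · exact ⟨x, r, hr, hw, hc, le_rfl⟩
    · have hc' : ¬ ∀ d ∈ r.head?, ∀ d' ∈ r.getLast?, d ≠ G.inv d' := fun h => hc ⟨hred, h⟩
      push Not at hc'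
      obtain ⟨d, hd, d', hd', hdd⟩ := hc'
      cases r with
      | nil => exact absurd rfl hr
      | cons e t =>
        simp only [List.head?_cons, Option.mem_def, Option.some.injEq] at hd
        subst hd
        rcases List.eq_nil_or_concat t with rfl | ⟨t', f, ht⟩
        · simp only [List.getLast?_singleton, Option.mem_def, Option.some.injEq] at hd'
          subst hd'
          exact absurd hdd (G.ne_inv e)
        · rw [List.concat_eq_append] at ht
          subst ht
          have hf : f = d' := by
            have : (e :: (t' ++ [f])).getLast? = some f := by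
              rw [← List.cons_append, List.getLast?_append]; simp
            rw [Option.mem_def, this] at hd'
            exact Option.some.inj hd'
          subst hf
          rw [HlGraph.isWalk_cons, HlGraph.isWalk_append] at hw
          obtain ⟨h1, c, h2, h3⟩ := hw
          rw [HlGraph.isWalk_cons, HlGraph.isWalk_nil] at h3
          have hc2 : c = G.tgt e := by
            rw [← h3.1, hdd]; simp
          rw [hc2] at h2
          have hred' : G.Reduced t' := by
            have h4 : G.Reduced (t' ++ [f]) := List.IsChain.tail hred
            exact (List.isChain_append.mp h4).1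
          have hne : t' ≠ [] := by
            rintro rfl
            have h4 : G.Reduced [e, f] := hred
            unfold HlGraph.Reduced at h4
            rw [List.isChain_cons_cons] at h4
            apply h4.1
            rw [hdd, G.inv_inv]
          obtain ⟨y, c', k1, k2, k3, k4⟩ := ih (G.tgt e) t' (by
            simp only [List.length_cons, List.length_append, List.length_nil] at hn; omega) hne h2 hred'
          refine ⟨y, c', k1, k2, k3, ?_⟩
          simp only [List.length_cons, List.length_append, List.length_nil]; omega

/-- a closed walk which crosses some dart not as often as its inverse contains a nonempty cyclically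
reduced closed walk which is not longer. -/
theorem smp_exists_cycRed [DecidableEq D] {x : V} {c : List D} (hw : G.IsWalk x c x) {d : D}
    (hd : c.count d ≠ c.count (G.inv d)) :
    ∃ (y : V) (c' : List D), c' ≠ [] ∧ G.IsWalk y c' y ∧ G.CycRed c' ∧ c'.length ≤ c.length := by
  obtain ⟨h1, h2⟩ := (smp_isWalk_iff G x x c).1 hw
  obtain ⟨h3, h4⟩ := smpStk_rw G h1
  set s := smpStk G c.reverse with hs
  have hw' : G.IsWalk x s.reverse x := by
    rw [smp_isWalk_iff, List.reverse_reverse]
    exact ⟨h3, h4.trans h2⟩
  have hred : G.Reduced s.reverse := by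
    unfold HlGraph.Reduced
    rw [List.isChain_reverse]
    exact smpStk_chain G c.reverse
  have hne : s.reverse ≠ [] := by
    intro h
    have hs0 : s = [] := by simpa using h
    have := smpStk_count G c.reverse d
    rw [← hs, hs0] at this
    simp only [List.count_nil, List.count_reverse, zero_add, add_zero] at this
    exact hd this.symm
  obtain ⟨y, c', k1, k2, k3, k4⟩ := smp_cycRed_of_reduced G _ x s.reverse le_rfl hne hw' hred
  refine ⟨y, c', k1, k2, k3, k4.trans ?_⟩
  have := smpStk_length_le G c.reverse
  simpa [hs] using this

/-! ### Monotonicity of the rank, counting -/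

section Count
variable [DecidableEq V] [DecidableEq D]

/-- For a walk `w` from `v` and a "subgraph" `(VK, DK)` containing `v`: every visited vertex outside `VK`
is paid by two darts of the support outside `DK`. -/
theorem smp_rank_mono (w : List D) : ∀ (v x : V) (VK : Finset V) (DK : Finset D), G.IsWalk v w x → v ∈ VK →
    (∀ d ∈ DK, G.src d ∈ VK ∧ G.tgt d ∈ VK) →
    2 * (smpVSupp G v w \ VK).card ≤ (smpDSupp G w \ DK).card := by
  induction w with
  | nil =>
    intro v x VK DK _ hv _
    have : smpVSupp G v [] \ VK = ∅ := by
      ext y; simp only [mem_smpVSupp, Finset.mem_sdiff]; simp; rintro rfl; exact hv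
    rw [this]; simp
  | cons d w ih =>
    intro v x VK DK hw hv hK
    rw [HlGraph.isWalk_cons] at hw
    have hK' : ∀ e ∈ insert d (insert (G.inv d) DK),
        G.src e ∈ insert (G.tgt d) VK ∧ G.tgt e ∈ insert (G.tgt d) VK := by
      intro e he
      rw [Finset.mem_insert, Finset.mem_insert] at he
      rcases he with rfl | rfl | he
      · exact ⟨Finset.mem_insert_of_mem (hw.1 ▸ hv), Finset.mem_insert_self _ _⟩
      · simp only [HlGraph.src_inv, HlGraph.tgt_inv]
        exact ⟨Finset.mem_insert_self _ _, Finset.mem_insert_of_mem (hw.1 ▸ hv)⟩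
      · exact ⟨Finset.mem_insert_of_mem (hK e he).1, Finset.mem_insert_of_mem (hK e he).2⟩
    have IH := ih (G.tgt d) x (insert (G.tgt d) VK) (insert d (insert (G.inv d) DK)) hw.2
      (Finset.mem_insert_self _ _) hK'
    by_cases ht : G.tgt d ∈ VK
    · have e1 : smpVSupp G v (d :: w) \ VK ⊆ smpVSupp G (G.tgt d) w \ insert (G.tgt d) VK := by
        intro y hy
        simp only [Finset.mem_sdiff, mem_smpVSupp, Finset.mem_insert, List.mem_cons] at hy ⊢
        obtain ⟨hy1, hy2⟩ := hy
        refine ⟨?_, ?_⟩
        · rcases hy1 with rfl | ⟨e, rfl | he, rfl⟩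
          · exact absurd hv hy2
          · exact Or.inl rfl
          · exact Or.inr ⟨e, he, rfl⟩
        · rintro (rfl | h)
          · exact hy2 ht
          · exact hy2 h
      have e2 : smpDSupp G w \ insert d (insert (G.inv d) DK) ⊆ smpDSupp G (d :: w) \ DK := by
        intro e he
        rw [smpDSupp_cons]
        simp only [Finset.mem_sdiff, Finset.mem_insert] at he ⊢
        tauto
      calc 2 * (smpVSupp G v (d :: w) \ VK).card
          ≤ 2 * (smpVSupp G (G.tgt d) w \ insert (G.tgt d) VK).card :=
            Nat.mul_le_mul_left _ (Finset.card_le_card e1)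
        _ ≤ _ := IH
        _ ≤ _ := Finset.card_le_card e2
    · have hd1 : d ∉ DK := fun h => ht (hK d h).2
      have hd2 : G.inv d ∉ DK := fun h => ht (by simpa using (hK _ h).1)
      have e1 : smpVSupp G v (d :: w) \ VK ⊆
          insert (G.tgt d) (smpVSupp G (G.tgt d) w \ insert (G.tgt d) VK) := by
        intro y hy
        simp only [Finset.mem_sdiff, mem_smpVSupp, Finset.mem_insert, List.mem_cons] at hy ⊢
        obtain ⟨hy1, hy2⟩ := hy
        by_cases hyt : y = G.tgt d
        · exact Or.inl hyt
        · right
          refine ⟨?_, ?_⟩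
          · rcases hy1 with rfl | ⟨e, rfl | he, rfl⟩
            · exact absurd hv hy2
            · exact Or.inl rfl
            · exact Or.inr ⟨e, he, rfl⟩
          · rintro (h | h)
            · exact hyt h
            · exact hy2 h
      have e2 : insert d (insert (G.inv d) (smpDSupp G w \ insert d (insert (G.inv d) DK))) ⊆
          smpDSupp G (d :: w) \ DK := by
        intro e he
        rw [smpDSupp_cons]
        simp only [Finset.mem_sdiff, Finset.mem_insert] at he ⊢
        rcases he with rfl | rfl | he
        · exact ⟨Or.inl rfl, hd1⟩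
        · exact ⟨Or.inr (Or.inl rfl), hd2⟩
        · tauto
      have e3 : (insert d (insert (G.inv d) (smpDSupp G w \ insert d (insert (G.inv d) DK)))).card =
          (smpDSupp G w \ insert d (insert (G.inv d) DK)).card + 2 := by
        rw [Finset.card_insert_of_notMem, Finset.card_insert_of_notMem]
        · simp
        · simp [G.ne_inv d]
      calc 2 * (smpVSupp G v (d :: w) \ VK).card
          ≤ 2 * (insert (G.tgt d) (smpVSupp G (G.tgt d) w \ insert (G.tgt d) VK)).card :=
            Nat.mul_le_mul_left _ (Finset.card_le_card e1)
        _ ≤ 2 * ((smpVSupp G (G.tgt d) w \ insert (G.tgt d) VK).card + 1) :=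
            Nat.mul_le_mul_left _ (Finset.card_insert_le _ _)
        _ ≤ (smpDSupp G w \ insert d (insert (G.inv d) DK)).card + 2 := by omega
        _ = _ := e3.symm
        _ ≤ _ := Finset.card_le_card e2

omit [DecidableEq V] in
lemma smp_sum_count (K : Finset D) (u : List D) :
    ∑ d ∈ K, u.count d = u.countP (fun d => decide (d ∈ K)) := by
  induction u with
  | nil => simp
  | cons e u ih =>
    simp only [List.count_cons, List.countP_cons, Finset.sum_add_distrib, ih, beq_iff_eq]
    congr 1
    rw [Finset.sum_ite_eq]
    simp

omit [DecidableEq V] in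
lemma smp_sum_count_inv (K : Finset D) (hK : ∀ d, G.inv d ∈ K ↔ d ∈ K) (u : List D) :
    ∑ d ∈ K, u.count (G.inv d) = u.countP (fun d => decide (d ∈ K)) := by
  induction u with
  | nil => simp
  | cons e u ih =>
    simp only [List.count_cons, List.countP_cons, Finset.sum_add_distrib, ih, beq_iff_eq]
    congr 1
    have : ∀ d, (e = G.inv d) ↔ (G.inv e = d) := fun d => (G.inv_eq_iff).symm
    simp only [this]
    rw [Finset.sum_ite_eq]
    simp [hK]

omit [DecidableEq V] in
/-- if no edge is traversed exactly once, then an inversion invariant set `K` of darts of the support is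
not larger than the number of steps along `K`. -/
lemma smp_card_le_countP (K : Finset D) (hK : ∀ d, G.inv d ∈ K ↔ d ∈ K) (u : List D)
    (hns : smpNoSingle G u) (hsub : K ⊆ smpDSupp G u) :
    K.card ≤ u.countP (fun d => decide (d ∈ K)) := by
  have h1 : ∑ d ∈ K, smpMult G u d = 2 * u.countP (fun d => decide (d ∈ K)) := by
    simp only [smpMult, Finset.sum_add_distrib, smp_sum_count, smp_sum_count_inv G K hK]
    ring
  have h2 : ∑ _d ∈ K, 2 ≤ ∑ d ∈ K, smpMult G u d := by
    apply Finset.sum_le_sum
    intro d hd
    have h3 := hns d
    have h4 : 0 < smpMult G u d := by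
      rcases (mem_smpDSupp G).1 (hsub hd) with h | h
      · have := List.count_pos_iff.mpr h
        unfold smpMult; omega
      · have := List.count_pos_iff.mpr h
        unfold smpMult; omega
    omega
  rw [Finset.sum_const, smul_eq_mul, h1] at h2
  omega

end Count

end Claimed.Agent.R300
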