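/-
Row 300, shared sampling machine (SMP): the rank bound  KK Lemma 8.1 = INJ Lemma 4.7.
Sub-captain: helper21.  Proof: helper217.

PROOF (spanning tree + anchors + one pigeonhole; gives `(11 C + 2)^2`).  If `g < 16` then `b ≤ m ≤ 15 C`.
Otherwise `r = (g + 2) / 8`, so `8 r ≤ g + 2`, `g ≤ 11 r`.  First-visit spanning tree of the walk with parent darts
and depths (`SmpTree`, `smp_tree_exists`).  ANCHOR of `x` = its ancestor at depth `(dep x / r - 1) r` (truncated
subtraction), at distance `< 2 r`.  Every anchor different from the root has below it a tree path with `r` vertices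
in the `r` levels starting at its own level, and these paths are disjoint: `(#anchors - 1) r ≤ |V| ≤ C g + 1`
(`SmpTree.card_anch`), so `#anchors ≤ 11 C + 2`.  If there were more than `2 (#anchors)^2` non-tree darts, three of
them would have the same pair (anchor of the source, anchor of the target), among them `e`, `e'` with
`e' ≠ e, inv e`; the closed walk  anchor ↓ src e -e- tgt e ↑ anchor' ↓ tgt e' -inv e'- src e' ↑ anchor  has length
`≤ 8 r - 2 ≤ g` and crosses `e` exactly once (`SmpTree.short_cycle`), so it contains a nonempty cyclically reduced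
closed walk which is not longer (`smp_exists_cycRed` in `SmpRed.lean`).  Contradiction with the girth.
-/
import Claimed.Agent.R300.SmpRed

set_option autoImplicit false

namespace Claimed.Agent.R300

open HeisLaw

universe u v

variable {V : Type u} {D : Type v} (G : HlGraph V D)

/-! ### The first-visit spanning tree -/

section Tree
variable [DecidableEq V]

/-- a rooted spanning tree of the vertex set `VS`: parent darts and depths. -/
structure SmpTree (v : V) (VS : Finset V) (par : V → D) (dep : V → ℕ) : Prop where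
  root : v ∈ VS
  dep_root : dep v = 0
  tgt_par : ∀ x ∈ VS, x ≠ v → G.tgt (par x) = x
  src_par : ∀ x ∈ VS, x ≠ v → G.src (par x) ∈ VS
  dep_par : ∀ x ∈ VS, x ≠ v → dep x = dep (G.src (par x)) + 1

lemma smp_tree_exists (d₀ : D) {v : V} {u : List D} (hu : smpRW G v u) :
    ∃ (par : V → D) (dep : V → ℕ), SmpTree G v (smpVSupp G v u) par dep := by
  induction u with
  | nil =>
    refine ⟨fun _ => d₀, fun _ => 0, ⟨by simp [smpVSupp], rfl, ?_, ?_, ?_⟩⟩ <;>
    · intro x hx hxv
      simp [smpVSupp] at hx
      exact absurd hx hxv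
  | cons d u ih =>
    rw [smpRW_cons] at hu
    obtain ⟨par, dep, ht⟩ := ih hu.2
    rw [smpVSupp_cons]
    by_cases hy : G.tgt d ∈ smpVSupp G v u
    · rw [Finset.insert_eq_of_mem hy]
      exact ⟨par, dep, ht⟩
    · have hs : G.src d ∈ smpVSupp G v u := hu.1 ▸ smpCur_mem_smpVSupp G v u
      have hsy : G.src d ≠ G.tgt d := fun h => hy (h ▸ hs)
      have hvy : v ≠ G.tgt d := fun h => hy (h ▸ ht.root)
      refine ⟨Function.update par (G.tgt d) d, Function.update dep (G.tgt d) (dep (G.src d) + 1),
        ⟨Finset.mem_insert_of_mem ht.root, ?_, ?_, ?_, ?_⟩⟩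
      · rw [Function.update_of_ne hvy]; exact ht.dep_root
      · intro x hx hxv
        rcases Finset.mem_insert.mp hx with rfl | hx
        · rw [Function.update_self]
        · have : x ≠ G.tgt d := fun h => hy (h ▸ hx)
          rw [Function.update_of_ne this]; exact ht.tgt_par x hx hxv
      · intro x hx hxv
        rcases Finset.mem_insert.mp hx with rfl | hx
        · rw [Function.update_self]; exact Finset.mem_insert_of_mem hs
        · have : x ≠ G.tgt d := fun h => hy (h ▸ hx)
          rw [Function.update_of_ne this]; exact Finset.mem_insert_of_mem (ht.src_par x hx hxv)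
      · intro x hx hxv
        rcases Finset.mem_insert.mp hx with rfl | hx
        · rw [Function.update_self, Function.update_self, Function.update_of_ne hsy]
        · have h1 : x ≠ G.tgt d := fun h => hy (h ▸ hx)
          have h2 : G.src (par x) ≠ G.tgt d := fun h => hy (h ▸ ht.src_par x hx hxv)
          rw [Function.update_of_ne h1, Function.update_of_ne h1, Function.update_of_ne h2]
          exact ht.dep_par x hx hxv

/-- the parent vertex. -/
def smpParent (v : V) (par : V → D) (x : V) : V := if x = v then v else G.src (par x)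

/-- the upward tree walk of length `k`. -/
def smpUp (v : V) (par : V → D) : ℕ → V → List D
  | 0, _ => []
  | k + 1, x => G.inv (par x) :: smpUp v par k (smpParent G v par x)

variable {G} {v : V} {VS : Finset V} {par : V → D} {dep : V → ℕ}

lemma SmpTree.p_mem (h : SmpTree G v VS par dep) {x : V} (hx : x ∈ VS) : smpParent G v par x ∈ VS := by
  unfold smpParent; split_ifs with hxv
  · exact h.root
  · exact h.src_par x hx hxv

lemma SmpTree.dep_p (h : SmpTree G v VS par dep) {x : V} (hx : x ∈ VS) :
    dep (smpParent G v par x) = dep x - 1 := by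
  unfold smpParent; split_ifs with hxv
  · rw [hxv, h.dep_root]
  · rw [h.dep_par x hx hxv]; simp

lemma SmpTree.anc_mem (h : SmpTree G v VS par dep) (k : ℕ) {x : V} (hx : x ∈ VS) :
    (smpParent G v par)^[k] x ∈ VS := by
  induction k generalizing x with
  | zero => exact hx
  | succ k ih => rw [Function.iterate_succ_apply]; exact ih (h.p_mem hx)

lemma SmpTree.dep_anc (h : SmpTree G v VS par dep) (k : ℕ) {x : V} (hx : x ∈ VS) :
    dep ((smpParent G v par)^[k] x) = dep x - k := by
  induction k generalizing x with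
  | zero => simp
  | succ k ih => rw [Function.iterate_succ_apply, ih (h.p_mem hx), h.dep_p hx]; omega

lemma SmpTree.eq_root (h : SmpTree G v VS par dep) {x : V} (hx : x ∈ VS) (h0 : dep x = 0) : x = v := by
  by_contra hxv
  have := h.dep_par x hx hxv
  omega

omit [DecidableEq V] in
lemma smpUp_length [DecidableEq V] (k : ℕ) (x : V) : (smpUp G v par k x).length = k := by
  induction k generalizing x with
  | zero => rfl
  | succ k ih => simp [smpUp, ih]

lemma SmpTree.up_walk (h : SmpTree G v VS par dep) (k : ℕ) {x : V} (hx : x ∈ VS) (hk : k ≤ dep x) :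
    G.IsWalk x (smpUp G v par k x) ((smpParent G v par)^[k] x) := by
  induction k generalizing x with
  | zero => simp [smpUp]
  | succ k ih =>
    have hxv : x ≠ v := by
      rintro rfl; rw [h.dep_root] at hk; omega
    rw [smpUp, HlGraph.isWalk_cons, Function.iterate_succ_apply]
    refine ⟨by rw [HlGraph.src_inv]; exact h.tgt_par x hx hxv, ?_⟩
    have e : G.tgt (G.inv (par x)) = smpParent G v par x := by
      rw [HlGraph.tgt_inv]; unfold smpParent; rw [if_neg hxv]
    rw [e]
    exact ih (h.p_mem hx) (by rw [h.dep_p hx]; omega)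

/-- tree darts. -/
def smpIsT (G : HlGraph V D) (v : V) (VS : Finset V) (par : V → D) (e : D) : Prop :=
  ∃ z ∈ VS, z ≠ v ∧ (e = par z ∨ e = G.inv (par z))

omit [DecidableEq V] in
lemma smpIsT_inv {e : D} : smpIsT G v VS par (G.inv e) ↔ smpIsT G v VS par e := by
  constructor
  · rintro ⟨z, hz, hzv, h | h⟩
    · exact ⟨z, hz, hzv, Or.inr ((G.inv_eq_iff).1 h)⟩
    · exact ⟨z, hz, hzv, Or.inl (G.inv_injective h)⟩
  · rintro ⟨z, hz, hzv, h | h⟩
    · exact ⟨z, hz, hzv, Or.inr (by rw [h])⟩
    · exact ⟨z, hz, hzv, Or.inl (by rw [h, G.inv_inv])⟩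

lemma SmpTree.up_tree (h : SmpTree G v VS par dep) (k : ℕ) {x : V} (hx : x ∈ VS) (hk : k ≤ dep x) :
    ∀ e ∈ smpUp G v par k x, smpIsT G v VS par e := by
  induction k generalizing x with
  | zero => simp [smpUp]
  | succ k ih =>
    have hxv : x ≠ v := by
      rintro rfl; rw [h.dep_root] at hk; omega
    intro e he
    rw [smpUp, List.mem_cons] at he
    rcases he with rfl | he
    · exact ⟨x, hx, hxv, Or.inr rfl⟩
    · exact ih (h.p_mem hx) (by rw [h.dep_p hx]; omega) e he

/-! ### Anchors -/

/-- distance to the anchor. -/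
def smpKap (r : ℕ) (dep : V → ℕ) (x : V) : ℕ := dep x - (dep x / r - 1) * r

/-- the anchor of `x`: its ancestor at depth `(dep x / r - 1) r`. -/
def smpAnch (G : HlGraph V D) (v : V) (par : V → D) (r : ℕ) (dep : V → ℕ) (x : V) : V :=
  (smpParent G v par)^[smpKap r dep x] x

omit [DecidableEq V] in
lemma smpKap_le (r : ℕ) (x : V) : smpKap r dep x ≤ dep x := Nat.sub_le _ _

omit [DecidableEq V] in
lemma smp_level_le (r : ℕ) (n : ℕ) : (n / r - 1) * r ≤ n := by
  calc (n / r - 1) * r ≤ (n / r) * r := Nat.mul_le_mul_right _ (Nat.sub_le _ _)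
    _ ≤ n := Nat.div_mul_le_self n r

omit [DecidableEq V] in
lemma smpKap_lt {r : ℕ} (hr : 0 < r) (x : V) : smpKap r dep x < 2 * r := by
  unfold smpKap
  have h1 := Nat.div_add_mod (dep x) r
  have h2 := Nat.mod_lt (dep x) hr
  rcases Nat.eq_zero_or_pos (dep x / r) with h0 | h0
  · rw [h0] at h1 ⊢
    simp at h1 ⊢
    omega
  · have h3 : (dep x / r - 1) * r = r * (dep x / r) - r := by
      rw [Nat.sub_mul, one_mul, mul_comm]
    have h4 : r ≤ r * (dep x / r) := Nat.le_mul_of_pos_right r h0
    rw [h3]; omega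

lemma SmpTree.dep_anch (h : SmpTree G v VS par dep) (r : ℕ) {x : V} (hx : x ∈ VS) :
    dep (smpAnch G v par r dep x) = (dep x / r - 1) * r := by
  unfold smpAnch
  rw [h.dep_anc _ hx]
  unfold smpKap
  have := smp_level_le r (dep x)
  omega

/-- there are few anchors. -/
lemma SmpTree.card_anch (h : SmpTree G v VS par dep) (r : ℕ) :
    ((VS.image (smpAnch G v par r dep)).card - 1) * r ≤ VS.card := by
  classical
  set A := VS.image (smpAnch G v par r dep) with hA
  have hex : ∀ a ∈ A.erase v, ∃ x, x ∈ VS ∧ smpAnch G v par r dep x = a := by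
    intro a ha
    obtain ⟨x, hx, hxa⟩ := Finset.mem_image.mp (Finset.mem_of_mem_erase ha)
    exact ⟨x, hx, hxa⟩
  have : Nonempty V := ⟨v⟩
  choose! wit hwit using hex
  set z : V × ℕ → V := fun q => (smpParent G v par)^[smpKap r dep (wit q.1) - q.2] (wit q.1) with hz
  have hfacts : ∀ q ∈ (A.erase v) ×ˢ Finset.range r,
      z q ∈ VS ∧ dep (z q) % r = q.2 ∧ (smpParent G v par)^[q.2] (z q) = q.1 := by
    rintro ⟨a, k⟩ hq
    rw [Finset.mem_product, Finset.mem_range] at hq
    obtain ⟨ha, hk⟩ := hq
    simp only at ha hk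
    obtain ⟨hx, hxa⟩ := hwit a ha
    have hav : a ≠ v := Finset.ne_of_mem_erase ha
    have hda : dep a = (dep (wit a) / r - 1) * r := by
      have := h.dep_anch r hx
      rwa [hxa] at this
    have hda0 : dep a ≠ 0 := by
      intro h0
      apply hav
      apply h.eq_root _ h0
      rw [← hxa]; exact h.anc_mem _ hx
    have hq2 : 2 ≤ dep (wit a) / r := by
      by_contra hcon
      have : dep (wit a) / r - 1 = 0 := by omega
      rw [this] at hda; simp at hda; exact hda0 hda
    have hlev := smp_level_le r (dep (wit a))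
    have hkap : smpKap r dep (wit a) = dep (wit a) - (dep (wit a) / r - 1) * r := rfl
    have hkr : r ≤ smpKap r dep (wit a) := by
      have h3 : (dep (wit a) / r - 1) * r = (dep (wit a) / r) * r - r := by
        rw [Nat.sub_mul, one_mul]
      have h4 := Nat.div_mul_le_self (dep (wit a)) r
      have h5 : r ≤ (dep (wit a) / r) * r := Nat.le_mul_of_pos_left r (by omega)
      omega
    refine ⟨h.anc_mem _ hx, ?_, ?_⟩
    · simp only [hz]
      rw [h.dep_anc _ hx]
      have : dep (wit a) - (smpKap r dep (wit a) - k) = (dep (wit a) / r - 1) * r + k := by omega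
      rw [this, Nat.mul_add_mod_of_lt hk]
    · simp only [hz]
      rw [← Function.iterate_add_apply]
      have : k + (smpKap r dep (wit a) - k) = smpKap r dep (wit a) := by omega
      rw [this]; exact hxa
  have hcard : ((A.erase v) ×ˢ Finset.range r).card ≤ VS.card := by
    apply Finset.card_le_card_of_injOn z (fun q hq => (hfacts q hq).1)
    intro q hq q' hq' heq
    obtain ⟨-, h2, h3⟩ := hfacts q hq
    obtain ⟨-, h2', h3'⟩ := hfacts q' hq'
    have hk : q.2 = q'.2 := by rw [← h2, ← h2', heq]
    have ha : q.1 = q'.1 := by rw [← h3, ← h3', heq, hk]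
    exact Prod.ext ha hk
  rw [Finset.card_product, Finset.card_range] at hcard
  have : A.card - 1 ≤ (A.erase v).card := Finset.pred_card_le_card_erase
  calc (A.card - 1) * r ≤ (A.erase v).card * r := Nat.mul_le_mul_right _ this
    _ ≤ _ := hcard

/-- two different non-tree edges with the same pair of anchors give a short closed walk which crosses the
first of them exactly once. -/
lemma SmpTree.short_cycle [DecidableEq D] (h : SmpTree G v VS par dep) {r : ℕ} (hr : 0 < r) {e e' : D}
    (he1 : G.src e ∈ VS) (he2 : G.tgt e ∈ VS) (he1' : G.src e' ∈ VS) (he2' : G.tgt e' ∈ VS)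
    (hT : ¬ smpIsT G v VS par e) (hne : e' ≠ e) (hne' : e' ≠ G.inv e)
    (ha1 : smpAnch G v par r dep (G.src e') = smpAnch G v par r dep (G.src e))
    (ha2 : smpAnch G v par r dep (G.tgt e') = smpAnch G v par r dep (G.tgt e)) :
    ∃ (f : V) (c : List D), G.IsWalk f c f ∧ c.length + 2 ≤ 8 * r ∧ c.count e ≠ c.count (G.inv e) := by
  set U1 := smpUp G v par (smpKap r dep (G.src e)) (G.src e) with hU1
  set U2 := smpUp G v par (smpKap r dep (G.tgt e)) (G.tgt e) with hU2
  set U3 := smpUp G v par (smpKap r dep (G.tgt e')) (G.tgt e') with hU3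
  set U4 := smpUp G v par (smpKap r dep (G.src e')) (G.src e') with hU4
  have w1 : G.IsWalk (G.src e) U1 (smpAnch G v par r dep (G.src e)) := h.up_walk _ he1 (smpKap_le r _)
  have w2 : G.IsWalk (G.tgt e) U2 (smpAnch G v par r dep (G.tgt e)) := h.up_walk _ he2 (smpKap_le r _)
  have w3 : G.IsWalk (G.tgt e') U3 (smpAnch G v par r dep (G.tgt e)) :=
    ha2 ▸ h.up_walk _ he2' (smpKap_le r _)
  have w4 : G.IsWalk (G.src e') U4 (smpAnch G v par r dep (G.src e)) :=
    ha1 ▸ h.up_walk _ he1' (smpKap_le r _)
  have t1 : ∀ d ∈ U1, smpIsT G v VS par d := h.up_tree _ he1 (smpKap_le r _)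
  have t2 : ∀ d ∈ U2, smpIsT G v VS par d := h.up_tree _ he2 (smpKap_le r _)
  have t3 : ∀ d ∈ U3, smpIsT G v VS par d := h.up_tree _ he2' (smpKap_le r _)
  have t4 : ∀ d ∈ U4, smpIsT G v VS par d := h.up_tree _ he1' (smpKap_le r _)
  have hT' : ¬ smpIsT G v VS par (G.inv e) := fun hh => hT (smpIsT_inv.1 hh)
  have c0 : ∀ (U : List D), (∀ d ∈ U, smpIsT G v VS par d) → ∀ x, ¬ smpIsT G v VS par x →
      U.count x = 0 ∧ (hlRev G U).count x = 0 := by
    intro U hU x hx
    refine ⟨List.count_eq_zero_of_not_mem (fun hm => hx (hU x hm)),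
      List.count_eq_zero_of_not_mem (fun hm => hx ?_)⟩
    rw [mem_hlRev] at hm
    exact smpIsT_inv.1 (hU _ hm)
  refine ⟨smpAnch G v par r dep (G.src e),
    hlRev G U1 ++ e :: (U2 ++ (hlRev G U3 ++ G.inv e' :: U4)), ?_, ?_, ?_⟩
  · rw [HlGraph.isWalk_append]
    refine ⟨_, hlRev_walk w1, ?_⟩
    rw [HlGraph.isWalk_cons, HlGraph.isWalk_append]
    refine ⟨rfl, _, w2, ?_⟩
    rw [HlGraph.isWalk_append]
    refine ⟨_, hlRev_walk w3, ?_⟩
    rw [HlGraph.isWalk_cons]
    refine ⟨rfl, ?_⟩
    rw [HlGraph.tgt_inv]; exact w4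
  · simp only [List.length_append, List.length_cons, hlRev_length, hU1, hU2, hU3, hU4, smpUp_length]
    have k1 := smpKap_lt (dep := dep) hr (G.src e)
    have k2 := smpKap_lt (dep := dep) hr (G.tgt e)
    have k3 := smpKap_lt (dep := dep) hr (G.tgt e')
    have k4 := smpKap_lt (dep := dep) hr (G.src e')
    omega
  · simp only [List.count_append, List.count_cons, (c0 U1 t1 e hT).2, (c0 U2 t2 e hT).1,
      (c0 U3 t3 e hT).2, (c0 U4 t4 e hT).1, (c0 U1 t1 _ hT').2, (c0 U2 t2 _ hT').1,
      (c0 U3 t3 _ hT').2, (c0 U4 t4 _ hT').1]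
    have b1 : (G.inv e' == e) = false := by
      rw [beq_eq_false_iff_ne]; intro hh; exact hne' ((G.inv_eq_iff).1 hh)
    have b2 : (G.inv e' == G.inv e) = false := by
      rw [beq_eq_false_iff_ne]; intro hh; exact hne (G.inv_injective hh)
    have b3 : (e == G.inv e) = false := by
      rw [beq_eq_false_iff_ne]; exact G.ne_inv e
    simp [b1, b2, b3]

end Tree

/-! ### The rank bound -/

/-- **Rank bound** (KK 8.1 / INJ 4.7).  If every nonempty cyclically reduced closed walk is longer
than `g` and the support of a walk has at most `C g` undirected edges, then its first Betti number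
is at most `smpB C`. -/
theorem smp_rank_bound [DecidableEq V] [DecidableEq D] (g C : ℕ)
    (hgirth : ∀ (x : V) (c : List D), c ≠ [] → G.IsWalk x c x → G.CycRed c → g < c.length)
    (v x : V) (w : List D) (hw : G.IsWalk v w x)
    (hlen : (smpDSupp G w).card ≤ 2 * (C * g)) :
    smpRankLe G v w (smpB C) := by
  classical
  unfold smpRankLe smpB
  have hVpos : 0 < (smpVSupp G v w).card := Finset.card_pos.mpr ⟨v, by simp [smpVSupp]⟩
  rcases Nat.lt_or_ge g 16 with hg | hg
  · have : C * g ≤ 15 * C := by nlinarith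
    nlinarith
  cases w with
  | nil =>
    have : (smpDSupp G ([] : List D)).card = 0 := by simp [smpDSupp]
    rw [this]
    generalize (40 * C + 40) ^ 2 = Z
    omega
  | cons d₀ w₀ =>
  set w := d₀ :: w₀ with hwdef
  obtain ⟨hrw, -⟩ := (smp_isWalk_iff G v x w).1 hw
  obtain ⟨par, dep, ht⟩ := smp_tree_exists G d₀ hrw
  rw [smpVSupp_reverse] at ht
  set VS := smpVSupp G v w with hVS
  set DS := smpDSupp G w with hDS
  have hends : ∀ e ∈ DS, G.src e ∈ VS ∧ G.tgt e ∈ VS := by
    intro e he
    have := smpRW_ends G hrw (d := e) (by rw [smpDSupp_reverse]; exact he)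
    rwa [smpVSupp_reverse] at this
  set r := (g + 2) / 8 with hr
  have hr8 : 8 * r ≤ g + 2 := by omega
  have hr11 : g ≤ 11 * r := by omega
  have hr2 : 2 ≤ r := by omega
  -- few vertices
  have hVcard : VS.card ≤ C * g + 1 := by
    have hm := smp_rank_mono G w v x {v} ∅ hw (by simp) (by simp)
    rw [Finset.sdiff_empty, ← hVS, ← hDS] at hm
    have h1 : VS.card ≤ (VS \ {v}).card + 1 := by
      have := Finset.card_le_card_sdiff_add_card (s := VS) (t := {v})
      simpa using this
    omega
  -- few anchors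
  set A := VS.image (smpAnch G v par r dep) with hA
  have hAcard : A.card ≤ 11 * C + 2 := by
    have h1 := ht.card_anch r
    rw [← hA] at h1
    by_contra hcon
    have h2 : 11 * C + 2 ≤ A.card - 1 := by omega
    have h3 : (11 * C + 2) * r ≤ C * g + 1 := le_trans (Nat.mul_le_mul_right _ h2) (h1.trans hVcard)
    have h4 : C * g ≤ C * (11 * r) := Nat.mul_le_mul_left _ hr11
    nlinarith
  -- tree darts
  set T : Finset D := (VS.erase v).image par ∪ (VS.erase v).image (fun z => G.inv (par z)) with hT
  have hTmem : ∀ e, e ∈ T ↔ smpIsT G v VS par e := by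
    intro e
    simp only [hT, Finset.mem_union, Finset.mem_image, Finset.mem_erase, smpIsT]
    constructor
    · rintro (⟨z, ⟨h1, h2⟩, rfl⟩ | ⟨z, ⟨h1, h2⟩, rfl⟩)
      · exact ⟨z, h2, h1, Or.inl rfl⟩
      · exact ⟨z, h2, h1, Or.inr rfl⟩
    · rintro ⟨z, h2, h1, rfl | rfl⟩
      · exact Or.inl ⟨z, ⟨h1, h2⟩, rfl⟩
      · exact Or.inr ⟨z, ⟨h1, h2⟩, rfl⟩
  have hTcard : T.card + 2 ≤ 2 * VS.card := by
    have h1 : T.card ≤ (VS.erase v).card + (VS.erase v).card :=
      le_trans (Finset.card_union_le _ _) (add_le_add Finset.card_image_le Finset.card_image_le)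
    rw [Finset.card_erase_of_mem ht.root] at h1
    omega
  -- non-tree darts
  have hNT : (DS \ T).card ≤ (A ×ˢ A).card * 2 := by
    by_contra hcon
    push Not at hcon
    obtain ⟨y, -, hy⟩ := Finset.exists_lt_card_fiber_of_mul_lt_card_of_maps_to
      (f := fun e => (smpAnch G v par r dep (G.src e), smpAnch G v par r dep (G.tgt e)))
      (s := DS \ T) (t := A ×ˢ A) (n := 2) (by
        intro e he
        have := hends e (Finset.mem_sdiff.mp he).1
        exact Finset.mem_product.mpr ⟨Finset.mem_image_of_mem _ this.1, Finset.mem_image_of_mem _ this.2⟩)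
      hcon
    set F := (DS \ T).filter (fun e =>
      (smpAnch G v par r dep (G.src e), smpAnch G v par r dep (G.tgt e)) = y) with hF
    obtain ⟨e, he⟩ : F.Nonempty := Finset.card_pos.mp (by omega)
    obtain ⟨e', he', hne⟩ := Finset.exists_mem_notMem_of_card_lt_card
      (s := {e, G.inv e}) (t := F) (lt_of_le_of_lt Finset.card_le_two hy)
    rw [Finset.mem_insert, Finset.mem_singleton, not_or] at hne
    obtain ⟨he1, he2⟩ := Finset.mem_filter.mp he
    obtain ⟨he1', he2'⟩ := Finset.mem_filter.mp he'
    obtain ⟨heD, heT⟩ := Finset.mem_sdiff.mp he1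
    obtain ⟨heD', -⟩ := Finset.mem_sdiff.mp he1'
    have hyy := he2'.trans he2.symm
    rw [Prod.mk.injEq] at hyy
    obtain ⟨f, c, hc1, hc2, hc3⟩ := ht.short_cycle (by omega : 0 < r) (hends e heD).1 (hends e heD).2
      (hends e' heD').1 (hends e' heD').2 (fun hh => heT ((hTmem e).2 hh)) hne.1 hne.2 hyy.1 hyy.2
    obtain ⟨y', c', k1, k2, k3, k4⟩ := smp_exists_cycRed G hc1 hc3
    have := hgirth y' c' k1 k2 k3
    omega
  rw [Finset.card_product] at hNT
  have hDS : DS.card ≤ T.card + (DS \ T).card := by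
    have := Finset.card_le_card_sdiff_add_card (s := DS) (t := T)
    omega
  have hAA : A.card * A.card ≤ (11 * C + 2) * (11 * C + 2) := Nat.mul_le_mul hAcard hAcard
  nlinarith

end Claimed.Agent.R300
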