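/-
Row 300, shared sampling machine (SMP): the walk count  KK Lemma 9.5 = INJ Lemma 4.8.
Sub-captain: helper21.  Proof: helper217.

PROOF (one pass encoding, Kraft inequality; no spanning tree).  Fix a walk `w` of the family and let `r` be its
freely reduced form, computed by a stack (`SmpRed.lean`).  CORE = darts of `r` and their inverses (`smpCore`).
(1) `r` is a reduced closed walk, so in its support every vertex except the base point has degree at least 2;
its first Betti number is at most that of the support of `w` (`smp_rank_mono`); hence every vertex has at most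
`2 b + 1` core darts (`smpCore_degree`).
(2) Every step gets a type: 0 = first traversal of a core edge, 1 = later traversal of a core edge, 2 = push of
a non-core dart on the stack, 3 = pop of a non-core dart.  Given the annotated history, a step of type 0 or 2 has
at most `Δ` possibilities, a step of type 1 at most `4 b + 2` (the marked darts at the current vertex), a step of
type 3 is forced (inverse of the top of the stack).  With the costs `4 Δ, 4 (4 b + 2), 4 Δ, 4` the weights
`∏ cost⁻¹` of the admissible annotated histories of a fixed length add up to at most one (`smp_kraft`).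
(3) Every core edge is traversed at least twice, so `2 #0 ≤ #0 + #1`; the final stack has only core darts, so
`#2 = #3`; hence `#0 + #2 ≤ l` (`smp_expensive_le`) and every weight is at least `(16 (4 b + 2)^2 Δ)^(-l)`.
-/
import Claimed.Agent.R300.SmpRank

set_option autoImplicit false

namespace Claimed.Agent.R300

open HeisLaw

universe u v

variable {V : Type u} {D : Type v} (G : HlGraph V D)

/-! ### Degree bound in the support of a reduced closed walk -/

section Degree
variable [DecidableEq V] [DecidableEq D]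

lemma smpc_deg_two {v : V} {s : List D} (hrw : smpRW G v s) (hcur : smpCur G v s = v)
    (hch : s.IsChain (fun a b => a ≠ G.inv b)) {y : V} (hy : y ∈ smpVSupp G v s) (hyv : y ≠ v) :
    2 ≤ ((smpDSupp G s).filter (fun d => G.src d = y)).card := by
  rcases (mem_smpVSupp G).1 hy with h | ⟨d, hd, rfl⟩
  · exact absurd h hyv
  obtain ⟨s₁, s₂, rfl⟩ := List.append_of_mem hd
  rcases List.eq_nil_or_concat s₁ with rfl | ⟨s₁', d', h1⟩
  · exact absurd hcur hyv
  rw [List.concat_eq_append] at h1
  subst h1
  rw [List.append_assoc, List.singleton_append] at hrw hch hd ⊢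
  have h2 := ((smpRW_append G v _ _).1 hrw).1
  rw [smpRW_cons, smpCur_cons] at h2
  have h3 := (List.isChain_append.mp hch).2.1
  rw [List.isChain_cons_cons] at h3
  have hsub : ({d', G.inv d} : Finset D) ⊆
      (smpDSupp G (s₁' ++ d' :: d :: s₂)).filter (fun e => G.src e = G.tgt d) := by
    intro e he
    rw [Finset.mem_insert, Finset.mem_singleton] at he
    rw [Finset.mem_filter, mem_smpDSupp]
    rcases he with rfl | rfl
    · exact ⟨Or.inl (by simp), h2.1⟩
    · exact ⟨Or.inr (by simp [G.inv_inv]), rfl⟩
  calc 2 = ({d', G.inv d} : Finset D).card := (Finset.card_pair h3.1).symm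
    _ ≤ _ := Finset.card_le_card hsub

lemma smpc_deg_one {v : V} {s : List D} (hne : s ≠ []) (hcur : smpCur G v s = v) :
    1 ≤ ((smpDSupp G s).filter (fun d => G.src d = v)).card := by
  cases s with
  | nil => exact absurd rfl hne
  | cons e s =>
    rw [Nat.succ_le_iff, Finset.card_pos]
    refine ⟨G.inv e, ?_⟩
    rw [Finset.mem_filter, mem_smpDSupp]
    exact ⟨Or.inr (by simp [G.inv_inv]), hcur⟩

/-- degrees in the support of a reduced closed walk of first Betti number at most `b`. -/
theorem smpc_core_degree {v : V} {s : List D} (hrw : smpRW G v s) (hcur : smpCur G v s = v)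
    (hch : s.IsChain (fun a b => a ≠ G.inv b)) {b : ℕ}
    (hrank : (smpDSupp G s).card + 2 ≤ 2 * (smpVSupp G v s).card + 2 * b) (x : V) :
    ((smpDSupp G s).filter (fun d => G.src d = x)).card ≤ 2 * b + 1 := by
  by_cases hne : s = []
  · subst hne; simp [smpDSupp]
  by_cases hx : x ∈ smpVSupp G v s
  · have h1 : (smpDSupp G s).card =
        ∑ y ∈ smpVSupp G v s, ((smpDSupp G s).filter (fun d => G.src d = y)).card :=
      Finset.card_eq_sum_card_fiberwise (fun d hd => (smpRW_ends G hrw hd).1)
    rw [← Finset.add_sum_erase _ _ hx] at h1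
    have h2 : ∑ _y ∈ (smpVSupp G v s).erase x, 2 ≤
        ∑ y ∈ (smpVSupp G v s).erase x,
          (((smpDSupp G s).filter (fun d => G.src d = y)).card + if y = v then 1 else 0) := by
      apply Finset.sum_le_sum
      intro y hy
      by_cases hyv : y = v
      · subst hyv
        have := smpc_deg_one G hne hcur
        simp only [if_true]; omega
      · have := smpc_deg_two G hrw hcur hch (Finset.mem_of_mem_erase hy) hyv
        omega
    rw [Finset.sum_add_distrib, Finset.sum_const, smul_eq_mul, Finset.card_erase_of_mem hx,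
      Finset.sum_ite_eq'] at h2
    have h3 : (if v ∈ (smpVSupp G v s).erase x then 1 else 0) ≤ 1 := by split_ifs <;> omega
    have h4 : 0 < (smpVSupp G v s).card := Finset.card_pos.mpr ⟨x, hx⟩
    omega
  · have : (smpDSupp G s).filter (fun d => G.src d = x) = ∅ := by
      rw [Finset.filter_eq_empty_iff]
      intro d hd h
      exact hx (h ▸ (smpRW_ends G hrw hd).1)
    rw [this]; simp

/-- the core of a closed walk `w`: the darts of its reduced form and their inverses. -/
def smpCore (w : List D) : Finset D := smpDSupp G (smpStk G w.reverse)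

omit [DecidableEq V] in
lemma smpCore_inv (w : List D) (d : D) : G.inv d ∈ smpCore G w ↔ d ∈ smpCore G w :=
  inv_mem_smpDSupp G

omit [DecidableEq V] in
lemma smpCore_subset (w : List D) : smpCore G w ⊆ smpDSupp G w := by
  intro d hd
  rw [smpCore, mem_smpDSupp] at hd
  rw [mem_smpDSupp]
  rcases hd with h | h
  · exact Or.inl (by simpa using smpStk_subset G _ _ h)
  · exact Or.inr (by simpa using smpStk_subset G _ _ h)

theorem smpCore_degree {v : V} {w : List D} (hw : G.IsWalk v w v) {b : ℕ} (hb : smpRankLe G v w b)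
    (x : V) : ((smpCore G w).filter (fun d => G.src d = x)).card ≤ 2 * b + 1 := by
  obtain ⟨h1, h2⟩ := (smp_isWalk_iff G v v w).1 hw
  obtain ⟨h3, h4⟩ := smpStk_rw G h1
  refine smpc_core_degree G h3 (h4.trans h2) (smpStk_chain G _) ?_ x
  have hm := smp_rank_mono G w v v (smpVSupp G v (smpStk G w.reverse)) (smpDSupp G (smpStk G w.reverse))
    hw (by simp [smpVSupp]) (fun d hd => smpRW_ends G h3 hd)
  have hV : smpVSupp G v (smpStk G w.reverse) ⊆ smpVSupp G v w := by
    intro y hy
    rw [mem_smpVSupp] at hy ⊢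
    rcases hy with h | ⟨d, hd, rfl⟩
    · exact Or.inl h
    · exact Or.inr ⟨d, by simpa using smpStk_subset G _ _ hd, rfl⟩
  have hD : smpDSupp G (smpStk G w.reverse) ⊆ smpDSupp G w := smpCore_subset G w
  have e1 := Finset.card_sdiff_add_card_eq_card hV
  have e2 := Finset.card_sdiff_add_card_eq_card hD
  unfold smpRankLe at hb
  omega

end Degree

/-! ### Annotated histories and the Kraft inequality

Types of steps: `0` = first traversal of a core edge, `1` = later traversal of a core edge,
`2` = push along a non-core edge, `3` = pop along a non-core edge. -/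

section Kraft
variable [DecidableEq V] [DecidableEq D]

/-- the marked darts of an annotated history. -/
def smpMk : List (D × Fin 4) → Finset D
  | [] => ∅
  | h :: a => if h.2 = 0 ∨ h.2 = 1 then insert h.1 (insert (G.inv h.1) (smpMk a)) else smpMk a

/-- the local rule: `h` is an admissible next step after the annotated history `a`. -/
def smpRule (B : ℕ) (v : V) (a : List (D × Fin 4)) (h : D × Fin 4) : Prop :=
  G.src h.1 = smpCur G v (a.map Prod.fst) ∧
  (h.2 = 1 → h.1 ∈ smpMk G a ∧
    ((smpMk G a).filter (fun d => G.src d = smpCur G v (a.map Prod.fst))).card ≤ B) ∧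
  (h.2 = 3 → (smpStk G (a.map Prod.fst)).head? = some (G.inv h.1))

/-- admissible annotated histories. -/
def smpOk (B : ℕ) (v : V) : List (D × Fin 4) → Prop
  | [] => True
  | h :: a => smpRule G B v a h ∧ smpOk B v a

/-- the cost of a step. -/
def smpCost (Δ B : ℕ) (τ : Fin 4) : ℝ :=
  if τ = 0 ∨ τ = 2 then 4 * Δ else if τ = 1 then 4 * B else 4

/-- the weight of an annotated history. -/
noncomputable def smpWt (Δ B : ℕ) : List (D × Fin 4) → ℝ
  | [] => 1
  | h :: a => (smpCost Δ B h.2)⁻¹ * smpWt Δ B a

omit [DecidableEq V] [DecidableEq D] in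
lemma smpCost_nonneg (Δ B : ℕ) (τ : Fin 4) : 0 ≤ smpCost Δ B τ := by
  unfold smpCost; split_ifs <;> positivity

omit [DecidableEq V] [DecidableEq D] in
lemma smpWt_nonneg (Δ B : ℕ) (a : List (D × Fin 4)) : 0 ≤ smpWt Δ B a := by
  induction a with
  | nil => simp [smpWt]
  | cons h a ih => exact mul_nonneg (inv_nonneg.mpr (smpCost_nonneg Δ B _)) ih

omit [DecidableEq V] [DecidableEq D] in
lemma smp_card_mul_inv_le (n m : ℕ) (h : n ≤ m) : (n : ℝ) * (4 * (m : ℝ))⁻¹ ≤ 1 / 4 := by
  rcases Nat.eq_zero_or_pos m with rfl | hm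
  · have : n = 0 := by omega
    subst this; simp
  · have hm' : (0 : ℝ) < m := by exact_mod_cast hm
    have hn : (n : ℝ) ≤ m := by exact_mod_cast h
    rw [← div_eq_mul_inv, div_le_div_iff₀ (by positivity) (by norm_num)]
    linarith

/-- local Kraft inequality. -/
lemma smp_kraft_local (Δ B : ℕ)
    (hΔ : ∀ (x : V) (T : Finset D), (∀ d ∈ T, G.src d = x) → T.card ≤ Δ)
    (v : V) (a : List (D × Fin 4)) (Hs : Finset (D × Fin 4)) (hH : ∀ h ∈ Hs, smpRule G B v a h) :
    ∑ h ∈ Hs, (smpCost Δ B h.2)⁻¹ ≤ 1 := by
  classical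
  have key : ∀ τ : Fin 4, ∑ h ∈ Hs.filter (fun h => h.2 = τ), (smpCost Δ B h.2)⁻¹ ≤ 1 / 4 := by
    intro τ
    have e1 : ∑ h ∈ Hs.filter (fun h => h.2 = τ), (smpCost Δ B h.2)⁻¹ =
        ((Hs.filter (fun h => h.2 = τ)).card : ℝ) * (smpCost Δ B τ)⁻¹ := by
      rw [Finset.sum_congr rfl (g := fun _ => (smpCost Δ B τ)⁻¹)]
      · rw [Finset.sum_const, nsmul_eq_mul]
      · intro h hh; rw [(Finset.mem_filter.mp hh).2]
    have e2 : (Hs.filter (fun h => h.2 = τ)).card = ((Hs.filter (fun h => h.2 = τ)).image Prod.fst).card := by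
      rw [Finset.card_image_of_injOn]
      intro h hh h' hh' heq
      have h1 := (Finset.mem_filter.mp (Finset.mem_coe.mp hh)).2
      have h2 := (Finset.mem_filter.mp (Finset.mem_coe.mp hh')).2
      exact Prod.ext heq (h1.trans h2.symm)
    have hsrc : ∀ d ∈ (Hs.filter (fun h => h.2 = τ)).image Prod.fst,
        G.src d = smpCur G v (a.map Prod.fst) := by
      intro d hd
      obtain ⟨h, hh, rfl⟩ := Finset.mem_image.mp hd
      exact (hH h (Finset.mem_filter.mp hh).1).1
    rw [e1, e2]
    by_cases h02 : τ = 0 ∨ τ = 2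
    · have : smpCost Δ B τ = 4 * Δ := if_pos h02
      rw [this]
      exact smp_card_mul_inv_le _ _ (hΔ _ _ hsrc)
    · by_cases h1 : τ = 1
      · have : smpCost Δ B τ = 4 * B := by unfold smpCost; rw [if_neg h02, if_pos h1]
        rw [this]
        apply smp_card_mul_inv_le
        rcases Finset.eq_empty_or_nonempty ((Hs.filter (fun h => h.2 = τ)).image Prod.fst) with h0 | ⟨d0, hd0⟩
        · rw [h0]; simp
        · obtain ⟨h, hh, -⟩ := Finset.mem_image.mp hd0
          obtain ⟨hh1, hh2⟩ := Finset.mem_filter.mp hh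
          refine le_trans (Finset.card_le_card ?_) ((hH h hh1).2.1 (hh2.trans h1)).2
          intro d hd
          obtain ⟨h', hh', rfl⟩ := Finset.mem_image.mp hd
          obtain ⟨hh1', hh2'⟩ := Finset.mem_filter.mp hh'
          exact Finset.mem_filter.mpr ⟨((hH h' hh1').2.1 (hh2'.trans h1)).1, (hH h' hh1').1⟩
      · have : smpCost Δ B τ = 4 := by unfold smpCost; rw [if_neg h02, if_neg h1]
        rw [this]
        have h3 : τ = 3 := by
          push Not at h02
          obtain ⟨h0, h2⟩ := h02
          fin_cases τ <;> simp_all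
        have hc : ((Hs.filter (fun h => h.2 = τ)).image Prod.fst).card ≤ 1 := by
          rw [Finset.card_le_one]
          intro d hd d' hd'
          obtain ⟨h, hh, rfl⟩ := Finset.mem_image.mp hd
          obtain ⟨h', hh', rfl⟩ := Finset.mem_image.mp hd'
          obtain ⟨hh1, hh2⟩ := Finset.mem_filter.mp hh
          obtain ⟨hh1', hh2'⟩ := Finset.mem_filter.mp hh'
          have k1 := (hH h hh1).2.2 (hh2.trans h3)
          have k2 := (hH h' hh1').2.2 (hh2'.trans h3)
          rw [k1] at k2
          exact G.inv_injective (Option.some.inj k2)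
        have hc' : (((Hs.filter (fun h => h.2 = τ)).image Prod.fst).card : ℝ) ≤ 1 := by exact_mod_cast hc
        linarith
  have hsplit : ∑ h ∈ Hs, (smpCost Δ B h.2)⁻¹ =
      ∑ τ : Fin 4, ∑ h ∈ Hs.filter (fun h => h.2 = τ), (smpCost Δ B h.2)⁻¹ :=
    (Finset.sum_fiberwise Hs (fun h => h.2) _).symm
  rw [hsplit, Fin.sum_univ_four]
  have := key 0; have := key 1; have := key 2; have := key 3
  linarith

/-- **Kraft inequality** for admissible annotated histories of a fixed length. -/
theorem smp_kraft (Δ B : ℕ)
    (hΔ : ∀ (x : V) (T : Finset D), (∀ d ∈ T, G.src d = x) → T.card ≤ Δ) (v : V) (n : ℕ) :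
    ∀ T : Finset (List (D × Fin 4)), (∀ a ∈ T, a.length = n ∧ smpOk G B v a) →
      ∑ a ∈ T, smpWt Δ B a ≤ 1 := by
  classical
  induction n with
  | zero =>
    intro T hT
    have : T ⊆ {[]} := by
      intro a ha
      rw [Finset.mem_singleton]
      exact List.length_eq_zero_iff.mp (hT a ha).1
    calc ∑ a ∈ T, smpWt Δ B a ≤ ∑ a ∈ ({[]} : Finset (List (D × Fin 4))), smpWt Δ B a :=
          Finset.sum_le_sum_of_subset_of_nonneg this (fun a _ _ => smpWt_nonneg Δ B a)
      _ = 1 := by simp [smpWt]
  | succ n ih =>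
    intro T hT
    have hsplit : ∑ a ∈ T, smpWt Δ B a =
        ∑ t ∈ T.image List.tail, ∑ a ∈ T.filter (fun a => a.tail = t), smpWt Δ B a :=
      (Finset.sum_fiberwise_of_maps_to (fun a ha => Finset.mem_image_of_mem _ ha) _).symm
    rw [hsplit]
    have hinner : ∀ t ∈ T.image List.tail,
        ∑ a ∈ T.filter (fun a => a.tail = t), smpWt Δ B a ≤ smpWt Δ B t := by
      intro t _
      -- the heads
      have hform : ∀ a ∈ T.filter (fun a => a.tail = t), ∃ h, a = h :: t ∧ smpRule G B v t h := by
        intro a ha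
        obtain ⟨ha1, ha2⟩ := Finset.mem_filter.mp ha
        obtain ⟨hl, hok⟩ := hT a ha1
        cases a with
        | nil => simp at hl
        | cons h a' =>
          simp only [List.tail_cons] at ha2
          subst ha2
          exact ⟨h, rfl, hok.1⟩
      set Hs : Finset (D × Fin 4) :=
        (T.filter (fun a => a.tail = t)).biUnion (fun a => a.head?.toFinset) with hHs
      have hmemHs : ∀ h, h ∈ Hs ↔ h :: t ∈ T := by
        intro h
        simp only [hHs, Finset.mem_biUnion, Finset.mem_filter, Option.mem_toFinset]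
        constructor
        · rintro ⟨a, ⟨ha1, ha2⟩, ha3⟩
          cases a with
          | nil => simp at ha3
          | cons h' a' =>
            simp only [List.tail_cons] at ha2
            simp only [List.head?_cons, Option.mem_def, Option.some.injEq] at ha3
            subst ha2; subst ha3; exact ha1
        · intro hh
          exact ⟨h :: t, ⟨hh, rfl⟩, by simp⟩
      have e1 : ∑ a ∈ T.filter (fun a => a.tail = t), smpWt Δ B a =
          ∑ h ∈ Hs, (smpCost Δ B h.2)⁻¹ * smpWt Δ B t := by
        symm
        apply Finset.sum_bij (fun h _ => h :: t)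
        · intro h hh
          exact Finset.mem_filter.mpr ⟨(hmemHs h).1 hh, rfl⟩
        · intro h _ h' _ heq
          exact (List.cons.inj heq).1
        · intro a ha
          obtain ⟨h, rfl, -⟩ := hform a ha
          exact ⟨h, (hmemHs h).2 (Finset.mem_filter.mp ha).1, rfl⟩
        · intro h _; rfl
      rw [e1, ← Finset.sum_mul]
      have hloc := smp_kraft_local G Δ B hΔ v t Hs (by
        intro h hh
        obtain ⟨h', heq, hr⟩ := hform (h :: t) (Finset.mem_filter.mpr ⟨(hmemHs h).1 hh, rfl⟩)
        rw [(List.cons.inj heq).1]; exact hr)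
      calc (∑ h ∈ Hs, (smpCost Δ B h.2)⁻¹) * smpWt Δ B t ≤ 1 * smpWt Δ B t :=
            mul_le_mul_of_nonneg_right hloc (smpWt_nonneg Δ B t)
        _ = _ := one_mul _
    refine le_trans (Finset.sum_le_sum hinner) (ih _ ?_)
    intro t ht
    obtain ⟨a, ha, rfl⟩ := Finset.mem_image.mp ht
    obtain ⟨hl, hok⟩ := hT a ha
    cases a with
    | nil => simp at hl
    | cons h a' =>
      simp only [List.length_cons, Nat.add_right_cancel_iff] at hl
      exact ⟨hl, hok.2⟩

end Kraft

/-! ### The annotation of a walk -/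

section Ann
variable [DecidableEq D]

/-- the type of the step `d` after the history `u`, relative to the core `K`. -/
def smpTyOf (K : Finset D) (u : List D) (d : D) : Fin 4 :=
  if d ∈ K then (if d ∈ u ∨ G.inv d ∈ u then 1 else 0)
  else (if (smpStk G u).head? = some (G.inv d) then 3 else 2)

/-- the annotated history. -/
def smpAnn (K : Finset D) : List D → List (D × Fin 4)
  | [] => []
  | d :: u => (d, smpTyOf G K u d) :: smpAnn K u

lemma smpAnn_fst (K : Finset D) (u : List D) : (smpAnn G K u).map Prod.fst = u := by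
  induction u with
  | nil => rfl
  | cons d u ih => simp [smpAnn, ih]

lemma smpAnn_length (K : Finset D) (u : List D) : (smpAnn G K u).length = u.length := by
  rw [← List.length_map (f := Prod.fst), smpAnn_fst]

lemma smpTyOf_core {K : Finset D} {u : List D} {d : D} :
    (smpTyOf G K u d = 0 ∨ smpTyOf G K u d = 1) ↔ d ∈ K := by
  unfold smpTyOf
  split_ifs <;> simp_all

/-- the marked darts are the darts of the core which have been traversed. -/
lemma mem_smpMk_ann (K : Finset D) (hK : ∀ d, G.inv d ∈ K ↔ d ∈ K) (u : List D) (e : D) :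
    e ∈ smpMk G (smpAnn G K u) ↔ e ∈ K ∧ (e ∈ u ∨ G.inv e ∈ u) := by
  induction u with
  | nil => simp [smpAnn, smpMk]
  | cons d u ih =>
    simp only [smpAnn, smpMk, smpTyOf_core]
    by_cases hd : d ∈ K
    · rw [if_pos hd, Finset.mem_insert, Finset.mem_insert, ih]
      simp only [List.mem_cons, G.inv_eq_iff]
      constructor
      · rintro (rfl | rfl | h)
        · exact ⟨hd, Or.inl (Or.inl rfl)⟩
        · exact ⟨(hK _).2 hd, Or.inr (Or.inl rfl)⟩
        · exact ⟨h.1, h.2.imp Or.inr Or.inr⟩
      · rintro ⟨h1, (h | h) | (h | h)⟩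
        · exact Or.inl h
        · exact Or.inr (Or.inr ⟨h1, Or.inl h⟩)
        · exact Or.inr (Or.inl h)
        · exact Or.inr (Or.inr ⟨h1, Or.inr h⟩)
    · rw [if_neg hd, ih]
      simp only [List.mem_cons, G.inv_eq_iff]
      constructor
      · rintro ⟨h1, h2⟩; exact ⟨h1, h2.imp Or.inr Or.inr⟩
      · rintro ⟨h1, (h | h) | (h | h)⟩
        · exact absurd (h ▸ h1) hd
        · exact ⟨h1, Or.inl h⟩
        · exact absurd ((hK d).1 (h ▸ h1)) hd
        · exact ⟨h1, Or.inr h⟩

/-- the annotation of a walk is admissible. -/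
theorem smpAnn_ok [DecidableEq V] (B : ℕ) (v : V) (K : Finset D) (hK : ∀ d, G.inv d ∈ K ↔ d ∈ K)
    (hdeg : ∀ x, (K.filter (fun d => G.src d = x)).card ≤ B) (u : List D) (hu : smpRW G v u) :
    smpOk G B v (smpAnn G K u) := by
  induction u with
  | nil => trivial
  | cons d u ih =>
    rw [smpRW_cons] at hu
    refine ⟨⟨?_, ?_, ?_⟩, ih hu.2⟩
    · rw [smpAnn_fst]; exact hu.1
    · intro h1
      have h1' : smpTyOf G K u d = 1 := h1
      have hd : d ∈ K := (smpTyOf_core G).1 (Or.inr h1')
      refine ⟨?_, ?_⟩
      · change d ∈ _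
        rw [mem_smpMk_ann G K hK]
        refine ⟨hd, ?_⟩
        by_contra hcon
        unfold smpTyOf at h1'
        rw [if_pos hd, if_neg hcon] at h1'
        exact absurd h1' (by decide)
      · refine le_trans (Finset.card_le_card ?_) (hdeg (smpCur G v ((smpAnn G K u).map Prod.fst)))
        intro e he
        rw [Finset.mem_filter] at he ⊢
        exact ⟨((mem_smpMk_ann G K hK u e).1 he.1).1, he.2⟩
    · intro h3
      have h3' : smpTyOf G K u d = 3 := h3
      rw [smpAnn_fst]
      change _ = some (G.inv d)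
      unfold smpTyOf at h3'
      split_ifs at h3' with a1 a2 a3
      · exact absurd h3' (by decide)
      · exact absurd h3' (by decide)
      · exact a3
      · exact absurd h3' (by decide)

/-- number of steps of type `τ`. -/
def smpCnt (τ : Fin 4) (a : List (D × Fin 4)) : ℕ := a.countP (fun h => decide (h.2 = τ))

omit [DecidableEq D] in
lemma smpCnt_cons (τ : Fin 4) (h : D × Fin 4) (a : List (D × Fin 4)) :
    smpCnt τ (h :: a) = smpCnt τ a + if h.2 = τ then 1 else 0 := by
  simp [smpCnt, List.countP_cons]

omit [DecidableEq D] in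
lemma smpCnt_total (a : List (D × Fin 4)) :
    smpCnt 0 a + smpCnt 1 a + smpCnt 2 a + smpCnt 3 a = a.length := by
  induction a with
  | nil => simp [smpCnt]
  | cons h a ih =>
    simp only [smpCnt_cons, List.length_cons]
    obtain ⟨d, τ⟩ := h
    fin_cases τ <;> simp <;> omega

/-- first traversals of core edges. -/
lemma smpCnt_zero (K : Finset D) (hK : ∀ d, G.inv d ∈ K ↔ d ∈ K) (u : List D) :
    2 * smpCnt 0 (smpAnn G K u) = (smpMk G (smpAnn G K u)).card := by
  induction u with
  | nil => simp [smpAnn, smpMk, smpCnt]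
  | cons d u ih =>
    simp only [smpAnn, smpMk, smpTyOf_core, smpCnt_cons]
    by_cases hd : d ∈ K
    · rw [if_pos hd]
      by_cases hu : d ∈ u ∨ G.inv d ∈ u
      · have h1 : smpTyOf G K u d = 1 := by unfold smpTyOf; rw [if_pos hd, if_pos hu]
        have m1 : d ∈ smpMk G (smpAnn G K u) := (mem_smpMk_ann G K hK u d).2 ⟨hd, hu⟩
        have m2 : G.inv d ∈ smpMk G (smpAnn G K u) :=
          (mem_smpMk_ann G K hK u _).2 ⟨(hK d).2 hd, by rw [G.inv_inv]; exact hu.symm⟩
        rw [h1, Finset.insert_eq_of_mem (Finset.mem_insert_of_mem m1), Finset.insert_eq_of_mem m2, ← ih]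
        simp
      · have h0 : smpTyOf G K u d = 0 := by unfold smpTyOf; rw [if_pos hd, if_neg hu]
        have m1 : d ∉ smpMk G (smpAnn G K u) := fun h => hu ((mem_smpMk_ann G K hK u d).1 h).2
        have m2 : G.inv d ∉ smpMk G (smpAnn G K u) := fun h => by
          have := ((mem_smpMk_ann G K hK u _).1 h).2
          rw [G.inv_inv] at this
          exact hu this.symm
        rw [h0, Finset.card_insert_of_notMem, Finset.card_insert_of_notMem m2, ← ih]
        · simp; ring
        · rw [Finset.mem_insert]; rintro (h | h)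
          · exact G.ne_inv d h
          · exact m1 h
    · rw [if_neg hd, ← ih]
      have : smpTyOf G K u d ≠ 0 := fun h => hd ((smpTyOf_core G).1 (Or.inl h))
      simp [this]

/-- steps along the core. -/
lemma smpCnt_core (K : Finset D) (u : List D) :
    smpCnt 0 (smpAnn G K u) + smpCnt 1 (smpAnn G K u) = u.countP (fun d => decide (d ∈ K)) := by
  induction u with
  | nil => simp [smpAnn, smpCnt]
  | cons d u ih =>
    simp only [smpAnn, smpCnt_cons, List.countP_cons]
    rw [← ih]
    by_cases hd : d ∈ K
    · rcases (smpTyOf_core G (u := u)).2 hd with h | h <;> simp [h, hd] <;> omega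
    · have h0 : smpTyOf G K u d ≠ 0 := fun h => hd ((smpTyOf_core G).1 (Or.inl h))
      have h1 : smpTyOf G K u d ≠ 1 := fun h => hd ((smpTyOf_core G).1 (Or.inr h))
      simp [h0, h1, hd]

/-- pushes and pops along non-core edges. -/
lemma smpCnt_push_pop (K : Finset D) (hK : ∀ d, G.inv d ∈ K ↔ d ∈ K) (u : List D) :
    (smpStk G u).countP (fun d => decide (d ∉ K)) + smpCnt 3 (smpAnn G K u) =
      smpCnt 2 (smpAnn G K u) := by
  induction u with
  | nil => simp [smpAnn, smpCnt]
  | cons d u ih =>
    simp only [smpAnn, smpCnt_cons, smpStk_cons]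
    by_cases hp : (smpStk G u).head? = some (G.inv d)
    · obtain ⟨e1, e2⟩ := smpPush_pop G hp
      rw [e1]
      rw [e2, List.countP_cons] at ih
      by_cases hd : d ∈ K
      · have hd' : G.inv d ∈ K := (hK d).2 hd
        have h2 : smpTyOf G K u d ≠ 2 := by
          rcases (smpTyOf_core G (u := u)).2 hd with h | h <;> rw [h] <;> decide
        have h3 : smpTyOf G K u d ≠ 3 := by
          rcases (smpTyOf_core G (u := u)).2 hd with h | h <;> rw [h] <;> decide
        simp only [h2, h3, if_false, add_zero]
        simpa [hd'] using ih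
      · have hd' : G.inv d ∉ K := fun h => hd ((hK d).1 h)
        have h3 : smpTyOf G K u d = 3 := by unfold smpTyOf; rw [if_neg hd, if_pos hp]
        simp only [h3, if_true]
        simp only [hd', not_false_eq_true, decide_true, if_true] at ih
        have : ¬ ((3 : Fin 4) = 2) := by decide
        simp only [this, if_false]
        omega
    · rw [smpPush_push G hp, List.countP_cons]
      by_cases hd : d ∈ K
      · have h2 : smpTyOf G K u d ≠ 2 := by
          rcases (smpTyOf_core G (u := u)).2 hd with h | h <;> rw [h] <;> decide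
        have h3 : smpTyOf G K u d ≠ 3 := by
          rcases (smpTyOf_core G (u := u)).2 hd with h | h <;> rw [h] <;> decide
        simp only [h2, h3, if_false, add_zero]
        simpa [hd] using ih
      · have h2 : smpTyOf G K u d = 2 := by unfold smpTyOf; rw [if_neg hd, if_neg hp]
        simp only [h2, if_true]
        have : ¬ ((2 : Fin 4) = 3) := by decide
        simp only [this, if_false, hd, not_false_eq_true, decide_true, if_true]
        omega

end Ann

/-! ### Assembly -/

section Final
variable [DecidableEq V] [DecidableEq D]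

omit [DecidableEq V] [DecidableEq D] in
lemma smpWt_eq (Δ B : ℕ) (a : List (D × Fin 4)) :
    smpWt Δ B a =
      ((4 : ℝ) ^ a.length * (Δ : ℝ) ^ (smpCnt 0 a + smpCnt 2 a) * (B : ℝ) ^ smpCnt 1 a)⁻¹ := by
  induction a with
  | nil => simp [smpWt, smpCnt]
  | cons h a ih =>
    obtain ⟨d, τ⟩ := h
    simp only [smpWt, ih, smpCnt_cons, List.length_cons]
    rw [← mul_inv]
    congr 1
    fin_cases τ <;> simp [smpCost] <;> ring

omit [DecidableEq V] [DecidableEq D] in
lemma smpWt_lower (Δ B l : ℕ) (hΔ : 1 ≤ Δ) (hB : 1 ≤ B) (a : List (D × Fin 4)) (hlen : a.length = 2 * l)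
    (h02 : smpCnt 0 a + smpCnt 2 a ≤ l) :
    (((16 * B ^ 2 * Δ) ^ l : ℕ) : ℝ)⁻¹ ≤ smpWt Δ B a := by
  rw [smpWt_eq]
  have hΔ' : (1 : ℝ) ≤ Δ := by exact_mod_cast hΔ
  have hB' : (1 : ℝ) ≤ B := by exact_mod_cast hB
  have h1 : smpCnt 1 a ≤ 2 * l := by
    have := smpCnt_total a
    omega
  apply inv_anti₀ (by positivity)
  push_cast
  calc (4 : ℝ) ^ a.length * (Δ : ℝ) ^ (smpCnt 0 a + smpCnt 2 a) * (B : ℝ) ^ smpCnt 1 a
      ≤ (4 : ℝ) ^ (2 * l) * (Δ : ℝ) ^ l * (B : ℝ) ^ (2 * l) := by
        rw [hlen]
        gcongr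
    _ = (16 * (B : ℝ) ^ 2 * Δ) ^ l := by
        rw [pow_mul, pow_mul, ← mul_pow, ← mul_pow]; congr 1; ring

omit [DecidableEq V] in
/-- the counting part: at most `l` expensive steps. -/
lemma smp_expensive_le {w : List D} {l : ℕ} (hlen : w.length = 2 * l)
    (hns : smpNoSingle G w) :
    smpCnt 0 (smpAnn G (smpCore G w) w.reverse) + smpCnt 2 (smpAnn G (smpCore G w) w.reverse) ≤ l := by
  set K := smpCore G w with hKdef
  have hK : ∀ d, G.inv d ∈ K ↔ d ∈ K := smpCore_inv G w
  set a := smpAnn G K w.reverse with ha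
  have h0 := smpCnt_zero G K hK w.reverse
  have hmk : (smpMk G a).card ≤ K.card :=
    Finset.card_le_card (fun e he => ((mem_smpMk_ann G K hK w.reverse e).1 he).1)
  have hcore := smpCnt_core G K w.reverse
  have hns' : smpNoSingle G w.reverse := by
    intro d; have := hns d; simpa [smpMult] using this
  have hcard := smp_card_le_countP G K hK w.reverse hns' (by
    rw [smpDSupp_reverse]; exact smpCore_subset G w)
  have hpp := smpCnt_push_pop G K hK w.reverse
  have hphi : (smpStk G w.reverse).countP (fun d => decide (d ∉ K)) = 0 := by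
    rw [List.countP_eq_zero]
    intro d hd
    have : d ∈ K := by
      rw [hKdef, smpCore, mem_smpDSupp]; exact Or.inl hd
    simp [this]
  have htot := smpCnt_total a
  have hl : a.length = 2 * l := by rw [ha, smpAnn_length, List.length_reverse, hlen]
  rw [← ha] at h0 hcore hpp
  omega

/-- **Walk count** (KK 9.5 / INJ 4.8).  Closed walks of length `2 l` from `v` without singleton edge
whose support has first Betti number at most `b`, in a graph of maximal degree `Δ`. -/
theorem smp_walk_count (Δ b l : ℕ)
    (hΔ : ∀ (x : V) (T : Finset D), (∀ d ∈ T, G.src d = x) → T.card ≤ Δ)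
    (v : V) (S : Finset (List D))
    (hS : ∀ w ∈ S, w.length = 2 * l ∧ G.IsWalk v w v ∧ smpNoSingle G w ∧ smpRankLe G v w b) :
    S.card ≤ (16 * (4 * b + 2) ^ 2 * Δ) ^ l := by
  classical
  rcases Nat.eq_zero_or_pos Δ with hΔ0 | hΔ1
  · -- no darts at all
    subst hΔ0
    have hsub : S ⊆ {[]} := by
      intro w hw
      rw [Finset.mem_singleton]
      obtain ⟨-, h2, -, -⟩ := hS w hw
      cases w with
      | nil => rfl
      | cons d w =>
        have := hΔ v {d} (by intro e he; rw [Finset.mem_singleton] at he; rw [he]; exact h2.1)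
        simp at this
    rcases Nat.eq_zero_or_pos l with rfl | hl
    · simpa using Finset.card_le_card hsub
    · have : S = ∅ := by
        rw [Finset.eq_empty_iff_forall_notMem]
        intro w hw
        have h1 := (hS w hw).1
        have h2 := Finset.mem_singleton.mp (hsub hw)
        rw [h2] at h1
        simp at h1
        omega
      rw [this]; simp
  set B := 4 * b + 2 with hB
  set f : List D → List (D × Fin 4) := fun w => smpAnn G (smpCore G w) w.reverse with hf
  have hinj : Set.InjOn f S := by
    intro w _ w' _ h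
    have := congrArg (List.map Prod.fst) h
    simp only [hf, smpAnn_fst] at this
    exact List.reverse_injective this
  have hkraft := smp_kraft G Δ B hΔ v (2 * l) (S.image f) (by
    intro a ha
    obtain ⟨w, hw, rfl⟩ := Finset.mem_image.mp ha
    obtain ⟨h1, h2, h3, h4⟩ := hS w hw
    refine ⟨by simp only [hf, smpAnn_length, List.length_reverse, h1], ?_⟩
    refine smpAnn_ok G B v _ (smpCore_inv G w) (fun x => ?_) _ ((smp_isWalk_iff G v v w).1 h2).1
    have := smpCore_degree G h2 h4 x
    omega)
  rw [Finset.sum_image hinj] at hkraft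
  have hlow : ∑ _w ∈ S, (((16 * B ^ 2 * Δ) ^ l : ℕ) : ℝ)⁻¹ ≤ ∑ w ∈ S, smpWt Δ B (f w) := by
    apply Finset.sum_le_sum
    intro w hw
    obtain ⟨h1, h2, h3, h4⟩ := hS w hw
    exact smpWt_lower Δ B l hΔ1 (by omega) _
      (by simp only [hf, smpAnn_length, List.length_reverse, h1]) (smp_expensive_le G h1 h3)
  rw [Finset.sum_const, nsmul_eq_mul] at hlow
  have hpos : (0 : ℝ) < (((16 * B ^ 2 * Δ) ^ l : ℕ) : ℝ) := by
    have : 0 < (16 * B ^ 2 * Δ) ^ l := by positivity
    exact_mod_cast this
  have hfin : (S.card : ℝ) ≤ (((16 * B ^ 2 * Δ) ^ l : ℕ) : ℝ) := by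
    have := hlow.trans hkraft
    rwa [← div_eq_mul_inv, div_le_one hpos] at this
  exact_mod_cast hfin

/-- Combination used by the consumers: girth `> g`, length `2 l` with `l ≤ C g`. -/
theorem smp_walk_count_girth (Δ g C l : ℕ)
    (hΔ : ∀ (x : V) (T : Finset D), (∀ d ∈ T, G.src d = x) → T.card ≤ Δ)
    (hgirth : ∀ (x : V) (c : List D), c ≠ [] → G.IsWalk x c x → G.CycRed c → g < c.length)
    (hl : l ≤ C * g)
    (v : V) (S : Finset (List D))
    (hS : ∀ w ∈ S, w.length = 2 * l ∧ G.IsWalk v w v ∧ smpNoSingle G w) :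
    S.card ≤ (16 * (4 * smpB C + 2) ^ 2 * Δ) ^ l := by
  refine smp_walk_count G Δ (smpB C) l hΔ v S (fun w hw => ?_)
  obtain ⟨h1, h2, h3⟩ := hS w hw
  refine ⟨h1, h2, h3, smp_rank_bound G g C hgirth v v w h2 ?_⟩
  have h4 := smp_card_le_countP G (smpDSupp G w) (fun d => inv_mem_smpDSupp G) w h3 subset_rfl
  have h5 := List.countP_le_length (p := fun d => decide (d ∈ smpDSupp G w)) (l := w)
  omega

end Final

end Claimed.Agent.R300
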