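/-
Row 300 / S0553 (INJ paper), Section 4, second half  IV-B = `IvRealizeStmt` (IvDefs.lean).
DEFINITIONS of the IV-B packages (owner: helper128, IV-B sub-captain).  Sorry-free.  Frozen after landing.
  * `ivbDvol`   voltage of a dart;  `ivbSm X S e` the sampler of the edge `e`
  * `ivbEdges W`, `ivbBadW`  : the edges of a walk, the event "trivial holonomy"
  * `ivbEb X τ i`, `ivbVb`, `ivbSrc`, `ivbTgt` : the finite block graph of type `τ` with `𝒜`-height `i`
  * `ivbGY src tgt Sm ω` : the centred selfadjoint block operator of the SMP library (`ι = Unit`);  `ivbY` its instance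
  * `IvbPar p M η` : all numerical hypotheses on the parameters
-/
import Mathlib
import Claimed.Agent.R300.IvDefs
import Claimed.Agent.R300.SmpBlock
import Claimed.Agent.R300.SmpCount
import Claimed.Agent.R300.SmpSelect

set_option autoImplicit false

namespace Claimed.Agent.R300

open HeisLaw

/-- voltage of a dart -/
def ivbDvol {E : Type} (vol : E → InjHeis) (d : E × Bool) : InjHeis :=
  if d.2 then (vol d.1)⁻¹ else vol d.1

/-- the undirected edges of a list of darts -/
def ivbEdges {E : Type} [DecidableEq E] (W : List (E × Bool)) : Finset E := (W.map Prod.fst).toFinset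

/-- a scalar as a `1 × 1` matrix -/
def ivbW1 (w : ℂ) : Matrix Unit Unit ℂ := Matrix.of fun _ _ => w

section generic

variable {V E : Type} [DecidableEq V] [Fintype E] [DecidableEq E]

/-- coefficients of the sampled selfadjoint block -/
def ivbCf (src tgt : E → V) (Sm : E → IvSampler) (ω : ∀ e, (Sm e).Pt) :
    V × Unit → V × Unit → InjHeis → ℂ :=
  smpCoef src tgt (fun e => ivbW1 ((Sm e).wt (ω e))) (fun e => (Sm e).vol (ω e))

/-- the centred selfadjoint block operator -/
noncomputable def ivbGY (src tgt : E → V) (Sm : E → IvSampler) (ω : ∀ e, (Sm e).Pt) :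
    ScL2 (InjHeis × (V × Unit)) →L[ℂ] ScL2 (InjHeis × (V × Unit)) :=
  smpConv (ivbCf src tgt Sm ω - smpE (fun e => (Sm e).p) (fun ω' => ivbCf src tgt Sm ω'))

end generic

variable {p : Lab.Par}

noncomputable instance ivbDecE (X : InjGr p) : DecidableEq X.E := Classical.decEq _
noncomputable instance ivbDecV (X : InjGr p) : DecidableEq X.V := Classical.decEq _

/-- the sampler of an edge -/
abbrev ivbSm (X : InjGr p) (S : Fin p.T → ℕ → IvSampler) (e : X.E) : IvSampler :=
  S (X.ety e) (X.ht (X.src e))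

/-- the walks that have to get a nontrivial holonomy -/
def ivbCond (X : InjGr p) (a : X.V) (W : List (X.E × Bool)) : Prop :=
  X.dg.IsWalk a W a ∧ W ≠ [] ∧ X.dg.CycRed W ∧ 100 * (W.length * p.lq) ≤ 603 * p.H (X.ht a)

/-- the event "the holonomy of `W` is trivial", as an event on the edges of `W` -/
def ivbBadW (X : InjGr p) (S : Fin p.T → ℕ → IvSampler) (W : List (X.E × Bool))
    (ω' : ∀ e : ↥(ivbEdges W), (ivbSm X S e).Pt) : Prop :=
  ∃ ω : ∀ e, (ivbSm X S e).Pt, (∀ e : ↥(ivbEdges W), ω e = ω' e) ∧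
    (W.map (X.dvol fun e => (ivbSm X S e).vol (ω e))).prod = 1

/-- the edges of type `τ` whose `𝒜` endpoint has height `i` (a finite set if `X.Str`) -/
noncomputable def ivbEb (X : InjGr p) (τ : Fin p.T) (i : ℕ) : Finset X.E :=
  open Classical in
  if h : {e : X.E | X.ety e = τ ∧ X.ht (X.src e) = i}.Finite then h.toFinset else ∅

theorem ivbEb_spec (X : InjGr p) (τ : Fin p.T) (i : ℕ) {e : X.E} (he : e ∈ ivbEb X τ i) :
    X.ety e = τ ∧ X.ht (X.src e) = i := by
  unfold ivbEb at he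
  split_ifs at he with h
  · exact (Set.Finite.mem_toFinset h).1 he
  · exact absurd he (Finset.notMem_empty e)

/-- the endpoints of these edges -/
noncomputable def ivbVb (X : InjGr p) (τ : Fin p.T) (i : ℕ) : Finset X.V :=
  (ivbEb X τ i).image X.src ∪ (ivbEb X τ i).image X.tgt

/-- source and target in the block graph -/
def ivbSrc (X : InjGr p) (τ : Fin p.T) (i : ℕ) (e : ↥(ivbEb X τ i)) : ↥(ivbVb X τ i) :=
  ⟨X.src e, Finset.mem_union_left _ (Finset.mem_image_of_mem _ e.2)⟩
def ivbTgt (X : InjGr p) (τ : Fin p.T) (i : ℕ) (e : ↥(ivbEb X τ i)) : ↥(ivbVb X τ i) :=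
  ⟨X.tgt e, Finset.mem_union_right _ (Finset.mem_image_of_mem _ e.2)⟩

/-- the centred block operator of the block `(τ,i)` -/
noncomputable def ivbY (X : InjGr p) (S : Fin p.T → ℕ → IvSampler) (τ : Fin p.T) (i : ℕ)
    (ω' : ∀ e : ↥(ivbEb X τ i), (ivbSm X S e).Pt) :
    ScL2 (InjHeis × (↥(ivbVb X τ i) × Unit)) →L[ℂ] ScL2 (InjHeis × (↥(ivbVb X τ i) × Unit)) :=
  ivbGY (ivbSrc X τ i) (ivbTgt X τ i) (fun e : ↥(ivbEb X τ i) => ivbSm X S e) ω'

/-- **all numerical hypotheses** (`s = 20000 u`: `ld = 8001 u`, `lD = 12001 u`, `lq = 10001 u`, `s / 5 = 4000 u`) -/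
structure IvbPar (p : Lab.Par) (M η : ℝ) : Prop where
  hM : 0 ≤ M
  hη : 0 < η
  hb : 1 ≤ p.b
  hs : 0 < p.s
  h20000 : 20000 ∣ p.s
  h5b : 5 * p.b ∣ p.s
  hn0 : 1 ≤ p.n0
  hslope : 1000000 * p.b ≤ p.lq
  hdeg : p.T * 2 ^ p.b * p.D + 7 ≤ 2 ^ (61 * p.s / 100)
  hc2 : 256 * (4 * (smpB 8124 : ℝ) + 2) ^ 2 * M ^ 2 ≤ η ^ 2 * 2 ^ (p.s / 5)
  hfol : 12 * M ≤ η * 2 ^ p.s
  hT : p.T + 1 ≤ p.s

/-! ### elementary facts on samplers -/

theorem ivb_p_nonneg (S : IvSampler) (x : S.Pt) : 0 ≤ S.p x :=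
  Finset.prod_nonneg fun s _ => (S.law s).nonneg _

theorem ivb_p_sum (S : IvSampler) : ∑ x : S.Pt, S.p x = 1 := by
  have h := smp_sum_weight (ι := Fin 3) (Ω := fun s => ↥((S.law s).S))
    (fun s k => (S.law s).w k)
  have h2 : ∀ s : Fin 3, ∑ a : ↥((S.law s).S), (S.law s).w a = 1 := by
    intro s
    rw [Finset.sum_coe_sort (S.law s).S (fun k => (S.law s).w k)]
    exact (S.law s).sum_one
  rw [Finset.prod_congr rfl fun s _ => h2 s, Finset.prod_const_one] at h
  exact h

theorem ivb_mean_apply (S : IvSampler) (h : InjHeis) :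
    S.mean h = ∑ x : S.Pt, if S.vol x = h then (S.p x : ℂ) * S.wt x else 0 := by
  unfold IvSampler.mean
  rw [Finsupp.finsetSum_apply]
  refine Finset.sum_congr rfl fun x _ => ?_
  rw [Finsupp.single_apply]

end Claimed.Agent.R300
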