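/-
Row 300 / S0553, IV-B package (IVB-BLKG): the finite block graph `(ivbVb, ivbEb, ivbSrc, ivbTgt)` of type `τ`, `𝒜`-height `i`.
Sub-captain: helper128.
PLAN.  `ivbEb_mem`: the set is finite, `e ↦ (src e, lab e)` is injective (`fold_src`) into (layer `(false,i)`) × `Lb`.
`ivb_blk_deg`: darts at `x`: `(e,false)` with `src e = x` or `(e,true)` with `tgt e = x`, only one kind occurs (`sd`), all of type `τ`;
`DegLe` (finite subtypes!) and `dA ≤ dB` (`ld + b ≤ lD` from `5 b ∣ s`, `20000 ∣ s`).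
`ivb_blk_girth`: map the walk to `X.dg` (`d ↦ (d.1.1, d.2)`): `IsWalk`, `CycRed` are preserved (the map is injective and commutes with
`inv`); the base point is an endpoint of an edge of the block, so its height `j` satisfies `i ≤ j + 1`, `H j + b ≥ H i`; `Girth93`.
`ivb_blk_card`: `image src ⊆` layer `(false,i)`, `image tgt ⊆` layer `(true,k)`, `k ≤ i + 1`, `CardLe`.
-/
import Mathlib
import Claimed.Agent.R300.IvbDefs

set_option autoImplicit false

namespace Claimed.Agent.R300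

open HeisLaw

variable {p : Lab.Par}

theorem ivbg_finite (X : InjGr p) (hS : X.Str) (τ : Fin p.T) (i : ℕ) :
    {e : X.E | X.ety e = τ ∧ X.ht (X.src e) = i}.Finite := by
  have := hS.fin_lb
  have := hS.fin_layer false i
  have : Finite {e : X.E | X.ety e = τ ∧ X.ht (X.src e) = i} := by
    refine Finite.of_injective (β := {v // X.sd v = false ∧ X.ht v = i} × X.Lb)
      (fun e => (⟨X.src e.1, hS.sd_src e.1, e.2.2⟩, X.lab e.1)) ?_
    rintro ⟨e, he⟩ ⟨e', he'⟩ h
    simp only [Prod.mk.injEq, Subtype.mk.injEq] at h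
    exact Subtype.ext (hS.fold_src e e' h.1 h.2)
  exact Set.toFinite _

theorem ivbEb_mem (X : InjGr p) (hS : X.Str) (τ : Fin p.T) (i : ℕ) (e : X.E) :
    e ∈ ivbEb X τ i ↔ X.ety e = τ ∧ X.ht (X.src e) = i := by
  unfold ivbEb
  rw [dif_pos (ivbg_finite X hS τ i), Set.Finite.mem_toFinset]
  rfl

/-- a finset which injects into a finite type -/
theorem ivbg_card_le {α β : Type} [Finite β] (T : Finset α) (f : ↥T → β)
    (hf : Function.Injective f) : T.card ≤ Nat.card β := by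
  have h := Nat.card_le_card_of_injective f hf
  rwa [Nat.card_eq_fintype_card, Fintype.card_coe] at h

theorem ivbg_dA_le_dB (hs : 0 < p.s) (h5 : 5 * p.b ∣ p.s) (h2 : 20000 ∣ p.s) (τ : Fin p.T) :
    InjGr.dA p τ ≤ InjGr.dB p τ := by
  obtain ⟨u, hu⟩ := h2
  have hb : 5 * p.b ≤ p.s := Nat.le_of_dvd hs h5
  have hld : p.ld = 8001 * u := by
    unfold Lab.Par.ld
    rw [hu]
    omega
  have hlD : p.lD = 12001 * u := by
    unfold Lab.Par.lD
    rw [hu]
    omega
  have h1 : InjGr.dA p τ ≤ 2 ^ (p.ld + p.b) := by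
    unfold InjGr.dA Lab.Par.d
    rw [← pow_add]
    refine Nat.pow_le_pow_right (by norm_num) ?_
    split_ifs <;> omega
  have h3 : 2 ^ p.lD ≤ InjGr.dB p τ := by
    unfold InjGr.dB Lab.Par.D
    exact Nat.le_mul_of_pos_right _ (by positivity)
  refine h1.trans (le_trans (Nat.pow_le_pow_right (by norm_num) ?_) h3)
  omega

theorem ivb_blk_deg (X : InjGr p) (hS : X.Str) (hD : X.DegLe) (hs : 0 < p.s) (h5 : 5 * p.b ∣ p.s)
    (h2 : 20000 ∣ p.s) (τ : Fin p.T) (i : ℕ) (x : ↥(ivbVb X τ i))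
    (Tt : Finset (↥(ivbEb X τ i) × Bool))
    (h : ∀ d ∈ Tt, (smpGraph (ivbSrc X τ i) (ivbTgt X τ i)).src d = x) :
    Tt.card ≤ InjGr.dB p τ := by
  have := hS.fin_lb
  have hsrc : ∀ d ∈ Tt, (if d.2 then X.tgt d.1.1 else X.src d.1.1) = x.1 := by
    intro d hd
    have h1 := congrArg Subtype.val (h d hd)
    rw [← h1]
    unfold smpGraph
    by_cases hd2 : d.2 = true
    · simp only [hd2, if_true]
      rfl
    · simp only [hd2]
      rfl
  cases hx : X.sd x.1 with
  | false =>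
    have hd2 : ∀ d ∈ Tt, d.2 = false ∧ X.src d.1.1 = x.1 := by
      intro d hd
      have h1 := hsrc d hd
      by_cases hd2 : d.2 = true
      · rw [if_pos hd2] at h1
        have := hS.sd_tgt d.1.1
        rw [h1, hx] at this
        exact absurd this (by decide)
      · rw [if_neg hd2] at h1
        exact ⟨by simpa using hd2, h1⟩
    have : Finite {e // X.src e = x.1 ∧ X.ety e = τ} := by
      refine Finite.of_injective (β := X.Lb) (fun e => X.lab e.1) ?_
      rintro ⟨e, he⟩ ⟨e', he'⟩ hh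
      exact Subtype.ext (hS.fold_src e e' (he.1.trans he'.1.symm) hh)
    refine le_trans (le_trans (ivbg_card_le Tt
      (fun d => (⟨d.1.1.1, (hd2 d.1 d.2).2, (ivbEb_spec X τ i d.1.1.2).1⟩ :
        {e // X.src e = x.1 ∧ X.ety e = τ})) ?_) (hD.degA τ x.1)) (ivbg_dA_le_dB hs h5 h2 τ)
    rintro ⟨d, hd⟩ ⟨d', hd'⟩ hh
    simp only [Subtype.mk.injEq] at hh
    refine Subtype.ext (Prod.ext (Subtype.ext hh) ?_)
    rw [(hd2 d hd).1, (hd2 d' hd').1]
  | true =>
    have hd2 : ∀ d ∈ Tt, d.2 = true ∧ X.tgt d.1.1 = x.1 := by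
      intro d hd
      have h1 := hsrc d hd
      by_cases hd2 : d.2 = true
      · rw [if_pos hd2] at h1
        exact ⟨hd2, h1⟩
      · rw [if_neg hd2] at h1
        have := hS.sd_src d.1.1
        rw [h1, hx] at this
        exact absurd this (by decide)
    have : Finite {e // X.tgt e = x.1 ∧ X.ety e = τ} := by
      refine Finite.of_injective (β := X.Lb) (fun e => X.lab e.1) ?_
      rintro ⟨e, he⟩ ⟨e', he'⟩ hh
      exact Subtype.ext (hS.fold_tgt e e' (he.1.trans he'.1.symm) hh)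
    refine le_trans (ivbg_card_le Tt
      (fun d => (⟨d.1.1.1, (hd2 d.1 d.2).2, (ivbEb_spec X τ i d.1.1.2).1⟩ :
        {e // X.tgt e = x.1 ∧ X.ety e = τ})) ?_) (hD.degB τ x.1)
    rintro ⟨d, hd⟩ ⟨d', hd'⟩ hh
    simp only [Subtype.mk.injEq] at hh
    refine Subtype.ext (Prod.ext (Subtype.ext hh) ?_)
    rw [(hd2 d hd).1, (hd2 d' hd').1]

/-- the map of darts from the block graph to the whole graph -/
def ivbgF (X : InjGr p) (τ : Fin p.T) (i : ℕ) (d : ↥(ivbEb X τ i) × Bool) : X.E × Bool :=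
  (d.1.1, d.2)

theorem ivbgF_injective (X : InjGr p) (τ : Fin p.T) (i : ℕ) :
    Function.Injective (ivbgF X τ i) := by
  rintro ⟨e, b⟩ ⟨e', b'⟩ h
  simp only [ivbgF, Prod.mk.injEq] at h
  exact Prod.ext (Subtype.ext h.1) h.2

theorem ivbgF_inv (X : InjGr p) (τ : Fin p.T) (i : ℕ) (d : ↥(ivbEb X τ i) × Bool) :
    ivbgF X τ i ((smpGraph (ivbSrc X τ i) (ivbTgt X τ i)).inv d) = X.dg.inv (ivbgF X τ i d) := rfl

theorem ivbgF_src (X : InjGr p) (τ : Fin p.T) (i : ℕ) (d : ↥(ivbEb X τ i) × Bool) :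
    ((smpGraph (ivbSrc X τ i) (ivbTgt X τ i)).src d).1 = X.dg.src (ivbgF X τ i d) := by
  obtain ⟨e, b⟩ := d
  cases b <;> rfl

theorem ivbgF_tgt (X : InjGr p) (τ : Fin p.T) (i : ℕ) (d : ↥(ivbEb X τ i) × Bool) :
    ((smpGraph (ivbSrc X τ i) (ivbTgt X τ i)).tgt d).1 = X.dg.tgt (ivbgF X τ i d) := by
  obtain ⟨e, b⟩ := d
  cases b <;> rfl

theorem ivbgF_walk (X : InjGr p) (τ : Fin p.T) (i : ℕ) (c : List (↥(ivbEb X τ i) × Bool)) :
    ∀ a b : ↥(ivbVb X τ i), (smpGraph (ivbSrc X τ i) (ivbTgt X τ i)).IsWalk a c b →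
      X.dg.IsWalk a.1 (c.map (ivbgF X τ i)) b.1 := by
  induction c with
  | nil =>
    intro a b h
    exact congrArg Subtype.val h
  | cons d c ih =>
    intro a b h
    obtain ⟨h1, h2⟩ := h
    refine ⟨?_, ?_⟩
    · rw [← ivbgF_src, h1]
    · rw [← ivbgF_tgt]
      exact ih _ _ h2

theorem ivbgF_cycRed (X : InjGr p) (τ : Fin p.T) (i : ℕ) (c : List (↥(ivbEb X τ i) × Bool))
    (h : (smpGraph (ivbSrc X τ i) (ivbTgt X τ i)).CycRed c) :
    X.dg.CycRed (c.map (ivbgF X τ i)) := by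
  obtain ⟨h1, h2⟩ := h
  refine ⟨?_, ?_⟩
  · unfold HlGraph.Reduced at h1 ⊢
    rw [List.isChain_map]
    refine h1.imp fun d d' hdd hcon => hdd ?_
    rw [← ivbgF_inv] at hcon
    exact ivbgF_injective X τ i hcon
  · intro d hd d' hd'
    rw [List.head?_map, Option.mem_map] at hd
    rw [List.getLast?_map, Option.mem_map] at hd'
    obtain ⟨d0, hd0, rfl⟩ := hd
    obtain ⟨d1, hd1, rfl⟩ := hd'
    intro hcon
    rw [← ivbgF_inv] at hcon
    exact h2 d0 hd0 d1 hd1 (ivbgF_injective X τ i hcon)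

/-- the heights of the vertices of the block -/
theorem ivbg_ht (X : InjGr p) (hS : X.Str) (τ : Fin p.T) (i : ℕ) (x : ↥(ivbVb X τ i)) :
    i ≤ X.ht x.1 + 1 ∧ X.ht x.1 ≤ i + 1 := by
  have hx := x.2
  unfold ivbVb at hx
  rcases Finset.mem_union.1 hx with h | h
  · obtain ⟨e, he, hex⟩ := Finset.mem_image.1 h
    rw [← hex, (ivbEb_spec X τ i he).2]
    omega
  · obtain ⟨e, he, hex⟩ := Finset.mem_image.1 h
    have h1 := hS.ht_edge e
    rw [(ivbEb_spec X τ i he).2, hex] at h1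
    have h2 : -1 ≤ injOff (p.off (X.ety e)) ∧ injOff (p.off (X.ety e)) ≤ 1 := by
      cases p.off (X.ety e) <;> simp [injOff]
    omega

theorem ivb_blk_girth (X : InjGr p) (hS : X.Str) (hG : X.Girth93) (τ : Fin p.T) (i : ℕ)
    (x : ↥(ivbVb X τ i)) (c : List (↥(ivbEb X τ i) × Bool)) (hc : c ≠ [])
    (hw : (smpGraph (ivbSrc X τ i) (ivbTgt X τ i)).IsWalk x c x)
    (hcr : (smpGraph (ivbSrc X τ i) (ivbTgt X τ i)).CycRed c) :
    93 * (p.H i - p.b) / (100 * p.lq) < c.length := by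
  have h1 := hG x.1 (c.map (ivbgF X τ i)) (ivbgF_walk X τ i c x x hw) (by simpa using hc)
    (ivbgF_cycRed X τ i c hcr)
  rw [List.length_map] at h1
  have h2 := (ivbg_ht X hS τ i x).1
  have h3 : p.H i - p.b ≤ p.H (X.ht x.1) := by
    unfold Lab.Par.H
    have : p.b * i ≤ p.b * (X.ht x.1 + 1) := Nat.mul_le_mul_left _ h2
    rw [Nat.mul_add, Nat.mul_one] at this
    omega
  refine Nat.div_lt_of_lt_mul ?_
  calc 93 * (p.H i - p.b) ≤ 93 * p.H (X.ht x.1) := Nat.mul_le_mul_left _ h3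
    _ < 100 * (c.length * p.lq) := h1
    _ = 100 * p.lq * c.length := by ring

theorem ivb_blk_card (X : InjGr p) (hS : X.Str) (hC : X.CardLe) (τ : Fin p.T) (i : ℕ) :
    Fintype.card ↥(ivbVb X τ i) ≤ 2 * 2 ^ (p.H i + p.b + p.s) := by
  rw [Fintype.card_coe]
  unfold ivbVb
  refine (Finset.card_union_le _ _).trans ?_
  have hA : ((ivbEb X τ i).image X.src).card ≤ 2 ^ (p.H i + p.b + p.s) := by
    have := hS.fin_layer false i
    refine le_trans (le_trans (ivbg_card_le _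
      (fun v => (⟨v.1, by
        obtain ⟨e, he, hev⟩ := Finset.mem_image.1 v.2
        rw [← hev]
        exact ⟨hS.sd_src e, (ivbEb_spec X τ i he).2⟩⟩ : {v // X.sd v = false ∧ X.ht v = i})) ?_)
      (hC false i)) (Nat.pow_le_pow_right (by norm_num) (by omega))
    rintro ⟨v, hv⟩ ⟨v', hv'⟩ hh
    simp only [Subtype.mk.injEq] at hh
    exact Subtype.ext hh
  have hB : ((ivbEb X τ i).image X.tgt).card ≤ 2 ^ (p.H i + p.b + p.s) := by
    rcases (ivbEb X τ i).eq_empty_or_nonempty with h0 | ⟨e0, he0⟩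
    · rw [h0]
      simp
    · set k := X.ht (X.tgt e0) with hk
      have hk1 : k ≤ i + 1 :=
        (ivbg_ht X hS τ i ⟨X.tgt e0, Finset.mem_union_right _ (Finset.mem_image_of_mem _ he0)⟩).2
      have hall : ∀ e ∈ ivbEb X τ i, X.ht (X.tgt e) = k := by
        intro e he
        have h1 := hS.ht_edge e
        have h2 := hS.ht_edge e0
        rw [(ivbEb_spec X τ i he).2, (ivbEb_spec X τ i he).1] at h1
        rw [(ivbEb_spec X τ i he0).2, (ivbEb_spec X τ i he0).1] at h2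
        omega
      have := hS.fin_layer true k
      have hH : p.H k ≤ p.H i + p.b := by
        unfold Lab.Par.H
        have : p.b * k ≤ p.b * (i + 1) := Nat.mul_le_mul_left _ hk1
        rw [Nat.mul_add, Nat.mul_one] at this
        omega
      refine le_trans (le_trans (ivbg_card_le _
        (fun v => (⟨v.1, by
          obtain ⟨e, he, hev⟩ := Finset.mem_image.1 v.2
          rw [← hev]
          exact ⟨hS.sd_tgt e, hall e he⟩⟩ : {v // X.sd v = true ∧ X.ht v = k})) ?_)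
        (hC true k)) (Nat.pow_le_pow_right (by norm_num) (by omega))
      rintro ⟨v, hv⟩ ⟨v', hv'⟩ hh
      simp only [Subtype.mk.injEq] at hh
      exact Subtype.ext hh
  omega

end Claimed.Agent.R300
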