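/-
Row 300 / S0553, IV-B package R8 (IVB-NUM): numerics.  Sub-captain: helper128.
Write `s = 20000 u` (`u ≥ 1`): `ld = 8001 u`, `lD = 12001 u`, `lq = 10001 u`, `s / 5 = 4000 u`, `61 s / 100 = 12200 u`, `b ≤ 4000 u`.
`ivb_par_exists`: `s0 := max` of `2000000 b + 20000 (b + T + 3)`, `20000 N1`, `N2`, ... with `N1 ≥ c2 / η²`, `N2 ≥ 12 M / η` (Archimedes, `n ≤ 2 ^ n`).
`ivb_sum_lt`: `H i ≥ s + i`, every term is `≤ (T + 1) / 2 ^ (6 (s + i))`, geometric series, `2 (T + 1) ≤ 2 ^ (6 s)`.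
`ivb_num_l`: `l := 2030 H / (s / 5) + 1`, `g := 93 (H - b) / (100 lq)`: `l ≤ 8124 g` for `H ≥ 3 s`.
`ivb_num_tail`: the final estimate of the tail.
-/
import Mathlib
import Claimed.Agent.R300.IvbDefs

set_option autoImplicit false

namespace Claimed.Agent.R300

theorem ivb_par_exists (b : ℕ) (hb : 1 ≤ b) (T : ℕ) (off : Fin T → Lab.Off) (M : ℝ) (hM : 0 ≤ M)
    (η : ℝ) (hη : 0 < η) :
    ∃ s0 : ℕ, ∀ s : ℕ, s0 ≤ s → 20000 ∣ s → 5 * b ∣ s → ∀ n0 : ℕ, 1 ≤ n0 →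
      IvbPar ⟨b, s, n0, T, off⟩ M η := by
  set c1 : ℝ := 256 * (4 * (smpB 8124 : ℝ) + 2) ^ 2 * M ^ 2 / η ^ 2 with hc1
  set c2 : ℝ := 12 * M / η with hc2
  refine ⟨2000000 * b + 20000 * (b + T + 3) + 5 * ⌈c1⌉₊ + 5 + ⌈c2⌉₊ + T + 1, ?_⟩
  intro s hs h2 h5 n0 hn0
  obtain ⟨u, rfl⟩ := h2
  have hη2 : 0 < η ^ 2 := by positivity
  refine ⟨hM, hη, hb, ?_, Dvd.intro _ rfl, h5, hn0, ?_, ?_, ?_, ?_, ?_⟩
  · show 0 < 20000 * u
    omega
  · show 1000000 * b ≤ 10001 * (20000 * u) / 20000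
    omega
  · show T * 2 ^ b * 2 ^ (12001 * (20000 * u) / 20000) + 7 ≤ 2 ^ (61 * (20000 * u) / 100)
    have e1 : 12001 * (20000 * u) / 20000 = 12001 * u := by omega
    have e2 : 61 * (20000 * u) / 100 = 12200 * u := by omega
    rw [e1, e2]
    have hT : T ≤ 2 ^ T := (Nat.lt_two_pow_self (n := T)).le
    have hpos : 1 ≤ 2 ^ (T + b + 12001 * u) := Nat.one_le_two_pow
    calc T * 2 ^ b * 2 ^ (12001 * u) + 7 ≤ 2 ^ T * 2 ^ b * 2 ^ (12001 * u) + 7 :=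
          Nat.add_le_add_right (Nat.mul_le_mul_right _ (Nat.mul_le_mul_right _ hT)) _
      _ = 2 ^ (T + b + 12001 * u) + 7 := by rw [← pow_add, ← pow_add]
      _ ≤ 2 ^ 3 * 2 ^ (T + b + 12001 * u) := by omega
      _ = 2 ^ (3 + (T + b + 12001 * u)) := (pow_add 2 3 _).symm
      _ ≤ 2 ^ (12200 * u) := Nat.pow_le_pow_right (by norm_num) (by omega)
  · show 256 * (4 * (smpB 8124 : ℝ) + 2) ^ 2 * M ^ 2 ≤ η ^ 2 * 2 ^ (20000 * u / 5)
    have h1 : c1 ≤ (2 : ℝ) ^ (20000 * u / 5) := by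
      have h3 : ⌈c1⌉₊ ≤ 2 ^ (20000 * u / 5) :=
        le_trans (by omega) (Nat.lt_two_pow_self (n := 20000 * u / 5)).le
      calc c1 ≤ (⌈c1⌉₊ : ℝ) := Nat.le_ceil _
        _ ≤ (2 : ℝ) ^ (20000 * u / 5) := by exact_mod_cast h3
    rw [hc1, div_le_iff₀ hη2] at h1
    linarith
  · show 12 * M ≤ η * 2 ^ (20000 * u)
    have h1 : c2 ≤ (2 : ℝ) ^ (20000 * u) := by
      have h3 : ⌈c2⌉₊ ≤ 2 ^ (20000 * u) :=
        le_trans (by omega) (Nat.lt_two_pow_self (n := 20000 * u)).le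
      calc c2 ≤ (⌈c2⌉₊ : ℝ) := Nat.le_ceil _
        _ ≤ (2 : ℝ) ^ (20000 * u) := by exact_mod_cast h3
    rw [hc2, div_le_iff₀ hη] at h1
    linarith
  · show T + 1 ≤ 20000 * u
    omega

variable {p : Lab.Par} {M η : ℝ}

/-- the parameters in terms of `u = s / 20000` -/
theorem ivbn_par (hp : IvbPar p M η) : ∃ u : ℕ, 1 ≤ u ∧ p.s = 20000 * u ∧ p.ld = 8001 * u ∧
    p.lD = 12001 * u ∧ p.lq = 10001 * u ∧ p.s / 5 = 4000 * u := by
  obtain ⟨u, hu⟩ := hp.h20000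
  have := hp.hs
  refine ⟨u, by omega, hu, ?_, ?_, ?_, by omega⟩
  · unfold Lab.Par.ld
    omega
  · unfold Lab.Par.lD
    omega
  · unfold Lab.Par.lq
    omega

theorem ivbn_H_ge (hp : IvbPar p M η) (i : ℕ) : 3 * p.s + i ≤ p.H i := by
  unfold Lab.Par.H
  have h1 : 3 * p.s ≤ (2 * p.n0 + 1) * p.s :=
    Nat.mul_le_mul_right _ (by have := hp.hn0; omega)
  have h2 : i ≤ p.b * i := Nat.le_mul_of_pos_left _ hp.hb
  omega

theorem ivbn_b_le (hp : IvbPar p M η) : 5 * p.b ≤ p.s := Nat.le_of_dvd hp.hs hp.h5b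

theorem ivb_sum_lt (hp : IvbPar p M η) :
    Summable (fun i : ℕ => (2 : ℝ) ^ (9 * p.H i) * (2 / 2 ^ (48 * p.H i))
      + p.T * (1 / 2 ^ (6 * p.H i))) ∧
    ∑' i : ℕ, ((2 : ℝ) ^ (9 * p.H i) * (2 / 2 ^ (48 * p.H i)) + p.T * (1 / 2 ^ (6 * p.H i))) < 1 := by
  set c : ℝ := ((p.T : ℝ) + 1) * (1 / 2 ^ (6 * p.s)) with hc
  have hc0 : 0 ≤ c := by positivity
  have hle : ∀ i : ℕ, (2 : ℝ) ^ (9 * p.H i) * (2 / 2 ^ (48 * p.H i)) + p.T * (1 / 2 ^ (6 * p.H i))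
      ≤ c * (1 / 64) ^ i := by
    intro i
    have hH := ivbn_H_ge hp i
    have hs := hp.hs
    have key : (2 : ℝ) ^ (9 * p.H i) * (2 / 2 ^ (48 * p.H i)) ≤ 1 / 2 ^ (6 * p.H i) := by
      rw [mul_div_assoc', div_le_div_iff₀ (by positivity) (by positivity), one_mul]
      calc (2 : ℝ) ^ (9 * p.H i) * 2 * 2 ^ (6 * p.H i) = 2 ^ (9 * p.H i + 1 + 6 * p.H i) := by ring
        _ ≤ 2 ^ (48 * p.H i) := pow_le_pow_right₀ (by norm_num) (by omega)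
    have h2 : (1 : ℝ) / 2 ^ (6 * p.H i) ≤ 1 / 2 ^ (6 * p.s) * (1 / 64) ^ i := by
      have e : (1 : ℝ) / 2 ^ (6 * p.s) * (1 / 64) ^ i = 1 / 2 ^ (6 * p.s + 6 * i) := by
        rw [pow_add, pow_mul 2 6 i, one_div_pow]
        norm_num
        ring
      rw [e]
      exact one_div_le_one_div_of_le (by positivity)
        (pow_le_pow_right₀ (by norm_num) (by omega))
    have hT0 : (0 : ℝ) ≤ p.T := Nat.cast_nonneg _
    calc (2 : ℝ) ^ (9 * p.H i) * (2 / 2 ^ (48 * p.H i)) + p.T * (1 / 2 ^ (6 * p.H i))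
        ≤ 1 / 2 ^ (6 * p.H i) + p.T * (1 / 2 ^ (6 * p.H i)) := by linarith
      _ = ((p.T : ℝ) + 1) * (1 / 2 ^ (6 * p.H i)) := by ring
      _ ≤ ((p.T : ℝ) + 1) * (1 / 2 ^ (6 * p.s) * (1 / 64) ^ i) :=
          mul_le_mul_of_nonneg_left h2 (by positivity)
      _ = c * (1 / 64) ^ i := by rw [hc]; ring
  have hG : HasSum (fun i : ℕ => c * (1 / 64 : ℝ) ^ i) (c * (1 - 1 / 64)⁻¹) :=
    (hasSum_geometric_of_lt_one (by norm_num) (by norm_num)).mul_left c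
  have hsum : Summable (fun i : ℕ => (2 : ℝ) ^ (9 * p.H i) * (2 / 2 ^ (48 * p.H i))
      + p.T * (1 / 2 ^ (6 * p.H i))) :=
    Summable.of_nonneg_of_le (fun i => by positivity) hle hG.summable
  refine ⟨hsum, lt_of_le_of_lt (hasSum_le hle hsum.hasSum hG) ?_⟩
  have h1 : (p.T : ℝ) + 1 ≤ 2 ^ p.s := by
    have h3 : p.T + 1 ≤ 2 ^ p.s := le_trans hp.hT (Nat.lt_two_pow_self (n := p.s)).le
    exact_mod_cast h3
  have h2 : (2 : ℝ) ^ p.s * 32 ≤ 2 ^ (6 * p.s) := by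
    calc (2 : ℝ) ^ p.s * 32 = 2 ^ (p.s + 5) := by rw [pow_add]; norm_num
      _ ≤ 2 ^ (6 * p.s) := pow_le_pow_right₀ (by norm_num) (by have := hp.hs; omega)
  have h3 : c ≤ 1 / 32 := by
    rw [hc, mul_one_div, div_le_div_iff₀ (by positivity) (by norm_num)]
    linarith
  norm_num
  linarith

/-- length of the moment versus the girth -/
theorem ivb_num_l (hp : IvbPar p M η) (i : ℕ) :
    2030 * p.H i / (p.s / 5) + 1 ≤ 8124 * (93 * (p.H i - p.b) / (100 * p.lq)) := by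
  obtain ⟨u, hu, hs, -, -, hlq, hs5⟩ := ivbn_par hp
  have hH := ivbn_H_ge hp i
  have hb := ivbn_b_le hp
  rw [hs5, hlq]
  generalize p.H i = H at *
  generalize p.b = b at *
  have h1 : 2030 * H / (4000 * u) * (4000 * u) ≤ 2030 * H := Nat.div_mul_le_self _ _
  have h2 : 93 * (H - b) < 100 * (10001 * u) * (93 * (H - b) / (100 * (10001 * u)) + 1) :=
    Nat.lt_mul_div_succ _ (by omega)
  generalize 2030 * H / (4000 * u) = L at *
  generalize 93 * (H - b) / (100 * (10001 * u)) = g at *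
  refine Nat.le_of_mul_le_mul_left (c := u) ?_ (by omega)
  have e1 : L * (4000 * u) = 4000 * (u * L) := by ring
  have e2 : 100 * (10001 * u) * (g + 1) = 1000100 * (u * g) + 1000100 * u := by ring
  have e3 : u * (L + 1) = u * L + u := by ring
  have e4 : u * (8124 * g) = 8124 * (u * g) := by ring
  rw [e1] at h1
  rw [e2] at h2
  rw [e3, e4]
  generalize u * L = X at *
  generalize u * g = Y at *
  omega

theorem ivbn_dB_le (p : Lab.Par) (τ : Fin p.T) : InjGr.dB p τ ≤ 2 ^ (p.lD + p.b) := by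
  unfold InjGr.dB Lab.Par.D
  rw [pow_add]
  refine Nat.mul_le_mul_left _ (Nat.pow_le_pow_right (by norm_num) ?_)
  split_ifs <;> omega

theorem ivbn_dA_ge (p : Lab.Par) (τ : Fin p.T) : 2 ^ p.ld ≤ InjGr.dA p τ := by
  unfold InjGr.dA Lab.Par.d
  exact Nat.le_mul_of_pos_right _ (by positivity)

theorem ivbn_dB_pos (p : Lab.Par) (τ : Fin p.T) : 0 < InjGr.dB p τ := by
  unfold InjGr.dB Lab.Par.D
  positivity

theorem ivbn_dA_pos (p : Lab.Par) (τ : Fin p.T) : 0 < InjGr.dA p τ :=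
  lt_of_lt_of_le (by positivity) (ivbn_dA_ge p τ)

theorem ivbn_one_le_qq (p : Lab.Par) (τ : Fin p.T) : 1 ≤ InjGr.qq p τ := by
  unfold InjGr.qq
  rw [Real.one_le_sqrt]
  have h1 : 1 ≤ InjGr.dA p τ * InjGr.dB p τ :=
    Nat.mul_pos (ivbn_dA_pos p τ) (ivbn_dB_pos p τ)
  exact_mod_cast h1

theorem ivbn_qq_sq (p : Lab.Par) (τ : Fin p.T) :
    InjGr.qq p τ ^ 2 = (InjGr.dA p τ : ℝ) * InjGr.dB p τ := by
  unfold InjGr.qq
  exact Real.sq_sqrt (by positivity)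

/-- Foelner error: `6 dB M ≤ (η q / 2) 2 ^ (2 H_i)` -/
theorem ivb_num_fol (hp : IvbPar p M η) (τ : Fin p.T) (i : ℕ) :
    6 * (InjGr.dB p τ : ℝ) * M ≤ η * InjGr.qq p τ / 2 * 2 ^ (2 * p.H i) := by
  obtain ⟨u, hu, hs, -, hlD, -, -⟩ := ivbn_par hp
  have hH := ivbn_H_ge hp i
  have hb := ivbn_b_le hp
  have hq := ivbn_one_le_qq p τ
  have h1 : InjGr.dB p τ * 2 ^ p.s ≤ 2 ^ (2 * p.H i) := by
    calc InjGr.dB p τ * 2 ^ p.s ≤ 2 ^ (p.lD + p.b) * 2 ^ p.s :=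
          Nat.mul_le_mul_right _ (ivbn_dB_le p τ)
      _ = 2 ^ (p.lD + p.b + p.s) := (pow_add _ _ _).symm
      _ ≤ 2 ^ (2 * p.H i) := Nat.pow_le_pow_right (by norm_num) (by omega)
  have h2 : (InjGr.dB p τ : ℝ) * 2 ^ p.s ≤ 2 ^ (2 * p.H i) := by exact_mod_cast h1
  have h3 := hp.hfol
  have hd0 : (0 : ℝ) ≤ InjGr.dB p τ := Nat.cast_nonneg _
  have hη := hp.hη
  calc 6 * (InjGr.dB p τ : ℝ) * M = (InjGr.dB p τ : ℝ) * (12 * M) / 2 := by ring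
    _ ≤ (InjGr.dB p τ : ℝ) * (η * 2 ^ p.s) / 2 := by
        have := mul_le_mul_of_nonneg_left h3 hd0
        linarith
    _ = η / 2 * ((InjGr.dB p τ : ℝ) * 2 ^ p.s) := by ring
    _ ≤ η / 2 * 2 ^ (2 * p.H i) := mul_le_mul_of_nonneg_left h2 (by positivity)
    _ ≤ η * InjGr.qq p τ / 2 * 2 ^ (2 * p.H i) := by
        refine mul_le_mul_of_nonneg_right ?_ (by positivity)
        nlinarith

theorem ivb_qq_pos (p : Lab.Par) (τ : Fin p.T) : 0 < InjGr.qq p τ :=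
  lt_of_lt_of_le one_pos (ivbn_one_le_qq p τ)

/-- the final estimate of the tail, `t = η q / 2`, `l = 2030 H_i / (s / 5) + 1` -/
theorem ivb_num_tail (hp : IvbPar p M η) (τ : Fin p.T) (i : ℕ) (N : ℕ)
    (hN : N ≤ 2 * 2 ^ (p.H i + p.b + p.s)) :
    ((N : ℝ) * 2 ^ (2016 * p.H i + 6)) *
      (16 * (4 * (smpB 8124 : ℝ) + 2) ^ 2 * (InjGr.dB p τ : ℝ) *
        (2 * M / (η * InjGr.qq p τ / 2)) ^ 2) ^ (2030 * p.H i / (p.s / 5) + 1)
      ≤ 1 / 2 ^ (6 * p.H i) := by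
  obtain ⟨u, hu, hs, hld, -, -, hs5⟩ := ivbn_par hp
  have hH := ivbn_H_ge hp i
  have hb := ivbn_b_le hp
  have hη := hp.hη
  have hq := ivb_qq_pos p τ
  have hdA : (0 : ℝ) < InjGr.dA p τ := by exact_mod_cast ivbn_dA_pos p τ
  have hdB : (0 : ℝ) < InjGr.dB p τ := by exact_mod_cast ivbn_dB_pos p τ
  set K : ℝ := 4 * (smpB 8124 : ℝ) + 2 with hK
  -- the base of the power
  have hQ : 16 * K ^ 2 * (InjGr.dB p τ : ℝ) * (2 * M / (η * InjGr.qq p τ / 2)) ^ 2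
      ≤ 1 / 2 ^ (4001 * u) := by
    have e1 : 16 * K ^ 2 * (InjGr.dB p τ : ℝ) * (2 * M / (η * InjGr.qq p τ / 2)) ^ 2
        = 256 * K ^ 2 * M ^ 2 / (η ^ 2 * InjGr.dA p τ) := by
      have : (2 * M / (η * InjGr.qq p τ / 2)) ^ 2 = 16 * M ^ 2 / (η ^ 2 * InjGr.qq p τ ^ 2) := by
        field_simp
        ring
      rw [this, ivbn_qq_sq]
      field_simp
      ring
    rw [e1, div_le_div_iff₀ (by positivity) (by positivity), one_mul]
    have h1 : (2 : ℝ) ^ (p.s / 5) * 2 ^ (4001 * u) ≤ InjGr.dA p τ := by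
      have h2 : 2 ^ (p.s / 5) * 2 ^ (4001 * u) ≤ InjGr.dA p τ := by
        refine le_trans (le_of_eq ?_) (ivbn_dA_ge p τ)
        rw [← pow_add, hs5, hld]
        congr 1
        omega
      exact_mod_cast h2
    calc 256 * K ^ 2 * M ^ 2 * 2 ^ (4001 * u) ≤ η ^ 2 * 2 ^ (p.s / 5) * 2 ^ (4001 * u) :=
          mul_le_mul_of_nonneg_right hp.hc2 (by positivity)
      _ = η ^ 2 * ((2 : ℝ) ^ (p.s / 5) * 2 ^ (4001 * u)) := by ring
      _ ≤ η ^ 2 * InjGr.dA p τ := mul_le_mul_of_nonneg_left h1 (by positivity)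
  have hQ0 : 0 ≤ 16 * K ^ 2 * (InjGr.dB p τ : ℝ) * (2 * M / (η * InjGr.qq p τ / 2)) ^ 2 := by
    positivity
  have hl : 2030 * p.H i ≤ 4001 * u * (2030 * p.H i / (p.s / 5) + 1) := by
    rw [hs5]
    have h1 : 2030 * p.H i < 4000 * u * (2030 * p.H i / (4000 * u) + 1) :=
      Nat.lt_mul_div_succ _ (by omega)
    have h2 : 4000 * u * (2030 * p.H i / (4000 * u) + 1) ≤
        4001 * u * (2030 * p.H i / (4000 * u) + 1) := Nat.mul_le_mul_right _ (by omega)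
    omega
  have hP : (16 * K ^ 2 * (InjGr.dB p τ : ℝ) * (2 * M / (η * InjGr.qq p τ / 2)) ^ 2) ^
      (2030 * p.H i / (p.s / 5) + 1) ≤ 1 / 2 ^ (2030 * p.H i) := by
    calc (16 * K ^ 2 * (InjGr.dB p τ : ℝ) * (2 * M / (η * InjGr.qq p τ / 2)) ^ 2) ^
        (2030 * p.H i / (p.s / 5) + 1)
        ≤ (1 / 2 ^ (4001 * u)) ^ (2030 * p.H i / (p.s / 5) + 1) := pow_le_pow_left₀ hQ0 hQ _
      _ = 1 / 2 ^ (4001 * u * (2030 * p.H i / (p.s / 5) + 1)) := by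
          rw [one_div_pow, ← pow_mul]
      _ ≤ 1 / 2 ^ (2030 * p.H i) :=
          one_div_le_one_div_of_le (by positivity) (pow_le_pow_right₀ (by norm_num) hl)
  have hN' : (N : ℝ) * 2 ^ (2016 * p.H i + 6) ≤ 2 ^ (2017 * p.H i + p.b + p.s + 7) := by
    have h1 : N * 2 ^ (2016 * p.H i + 6) ≤ 2 ^ (2017 * p.H i + p.b + p.s + 7) := by
      calc N * 2 ^ (2016 * p.H i + 6) ≤ 2 * 2 ^ (p.H i + p.b + p.s) * 2 ^ (2016 * p.H i + 6) :=
            Nat.mul_le_mul_right _ hN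
        _ = 2 ^ (2017 * p.H i + p.b + p.s + 7) := by ring
    exact_mod_cast h1
  calc ((N : ℝ) * 2 ^ (2016 * p.H i + 6)) *
      (16 * K ^ 2 * (InjGr.dB p τ : ℝ) * (2 * M / (η * InjGr.qq p τ / 2)) ^ 2) ^
        (2030 * p.H i / (p.s / 5) + 1)
      ≤ 2 ^ (2017 * p.H i + p.b + p.s + 7) * (1 / 2 ^ (2030 * p.H i)) :=
        mul_le_mul hN' hP (pow_nonneg hQ0 _) (by positivity)
    _ ≤ 1 / 2 ^ (6 * p.H i) := by
        rw [mul_one_div, div_le_div_iff₀ (by positivity) (by positivity), one_mul, ← pow_add]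
        exact pow_le_pow_right₀ (by norm_num) (by omega)

end Claimed.Agent.R300
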