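/-
Row 300 / S0553, IV-B package R4 (IVB-BOX): Heisenberg boxes are almost right invariant (INJ Lemma 4.6(a)).
Sub-captain: helper128.
PLAN.  `f g = (a + a', b + b', c + c' + a b')`.  `f ∈ Box`, `f g ∉ Box` implies `a + a' ∉ [-Tq,Tq]` (at most `R0` values of `a`),
or the same for `b`, or `c + (c' + a b') ∉ [-Tq²,Tq²]` (for fixed `a`, at most `|c' + a b'| ≤ R0 + Tq R0 ≤ 2 Tq R0` values of `c`).
Count: `R0 (2Tq+1)(2Tq²+1) * 2 + 2 Tq R0 (2Tq+1)²`, times `Tq`, is `≤ 3 R0 (2Tq+1)²(2Tq²+1)`.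
-/
import Mathlib
import Claimed.Agent.R300.IvbDefs

set_option autoImplicit false

namespace Claimed.Agent.R300

/-- the box `|a|, |b| ≤ Tq`, `|c| ≤ Tq²` -/
noncomputable def ivbBox (Tq : ℕ) : Finset InjHeis :=
  ((Finset.Icc (-(Tq : ℤ)) Tq ×ˢ Finset.Icc (-(Tq : ℤ)) Tq) ×ˢ
    Finset.Icc (-((Tq : ℤ) ^ 2)) ((Tq : ℤ) ^ 2)).image fun x => ⟨x.1.1, x.1.2, x.2⟩

/-- coordinates -/
def ivbxMk (x : (ℤ × ℤ) × ℤ) : InjHeis := ⟨x.1.1, x.1.2, x.2⟩

theorem ivbxMk_injective : Function.Injective ivbxMk := by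
  rintro ⟨⟨a, b⟩, c⟩ ⟨⟨a', b'⟩, c'⟩ h
  have h1 := congrArg InjHeis.a h
  have h2 := congrArg InjHeis.b h
  have h3 := congrArg InjHeis.c h
  simp only [ivbxMk] at h1 h2 h3
  rw [h1, h2, h3]

theorem ivbx_card_Icc (m : ℕ) : (Finset.Icc (-(m : ℤ)) m).card = 2 * m + 1 := by
  rw [Int.card_Icc]
  omega

theorem mem_ivbBox (Tq : ℕ) (f : InjHeis) :
    f ∈ ivbBox Tq ↔ |f.a| ≤ Tq ∧ |f.b| ≤ Tq ∧ |f.c| ≤ (Tq : ℤ) ^ 2 := by
  unfold ivbBox
  simp only [Finset.mem_image, Finset.mem_product, Finset.mem_Icc, abs_le]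
  constructor
  · rintro ⟨x, ⟨⟨h1, h2⟩, h3⟩, rfl⟩
    exact ⟨h1, h2, h3⟩
  · rintro ⟨h1, h2, h3⟩
    exact ⟨((f.a, f.b), f.c), ⟨⟨h1, h2⟩, h3⟩, rfl⟩

theorem ivbBox_card (Tq : ℕ) : (ivbBox Tq).card = (2 * Tq + 1) ^ 2 * (2 * Tq ^ 2 + 1) := by
  unfold ivbBox
  rw [show (fun x : (ℤ × ℤ) × ℤ => (⟨x.1.1, x.1.2, x.2⟩ : InjHeis)) = ivbxMk from rfl,
    Finset.card_image_of_injective _ ivbxMk_injective, Finset.card_product, Finset.card_product,
    ivbx_card_Icc]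
  have h : (Finset.Icc (-((Tq : ℤ) ^ 2)) ((Tq : ℤ) ^ 2)).card = 2 * Tq ^ 2 + 1 := by
    have := ivbx_card_Icc (Tq ^ 2)
    push_cast at this
    exact this
  rw [h]
  ring

theorem ivbBox_nonempty (Tq : ℕ) : (ivbBox Tq).Nonempty := by
  rw [← Finset.card_pos, ivbBox_card]
  positivity

/-- a shifted interval leaves the interval in at most `|k|` points -/
theorem ivbx_shift_card (m k : ℤ) :
    ((Finset.Icc (-m) m).filter fun x => ¬ |x + k| ≤ m).card ≤ k.natAbs := by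
  rcases le_total 0 k with hk | hk
  · have hsub : ((Finset.Icc (-m) m).filter fun x => ¬ |x + k| ≤ m) ⊆ Finset.Ioc (m - k) m := by
      intro x hx
      simp only [Finset.mem_filter, Finset.mem_Icc, abs_le, Finset.mem_Ioc] at hx ⊢
      omega
    refine (Finset.card_le_card hsub).trans ?_
    rw [Int.card_Ioc]
    omega
  · have hsub : ((Finset.Icc (-m) m).filter fun x => ¬ |x + k| ≤ m) ⊆
        Finset.Ico (-m) (-m - k) := by
      intro x hx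
      simp only [Finset.mem_filter, Finset.mem_Icc, abs_le, Finset.mem_Ico] at hx ⊢
      omega
    refine (Finset.card_le_card hsub).trans ?_
    rw [Int.card_Ico]
    omega

theorem ivbBox_inv (Tq R0 : ℕ) (hR : R0 ≤ Tq) (g : InjHeis) (ha : |g.a| ≤ R0) (hb : |g.b| ≤ R0)
    (hc : |g.c| ≤ R0) :
    (((ivbBox Tq).filter fun f => f * g ∉ ivbBox Tq).card : ℝ) * Tq ≤ 3 * R0 * (ivbBox Tq).card := by
  classical
  set I : Finset ℤ := Finset.Icc (-(Tq : ℤ)) Tq with hI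
  set J : Finset ℤ := Finset.Icc (-((Tq : ℤ) ^ 2)) ((Tq : ℤ) ^ 2) with hJ
  have hIc : I.card = 2 * Tq + 1 := ivbx_card_Icc Tq
  have hJc : J.card = 2 * Tq ^ 2 + 1 := by
    have := ivbx_card_Icc (Tq ^ 2)
    push_cast at this
    exact this
  -- the three bad sets in coordinates
  set S1 : Finset ((ℤ × ℤ) × ℤ) := ((I.filter fun x => ¬ |x + g.a| ≤ (Tq : ℤ)) ×ˢ I) ×ˢ J with hS1
  set S2 : Finset ((ℤ × ℤ) × ℤ) := (I ×ˢ (I.filter fun x => ¬ |x + g.b| ≤ (Tq : ℤ))) ×ˢ J with hS2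
  set S3 : Finset ((ℤ × ℤ) × ℤ) := (I ×ˢ I).biUnion fun ab =>
    (J.filter fun x => ¬ |x + (g.c + ab.1 * g.b)| ≤ (Tq : ℤ) ^ 2).image fun c => (ab, c) with hS3
  have hsub : ((ivbBox Tq).filter fun f => f * g ∉ ivbBox Tq) ⊆ (S1 ∪ S2 ∪ S3).image ivbxMk := by
    intro f hf
    obtain ⟨hf1, hf2⟩ := Finset.mem_filter.1 hf
    rw [mem_ivbBox] at hf1 hf2
    obtain ⟨h1, h2, h3⟩ := hf1
    have m1 : f.a ∈ I := Finset.mem_Icc.2 (abs_le.1 h1)
    have m2 : f.b ∈ I := Finset.mem_Icc.2 (abs_le.1 h2)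
    have m3 : f.c ∈ J := Finset.mem_Icc.2 (abs_le.1 h3)
    refine Finset.mem_image.2 ⟨((f.a, f.b), f.c), ?_, rfl⟩
    simp only [InjHeis.mul_a, InjHeis.mul_b, InjHeis.mul_c] at hf2
    by_cases c1 : |f.a + g.a| ≤ (Tq : ℤ)
    · by_cases c2 : |f.b + g.b| ≤ (Tq : ℤ)
      · have c3 : ¬ |f.c + g.c + f.a * g.b| ≤ (Tq : ℤ) ^ 2 := fun h => hf2 ⟨c1, c2, h⟩
        refine Finset.mem_union_right _ ?_
        refine Finset.mem_biUnion.2 ⟨(f.a, f.b), Finset.mem_product.2 ⟨m1, m2⟩, ?_⟩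
        refine Finset.mem_image.2 ⟨f.c, Finset.mem_filter.2 ⟨m3, ?_⟩, rfl⟩
        rwa [← add_assoc]
      · refine Finset.mem_union_left _ (Finset.mem_union_right _ ?_)
        exact Finset.mem_product.2 ⟨Finset.mem_product.2 ⟨m1, Finset.mem_filter.2 ⟨m2, c2⟩⟩, m3⟩
    · refine Finset.mem_union_left _ (Finset.mem_union_left _ ?_)
      exact Finset.mem_product.2 ⟨Finset.mem_product.2 ⟨Finset.mem_filter.2 ⟨m1, c1⟩, m2⟩, m3⟩
  have hga : g.a.natAbs ≤ R0 := by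
    have : (g.a.natAbs : ℤ) ≤ R0 := by rw [Int.natCast_natAbs]; exact ha
    exact_mod_cast this
  have hgb : g.b.natAbs ≤ R0 := by
    have : (g.b.natAbs : ℤ) ≤ R0 := by rw [Int.natCast_natAbs]; exact hb
    exact_mod_cast this
  have c1 : S1.card ≤ R0 * (2 * Tq + 1) * (2 * Tq ^ 2 + 1) := by
    rw [hS1, Finset.card_product, Finset.card_product, hIc, hJc]
    exact Nat.mul_le_mul_right _ (Nat.mul_le_mul_right _
      ((ivbx_shift_card (Tq : ℤ) g.a).trans hga))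
  have c2 : S2.card ≤ (2 * Tq + 1) * R0 * (2 * Tq ^ 2 + 1) := by
    rw [hS2, Finset.card_product, Finset.card_product, hIc, hJc]
    exact Nat.mul_le_mul_right _ (Nat.mul_le_mul_left _
      ((ivbx_shift_card (Tq : ℤ) g.b).trans hgb))
  have c3 : S3.card ≤ (2 * Tq + 1) * (2 * Tq + 1) * (R0 + Tq * R0) := by
    rw [hS3]
    refine Finset.card_biUnion_le.trans ?_
    have hterm : ∀ ab ∈ I ×ˢ I,
        ((J.filter fun x => ¬ |x + (g.c + ab.1 * g.b)| ≤ (Tq : ℤ) ^ 2).image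
          fun c => (ab, c)).card ≤ R0 + Tq * R0 := by
      intro ab hab
      refine Finset.card_image_le.trans ((ivbx_shift_card ((Tq : ℤ) ^ 2) _).trans ?_)
      have hab1 : |ab.1| ≤ (Tq : ℤ) := abs_le.2 (Finset.mem_Icc.1 (Finset.mem_product.1 hab).1)
      have : ((g.c + ab.1 * g.b).natAbs : ℤ) ≤ ((R0 + Tq * R0 : ℕ) : ℤ) := by
        rw [Int.natCast_natAbs]
        push_cast
        calc |g.c + ab.1 * g.b| ≤ |g.c| + |ab.1 * g.b| := abs_add_le _ _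
          _ = |g.c| + |ab.1| * |g.b| := by rw [abs_mul]
          _ ≤ (R0 : ℤ) + (Tq : ℤ) * R0 :=
              add_le_add hc (mul_le_mul hab1 hb (abs_nonneg _) (by positivity))
      exact_mod_cast this
    refine (Finset.sum_le_sum hterm).trans ?_
    rw [Finset.sum_const, Finset.card_product, hIc, smul_eq_mul]
  have hcard : ((ivbBox Tq).filter fun f => f * g ∉ ivbBox Tq).card ≤
      R0 * (2 * Tq + 1) * (2 * Tq ^ 2 + 1) + (2 * Tq + 1) * R0 * (2 * Tq ^ 2 + 1) +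
        (2 * Tq + 1) * (2 * Tq + 1) * (R0 + Tq * R0) := by
    refine (Finset.card_le_card hsub).trans (Finset.card_image_le.trans ?_)
    refine (Finset.card_union_le _ _).trans ?_
    exact Nat.add_le_add ((Finset.card_union_le _ _).trans (Nat.add_le_add c1 c2)) c3
  have hfin : ((ivbBox Tq).filter fun f => f * g ∉ ivbBox Tq).card * Tq ≤
      3 * R0 * (ivbBox Tq).card := by
    rw [ivbBox_card]
    refine (Nat.mul_le_mul_right _ hcard).trans ?_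
    have e : 3 * R0 * ((2 * Tq + 1) ^ 2 * (2 * Tq ^ 2 + 1)) =
        2 * ((R0 * (2 * Tq + 1) * (2 * Tq ^ 2 + 1) + (2 * Tq + 1) * R0 * (2 * Tq ^ 2 + 1) +
        (2 * Tq + 1) * (2 * Tq + 1) * (R0 + Tq * R0)) * Tq) + 3 * R0 * (2 * Tq + 1) := by ring
    rw [e]
    omega
  exact_mod_cast hfin

end Claimed.Agent.R300
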