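/-
Row 300 / S0553, IV-B package R5b (IVB-TAIL): tail of the centred block, generic finite graph.  Sub-captain: helper128.
PLAN.  `smp_block_tail` with `ι = Unit`, `W e x = ivbW1 ((Sm e).wt x)` (`‖ivbW1 w‖ = ‖w‖`: `ivbW1 w = Matrix.diagonal fun _ => w`,
`Matrix.l2_opNorm_diagonal`), `z e x = (Sm e).vol x`, `Bx = ivbBox (2 ^ (504 H))`, `κ = 3 / 2 ^ (2 H)` (`ivbBox_inv`, `R0 = 2 ^ (502 H)`,
`IvSampler.Ok.coord` for `vol` and its inverse), `Wn = (16 (4 smpB C + 2)² Δ) ^ l` (`smp_walk_count_girth`), `τ = t`;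
`t + κ (2 Δ M) ≤ 2 t` by `hfol`;  `card Box ≤ 2 ^ (2016 H + 6)`.
-/
import Mathlib
import Claimed.Agent.R300.IvbBox

set_option autoImplicit false

namespace Claimed.Agent.R300

open HeisLaw
open scoped Matrix.Norms.L2Operator

theorem ivbW1_norm (w : ℂ) : ‖ivbW1 w‖ = ‖w‖ := by
  have h : ivbW1 w = Matrix.diagonal (fun _ : Unit => w) := by
    ext i j
    simp [ivbW1]
  rw [h, Matrix.l2_opNorm_diagonal]
  simp

/-- the box of side `2 ^ (504 H)` is `3 / 2 ^ (2 H)` invariant under elements of size `2 ^ (502 H)` -/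
theorem ivbt_box_inv (H : ℕ) (g : InjHeis) (ha : |g.a| ≤ 2 ^ (502 * H)) (hb : |g.b| ≤ 2 ^ (502 * H))
    (hc : |g.c| ≤ 2 ^ (502 * H)) :
    (((ivbBox (2 ^ (504 * H))).filter fun f => f * g ∉ ivbBox (2 ^ (504 * H))).card : ℝ)
      ≤ 3 / 2 ^ (2 * H) * (ivbBox (2 ^ (504 * H))).card := by
  have h := ivbBox_inv (2 ^ (504 * H)) (2 ^ (502 * H))
    (Nat.pow_le_pow_right (by norm_num) (by omega)) g (by exact_mod_cast ha) (by exact_mod_cast hb)
    (by exact_mod_cast hc)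
  push_cast at h
  have e : (2 : ℝ) ^ (504 * H) = 2 ^ (502 * H) * 2 ^ (2 * H) := by
    rw [← pow_add]
    congr 1
    ring
  rw [e] at h
  have h1 : (0 : ℝ) < 2 ^ (502 * H) := by positivity
  have h2 : (0 : ℝ) < 2 ^ (2 * H) := by positivity
  rw [div_mul_eq_mul_div, le_div_iff₀ h2]
  have h3 : (((ivbBox (2 ^ (504 * H))).filter fun f => f * g ∉ ivbBox (2 ^ (504 * H))).card : ℝ)
      * 2 ^ (2 * H) * 2 ^ (502 * H) ≤ 3 * (ivbBox (2 ^ (504 * H))).card * 2 ^ (502 * H) := by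
    calc _ = (((ivbBox (2 ^ (504 * H))).filter fun f => f * g ∉ ivbBox (2 ^ (504 * H))).card : ℝ)
          * (2 ^ (502 * H) * 2 ^ (2 * H)) := by ring
      _ ≤ 3 * 2 ^ (502 * H) * (ivbBox (2 ^ (504 * H))).card := h
      _ = _ := by ring
  exact le_of_mul_le_mul_right h3 h1

theorem ivbt_box_card (H : ℕ) : ((ivbBox (2 ^ (504 * H))).card : ℝ) ≤ 2 ^ (2016 * H + 6) := by
  rw [ivbBox_card]
  have h1 : 1 ≤ 2 ^ (504 * H) := Nat.one_le_two_pow
  have h2 : (2 * 2 ^ (504 * H) + 1) ^ 2 * (2 * (2 ^ (504 * H)) ^ 2 + 1) ≤ 2 ^ (2016 * H + 6) := by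
    have e : 2 ^ (2016 * H + 6) = 64 * (2 ^ (504 * H)) ^ 4 := by
      rw [← pow_mul, pow_add]
      have : 2016 * H = 504 * H * 4 := by ring
      rw [this]
      ring
    rw [e]
    generalize 2 ^ (504 * H) = q at h1
    have h3 : 2 * q + 1 ≤ 4 * q := by omega
    have h4 : 2 * q ^ 2 + 1 ≤ 4 * q ^ 2 := by nlinarith
    calc (2 * q + 1) ^ 2 * (2 * q ^ 2 + 1) ≤ (4 * q) ^ 2 * (4 * q ^ 2) :=
          Nat.mul_le_mul (Nat.pow_le_pow_left h3 2) h4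
      _ = 64 * q ^ 4 := by ring
  exact_mod_cast h2

theorem ivb_tail {V E : Type} [Fintype V] [DecidableEq V] [Fintype E] [DecidableEq E]
    (src tgt : E → V) (Sm : E → IvSampler) (H : ℕ) (M : ℝ) (hM0 : 0 ≤ M)
    (hOk : ∀ e, (Sm e).Ok H M) (Δ : ℕ)
    (hΔ : ∀ (x : V) (T : Finset (E × Bool)), (∀ d ∈ T, (smpGraph src tgt).src d = x) → T.card ≤ Δ)
    (g C l : ℕ)
    (hgirth : ∀ (x : V) (c : List (E × Bool)), c ≠ [] → (smpGraph src tgt).IsWalk x c x →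
      (smpGraph src tgt).CycRed c → g < c.length)
    (hl : l ≤ C * g) (t : ℝ) (ht : 0 < t) (hfol : 6 * Δ * M ≤ t * 2 ^ (2 * H)) :
    smpP (fun e => (Sm e).p) (fun ω => 2 * t ≤ ‖ivbGY src tgt Sm ω‖)
      ≤ (Fintype.card V * 2 ^ (2016 * H + 6)) *
        (16 * (4 * (smpB C : ℝ) + 2) ^ 2 * Δ * (2 * M / t) ^ 2) ^ l := by
  have hκ : ∀ (e : E) (a : (Sm e).Pt),
      (((ivbBox (2 ^ (504 * H))).filter fun f => f * (Sm e).vol a ∉ ivbBox (2 ^ (504 * H))).card : ℝ)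
        ≤ 3 / 2 ^ (2 * H) * (ivbBox (2 ^ (504 * H))).card ∧
      (((ivbBox (2 ^ (504 * H))).filter
        fun f => f * ((Sm e).vol a)⁻¹ ∉ ivbBox (2 ^ (504 * H))).card : ℝ)
        ≤ 3 / 2 ^ (2 * H) * (ivbBox (2 ^ (504 * H))).card := by
    intro e a
    obtain ⟨c1, c2, c3, c4⟩ := (hOk e).coord a
    refine ⟨ivbt_box_inv H _ c1 c2 c3, ivbt_box_inv H _ ?_ ?_ c4⟩
    · rw [InjHeis.inv_a, abs_neg]
      exact c1
    · rw [InjHeis.inv_b, abs_neg]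
      exact c2
  have h := smp_block_tail src tgt (fun e => (Sm e).p) (fun e x => ivb_p_nonneg _ x)
    (fun e => ivb_p_sum _) (fun e x => ivbW1 ((Sm e).wt x)) (fun e x => (Sm e).vol x) M hM0
    (fun e x => by rw [ivbW1_norm]; exact (hOk e).bd _ _ _) Δ hΔ (ivbBox (2 ^ (504 * H)))
    (ivbBox_nonempty _) (3 / 2 ^ (2 * H)) (by positivity) hκ l
    ((16 * (4 * smpB C + 2) ^ 2 * Δ) ^ l)
    (fun v S hS => smp_walk_count_girth (smpGraph src tgt) Δ g C l hΔ hgirth hl v S hS) t ht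
  refine le_trans (smpP_mono _ (fun e x => ivb_p_nonneg _ x) ?_) (le_trans h ?_)
  · intro ω hω
    have h2 : (0 : ℝ) < 2 ^ (2 * H) := by positivity
    have h3 : 3 / 2 ^ (2 * H) * (2 * (Δ : ℝ) * M * (Fintype.card Unit : ℕ)) ≤ t := by
      rw [Fintype.card_unit, Nat.cast_one, mul_one, div_mul_eq_mul_div, div_le_iff₀ h2]
      linarith
    unfold ivbGY ivbCf at hω
    linarith
  · have hb := ivbt_box_card H
    generalize (ivbBox (2 ^ (504 * H))).card = nb at hb ⊢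
    have e1 : (((16 * (4 * smpB C + 2) ^ 2 * Δ) ^ l : ℕ) : ℝ)
        = (16 * (4 * (smpB C : ℝ) + 2) ^ 2 * Δ) ^ l := by
      push_cast
      ring
    rw [Fintype.card_unit, Nat.cast_one, one_mul, pow_mul, mul_pow _ ((2 * M / t) ^ 2) l, e1]
    have h5 : (0 : ℝ) ≤ (16 * (4 * (smpB C : ℝ) + 2) ^ 2 * Δ) ^ l * ((2 * M / t) ^ 2) ^ l := by
      positivity
    calc (Fintype.card V : ℝ) * (nb : ℝ) *
          (16 * (4 * (smpB C : ℝ) + 2) ^ 2 * Δ) ^ l * ((2 * M / t) ^ 2) ^ l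
        = ((Fintype.card V : ℝ) * (nb : ℝ)) *
          ((16 * (4 * (smpB C : ℝ) + 2) ^ 2 * Δ) ^ l * ((2 * M / t) ^ 2) ^ l) := by ring
      _ ≤ ((Fintype.card V : ℝ) * 2 ^ (2016 * H + 6)) *
          ((16 * (4 * (smpB C : ℝ) + 2) ^ 2 * Δ) ^ l * ((2 * M / t) ^ 2) ^ l) := by
          refine mul_le_mul_of_nonneg_right ?_ h5
          exact mul_le_mul_of_nonneg_left hb (by positivity)

end Claimed.Agent.R300
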