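/-
Row 300 / S0553, IV-B package (IVB-BLKE): probability of a bad block.  Sub-captain: helper128.
PLAN.  `ivb_tail` for the block graph with `H = p.H i`, `Δ = dB p τ` (`ivb_blk_deg`), `g = 93 (H_i - b) / (100 lq)` (`ivb_blk_girth`),
`C = 8124`, `l = 2030 H_i / (s / 5) + 1` (`ivb_num_l`), `t = η q / 2` (`ivb_num_fol`, `ivb_qq_pos`), `smpP_mono` (`η q < ‖Y‖ → 2 t ≤ ‖Y‖`),
`ivb_blk_card` + `ivb_num_tail`.  `hOk` for `e ∈ ivbEb X τ i`: `hOk (ety e) (ht (src e))` and `(ivbEb_spec ..).2`.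
-/
import Mathlib
import Claimed.Agent.R300.IvbTail
import Claimed.Agent.R300.IvbBlkG
import Claimed.Agent.R300.IvbNum

set_option autoImplicit false

namespace Claimed.Agent.R300

open HeisLaw

variable {p : Lab.Par}

theorem ivb_block_event (X : InjGr p) (hS : X.Str) (hD : X.DegLe) (hC : X.CardLe) (hG : X.Girth93)
    (S : Fin p.T → ℕ → IvSampler) {M η : ℝ} (hp : IvbPar p M η)
    (hOk : ∀ τ i, (S τ i).Ok (p.H i) M) (τ : Fin p.T) (i : ℕ) :
    smpP (fun e : ↥(ivbEb X τ i) => (ivbSm X S e).p)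
      (fun ω' => η * InjGr.qq p τ < ‖ivbY X S τ i ω'‖) ≤ 1 / 2 ^ (6 * p.H i) := by
  have hq := ivb_qq_pos p τ
  have hη := hp.hη
  have ht0 : 0 < η * InjGr.qq p τ / 2 := by positivity
  have hOk' : ∀ e : ↥(ivbEb X τ i), (ivbSm X S e).Ok (p.H i) M := by
    intro e
    have h := hOk (X.ety e) (X.ht (X.src e))
    have e2 : p.H (X.ht (X.src e)) = p.H i := by rw [(ivbEb_spec X τ i e.2).2]
    rw [e2] at h
    exact h
  have h1 := ivb_tail (ivbSrc X τ i) (ivbTgt X τ i) (fun e : ↥(ivbEb X τ i) => ivbSm X S e)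
    (p.H i) M hp.hM hOk' (InjGr.dB p τ) (ivb_blk_deg X hS hD hp.hs hp.h5b hp.h20000 τ i)
    (93 * (p.H i - p.b) / (100 * p.lq)) 8124 (2030 * p.H i / (p.s / 5) + 1)
    (ivb_blk_girth X hS hG τ i) (ivb_num_l hp i) (η * InjGr.qq p τ / 2) ht0 (ivb_num_fol hp τ i)
  refine le_trans (smpP_mono _ (fun e x => ivb_p_nonneg _ x) ?_)
    (le_trans h1 (ivb_num_tail hp τ i _ (ivb_blk_card X hS hC τ i)))
  intro ω' hω'
  unfold ivbY at hω'
  linarith

end Claimed.Agent.R300
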