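/-
Row 300 / S0553, IV-B package (IVB-KER): generic kernel lemmas.  Sub-captain: helper128.
PLAN.  `ivb_norm_le_of_sub`: `S = c • (scPush φ ∘ scRestr A' ∘ T ∘ scRestr B' ∘ scPull φ)` (check on `scDelta`s with `scOp_ext`, `scPull_delta`,
`scPull_delta_of_not_mem`, `smp_restr_delta_mem/not_mem`, `scPush_apply`, `scPush_apply_of_not_mem`), all four outer factors have norm `≤ 1`.
`ivbGY_hasKer`: `smpCoefBd_exists_of_finite` with `Sg = smpbSg ..` as in the proof of `smp_block_tail` (`hsupp` there), `SmpCoefBd.hasKer`.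
`ivbGY_coef`: `smpE_smpCoef`, `ivb_mean_apply`, `ivb_p_sum`; the adjoint terms vanish because `a` is not a target.
-/
import Mathlib
import Claimed.Agent.R300.IvbDefs

set_option autoImplicit false

namespace Claimed.Agent.R300

open HeisLaw

theorem ivb_norm_le_of_sub {X X' : Type} (φ : X' → X) (hφ : Function.Injective φ) (A' B' : Set X')
    (S : ScL2 X →L[ℂ] ScL2 X) (T : ScL2 X' →L[ℂ] ScL2 X') (c : ℂ)
    (h0 : ∀ x y, ¬ (x ∈ φ '' A' ∧ y ∈ φ '' B') → S (scDelta y) x = 0)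
    (h1 : ∀ a ∈ A', ∀ b ∈ B', S (scDelta (φ b)) (φ a) = c * T (scDelta b) a) :
    ‖S‖ ≤ ‖c‖ * ‖T‖ := by
  classical
  have hrn : ∀ {Y : Type} (B : Set Y) (ξ : ScL2 Y), ‖scRestr B ξ‖ ≤ ‖ξ‖ := by
    intro Y B ξ
    have h := scRestr_norm_sq_add B ξ
    have h2 : ‖scRestr B ξ‖ ^ 2 ≤ ‖ξ‖ ^ 2 := by nlinarith [sq_nonneg ‖scRestr Bᶜ ξ‖]
    exact le_of_sq_le_sq h2 (norm_nonneg _)
  have e : S = c • (scPush φ hφ ∘L scRestr A' ∘L T ∘L scRestr B' ∘L scPull φ hφ) := by
    refine scOp_ext fun y => ?_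
    ext x
    simp only [ContinuousLinearMap.smul_apply, ContinuousLinearMap.comp_apply, lp.coeFn_smul,
      Pi.smul_apply, smul_eq_mul]
    by_cases hy : ∃ b, φ b = y
    · obtain ⟨b, rfl⟩ := hy
      rw [scPull_delta]
      by_cases hb : b ∈ B'
      · rw [smp_restr_delta_mem hb]
        by_cases hx : ∃ a, φ a = x
        · obtain ⟨a, rfl⟩ := hx
          rw [scPush_apply]
          by_cases ha : a ∈ A'
          · rw [scRestr_apply_mem _ ha, h1 a ha b hb]
          · rw [scRestr_apply_not_mem _ ha, mul_zero]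
            refine h0 _ _ fun h => ha ?_
            obtain ⟨a', ha', h'⟩ := h.1
            rwa [← hφ h']
        · rw [scPush_apply_of_not_mem φ hφ _ x (fun a ha => hx ⟨a, ha⟩), mul_zero]
          refine h0 _ _ fun h => hx ?_
          obtain ⟨a', -, h'⟩ := h.1
          exact ⟨a', h'⟩
      · rw [smp_restr_delta_not_mem hb]
        simp only [map_zero, lp.coeFn_zero, Pi.zero_apply, mul_zero]
        refine h0 _ _ fun h => hb ?_
        obtain ⟨b', hb', h'⟩ := h.2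
        rwa [← hφ h']
    · rw [scPull_delta_of_not_mem φ hφ y (fun b hb => hy ⟨b, hb⟩)]
      simp only [map_zero, lp.coeFn_zero, Pi.zero_apply, mul_zero]
      refine h0 _ _ fun h => hy ?_
      obtain ⟨b', -, h'⟩ := h.2
      exact ⟨b', h'⟩
  refine ContinuousLinearMap.opNorm_le_bound _ (by positivity) fun ξ => ?_
  rw [e]
  simp only [ContinuousLinearMap.smul_apply, ContinuousLinearMap.comp_apply]
  rw [norm_smul, scPush_norm, mul_assoc]
  refine mul_le_mul_of_nonneg_left ?_ (norm_nonneg _)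
  calc ‖scRestr A' (T (scRestr B' (scPull φ hφ ξ)))‖ ≤ ‖T (scRestr B' (scPull φ hφ ξ))‖ := hrn _ _
    _ ≤ ‖T‖ * ‖scRestr B' (scPull φ hφ ξ)‖ := T.le_opNorm _
    _ ≤ ‖T‖ * ‖ξ‖ := mul_le_mul_of_nonneg_left ((hrn _ _).trans (scPull_norm_le _ _ _))
        (norm_nonneg _)

variable {V E : Type} [Fintype V] [DecidableEq V] [Fintype E] [DecidableEq E]

theorem ivbGY_hasKer (src tgt : E → V) (Sm : E → IvSampler) (ω : ∀ e, (Sm e).Pt) :
    SmpHasKer (ivbGY src tgt Sm ω)
      (smpConvK (ivbCf src tgt Sm ω - smpE (fun e => (Sm e).p) (fun ω' => ivbCf src tgt Sm ω'))) := by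
  have hsupp : ∀ u v g, g ∉ smpbSg (fun e => (Sm e).vol) →
      (ivbCf src tgt Sm ω - smpE (fun e => (Sm e).p) (fun ω' => ivbCf src tgt Sm ω')) u v g = 0 := by
    intro u v g hg
    have h1 : ∀ ω' : ∀ e, (Sm e).Pt, ivbCf src tgt Sm ω' u v g = 0 := fun ω' =>
      smpb_supp src tgt (fun e x => ivbW1 ((Sm e).wt x)) (fun e => (Sm e).vol) ω' u v g hg
    simp only [Pi.sub_apply]
    rw [h1 ω, smpb_smpE_apply, smpE_congr _ h1]
    unfold smpE
    simp
  obtain ⟨R, hR⟩ := smpCoefBd_exists_of_finite _ _ hsupp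
  exact hR.hasKer

theorem ivbGY_coef (src tgt : E → V) (Sm : E → IvSampler) (ω : ∀ e, (Sm e).Pt) (a b : V)
    (ha : ∀ e, tgt e ≠ a) (g : InjHeis) :
    (ivbCf src tgt Sm ω - smpE (fun e => (Sm e).p) (fun ω' => ivbCf src tgt Sm ω')) (a, ()) (b, ()) g
      = ∑ e, if src e = a ∧ tgt e = b then
          ((if (Sm e).vol (ω e) = g then (Sm e).wt (ω e) else 0) - (Sm e).mean g) else 0 := by
  have hE := smpE_smpCoef src tgt (fun e => (Sm e).p) (fun e => ivb_p_sum (Sm e))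
    (fun e x => ivbW1 ((Sm e).wt x)) (fun e => (Sm e).vol) (a, ()) (b, ()) g
  simp only [Pi.sub_apply]
  have hE' : smpE (fun e => (Sm e).p) (fun ω' => ivbCf src tgt Sm ω') (a, ()) (b, ()) g = _ := hE
  rw [hE']
  unfold ivbCf smpCoef
  rw [← Finset.sum_sub_distrib]
  refine Finset.sum_congr rfl fun e _ => ?_
  have hne : ¬ tgt e = a := ha e
  simp only [hne, false_and, if_false, add_zero]
  by_cases h : src e = a ∧ tgt e = b
  · rw [if_pos h, if_pos h, ivb_mean_apply]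
    simp only [h.1, h.2, true_and, ivbW1, Matrix.of_apply, mul_ite, mul_zero]
  · rw [if_neg h, if_neg h, if_neg (fun h' => h ⟨h'.1, h'.2.1⟩), sub_zero]

end Claimed.Agent.R300
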