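/-
Row 300 / S0553, IV-B package R5a (IVB-BLKK): the block of the global operator is a compression of `ivbY / q`.  Sub-captain: helper128.
PLAN.  `Sg := smpConv c`, `c := injSampCoef ..`.  By cases on `∃ T, SmpHasKer T (smpConvK c)`: if not, `smpConv c = smpKer _ = 0` (unfold, `dif_neg`)
and the claim is trivial; otherwise `SmpHasKer (smpConv c) (smpConvK c)` (`SmpHasKer.eq_smpKer`), and `SmpHasKer.restr` gives the matrix of the block.
Apply `ivb_norm_le_of_sub` with `φ (f,(v,())) = (f, v.1)`, `A' = {x | X.sd x.2.1 = false}`, `B' = {y | X.sd y.2.1 = true}`, `T = ivbY ..`,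
`c = (q : ℂ)⁻¹`.  `h0`: `injSampCoef v w h` is a `finsum` over an empty type unless there is `e : v ⟶ w` of type `τ`; then `e ∈ ivbEb` (`ivbEb_mem`, `ht v = i`),
so `v, w ∈ ivbVb`, `sd v = false`, `sd w = true`.  `h1`: `ivbGY_hasKer`, `ivbGY_coef` (an `𝒜` vertex is no target), and the `finsum` over
`{e // src e = v ∧ tgt e = w ∧ ety e = τ}` equals the sum over `e : ↥(ivbEb X τ i)` with `if` (`finsum_eq_sum_of_fintype`/`Finset.sum_subtype`-type bookkeeping;
`ivbSm X S e = S τ i` along `ivbEb_spec`, needed only for `mean`: `(S (ety e) (ht (src e))).mean = (S τ (ht v)).mean`).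
Proof: helper20.
-/
import Mathlib
import Claimed.Agent.R300.IvbKer
import Claimed.Agent.R300.IvbBlkG

set_option autoImplicit false

namespace Claimed.Agent.R300

open HeisLaw

variable {p : Lab.Par}

/-- a nonzero coefficient comes from an edge -/
theorem ivbk_coef_ne (X : InjGr p) (τ : Fin p.T) (vol : X.E → InjHeis) (wt : X.E → ℂ)
    (m : ℕ → InjHeis → ℂ) (v w : X.V) (h : InjHeis) (hne : injSampCoef X τ vol wt m v w h ≠ 0) :
    ∃ e, X.src e = v ∧ X.tgt e = w ∧ X.ety e = τ := by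
  by_contra hcon
  push Not at hcon
  apply hne
  have : IsEmpty {e // X.src e = v ∧ X.tgt e = w ∧ X.ety e = τ} :=
    ⟨fun e => hcon e.1 e.2.1 e.2.2.1 e.2.2.2⟩
  unfold injSampCoef
  exact finsum_of_isEmpty _

/-- the coefficient as a sum over the finite block -/
theorem ivbk_coef_eq (X : InjGr p) (hS : X.Str) (τ : Fin p.T) (i : ℕ) (vol : X.E → InjHeis)
    (wt : X.E → ℂ) (m : ℕ → InjHeis → ℂ) (v w : X.V) (hv : X.ht v = i) (h : InjHeis) :
    injSampCoef X τ vol wt m v w h = (InjGr.qq p τ : ℂ)⁻¹ *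
      ∑ e : ↥(ivbEb X τ i), if X.src e = v ∧ X.tgt e = w then
        ((if vol e = h then wt e else 0) - m (X.ht v) h) else 0 := by
  classical
  unfold injSampCoef
  rw [finsum_subtype_eq_finsum_cond
    (f := fun e : X.E => ((if vol e = h then wt e else 0) - m (X.ht v) h) / (InjGr.qq p τ : ℂ))
    (fun e => X.src e = v ∧ X.tgt e = w ∧ X.ety e = τ)]
  rw [finsum_cond_eq_sum_of_cond_iff
    (fun e : X.E => ((if vol e = h then wt e else 0) - m (X.ht v) h) / (InjGr.qq p τ : ℂ))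
    (p := fun e => X.src e = v ∧ X.tgt e = w ∧ X.ety e = τ)
    (t := (ivbEb X τ i).filter (fun e => X.src e = v ∧ X.tgt e = w))]
  · rw [Finset.sum_filter, Finset.mul_sum,
      Finset.sum_coe_sort (ivbEb X τ i) (fun e => (InjGr.qq p τ : ℂ)⁻¹ *
        if X.src e = v ∧ X.tgt e = w then
          ((if vol e = h then wt e else 0) - m (X.ht v) h) else 0)]
    refine Finset.sum_congr rfl fun e _ => ?_
    split_ifs <;> simp [div_eq_inv_mul]
  · intro e _
    rw [Finset.mem_filter, ivbEb_mem X hS]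
    constructor
    · rintro ⟨h1, h2, h3⟩
      exact ⟨⟨h3, by rw [h1]; exact hv⟩, h1, h2⟩
    · rintro ⟨⟨h3, _⟩, h1, h2⟩
      exact ⟨h1, h2, h3⟩

/-- the embedding of the block coordinates -/
def ivbkPhi (X : InjGr p) (τ : Fin p.T) (i : ℕ) (x : InjHeis × (↥(ivbVb X τ i) × Unit)) :
    InjHeis × X.V := (x.1, x.2.1.1)

theorem ivbkPhi_inj (X : InjGr p) (τ : Fin p.T) (i : ℕ) : Function.Injective (ivbkPhi X τ i) := by
  rintro ⟨f, ⟨v, hv⟩, ⟨⟩⟩ ⟨f', ⟨v', hv'⟩, ⟨⟩⟩ h
  simp only [ivbkPhi, Prod.mk.injEq] at h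
  obtain ⟨rfl, rfl⟩ := h
  rfl

/-- an `𝒜` vertex of the block is a source, of height `i` -/
theorem ivbk_ht_src (X : InjGr p) (hS : X.Str) (τ : Fin p.T) (i : ℕ) (v : ↥(ivbVb X τ i))
    (hv : X.sd v.1 = false) : X.ht v.1 = i := by
  have hmem := v.2
  unfold ivbVb at hmem
  rcases Finset.mem_union.1 hmem with h | h
  · obtain ⟨e, he, hev⟩ := Finset.mem_image.1 h
    rw [← hev]
    exact (ivbEb_spec X τ i he).2
  · obtain ⟨e, _, hev⟩ := Finset.mem_image.1 h
    rw [← hev, hS.sd_tgt] at hv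
    exact absurd hv (by decide)

/-- a `ℬ` vertex of the block is a target, of height `i + off τ` -/
theorem ivbk_ht_tgt (X : InjGr p) (hS : X.Str) (τ : Fin p.T) (i : ℕ) (v : ↥(ivbVb X τ i))
    (hv : X.sd v.1 = true) : (X.ht v.1 : ℤ) - injOff (p.off τ) = i := by
  have hmem := v.2
  unfold ivbVb at hmem
  rcases Finset.mem_union.1 hmem with h | h
  · obtain ⟨e, _, hev⟩ := Finset.mem_image.1 h
    rw [← hev, hS.sd_src] at hv
    exact absurd hv (by decide)
  · obtain ⟨e, he, hev⟩ := Finset.mem_image.1 h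
    obtain ⟨h1, h2⟩ := ivbEb_spec X τ i he
    rw [← hev, hS.ht_edge, h1, h2]
    ring

theorem ivb_block_le (X : InjGr p) (hS : X.Str) (S : Fin p.T → ℕ → IvSampler) (τ : Fin p.T) (i : ℕ)
    (ω : ∀ e, (ivbSm X S e).Pt) :
    ‖scRestr {x : InjHeis × X.V | (X.ht x.2 : ℤ) = i} ∘L
        smpConv (injSampCoef X τ (fun e => (ivbSm X S e).vol (ω e))
          (fun e => (ivbSm X S e).wt (ω e)) (fun i => (S τ i).mean)) ∘L
        scRestr {y : InjHeis × X.V | (X.ht y.2 : ℤ) - injOff (p.off τ) = i}‖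
      ≤ ‖ivbY X S τ i (fun e => ω e)‖ / InjGr.qq p τ := by
  set c := injSampCoef X τ (fun e => (ivbSm X S e).vol (ω e))
          (fun e => (ivbSm X S e).wt (ω e)) (fun i => (S τ i).mean) with hc
  have hq0 : 0 ≤ InjGr.qq p τ := Real.sqrt_nonneg _
  by_cases hex : ∃ T : ScL2 (InjHeis × X.V) →L[ℂ] ScL2 (InjHeis × X.V), SmpHasKer T (smpConvK c)
  swap
  · have h0 : smpConv c = 0 := by
      unfold smpConv smpKer
      rw [dif_neg hex]
    rw [h0]
    simp only [ContinuousLinearMap.zero_comp, ContinuousLinearMap.comp_zero, norm_zero]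
    positivity
  obtain ⟨T0, hT0⟩ := hex
  have hK : SmpHasKer (smpConv c) (smpConvK c) := by
    unfold smpConv
    rw [hT0.eq_smpKer]
    exact hT0
  have hBlk := hK.restr {x : InjHeis × X.V | (X.ht x.2 : ℤ) = i}
    {y : InjHeis × X.V | (X.ht y.2 : ℤ) - injOff (p.off τ) = i}
  have key := ivb_norm_le_of_sub (ivbkPhi X τ i) (ivbkPhi_inj X τ i)
    {x | X.sd x.2.1.1 = false} {y | X.sd y.2.1.1 = true}
    (scRestr {x : InjHeis × X.V | (X.ht x.2 : ℤ) = i} ∘L smpConv c ∘L
        scRestr {y : InjHeis × X.V | (X.ht y.2 : ℤ) - injOff (p.off τ) = i})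
    (ivbY X S τ i (fun e => ω e)) ((InjGr.qq p τ : ℂ)⁻¹) ?_ ?_
  · refine key.trans (le_of_eq ?_)
    rw [norm_inv, Complex.norm_real, Real.norm_of_nonneg hq0, div_eq_inv_mul]
  · -- vanishing outside of the block
    intro x y hxy
    rw [hBlk x y]
    by_contra hne
    apply hxy
    beta_reduce at hne
    split_ifs at hne with hmem
    swap
    · exact absurd rfl hne
    have hne' : c x.2 y.2 (x.1⁻¹ * y.1) ≠ 0 := hne
    rw [hc] at hne'
    obtain ⟨e, he1, he2, he3⟩ := ivbk_coef_ne X τ _ _ _ x.2 y.2 _ hne'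
    have hxi : X.ht x.2 = i := by exact_mod_cast hmem.1
    have heb : e ∈ ivbEb X τ i := (ivbEb_mem X hS τ i e).2 ⟨he3, by rw [he1]; exact hxi⟩
    constructor
    · refine ⟨(x.1, (⟨x.2, ?_⟩, ())), ?_, rfl⟩
      · rw [← he1]
        exact Finset.mem_union_left _ (Finset.mem_image_of_mem _ heb)
      · show X.sd x.2 = false
        rw [← he1]
        exact hS.sd_src e
    · refine ⟨(y.1, (⟨y.2, ?_⟩, ())), ?_, rfl⟩
      · rw [← he2]
        exact Finset.mem_union_right _ (Finset.mem_image_of_mem _ heb)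
      · show X.sd y.2 = true
        rw [← he2]
        exact hS.sd_tgt e
  · -- the matrix on the block
    rintro ⟨f, va, ⟨⟩⟩ ha ⟨f', vb, ⟨⟩⟩ hb
    have ha' : X.sd va.1 = false := ha
    have hb' : X.sd vb.1 = true := hb
    have hva : X.ht va.1 = i := ivbk_ht_src X hS τ i va ha'
    have hvb : (X.ht vb.1 : ℤ) - injOff (p.off τ) = i := ivbk_ht_tgt X hS τ i vb hb'
    rw [hBlk]
    beta_reduce
    have hmem : ivbkPhi X τ i (f, va, ()) ∈ {x : InjHeis × X.V | (X.ht x.2 : ℤ) = i} ∧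
        ivbkPhi X τ i (f', vb, ()) ∈
          {y : InjHeis × X.V | (X.ht y.2 : ℤ) - injOff (p.off τ) = i} :=
      ⟨by show (X.ht va.1 : ℤ) = i; exact_mod_cast hva, hvb⟩
    rw [if_pos hmem]
    have hT := ivbGY_hasKer (ivbSrc X τ i) (ivbTgt X τ i)
      (fun e : ↥(ivbEb X τ i) => ivbSm X S e) (fun e => ω e) (f, va, ()) (f', vb, ())
    have hT' : ivbY X S τ i (fun e => ω e) (scDelta (f', vb, ())) (f, va, ()) = _ := hT
    rw [hT']
    show c va.1 vb.1 (f⁻¹ * f') = _
    unfold smpConvK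
    rw [ivbGY_coef (ivbSrc X τ i) (ivbTgt X τ i) (fun e : ↥(ivbEb X τ i) => ivbSm X S e)
      (fun e => ω e) va vb (fun e he => by
        have h1 : X.sd (X.tgt e.1) = false := by
          have := congrArg Subtype.val he
          rw [show (ivbTgt X τ i e).1 = X.tgt e.1 from rfl] at this
          rw [this]; exact ha'
        rw [hS.sd_tgt] at h1
        exact absurd h1 (by decide)), hc, ivbk_coef_eq X hS τ i _ _ _ va.1 vb.1 hva]
    congr 1
    refine Finset.sum_congr rfl fun e _ => ?_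
    have hiff : (ivbSrc X τ i e = va ∧ ivbTgt X τ i e = vb) ↔ (X.src e.1 = va.1 ∧ X.tgt e.1 = vb.1) := by
      rw [Subtype.ext_iff, Subtype.ext_iff]
      rfl
    by_cases hcond : X.src e.1 = va.1 ∧ X.tgt e.1 = vb.1
    · rw [if_pos hcond, if_pos (hiff.2 hcond)]
      have hmean : (ivbSm X S e.1).mean = (S τ (X.ht va.1)).mean := by
        show (S (X.ety e.1) (X.ht (X.src e.1))).mean = _
        rw [(ivbEb_spec X τ i e.2).1, hcond.1]
      rw [hmean]
    · rw [if_neg hcond, if_neg (fun h => hcond (hiff.1 h))]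

end Claimed.Agent.R300
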