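/-
Row 300 / S0553, IV-B package R3 (IVB-COUNT): number of short closed walks based at height `i`.  Sub-captain: helper128.
PLAN.  `ivb_walks_le`: induction on `r` (a walk is `[]` or `d :: w'`, at most `Δ` darts `d`).
`ivb_deg_le`: darts at `x` are `(e,false)` with `src e = x` or `(e,true)` with `tgt e = x`; by `Str.sd_src/sd_tgt` only one kind
occurs; split by the type `τ`; the subtypes of `DegLe` are finite (`fold_src/fold_tgt`, `fin_lb`), `dA, dB ≤ 2^b D`.
`ivb_layer_le`: two layers (`sd = false, true`), `fin_layer`, `CardLe`.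
`ivb_walk_count`: fibre over the base point; `r ≤ 603 H_i / (100 lq)`, `Δ + 1 ≤ 2 ^ (61 s / 100)`; with `s = 20000 u`:
`H_i + s + 1 + 12200 u r ≤ 9 H_i` because `1000100 u r ≤ 603 H_i` and `3 s ≤ H_i`.
-/
import Mathlib
import Claimed.Agent.R300.IvbDefs

set_option autoImplicit false

namespace Claimed.Agent.R300

open HeisLaw

theorem ivb_walks_le {V D : Type} (G : HlGraph V D) (Δ : ℕ)
    (hΔ : ∀ (x : V) (T : Finset D), (∀ d ∈ T, G.src d = x) → T.card ≤ Δ) (r : ℕ) (a : V)
    (F : Finset (List D)) (hF : ∀ w ∈ F, w.length ≤ r ∧ ∃ c, G.IsWalk a w c) :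
    F.card ≤ (Δ + 1) ^ r := by
  classical
  induction r generalizing a F with
  | zero =>
    have h1 : F ⊆ {[]} := by
      intro w hw
      rw [Finset.mem_singleton]
      exact List.length_eq_zero_iff.1 (Nat.le_zero.1 (hF w hw).1)
    simpa using Finset.card_le_card h1
  | succ r ih =>
    set T : Finset D := (F.image List.head?).eraseNone with hT
    have hTcard : T.card ≤ Δ := by
      refine hΔ a T fun d hd => ?_
      rw [hT, Finset.mem_eraseNone, Finset.mem_image] at hd
      obtain ⟨w, hw, hwd⟩ := hd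
      obtain ⟨_, c, hc⟩ := hF w hw
      cases w with
      | nil => simp at hwd
      | cons d' w' =>
        simp only [List.head?_cons, Option.some.injEq] at hwd
        subst hwd
        exact hc.1
    have hmaps : ∀ w ∈ F, List.head? w ∈ insert none (T.image some) := by
      intro w hw
      cases w with
      | nil => exact Finset.mem_insert_self _ _
      | cons d' w' =>
        refine Finset.mem_insert_of_mem (Finset.mem_image.2 ⟨d', ?_, rfl⟩)
        rw [hT, Finset.mem_eraseNone, Finset.mem_image]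
        exact ⟨d' :: w', hw, rfl⟩
    have hfib : ∀ b ∈ insert none (T.image some),
        (F.filter (fun w => List.head? w = b)).card ≤ (Δ + 1) ^ r := by
      intro b hb
      rcases Finset.mem_insert.1 hb with rfl | hb
      · have h1 : F.filter (fun w => List.head? w = none) ⊆ {[]} := by
          intro w hw
          rw [Finset.mem_singleton]
          exact List.head?_eq_none_iff.1 (Finset.mem_filter.1 hw).2
        refine (Finset.card_le_card h1).trans ?_
        rw [Finset.card_singleton]
        exact Nat.one_le_pow _ _ (Nat.succ_pos _)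
      · obtain ⟨d, _, rfl⟩ := Finset.mem_image.1 hb
        have hinj : Set.InjOn List.tail (F.filter (fun w => List.head? w = some d) : Set (List D)) := by
          intro w hw w' hw' hww
          have h1 := (Finset.mem_filter.1 (Finset.mem_coe.1 hw)).2
          have h2 := (Finset.mem_filter.1 (Finset.mem_coe.1 hw')).2
          cases w with
          | nil => simp at h1
          | cons x l =>
            cases w' with
            | nil => simp at h2
            | cons x' l' =>
              simp only [List.head?_cons, Option.some.injEq] at h1 h2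
              simp only [List.tail_cons] at hww
              rw [h1, h2, hww]
        rw [← Finset.card_image_of_injOn hinj]
        refine ih (G.tgt d) _ fun w' hw' => ?_
        obtain ⟨w, hw, rfl⟩ := Finset.mem_image.1 hw'
        obtain ⟨hwF, hwd⟩ := Finset.mem_filter.1 hw
        obtain ⟨hlen, c, hc⟩ := hF w hwF
        cases w with
        | nil => simp at hwd
        | cons x l =>
          simp only [List.head?_cons, Option.some.injEq] at hwd
          subst hwd
          simp only [List.length_cons, Nat.add_le_add_iff_right] at hlen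
          exact ⟨hlen, c, hc.2⟩
    have h3 := Finset.card_le_mul_card_image_of_maps_to hmaps ((Δ + 1) ^ r) hfib
    have h4 : (insert none (T.image some)).card ≤ Δ + 1 := by
      refine (Finset.card_insert_le _ _).trans ?_
      rw [Finset.card_image_of_injective _ (Option.some_injective D)]
      omega
    calc F.card ≤ (Δ + 1) ^ r * (insert none (T.image some)).card := h3
      _ ≤ (Δ + 1) ^ r * (Δ + 1) := Nat.mul_le_mul_left _ h4
      _ = (Δ + 1) ^ (r + 1) := (pow_succ _ _).symm

/-- a finset inside a finite subtype -/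
theorem ivbct_card_le_natCard {α : Type} (P : α → Prop) [Finite {a // P a}] (U : Finset α)
    (hU : ∀ a ∈ U, P a) : U.card ≤ Nat.card {a // P a} := by
  have h1 : Nat.card ↥U ≤ Nat.card {a // P a} :=
    Nat.card_le_card_of_injective (fun a : ↥U => (⟨a.1, hU a.1 a.2⟩ : {a // P a}))
      (fun a b h => Subtype.ext (congrArg (fun z : {a // P a} => z.1) h))
  rwa [Nat.card_eq_fintype_card, Fintype.card_coe] at h1

variable {p : Lab.Par}

/-- edges at `x` (through the end map `f`) of one type -/
theorem ivbct_fibre (X : InjGr p) (f : X.E → X.V)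
    (hfold : ∀ e e', f e = f e' → X.lab e = X.lab e' → e = e') (hfin : Finite X.Lb) (x : X.V)
    (τ : Fin p.T) (n : ℕ) (hn : Nat.card {e // f e = x ∧ X.ety e = τ} ≤ n) (U : Finset X.E)
    (hU : ∀ e ∈ U, f e = x ∧ X.ety e = τ) : U.card ≤ n := by
  have : Finite {e // f e = x ∧ X.ety e = τ} :=
    Finite.of_injective (fun e : {e // f e = x ∧ X.ety e = τ} => X.lab e.1)
      (fun e e' h => Subtype.ext (hfold _ _ (e.2.1.trans e'.2.1.symm) h))
  exact (ivbct_card_le_natCard _ U hU).trans hn

theorem ivbct_d_le_D (p : Lab.Par) : p.d ≤ p.D := by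
  unfold Lab.Par.d Lab.Par.D Lab.Par.ld Lab.Par.lD
  exact Nat.pow_le_pow_right (by norm_num) (Nat.div_le_div_right (by omega))

theorem ivbct_dA_le (p : Lab.Par) (τ : Fin p.T) : InjGr.dA p τ ≤ 2 ^ p.b * p.D := by
  unfold InjGr.dA
  rw [mul_comm]
  refine Nat.mul_le_mul ?_ (ivbct_d_le_D p)
  exact Nat.pow_le_pow_right (by norm_num) (by split_ifs <;> omega)

theorem ivbct_dB_le (p : Lab.Par) (τ : Fin p.T) : InjGr.dB p τ ≤ 2 ^ p.b * p.D := by
  unfold InjGr.dB
  rw [mul_comm]
  refine Nat.mul_le_mul ?_ (le_refl _)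
  exact Nat.pow_le_pow_right (by norm_num) (by split_ifs <;> omega)

/-- darts of one orientation `β` at `x` -/
theorem ivbct_deg_side (X : InjGr p) (f : X.E → X.V)
    (hfold : ∀ e e', f e = f e' → X.lab e = X.lab e' → e = e') (hfin : Finite X.Lb) (x : X.V)
    (hn : ∀ τ, Nat.card {e // f e = x ∧ X.ety e = τ} ≤ 2 ^ p.b * p.D) (β : Bool)
    (Tt : Finset (X.E × Bool)) (h : ∀ d ∈ Tt, d.2 = β ∧ f d.1 = x) :
    Tt.card ≤ p.T * 2 ^ p.b * p.D := by
  classical
  have hmaps : ∀ d ∈ Tt, X.ety d.1 ∈ (Finset.univ : Finset (Fin p.T)) := fun _ _ => Finset.mem_univ _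
  have hfib : ∀ τ ∈ (Finset.univ : Finset (Fin p.T)),
      (Tt.filter (fun d => X.ety d.1 = τ)).card ≤ 2 ^ p.b * p.D := by
    intro τ _
    have hinj : Set.InjOn Prod.fst (Tt.filter (fun d => X.ety d.1 = τ) : Set (X.E × Bool)) := by
      intro d hd d' hd' hdd
      have h1 := (h d (Finset.mem_filter.1 (Finset.mem_coe.1 hd)).1).1
      have h2 := (h d' (Finset.mem_filter.1 (Finset.mem_coe.1 hd')).1).1
      exact Prod.ext hdd (h1.trans h2.symm)
    rw [← Finset.card_image_of_injOn hinj]
    refine ivbct_fibre X f hfold hfin x τ _ (hn τ) _ fun e he => ?_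
    obtain ⟨d, hd, rfl⟩ := Finset.mem_image.1 he
    exact ⟨(h d (Finset.mem_filter.1 hd).1).2, (Finset.mem_filter.1 hd).2⟩
  have h3 := Finset.card_le_mul_card_image_of_maps_to hmaps _ hfib
  rw [Finset.card_univ, Fintype.card_fin] at h3
  calc Tt.card ≤ 2 ^ p.b * p.D * p.T := h3
    _ = p.T * 2 ^ p.b * p.D := by ring

theorem ivb_deg_le (X : InjGr p) (hS : X.Str) (hD : X.DegLe)
    (x : X.V) (Tt : Finset (X.E × Bool)) (h : ∀ d ∈ Tt, X.dg.src d = x) :
    Tt.card ≤ p.T * 2 ^ p.b * p.D := by
  cases hx : X.sd x with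
  | false =>
    refine ivbct_deg_side X X.src hS.fold_src hS.fin_lb x
      (fun τ => (hD.degA τ x).trans (ivbct_dA_le p τ)) false Tt fun d hd => ?_
    obtain ⟨e, β⟩ := d
    have h1 := h _ hd
    cases β with
    | false => exact ⟨rfl, h1⟩
    | true =>
      have h2 : X.tgt e = x := h1
      have h3 := hS.sd_tgt e
      rw [h2, hx] at h3
      exact absurd h3 (by simp)
  | true =>
    refine ivbct_deg_side X X.tgt hS.fold_tgt hS.fin_lb x
      (fun τ => (hD.degB τ x).trans (ivbct_dB_le p τ)) true Tt fun d hd => ?_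
    obtain ⟨e, β⟩ := d
    have h1 := h _ hd
    cases β with
    | true => exact ⟨rfl, h1⟩
    | false =>
      have h2 : X.src e = x := h1
      have h3 := hS.sd_src e
      rw [h2, hx] at h3
      exact absurd h3 (by simp)

theorem ivb_layer_le (X : InjGr p) (hS : X.Str) (hC : X.CardLe) (i : ℕ) (F : Finset X.V)
    (hF : ∀ v ∈ F, X.ht v = i) : F.card ≤ 2 * 2 ^ (p.H i + p.s) := by
  classical
  have hside : ∀ β : Bool, (F.filter (fun v => X.sd v = β)).card ≤ 2 ^ (p.H i + p.s) := by
    intro β
    have := hS.fin_layer β i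
    refine (ivbct_card_le_natCard (fun v => X.sd v = β ∧ X.ht v = i) _ fun v hv => ?_).trans (hC β i)
    exact ⟨(Finset.mem_filter.1 hv).2, hF v (Finset.mem_filter.1 hv).1⟩
  have hmaps : ∀ v ∈ F, X.sd v ∈ (Finset.univ : Finset Bool) := fun _ _ => Finset.mem_univ _
  have h3 := Finset.card_le_mul_card_image_of_maps_to hmaps _ (fun β _ => hside β)
  rw [Finset.card_univ, Fintype.card_bool] at h3
  rw [mul_comm]
  exact h3

theorem ivb_walk_count (X : InjGr p) (hS : X.Str) (hD : X.DegLe) (hC : X.CardLe) {M η : ℝ}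
    (hp : IvbPar p M η) (i : ℕ) (F : Finset (X.V × List (X.E × Bool)))
    (hF : ∀ k ∈ F, X.ht k.1 = i ∧ ivbCond X k.1 k.2) : F.card ≤ 2 ^ (9 * p.H i) := by
  classical
  obtain ⟨u, hu⟩ := hp.h20000
  have hu1 : 1 ≤ u := by
    have := hp.hs
    omega
  have hlq : p.lq = 10001 * u := by
    unfold Lab.Par.lq
    omega
  have h61 : 61 * p.s / 100 = 12200 * u := by omega
  have hH : 60000 * u ≤ p.H i := by
    unfold Lab.Par.H
    have h1 : 3 * p.s ≤ (2 * p.n0 + 1) * p.s := Nat.mul_le_mul_right _ (by have := hp.hn0; omega)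
    omega
  set Δ : ℕ := p.T * 2 ^ p.b * p.D with hΔ
  set r : ℕ := 603 * p.H i / (100 * p.lq) with hr
  have hlq0 : 0 < 100 * p.lq := by omega
  have hbase : (F.image Prod.fst).card ≤ 2 * 2 ^ (p.H i + p.s) := by
    refine ivb_layer_le X hS hC i _ fun v hv => ?_
    obtain ⟨k, hk, rfl⟩ := Finset.mem_image.1 hv
    exact (hF k hk).1
  have hfib : ∀ a ∈ F.image Prod.fst, (F.filter (fun k => k.1 = a)).card ≤ (Δ + 1) ^ r := by
    intro a _
    have hinj : Set.InjOn Prod.snd (F.filter (fun k => k.1 = a) : Set (X.V × List (X.E × Bool))) := by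
      intro k hk k' hk' hkk
      have h1 := (Finset.mem_filter.1 (Finset.mem_coe.1 hk)).2
      have h2 := (Finset.mem_filter.1 (Finset.mem_coe.1 hk')).2
      exact Prod.ext (h1.trans h2.symm) hkk
    rw [← Finset.card_image_of_injOn hinj]
    refine ivb_walks_le X.dg Δ (fun x T hT => ivb_deg_le X hS hD x T hT) r a _ fun w hw => ?_
    obtain ⟨k, hk, rfl⟩ := Finset.mem_image.1 hw
    obtain ⟨hkF, hka⟩ := Finset.mem_filter.1 hk
    obtain ⟨hht, hwalk, _, _, hlen⟩ := hF k hkF
    rw [hht] at hlen
    rw [hka] at hwalk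
    refine ⟨?_, a, hwalk⟩
    rw [hr, Nat.le_div_iff_mul_le hlq0]
    calc k.2.length * (100 * p.lq) = 100 * (k.2.length * p.lq) := by ring
      _ ≤ 603 * p.H i := hlen
  have h3 := Finset.card_le_mul_card_image_of_maps_to
    (fun k hk => Finset.mem_image_of_mem Prod.fst hk) _ hfib
  have hΔ1 : Δ + 1 ≤ 2 ^ (12200 * u) := by
    have := hp.hdeg
    rw [h61] at this
    omega
  have hrr : 1000100 * (u * r) ≤ 603 * p.H i := by
    have h4 : r * (100 * p.lq) ≤ 603 * p.H i := Nat.div_mul_le_self _ _
    rw [hlq] at h4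
    calc 1000100 * (u * r) = r * (100 * (10001 * u)) := by ring
      _ ≤ 603 * p.H i := h4
  calc F.card ≤ (Δ + 1) ^ r * (F.image Prod.fst).card := h3
    _ ≤ (2 ^ (12200 * u)) ^ r * (2 * 2 ^ (p.H i + p.s)) :=
        Nat.mul_le_mul (Nat.pow_le_pow_left hΔ1 r) hbase
    _ = 2 ^ (12200 * (u * r) + (p.H i + p.s + 1)) := by
        rw [← pow_mul, pow_add (2 : ℕ) (12200 * (u * r)), pow_succ (2 : ℕ) (p.H i + p.s), mul_assoc 12200]
        ring
    _ ≤ 2 ^ (9 * p.H i) := Nat.pow_le_pow_right (by norm_num) (by omega)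

end Claimed.Agent.R300
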