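/-
Row 300 / S0553, IV-B package R6 (IVB-GLOB): globalisation over the heights.  Sub-captain: helper128.
PLAN.  `smp_norm_le_of_blocks` with `Q = ℤ`, `a x = ht x.2`, `b y = ht y.2 - off τ`.  `hS`: by cases on `∃ T, SmpHasKer T (smpConvK c)` (otherwise the
operator is `0`); the matrix entry is `injSampCoef v w _`, a `finsum` over an empty type unless some `e : v ⟶ w` has type `τ`, and then `Str.ht_edge`.
Blocks `j < 0`: `{x | (ht x.2 : ℤ) = j} = ∅`, `scRestr ∅ = 0`.
-/
import Mathlib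
import Claimed.Agent.R300.IvbDefs

set_option autoImplicit false

namespace Claimed.Agent.R300

open HeisLaw

variable {p : Lab.Par}

/-- the coefficient vanishes if no edge of type `τ` joins `v` to `w` -/
theorem ivb_sampCoef_eq_zero (X : InjGr p) (τ : Fin p.T) (vol : X.E → InjHeis) (wt : X.E → ℂ)
    (m : ℕ → InjHeis → ℂ) (v w : X.V) (h : InjHeis)
    (hvw : ∀ e, X.src e = v → X.tgt e = w → X.ety e ≠ τ) : injSampCoef X τ vol wt m v w h = 0 := by
  unfold injSampCoef
  have : IsEmpty {e // X.src e = v ∧ X.tgt e = w ∧ X.ety e = τ} :=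
    ⟨fun e => hvw e.1 e.2.1 e.2.2.1 e.2.2.2⟩
  exact finsum_of_isEmpty _

/-- either `smpConv c` has the matrix `smpConvK c`, or it vanishes -/
theorem ivb_smpConv_cases {G I : Type} [Group G] (c : I → I → G → ℂ) :
    SmpHasKer (smpConv c) (smpConvK c) ∨ smpConv c = 0 := by
  by_cases hk : ∃ T : ScL2 (G × I) →L[ℂ] ScL2 (G × I), SmpHasKer T (smpConvK c)
  · obtain ⟨T, hT⟩ := hk
    left
    have h : smpConv c = T := hT.eq_smpKer
    rw [h]
    exact hT
  · right
    unfold smpConv smpKer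
    rw [dif_neg hk]

theorem ivb_glob (X : InjGr p) (hS : X.Str) (τ : Fin p.T) (vol : X.E → InjHeis) (wt : X.E → ℂ)
    (m : ℕ → InjHeis → ℂ) (η : ℝ) (hη : 0 ≤ η)
    (hblk : ∀ i : ℕ, ‖scRestr {x : InjHeis × X.V | (X.ht x.2 : ℤ) = i} ∘L
        smpConv (injSampCoef X τ vol wt m) ∘L
        scRestr {y : InjHeis × X.V | (X.ht y.2 : ℤ) - injOff (p.off τ) = i}‖ ≤ η) :
    ‖smpConv (injSampCoef X τ vol wt m)‖ ≤ η := by
  set c := injSampCoef X τ vol wt m with hc
  have hent : ∀ x y : InjHeis × X.V, (X.ht x.2 : ℤ) ≠ (X.ht y.2 : ℤ) - injOff (p.off τ) →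
      smpConv c (scDelta y) x = 0 := by
    intro x y hxy
    rcases ivb_smpConv_cases c with hk | hk
    · rw [hk x y]
      unfold smpConvK
      rw [hc]
      refine ivb_sampCoef_eq_zero X τ vol wt m _ _ _ ?_
      intro e h1 h2 h3
      apply hxy
      have h4 := hS.ht_edge e
      rw [h1, h2, h3] at h4
      rw [h4]
      ring
    · rw [hk]
      rfl
  refine smp_norm_le_of_blocks (smpConv c) (fun x => (X.ht x.2 : ℤ))
    (fun y => (X.ht y.2 : ℤ) - injOff (p.off τ)) hent η hη ?_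
  intro j
  by_cases hj : 0 ≤ j
  · obtain ⟨i, rfl⟩ := Int.eq_ofNat_of_zero_le hj
    exact hblk i
  · have h0 : scRestr {x : InjHeis × X.V | (X.ht x.2 : ℤ) = j} = 0 := by
      ext ξ a
      rw [scRestr_apply_not_mem]
      · rfl
      · intro ha
        apply hj
        have ha' : (X.ht a.2 : ℤ) = j := ha
        rw [← ha']
        exact Int.natCast_nonneg _
    rw [h0]
    simpa using hη

end Claimed.Agent.R300
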