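/-
Row 300 / S0553, IV-B package R7 (IVB-SEL): generic summation and countability lemmas for the selection.  Sub-captain: helper128.
-/
import Mathlib
import Claimed.Agent.R300.IvbDefs

set_option autoImplicit false

namespace Claimed.Agent.R300

open HeisLaw

/-- summation of a nonnegative family along a grading with bounded partial sums in every degree -/
theorem ivb_tsum_graded {κ : Type*} (h : κ → ℕ) (ε : κ → ℝ) (hε0 : ∀ k, 0 ≤ ε k) (δ : ℕ → ℝ)
    (hδ : Summable δ)
    (H : ∀ (i : ℕ) (s : Finset κ), (∀ k ∈ s, h k = i) → ∑ k ∈ s, ε k ≤ δ i) :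
    Summable ε ∧ ∑' k, ε k ≤ ∑' i, δ i := by
  classical
  have hδ0 : ∀ i, 0 ≤ δ i := fun i => by
    have := H i ∅ (by simp)
    simpa using this
  have key : ∀ s : Finset κ, ∑ k ∈ s, ε k ≤ ∑' i, δ i := by
    intro s
    rw [← Finset.sum_fiberwise_of_maps_to (s := s) (t := s.image h) (g := h)
      (fun k hk => Finset.mem_image_of_mem h hk)]
    calc ∑ i ∈ s.image h, ∑ k ∈ s with h k = i, ε k
        ≤ ∑ i ∈ s.image h, δ i := by
          refine Finset.sum_le_sum fun i _ => H i _ ?_
          intro k hk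
          exact (Finset.mem_filter.1 hk).2
      _ ≤ ∑' i, δ i := hδ.sum_le_tsum _ (fun i _ => hδ0 i)
  have hs : Summable ε := summable_of_sum_le hε0 key
  exact ⟨hs, hs.tsum_le_of_sum_le key⟩

variable {p : Lab.Par}

theorem ivb_countable_V (X : InjGr p) (hS : X.Str) : Countable X.V := by
  have hfin : ∀ q : Bool × ℕ, Finite {v : X.V // (fun v => (X.sd v, X.ht v)) v = q} := by
    rintro ⟨s, i⟩
    have := hS.fin_layer s i
    refine Finite.of_injective
      (fun v : {v : X.V // (fun v => (X.sd v, X.ht v)) v = (s, i)} =>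
        (⟨v.1, (Prod.ext_iff.1 v.2).1, (Prod.ext_iff.1 v.2).2⟩ :
          {v // X.sd v = s ∧ X.ht v = i})) ?_
    intro v w hvw
    exact Subtype.ext (congrArg (fun z => z.1) hvw)
  have hc : Countable (Σ q : Bool × ℕ, {v : X.V // (fun v => (X.sd v, X.ht v)) v = q}) :=
    inferInstance
  exact (Equiv.sigmaFiberEquiv (fun v : X.V => (X.sd v, X.ht v))).symm.injective.countable

theorem ivb_countable_E (X : InjGr p) (hS : X.Str) : Countable X.E := by
  have := ivb_countable_V X hS
  have := hS.fin_lb
  refine Function.Injective.countable (f := fun e : X.E => (X.src e, X.lab e)) ?_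
  intro e e' h
  exact hS.fold_src e e' (Prod.ext_iff.1 h).1 (Prod.ext_iff.1 h).2

end Claimed.Agent.R300
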