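/-
Row 300 / S0553, IV-B package R1 (IVB-POLY): polynomial detector for the Heisenberg holonomy.  Sub-captain: helper128.
PLAN.  For a list `W` of darts define recursively three polynomials `(PA, PB, PC)` in `MvPolynomial (E × Fin 3) ℤ`:
generic voltage of `e` = `(X (e,1), X (e,2), X (e,0) + X (e,1) X (e,2))`, inverse `(-a, -b, -c + a b)`,
product `(a + a', b + b', c + c' + a b')`.  `eval u (P* W)` = coordinates of the product (induction on `W`);
`totalDegree PA, PB ≤ 1`, `totalDegree PC ≤ 2`.  `ψ e = ivVol (c - a b) a b`, so not all three vanish.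
-/
import Mathlib
import Claimed.Agent.R300.IvbDefs

set_option autoImplicit false

namespace Claimed.Agent.R300

open MvPolynomial in
/-- the three coordinates of the generic voltage of a dart -/
noncomputable def ivbpD {E : Type} (d : E × Bool) :
    MvPolynomial (E × Fin 3) ℤ × MvPolynomial (E × Fin 3) ℤ × MvPolynomial (E × Fin 3) ℤ :=
  if d.2 then (-X (d.1, 1), -X (d.1, 2), -X (d.1, 0))
  else (X (d.1, 1), X (d.1, 2), X (d.1, 0) + X (d.1, 1) * X (d.1, 2))

/-- the three coordinates of the generic holonomy -/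
noncomputable def ivbpL {E : Type} : List (E × Bool) →
    MvPolynomial (E × Fin 3) ℤ × MvPolynomial (E × Fin 3) ℤ × MvPolynomial (E × Fin 3) ℤ
  | [] => (0, 0, 0)
  | d :: W => ((ivbpD d).1 + (ivbpL W).1, (ivbpD d).2.1 + (ivbpL W).2.1,
      (ivbpD d).2.2 + (ivbpL W).2.2 + (ivbpD d).1 * (ivbpL W).2.1)

theorem ivbpD_eval {E : Type} (u : E × Fin 3 → ℤ) (d : E × Bool) :
    MvPolynomial.eval u (ivbpD d).1 =
        (ivbDvol (fun e => ivVol (u (e, 0)) (u (e, 1)) (u (e, 2))) d).a ∧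
    MvPolynomial.eval u (ivbpD d).2.1 =
        (ivbDvol (fun e => ivVol (u (e, 0)) (u (e, 1)) (u (e, 2))) d).b ∧
    MvPolynomial.eval u (ivbpD d).2.2 =
        (ivbDvol (fun e => ivVol (u (e, 0)) (u (e, 1)) (u (e, 2))) d).c := by
  obtain ⟨e, s⟩ := d
  cases s
  · simp [ivbpD, ivbDvol, ivVol]
  · simp [ivbpD, ivbDvol, ivVol]

theorem ivbpL_eval {E : Type} (u : E × Fin 3 → ℤ) (W : List (E × Bool)) :
    MvPolynomial.eval u (ivbpL W).1 =
        ((W.map (ivbDvol fun e => ivVol (u (e, 0)) (u (e, 1)) (u (e, 2)))).prod).a ∧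
    MvPolynomial.eval u (ivbpL W).2.1 =
        ((W.map (ivbDvol fun e => ivVol (u (e, 0)) (u (e, 1)) (u (e, 2)))).prod).b ∧
    MvPolynomial.eval u (ivbpL W).2.2 =
        ((W.map (ivbDvol fun e => ivVol (u (e, 0)) (u (e, 1)) (u (e, 2)))).prod).c := by
  induction W with
  | nil => simp [ivbpL]
  | cons d W ih =>
    obtain ⟨h1, h2, h3⟩ := ih
    obtain ⟨g1, g2, g3⟩ := ivbpD_eval u d
    simp only [ivbpL, List.map_cons, List.prod_cons, InjHeis.mul_a, InjHeis.mul_b, InjHeis.mul_c,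
      map_add, map_mul, h1, h2, h3, g1, g2, g3]
    exact ⟨trivial, trivial, trivial⟩

theorem ivbpD_deg {E : Type} (d : E × Bool) :
    (ivbpD d).1.totalDegree ≤ 1 ∧ (ivbpD d).2.1.totalDegree ≤ 1 ∧
      (ivbpD d).2.2.totalDegree ≤ 2 := by
  obtain ⟨e, s⟩ := d
  have hX : ∀ j : Fin 3, (MvPolynomial.X (e, j) : MvPolynomial (E × Fin 3) ℤ).totalDegree = 1 :=
    fun j => MvPolynomial.totalDegree_X _
  cases s
  · refine ⟨(hX 1).le, (hX 2).le, ?_⟩
    show (MvPolynomial.X (e, 0) + MvPolynomial.X (e, 1) * MvPolynomial.X (e, 2) :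
      MvPolynomial (E × Fin 3) ℤ).totalDegree ≤ 2
    refine (MvPolynomial.totalDegree_add _ _).trans (max_le ?_ ?_)
    · rw [hX]
      norm_num
    · refine (MvPolynomial.totalDegree_mul _ _).trans ?_
      rw [hX, hX]
  · refine ⟨?_, ?_, ?_⟩
    · show (-MvPolynomial.X (e, 1) : MvPolynomial (E × Fin 3) ℤ).totalDegree ≤ 1
      rw [MvPolynomial.totalDegree_neg, hX]
    · show (-MvPolynomial.X (e, 2) : MvPolynomial (E × Fin 3) ℤ).totalDegree ≤ 1
      rw [MvPolynomial.totalDegree_neg, hX]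
    · show (-MvPolynomial.X (e, 0) : MvPolynomial (E × Fin 3) ℤ).totalDegree ≤ 2
      rw [MvPolynomial.totalDegree_neg, hX]
      norm_num

theorem ivbpL_deg {E : Type} (W : List (E × Bool)) :
    (ivbpL W).1.totalDegree ≤ 1 ∧ (ivbpL W).2.1.totalDegree ≤ 1 ∧
      (ivbpL W).2.2.totalDegree ≤ 2 := by
  induction W with
  | nil => simp [ivbpL]
  | cons d W ih =>
    obtain ⟨h1, h2, h3⟩ := ih
    obtain ⟨g1, g2, g3⟩ := ivbpD_deg d
    refine ⟨?_, ?_, ?_⟩
    · exact (MvPolynomial.totalDegree_add _ _).trans (max_le g1 h1)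
    · exact (MvPolynomial.totalDegree_add _ _).trans (max_le g2 h2)
    · refine (MvPolynomial.totalDegree_add _ _).trans (max_le ?_ ?_)
      · exact (MvPolynomial.totalDegree_add _ _).trans (max_le g3 h3)
      · refine (MvPolynomial.totalDegree_mul _ _).trans ?_
        omega

theorem ivb_detector {E : Type} (W : List (E × Bool)) (ψ : E → InjHeis)
    (hψ : (W.map (ivbDvol ψ)).prod ≠ 1) :
    ∃ P : MvPolynomial (E × Fin 3) ℤ, P ≠ 0 ∧ P.totalDegree ≤ 2 ∧
      ∀ u : E × Fin 3 → ℤ,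
        (W.map (ivbDvol fun e => ivVol (u (e, 0)) (u (e, 1)) (u (e, 2)))).prod = 1 →
        MvPolynomial.eval u P = 0 := by
  -- the point of the parameter space that realises `ψ`
  let u0 : E × Fin 3 → ℤ := fun x =>
    if x.2 = 0 then (ψ x.1).c - (ψ x.1).a * (ψ x.1).b else if x.2 = 1 then (ψ x.1).a else (ψ x.1).b
  have hu0 : (fun e => ivVol (u0 (e, 0)) (u0 (e, 1)) (u0 (e, 2))) = ψ := by
    funext e
    ext <;> simp [ivVol, u0]
  obtain ⟨e1, e2, e3⟩ := ivbpL_eval u0 W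
  rw [hu0] at e1 e2 e3
  obtain ⟨d1, d2, d3⟩ := ivbpL_deg W
  have hne : ((W.map (ivbDvol ψ)).prod).a ≠ 0 ∨ ((W.map (ivbDvol ψ)).prod).b ≠ 0 ∨
      ((W.map (ivbDvol ψ)).prod).c ≠ 0 := by
    by_contra h
    push Not at h
    exact hψ (InjHeis.ext h.1 h.2.1 h.2.2)
  rcases hne with h | h | h
  · refine ⟨(ivbpL W).1, ?_, d1.trans (by norm_num), fun u hu => ?_⟩
    · intro h0
      rw [h0, map_zero] at e1
      exact h e1.symm
    · rw [(ivbpL_eval u W).1, hu]
      rfl
  · refine ⟨(ivbpL W).2.1, ?_, d2.trans (by norm_num), fun u hu => ?_⟩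
    · intro h0
      rw [h0, map_zero] at e2
      exact h e2.symm
    · rw [(ivbpL_eval u W).2.1, hu]
      rfl
  · refine ⟨(ivbpL W).2.2, ?_, d3, fun u hu => ?_⟩
    · intro h0
      rw [h0, map_zero] at e3
      exact h e3.symm
    · rw [(ivbpL_eval u W).2.2, hu]
      rfl

end Claimed.Agent.R300
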