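/-
Row 300 / S0553, IV-B package R2 (IVB-HOL): probability that one holonomy is trivial.  Sub-captain: helper128.
Proof: helper295 (no open hole in this file).
PLAN.  `P` from `ivb_detector`.  `smpP_eq`, `smpE_regroup` with `Θ e s = ↥(((Sm e).law s).S)`, `r e s k = ((Sm e).law s).w k`
((Sm e).Pt, (Sm e).p unfold to the product form), `smpP_mono` to the event `eval (fun j => (ω j : ℤ)) P = 0`,
`smp_poly_atom` (index `E × Fin 3`, `X j a = (a : ℤ)`; an atom is one point; `hp1` = `IvLaw.sum_one` with `Finset.sum_coe_sort`).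
-/
import Mathlib
import Claimed.Agent.R300.IvbPoly

set_option autoImplicit false

namespace Claimed.Agent.R300

/-- an atom of a law is one point -/
theorem ivbhol_atom (L : IvLaw) (κ : ℝ) (hκ0 : 0 ≤ κ) (hκ : ∀ k, L.w k ≤ κ) (c : ℤ) :
    ∑ a ∈ Finset.univ.filter (fun a : ↥L.S => (a : ℤ) = c), L.w a ≤ κ := by
  classical
  by_cases hc : c ∈ L.S
  · have e : (Finset.univ.filter fun a : ↥L.S => (a : ℤ) = c) = {⟨c, hc⟩} := by
      ext a
      simp only [Finset.mem_filter, Finset.mem_univ, true_and, Finset.mem_singleton]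
      exact ⟨fun h => Subtype.ext h, fun h => by rw [h]⟩
    rw [e, Finset.sum_singleton]
    exact hκ c
  · have e : (Finset.univ.filter fun a : ↥L.S => (a : ℤ) = c) = ∅ := by
      ext a
      simp only [Finset.mem_filter, Finset.mem_univ, true_and, Finset.notMem_empty, iff_false]
      intro h
      exact hc (h ▸ a.2)
    rw [e, Finset.sum_empty]
    exact hκ0

theorem ivb_hol_prob {E : Type} [Fintype E] [DecidableEq E] (Sm : E → IvSampler) (κ : ℝ)
    (hκ : ∀ e s k, ((Sm e).law s).w k ≤ κ) (W : List (E × Bool)) (ψ : E → InjHeis)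
    (hψ : (W.map (ivbDvol ψ)).prod ≠ 1) :
    smpP (fun e => (Sm e).p)
      (fun ω => (W.map (ivbDvol fun e => (Sm e).vol (ω e))).prod = 1) ≤ 2 * κ := by
  classical
  obtain ⟨P, hP0, hdeg, hP⟩ := ivb_detector W ψ hψ
  -- `κ ≥ 0`
  have hκ0 : 0 ≤ κ := by
    cases W with
    | nil => exact absurd rfl hψ
    | cons d W' => exact (((Sm d.1).law 0).nonneg 0).trans (hκ d.1 0 0)
  -- regrouping
  have h1 := smpE_regroup (ι := E) (σ := Fin 3) (Θ := fun e s => ↥(((Sm e).law s).S))
    (fun e s k => ((Sm e).law s).w k)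
    (fun ω => if (W.map (ivbDvol fun e => (Sm e).vol (ω e))).prod = 1 then (1 : ℝ) else 0)
  have h2 : smpP (fun e => (Sm e).p)
      (fun ω => (W.map (ivbDvol fun e => (Sm e).vol (ω e))).prod = 1) =
      smpP (ι := E × Fin 3) (Ω := fun j => ↥(((Sm j.1).law j.2).S))
        (fun j k => ((Sm j.1).law j.2).w k)
        (fun ω => (W.map (ivbDvol fun e => (Sm e).vol (fun s => ω (e, s)))).prod = 1) := by
    rw [smpP_eq, smpP_eq]
    exact h1
  rw [h2]
  have hp0 : ∀ (j : E × Fin 3) (a : ↥(((Sm j.1).law j.2).S)), 0 ≤ ((Sm j.1).law j.2).w a :=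
    fun j a => ((Sm j.1).law j.2).nonneg _
  have hp1 : ∀ j : E × Fin 3, ∑ a : ↥(((Sm j.1).law j.2).S), ((Sm j.1).law j.2).w a = 1 := by
    intro j
    rw [Finset.sum_coe_sort ((Sm j.1).law j.2).S (fun k => ((Sm j.1).law j.2).w k)]
    exact ((Sm j.1).law j.2).sum_one
  have h3 := smp_poly_atom (ι := E × Fin 3) (Ω := fun j => ↥(((Sm j.1).law j.2).S))
    (fun j k => ((Sm j.1).law j.2).w k) hp0 hp1 (fun _ a => (a : ℤ)) κ
    (fun j c => ivbhol_atom _ κ hκ0 (hκ j.1 j.2) c) P hP0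
  refine (smpP_mono _ hp0 fun ω hω => ?_).trans (h3.trans ?_)
  · exact hP (fun j => (ω j : ℤ)) hω
  · exact mul_le_mul_of_nonneg_right (by exact_mod_cast hdeg) hκ0

end Claimed.Agent.R300
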