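/-
Row 300 / S0553, IV-B package (IVB-WALKE): the event "trivial holonomy of the closed walk `W`" in the graph `X`.
Sub-captain: helper128.
PLAN.  (1) `ivb_walk_ht`: an edge changes the height by at most one (`Str.ht_edge`), induction on the walk.
(2) With `r = W.length`, `100 r lq ≤ 603 H_i`, `10^6 b ≤ lq`:  `b r ≤ H_i / 100`, so for every edge `e` of `W`
`49 H (ht (src e)) ≥ 49 (H_i - b r) ≥ 48 H_i`; all atoms are `≤ κ := 1 / 2 ^ (48 H_i)` (`IvSampler.Ok.atom`).
(3) Transfer to the finite edge type `E' = ↥(ivbEdges W)`: `W = W'.map (fun d => (d.1.1, d.2))` with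
`W' = W.attach.map ..` (or `List.pmap`); `X.dvol vol = ivbDvol vol` (rfl); `ψ d = ivbDvol (fun e => ψ (e,false)) d`.
`ivbBadW` implies the event of `ivb_hol_prob` (`smpP_mono`).
-/
import Mathlib
import Claimed.Agent.R300.IvbHol

set_option autoImplicit false

namespace Claimed.Agent.R300

open HeisLaw

variable {p : Lab.Par}

/-- an edge changes the height by at most one -/
theorem ivbwe_ht_edge (X : InjGr p) (hS : X.Str) (e : X.E) :
    X.ht (X.src e) ≤ X.ht (X.tgt e) + 1 ∧ X.ht (X.tgt e) ≤ X.ht (X.src e) + 1 := by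
  have h := hS.ht_edge e
  cases hO : p.off (X.ety e) <;> rw [hO] at h <;> simp only [injOff] at h <;> constructor <;> omega

theorem ivb_walk_ht (X : InjGr p) (hS : X.Str) (a c : X.V) (W : List (X.E × Bool))
    (hW : X.dg.IsWalk a W c) (d : X.E × Bool) (hd : d ∈ W) :
    X.ht a ≤ X.ht (X.src d.1) + W.length := by
  induction W generalizing a with
  | nil => simp at hd
  | cons d0 P ih =>
    obtain ⟨h1, h2⟩ := hW
    have he := ivbwe_ht_edge X hS d0.1
    have hsrc : X.dg.src d0 = if d0.2 then X.tgt d0.1 else X.src d0.1 := rfl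
    have htgt : X.dg.tgt d0 = if d0.2 then X.src d0.1 else X.tgt d0.1 := by
      show (if (!d0.2) then X.tgt d0.1 else X.src d0.1) = _
      cases d0.2 <;> rfl
    rw [List.length_cons]
    rcases List.mem_cons.1 hd with rfl | hd'
    · rw [← h1, hsrc]
      split_ifs <;> omega
    · have h4 := ih _ h2 hd'
      have h3 : X.ht a ≤ X.ht (X.dg.tgt d0) + 1 := by
        rw [← h1, hsrc, htgt]
        split_ifs <;> omega
      omega

/-- the numerical step: `48 H_i ≤ 49 H_j` if `i ≤ j + r` and `r` is short -/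
theorem ivbwe_num (hslope : 1000000 * p.b ≤ p.lq) (i j r : ℕ) (hij : i ≤ j + r)
    (hlen : 100 * (r * p.lq) ≤ 603 * p.H i) : 48 * p.H i ≤ 49 * p.H j := by
  unfold Lab.Par.H at *
  have h1 : p.b * i ≤ p.b * j + p.b * r := by
    rw [← Nat.mul_add]
    exact Nat.mul_le_mul_left _ hij
  have h2 : r * (1000000 * p.b) ≤ r * p.lq := Nat.mul_le_mul_left _ hslope
  have h3 : r * (1000000 * p.b) = 1000000 * (p.b * r) := by ring
  generalize (2 * p.n0 + 1) * p.s = A at *
  generalize p.b * i = x at *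
  generalize p.b * j = y at *
  generalize p.b * r = z at *
  generalize r * p.lq = u at *
  omega

/-- darts over a finite set of edges -/
theorem ivbwe_map {E : Type} (s : Finset E) (W' : List (↥s × Bool)) (vol : E → InjHeis) :
    ((W'.map (fun d => ((d.1 : E), d.2))).map (ivbDvol vol))
      = W'.map (ivbDvol (fun e : ↥s => vol e)) := by
  rw [List.map_map]
  rfl

/-- every list of darts lives over its set of edges -/
theorem ivbwe_lift {E : Type} [DecidableEq E] (W : List (E × Bool)) :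
    ∃ W' : List (↥(ivbEdges W) × Bool), W'.map (fun d => ((d.1 : E), d.2)) = W := by
  have hm : ∀ d : {d // d ∈ W}, d.1.1 ∈ ivbEdges W := by
    intro d
    unfold ivbEdges
    rw [List.mem_toFinset]
    exact List.mem_map_of_mem d.2
  refine ⟨W.attach.map (fun d => (⟨d.1.1, hm d⟩, d.1.2)), ?_⟩
  rw [List.map_map]
  exact List.attach_map_subtype_val W

theorem ivb_walk_event (X : InjGr p) (hS : X.Str) (S : Fin p.T → ℕ → IvSampler) (M : ℝ)
    (hOk : ∀ τ i, (S τ i).Ok (p.H i) M) (hslope : 1000000 * p.b ≤ p.lq)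
    (a : X.V) (W : List (X.E × Bool)) (hW : X.dg.IsWalk a W a)
    (hlen : 100 * (W.length * p.lq) ≤ 603 * p.H (X.ht a))
    (ψ : X.E × Bool → InjHeis) (hψ : ∀ d, ψ (X.dg.inv d) = (ψ d)⁻¹) (hψ1 : (W.map ψ).prod ≠ 1) :
    smpP (fun e : ↥(ivbEdges W) => (ivbSm X S e).p) (ivbBadW X S W)
      ≤ 2 / 2 ^ (48 * p.H (X.ht a)) := by
  -- the atoms
  have hκ : ∀ (e : ↥(ivbEdges W)) s k,
      ((ivbSm X S e).law s).w k ≤ 1 / 2 ^ (48 * p.H (X.ht a)) := by
    intro e s k
    obtain ⟨d, hd, hde⟩ : ∃ d ∈ W, d.1 = (e : X.E) := by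
      have h := e.2
      unfold ivbEdges at h
      rw [List.mem_toFinset, List.mem_map] at h
      exact h
    have hht := ivb_walk_ht X hS a a W hW d hd
    rw [hde] at hht
    refine ((hOk (X.ety e) (X.ht (X.src e))).atom s k).trans ?_
    apply one_div_le_one_div_of_le (by positivity)
    exact pow_le_pow_right₀ (by norm_num) (ivbwe_num hslope _ _ _ hht hlen)
  -- the transfer
  obtain ⟨W', hW'⟩ := ivbwe_lift W
  have hmap : ∀ vol : X.E → InjHeis,
      W.map (X.dvol vol) = W'.map (ivbDvol (fun e : ↥(ivbEdges W) => vol e)) := by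
    intro vol
    have h := ivbwe_map _ W' vol
    rw [hW'] at h
    exact h
  have hψd : ∀ d, ψ d = X.dvol (fun e => ψ (e, false)) d := by
    rintro ⟨e, b⟩
    cases b
    · rfl
    · exact hψ (e, false)
  have hψ' : (W'.map (ivbDvol (fun e : ↥(ivbEdges W) => ψ ((e : X.E), false)))).prod ≠ 1 := by
    rw [← hmap (fun e => ψ (e, false))]
    have : W.map (X.dvol fun e => ψ (e, false)) = W.map ψ :=
      List.map_congr_left fun d _ => (hψd d).symm
    rw [this]
    exact hψ1
  have hmain := ivb_hol_prob (fun e : ↥(ivbEdges W) => ivbSm X S e) _ hκ W' _ hψ'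
  have hmono : smpP (fun e : ↥(ivbEdges W) => (ivbSm X S e).p) (ivbBadW X S W)
      ≤ smpP (fun e : ↥(ivbEdges W) => (ivbSm X S e).p)
        (fun ω => (W'.map (ivbDvol fun e : ↥(ivbEdges W) => (ivbSm X S e).vol (ω e))).prod = 1) := by
    refine smpP_mono _ (fun e x => ivb_p_nonneg _ x) ?_
    rintro ω' ⟨ω, hω, hprod⟩
    rw [hmap] at hprod
    have : (fun e : ↥(ivbEdges W) => (ivbSm X S e).vol (ω e))
        = fun e : ↥(ivbEdges W) => (ivbSm X S e).vol (ω' e) := by
      funext e
      rw [hω e]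
    rw [this] at hprod
    exact hprod
  refine hmono.trans (hmain.trans (le_of_eq ?_))
  ring

end Claimed.Agent.R300
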