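/-
Row 300 / S0553, IV-B: assembly `ivb_main : IvRealizeStmt`.  Sub-captain: helper128.
-/
import Mathlib
import Claimed.Agent.R300.IvbWalkE
import Claimed.Agent.R300.IvbCount
import Claimed.Agent.R300.IvbBlkE
import Claimed.Agent.R300.IvbBlkK
import Claimed.Agent.R300.IvbGlob
import Claimed.Agent.R300.IvbSel

set_option autoImplicit false

namespace Claimed.Agent.R300

open HeisLaw

variable {p : Lab.Par}

/-- index of the bad events: closed walks, blocks -/
abbrev IvbIdx (X : InjGr p) : Type := (X.V × List (X.E × Bool)) ⊕ (Fin p.T × ℕ)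

/-- the finitely many edges on which a bad event depends -/
noncomputable def ivbIdxS (X : InjGr p) : IvbIdx X → Finset X.E
  | .inl k => ivbEdges k.2
  | .inr k => ivbEb X k.1 k.2

/-- the bad events -/
def ivbBad (X : InjGr p) (S : Fin p.T → ℕ → IvSampler) (η : ℝ) :
    ∀ k : IvbIdx X, (∀ e : ↥(ivbIdxS X k), (ivbSm X S e).Pt) → Prop
  | .inl k => fun ω' => ivbCond X k.1 k.2 ∧ ivbBadW X S k.2 ω'
  | .inr k => fun ω' => η * InjGr.qq p k.1 < ‖ivbY X S k.1 k.2 ω'‖

open Classical in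
/-- bounds for their probabilities -/
noncomputable def ivbEps (X : InjGr p) : IvbIdx X → ℝ
  | .inl k => if ivbCond X k.1 k.2 then 2 / 2 ^ (48 * p.H (X.ht k.1)) else 0
  | .inr k => 1 / 2 ^ (6 * p.H k.2)

/-- the height of a bad event -/
def ivbGrade (X : InjGr p) : IvbIdx X → ℕ
  | .inl k => X.ht k.1
  | .inr k => k.2

theorem ivb_smpP_false {ι : Type} [Fintype ι] [DecidableEq ι] {Ω : ι → Type} [∀ i, Fintype (Ω i)]
    (q : ∀ i, Ω i → ℝ) (A : (∀ i, Ω i) → Prop) (hA : ∀ ω, ¬ A ω) : smpP q A = 0 := by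
  classical
  rw [smpP_eq]
  unfold smpE
  refine Finset.sum_eq_zero fun ω _ => ?_
  simp [hA ω]

theorem ivb_eps_nonneg (X : InjGr p) (k : IvbIdx X) : 0 ≤ ivbEps X k := by
  rcases k with k | k
  · simp only [ivbEps]
    split_ifs
    · positivity
    · exact le_refl _
  · simp only [ivbEps]
    positivity

theorem ivb_bad_prob (X : InjGr p) (hS : X.Str) (hD : X.DegLe) (hC : X.CardLe) (hG : X.Girth93)
    (hN : X.NonLaw604) (S : Fin p.T → ℕ → IvSampler) {M η : ℝ} (hp : IvbPar p M η)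
    (hOk : ∀ τ i, (S τ i).Ok (p.H i) M) (k : IvbIdx X) :
    smpP (fun e : ↥(ivbIdxS X k) => (ivbSm X S e).p) (ivbBad X S η k) ≤ ivbEps X k := by
  rcases k with ⟨a, W⟩ | ⟨τ, i⟩
  · by_cases hc : ivbCond X a W
    · obtain ⟨ψ, hψ, hψ1⟩ := hN a W hc.1 hc.2.1 hc.2.2.1 (by have := hc.2.2.2; omega)
      have h1 := ivb_walk_event X hS S M hOk hp.hslope a W hc.1 hc.2.2.2 ψ hψ hψ1
      have h2 : ivbEps X (Sum.inl (a, W)) = 2 / 2 ^ (48 * p.H (X.ht a)) := by
        simp only [ivbEps]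
        rw [if_pos hc]
      rw [h2]
      refine le_trans (smpP_mono _ (fun e x => ivb_p_nonneg _ x) ?_) h1
      intro ω' hω'
      exact hω'.2
    · have h2 : ivbEps X (Sum.inl (a, W)) = 0 := by
        simp only [ivbEps]
        rw [if_neg hc]
      rw [h2]
      refine le_of_eq (ivb_smpP_false _ _ ?_)
      intro ω' hω'
      exact hc hω'.1
  · exact ivb_block_event X hS hD hC hG S hp hOk τ i

theorem ivb_eps_graded (X : InjGr p) (hS : X.Str) (hD : X.DegLe) (hC : X.CardLe) {M η : ℝ}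
    (hp : IvbPar p M η) (i : ℕ) (s : Finset (IvbIdx X)) (hs : ∀ k ∈ s, ivbGrade X k = i) :
    ∑ k ∈ s, ivbEps X k ≤
      (2 : ℝ) ^ (9 * p.H i) * (2 / 2 ^ (48 * p.H i)) + p.T * (1 / 2 ^ (6 * p.H i)) := by
  classical
  rw [← Finset.toLeft_disjSum_toRight (u := s), Finset.sum_disjSum]
  refine add_le_add ?_ ?_
  · -- walks
    set F := s.toLeft.filter (fun k => ivbCond X k.1 k.2) with hF
    have h1 : ∑ k ∈ s.toLeft, ivbEps X (Sum.inl k) = ∑ k ∈ F, (2 / 2 ^ (48 * p.H i) : ℝ) := by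
      rw [hF, Finset.sum_filter]
      refine Finset.sum_congr rfl fun k hk => ?_
      have hk' : X.ht k.1 = i := hs (Sum.inl k) (Finset.mem_toLeft.1 hk)
      simp only [ivbEps, hk']
    rw [h1, Finset.sum_const, nsmul_eq_mul]
    refine mul_le_mul_of_nonneg_right ?_ (by positivity)
    have h2 := ivb_walk_count X hS hD hC hp i F (fun k hk => by
      rw [hF, Finset.mem_filter] at hk
      exact ⟨hs (Sum.inl k) (Finset.mem_toLeft.1 hk.1), hk.2⟩)
    exact_mod_cast h2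
  · -- blocks
    have h1 : ∑ k ∈ s.toRight, ivbEps X (Sum.inr k) = ∑ k ∈ s.toRight, (1 / 2 ^ (6 * p.H i) : ℝ) := by
      refine Finset.sum_congr rfl fun k hk => ?_
      have hk' : k.2 = i := hs (Sum.inr k) (Finset.mem_toRight.1 hk)
      simp only [ivbEps, hk']
    rw [h1, Finset.sum_const, nsmul_eq_mul]
    refine mul_le_mul_of_nonneg_right ?_ (by positivity)
    have h2 : s.toRight.card ≤ (Finset.univ : Finset (Fin p.T)).card := by
      refine Finset.card_le_card_of_injOn Prod.fst (fun _ _ => Finset.mem_univ _) ?_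
      intro k hk k' hk' hkk
      have e1 : k.2 = i := hs (Sum.inr k) (Finset.mem_toRight.1 hk)
      have e2 : k'.2 = i := hs (Sum.inr k') (Finset.mem_toRight.1 hk')
      exact Prod.ext hkk (e1.trans e2.symm)
    rw [Finset.card_univ, Fintype.card_fin] at h2
    exact_mod_cast h2

/-- the realisation for admissible parameters -/
theorem ivb_core (X : InjGr p) (hS : X.Str) (hD : X.DegLe) (hC : X.CardLe) (hG : X.Girth93)
    (hN : X.NonLaw604) (S : Fin p.T → ℕ → IvSampler) {M η : ℝ} (hp : IvbPar p M η)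
    (hOk : ∀ τ i, (S τ i).Ok (p.H i) M) :
    ∃ ω : ∀ e : X.E, (S (X.ety e) (X.ht (X.src e))).Pt,
      X.VGirth603 (fun e => (S (X.ety e) (X.ht (X.src e))).vol (ω e)) ∧
      ∀ τ, ‖smpConv (injSampCoef X τ (fun e => (S (X.ety e) (X.ht (X.src e))).vol (ω e))
        (fun e => (S (X.ety e) (X.ht (X.src e))).wt (ω e)) (fun i => (S τ i).mean))‖ ≤ η := by
  have hcV := ivb_countable_V X hS
  have hcE := ivb_countable_E X hS
  obtain ⟨hsum, hlt⟩ := ivb_sum_lt hp
  obtain ⟨hs1, hs2⟩ := ivb_tsum_graded (ivbGrade X) (ivbEps X) (ivb_eps_nonneg X) _ hsum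
    (ivb_eps_graded X hS hD hC hp)
  obtain ⟨ω, hω⟩ := smp_select (ι := X.E) (Ω := fun e => (ivbSm X S e).Pt)
    (fun e => (ivbSm X S e).p) (fun e x => ivb_p_nonneg _ x) (fun e => ivb_p_sum _)
    (ivbIdxS X) (ivbBad X S η) (ivbEps X) (ivb_bad_prob X hS hD hC hG hN S hp hOk) hs1
    (lt_of_le_of_lt hs2 hlt)
  refine ⟨ω, ?_, ?_⟩
  · intro a W hW hne hcr hlen hhol
    exact hω (Sum.inl (a, W)) ⟨⟨hW, hne, hcr, hlen⟩, ω, fun _ => rfl, hhol⟩
  · intro τ
    refine ivb_glob X hS τ _ _ _ η hp.hη.le fun i => ?_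
    refine le_trans (ivb_block_le X hS S τ i ω) ?_
    have h1 : ¬ (η * InjGr.qq p τ < ‖ivbY X S τ i (fun e => ω e)‖) := hω (Sum.inr (τ, i))
    rw [div_le_iff₀ (ivb_qq_pos p τ)]
    exact not_lt.1 h1

theorem ivb_main : IvRealizeStmt := by
  intro b hb T off M hM η hη
  obtain ⟨s0, hs0⟩ := ivb_par_exists b hb T off M hM η hη
  refine ⟨s0, fun s hs h2 h5 => ⟨1, fun n0 hn0 X hS hD hC hG hN S hOk => ?_⟩⟩
  exact ivb_core X hS hD hC hG hN S (hs0 s hs h2 h5 n0 hn0) hOk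

end Claimed.Agent.R300
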