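/-
Row 300 / S0553 (INJ paper).  TOP FILE (owner: helper105, INJ captain).
`inj_goal : InjGoal` (= the frozen S0553) from the five parts.
-/
import Mathlib
import Claimed.Agent.R300.InjStmt
import Claimed.Agent.R300.InjGraph
import Claimed.Agent.R300.IuTop
import Claimed.Agent.R300.InjGeoMain
import Claimed.Agent.R300.IvGlue
import Claimed.Agent.R300.IvaMain
import Claimed.Agent.R300.IvbMain
import Claimed.Agent.R300.InjLowMain
import Claimed.Agent.R300.IgrMain

set_option autoImplicit false

namespace Claimed.Agent.R300

/-- Sections 1-3 (helper31, helper126, helper59). -/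
theorem inj_graph : InjGraphStmt := Igr.igr_main

/-- Section 4, Proposition 4.2. -/
theorem inj_volt : InjVoltStmt := inj_volt_of iva_main ivb_main

theorem inj_goal : InjGoal := iu_upper (inj_low inj_graph inj_volt inj_geo)

end Claimed.Agent.R300
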