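/-
Row 300 (S0552), IT back end, owner helper128.  Prefix `it`.
Abstract Hilbert space lemma (A3): a positive operator `A ≤ M` with `A² ≥ ε A` has a spectral gap;
the powers `(1 - A/M)^n` converge in norm, geometrically, to a star projection `e` which is the
orthogonal projection onto `ker A`.
-/
import Mathlib

set_option autoImplicit false

namespace Claimed.Agent.R300

open scoped InnerProductSpace

variable {H : Type} [NormedAddCommGroup H] [InnerProductSpace ℂ H] [CompleteSpace H]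

/-- the three operator inequalities that encode `spec A ⊆ {0} ∪ [ε, M]`. -/
structure ItGap (A : H →L[ℂ] H) (ε M : ℝ) : Prop where
  pos : 0 ≤ A
  le : 0 ≤ M • (1 : H →L[ℂ] H) - A
  gap : 0 ≤ A * A - ε • A

theorem ItGap.isSelfAdjoint {A : H →L[ℂ] H} {ε M : ℝ} (h : ItGap A ε M) : IsSelfAdjoint A :=
  IsSelfAdjoint.of_nonneg h.pos

theorem ItGap.spec_cases {A : H →L[ℂ] H} {ε M : ℝ} (h : ItGap A ε M) (_hε : 0 < ε) :
    ∀ t ∈ spectrum ℝ A, t = 0 ∨ (ε ≤ t ∧ t ≤ M) := by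
  intro t ht
  have hA := h.isSelfAdjoint
  have h0 : 0 ≤ t := spectrum_nonneg_of_nonneg h.pos ht
  have e2 : M • (1 : H →L[ℂ] H) - A = cfc (fun x : ℝ => M - x) A := by
    rw [cfc_sub _ _ A, cfc_const M A, cfc_id' ℝ A, Algebra.algebraMap_eq_smul_one]
  have e3 : A * A - ε • A = cfc (fun x : ℝ => x * x - ε * x) A := by
    rw [cfc_sub _ _ A, cfc_mul _ _ A, cfc_const_mul _ _ A, cfc_id' ℝ A]
  have m2 : M - t ∈ spectrum ℝ (M • (1 : H →L[ℂ] H) - A) := by
    rw [e2, cfc_map_spectrum _ A]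
    exact ⟨t, ht, rfl⟩
  have m3 : t * t - ε * t ∈ spectrum ℝ (A * A - ε • A) := by
    rw [e3, cfc_map_spectrum _ A]
    exact ⟨t, ht, rfl⟩
  have p2 : 0 ≤ M - t := spectrum_nonneg_of_nonneg h.le m2
  have p3 : 0 ≤ t * t - ε * t := spectrum_nonneg_of_nonneg h.gap m3
  rcases h0.eq_or_lt with h0 | h0
  · exact Or.inl h0.symm
  · refine Or.inr ⟨?_, by linarith⟩
    by_contra hlt
    rw [not_le] at hlt
    nlinarith

/-- the cut-off function. -/
noncomputable def itChi (ε : ℝ) (t : ℝ) : ℝ := max 0 (1 - t / ε)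

theorem itChi_continuous (ε : ℝ) : Continuous (itChi ε) := by
  unfold itChi
  fun_prop

theorem itChi_zero (ε : ℝ) : itChi ε 0 = 1 := by simp [itChi]

theorem itChi_of_le {ε t : ℝ} (hε : 0 < ε) (ht : ε ≤ t) : itChi ε t = 0 := by
  unfold itChi
  apply max_eq_left
  have : 1 ≤ t / ε := by rwa [le_div_iff₀ hε, one_mul]
  linarith

/-- the spectral projection at `0`. -/
noncomputable def itProj (A : H →L[ℂ] H) (ε : ℝ) : H →L[ℂ] H := cfc (itChi ε) A

theorem ItGap.isStarProjection {A : H →L[ℂ] H} {ε M : ℝ} (h : ItGap A ε M) (hε : 0 < ε) :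
    IsStarProjection (itProj A ε) := by
  have hA := h.isSelfAdjoint
  have hc : ContinuousOn (itChi ε) (spectrum ℝ A) := (itChi_continuous ε).continuousOn
  refine ⟨?_, ?_⟩
  · unfold IsIdempotentElem itProj
    rw [← cfc_mul _ _ A hc hc]
    refine cfc_congr fun t ht => ?_
    rcases h.spec_cases hε t ht with rfl | ⟨h1, -⟩
    · simp [itChi_zero]
    · simp [itChi_of_le hε h1]
  · exact cfc_predicate _ A

theorem ItGap.norm_pow_sub_le {A : H →L[ℂ] H} {ε M : ℝ} (h : ItGap A ε M) (hε : 0 < ε)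
    (hM : ε ≤ M) (n : ℕ) :
    ‖((1 : H →L[ℂ] H) - M⁻¹ • A) ^ n - itProj A ε‖ ≤ (1 - ε / M) ^ n := by
  have hA := h.isSelfAdjoint
  have hMpos : 0 < M := hε.trans_le hM
  have hc : ContinuousOn (itChi ε) (spectrum ℝ A) := (itChi_continuous ε).continuousOn
  have e1 : (1 : H →L[ℂ] H) - M⁻¹ • A = cfc (fun x : ℝ => 1 - M⁻¹ * x) A := by
    rw [cfc_sub _ _ A, cfc_const_mul _ _ A, cfc_id' ℝ A, cfc_const_one ℝ A]
  have e2 : ((1 : H →L[ℂ] H) - M⁻¹ • A) ^ n = cfc (fun x : ℝ => (1 - M⁻¹ * x) ^ n) A := by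
    rw [e1, cfc_pow _ n A]
  have hr : 0 ≤ 1 - ε / M := by
    have : ε / M ≤ 1 := by rwa [div_le_one hMpos]
    linarith
  unfold itProj
  rw [e2, ← cfc_sub _ _ A (by fun_prop) hc]
  refine norm_cfc_le (by positivity) fun t ht => ?_
  rcases h.spec_cases hε t ht with rfl | ⟨h1, h2⟩
  · simp [itChi_zero]
    positivity
  · rw [itChi_of_le hε h1, sub_zero, norm_pow, Real.norm_eq_abs]
    have h3 : 0 ≤ 1 - M⁻¹ * t := by
      have : M⁻¹ * t ≤ 1 := by rw [inv_mul_le_iff₀ hMpos]; linarith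
      linarith
    rw [abs_of_nonneg h3]
    refine pow_le_pow_left₀ h3 ?_ n
    have : ε / M ≤ M⁻¹ * t := by
      rw [div_eq_inv_mul]
      exact mul_le_mul_of_nonneg_left h1 (inv_pos.2 hMpos).le
    linarith

theorem ItGap.tendsto_pow {A : H →L[ℂ] H} {ε M : ℝ} (h : ItGap A ε M) (hε : 0 < ε)
    (hM : ε ≤ M) :
    Filter.Tendsto (fun n : ℕ => ((1 : H →L[ℂ] H) - M⁻¹ • A) ^ n) Filter.atTop
      (nhds (itProj A ε)) := by
  have hMpos : 0 < M := hε.trans_le hM
  rw [tendsto_iff_norm_sub_tendsto_zero]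
  have h0 : 0 ≤ 1 - ε / M := by
    have : ε / M ≤ 1 := by rwa [div_le_one hMpos]
    linarith
  have h1 : 1 - ε / M < 1 := by
    have : 0 < ε / M := div_pos hε hMpos
    linarith
  exact squeeze_zero (fun n => norm_nonneg _) (fun n => h.norm_pow_sub_le hε hM n)
    (tendsto_pow_atTop_nhds_zero_of_lt_one h0 h1)

/-- `e` fixes the kernel of `A`. -/
theorem ItGap.proj_of_ker {A : H →L[ℂ] H} {ε M : ℝ} (h : ItGap A ε M) (hε : 0 < ε)
    (hM : ε ≤ M) {ξ : H} (hξ : A ξ = 0) : itProj A ε ξ = ξ := by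
  have h1 : ∀ n : ℕ, (((1 : H →L[ℂ] H) - M⁻¹ • A) ^ n) ξ = ξ := by
    intro n
    induction n with
    | zero => simp
    | succ n ih =>
      rw [pow_succ, mul_apply_eq_comp]
      have : ((1 : H →L[ℂ] H) - M⁻¹ • A) ξ = ξ := by simp [hξ]
      rw [this, ih]
  have h2 := ((ContinuousLinearMap.apply ℂ H ξ).continuous.tendsto _).comp (h.tendsto_pow hε hM)
  have h3 : (fun n : ℕ => (ContinuousLinearMap.apply ℂ H ξ)
      (((1 : H →L[ℂ] H) - M⁻¹ • A) ^ n)) = fun _ => ξ := by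
    funext n
    exact h1 n
  have h4 : Filter.Tendsto (fun _ : ℕ => ξ) Filter.atTop (nhds (itProj A ε ξ)) := by
    rw [← h3]
    exact h2
  exact (tendsto_nhds_unique h4 tendsto_const_nhds)

/-- the range of `e` lies in the kernel of `A`. -/
theorem ItGap.apply_proj {A : H →L[ℂ] H} {ε M : ℝ} (h : ItGap A ε M) (hε : 0 < ε) (ξ : H) :
    A (itProj A ε ξ) = 0 := by
  have hA := h.isSelfAdjoint
  have hc : ContinuousOn (itChi ε) (spectrum ℝ A) := (itChi_continuous ε).continuousOn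
  have h1 : A * itProj A ε = 0 := by
    unfold itProj
    nth_rewrite 1 [← cfc_id' ℝ A]
    rw [← cfc_mul _ _ A (by fun_prop) hc, ← cfc_zero ℝ A]
    refine cfc_congr fun t ht => ?_
    rcases h.spec_cases hε t ht with rfl | ⟨h1, -⟩
    · simp
    · simp [itChi_of_le hε h1]
  have := congrArg (fun B : H →L[ℂ] H => B ξ) h1
  simpa using this

/-- `e` kills the orthogonal complement of the kernel of `A`. -/
theorem ItGap.proj_of_orth {A : H →L[ℂ] H} {ε M : ℝ} (h : ItGap A ε M) (hε : 0 < ε)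
    {η : H} (hη : ∀ ζ, A ζ = 0 → ⟪ζ, η⟫_ℂ = 0) : itProj A ε η = 0 := by
  have hp := h.isStarProjection hε
  have h1 : ⟪itProj A ε η, η⟫_ℂ = 0 := hη _ (h.apply_proj hε η)
  have h2 : ⟪itProj A ε η, itProj A ε η⟫_ℂ = ⟪itProj A ε η, η⟫_ℂ := by
    have hs : ContinuousLinearMap.adjoint (itProj A ε) = itProj A ε := hp.isSelfAdjoint
    rw [← ContinuousLinearMap.adjoint_inner_left, hs, ← mul_apply_eq_comp,
      hp.isIdempotentElem.eq]
  rw [h1] at h2
  exact inner_self_eq_zero.1 h2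

end Claimed.Agent.R300
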