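/-
Row 300 (S0552, irrational trace), IT back end, owner helper128.  Prefix `it`.
Small toolkit for `ℓ²(X) = lp (fun _ : X => ℂ) 2`: reindexing along an equivalence, diagonal
operators, delta vectors, density of finitely supported vectors.
-/
import Mathlib

set_option autoImplicit false

namespace Claimed.Agent.R300

open scoped InnerProductSpace

/-- `ℓ²(X)`. (Syntactically the same as the frozen `GroupL2 X`.) -/
abbrev ItL2 (X : Type) : Type := lp (fun _ : X => ℂ) 2

theorem it_memlp_iff {X : Type} {f : X → ℂ} :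
    Memℓp f 2 ↔ Summable fun x => ‖f x‖ ^ (2 : ℝ) := by
  have h : (0 : ℝ) < (2 : ENNReal).toReal := by norm_num
  rw [memℓp_gen_iff h]
  norm_num

theorem it_norm_sq {X : Type} (f : ItL2 X) : ‖f‖ ^ (2 : ℝ) = ∑' x, ‖f x‖ ^ (2 : ℝ) := by
  have h : (0 : ℝ) < (2 : ENNReal).toReal := by norm_num
  have := lp.norm_rpow_eq_tsum h f
  norm_num at this
  simpa using this

/-- reindexing along an equivalence, as a linear isometric equivalence. -/
noncomputable def itReindex {X Y : Type} (e : X ≃ Y) : ItL2 X ≃ₗᵢ[ℂ] ItL2 Y where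
  toFun f := ⟨fun y => f (e.symm y), it_memlp_iff.2
    ((e.symm.summable_iff (f := fun x => ‖f x‖ ^ (2 : ℝ))).2 (it_memlp_iff.1 (lp.memℓp f)))⟩
  invFun f := ⟨fun x => f (e x), it_memlp_iff.2
    ((e.summable_iff (f := fun x => ‖f x‖ ^ (2 : ℝ))).2 (it_memlp_iff.1 (lp.memℓp f)))⟩
  map_add' f g := by ext y; rfl
  map_smul' c f := by ext y; rfl
  left_inv f := by ext x; simp
  right_inv f := by ext y; simp
  norm_map' f := by
    have h2 : ∀ a b : ℝ, 0 ≤ a → 0 ≤ b → a ^ (2 : ℝ) = b ^ (2 : ℝ) → a = b := by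
      intro a b ha hb hab
      exact (Real.rpow_left_inj ha hb (by norm_num)).1 hab
    apply h2 _ _ (norm_nonneg _) (norm_nonneg _)
    rw [it_norm_sq, it_norm_sq]
    exact e.symm.tsum_eq (fun x => ‖f x‖ ^ (2 : ℝ))

@[simp] theorem itReindex_apply {X Y : Type} (e : X ≃ Y) (f : ItL2 X) (y : Y) :
    itReindex e f y = f (e.symm y) := rfl

@[simp] theorem itReindex_symm_apply {X Y : Type} (e : X ≃ Y) (f : ItL2 Y) (x : X) :
    (itReindex e).symm f x = f (e x) := rfl

/-- diagonal (multiplication) operator of a bounded function. -/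
noncomputable def itDiag {X : Type} (φ : X → ℂ) (C : ℝ) (hφ : ∀ x, ‖φ x‖ ≤ C) :
    ItL2 X →L[ℂ] ItL2 X :=
  LinearMap.mkContinuous
    { toFun := fun f => ⟨fun x => φ x * f x, it_memlp_iff.2 (by
        have hs := (it_memlp_iff.1 (lp.memℓp f)).mul_left (|C| ^ (2 : ℝ))
        refine Summable.of_nonneg_of_le (fun x => by positivity) (fun x => ?_) hs
        rw [norm_mul, Real.mul_rpow (norm_nonneg _) (norm_nonneg _)]
        gcongr
        exact (hφ x).trans (le_abs_self C))⟩
      map_add' := fun f g => by ext x; exact mul_add _ _ _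
      map_smul' := fun c f => by ext x; exact mul_left_comm _ _ _ }
    |C| (by
      intro f
      have h2 : ∀ a b : ℝ, 0 ≤ a → 0 ≤ b → a ^ (2 : ℝ) ≤ b ^ (2 : ℝ) → a ≤ b := by
        intro a b ha hb hab
        exact (Real.rpow_le_rpow_iff ha hb (by norm_num)).1 hab
      apply h2 _ _ (norm_nonneg _) (by positivity)
      rw [Real.mul_rpow (abs_nonneg _) (norm_nonneg _), it_norm_sq, it_norm_sq, ← tsum_mul_left]
      have hs := (it_memlp_iff.1 (lp.memℓp f)).mul_left (|C| ^ (2 : ℝ))
      refine Summable.tsum_le_tsum (fun x => ?_) ?_ hs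
      · show ‖φ x * f x‖ ^ (2 : ℝ) ≤ _
        rw [norm_mul, Real.mul_rpow (norm_nonneg _) (norm_nonneg _)]
        gcongr
        exact (hφ x).trans (le_abs_self C)
      · refine Summable.of_nonneg_of_le (fun x => by positivity) (fun x => ?_) hs
        show ‖φ x * f x‖ ^ (2 : ℝ) ≤ _
        rw [norm_mul, Real.mul_rpow (norm_nonneg _) (norm_nonneg _)]
        gcongr
        exact (hφ x).trans (le_abs_self C))

@[simp] theorem itDiag_apply {X : Type} (φ : X → ℂ) (C : ℝ) (hφ : ∀ x, ‖φ x‖ ≤ C) (f : ItL2 X)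
    (x : X) : itDiag φ C hφ f x = φ x * f x := rfl

end Claimed.Agent.R300
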