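/-
Row 300 (S0552), IT back end, owner helper128.  The semidirect product `V ⋊ Γ` of an additive
group with a distributive action, `(v,g)(v',g') = (v + g • v', g g')`, and finite generation.
-/
import Mathlib

set_option autoImplicit false

namespace Claimed.Agent.R300

/-- `V ⋊ Γ`. -/
@[ext] structure ItSemi (Γ V : Type) where
  v : V
  g : Γ

namespace ItSemi

variable {Γ V : Type} [Group Γ] [AddCommGroup V] [DistribMulAction Γ V]

instance : Mul (ItSemi Γ V) := ⟨fun a b => ⟨a.v + a.g • b.v, a.g * b.g⟩⟩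
instance : One (ItSemi Γ V) := ⟨⟨0, 1⟩⟩
instance : Inv (ItSemi Γ V) := ⟨fun a => ⟨-(a.g⁻¹ • a.v), a.g⁻¹⟩⟩

@[simp] theorem mul_v (a b : ItSemi Γ V) : (a * b).v = a.v + a.g • b.v := rfl
@[simp] theorem mul_g (a b : ItSemi Γ V) : (a * b).g = a.g * b.g := rfl
@[simp] theorem one_v : (1 : ItSemi Γ V).v = 0 := rfl
@[simp] theorem one_g : (1 : ItSemi Γ V).g = 1 := rfl
@[simp] theorem inv_v (a : ItSemi Γ V) : (a⁻¹).v = -(a.g⁻¹ • a.v) := rfl
@[simp] theorem inv_g (a : ItSemi Γ V) : (a⁻¹).g = a.g⁻¹ := rfl

instance : Group (ItSemi Γ V) :=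
  Group.ofLeftAxioms
    (fun a b c => by ext <;> simp [mul_assoc, add_assoc, mul_smul])
    (fun a => by ext <;> simp)
    (fun a => by ext <;> simp)

/-- the inclusion of `Γ`. -/
def inr : Γ →* ItSemi Γ V where
  toFun g := ⟨0, g⟩
  map_one' := rfl
  map_mul' a b := by ext <;> simp

/-- the inclusion of `V`. -/
def inl : Multiplicative V →* ItSemi Γ V where
  toFun v := ⟨v.toAdd, 1⟩
  map_one' := rfl
  map_mul' a b := by ext <;> simp

@[simp] theorem inr_v (g : Γ) : (inr g : ItSemi Γ V).v = 0 := rfl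
@[simp] theorem inr_g (g : Γ) : (inr g : ItSemi Γ V).g = g := rfl
@[simp] theorem inl_v (v : Multiplicative V) : (inl v : ItSemi Γ V).v = v.toAdd := rfl
@[simp] theorem inl_g (v : Multiplicative V) : (inl v : ItSemi Γ V).g = 1 := rfl

theorem eq_inl_mul_inr (a : ItSemi Γ V) : a = inl (Multiplicative.ofAdd a.v) * inr a.g := by
  ext <;> simp

theorem conj_inl (g : Γ) (v : V) :
    (inr g : ItSemi Γ V) * inl (Multiplicative.ofAdd v) * (inr g)⁻¹ =
      inl (Multiplicative.ofAdd (g • v)) := by
  ext <;> simp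

/-- `V ⋊ Γ` is finitely generated if `Γ` is generated by a finite family and `V` is generated by
the orbit of one vector. -/
theorem fg {L : Type} [Finite L] (val : L → Γ) (hgen : Subgroup.closure (Set.range val) = ⊤)
    (vs : V) (hV : AddSubgroup.closure (Set.range fun g : Γ => g • vs) = ⊤) :
    Group.FG (ItSemi Γ V) := by
  classical
  let T : Set (ItSemi Γ V) :=
    insert (inl (Multiplicative.ofAdd vs)) (Set.range fun s : L => (inr (val s) : ItSemi Γ V))
  have hTfin : T.Finite := (Set.finite_range _).insert _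
  have hr : ∀ g : Γ, (inr g : ItSemi Γ V) ∈ Subgroup.closure T := by
    intro g
    have hg : g ∈ Subgroup.closure (Set.range val) := by rw [hgen]; trivial
    have hle : Subgroup.closure (Set.range val) ≤ (Subgroup.closure T).comap inr := by
      rw [Subgroup.closure_le]
      rintro _ ⟨s, rfl⟩
      exact Subgroup.subset_closure (Set.mem_insert_of_mem _ ⟨s, rfl⟩)
    exact hle hg
  have hl : ∀ v : V, (inl (Multiplicative.ofAdd v) : ItSemi Γ V) ∈ Subgroup.closure T := by
    intro v
    have hv : v ∈ AddSubgroup.closure (Set.range fun g : Γ => g • vs) := by rw [hV]; trivial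
    induction hv using AddSubgroup.closure_induction with
    | mem x hx =>
      obtain ⟨g, rfl⟩ := hx
      rw [← conj_inl]
      exact mul_mem (mul_mem (hr g) (Subgroup.subset_closure (Set.mem_insert _ _)))
        (inv_mem (hr g))
    | zero => exact one_mem _
    | add x y _ _ hx hy =>
      rw [ofAdd_add, map_mul]
      exact mul_mem hx hy
    | neg x _ hx =>
      rw [ofAdd_neg, map_inv]
      exact inv_mem hx
  refine (Group.fg_iff).2 ⟨T, ?_, hTfin⟩
  rw [eq_top_iff]
  intro a _
  rw [eq_inl_mul_inr a]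
  exact mul_mem (hl _) (hr _)

end ItSemi

end Claimed.Agent.R300
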