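/-
Row 300 (S0552), IT back end, owner helper128.
Abstract analytic core: regular representation of `V ⋊ Γ`, fibre representations on `ℓ²(Γ)` attached
to characters of `V`, positivity transfer, trace formula, spectral projection.
-/
import Claimed.Agent.R300.ItHilb
import Claimed.Agent.R300.ItL2
import Claimed.Agent.R300.ItSemi
import Claimed.Agent.R300.ScAlg

set_option autoImplicit false

namespace Claimed.Agent.R300

open MeasureTheory
open scoped InnerProductSpace ComplexConjugate

/-- the left regular representation as a monoid homomorphism. -/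
noncomputable def itLamHom (G : Type) [Group G] : G →* (ScL2 G →L[ℂ] ScL2 G) where
  toFun := scLam
  map_one' := scLam_one
  map_mul' := scLam_mul

/-- the left regular representation of the complex group algebra. -/
noncomputable def itReg (G : Type) [Group G] :
    MonoidAlgebra ℂ G →ₐ[ℂ] (ScL2 G →L[ℂ] ScL2 G) :=
  MonoidAlgebra.lift ℂ _ G (itLamHom G)

variable {Γ V : Type} [Group Γ] [AddCommGroup V] [DistribMulAction Γ V]

/-- the fibre representation at the character `χ`:
`(π_χ(v,s) ξ)(h) = χ(h • v) ξ(h s)`. -/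
noncomputable def itFibOp (χ : AddChar V Circle) (x : ItSemi Γ V) : ScL2 Γ →L[ℂ] ScL2 Γ :=
  (itDiag (fun h : Γ => ((χ (h • x.v) : Circle) : ℂ)) 1 (fun _ => (Circle.norm_coe _).le)).comp (scRho x.g)

@[simp] theorem itFibOp_apply (χ : AddChar V Circle) (x : ItSemi Γ V) (ξ : ScL2 Γ) (h : Γ) :
    itFibOp χ x ξ h = ((χ (h • x.v) : Circle) : ℂ) * ξ (h * x.g) := rfl

/-- the fibre representation as a monoid homomorphism. -/
noncomputable def itFibHom (χ : AddChar V Circle) : ItSemi Γ V →* (ScL2 Γ →L[ℂ] ScL2 Γ) where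
  toFun := itFibOp χ
  map_one' := by
    ext ξ h
    simp
  map_mul' x y := by
    ext ξ h
    simp [AddChar.map_add_eq_mul, mul_smul, mul_assoc]

/-- the fibre representation of the group algebra. -/
noncomputable def itFib (χ : AddChar V Circle) :
    MonoidAlgebra ℂ (ItSemi Γ V) →ₐ[ℂ] (ScL2 Γ →L[ℂ] ScL2 Γ) :=
  MonoidAlgebra.lift ℂ _ (ItSemi Γ V) (itFibHom χ)

theorem itReg_single (G : Type) [Group G] (x : G) (c : ℂ) :
    itReg G (MonoidAlgebra.single x c) = c • scLam x :=
  MonoidAlgebra.lift_single _ _ _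

theorem itReg_mem (G : Type) [Group G] (a : MonoidAlgebra ℂ G) : itReg G a ∈ scRed G := by
  induction a using MonoidAlgebra.induction_linear with
  | zero => rw [map_zero]; exact zero_mem _
  | add x y hx hy => rw [map_add]; exact add_mem hx hy
  | single x c => rw [itReg_single]; exact (scRed G).smul_mem (scLam_mem x) c

theorem itFib_single (χ : AddChar V Circle) (x : ItSemi Γ V) (c : ℂ) :
    itFib χ (MonoidAlgebra.single x c) = c • itFibOp χ x :=
  MonoidAlgebra.lift_single _ _ _

/-- the intertwiner on basis vectors. -/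
noncomputable def itPhi (χ : AddChar V Circle) (x : ItSemi Γ V) : ScL2 Γ :=
  ((χ (x.g⁻¹ • x.v) : Circle) : ℂ) • scDelta x.g⁻¹

theorem itPhi_one (χ : AddChar V Circle) : itPhi χ (1 : ItSemi Γ V) = scDelta 1 := by
  simp [itPhi]

theorem itFibOp_phi (χ : AddChar V Circle) (y x : ItSemi Γ V) :
    itFibOp χ y (itPhi χ x) = itPhi χ (y * x) := by
  classical
  ext h
  simp only [itFibOp_apply, itPhi, lp.coeFn_smul, Pi.smul_apply, smul_eq_mul, scDelta_apply,
    ItSemi.mul_g, ItSemi.mul_v, mul_inv_rev]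
  by_cases hh : h * y.g = x.g⁻¹
  · have h2 : h = x.g⁻¹ * y.g⁻¹ := by rw [← hh]; group
    subst h2
    simp [smul_add, mul_smul, AddChar.map_add_eq_mul]
  · have h2 : h ≠ x.g⁻¹ * y.g⁻¹ := by
      intro h2; apply hh; rw [h2]; group
    simp [hh, h2]

theorem itPhi_inner (χ : AddChar V Circle) (y x : ItSemi Γ V) [Decidable (x.g = y.g)] :
    ⟪itPhi χ y, itPhi χ x⟫_ℂ =
      if x.g = y.g then ((χ (x.g⁻¹ • (x.v - y.v)) : Circle) : ℂ) else 0 := by
  classical
  simp only [itPhi, inner_smul_left, inner_smul_right, sc_inner_delta_left, scDelta_apply]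
  by_cases h : x.g = y.g
  · rw [if_pos h, if_pos (by rw [h]), smul_sub, sub_eq_add_neg, AddChar.map_add_eq_mul,
      AddChar.map_neg_eq_inv, Circle.coe_mul, Circle.coe_inv_eq_conj, h]
    ring
  · rw [if_neg h, if_neg (by intro h2; exact h (inv_injective h2).symm)]
    simp


section meas

variable {Ω : Type} [MeasurableSpace Ω] (m : Measure Ω) [IsProbabilityMeasure m]
  (chi : Ω → AddChar V Circle)

include m in
theorem it_chi_integrable (hmeas : ∀ v, Measurable fun X => ((chi X v : Circle) : ℂ)) (v : V) :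
    Integrable (fun X => ((chi X v : Circle) : ℂ)) m :=
  Integrable.of_bound (hmeas v).aestronglyMeasurable 1
    (Filter.Eventually.of_forall fun _ => (Circle.norm_coe _).le)

theorem it_chi_integral (horth : ∀ v, v ≠ 0 → ∫ X, ((chi X v : Circle) : ℂ) ∂m = 0) (v : V)
    [Decidable (v = 0)] :
    ∫ X, ((chi X v : Circle) : ℂ) ∂m = if v = 0 then 1 else 0 := by
  by_cases h : v = 0
  · subst h
    simp
  · rw [if_neg h, horth v h]

theorem it_key (hmeas : ∀ v, Measurable fun X => ((chi X v : Circle) : ℂ))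
    (horth : ∀ v, v ≠ 0 → ∫ X, ((chi X v : Circle) : ℂ) ∂m = 0)
    (a : MonoidAlgebra ℂ (ItSemi Γ V)) (y x : ItSemi Γ V) :
    Integrable (fun X => ⟪itPhi (chi X) y, itFib (chi X) a (itPhi (chi X) x)⟫_ℂ) m ∧
      ∫ X, ⟪itPhi (chi X) y, itFib (chi X) a (itPhi (chi X) x)⟫_ℂ ∂m =
        ⟪scDelta y, itReg (ItSemi Γ V) a (scDelta x)⟫_ℂ := by
  classical
  induction a using MonoidAlgebra.induction_linear with
  | zero => simp
  | add a b ha hb =>
    simp only [map_add, add_apply, inner_add_right]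
    exact ⟨ha.1.add hb.1, by rw [integral_add ha.1 hb.1, ha.2, hb.2]⟩
  | single z c =>
    simp only [itFib_single, itReg_single, smul_apply, inner_smul_right,
      itFibOp_phi, itPhi_inner, scLam_delta, sc_inner_delta_left, scDelta_apply]
    by_cases hg : (z * x).g = y.g
    · simp only [if_pos hg]
      refine ⟨(it_chi_integrable m chi hmeas _).const_mul c, ?_⟩
      rw [integral_const_mul, it_chi_integral m chi horth]
      congr 1
      by_cases hv : (z * x).v = y.v
      · rw [if_pos (by rw [hv, sub_self, smul_zero]), if_pos (ItSemi.ext hv.symm hg.symm)]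
      · rw [if_neg, if_neg]
        · intro h; exact hv (by rw [h])
        · intro h
          rw [smul_eq_zero_iff_eq] at h
          exact hv (sub_eq_zero.1 h)
    · simp only [if_neg hg]
      refine ⟨by simp, ?_⟩
      rw [if_neg (by intro h; exact hg (by rw [h]))]
      simp




omit [DistribMulAction Γ V] [AddCommGroup V] [Group Γ] in
theorem it_sesq {H ι : Type} [NormedAddCommGroup H] [InnerProductSpace ℂ H] (A : H →L[ℂ] H)
    (e : ι → H) (c : ι → ℂ) (T : Finset ι) :
    ⟪∑ y ∈ T, c y • e y, A (∑ x ∈ T, c x • e x)⟫_ℂ =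
      ∑ y ∈ T, ∑ x ∈ T, conj (c y) * (c x * ⟪e y, A (e x)⟫_ℂ) := by
  simp only [map_sum, map_smul, sum_inner, inner_sum, inner_smul_left, inner_smul_right,
    Finset.mul_sum]
  rw [Finset.sum_comm]
  refine Finset.sum_congr rfl (fun y _ => ?_)
  refine Finset.sum_congr rfl (fun x _ => ?_)
  ring

open scoped ComplexOrder in
theorem it_pos_fin (hmeas : ∀ v, Measurable fun X => ((chi X v : Circle) : ℂ))
    (horth : ∀ v, v ≠ 0 → ∫ X, ((chi X v : Circle) : ℂ) ∂m = 0)
    (a : MonoidAlgebra ℂ (ItSemi Γ V)) (hpos : ∀ X, 0 ≤ itFib (chi X) a)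
    (c : ItSemi Γ V → ℂ) (T : Finset (ItSemi Γ V)) :
    0 ≤ ⟪∑ y ∈ T, c y • scDelta y, itReg (ItSemi Γ V) a (∑ x ∈ T, c x • scDelta x)⟫_ℂ := by
  have h1 : ⟪∑ y ∈ T, c y • scDelta y, itReg (ItSemi Γ V) a (∑ x ∈ T, c x • scDelta x)⟫_ℂ =
      ∫ X, ⟪∑ y ∈ T, c y • itPhi (chi X) y,
        itFib (chi X) a (∑ x ∈ T, c x • itPhi (chi X) x)⟫_ℂ ∂m := by
    simp only [it_sesq]
    rw [integral_finsetSum]
    · refine Finset.sum_congr rfl (fun y _ => ?_)
      rw [integral_finsetSum]
      · refine Finset.sum_congr rfl (fun x _ => ?_)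
        rw [integral_const_mul, integral_const_mul, (it_key m chi hmeas horth a y x).2]
      · intro x _
        exact ((it_key m chi hmeas horth a y x).1.const_mul _).const_mul _
    · intro y _
      refine integrable_finsetSum _ (fun x _ => ?_)
      exact ((it_key m chi hmeas horth a y x).1.const_mul _).const_mul _
  rw [h1]
  refine integral_nonneg (fun X => ?_)
  exact ((ContinuousLinearMap.nonneg_iff_isPositive _).1 (hpos X)).inner_nonneg_right _

open scoped ComplexOrder in
/-- **ANA-1**: positivity in all fibres implies positivity in the regular representation. -/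
theorem it_pos_transfer (hmeas : ∀ v, Measurable fun X => ((chi X v : Circle) : ℂ))
    (horth : ∀ v, v ≠ 0 → ∫ X, ((chi X v : Circle) : ℂ) ∂m = 0)
    (a : MonoidAlgebra ℂ (ItSemi Γ V)) (hpos : ∀ X, 0 ≤ itFib (chi X) a) :
    0 ≤ itReg (ItSemi Γ V) a := by
  classical
  have hall : ∀ ξ : ScL2 (ItSemi Γ V), 0 ≤ ⟪ξ, itReg (ItSemi Γ V) a ξ⟫_ℂ := by
    intro ξ
    have hs : HasSum (fun x => lp.single 2 x (ξ x)) ξ := lp.hasSum_single (by norm_num) ξ
    have hs' : Filter.Tendsto (fun T : Finset (ItSemi Γ V) => ∑ x ∈ T, ξ x • scDelta x)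
        Filter.atTop (nhds ξ) := by
      have : (fun T : Finset (ItSemi Γ V) => ∑ x ∈ T, ξ x • scDelta x) =
          fun T : Finset (ItSemi Γ V) => ∑ x ∈ T, lp.single 2 x (ξ x) := by
        funext T
        refine Finset.sum_congr rfl (fun x _ => ?_)
        rw [scDelta_eq_single, ← lp.single_smul]
        simp
      rw [this]
      exact hs
    have hcont : Continuous fun ζ : ScL2 (ItSemi Γ V) => ⟪ζ, itReg (ItSemi Γ V) a ζ⟫_ℂ :=
      continuous_id.inner (itReg (ItSemi Γ V) a).continuous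
    have hlim := (hcont.tendsto ξ).comp hs'
    exact ge_of_tendsto' hlim (fun T => it_pos_fin m chi hmeas horth a hpos (fun x => ξ x) T)
  rw [ContinuousLinearMap.nonneg_iff_isPositive, ContinuousLinearMap.isPositive_iff_complex]
  intro ξ
  have h := hall ξ
  have h2 : 0 ≤ ⟪itReg (ItSemi Γ V) a ξ, ξ⟫_ℂ := by
    have h5 := (RCLike.nonneg_iff (K := ℂ)).1 h
    rw [← inner_conj_symm]
    refine (RCLike.nonneg_iff (K := ℂ)).2 ⟨?_, ?_⟩
    · rw [RCLike.conj_re]; exact h5.1
    · rw [RCLike.conj_im, h5.2, neg_zero]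
  obtain ⟨h3, h4⟩ := (RCLike.nonneg_iff (K := ℂ)).1 h2
  refine ⟨?_, h3⟩
  apply Complex.ext
  · simp
  · simpa using h4.symm

/-- **ANA-2**: the trace formula on the group algebra. -/
theorem it_trace_formula (hmeas : ∀ v, Measurable fun X => ((chi X v : Circle) : ℂ))
    (horth : ∀ v, v ≠ 0 → ∫ X, ((chi X v : Circle) : ℂ) ∂m = 0)
    (a : MonoidAlgebra ℂ (ItSemi Γ V)) :
    Integrable (fun X => scTr (itFib (chi X) a)) m ∧
      ∫ X, scTr (itFib (chi X) a) ∂m = scTr (itReg (ItSemi Γ V) a) := by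
  have := it_key m chi hmeas horth a 1 1
  simpa only [itPhi_one, ← scTr_eq_inner] using this




omit [DistribMulAction Γ V] [AddCommGroup V] in
theorem it_scTr_norm_le (S : ScL2 Γ →L[ℂ] ScL2 Γ) : ‖scTr S‖ ≤ ‖S‖ := by
  unfold scTr
  calc ‖S (scDelta 1) 1‖ ≤ ‖S (scDelta 1)‖ := scL2_norm_apply_le _ _
    _ ≤ ‖S‖ * ‖scDelta (1 : Γ)‖ := S.le_opNorm _
    _ = ‖S‖ := by rw [scDelta_norm, mul_one]

omit [DistribMulAction Γ V] [AddCommGroup V] in
theorem it_scTr_sub (S T : ScL2 Γ →L[ℂ] ScL2 Γ) : scTr (S - T) = scTr S - scTr T := by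
  simp [scTr]

/-- the gap passes from the fibres to the regular representation. -/
theorem it_gap_transfer (hmeas : ∀ v, Measurable fun X => ((chi X v : Circle) : ℂ))
    (horth : ∀ v, v ≠ 0 → ∫ X, ((chi X v : Circle) : ℂ) ∂m = 0)
    (a : MonoidAlgebra ℂ (ItSemi Γ V)) (ε M : ℝ)
    (hgap : ∀ X, ItGap (itFib (chi X) a) ε M) : ItGap (itReg (ItSemi Γ V) a) ε M := by
  refine ⟨it_pos_transfer m chi hmeas horth a (fun X => (hgap X).pos), ?_, ?_⟩
  · have h := it_pos_transfer m chi hmeas horth ((M : ℂ) • 1 - a) (fun X => by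
      have h1 := (hgap X).le
      rwa [map_sub, map_smul, map_one, Complex.coe_smul])
    rwa [map_sub, map_smul, map_one, Complex.coe_smul] at h
  · have h := it_pos_transfer m chi hmeas horth (a * a - (ε : ℂ) • a) (fun X => by
      have h1 := (hgap X).gap
      rwa [map_sub, map_smul, map_mul, Complex.coe_smul])
    rwa [map_sub, map_smul, map_mul, Complex.coe_smul] at h

/-- **ANA** (Section 5.1 + Proposition 5.5 of the paper, abstract form). -/
theorem it_ana_main (hmeas : ∀ v, Measurable fun X => ((chi X v : Circle) : ℂ))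
    (horth : ∀ v, v ≠ 0 → ∫ X, ((chi X v : Circle) : ℂ) ∂m = 0)
    (a : MonoidAlgebra ℂ (ItSemi Γ V)) (ε M : ℝ) (hε : 0 < ε) (hεM : ε ≤ M)
    (hgap : ∀ X, ItGap (itFib (chi X) a) ε M) :
    IsStarProjection (itProj (itReg (ItSemi Γ V) a) ε) ∧
      itProj (itReg (ItSemi Γ V) a) ε ∈ scRed (ItSemi Γ V) ∧
      Integrable (fun X => scTr (itProj (itFib (chi X) a) ε)) m ∧
      scTr (itProj (itReg (ItSemi Γ V) a) ε) = ∫ X, scTr (itProj (itFib (chi X) a) ε) ∂m := by
  have hT : ItGap (itReg (ItSemi Γ V) a) ε M := it_gap_transfer m chi hmeas horth a ε M hgap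
  have hMpos : 0 < M := hε.trans_le hεM
  let b : ℕ → MonoidAlgebra ℂ (ItSemi Γ V) := fun n => (1 - ((M⁻¹ : ℝ) : ℂ) • a) ^ n
  have hb1 : ∀ n, itReg (ItSemi Γ V) (b n) =
      ((1 : ScL2 (ItSemi Γ V) →L[ℂ] ScL2 (ItSemi Γ V)) - M⁻¹ • itReg (ItSemi Γ V) a) ^ n := by
    intro n
    simp only [b]
    rw [map_pow, map_sub, map_smul, map_one, Complex.coe_smul]
    rfl
  have hb2 : ∀ n X, itFib (chi X) (b n) =
      ((1 : ScL2 Γ →L[ℂ] ScL2 Γ) - M⁻¹ • itFib (chi X) a) ^ n := by
    intro n X
    simp only [b]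
    rw [map_pow, map_sub, map_smul, map_one, Complex.coe_smul]
    rfl
  have hr0 : 0 ≤ 1 - ε / M := by
    rw [sub_nonneg, div_le_one hMpos]; exact hεM
  have hr1 : 1 - ε / M < 1 := by
    have : 0 < ε / M := div_pos hε hMpos
    linarith
  have hr : Filter.Tendsto (fun n : ℕ => (1 - ε / M) ^ n) Filter.atTop (nhds 0) :=
    tendsto_pow_atTop_nhds_zero_of_lt_one hr0 hr1
  refine ⟨hT.isStarProjection hε, ?_, ?_⟩
  · exact (scRed_isClosed _).mem_of_tendsto (hT.tendsto_pow hε hεM)
      (Filter.Eventually.of_forall fun n => by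
        have h := itReg_mem _ (b n)
        rw [hb1] at h
        exact h)
  · let f : ℕ → Ω → ℂ := fun n X => scTr (itFib (chi X) (b n))
    let F : Ω → ℂ := fun X => scTr (itProj (itFib (chi X) a) ε)
    have hbound : ∀ n X, ‖f n X - F X‖ ≤ (1 - ε / M) ^ n := by
      intro n X
      simp only [f, F]
      rw [← it_scTr_sub, hb2]
      exact (it_scTr_norm_le _).trans ((hgap X).norm_pow_sub_le hε hεM n)
    have hlimX : ∀ X, Filter.Tendsto (fun n => f n X) Filter.atTop (nhds (F X)) := by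
      intro X
      rw [tendsto_iff_norm_sub_tendsto_zero]
      exact squeeze_zero (fun n => norm_nonneg _) (fun n => hbound n X) hr
    have hfint : ∀ n, Integrable (f n) m := fun n =>
      (it_trace_formula m chi hmeas horth (b n)).1
    have hFmeas : AEStronglyMeasurable F m :=
      aestronglyMeasurable_of_tendsto_ae Filter.atTop
        (fun n => (hfint n).aestronglyMeasurable) (Filter.Eventually.of_forall hlimX)
    have hFint : Integrable F m := by
      refine Integrable.of_bound hFmeas 2 (Filter.Eventually.of_forall fun X => ?_)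
      have h0 := hbound 0 X
      have h1 : f 0 X = 1 := by
        simp [f, b, scTr]
      rw [h1, pow_zero] at h0
      calc ‖F X‖ = ‖(1 : ℂ) - (1 - F X)‖ := by congr 1; ring
        _ ≤ ‖(1 : ℂ)‖ + ‖1 - F X‖ := norm_sub_le _ _
        _ ≤ 2 := by rw [norm_one]; linarith
    refine ⟨hFint, ?_⟩
    have hlim1 : Filter.Tendsto (fun n => ∫ X, f n X ∂m) Filter.atTop (nhds (∫ X, F X ∂m)) := by
      rw [tendsto_iff_norm_sub_tendsto_zero]
      refine squeeze_zero (fun n => norm_nonneg _) (fun n => ?_) hr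
      rw [← integral_sub (hfint n) hFint]
      have := norm_integral_le_of_norm_le_const (μ := m) (f := fun X => f n X - F X)
        (C := (1 - ε / M) ^ n) (Filter.Eventually.of_forall fun X => hbound n X)
      simpa using this
    have hlim2 : Filter.Tendsto (fun n => ∫ X, f n X ∂m) Filter.atTop
        (nhds (scTr (itProj (itReg (ItSemi Γ V) a) ε))) := by
      have h1 : ∀ n, ∫ X, f n X ∂m = scTr (((1 : ScL2 (ItSemi Γ V) →L[ℂ] ScL2 (ItSemi Γ V)) -
          M⁻¹ • itReg (ItSemi Γ V) a) ^ n) := by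
        intro n
        rw [← hb1]
        exact (it_trace_formula m chi hmeas horth (b n)).2
      simp only [h1]
      rw [tendsto_iff_norm_sub_tendsto_zero]
      refine squeeze_zero (fun n => norm_nonneg _) (fun n => ?_) hr
      rw [← it_scTr_sub]
      exact (it_scTr_norm_le _).trans (hT.norm_pow_sub_le hε hεM n)
    exact tendsto_nhds_unique hlim2 hlim1

end meas

end Claimed.Agent.R300
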