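/-
Row 300 (S0552, irrational trace), IT back end, owner helper128.  Prefix `it`/`It`.

THE INTERFACE between the front end (expanders + labelling + graphical small cancellation) and the
back end (codes, module, operator, trace).  `ItGraphs` is the raw data, `ItGraphs.Good` is what the
front end has to prove about it ((G1), (LEAF), (G3), (E) of the notes of helper47).

Dart model: `L` is the finite set of letters *with* their formal inverses (`inv` is a fixed point
free involution, e.g. `L = S × Bool`), `val : L → Γ`; the `i`-th relator graph has vertex set `Vt i`,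
the set of outgoing labels (ports) at `v` is `J i v`, and `nb i v s` is the end of the edge leaving
`v` with label `s` (junk for `s ∉ J i v`).  `φ i : Vt i → Γ` is the labelled map to the Cayley graph.
The copy with index `(g, i)` is `v ↦ g * φ i v`.
-/
import Mathlib

set_option autoImplicit false

namespace Claimed.Agent.R300

/-- Raw data: letters, group, relator graphs in the dart model, and the constants. -/
structure ItGraphs (L Γ : Type) (Vt : ℕ → Type) where
  inv : L → L
  val : L → Γ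
  d : ℕ
  J : ∀ i, Vt i → Finset L
  nb : ∀ i, Vt i → L → Vt i
  φ : ∀ i, Vt i → Γ
  σ : ℕ → ℕ
  κ : ℝ
  ρ : ℝ

namespace ItGraphs

variable {L Γ : Type} {Vt : ℕ → Type} (D : ItGraphs L Γ Vt)

/-- end point of the walk starting at `v` and reading `w`. -/
def run (i : ℕ) : Vt i → List L → Vt i
  | v, [] => v
  | v, s :: w => run i (D.nb i v s) w

/-- the word `w` can be read in `Θ_i` starting from `v`. -/
def ok (i : ℕ) : Vt i → List L → Prop
  | _, [] => True
  | v, s :: w => s ∈ D.J i v ∧ ok i (D.nb i v s) w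

/-- stores the equation lemmas of `run` and `ok` in this module (so that no later module keeps a copy of its own). -/
theorem run_ok_forced : True := by
  have := @run.eq_1
  have := @run.eq_def
  have := @ok.eq_1
  have := @ok.eq_def
  trivial

/-- reduced words (no letter is followed by its inverse). -/
def red (w : List L) : Prop := w.IsChain (fun s t => t ≠ D.inv s)

/-- the intrinsic ball of radius `σ_i / 8` around `b`. -/
def ball (i : ℕ) (b : Vt i) : Set (Vt i) :=
  {v | ∃ w : List L, 8 * w.length ≤ D.σ i ∧ D.ok i b w ∧ D.run i b w = v}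

/-- the constant `c = (η/2) min(κ,1)`, `η = 1/100`. -/
noncomputable def c : ℝ := 1 / 200 * min D.κ 1

/-- the code dimensions `k_i = ⌊n_i / 2⌋`. -/
def k [∀ i, Fintype (Vt i)] (_D : ItGraphs L Γ Vt) (i : ℕ) : ℕ := Fintype.card (Vt i) / 2

/-- What the front end proves. -/
structure Good [Group Γ] [∀ i, Fintype (Vt i)] (D : ItGraphs L Γ Vt) : Prop where
  inv_inv : ∀ s, D.inv (D.inv s) = s
  inv_ne : ∀ s, D.inv s ≠ s
  val_inv : ∀ s, D.val (D.inv s) = (D.val s)⁻¹
  gen : Subgroup.closure (Set.range D.val) = ⊤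
  three_le : 3 ≤ D.d
  J_card : ∀ i v, (D.J i v).card = D.d
  nb_inv : ∀ i v s, s ∈ D.J i v →
    D.inv s ∈ D.J i (D.nb i v s) ∧ D.nb i (D.nb i v s) (D.inv s) = v
  φ_nb : ∀ i v s, s ∈ D.J i v → D.φ i (D.nb i v s) = D.φ i v * D.val s
  /-- (G1) -/
  φ_inj : ∀ i, Function.Injective (D.φ i)
  /-- (G3): `Γ` is presented by the labels of the closed walks of the `Θ_i`. -/
  univ : ∀ (H : Type) [Group H] (f : L → H), (∀ s, f (D.inv s) = (f s)⁻¹) →
    (∀ i v w, D.ok i v w → D.run i v w = v → (w.map f).prod = 1) →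
    ∃ Ψ : Γ →* H, ∀ s, Ψ (D.val s) = f s
  /-- (LEAF): every finite family of at least two copies has a member `Q`, different from any
  prescribed member, that meets all the others inside one ball of radius `σ / 8` of `Q`. -/
  leaf : ∀ (F : Finset (Γ × ℕ)) (P0 : Γ × ℕ), P0 ∈ F → 2 ≤ F.card →
    ∃ Q ∈ F, Q ≠ P0 ∧ ∃ b : Vt Q.2, ∀ Q' ∈ F, Q' ≠ Q → ∀ v v',
      Q.1 * D.φ Q.2 v = Q'.1 * D.φ Q'.2 v' → v ∈ D.ball Q.2 b
  /-- (E) -/
  ρ_pos : 0 < D.ρ
  κ_pos : 0 < D.κ
  poincare : ∀ i (f : Vt i → ℂ), ∑ v, f v = 0 →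
    D.ρ * ∑ v, ‖f v‖ ^ 2 ≤ 1 / 2 * ∑ v, ∑ s ∈ D.J i v, ‖f v - f (D.nb i v s)‖ ^ 2
  expansion : ∀ i (W : Finset (Vt i)),
    D.κ * min (W.card : ℝ) ((Fintype.card (Vt i) : ℝ) - W.card) ≤
      ({z : Vt i × L | z.1 ∈ W ∧ z.2 ∈ D.J i z.1 ∧ D.nb i z.1 z.2 ∉ W}.ncard : ℝ)
  girth : ∀ i v w, w ≠ [] → D.red w → D.ok i v w → D.run i v w = v → D.σ i ≤ w.length
  ball_small : ∀ i b, 100 * (D.ball i b).ncard < Fintype.card (Vt i)
  card_gt : ∀ i, 100 < Fintype.card (Vt i)
  σ_gt : ∀ i, 16 < D.σ i
  σ_c : ∀ i, 20 < D.c * D.σ i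
  k_mono : StrictMono D.k
  k_gap : Filter.Tendsto (fun i => D.k (i + 1) - D.k i) Filter.atTop Filter.atTop

end ItGraphs

end Claimed.Agent.R300
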