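/-
Row 300 (S0552), IT back end, owner helper128.
The lamp module `V = F_p^(Γ) / W`, its compact dual `Ω ⊆ F_p^Γ` with Haar probability measure, the
characters, and the group algebra element `t = d - ∑_s f_s u_s f_{s⁻¹}`.
-/
import Claimed.Agent.R300.ItAna

set_option autoImplicit false

namespace Claimed.Agent.R300

open MeasureTheory

variable {Γ : Type} [Group Γ] {p : ℕ}

/-- left translation of finitely supported patterns, `g e_h = e_{gh}`. -/
noncomputable def itShift (p : ℕ) (g : Γ) : (Γ →₀ ZMod p) ≃ₗ[ZMod p] (Γ →₀ ZMod p) :=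
  Finsupp.domLCongr (Equiv.mulLeft g)

theorem itShift_apply (g : Γ) (z : Γ →₀ ZMod p) (h : Γ) : itShift p g z h = z (g⁻¹ * h) := rfl

theorem itShift_single (g h : Γ) (a : ZMod p) :
    itShift p g (Finsupp.single h a) = Finsupp.single (g * h) a := by
  simp [itShift]

/-- the pairing `⟨z, X⟩ = ∑_h z(h) X(h)`. -/
noncomputable def itPair (X : Γ → ZMod p) : (Γ →₀ ZMod p) →ₗ[ZMod p] ZMod p :=
  Finsupp.linearCombination (ZMod p) X

omit [Group Γ] in
theorem itPair_apply (X : Γ → ZMod p) (z : Γ →₀ ZMod p) :
    itPair X z = z.sum fun h a => a * X h := by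
  simp [itPair, Finsupp.linearCombination_apply]

omit [Group Γ] in
theorem itPair_single (X : Γ → ZMod p) (h : Γ) (a : ZMod p) :
    itPair X (Finsupp.single h a) = a * X h := by
  simp [itPair]

omit [Group Γ] in
theorem itPair_continuous (z : Γ →₀ ZMod p) : Continuous fun X : Γ → ZMod p => itPair X z := by
  simp only [itPair_apply, Finsupp.sum]
  refine continuous_finsetSum _ (fun h _ => ?_)
  exact (continuous_of_discreteTopology (f := fun a : ZMod p => z h * a)).comp (continuous_apply h)

omit [Group Γ] in
theorem itPair_add (X Y : Γ → ZMod p) (z : Γ →₀ ZMod p) :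
    itPair (X + Y) z = itPair X z + itPair Y z := by
  simp [itPair_apply, Finsupp.sum, mul_add, Finset.sum_add_distrib]

/-- a translation invariant submodule of relations. -/
structure ItMod (Γ : Type) [Group Γ] (p : ℕ) where
  W : Submodule (ZMod p) (Γ →₀ ZMod p)
  shift_mem : ∀ (g : Γ) (z : Γ →₀ ZMod p), z ∈ W → itShift p g z ∈ W

namespace ItMod

variable (M : ItMod Γ p)

/-- the quotient module. -/
def V : Type := (Γ →₀ ZMod p) ⧸ M.W

noncomputable instance : AddCommGroup M.V := inferInstanceAs (AddCommGroup ((Γ →₀ ZMod p) ⧸ M.W))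
noncomputable instance : Module (ZMod p) M.V :=
  inferInstanceAs (Module (ZMod p) ((Γ →₀ ZMod p) ⧸ M.W))

/-- the quotient map. -/
noncomputable def cls : (Γ →₀ ZMod p) →ₗ[ZMod p] M.V := M.W.mkQ

/-- the action of `g` on the quotient. -/
noncomputable def act (g : Γ) : M.V →ₗ[ZMod p] M.V :=
  M.W.mapQ M.W (itShift p g).toLinearMap (fun z hz => M.shift_mem g z hz)

theorem act_cls (g : Γ) (z : Γ →₀ ZMod p) : M.act g (M.cls z) = M.cls (itShift p g z) := rfl

theorem cls_surjective : Function.Surjective M.cls := Submodule.mkQ_surjective M.W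

noncomputable instance : DistribMulAction Γ M.V where
  smul g v := M.act g v
  one_smul v := by
    obtain ⟨z, rfl⟩ := M.cls_surjective v
    show M.act 1 (M.cls z) = _
    rw [act_cls]
    congr 1
    ext h
    simp [itShift_apply]
  mul_smul g g' v := by
    obtain ⟨z, rfl⟩ := M.cls_surjective v
    show M.act (g * g') (M.cls z) = M.act g (M.act g' (M.cls z))
    rw [act_cls, act_cls, act_cls]
    congr 1
    ext h
    simp [itShift_apply, mul_assoc]
  smul_zero g := map_zero (M.act g)
  smul_add g u v := map_add (M.act g) u v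

theorem smul_cls (g : Γ) (z : Γ →₀ ZMod p) : g • M.cls z = M.cls (itShift p g z) := rfl

/-- the distinguished vector `v_* = [e_1]`. -/
noncomputable def vs : M.V := M.cls (Finsupp.single 1 1)

/-- the compact dual, as the group of patterns annihilating the relations. -/
def Om : AddSubgroup (Γ → ZMod p) where
  carrier := {X | ∀ z ∈ M.W, itPair X z = 0}
  zero_mem' := fun z _ => by simp [itPair]
  add_mem' := by
    intro X Y hX hY z hz
    have : itPair (X + Y) z = itPair X z + itPair Y z := by
      simp [itPair, Finsupp.linearCombination_apply, Finsupp.sum, mul_add, Finset.sum_add_distrib]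
    rw [this, hX z hz, hY z hz, add_zero]
  neg_mem' := by
    intro X hX z hz
    have : itPair (-X) z = - itPair X z := by
      simp [itPair, Finsupp.linearCombination_apply, Finsupp.sum]
    rw [this, hX z hz, neg_zero]

instance : MeasurableSpace M.Om := borel _
instance : BorelSpace M.Om := ⟨rfl⟩

/-- the linear functional on `V` defined by a pattern in `Ω`. -/
noncomputable def fn (X : M.Om) : M.V →ₗ[ZMod p] ZMod p :=
  M.W.liftQ (itPair X.1) (fun z hz => X.2 z hz)

theorem fn_cls (X : M.Om) (z : Γ →₀ ZMod p) : M.fn X (M.cls z) = itPair X.1 z := rfl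

/-- the character of `V` defined by a pattern in `Ω`. -/
noncomputable def chi [NeZero p] (X : M.Om) : AddChar M.V Circle :=
  (ZMod.toCircle (N := p)).compAddMonoidHom (M.fn X).toAddMonoidHom

/-- **HAAR-1**. -/
theorem Om_isClosed : IsClosed (M.Om : Set (Γ → ZMod p)) := by
  have : (M.Om : Set (Γ → ZMod p)) = ⋂ z ∈ M.W, {X | itPair X z = 0} := by
    ext X
    simp only [Set.mem_iInter]
    rfl
  rw [this]
  exact isClosed_biInter (fun z _ => isClosed_eq (itPair_continuous z) continuous_const)

instance [NeZero p] : CompactSpace M.Om :=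
  isCompact_iff_compactSpace.1 M.Om_isClosed.isCompact

/-- the Haar probability measure of `Ω`. -/
noncomputable def haar [NeZero p] : Measure M.Om := Measure.addHaarMeasure ⊤

instance [NeZero p] : IsProbabilityMeasure M.haar :=
  ⟨by simpa [haar] using
    Measure.addHaarMeasure_self (K₀ := (⊤ : TopologicalSpace.PositiveCompacts M.Om))⟩

instance [NeZero p] : M.haar.IsAddLeftInvariant := by
  unfold haar
  infer_instance

theorem chi_apply [NeZero p] (X : M.Om) (v : M.V) : M.chi X v = ZMod.toCircle (M.fn X v) := rfl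

theorem chi_continuous [NeZero p] (v : M.V) :
    Continuous fun X : M.Om => ((M.chi X v : Circle) : ℂ) := by
  obtain ⟨z, rfl⟩ := M.cls_surjective v
  simp only [chi_apply, fn_cls]
  have h1 : Continuous fun X : M.Om => itPair X.1 z :=
    (itPair_continuous z).comp continuous_subtype_val
  exact (continuous_of_discreteTopology
    (f := fun a : ZMod p => ((ZMod.toCircle a : Circle) : ℂ))).comp h1

/-- **HAAR-2**. -/
theorem chi_measurable [NeZero p] (v : M.V) :
    Measurable fun X : M.Om => ((M.chi X v : Circle) : ℂ) :=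
  (M.chi_continuous v).measurable

theorem chi_add [NeZero p] (X Y : M.Om) (v : M.V) : M.chi (X + Y) v = M.chi X v * M.chi Y v := by
  obtain ⟨z, rfl⟩ := M.cls_surjective v
  simp only [chi_apply, fn_cls]
  rw [← AddChar.map_add_eq_mul]
  congr 1
  exact itPair_add _ _ _

/-- **HAAR-3** (orthogonality of characters). -/
theorem chi_integral [Fact p.Prime] (v : M.V) (hv : v ≠ 0) :
    ∫ X : M.Om, ((M.chi X v : Circle) : ℂ) ∂M.haar = 0 := by
  obtain ⟨z, rfl⟩ := M.cls_surjective v
  have hz : z ∉ M.W := by
    intro hz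
    exact hv ((Submodule.Quotient.mk_eq_zero M.W).2 hz)
  obtain ⟨f, hf1, hf2⟩ := Submodule.exists_le_ker_of_notMem hz
  have hpair : ∀ y : Γ →₀ ZMod p, itPair (fun h => f (Finsupp.single h 1)) y = f y := by
    intro y
    induction y using Finsupp.induction_linear with
    | zero => simp
    | add a b ha hb => rw [map_add, map_add, ha, hb]
    | single h a =>
      rw [itPair_single]
      have : Finsupp.single h a = a • Finsupp.single h (1 : ZMod p) := by simp
      rw [this, map_smul, smul_eq_mul]
  let X0 : M.Om := ⟨fun h => f (Finsupp.single h 1), fun y hy => by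
    rw [hpair]; exact hf2 hy⟩
  have hne : ((M.chi X0 (M.cls z) : Circle) : ℂ) ≠ 1 := by
    intro h
    have h1 : M.chi X0 (M.cls z) = 1 := by
      exact Circle.ext (by simpa using h)
    rw [chi_apply, fn_cls, hpair] at h1
    have h2 : ZMod.toCircle (f z) = ZMod.toCircle (0 : ZMod p) := by
      rw [h1, AddChar.map_zero_eq_one]
    exact hf1 (ZMod.injective_toCircle h2)
  have hinv := integral_add_left_eq_self (μ := M.haar)
    (fun X : M.Om => ((M.chi X (M.cls z) : Circle) : ℂ)) X0
  simp only [chi_add, Circle.coe_mul] at hinv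
  rw [integral_const_mul] at hinv
  have h3 : (((M.chi X0 (M.cls z) : Circle) : ℂ) - 1) *
      ∫ X : M.Om, ((M.chi X (M.cls z) : Circle) : ℂ) ∂M.haar = 0 := by
    rw [sub_mul, hinv, one_mul, sub_self]
  rcases mul_eq_zero.1 h3 with h | h
  · exact absurd (sub_eq_zero.1 h) hne
  · exact h

/-- **FGV**: `V` is generated by the orbit of `v_*`. -/
theorem closure_orbit : AddSubgroup.closure (Set.range fun g : Γ => g • M.vs) = ⊤ := by
  rw [eq_top_iff]
  intro v _
  obtain ⟨z, rfl⟩ := M.cls_surjective v
  induction z using Finsupp.induction_linear with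
  | zero => rw [map_zero]; exact zero_mem _
  | add a b ha hb => rw [map_add]; exact add_mem (ha trivial) (hb trivial)
  | single h a =>
    have h1 : M.cls (Finsupp.single h 1) ∈
        AddSubgroup.closure (Set.range fun g : Γ => g • M.vs) := by
      apply AddSubgroup.subset_closure
      refine ⟨h, ?_⟩
      show h • M.cls (Finsupp.single 1 1) = _
      rw [smul_cls, itShift_single, mul_one]
    obtain ⟨n, rfl⟩ : ∃ n : ℤ, (n : ZMod p) = a := ZMod.intCast_surjective a
    have h2 : Finsupp.single h ((n : ZMod p)) = n • Finsupp.single h (1 : ZMod p) := by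
      simp
    rw [h2, map_zsmul]
    exact zsmul_mem h1 n

end ItMod

/-! ### The operator -/

section oper

variable {L : Type} [Fintype L] [NeZero p] (M : ItMod Γ p)

/-- `E_a`: the Fourier sum of the indicator of `{X(1) = a}`. -/
noncomputable def itE (a : ZMod p) : MonoidAlgebra ℂ (ItSemi Γ M.V) :=
  ∑ k : ZMod p, MonoidAlgebra.single (ItSemi.inl (Multiplicative.ofAdd (k • M.vs)))
    ((p : ℂ)⁻¹ * ((ZMod.toCircle (-(k * a)) : Circle) : ℂ))

open Classical in
/-- `f_s`: the indicator of `{s ∈ dec (X(1))}`. -/
noncomputable def itF (dec : ZMod p → Finset L) (s : L) : MonoidAlgebra ℂ (ItSemi Γ M.V) :=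
  ∑ a : ZMod p, if s ∈ dec a then itE M a else 0

/-- `t = d - ∑_s f_s u_s f_{s⁻¹}`. -/
noncomputable def itT (val : L → Γ) (inv : L → L) (dec : ZMod p → Finset L) (d : ℕ) :
    MonoidAlgebra ℂ (ItSemi Γ M.V) :=
  (d : ℂ) • 1 - ∑ s : L, itF M dec s * MonoidAlgebra.single (ItSemi.inr (val s)) 1 *
    itF M dec (inv s)

end oper

end Claimed.Agent.R300
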