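import Claimed.Agent.R300.ScL2

/-!
# Row 300, paper IT, Section 5.3: Cheeger inequality with a potential (dart model)

A (multi)graph on `V` is given by darts: letters `L`, `step x s` the other end of the dart `s`
at `x`, `inv` the reversal of letters and `en x s` the predicate "the dart is enabled".
The operator is `A = d - Adj`.  A deficit bound on all finite subsets of `U` gives the lower
bound `c^2/(8d)` for the quadratic form of `A` on `ℓ²(U)`.
-/

set_option autoImplicit false

namespace Claimed.Agent.R300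

open scoped ComplexConjugate InnerProductSpace
open Finset

/-- Dart model of a labelled graph with enabled darts. -/
structure ItsDart (V L : Type) where
  step : V → L → V
  inv : L → L
  en : V → L → Prop
  step_inv : ∀ x s, step (step x s) (inv s) = x
  inv_inv : ∀ s, inv (inv s) = s
  en_symm : ∀ x s, en x s → en (step x s) (inv s)

variable {V L : Type}

namespace ItsDart

variable (G : ItsDart V L)

/-- Reversal of a dart. -/
def rev (z : V × L) : V × L := (G.step z.1 z.2, G.inv z.2)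

theorem rev_rev (z : V × L) : G.rev (G.rev z) = z := by
  rcases z with ⟨x, s⟩
  simp [rev, G.step_inv, G.inv_inv]

variable [Fintype L]

open Classical in
/-- The enabled darts with both ends in `F`. -/
noncomputable def darts (F : Finset V) : Finset (V × L) :=
  (F ×ˢ (Finset.univ : Finset L)).filter fun z => G.en z.1 z.2 ∧ G.step z.1 z.2 ∈ F

theorem mem_darts {F : Finset V} {z : V × L} :
    z ∈ G.darts F ↔ z.1 ∈ F ∧ G.en z.1 z.2 ∧ G.step z.1 z.2 ∈ F := by
  classical
  simp [darts]

theorem rev_mem_darts {F : Finset V} {z : V × L} (hz : z ∈ G.darts F) : G.rev z ∈ G.darts F := by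
  rw [mem_darts] at hz ⊢
  obtain ⟨h1, h2, h3⟩ := hz
  refine ⟨h3, G.en_symm _ _ h2, ?_⟩
  simpa [rev, G.step_inv] using h1

theorem sum_darts_rev (F : Finset V) (φ : V → V → ℝ) :
    ∑ z ∈ G.darts F, φ z.1 (G.step z.1 z.2) = ∑ z ∈ G.darts F, φ (G.step z.1 z.2) z.1 := by
  refine Finset.sum_nbij' G.rev G.rev (fun z hz => G.rev_mem_darts hz)
    (fun z hz => G.rev_mem_darts hz) (fun z _ => G.rev_rev z) (fun z _ => G.rev_rev z) ?_
  intro z _
  simp [rev, G.step_inv]

open Classical in
theorem sum_darts_eq (F : Finset V) (f : V × L → ℝ) :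
    ∑ z ∈ G.darts F, f z =
      ∑ x ∈ F, ∑ s, if G.en x s ∧ G.step x s ∈ F then f (x, s) else 0 := by
  rw [darts, Finset.sum_filter, Finset.sum_product]

open Classical in
/-- Number of enabled darts at `x` that stay in `F`. -/
noncomputable def degIn (F : Finset V) (x : V) : ℕ :=
  (Finset.univ.filter fun s => G.en x s ∧ G.step x s ∈ F).card

theorem sum_darts_src (F : Finset V) (ψ : V → ℝ) :
    ∑ z ∈ G.darts F, ψ z.1 = ∑ x ∈ F, (G.degIn F x : ℝ) * ψ x := by
  classical
  rw [G.sum_darts_eq F fun z => ψ z.1]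
  refine Finset.sum_congr rfl fun x _ => ?_
  rw [← Finset.sum_filter]
  simp only [Finset.sum_const, nsmul_eq_mul, degIn]

theorem degIn_le [∀ x, DecidablePred (G.en x)] (F : Finset V) (x : V) :
    G.degIn F x ≤ (Finset.univ.filter fun s => G.en x s).card := by
  classical
  unfold degIn
  refine Finset.card_le_card fun s hs => ?_
  simp only [Finset.mem_filter, Finset.mem_univ, true_and] at hs ⊢
  exact hs.1

end ItsDart

/-- Discrete co-area inequality, by induction on the size of the support. -/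
theorem its_coarea [DecidableEq V] {ι : Type} (F : Finset V) (D : Finset ι) (a b : ι → V)
    (ha : ∀ z ∈ D, a z ∈ F) (hb : ∀ z ∈ D, b z ∈ F) (w : V → ℝ)
    (hS : ∀ S ⊆ F, 0 ≤ ∑ x ∈ S, w x +
      ((D.filter fun z => a z ∈ S ∧ b z ∉ S).card : ℝ))
    (h : V → ℝ) (h0 : ∀ x, 0 ≤ h x) :
    0 ≤ ∑ x ∈ F, w x * h x + ∑ z ∈ D, max (h (a z) - h (b z)) 0 := by
  induction' hn : (F.filter fun x => 0 < h x).card using Nat.strong_induction_on with n ih
    generalizing h
  set S := F.filter fun x => 0 < h x with hSdef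
  by_cases hSe : S = ∅
  · have hz : ∀ x ∈ F, h x = 0 := by
      intro x hx
      by_contra hne
      have : x ∈ S := by
        rw [hSdef, Finset.mem_filter]
        exact ⟨hx, lt_of_le_of_ne (h0 x) (Ne.symm hne)⟩
      rw [hSe] at this
      exact absurd this (Finset.notMem_empty x)
    have h1 : ∑ x ∈ F, w x * h x = 0 :=
      Finset.sum_eq_zero fun x hx => by rw [hz x hx, mul_zero]
    rw [h1, zero_add]
    exact Finset.sum_nonneg fun z _ => le_max_right _ _
  · obtain ⟨x0, hx0, hmin⟩ := S.exists_min_image h (Finset.nonempty_of_ne_empty hSe)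
    set m := h x0 with hm
    have hSF : S ⊆ F := Finset.filter_subset _ _
    have hmpos : 0 < m := (Finset.mem_filter.1 hx0).2
    have hnotS : ∀ x ∈ F, x ∉ S → h x = 0 := by
      intro x hx hxS
      by_contra hne
      exact hxS (Finset.mem_filter.2 ⟨hx, lt_of_le_of_ne (h0 x) (Ne.symm hne)⟩)
    set h' : V → ℝ := fun x => if x ∈ S then h x - m else h x with hh'
    have h'0 : ∀ x, 0 ≤ h' x := by
      intro x
      by_cases hx : x ∈ S
      · simp only [hh', hx, if_true]
        linarith [hmin x hx]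
      · simp only [hh', hx, if_false]
        exact h0 x
    have hcard : (F.filter fun x => 0 < h' x).card < n := by
      rw [← hn]
      refine Finset.card_lt_card ?_
      rw [Finset.ssubset_iff_of_subset]
      · refine ⟨x0, hx0, ?_⟩
        simp [hh', hx0, hm]
      · intro x hx
        rw [Finset.mem_filter] at hx
        by_contra hxS
        have h2 : h' x = h x := by simp only [hh', hxS, if_false]
        rw [h2, hnotS x hx.1 hxS] at hx
        exact lt_irrefl _ hx.2
    have key := ih _ hcard h' h'0 rfl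
    have e1 : ∑ x ∈ F, w x * h x = m * ∑ x ∈ S, w x + ∑ x ∈ F, w x * h' x := by
      have : ∑ x ∈ S, w x = ∑ x ∈ F, if x ∈ S then w x else 0 := by
        rw [← Finset.sum_filter]
        congr 1
        ext x
        simp only [Finset.mem_filter]
        exact ⟨fun hx => ⟨hSF hx, hx⟩, fun hx => hx.2⟩
      rw [this, Finset.mul_sum, ← Finset.sum_add_distrib]
      refine Finset.sum_congr rfl fun x _ => ?_
      by_cases hx : x ∈ S
      · simp only [hh', hx, if_true]; ring
      · simp only [hh', hx, if_false]; ring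
    have e2 : ∑ z ∈ D, max (h (a z) - h (b z)) 0 =
        m * ((D.filter fun z => a z ∈ S ∧ b z ∉ S).card : ℝ) +
          ∑ z ∈ D, max (h' (a z) - h' (b z)) 0 := by
      rw [Finset.card_filter, Nat.cast_sum, Finset.mul_sum, ← Finset.sum_add_distrib]
      refine Finset.sum_congr rfl fun z hz => ?_
      by_cases h1 : a z ∈ S <;> by_cases h2 : b z ∈ S
      · simp only [hh', h1, h2, if_true, not_true, and_false, if_false]
        simp
      · have hb0 : h (b z) = 0 := hnotS _ (hb z hz) h2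
        have ha1 : m ≤ h (a z) := hmin _ h1
        simp only [hh', h1, h2, if_true, if_false, not_false_eq_true, and_true, hb0, sub_zero]
        rw [max_eq_left (by linarith), max_eq_left (by linarith)]
        simp
      · have ha0 : h (a z) = 0 := hnotS _ (ha z hz) h1
        have hb1 : m ≤ h (b z) := hmin _ h2
        simp only [hh', h1, h2, if_true, if_false, not_true, and_false, ha0, zero_sub]
        rw [max_eq_right (by linarith), max_eq_right (by linarith)]
        simp
      · simp only [hh', h1, h2, if_false, false_and]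
        simp
    rw [e1, e2]
    have h3 := hS S hSF
    nlinarith [mul_nonneg hmpos.le h3]

/-- Weighted AM-GM used instead of Cauchy-Schwarz. -/
theorem its_amgm (α : ℝ) (hα : 0 < α) (u v : ℝ) : |u * v| ≤ α * u ^ 2 + 1 / (4 * α) * v ^ 2 := by
  have h1 : α * u ^ 2 + 1 / (4 * α) * v ^ 2 - u * v = α * (u - v / (2 * α)) ^ 2 := by
    field_simp
    ring
  have h2 : α * u ^ 2 + 1 / (4 * α) * v ^ 2 + u * v = α * (u + v / (2 * α)) ^ 2 := by
    field_simp
    ring
  have h3 : 0 ≤ α * (u - v / (2 * α)) ^ 2 := by positivity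
  have h4 : 0 ≤ α * (u + v / (2 * α)) ^ 2 := by positivity
  rw [abs_le]
  constructor <;> linarith

/-- Cheeger inequality with potential, finite real form. -/
theorem its_fin_cheeger [Fintype L] (G : ItsDart V L) [∀ x, DecidablePred (G.en x)] (d : ℕ) (hd : 0 < d)
    (c : ℝ) (hc : 0 < c)
    (hdeg : ∀ x, (Finset.univ.filter fun s => G.en x s).card ≤ d)
    (F : Finset V)
    (hdef : ∀ S ⊆ F, c / 2 * (S.card : ℝ) ≤ d * (S.card : ℝ) - ((G.darts S).card : ℝ))
    (g : V → ℝ) :
    c ^ 2 / (8 * d) * ∑ x ∈ F, g x ^ 2 ≤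
      ∑ x ∈ F, (d : ℝ) * g x ^ 2 - ∑ z ∈ G.darts F, g z.1 * g (G.step z.1 z.2) := by
  classical
  have hd' : (0 : ℝ) < d := by exact_mod_cast hd
  set D := G.darts F with hD
  set N := ∑ x ∈ F, g x ^ 2 with hN
  set W := ∑ x ∈ F, (G.degIn F x : ℝ) * g x ^ 2 with hW
  set X := ∑ z ∈ D, g z.1 * g (G.step z.1 z.2) with hX
  have hN0 : 0 ≤ N := Finset.sum_nonneg fun x _ => by positivity
  -- sums over darts
  have s1 : ∑ z ∈ D, g z.1 ^ 2 = W := G.sum_darts_src F fun x => g x ^ 2
  have s2 : ∑ z ∈ D, g (G.step z.1 z.2) ^ 2 = W := by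
    rw [← s1]
    exact (G.sum_darts_rev F fun u _ => g u ^ 2).symm
  have hWN : W ≤ d * N := by
    rw [hW, hN, Finset.mul_sum]
    refine Finset.sum_le_sum fun x _ => ?_
    refine mul_le_mul_of_nonneg_right ?_ (by positivity)
    exact_mod_cast (G.degIn_le F x).trans (hdeg x)
  have hXW : X ≤ W := by
    have : 2 * X ≤ W + W := by
      nth_rewrite 1 [← s1]
      rw [← s2, hX, Finset.mul_sum, ← Finset.sum_add_distrib]
      refine Finset.sum_le_sum fun z _ => ?_
      nlinarith [sq_nonneg (g z.1 - g (G.step z.1 z.2))]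
    linarith
  -- co-area
  have hco := its_coarea F D (fun z => z.1) (fun z => G.step z.1 z.2)
    (fun z hz => (G.mem_darts.1 hz).1) (fun z hz => (G.mem_darts.1 hz).2.2)
    (fun x => (d : ℝ) - G.degIn F x - c / 2) ?_ (fun x => g x ^ 2) (fun x => by positivity)
  swap
  · intro S hSF
    have h1 := hdef S hSF
    have h2 : ∑ x ∈ S, (G.degIn F x : ℝ) =
        ((D.filter fun z => z.1 ∈ S).card : ℝ) := by
      rw [Finset.card_filter, Nat.cast_sum]
      have := G.sum_darts_src F fun x => if x ∈ S then (1 : ℝ) else 0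
      simp only [Nat.cast_ite, Nat.cast_one, Nat.cast_zero]
      rw [this]
      simp only [mul_ite, mul_one, mul_zero]
      rw [← Finset.sum_filter]
      congr 1
      ext x
      simp only [Finset.mem_filter]
      exact ⟨fun hx => ⟨hSF hx, hx⟩, fun hx => hx.2⟩
    have h3 : (D.filter fun z => z.1 ∈ S).card =
        (G.darts S).card + (D.filter fun z => z.1 ∈ S ∧ G.step z.1 z.2 ∉ S).card := by
      rw [← Finset.card_union_of_disjoint]
      · congr 1
        ext z
        simp only [Finset.mem_filter, Finset.mem_union, hD, G.mem_darts]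
        constructor
        · rintro ⟨⟨h1, h2, h3⟩, h4⟩
          by_cases h5 : G.step z.1 z.2 ∈ S
          · exact Or.inl ⟨h4, h2, h5⟩
          · exact Or.inr ⟨⟨h1, h2, h3⟩, h4, h5⟩
        · rintro (⟨h1, h2, h3⟩ | ⟨⟨h1, h2, h3⟩, h4, _⟩)
          · exact ⟨⟨hSF h1, h2, hSF h3⟩, h1⟩
          · exact ⟨⟨h1, h2, h3⟩, h4⟩
      · rw [Finset.disjoint_left]
        intro z hz hz'
        exact (Finset.mem_filter.1 hz').2.2 (G.mem_darts.1 hz).2.2
    have h4 : ∑ x ∈ S, ((d : ℝ) - G.degIn F x - c / 2) =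
        d * (S.card : ℝ) - ∑ x ∈ S, (G.degIn F x : ℝ) - c / 2 * (S.card : ℝ) := by
      rw [Finset.sum_sub_distrib, Finset.sum_sub_distrib, Finset.sum_const, Finset.sum_const]
      simp only [nsmul_eq_mul]
      ring
    rw [h4, h2, h3]
    push_cast
    linarith
  -- symmetrisation
  have hsym : ∑ z ∈ D, max (g z.1 ^ 2 - g (G.step z.1 z.2) ^ 2) 0 =
      ∑ z ∈ D, max (g (G.step z.1 z.2) ^ 2 - g z.1 ^ 2) 0 :=
    G.sum_darts_rev F fun u v => max (g u ^ 2 - g v ^ 2) 0
  have habs : 2 * ∑ z ∈ D, max (g z.1 ^ 2 - g (G.step z.1 z.2) ^ 2) 0 =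
      ∑ z ∈ D, |g z.1 ^ 2 - g (G.step z.1 z.2) ^ 2| := by
    rw [two_mul]
    nth_rewrite 2 [hsym]
    rw [← Finset.sum_add_distrib]
    refine Finset.sum_congr rfl fun z _ => ?_
    rcases le_total 0 (g z.1 ^ 2 - g (G.step z.1 z.2) ^ 2) with h | h
    · rw [max_eq_left h, max_eq_right (by linarith), abs_of_nonneg h, add_zero]
    · rw [max_eq_right h, max_eq_left (by linarith), abs_of_nonpos h]
      ring
  set α : ℝ := 2 * d / c with hα
  have hαpos : 0 < α := by positivity
  have hβ : 1 / (4 * α) = c / (8 * d) := by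
    rw [hα]
    field_simp
    ring
  have hbound : ∑ z ∈ D, |g z.1 ^ 2 - g (G.step z.1 z.2) ^ 2| ≤
      α * (2 * W - 2 * X) + c / (8 * d) * (2 * W + 2 * X) := by
    have e1 : α * (2 * W - 2 * X) + c / (8 * d) * (2 * W + 2 * X) =
        ∑ z ∈ D, (α * (g z.1 - g (G.step z.1 z.2)) ^ 2 +
          c / (8 * d) * (g z.1 + g (G.step z.1 z.2)) ^ 2) := by
      have : ∀ z ∈ D, α * (g z.1 - g (G.step z.1 z.2)) ^ 2 +
          c / (8 * d) * (g z.1 + g (G.step z.1 z.2)) ^ 2 =
          (α + c / (8 * d)) * g z.1 ^ 2 + (α + c / (8 * d)) * g (G.step z.1 z.2) ^ 2 +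
            (2 * (c / (8 * d)) - 2 * α) * (g z.1 * g (G.step z.1 z.2)) := by
        intro z _
        ring
      rw [Finset.sum_congr rfl this, Finset.sum_add_distrib, Finset.sum_add_distrib,
        ← Finset.mul_sum, ← Finset.mul_sum, ← Finset.mul_sum, s1, s2]
      ring
    rw [e1]
    refine Finset.sum_le_sum fun z _ => ?_
    have := its_amgm α hαpos (g z.1 - g (G.step z.1 z.2)) (g z.1 + g (G.step z.1 z.2))
    rw [hβ] at this
    calc |g z.1 ^ 2 - g (G.step z.1 z.2) ^ 2|
        = |(g z.1 - g (G.step z.1 z.2)) * (g z.1 + g (G.step z.1 z.2))| := by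
          congr 1
          ring
      _ ≤ _ := this
  have hsum1 : ∑ x ∈ F, ((d : ℝ) - G.degIn F x - c / 2) * g x ^ 2 = d * N - W - c / 2 * N := by
    rw [hN, hW, Finset.mul_sum, Finset.mul_sum, ← Finset.sum_sub_distrib,
      ← Finset.sum_sub_distrib]
    refine Finset.sum_congr rfl fun x _ => ?_
    ring
  rw [hsum1] at hco
  have hαβ : 1 ≤ α + c / (8 * d) := by
    have := its_amgm α hαpos 1 1
    rw [hβ] at this
    simpa using this
  have hsumd : ∑ x ∈ F, (d : ℝ) * g x ^ 2 = d * N := by rw [hN, Finset.mul_sum]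
  rw [hsumd]
  -- final arithmetic
  have h5 : c / 2 * N ≤ α * (d * N - X) + c / (8 * d) * (d * N + X) := by
    have h6 : d * N - W ≤ (α + c / (8 * d)) * (d * N - W) := by
      nlinarith
    nlinarith
  have h7 : c / (8 * d) * (d * N + X) ≤ c / 4 * N := by
    have h8 : c / (8 * d) * (d * N + X) ≤ c / (8 * d) * (2 * (d * N)) := by
      refine mul_le_mul_of_nonneg_left (by linarith) (by positivity)
    have h9 : c / (8 * d) * (2 * (d * N)) = c / 4 * N := by
      field_simp
      ring
    linarith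
  have h10 : c / 4 * N ≤ α * (d * N - X) := by linarith
  have h11 : c ^ 2 / (8 * d) * N = c / (2 * d) * (c / 4 * N) := by
    field_simp
    ring
  have h12 : c / (2 * d) * (α * (d * N - X)) = d * N - X := by
    rw [hα]
    field_simp
  rw [h11, ← h12]
  exact mul_le_mul_of_nonneg_left h10 (by positivity)

/-! ### The operator `d - Adj` on `ℓ²(V)` -/

/-- `A` is the operator `d - Adj` of the enabled graph. -/
def ItsDart.IsLap [Fintype L] (G : ItsDart V L) [∀ x, DecidablePred (G.en x)] (d : ℕ)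
    (A : ScL2 V →L[ℂ] ScL2 V) : Prop :=
  ∀ (ξ : ScL2 V) (x : V), A ξ x = d * ξ x - ∑ s, if G.en x s then ξ (G.step x s) else 0

theorem its_restr_tendsto (ξ : ScL2 V) :
    Filter.Tendsto (fun T : Finset V => scRestr (↑T : Set V) ξ) Filter.atTop (nhds ξ) := by
  classical
  have h := lp.hasSum_single (p := 2) (by norm_num) ξ
  have e : (fun T : Finset V => scRestr (↑T : Set V) ξ) =
      fun T : Finset V => ∑ i ∈ T, lp.single 2 i (ξ i) := by
    funext T
    ext x
    rw [scRestr_apply]
    have : (∑ i ∈ T, lp.single 2 i (ξ i) : ScL2 V) x =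
        ∑ i ∈ T, (lp.single 2 i (ξ i) : ScL2 V) x := by
      rw [lp.coeFn_sum, Finset.sum_apply]
    rw [this]
    simp only [lp.single_apply, Pi.single_apply]
    by_cases hx : x ∈ T
    · simp [hx]
    · simp [hx]
  rw [e]
  exact h

theorem its_norm_sq_fin (T : Finset V) (η : ScL2 V) (hη : ∀ x, x ∉ T → η x = 0) :
    ‖η‖ ^ 2 = ∑ x ∈ T, ‖η x‖ ^ 2 := by
  rw [scL2_norm_sq, tsum_eq_sum (s := T) fun x hx => by simp [hη x hx]]

theorem its_form_fin [Fintype L] (G : ItsDart V L) [∀ x, DecidablePred (G.en x)] (d : ℕ)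
    (A : ScL2 V →L[ℂ] ScL2 V) (hA : G.IsLap d A) (T : Finset V) (η : ScL2 V)
    (hη : ∀ x, x ∉ T → η x = 0) :
    (⟪A η, η⟫_ℂ).re = ∑ x ∈ T, ((d : ℝ) * ‖η x‖ ^ 2 -
      ∑ s, if G.en x s then (conj (η (G.step x s)) * η x).re else 0) := by
  rw [lp.inner_eq_tsum, tsum_eq_sum (s := T) fun x hx => by simp [hη x hx], Complex.re_sum]
  refine Finset.sum_congr rfl fun x _ => ?_
  rw [hA η x]
  have h1 : ⟪(d : ℂ) * η x - ∑ s, (if G.en x s then η (G.step x s) else 0), η x⟫_ℂ =
      (d : ℂ) * (conj (η x) * η x) - ∑ s, if G.en x s then conj (η (G.step x s)) * η x else 0 := by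
    rw [inner_sub_left, sum_inner]
    congr 1
    · simp [mul_comm, mul_left_comm]
    · refine Finset.sum_congr rfl fun s _ => ?_
      split_ifs
      · simp [mul_comm]
      · simp
  rw [h1, Complex.sub_re, Complex.re_sum]
  congr 1
  · rw [← Complex.normSq_eq_conj_mul_self, Complex.normSq_eq_norm_sq]
    rw [← Complex.ofReal_natCast, ← Complex.ofReal_mul, Complex.ofReal_re]
  · refine Finset.sum_congr rfl fun s _ => ?_
    split_ifs <;> simp

/-- Cheeger bound for finitely supported vectors. -/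
theorem its_cheeger_fin [Fintype L] (G : ItsDart V L) [∀ x, DecidablePred (G.en x)] (d : ℕ)
    (hd : 0 < d) (c : ℝ) (hc : 0 < c)
    (hdeg : ∀ x, (Finset.univ.filter fun s => G.en x s).card ≤ d)
    (A : ScL2 V →L[ℂ] ScL2 V) (hA : G.IsLap d A) (T : Finset V)
    (hdef : ∀ S ⊆ T, c / 2 * (S.card : ℝ) ≤ d * (S.card : ℝ) - ((G.darts S).card : ℝ))
    (η : ScL2 V) (hη : ∀ x, x ∉ T → η x = 0) :
    c ^ 2 / (8 * d) * ‖η‖ ^ 2 ≤ (⟪A η, η⟫_ℂ).re := by
  classical
  rw [its_norm_sq_fin T η hη, its_form_fin G d A hA T η hη]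
  refine (its_fin_cheeger G d hd c hc hdeg T hdef fun x => ‖η x‖).trans ?_
  rw [G.sum_darts_eq T fun z => ‖η z.1‖ * ‖η (G.step z.1 z.2)‖, ← Finset.sum_sub_distrib]
  refine Finset.sum_le_sum fun x _ => ?_
  refine sub_le_sub_left (Finset.sum_le_sum fun s _ => ?_) _
  by_cases h1 : G.en x s
  · by_cases h2 : G.step x s ∈ T
    · rw [if_pos h1, if_pos ⟨h1, h2⟩]
      calc (conj (η (G.step x s)) * η x).re ≤ ‖conj (η (G.step x s)) * η x‖ := Complex.re_le_norm _
        _ = ‖η x‖ * ‖η (G.step x s)‖ := by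
          rw [norm_mul, RCLike.norm_conj, mul_comm]
    · rw [if_pos h1, if_neg (fun h => h2 h.2), hη _ h2]
      simp
  · rw [if_neg h1, if_neg (fun h => h1 h.1)]

/-- IT Lemma 5.4, first half: the finite-set deficit on `U` gives the lower bound `c^2/(8d)`
for `d - Adj` on `ℓ²(U)`. -/
theorem its_cheeger [Fintype L] (G : ItsDart V L) [∀ x, DecidablePred (G.en x)] (d : ℕ)
    (hd : 0 < d) (c : ℝ) (hc : 0 < c)
    (hdeg : ∀ x, (Finset.univ.filter fun s => G.en x s).card ≤ d)
    (A : ScL2 V →L[ℂ] ScL2 V) (hA : G.IsLap d A) (U : Set V)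
    (hdef : ∀ S : Finset V, (↑S : Set V) ⊆ U →
      c / 2 * (S.card : ℝ) ≤ d * (S.card : ℝ) - ((G.darts S).card : ℝ))
    (ξ : ScL2 V) (hξ : ∀ x, x ∉ U → ξ x = 0) :
    c ^ 2 / (8 * d) * ‖ξ‖ ^ 2 ≤ (⟪A ξ, ξ⟫_ℂ).re := by
  classical
  have hlim := its_restr_tendsto ξ
  have h1 : Filter.Tendsto (fun T : Finset V => c ^ 2 / (8 * d) * ‖scRestr (↑T : Set V) ξ‖ ^ 2)
      Filter.atTop (nhds (c ^ 2 / (8 * d) * ‖ξ‖ ^ 2)) :=
    ((continuous_norm.tendsto _).comp hlim).pow 2 |>.const_mul _
  have hcont : Continuous fun η : ScL2 V => (⟪A η, η⟫_ℂ).re :=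
    Complex.continuous_re.comp (Continuous.inner A.continuous continuous_id)
  have h2 := (hcont.tendsto ξ).comp hlim
  refine le_of_tendsto_of_tendsto' h1 h2 fun T => ?_
  refine its_cheeger_fin G d hd c hc hdeg A hA (T.filter fun x => x ∈ U) ?_ _ ?_
  · intro S hS
    refine hdef S fun x hx => ?_
    exact (Finset.mem_filter.1 (hS hx)).2
  · intro x hx
    by_cases hxT : x ∈ T
    · have hxU : x ∉ U := fun h => hx (Finset.mem_filter.2 ⟨hxT, h⟩)
      rw [scRestr_apply_mem ξ (by exact_mod_cast hxT), hξ x hxU]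
    · exact scRestr_apply_not_mem ξ (by exact_mod_cast hxT)

end Claimed.Agent.R300
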