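/-
Row 300 (S0552), IT back end, owner helper128.
Codes on the relator graphs, the relation module `W_0`, valid copies, the enabled graph.
Definitions only (plus the invariance of `W_0`).
-/
import Claimed.Agent.R300.ItData
import Claimed.Agent.R300.ItMod
import Claimed.Agent.R300.ItsCheeger

set_option autoImplicit false

namespace Claimed.Agent.R300

variable {L Γ : Type} {Vt : ℕ → Type}

/-- the vertex `v` of the copy with index `q = (g, i)`. -/
def ItGraphs.pt [Group Γ] (D : ItGraphs L Γ Vt) (q : Γ × ℕ) (v : Vt q.2) : Γ := q.1 * D.φ q.2 v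

/-- decoder, prototype patterns and codes over `F_p`. -/
structure ItCode (L : Type) (Vt : ℕ → Type) (p : ℕ) where
  dec : ZMod p → Finset L
  w : ∀ i, Vt i → ZMod p
  C : ∀ i, Submodule (ZMod p) (Vt i → ZMod p)

namespace ItCode

variable {p : ℕ} [∀ i, Fintype (Vt i)] (K : ItCode L Vt p)

/-- the dual code. -/
def dual (i : ℕ) : Submodule (ZMod p) (Vt i → ZMod p) where
  carrier := {z | ∀ c ∈ K.C i, ∑ v, z v * c v = 0}
  zero_mem' := fun c _ => by simp
  add_mem' := by
    intro a b ha hb c hc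
    simp only [Pi.add_apply, add_mul, Finset.sum_add_distrib, ha c hc, hb c hc, add_zero]
  smul_mem' := by
    intro r a ha c hc
    simp only [Pi.smul_apply, smul_eq_mul, mul_assoc, ← Finset.mul_sum, ha c hc, mul_zero]

/-- number of nonzero coordinates. -/
noncomputable def wt {i : ℕ} (z : Vt i → ZMod p) : ℕ := {v | z v ≠ 0}.ncard

/-- What ENC + COD (Lemma 4.1) prove. -/
structure Good (K : ItCode L Vt p) (D : ItGraphs L Γ Vt) : Prop where
  dec_card : ∀ a, (K.dec a).card ≤ D.d
  dec_inj : ∀ a b, K.dec a = K.dec b → (K.dec a).Nonempty → a = b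
  dec_w : ∀ i v, K.dec (K.w i v) = D.J i v
  w_mem : ∀ i, K.w i ∈ K.C i
  finrank : ∀ i, Module.finrank (ZMod p) (K.C i) = D.k i
  dist : ∀ i, ∀ z ∈ K.C i, z ≠ 0 → Fintype.card (Vt i) < 100 * wt z
  ddist : ∀ i, ∀ z ∈ K.dual i, z ≠ 0 → Fintype.card (Vt i) < 100 * wt z

variable [Group Γ] (D : ItGraphs L Γ Vt)

/-- extension by zero of a pattern on the copy `q`. -/
noncomputable def emb (_K : ItCode L Vt p) (q : Γ × ℕ) :
    (Vt q.2 → ZMod p) →ₗ[ZMod p] (Γ →₀ ZMod p) :=
  (Finsupp.lmapDomain (ZMod p) (ZMod p) (D.pt q)).comp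
    (Finsupp.linearEquivFunOnFinite (ZMod p) (ZMod p) (Vt q.2)).symm.toLinearMap

/-- the relation module `W_0 = ∑_P C_P^⊥`. -/
noncomputable def W0 : Submodule (ZMod p) (Γ →₀ ZMod p) :=
  ⨆ q : Γ × ℕ, (K.dual q.2).map (K.emb D q)

theorem emb_apply (q : Γ × ℕ) (y : Vt q.2 → ZMod p) :
    K.emb D q y = ∑ v, Finsupp.single (D.pt q v) (y v) := by
  classical
  simp only [emb, LinearMap.comp_apply, LinearEquiv.coe_coe, Finsupp.lmapDomain_apply]
  rw [Finsupp.mapDomain, Finsupp.sum_fintype _ _ (fun _ => Finsupp.single_zero _)]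
  rfl

theorem shift_emb (g : Γ) (q : Γ × ℕ) (y : Vt q.2 → ZMod p) :
    itShift p g (K.emb D q y) = K.emb D (g * q.1, q.2) y := by
  rw [emb_apply, emb_apply, map_sum]
  refine Finset.sum_congr rfl (fun v _ => ?_)
  rw [itShift_single]
  simp only [ItGraphs.pt, mul_assoc]

/-- **MODINV**: `W_0` is translation invariant. -/
theorem W0_shift (g : Γ) (z : Γ →₀ ZMod p) (hz : z ∈ K.W0 D) : itShift p g z ∈ K.W0 D := by
  unfold W0 at hz
  induction hz using Submodule.iSup_induction' with
  | mem q x hx =>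
    obtain ⟨y, hy, rfl⟩ := hx
    rw [shift_emb]
    exact Submodule.mem_iSup_of_mem (p := fun q : Γ × ℕ => (K.dual q.2).map (K.emb D q))
      (g * q.1, q.2) ⟨y, hy, rfl⟩
  | zero => rw [map_zero]; exact zero_mem _
  | add x y _ _ hx hy => rw [map_add]; exact add_mem hx hy

/-- the module data. -/
noncomputable def mod : ItMod Γ p := ⟨K.W0 D, K.W0_shift D⟩

/-- the copy `q` is valid for the pattern `X`. -/
def valid (X : Γ → ZMod p) (q : Γ × ℕ) : Prop := ∀ v, X (D.pt q v) = K.w q.2 v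

/-- the complement of the union of the valid copies. -/
def rest (X : Γ → ZMod p) : Set Γ := {h | ∀ q, K.valid D X q → ∀ v, D.pt q v ≠ h}

/-- the enabled graph of the pattern `X`. -/
def dart (hD : D.Good) (X : Γ → ZMod p) : ItsDart Γ L where
  step h s := h * D.val s
  inv := D.inv
  en h s := s ∈ K.dec (X h) ∧ D.inv s ∈ K.dec (X (h * D.val s))
  step_inv h s := by rw [hD.val_inv, mul_inv_cancel_right]
  inv_inv := hD.inv_inv
  en_symm h s := by
    rintro ⟨h1, h2⟩
    refine ⟨h2, ?_⟩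
    rw [hD.inv_inv, hD.val_inv, mul_inv_cancel_right]
    exact h1

end ItCode

end Claimed.Agent.R300
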