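/-
Row 300 (S0552), IT back end, owner helper128.
IT-DEF (Lemma 5.3, global deficit): definitions for the two statements along which the proof is cut.
* DEF-R (helper179 + helper69, `itf_def_rank` in `ItfForest.lean`, `ItsBall.lean`): finite graph
  combinatorics in `Θ_i`.
* DEF-S (helper47, `itds_span` in `ItdSpan.lean`): every `Z/2`-cycle of the Cayley graph is a sum of
  cycles of copies.
-/
import Claimed.Agent.R300.ItCodeDef

set_option autoImplicit false

namespace Claimed.Agent.R300

namespace ItGraphs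

variable {L Γ : Type} {Vt : ℕ → Type} (D : ItGraphs L Γ Vt)

/-- reversal of a dart `(v, s)` of `Θ_i`. -/
def rev (i : ℕ) (z : Vt i × L) : Vt i × L := (D.nb i z.1 z.2, D.inv z.2)

/-- the constant `K = d/2 - 1 - c/4`. -/
noncomputable def Kc : ℝ := D.d / 2 - 1 - D.c / 4

/-- an orientation: exactly one of `s`, `inv s` is positive. -/
def pos (s : L) : Prop := WellOrderingRel s (D.inv s)

/-- the edges of the Cayley graph = the positive darts `(h, s)`, joining `h` and `h * val s`. -/
abbrev Ed : Type := {z : Γ × L // D.pos z.2}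

variable [Group Γ]

/-- the boundary map on `Z/2`-chains. -/
noncomputable def bd : (D.Ed →₀ ZMod 2) →ₗ[ZMod 2] (Γ →₀ ZMod 2) :=
  Finsupp.linearCombination (ZMod 2)
    (fun e : D.Ed => Finsupp.single e.1.1 1 + Finsupp.single (e.1.1 * D.val e.1.2) 1)

/-- the edges of the copy `q`. -/
def copyEd (q : Γ × ℕ) : Set D.Ed := {e | ∃ v, D.pt q v = e.1.1 ∧ e.1.2 ∈ D.J q.2 v}

/-- the cycles carried by a set of edges. -/
noncomputable def Zof (A : Set D.Ed) : Submodule (ZMod 2) (D.Ed →₀ ZMod 2) :=
  Finsupp.supported (ZMod 2) (ZMod 2) A ⊓ LinearMap.ker D.bd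

end ItGraphs

end Claimed.Agent.R300
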