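/-
Row 300 (S0552, irrational trace), IT back end, IT-DEF-S (spanning of the cycle space, (G3)),
owner helper47.  Prefix `itds`.

Every `Z/2`-cycle of the Cayley graph is a sum of cycles of copies.  Proof: let `Z` be the span of the
cycles of the copies and `Q = C₁ / Z`.  The letters act on `Γ × Q` by
`(g, x) ↦ (g * val s, x + [edge (g, s)])`; closed walks of the relator graphs act trivially, so by the
universal property `Good.univ` the action factors through `Γ`.  The orbit of `(1, 0)` is the graph of a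
potential `π : Γ → Q` with `π (g * val s) = π g + [edge (g, s)]`, hence `[z] = P (bd z)` for all chains.
-/
import Claimed.Agent.R300.ItDefIface

set_option autoImplicit false
set_option linter.unusedSectionVars false

namespace Claimed.Agent.R300

section span

variable {L Γ : Type} [Group Γ] {Vt : ℕ → Type} [∀ i, Fintype (Vt i)] {D : ItGraphs L Γ Vt}

theorem itds_add_self {M : Type} [AddCommGroup M] [Module (ZMod 2) M] (x : M) : x + x = 0 := by
  have h : x + x = (2 : ZMod 2) • x := by rw [two_smul]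
  rw [h, show (2 : ZMod 2) = 0 from rfl, zero_smul]

theorem itds_pos_inv (hD : D.Good) (s : L) : D.pos (D.inv s) ↔ ¬ D.pos s := by
  unfold ItGraphs.pos
  rw [hD.inv_inv]
  constructor
  · intro h h'
    exact asymm_of WellOrderingRel h h'
  · intro h
    rcases trichotomous_of WellOrderingRel s (D.inv s) with h1 | h1 | h1
    · exact absurd h1 h
    · exact absurd h1.symm (hD.inv_ne s)
    · exact h1

open Classical in
/-- the edge under the dart `(h, s)`. -/
noncomputable def itdsEdge (hD : D.Good) (h : Γ) (s : L) : D.Ed :=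
  if hs : D.pos s then ⟨(h, s), hs⟩ else ⟨(h * D.val s, D.inv s), (itds_pos_inv hD s).2 hs⟩

theorem itdsEdge_pos (hD : D.Good) (h : Γ) (s : L) (hs : D.pos s) :
    itdsEdge hD h s = ⟨(h, s), hs⟩ := by
  unfold itdsEdge
  rw [dif_pos hs]

theorem itdsEdge_neg (hD : D.Good) (h : Γ) (s : L) (hs : ¬ D.pos s) :
    itdsEdge hD h s = ⟨(h * D.val s, D.inv s), (itds_pos_inv hD s).2 hs⟩ := by
  unfold itdsEdge
  rw [dif_neg hs]

theorem itdsEdge_rev (hD : D.Good) (h : Γ) (s : L) :
    itdsEdge hD (h * D.val s) (D.inv s) = itdsEdge hD h s := by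
  by_cases hs : D.pos s
  · rw [itdsEdge_pos hD h s hs, itdsEdge_neg hD _ _ (fun h' => (itds_pos_inv hD s).1 h' hs)]
    apply Subtype.ext
    simp only [hD.val_inv, hD.inv_inv, mul_inv_cancel_right]
  · rw [itdsEdge_neg hD h s hs, itdsEdge_pos hD _ _ ((itds_pos_inv hD s).2 hs)]

theorem itds_bd_single (e : D.Ed) :
    D.bd (Finsupp.single e 1) = Finsupp.single e.1.1 1 + Finsupp.single (e.1.1 * D.val e.1.2) 1 := by
  simp [ItGraphs.bd]

theorem itds_bd_edge (hD : D.Good) (h : Γ) (s : L) :
    D.bd (Finsupp.single (itdsEdge hD h s) 1) =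
      Finsupp.single h 1 + Finsupp.single (h * D.val s) 1 := by
  rw [itds_bd_single]
  by_cases hs : D.pos s
  · rw [itdsEdge_pos hD h s hs]
  · rw [itdsEdge_neg hD h s hs]
    simp only [hD.val_inv, mul_inv_cancel_right]
    rw [add_comm]

/-- the chain of the walk from `g` reading `w` in the Cayley graph. -/
noncomputable def itdsChain (hD : D.Good) : Γ → List L → (D.Ed →₀ ZMod 2)
  | _, [] => 0
  | g, s :: w => Finsupp.single (itdsEdge hD g s) 1 + itdsChain hD (g * D.val s) w

theorem itds_bd_chain (hD : D.Good) (g : Γ) (w : List L) :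
    D.bd (itdsChain hD g w) = Finsupp.single g 1 + Finsupp.single (g * (w.map D.val).prod) 1 := by
  induction w generalizing g with
  | nil => simp [itdsChain, itds_add_self]
  | cons s w ih =>
    simp only [itdsChain, map_add, itds_bd_edge, ih, List.map_cons, List.prod_cons, mul_assoc]
    have := itds_add_self (Finsupp.single (g * D.val s) (1 : ZMod 2))
    calc Finsupp.single g 1 + Finsupp.single (g * D.val s) 1 +
          (Finsupp.single (g * D.val s) 1 + Finsupp.single (g * (D.val s * (w.map D.val).prod)) 1)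
        = Finsupp.single g 1 + (Finsupp.single (g * D.val s) (1 : ZMod 2) +
          Finsupp.single (g * D.val s) 1) +
            Finsupp.single (g * (D.val s * (w.map D.val).prod)) 1 := by abel
      _ = _ := by rw [this, add_zero]

theorem itds_φ_run (hD : D.Good) (i : ℕ) (v : Vt i) (w : List L) (hw : D.ok i v w) :
    D.φ i (D.run i v w) = D.φ i v * (w.map D.val).prod := by
  induction w generalizing v with
  | nil => simp [ItGraphs.run]
  | cons s w ih =>
    simp only [ItGraphs.run, List.map_cons, List.prod_cons]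
    rw [ih _ hw.2, hD.φ_nb i v s hw.1, mul_assoc]

theorem itds_edge_mem_copy (hD : D.Good) (q : Γ × ℕ) (v : Vt q.2) (s : L) (hs : s ∈ D.J q.2 v) :
    itdsEdge hD (D.pt q v) s ∈ D.copyEd q := by
  by_cases hp : D.pos s
  · rw [itdsEdge_pos hD _ s hp]
    exact ⟨v, rfl, hs⟩
  · rw [itdsEdge_neg hD _ s hp]
    refine ⟨D.nb q.2 v s, ?_, (hD.nb_inv q.2 v s hs).1⟩
    simp only [ItGraphs.pt, hD.φ_nb _ _ _ hs, mul_assoc]

theorem itds_chain_supported (hD : D.Good) (q : Γ × ℕ) (v : Vt q.2) (w : List L)
    (hw : D.ok q.2 v w) :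
    itdsChain hD (D.pt q v) w ∈ Finsupp.supported (ZMod 2) (ZMod 2) (D.copyEd q) := by
  induction w generalizing v with
  | nil => exact zero_mem _
  | cons s w ih =>
    simp only [itdsChain]
    refine add_mem ?_ ?_
    · exact Finsupp.single_mem_supported _ _ (itds_edge_mem_copy hD q v s hw.1)
    · have h1 : D.pt q v * D.val s = D.pt q (D.nb q.2 v s) := by
        simp only [ItGraphs.pt, hD.φ_nb _ _ _ hw.1, mul_assoc]
      rw [h1]
      exact ih _ hw.2

/-- the chain of a closed walk of a copy is a cycle of this copy. -/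
theorem itds_chain_mem (hD : D.Good) (q : Γ × ℕ) (v : Vt q.2) (w : List L)
    (hw : D.ok q.2 v w) (hrun : D.run q.2 v w = v) :
    itdsChain hD (D.pt q v) w ∈ D.Zof (D.copyEd q) := by
  refine ⟨itds_chain_supported hD q v w hw, ?_⟩
  have h1 := itds_φ_run hD q.2 v w hw
  rw [hrun] at h1
  have h2 : (w.map D.val).prod = 1 := by
    have : D.φ q.2 v * 1 = D.φ q.2 v * (w.map D.val).prod := by rw [mul_one]; exact h1
    exact (mul_left_cancel this).symm
  show D.bd _ = 0
  rw [itds_bd_chain, h2, mul_one, itds_add_self]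

variable (D) in
/-- the span of the cycles of the copies. -/
noncomputable def itdsZ : Submodule (ZMod 2) (D.Ed →₀ ZMod 2) := ⨆ q : Γ × ℕ, D.Zof (D.copyEd q)

variable (D) in
/-- chains modulo the cycles of the copies. -/
abbrev ItdsQ : Type := (D.Ed →₀ ZMod 2) ⧸ itdsZ D

/-- the class of the edge under a dart. -/
noncomputable def itdsCls (hD : D.Good) (h : Γ) (s : L) : ItdsQ D :=
  (itdsZ D).mkQ (Finsupp.single (itdsEdge hD h s) 1)

/-- the action of a letter on `Γ × Q`. -/
noncomputable def itdsPerm (hD : D.Good) (s : L) : Equiv.Perm (Γ × ItdsQ D) where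
  toFun y := (y.1 * D.val s, y.2 + itdsCls hD y.1 s)
  invFun y := (y.1 * D.val (D.inv s), y.2 + itdsCls hD y.1 (D.inv s))
  left_inv := by
    rintro ⟨g, x⟩
    simp only [itdsCls, itdsEdge_rev, hD.val_inv, mul_inv_cancel_right, add_assoc, itds_add_self,
      add_zero]
  right_inv := by
    rintro ⟨g, x⟩
    have h1 := itdsEdge_rev hD g (D.inv s)
    rw [hD.inv_inv] at h1
    simp only [itdsCls, h1, add_assoc, itds_add_self, add_zero]
    simp only [hD.val_inv, inv_mul_cancel_right]

/-- the letters in the opposite group of permutations. -/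
noncomputable def itdsF (hD : D.Good) (s : L) : (Equiv.Perm (Γ × ItdsQ D))ᵐᵒᵖ :=
  MulOpposite.op (itdsPerm hD s)

theorem itdsF_inv (hD : D.Good) (s : L) : itdsF hD (D.inv s) = (itdsF hD s)⁻¹ := by
  unfold itdsF
  rw [← MulOpposite.op_inv]
  congr 1
  ext1 y
  rfl

theorem itdsF_prod (hD : D.Good) (w : List L) (y : Γ × ItdsQ D) :
    ((w.map (itdsF hD)).prod).unop y =
      (y.1 * (w.map D.val).prod, y.2 + (itdsZ D).mkQ (itdsChain hD y.1 w)) := by
  induction w generalizing y with
  | nil => simp [itdsChain]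
  | cons s w ih =>
    simp only [List.map_cons, List.prod_cons, MulOpposite.unop_mul, Equiv.Perm.mul_apply]
    rw [show (itdsF hD s).unop y = (y.1 * D.val s, y.2 + itdsCls hD y.1 s) from rfl, ih]
    simp only [itdsChain, map_add, mul_assoc, add_assoc, itdsCls]

theorem itdsF_rel (hD : D.Good) (i : ℕ) (v : Vt i) (w : List L) (hw : D.ok i v w)
    (hrun : D.run i v w = v) : (w.map (itdsF hD)).prod = 1 := by
  apply MulOpposite.unop_injective
  ext1 y
  rw [itdsF_prod]
  have h1 := itds_φ_run hD i v w hw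
  rw [hrun] at h1
  have h2 : (w.map D.val).prod = 1 := by
    have : D.φ i v * 1 = D.φ i v * (w.map D.val).prod := by rw [mul_one]; exact h1
    exact (mul_left_cancel this).symm
  have h3 := itds_chain_mem hD (y.1 * (D.φ i v)⁻¹, i) v w hw hrun
  have h4 : D.pt (y.1 * (D.φ i v)⁻¹, i) v = y.1 := by simp [ItGraphs.pt]
  rw [h4] at h3
  have h5 : itdsChain hD y.1 w ∈ itdsZ D :=
    (le_iSup (fun q : Γ × ℕ => D.Zof (D.copyEd q)) (y.1 * (D.φ i v)⁻¹, i)) h3
  have h6 : (itdsZ D).mkQ (itdsChain hD y.1 w) = 0 := by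
    rw [Submodule.mkQ_apply, Submodule.Quotient.mk_eq_zero]
    exact h5
  rw [h2, h6, mul_one, add_zero]
  rfl

/-- the potential. -/
theorem itds_potential (hD : D.Good) :
    ∃ π : Γ → ItdsQ D, ∀ g s, π (g * D.val s) = π g + itdsCls hD g s := by
  obtain ⟨Ψ, hΨ⟩ := hD.univ _ (itdsF hD) (itdsF_inv hD) (itdsF_rel hD)
  have hstep : ∀ g s, (Ψ (g * D.val s)).unop (1, 0) = itdsPerm hD s ((Ψ g).unop (1, 0)) := by
    intro g s
    rw [map_mul, hΨ, MulOpposite.unop_mul, Equiv.Perm.mul_apply]
    rfl
  have hfst : ∀ g, ((Ψ g).unop (1, 0)).1 = g := by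
    intro g
    have hg : g ∈ Subgroup.closure (Set.range D.val) := by rw [hD.gen]; trivial
    induction hg using Subgroup.closure_induction_right with
    | one => simp
    | mul_right x _ y hy ih =>
      obtain ⟨s, rfl⟩ := hy
      rw [hstep]
      show ((Ψ x).unop (1, 0)).1 * D.val s = _
      rw [ih]
    | mul_inv_cancel x _ y hy ih =>
      obtain ⟨s, rfl⟩ := hy
      rw [← hD.val_inv, hstep]
      show ((Ψ x).unop (1, 0)).1 * D.val (D.inv s) = _
      rw [ih]
  refine ⟨fun g => ((Ψ g).unop (1, 0)).2, fun g s => ?_⟩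
  show ((Ψ (g * D.val s)).unop (1, 0)).2 = _
  rw [hstep]
  show ((Ψ g).unop (1, 0)).2 + itdsCls hD ((Ψ g).unop (1, 0)).1 s = _
  rw [hfst]

/-- **DEF-S**: spanning (G3). -/
theorem itds_span (hD : D.Good) : LinearMap.ker D.bd ≤ ⨆ q : Γ × ℕ, D.Zof (D.copyEd q) := by
  obtain ⟨π, hπ⟩ := itds_potential hD
  have key : ∀ z : D.Ed →₀ ZMod 2,
      (itdsZ D).mkQ z = Finsupp.linearCombination (ZMod 2) π (D.bd z) := by
    intro z
    induction z using Finsupp.induction_linear with
    | zero => simp
    | add a b ha hb => rw [map_add, map_add, map_add, ha, hb]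
    | single e a =>
      have h1 : Finsupp.single e a = a • Finsupp.single e (1 : ZMod 2) := by simp
      rw [h1, map_smul, map_smul, map_smul, itds_bd_single, map_add,
        Finsupp.linearCombination_single, Finsupp.linearCombination_single, one_smul, one_smul, hπ,
        ← add_assoc, itds_add_self, zero_add]
      congr 1
      unfold itdsCls
      rw [itdsEdge_pos hD _ _ e.2]
  intro z hz
  have h1 := key z
  rw [LinearMap.mem_ker.1 hz, map_zero, Submodule.mkQ_apply, Submodule.Quotient.mk_eq_zero] at h1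
  exact h1

end span

end Claimed.Agent.R300
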