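/-
Row 300 (S0552), IT back end, DEF-R toolbox, owner helper69.  Prefix `its_`.
Words in the relator graph `Θ_i` (dart model of `ItGraphs`): concatenation, inverse words,
uniqueness of short reduced words (U), reduced words to the points of a ball, the parent structure
of a ball, and the two facts on excursions leaving the ball.
-/
import Claimed.Agent.R300.ItData

set_option autoImplicit false

namespace Claimed.Agent.R300

variable {L Γ : Type} {Vt : ℕ → Type} (D : ItGraphs L Γ Vt)

theorem its_nil_or_concat {α : Type} (w : List α) : w = [] ∨ ∃ u t, w = u ++ [t] := by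
  rcases List.eq_nil_or_concat w with h | ⟨u, t, h⟩
  · exact Or.inl h
  · exact Or.inr ⟨u, t, by rw [h, List.concat_eq_append]⟩

theorem its_run_append (i : ℕ) (v : Vt i) (w₁ w₂ : List L) :
    D.run i v (w₁ ++ w₂) = D.run i (D.run i v w₁) w₂ := by
  induction w₁ generalizing v with
  | nil => rfl
  | cons s w ih => exact ih _

theorem its_ok_append (i : ℕ) (v : Vt i) (w₁ w₂ : List L) :
    D.ok i v (w₁ ++ w₂) ↔ D.ok i v w₁ ∧ D.ok i (D.run i v w₁) w₂ := by
  induction w₁ generalizing v with
  | nil => simp [ItGraphs.ok, ItGraphs.run]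
  | cons s w ih =>
    simp only [List.cons_append, ItGraphs.ok, ItGraphs.run, ih, and_assoc]

theorem its_run_concat (i : ℕ) (v : Vt i) (w : List L) (s : L) :
    D.run i v (w ++ [s]) = D.nb i (D.run i v w) s := by
  rw [its_run_append]; rfl

theorem its_ok_concat (i : ℕ) (v : Vt i) (w : List L) (s : L) :
    D.ok i v (w ++ [s]) ↔ D.ok i v w ∧ s ∈ D.J i (D.run i v w) := by
  rw [its_ok_append]; simp [ItGraphs.ok]

theorem its_red_concat (w : List L) (t s : L) :
    D.red (w ++ [t] ++ [s]) ↔ D.red (w ++ [t]) ∧ s ≠ D.inv t := by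
  unfold ItGraphs.red
  rw [List.append_assoc, List.singleton_append, List.isChain_append_cons_cons]
  simp

theorem its_red_append {w₁ w₂ : List L} (h₁ : D.red w₁) (h₂ : D.red w₂)
    (h : ∀ x ∈ w₁.getLast?, ∀ y ∈ w₂.head?, y ≠ D.inv x) : D.red (w₁ ++ w₂) :=
  List.IsChain.append h₁ h₂ h

/-- the inverse word. -/
def its_winv (w : List L) : List L := (w.map D.inv).reverse

theorem its_winv_length (w : List L) : (its_winv D w).length = w.length := by
  simp [its_winv]

theorem its_winv_concat (w : List L) (s : L) :
    its_winv D (w ++ [s]) = D.inv s :: its_winv D w := by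
  simp [its_winv]

variable {D}
variable [Group Γ] [∀ i, Fintype (Vt i)]

theorem its_inv_inj (hD : D.Good) {s t : L} (h : D.inv s = D.inv t) : s = t := by
  rw [← hD.inv_inv s, h, hD.inv_inv]

theorem its_winv_spec (hD : D.Good) (i : ℕ) (v : Vt i) (w : List L) (h : D.ok i v w) :
    D.ok i (D.run i v w) (its_winv D w) ∧ D.run i (D.run i v w) (its_winv D w) = v := by
  induction w using List.reverseRecOn with
  | nil => exact ⟨trivial, rfl⟩
  | append_singleton w s ih =>
    obtain ⟨h1, h2⟩ := (its_ok_concat D i v w s).1 h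
    obtain ⟨h3, h4⟩ := ih h1
    obtain ⟨h5, h6⟩ := hD.nb_inv i _ s h2
    rw [its_winv_concat, its_run_concat]
    refine ⟨⟨h5, ?_⟩, ?_⟩
    · rw [h6]; exact h3
    · show D.run i (D.nb i (D.nb i (D.run i v w) s) (D.inv s)) (its_winv D w) = v
      rw [h6]; exact h4

theorem its_red_winv (hD : D.Good) {w : List L} (h : D.red w) : D.red (its_winv D w) := by
  unfold ItGraphs.red its_winv at *
  rw [List.isChain_reverse, List.isChain_map]
  refine h.imp ?_
  intro a b hab h2
  apply hab
  rw [h2, hD.inv_inv]

/-- **(U)**: two reduced words of total length `< σ` with the same ends are equal. -/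
theorem its_up (hD : D.Good) (i : ℕ) (x : Vt i) (w₁ w₂ : List L) (r₁ : D.red w₁) (r₂ : D.red w₂)
    (o₁ : D.ok i x w₁) (o₂ : D.ok i x w₂) (he : D.run i x w₁ = D.run i x w₂)
    (hl : w₁.length + w₂.length < D.σ i) : w₁ = w₂ := by
  induction w₁ using List.reverseRecOn generalizing w₂ with
  | nil =>
    by_contra hne
    have := hD.girth i x w₂ (fun h => hne h.symm) r₂ o₂ he.symm
    simp at hl; omega
  | append_singleton u₁ s ih =>
    rcases its_nil_or_concat w₂ with rfl | ⟨u₂, t, rfl⟩
    · exfalso
      have := hD.girth i x (u₁ ++ [s]) (by simp) r₁ o₁ he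
      simp at hl this; omega
    · obtain ⟨a1, a2⟩ := (its_ok_concat D i x u₁ s).1 o₁
      obtain ⟨b1, b2⟩ := (its_ok_concat D i x u₂ t).1 o₂
      rw [its_run_concat, its_run_concat] at he
      by_cases hst : s = t
      · subst hst
        have e : D.run i x u₁ = D.run i x u₂ := by
          rw [← (hD.nb_inv i _ s a2).2, he, (hD.nb_inv i _ s b2).2]
        rw [ih u₂ r₁.left_of_append r₂.left_of_append a1 b1 e (by simp at hl; omega)]
      · exfalso
        have hsp := its_winv_spec hD i x (u₂ ++ [t]) o₂
        have hred : D.red ((u₁ ++ [s]) ++ its_winv D (u₂ ++ [t])) := by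
          refine its_red_append D r₁ (its_red_winv hD r₂) ?_
          intro a ha c hc
          rw [its_winv_concat] at hc
          simp at ha hc
          subst ha; subst hc
          intro h
          exact hst (its_inv_inj hD h).symm
        have hok : D.ok i x ((u₁ ++ [s]) ++ its_winv D (u₂ ++ [t])) := by
          rw [its_ok_append]
          refine ⟨o₁, ?_⟩
          rw [its_run_concat, he, ← its_run_concat]
          exact hsp.1
        have hrun : D.run i x ((u₁ ++ [s]) ++ its_winv D (u₂ ++ [t])) = x := by
          rw [its_run_append, its_run_concat, he, ← its_run_concat]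
          exact hsp.2
        have := hD.girth i x _ (by simp) hred hok hrun
        rw [List.length_append, its_winv_length] at this
        omega

/-- free reduction: every readable word has a reduced readable form with the same ends. -/
theorem its_exists_red (hD : D.Good) (i : ℕ) (x : Vt i) (w : List L) (o : D.ok i x w) :
    ∃ w', D.red w' ∧ D.ok i x w' ∧ D.run i x w' = D.run i x w ∧ w'.length ≤ w.length := by
  induction w using List.reverseRecOn with
  | nil => exact ⟨[], List.isChain_nil, trivial, rfl, le_rfl⟩
  | append_singleton w s ih =>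
    obtain ⟨a1, a2⟩ := (its_ok_concat D i x w s).1 o
    obtain ⟨w', r, o', e, l⟩ := ih a1
    rcases its_nil_or_concat w' with rfl | ⟨u, t, rfl⟩
    · refine ⟨[s], List.isChain_singleton _, ?_, ?_, by simp⟩
      · have := (its_ok_concat D i x [] s).2 ⟨trivial, by rw [e]; exact a2⟩
        simpa using this
      · rw [its_run_concat, ← e]; rfl
    · by_cases hst : s = D.inv t
      · obtain ⟨b1, b2⟩ := (its_ok_concat D i x u t).1 o'
        refine ⟨u, r.left_of_append, b1, ?_, by simp at l ⊢; omega⟩
        rw [its_run_concat, ← e, its_run_concat, hst, (hD.nb_inv i _ t b2).2]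
      · refine ⟨u ++ [t] ++ [s], (its_red_concat D u t s).2 ⟨r, hst⟩, ?_, ?_, by simp at l ⊢; omega⟩
        · rw [its_ok_concat]; exact ⟨o', by rw [e]; exact a2⟩
        · rw [its_run_concat, e, its_run_concat]

/-- every point of the ball is the end of a short reduced word. -/
theorem its_ball_word (hD : D.Good) (i : ℕ) (b v : Vt i) (hv : v ∈ D.ball i b) :
    ∃ w, D.red w ∧ D.ok i b w ∧ D.run i b w = v ∧ 8 * w.length ≤ D.σ i := by
  obtain ⟨w, hl, o, e⟩ := hv
  obtain ⟨w', r, o', e', l⟩ := its_exists_red hD i b w o
  exact ⟨w', r, o', e'.trans e, by omega⟩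

end Claimed.Agent.R300
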