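/-
Row 300 (S0552), IT back end, DEF-R toolbox, owner helper69.  Prefix `its_`.
The ball of radius `σ/8` of `Θ_i` is a tree (parent structure `its_ball_par`), short reduced
excursions leaving the ball do not come back (`its_att_noreturn`) and are determined by their end
(`its_att_inj`).
-/
import Claimed.Agent.R300.ItsWord

set_option autoImplicit false

namespace Claimed.Agent.R300

variable {L Γ : Type} {Vt : ℕ → Type} {D : ItGraphs L Γ Vt}
variable [Group Γ] [∀ i, Fintype (Vt i)]

omit [Group Γ] [∀ i, Fintype (Vt i)] in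
/-- a prefix of a short readable word ends in the ball. -/
theorem its_mem_ball (i : ℕ) (b : Vt i) (w : List L) (o : D.ok i b w) (l : 8 * w.length ≤ D.σ i) :
    D.run i b w ∈ D.ball i b := ⟨w, l, o, rfl⟩

/-- a letter leaving the ball does not cancel the last letter of a short word to its source. -/
theorem its_junction (hD : D.Good) (i : ℕ) (b : Vt i) (w : List L) (s : L) (o : D.ok i b w)
    (l : 8 * w.length ≤ D.σ i) (hs : D.nb i (D.run i b w) s ∉ D.ball i b) :
    ∀ t ∈ w.getLast?, s ≠ D.inv t := by
  intro t ht hst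
  rcases its_nil_or_concat w with rfl | ⟨u, t', rfl⟩
  · simp at ht
  · simp at ht
    subst ht
    obtain ⟨b1, b2⟩ := (its_ok_concat D i b u t').1 o
    apply hs
    rw [its_run_concat, hst, (hD.nb_inv i _ t' b2).2]
    exact its_mem_ball i b u b1 (by simp at l; omega)

/-- **(G1)** the parent structure of the ball. -/
theorem its_ball_par (hD : D.Good) (i : ℕ) (b : Vt i) :
    ∃ (dep : Vt i → ℕ) (par : Vt i → L), (∀ v ∈ D.ball i b, 8 * dep v ≤ D.σ i) ∧
      ∀ v s, s ∈ D.J i v → v ∈ D.ball i b → D.nb i v s ∈ D.ball i b →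
        (s = par v ∧ dep (D.nb i v s) < dep v) ∨
        (D.inv s = par (D.nb i v s) ∧ dep v < dep (D.nb i v s)) := by
  classical
  have hσ := hD.σ_gt i
  choose! ω hr ho he hl using its_ball_word hD i b
  obtain ⟨s0, -⟩ : (D.J i b).Nonempty := by
    rw [← Finset.card_pos, hD.J_card]; have := hD.three_le; omega
  refine ⟨fun v => (ω v).length, fun v => ((ω v).getLast?.map D.inv).getD s0,
    fun v hv => hl v hv, ?_⟩
  intro v s hs hv hu
  by_cases hc : ∀ t ∈ (ω v).getLast?, s ≠ D.inv t
  · right
    have hred : D.red (ω v ++ [s]) := by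
      refine its_red_append D (hr v hv) (List.isChain_singleton _) ?_
      intro x hx y hy
      simp at hy
      subst hy
      exact hc x hx
    have hok : D.ok i b (ω v ++ [s]) := by
      rw [its_ok_concat, he v hv]; exact ⟨ho v hv, hs⟩
    have hrun : D.run i b (ω v ++ [s]) = D.nb i v s := by
      rw [its_run_concat, he v hv]
    have := its_up hD i b (ω v ++ [s]) (ω (D.nb i v s)) hred (hr _ hu) hok (ho _ hu)
      (hrun.trans (he _ hu).symm) (by
        have h1 := hl v hv
        have h2 := hl _ hu
        simp; omega)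
    simp only [← this]
    simp
  · left
    simp only [not_forall, not_not] at hc
    obtain ⟨t, ht, hst⟩ := hc
    rcases its_nil_or_concat (ω v) with h0 | ⟨u, t', h0⟩
    · rw [h0] at ht; simp at ht
    · have hrv := hr v hv
      have hov := ho v hv
      have hev := he v hv
      have hlv := hl v hv
      rw [h0] at ht hrv hov hev hlv
      simp at ht
      subst ht
      obtain ⟨b1, b2⟩ := (its_ok_concat D i b u t').1 hov
      have hrun : D.run i b u = D.nb i v s := by
        rw [← hev, its_run_concat, hst, (hD.nb_inv i _ t' b2).2]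
      have := its_up hD i b u (ω (D.nb i v s)) hrv.left_of_append (hr _ hu) b1 (ho _ hu)
        (hrun.trans (he _ hu).symm) (by
          have h2 := hl _ hu
          simp at hlv; omega)
      simp only [← this, h0]
      simp [hst]

/-- **(G2)** a short reduced excursion leaving the ball does not come back. -/
theorem its_att_noreturn (hD : D.Good) (i : ℕ) (b x : Vt i) (s : L) (w : List L)
    (hx : x ∈ D.ball i b) (hs : D.nb i x s ∉ D.ball i b) (r : D.red (s :: w))
    (o : D.ok i x (s :: w)) (l : 4 * w.length ≤ D.σ i) : D.run i x (s :: w) ∉ D.ball i b := by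
  intro hy
  have hσ := hD.σ_gt i
  obtain ⟨wx, rx, ox, ex, lx⟩ := its_ball_word hD i b x hx
  obtain ⟨wy, ry, oy, ey, ly⟩ := its_ball_word hD i b _ hy
  have hred : D.red (wx ++ s :: w) := by
    refine its_red_append D rx r ?_
    intro t ht y hy
    simp at hy
    subst hy
    exact its_junction hD i b wx _ ox lx (by rw [ex]; exact hs) t ht
  have hok : D.ok i b (wx ++ s :: w) := by
    rw [its_ok_append, ex]; exact ⟨ox, o⟩
  have hrun : D.run i b (wx ++ s :: w) = D.run i x (s :: w) := by
    rw [its_run_append, ex]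
  have h := its_up hD i b _ wy hred ry hok oy (hrun.trans ey.symm) (by simp; omega)
  apply hs
  have h2 : D.ok i b (wx ++ [s]) := by
    rw [its_ok_concat, ex]; exact ⟨ox, o.1⟩
  have h3 := its_mem_ball i b (wx ++ [s]) h2 (by
    have : (wx ++ s :: w).length = wy.length := by rw [h]
    simp at this ⊢; omega)
  rwa [its_run_concat, ex] at h3

/-- **(G3)** short reduced excursions leaving the ball are determined by their end. -/
theorem its_att_inj (hD : D.Good) (i : ℕ) (b x x' : Vt i) (s s' : L) (w w' : List L)
    (hx : x ∈ D.ball i b) (hx' : x' ∈ D.ball i b)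
    (hs : D.nb i x s ∉ D.ball i b) (hs' : D.nb i x' s' ∉ D.ball i b)
    (r : D.red (s :: w)) (r' : D.red (s' :: w'))
    (o : D.ok i x (s :: w)) (o' : D.ok i x' (s' :: w'))
    (l : 4 * w.length ≤ D.σ i) (l' : 4 * w'.length ≤ D.σ i)
    (he : D.run i x (s :: w) = D.run i x' (s' :: w')) : x = x' ∧ s = s' ∧ w = w' := by
  have hσ := hD.σ_gt i
  obtain ⟨wx, rx, ox, ex, lx⟩ := its_ball_word hD i b x hx
  obtain ⟨wy, ry, oy, ey, ly⟩ := its_ball_word hD i b x' hx'
  have hred : D.red (wx ++ s :: w) := by
    refine its_red_append D rx r ?_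
    intro t ht y hy
    simp at hy
    subst hy
    exact its_junction hD i b wx _ ox lx (by rw [ex]; exact hs) t ht
  have hred' : D.red (wy ++ s' :: w') := by
    refine its_red_append D ry r' ?_
    intro t ht y hy
    simp at hy
    subst hy
    exact its_junction hD i b wy _ oy ly (by rw [ey]; exact hs') t ht
  have hok : D.ok i b (wx ++ s :: w) := by
    rw [its_ok_append, ex]; exact ⟨ox, o⟩
  have hok' : D.ok i b (wy ++ s' :: w') := by
    rw [its_ok_append, ey]; exact ⟨oy, o'⟩
  have hrun : D.run i b (wx ++ s :: w) = D.run i b (wy ++ s' :: w') := by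
    rw [its_run_append, ex, its_run_append, ey, he]
  have h := its_up hD i b _ _ hred hred' hok hok' hrun (by simp; omega)
  rcases List.append_eq_append_iff.1 h with ⟨a, h1, h2⟩ | ⟨a, h1, h2⟩
  · cases a with
    | nil =>
      simp at h1 h2
      refine ⟨?_, h2.1, h2.2⟩
      rw [← ex, ← ey, h1]
    | cons c a =>
      exfalso
      simp at h2
      obtain ⟨rfl, -⟩ := h2
      apply hs
      rw [h1] at oy ly
      have h3 : D.ok i b (wx ++ [s]) := by
        rw [its_ok_concat, ex]; exact ⟨ox, o.1⟩
      have h4 := its_mem_ball i b (wx ++ [s]) h3 (by simp at ly ⊢; omega)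
      rwa [its_run_concat, ex] at h4
  · cases a with
    | nil =>
      simp at h1 h2
      refine ⟨?_, h2.1.symm, h2.2.symm⟩
      rw [← ex, ← ey, h1]
    | cons c a =>
      exfalso
      simp at h2
      obtain ⟨rfl, -⟩ := h2
      apply hs'
      rw [h1] at ox lx
      have h3 : D.ok i b (wy ++ [s']) := by
        rw [its_ok_concat, ey]; exact ⟨oy, o'.1⟩
      have h4 := its_mem_ball i b (wy ++ [s']) h3 (by simp at lx ⊢; omega)
      rwa [its_run_concat, ey] at h4

end Claimed.Agent.R300
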