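/-
Row 300 (S0552), IT back end, leaf IT-DEF-R (finite graph part of Lemma 5.3), owner helper179.
Prefix `itf`.

A subgraph of `Θ_i` made of a part of a small ball and of a sparse exterior part on `W` has a
peeling forest missing at most `K |W|` edges.  Component-free proof:
* forest criterion: parent darts with respect to any key function;
* reduction to the core (every source has at least two darts);
* key = depth in the ball, then any search order on the exterior;
* every attachment dart and every root starts a non-backtracking walk with `σ / 4` vertices.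
-/
import Claimed.Agent.R300.ItDefIface
import Claimed.Agent.R300.ItsBall

set_option autoImplicit false
set_option linter.unusedSectionVars false

namespace Claimed.Agent.R300

/-! ### Part 0: words in the dart model -/

section words

variable {L Γ : Type} [Group Γ] {Vt : ℕ → Type} [∀ i, Fintype (Vt i)] (D : ItGraphs L Γ Vt)

theorem itf_run_append (i : ℕ) (v : Vt i) (u w : List L) :
    D.run i v (u ++ w) = D.run i (D.run i v u) w := by
  induction u generalizing v with
  | nil => rfl
  | cons s u ih => exact ih _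

theorem itf_ok_append (i : ℕ) (v : Vt i) (u w : List L) :
    D.ok i v (u ++ w) ↔ D.ok i v u ∧ D.ok i (D.run i v u) w := by
  induction u generalizing v with
  | nil => simp [ItGraphs.ok, ItGraphs.run]
  | cons s u ih =>
    simp only [List.cons_append, ItGraphs.ok, ItGraphs.run, ih, and_assoc]

/-- the reverse word. -/
def itfRw (w : List L) : List L := (w.map D.inv).reverse

@[simp] theorem itfRw_length (w : List L) : (itfRw D w).length = w.length := by
  simp [itfRw]

theorem itfRw_cons (s : L) (w : List L) : itfRw D (s :: w) = itfRw D w ++ [D.inv s] := by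
  simp [itfRw]

theorem itfRw_concat (s : L) (w : List L) : itfRw D (w ++ [s]) = D.inv s :: itfRw D w := by
  simp [itfRw]

variable {D}

theorem itf_inv_injective (hD : D.Good) : Function.Injective D.inv := by
  intro s t h
  rw [← hD.inv_inv s, h, hD.inv_inv]

theorem itf_ok_rw (hD : D.Good) (i : ℕ) (v : Vt i) (w : List L) (h : D.ok i v w) :
    D.ok i (D.run i v w) (itfRw D w) ∧ D.run i (D.run i v w) (itfRw D w) = v := by
  induction w generalizing v with
  | nil => exact ⟨trivial, rfl⟩
  | cons s w ih =>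
    obtain ⟨h1, h2⟩ := h
    obtain ⟨h3, h4⟩ := ih _ h2
    obtain ⟨h5, h6⟩ := hD.nb_inv i v s h1
    rw [itfRw_cons]
    simp only [ItGraphs.run]
    refine ⟨(itf_ok_append D i _ _ _).2 ⟨h3, ?_⟩, ?_⟩
    · rw [h4]
      exact ⟨h5, trivial⟩
    · rw [itf_run_append, h4]
      exact h6

theorem itf_red_rw (hD : D.Good) (w : List L) (h : D.red w) : D.red (itfRw D w) := by
  unfold ItGraphs.red itfRw at *
  rw [List.isChain_reverse, List.isChain_map]
  refine h.imp ?_
  intro s t hst e
  apply hst
  rw [e, hD.inv_inv]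

theorem itf_red_append {u w : List L} (hu : D.red u) (hw : D.red w)
    (h : ∀ x ∈ u.getLast?, ∀ y ∈ w.head?, y ≠ D.inv x) : D.red (u ++ w) :=
  List.IsChain.append hu hw h

theorem itf_red_left {u w : List L} (h : D.red (u ++ w)) : D.red u :=
  List.IsChain.left_of_append h

theorem itf_red_right {u w : List L} (h : D.red (u ++ w)) : D.red w :=
  List.IsChain.right_of_append h

/-- (U): uniqueness of short reduced words. -/
theorem itf_unique (hD : D.Good) (i : ℕ) (x : Vt i) (n : ℕ) :
    ∀ u u' : List L, u.length + u'.length = n → D.red u → D.red u' → D.ok i x u → D.ok i x u' →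
      D.run i x u = D.run i x u' → u.length + u'.length < D.σ i → u = u' := by
  induction n using Nat.strong_induction_on with
  | _ n ih =>
    intro u u' hn hu hu' ho ho' he hl
    rcases List.eq_nil_or_concat' u with rfl | ⟨u1, s, rfl⟩
    · by_contra hne
      have := hD.girth i x u' (fun h => hne h.symm) hu' ho' he.symm
      simp at hl
      omega
    rcases List.eq_nil_or_concat' u' with rfl | ⟨u1', s', rfl⟩
    · exfalso
      have := hD.girth i x (u1 ++ [s]) (by simp) hu ho he
      simp at hl this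
      omega
    obtain ⟨o1, o2⟩ := (itf_ok_append D i x u1 [s]).1 ho
    obtain ⟨o1', o2'⟩ := (itf_ok_append D i x u1' [s']).1 ho'
    rw [itf_run_append, itf_run_append] at he
    simp only [ItGraphs.run] at he
    by_cases hs : s = s'
    · subst hs
      have e1 : D.run i x u1 = D.run i x u1' := by
        rw [← (hD.nb_inv i _ s o2.1).2, he, (hD.nb_inv i _ s o2'.1).2]
      simp only [List.length_append, List.length_singleton] at hn hl
      rw [ih (u1.length + u1'.length) (by omega) u1 u1' rfl (itf_red_left hu) (itf_red_left hu')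
        o1 o1' e1 (by omega)]
    · exfalso
      -- the closed word `u1 s (s')⁻¹ u1'⁻¹`
      have hr' := itf_ok_rw hD i x (u1' ++ [s']) ho'
      have hrun' : D.run i x (u1' ++ [s']) = D.run i x (u1 ++ [s]) := by
        rw [itf_run_append, itf_run_append]
        simp only [ItGraphs.run]
        exact he.symm
      rw [hrun'] at hr'
      have hred : D.red ((u1 ++ [s]) ++ itfRw D (u1' ++ [s'])) := by
        apply itf_red_append hu (itf_red_rw hD _ hu')
        intro a ha c hc
        rw [itfRw_concat] at hc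
        simp only [List.getLast?_append, List.getLast?_singleton, Option.some_or,
          Option.mem_some_iff] at ha
        simp only [List.head?_cons, Option.mem_some_iff] at hc
        subst ha hc
        exact fun e => hs (itf_inv_injective hD e).symm
      have := hD.girth i x _ (by simp) hred
        ((itf_ok_append D i x _ _).2 ⟨ho, hr'.1⟩) (by rw [itf_run_append]; exact hr'.2)
      simp only [List.length_append, itfRw_length] at this hl
      omega

theorem itf_unique' (hD : D.Good) (i : ℕ) (x : Vt i) (u u' : List L) (hu : D.red u)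
    (hu' : D.red u') (ho : D.ok i x u) (ho' : D.ok i x u') (he : D.run i x u = D.run i x u')
    (hl : u.length + u'.length < D.σ i) : u = u' :=
  itf_unique hD i x _ u u' rfl hu hu' ho ho' he hl

/-- every readable word can be replaced by a reduced one which is not longer. -/
theorem itf_exists_red (hD : D.Good) (i : ℕ) (x : Vt i) (n : ℕ) :
    ∀ w : List L, w.length = n → D.ok i x w →
      ∃ w', D.red w' ∧ D.ok i x w' ∧ D.run i x w' = D.run i x w ∧ w'.length ≤ w.length := by
  induction n using Nat.strong_induction_on with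
  | _ n ih =>
    intro w hn ho
    by_cases hr : D.red w
    · exact ⟨w, hr, ho, rfl, le_rfl⟩
    · unfold ItGraphs.red at hr
      rw [List.isChain_iff_forall_rel_of_append_cons_cons] at hr
      push Not at hr
      obtain ⟨s, t, l₁, l₂, rfl, hst⟩ := hr
      subst hst
      obtain ⟨o1, o2, o3, o4⟩ := (itf_ok_append D i x l₁ _).1 ho
      have hback := (hD.nb_inv i _ s o2).2
      rw [hback] at o4
      have ho' : D.ok i x (l₁ ++ l₂) := (itf_ok_append D i x l₁ l₂).2 ⟨o1, o4⟩
      have hrun : D.run i x (l₁ ++ l₂) = D.run i x (l₁ ++ s :: D.inv s :: l₂) := by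
        rw [itf_run_append, itf_run_append]
        simp only [ItGraphs.run]
        rw [hback]
      simp only [List.length_append, List.length_cons] at hn
      obtain ⟨w', h1, h2, h3, h4⟩ := ih (l₁ ++ l₂).length (by simp; omega) (l₁ ++ l₂) rfl ho'
      refine ⟨w', h1, h2, h3.trans hrun, h4.trans ?_⟩
      simp only [List.length_append, List.length_cons]
      omega

end words

/-! ### Part 1: the forest criterion -/

section forest

variable {L Γ : Type} [Group Γ] {Vt : ℕ → Type} [∀ i, Fintype (Vt i)] {D : ItGraphs L Γ Vt}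

theorem itf_rev_rev (hD : D.Good) (i : ℕ) (z : Vt i × L) (hz : z.2 ∈ D.J i z.1) :
    D.rev i (D.rev i z) = z := by
  obtain ⟨v, s⟩ := z
  simp only [ItGraphs.rev]
  rw [(hD.nb_inv i v s hz).2, hD.inv_inv]

theorem itf_rev_fst (i : ℕ) (z : Vt i × L) : (D.rev i z).1 = D.nb i z.1 z.2 := rfl

theorem itf_rev_nb (hD : D.Good) (i : ℕ) (z : Vt i × L) (hz : z.2 ∈ D.J i z.1) :
    D.nb i (D.rev i z).1 (D.rev i z).2 = z.1 := (hD.nb_inv i z.1 z.2 hz).2

open Classical in
/-- the peeling property. -/
def ItfPeel (D : ItGraphs L Γ Vt) (i : ℕ) (T : Finset (Vt i × L)) : Prop :=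
  ∀ T' ⊆ T, T'.Nonempty → (∀ z ∈ T', D.rev i z ∈ T') →
    ∃ v, (T'.filter (fun z => z.1 = v)).card = 1

open Classical in
/-- **Forest criterion.**  For any key function, the parent darts (one dart to a vertex of smaller
key for every vertex which has one) and their reversals form a peeling forest. -/
theorem itf_forest (hD : D.Good) (i : ℕ) (S : Finset (Vt i × L))
    (hSJ : ∀ z ∈ S, z.2 ∈ D.J i z.1) (hSrev : ∀ z ∈ S, D.rev i z ∈ S) (key : Vt i → ℕ) :
    ∃ T ⊆ S, (∀ z ∈ T, D.rev i z ∈ T) ∧ ItfPeel D i T ∧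
      2 * (Finset.univ.filter
        (fun v => ∃ z ∈ S, z.1 = v ∧ key (D.nb i z.1 z.2) < key v)).card ≤ T.card := by
  set P : Vt i → Prop := fun v => ∃ z ∈ S, z.1 = v ∧ key (D.nb i z.1 z.2) < key v with hP
  set par : Vt i → Option (Vt i × L) := fun v => if h : P v then some h.choose else none with hpar
  have par_spec : ∀ v z, par v = some z → z ∈ S ∧ z.1 = v ∧ key (D.nb i z.1 z.2) < key v := by
    intro v z h
    simp only [hpar] at h
    split_ifs at h with hv
    rw [Option.some.injEq] at h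
    subst h
    exact hv.choose_spec
  have par_ex : ∀ v, P v → ∃ z, par v = some z := by
    intro v hv
    exact ⟨hv.choose, by simp only [hpar]; rw [dif_pos hv]⟩
  set T1 : Finset (Vt i × L) := S.filter (fun z => par z.1 = some z) with hT1
  set T2 : Finset (Vt i × L) := S.filter (fun z => par (D.nb i z.1 z.2) = some (D.rev i z)) with hT2
  have m1 : ∀ z, z ∈ T1 ↔ z ∈ S ∧ par z.1 = some z := fun z => by simp [hT1]
  have m2 : ∀ z, z ∈ T2 ↔ z ∈ S ∧ par (D.nb i z.1 z.2) = some (D.rev i z) := fun z => by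
    simp [hT2]
  have r12 : ∀ z ∈ T1, D.rev i z ∈ T2 := by
    intro z hz
    obtain ⟨h1, h2⟩ := (m1 z).1 hz
    refine (m2 _).2 ⟨hSrev z h1, ?_⟩
    rw [itf_rev_nb hD i z (hSJ z h1), itf_rev_rev hD i z (hSJ z h1)]
    exact h2
  have r21 : ∀ z ∈ T2, D.rev i z ∈ T1 := by
    intro z hz
    obtain ⟨h1, h2⟩ := (m2 z).1 hz
    exact (m1 _).2 ⟨hSrev z h1, h2⟩
  refine ⟨T1 ∪ T2, Finset.union_subset (Finset.filter_subset _ _) (Finset.filter_subset _ _),
    ?_, ?_, ?_⟩
  · intro z hz
    rcases Finset.mem_union.1 hz with h | h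
    · exact Finset.mem_union_right _ (r12 z h)
    · exact Finset.mem_union_left _ (r21 z h)
  · intro T' hT' hne hrev
    obtain ⟨z0, hz0, hmax⟩ := Finset.exists_max_image T' (fun z => key z.1) hne
    refine ⟨z0.1, ?_⟩
    have hall : ∀ z ∈ T', z.1 = z0.1 → par z0.1 = some z := by
      intro z hz hzv
      have hk : key (D.nb i z.1 z.2) ≤ key z0.1 := hmax (D.rev i z) (hrev z hz)
      rcases Finset.mem_union.1 (hT' hz) with h | h
      · rw [← hzv]
        exact ((m1 z).1 h).2
      · exfalso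
        obtain ⟨h1, h2⟩ := (m2 z).1 h
        have h3 := (par_spec _ _ h2).2.2
        rw [itf_rev_nb hD i z (hSJ z h1)] at h3
        have h4 : key z.1 = key z0.1 := by rw [hzv]
        omega
    rw [Finset.card_eq_one]
    refine ⟨z0, ?_⟩
    ext z
    simp only [Finset.mem_filter, Finset.mem_singleton]
    constructor
    · rintro ⟨hz, hzv⟩
      have h1 := hall z hz hzv
      have h2 := hall z0 hz0 rfl
      rw [h1, Option.some.injEq] at h2
      exact h2
    · rintro rfl
      exact ⟨hz0, rfl⟩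
  · have hdisj : Disjoint T1 T2 := by
      rw [Finset.disjoint_left]
      intro z h1 h2
      obtain ⟨a1, a2⟩ := (m1 z).1 h1
      obtain ⟨-, b2⟩ := (m2 z).1 h2
      have c1 := (par_spec _ _ a2).2.2
      have c2 := (par_spec _ _ b2).2.2
      rw [itf_rev_nb hD i z (hSJ z a1)] at c2
      omega
    rw [Finset.card_union_of_disjoint hdisj]
    have hA : (Finset.univ.filter
        (fun v => ∃ z ∈ S, z.1 = v ∧ key (D.nb i z.1 z.2) < key v)).card ≤ T1.card := by
      apply Finset.card_le_card_of_surjOn Prod.fst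
      intro v hv
      have hv' : P v := (Finset.mem_filter.1 (Finset.mem_coe.1 hv)).2
      obtain ⟨z, hz⟩ := par_ex v hv'
      obtain ⟨h1, h2, -⟩ := par_spec v z hz
      refine ⟨z, ?_, h2⟩
      rw [Finset.mem_coe, m1]
      exact ⟨h1, by rw [h2]; exact hz⟩
    have h12 : T1.card ≤ T2.card := by
      apply Finset.card_le_card_of_surjOn (D.rev i)
      intro z hz
      have hz' : z ∈ T1 := hz
      exact ⟨D.rev i z, r12 z hz', itf_rev_rev hD i z (hSJ z ((m1 z).1 hz').1)⟩
    omega

end forest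

/-! ### Part 2: search orders -/

section search

variable {X : Type} [Fintype X] [DecidableEq X]

theorem itf_rtg_symm (Adj : X → X → Prop) (hsym : ∀ a b, Adj a b → Adj b a) (a b : X)
    (h : Relation.ReflTransGen Adj a b) : Relation.ReflTransGen Adj b a := by
  induction h with
  | refl => exact Relation.ReflTransGen.refl
  | tail _ h2 ih => exact Relation.ReflTransGen.head (hsym _ _ h2) ih

/-- **Search order.**  Starting from a processed set `P` the remaining vertices can be numbered so
that every vertex which is not a root has a neighbour which is processed or has a smaller number;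
the roots are pairwise non-connected and not connected to `P`. -/
theorem itf_search (Adj : X → X → Prop) (hsym : ∀ a b, Adj a b → Adj b a) (n : ℕ) :
    ∀ P : Finset X, (Finset.univ \ P).card = n →
      ∃ (srch : X → ℕ) (Rt : Finset X),
        (∀ v, v ∉ P → v ∉ Rt → ∃ u, Adj v u ∧ (u ∈ P ∨ srch u < srch v)) ∧
        (∀ r ∈ Rt, ∀ u, Relation.ReflTransGen Adj r u → u ∉ P ∧ (u ∈ Rt → u = r)) := by
  induction n with
  | zero =>
    intro P hP
    refine ⟨fun _ => 0, ∅, ?_, by simp⟩
    intro v hv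
    exfalso
    rw [Finset.card_eq_zero, Finset.sdiff_eq_empty_iff_subset] at hP
    exact hv (hP (Finset.mem_univ v))
  | succ n ih =>
    intro P hP
    have hstep : ∀ v, v ∉ P → (Finset.univ \ insert v P).card = n := by
      intro v hv
      have : Finset.univ \ insert v P = (Finset.univ \ P).erase v := by
        ext x
        simp only [Finset.mem_sdiff, Finset.mem_univ, true_and, Finset.mem_insert, not_or,
          Finset.mem_erase]
      rw [this, Finset.card_erase_of_mem (by simp [hv]), hP]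
      rfl
    have hord : ∀ (v : X) (srch' : X → ℕ) (Rt' : Finset X),
        (∀ x, x ∉ insert v P → x ∉ Rt' → ∃ u, Adj x u ∧ (u ∈ insert v P ∨ srch' u < srch' x)) →
        ∀ x, x ∉ P → x ≠ v → x ∉ Rt' → ∃ u, Adj x u ∧
          (u ∈ P ∨ (if u = v then 0 else srch' u + 1) < (if x = v then 0 else srch' x + 1)) := by
      intro v srch' Rt' h x hx hxv hxR
      obtain ⟨u, hu1, hu2⟩ := h x (by simp [hx, hxv]) hxR
      refine ⟨u, hu1, ?_⟩
      rw [if_neg hxv]
      by_cases huv : u = v
      · right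
        rw [if_pos huv]
        omega
      · rw [if_neg huv]
        rcases hu2 with h1 | h1
        · left
          rcases Finset.mem_insert.1 h1 with h2 | h2
          · exact absurd h2 huv
          · exact h2
        · right
          omega
    by_cases hA : ∃ v, v ∉ P ∧ ∃ u ∈ P, Adj v u
    · obtain ⟨v, hv, u0, hu0, hadj⟩ := hA
      obtain ⟨srch', Rt', ha, hb⟩ := ih (insert v P) (hstep v hv)
      refine ⟨fun x => if x = v then 0 else srch' x + 1, Rt', ?_, ?_⟩
      · intro x hx hxR
        by_cases hxv : x = v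
        · subst hxv
          exact ⟨u0, hadj, Or.inl hu0⟩
        · exact hord v srch' Rt' ha x hx hxv hxR
      · intro r hr u hu
        obtain ⟨h1, h2⟩ := hb r hr u hu
        exact ⟨fun h => h1 (Finset.mem_insert_of_mem h), h2⟩
    · push Not at hA
      have hne : (Finset.univ \ P).Nonempty := by
        rw [← Finset.card_pos]; omega
      obtain ⟨v, hv⟩ := hne
      have hv : v ∉ P := by simpa using hv
      obtain ⟨srch', Rt', ha, hb⟩ := ih (insert v P) (hstep v hv)
      have hout : ∀ u, Relation.ReflTransGen Adj v u → u ∉ P := by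
        intro u hu
        induction hu with
        | refl => exact hv
        | tail _ h2 ih2 => exact fun h => hA _ ih2 _ h h2
      refine ⟨fun x => if x = v then 0 else srch' x + 1, insert v Rt', ?_, ?_⟩
      · intro x hx hxR
        rw [Finset.mem_insert, not_or] at hxR
        exact hord v srch' Rt' ha x hx hxR.1 hxR.2
      · intro r hr u hu
        rcases Finset.mem_insert.1 hr with rfl | hr
        · refine ⟨hout u hu, fun hu' => ?_⟩
          rcases Finset.mem_insert.1 hu' with h | h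
          · exact h
          · exfalso
            have hsymm : Relation.ReflTransGen Adj u r := itf_rtg_symm Adj hsym _ _ hu
            exact (hb u h r hsymm).1 (Finset.mem_insert_self _ _)
        · obtain ⟨h1, h2⟩ := hb r hr u hu
          refine ⟨fun h => h1 (Finset.mem_insert_of_mem h), fun hu' => ?_⟩
          rcases Finset.mem_insert.1 hu' with h | h
          · exact absurd (h ▸ Finset.mem_insert_self v P) h1
          · exact h2 h

end search

/-! ### Part 3: non-backtracking walks -/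

section walks

variable {L Γ : Type} [Group Γ] {Vt : ℕ → Type} [∀ i, Fintype (Vt i)] {D : ItGraphs L Γ Vt}

/-- a non-backtracking successor map on the darts of `S`. -/
structure ItfNx (D : ItGraphs L Γ Vt) (i : ℕ) (S : Finset (Vt i × L))
    (nx : Vt i × L → Vt i × L) : Prop where
  mem : ∀ z ∈ S, nx z ∈ S
  fst : ∀ z ∈ S, (nx z).1 = D.nb i z.1 z.2
  ne : ∀ z ∈ S, (nx z).2 ≠ D.inv z.2

/-- the word of the walk which follows the successor map. -/
def itfWd {X : Type} (nx : X × L → X × L) : ℕ → X × L → List L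
  | 0, _ => []
  | n + 1, z => z.2 :: itfWd nx n (nx z)

@[simp] theorem itfWd_length {X : Type} (nx : X × L → X × L) (n : ℕ) (z : X × L) :
    (itfWd nx n z).length = n := by
  induction n generalizing z with
  | zero => rfl
  | succ n ih => simp [itfWd, ih]

variable {i : ℕ} {S : Finset (Vt i × L)} {nx : Vt i × L → Vt i × L}

theorem ItfNx.iter_mem (h : ItfNx D i S nx) (n : ℕ) (z : Vt i × L) (hz : z ∈ S) :
    nx^[n] z ∈ S := by
  induction n generalizing z with
  | zero => exact hz
  | succ n ih => rw [Function.iterate_succ_apply]; exact ih _ (h.mem z hz)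

theorem ItfNx.wd_ok (h : ItfNx D i S nx) (hSJ : ∀ z ∈ S, z.2 ∈ D.J i z.1) (n : ℕ)
    (z : Vt i × L) (hz : z ∈ S) : D.ok i z.1 (itfWd nx n z) := by
  induction n generalizing z with
  | zero => trivial
  | succ n ih =>
    refine ⟨hSJ z hz, ?_⟩
    rw [← h.fst z hz]
    exact ih _ (h.mem z hz)

theorem ItfNx.wd_run (h : ItfNx D i S nx) (n : ℕ) (z : Vt i × L) (hz : z ∈ S) :
    D.run i z.1 (itfWd nx n z) = (nx^[n] z).1 := by
  induction n generalizing z with
  | zero => rfl
  | succ n ih =>
    rw [Function.iterate_succ_apply, ← ih _ (h.mem z hz), h.fst z hz]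
    rfl

theorem ItfNx.wd_red (h : ItfNx D i S nx) (n : ℕ) (z : Vt i × L) (hz : z ∈ S) :
    D.red (itfWd nx n z) := by
  induction n generalizing z with
  | zero => exact List.IsChain.nil
  | succ n ih =>
    cases n with
    | zero => exact List.IsChain.singleton _
    | succ n =>
      have := ih _ (h.mem z hz)
      unfold ItGraphs.red at this ⊢
      simp only [itfWd] at this ⊢
      exact List.isChain_cons_cons.2 ⟨h.ne z hz, this⟩

/-- adjacency in `S`. -/
def itfAdj (D : ItGraphs L Γ Vt) (i : ℕ) (S : Finset (Vt i × L)) (u v : Vt i) : Prop :=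
  ∃ s, (u, s) ∈ S ∧ D.nb i u s = v

theorem itfAdj_symm (hD : D.Good) (hSJ : ∀ z ∈ S, z.2 ∈ D.J i z.1)
    (hSrev : ∀ z ∈ S, D.rev i z ∈ S) (u v : Vt i) (h : itfAdj D i S u v) : itfAdj D i S v u := by
  obtain ⟨s, hs, rfl⟩ := h
  exact ⟨D.inv s, hSrev _ hs, (hD.nb_inv i u s (hSJ _ hs)).2⟩

theorem ItfNx.conn (h : ItfNx D i S nx) (n : ℕ) (z : Vt i × L) (hz : z ∈ S) :
    Relation.ReflTransGen (itfAdj D i S) z.1 (nx^[n] z).1 := by
  induction n generalizing z with
  | zero => exact Relation.ReflTransGen.refl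
  | succ n ih =>
    rw [Function.iterate_succ_apply]
    refine Relation.ReflTransGen.head ?_ (ih _ (h.mem z hz))
    exact ⟨z.2, hz, (h.fst z hz).symm⟩

/-- the walk does not return before `σ` steps. -/
theorem ItfNx.no_return (hD : D.Good) (h : ItfNx D i S nx) (hSJ : ∀ z ∈ S, z.2 ∈ D.J i z.1)
    (n : ℕ) (hn : 0 < n) (z : Vt i × L) (hz : z ∈ S) (he : (nx^[n] z).1 = z.1) : D.σ i ≤ n := by
  have := hD.girth i z.1 (itfWd nx n z) (by
    intro h0
    have := congrArg List.length h0
    simp at this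
    omega) (h.wd_red n z hz) (h.wd_ok hSJ n z hz) (by rw [h.wd_run n z hz, he])
  simpa using this

open Classical in
/-- in the core a successor map exists. -/
theorem itf_exists_nx (hSrev : ∀ z ∈ S, D.rev i z ∈ S)
    (hcore : ∀ v, (S.filter (fun z => z.1 = v)).card ≠ 1) : ∃ nx, ItfNx D i S nx := by
  have hnext : ∀ z ∈ S, ∃ z' ∈ S, z'.1 = D.nb i z.1 z.2 ∧ z'.2 ≠ D.inv z.2 := by
    intro z hz
    have h1 : D.rev i z ∈ S.filter (fun z' => z'.1 = D.nb i z.1 z.2) :=
      Finset.mem_filter.2 ⟨hSrev z hz, rfl⟩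
    have h2 : 1 < (S.filter (fun z' => z'.1 = D.nb i z.1 z.2)).card := by
      have h3 := Finset.card_pos.2 ⟨_, h1⟩
      have h4 := hcore (D.nb i z.1 z.2)
      omega
    obtain ⟨z', hz', hne⟩ := Finset.exists_mem_ne h2 (D.rev i z)
    obtain ⟨h5, h6⟩ := Finset.mem_filter.1 hz'
    exact ⟨z', h5, h6, fun h => hne (Prod.ext h6 h)⟩
  refine ⟨fun z => if h : z ∈ S then (hnext z h).choose else z, ?_, ?_, ?_⟩
  · intro z hz
    simp only [dif_pos hz]
    exact (hnext z hz).choose_spec.1
  · intro z hz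
    simp only [dif_pos hz]
    exact (hnext z hz).choose_spec.2.1
  · intro z hz
    simp only [dif_pos hz]
    exact (hnext z hz).choose_spec.2.2

end walks

/-! ### Part 4: the core case -/

section core

variable {L Γ : Type} [Group Γ] {Vt : ℕ → Type} [∀ i, Fintype (Vt i)] {D : ItGraphs L Γ Vt}

/-- the geometry of the ball (proved in `ItsWord.lean` by helper69). -/
structure ItfBall (D : ItGraphs L Γ Vt) (i : ℕ) (b : Vt i) : Prop where
  par : ∃ (dep : Vt i → ℕ) (par : Vt i → L), (∀ v ∈ D.ball i b, 8 * dep v ≤ D.σ i) ∧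
    ∀ v s, s ∈ D.J i v → v ∈ D.ball i b → D.nb i v s ∈ D.ball i b →
      (s = par v ∧ dep (D.nb i v s) < dep v) ∨
        (D.inv s = par (D.nb i v s) ∧ dep v < dep (D.nb i v s))
  noreturn : ∀ x s w, x ∈ D.ball i b → D.nb i x s ∉ D.ball i b → D.red (s :: w) →
    D.ok i x (s :: w) → 4 * w.length ≤ D.σ i → D.run i x (s :: w) ∉ D.ball i b
  inj : ∀ x x' s s' w w', x ∈ D.ball i b → x' ∈ D.ball i b → D.nb i x s ∉ D.ball i b →
    D.nb i x' s' ∉ D.ball i b → D.red (s :: w) → D.red (s' :: w') → D.ok i x (s :: w) →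
    D.ok i x' (s' :: w') → 4 * w.length ≤ D.σ i → 4 * w'.length ≤ D.σ i →
    D.run i x (s :: w) = D.run i x' (s' :: w') → x = x' ∧ s = s' ∧ w = w'

variable {i : ℕ} {b : Vt i} {S : Finset (Vt i × L)} {W : Finset (Vt i)}
  {nx : Vt i × L → Vt i × L}

open Classical in
/-- **Count**: attachment darts and roots have pairwise disjoint walks of `σ / 4` vertices in the
exterior part. -/
theorem itf_count (hD : D.Good) (hB : ItfBall D i b) (hN : ItfNx D i S nx)
    (hSJ : ∀ z ∈ S, z.2 ∈ D.J i z.1) (hSrev : ∀ z ∈ S, D.rev i z ∈ S)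
    (hSW : ∀ z ∈ S, z.1 ∈ D.ball i b ∨ z.1 ∈ W)
    (Rt : Finset (Vt i)) (hRtS : ∀ r ∈ Rt, ∃ z ∈ S, z.1 = r)
    (hRt : ∀ r ∈ Rt, ∀ u, Relation.ReflTransGen (itfAdj D i S) r u →
      u ∉ D.ball i b ∧ (u ∈ Rt → u = r)) :
    ((S.filter (fun z => z.1 ∈ D.ball i b ∧ D.nb i z.1 z.2 ∉ D.ball i b)).card + Rt.card)
      * (D.σ i / 4) ≤ (W.filter (fun w => ∃ z ∈ S, z.1 = w)).card := by
  set m := D.σ i / 4 with hm
  set Sbw := S.filter (fun z => z.1 ∈ D.ball i b ∧ D.nb i z.1 z.2 ∉ D.ball i b) with hSbw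
  set W0 := W.filter (fun w => ∃ z ∈ S, z.1 = w) with hW0
  have hσ := hD.σ_gt i
  have mW0 : ∀ z ∈ S, z.1 ∉ D.ball i b → z.1 ∈ W0 := by
    intro z hz hzb
    rcases hSW z hz with h | h
    · exact absurd h hzb
    · exact Finset.mem_filter.2 ⟨h, z, hz, rfl⟩
  have hsymm := itf_rtg_symm (itfAdj D i S) (itfAdj_symm hD hSJ hSrev)
  have hne : Nonempty (Vt i × L) := by
    obtain ⟨-, bp, -⟩ := hB.par
    exact ⟨(b, bp b)⟩
  choose! zr hzr1 hzr2 using hRtS
  -- the two families
  set f1 : (Vt i × L) × ℕ → Vt i := fun p => (nx^[p.2 + 1] p.1).1 with hf1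
  set f2 : Vt i × ℕ → Vt i := fun p => (nx^[p.2] (zr p.1)).1 with hf2
  set F1 := (Sbw ×ˢ Finset.range m).image f1 with hF1
  set F2 := (Rt ×ˢ Finset.range m).image f2 with hF2
  have run1 : ∀ a ∈ S, ∀ j, (nx^[j + 1] a).1 = D.run i a.1 (a.2 :: itfWd nx j (nx a)) := by
    intro a ha j
    rw [← hN.wd_run (j + 1) a ha]
    rfl
  have red1 : ∀ a ∈ S, ∀ j, D.red (a.2 :: itfWd nx j (nx a)) := fun a ha j =>
    hN.wd_red (j + 1) a ha
  have ok1 : ∀ a ∈ S, ∀ j, D.ok i a.1 (a.2 :: itfWd nx j (nx a)) := fun a ha j =>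
    hN.wd_ok hSJ (j + 1) a ha
  have c1 : F1.card = Sbw.card * m := by
    rw [hF1, Finset.card_image_of_injOn, Finset.card_product, Finset.card_range]
    rintro ⟨a, j⟩ h ⟨a', j'⟩ h' he
    simp only [Finset.coe_product, Set.mem_prod, Finset.mem_coe, Finset.mem_range] at h h'
    obtain ⟨ha, hj⟩ := h
    obtain ⟨ha', hj'⟩ := h'
    obtain ⟨haS, hab, han⟩ := Finset.mem_filter.1 ha
    obtain ⟨haS', hab', han'⟩ := Finset.mem_filter.1 ha'
    simp only [hf1] at he
    rw [run1 a haS j, run1 a' haS' j'] at he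
    obtain ⟨e1, e2, e3⟩ := hB.inj _ _ _ _ _ _ hab hab' han han' (red1 a haS j) (red1 a' haS' j')
      (ok1 a haS j) (ok1 a' haS' j') (by simp; omega) (by simp; omega) he
    have e4 := congrArg List.length e3
    simp only [itfWd_length] at e4
    rw [Prod.ext e1 e2, e4]
  have c2 : F2.card = Rt.card * m := by
    rw [hF2, Finset.card_image_of_injOn, Finset.card_product, Finset.card_range]
    have key : ∀ r ∈ Rt, ∀ j j', j < j' → j' < m → (nx^[j] (zr r)).1 ≠ (nx^[j'] (zr r)).1 := by
      intro r hr j j' hjj hj' he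
      have h1 : nx^[j'] (zr r) = nx^[j' - j] (nx^[j] (zr r)) := by
        rw [← Function.iterate_add_apply]
        congr 1
        omega
      rw [h1] at he
      have := hN.no_return hD hSJ (j' - j) (by omega) _ (hN.iter_mem j _ (hzr1 r hr)) he.symm
      omega
    rintro ⟨r, j⟩ h ⟨r', j'⟩ h' he
    simp only [Finset.coe_product, Set.mem_prod, Finset.mem_coe, Finset.mem_range] at h h'
    obtain ⟨hr, hj⟩ := h
    obtain ⟨hr', hj'⟩ := h'
    simp only [hf2] at he
    have k1 := hN.conn j (zr r) (hzr1 r hr)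
    have k2 := hN.conn j' (zr r') (hzr1 r' hr')
    rw [hzr2 r hr] at k1
    rw [hzr2 r' hr', ← he] at k2
    have e1 : r' = r := (hRt r hr r' (k1.trans (hsymm _ _ k2))).2 hr'
    subst e1
    rcases lt_trichotomy j j' with h | h | h
    · exact absurd he (key r' hr j j' h hj')
    · rw [h]
    · exact absurd he.symm (key r' hr j' j h hj)
  have s1 : F1 ⊆ W0 := by
    intro x hx
    obtain ⟨⟨a, j⟩, h, rfl⟩ := Finset.mem_image.1 hx
    obtain ⟨ha, hj⟩ := Finset.mem_product.1 h
    obtain ⟨haS, hab, han⟩ := Finset.mem_filter.1 ha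
    simp only [Finset.mem_range] at hj
    apply mW0 _ (hN.iter_mem (j + 1) a haS)
    rw [run1 a haS j]
    exact hB.noreturn _ _ _ hab han (red1 a haS j) (ok1 a haS j) (by simp; omega)
  have s2 : F2 ⊆ W0 := by
    intro x hx
    obtain ⟨⟨r, j⟩, h, rfl⟩ := Finset.mem_image.1 hx
    obtain ⟨hr, hj⟩ := Finset.mem_product.1 h
    apply mW0 _ (hN.iter_mem j _ (hzr1 r hr))
    have k1 := hN.conn j (zr r) (hzr1 r hr)
    rw [hzr2 r hr] at k1
    exact (hRt r hr _ k1).1
  have hdisj : Disjoint F1 F2 := by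
    rw [Finset.disjoint_left]
    intro x hx1 hx2
    obtain ⟨⟨a, j⟩, h, rfl⟩ := Finset.mem_image.1 hx1
    obtain ⟨ha, -⟩ := Finset.mem_product.1 h
    obtain ⟨haS, hab, -⟩ := Finset.mem_filter.1 ha
    obtain ⟨⟨r, j'⟩, h', he⟩ := Finset.mem_image.1 hx2
    obtain ⟨hr, -⟩ := Finset.mem_product.1 h'
    have k1 := hN.conn j' (zr r) (hzr1 r hr)
    rw [hzr2 r hr] at k1
    have k2 := hN.conn (j + 1) a haS
    simp only [hf1, hf2] at he
    rw [he] at k1
    exact (hRt r hr _ (k1.trans (hsymm _ _ k2))).1 hab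
  calc (Sbw.card + Rt.card) * m = F1.card + F2.card := by rw [c1, c2, add_mul]
    _ = (F1 ∪ F2).card := (Finset.card_union_of_disjoint hdisj).symm
    _ ≤ W0.card := Finset.card_le_card (Finset.union_subset s1 s2)

open Classical in
/-- **The core case.** -/
theorem itf_core (hD : D.Good) (hB : ItfBall D i b)
    (hSJ : ∀ z ∈ S, z.2 ∈ D.J i z.1) (hSrev : ∀ z ∈ S, D.rev i z ∈ S)
    (hW : ∀ v ∈ W, v ∉ D.ball i b) (hSW : ∀ z ∈ S, z.1 ∈ D.ball i b ∨ z.1 ∈ W)
    (hdens : ∀ C ⊆ W, ((S.filter (fun z => z.1 ∈ C ∧ D.nb i z.1 z.2 ∈ C)).card : ℝ) ≤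
      (D.d - D.c) * C.card)
    (hcore : ∀ v, (S.filter (fun z => z.1 = v)).card ≠ 1) :
    ∃ T ⊆ S, (∀ z ∈ T, D.rev i z ∈ T) ∧ ItfPeel D i T ∧
      ((S \ T).card : ℝ) ≤ 2 * D.Kc * W.card := by
  obtain ⟨nx, hN⟩ := itf_exists_nx hSrev hcore
  obtain ⟨dep, bpar, hdep, hbp⟩ := hB.par
  set Bl : Finset (Vt i) := Finset.univ.filter (fun v => v ∈ D.ball i b) with hBl
  have mBl : ∀ v, v ∈ Bl ↔ v ∈ D.ball i b := fun v => by simp [hBl]
  obtain ⟨srch, Rt, hGa, hGb⟩ :=
    itf_search (itfAdj D i S) (itfAdj_symm hD hSJ hSrev) _ Bl rfl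
  set W0 := W.filter (fun w => ∃ z ∈ S, z.1 = w) with hW0
  have mW0 : ∀ z ∈ S, z.1 ∉ D.ball i b → z.1 ∈ W0 := by
    intro z hz hzb
    rcases hSW z hz with h | h
    · exact absurd h hzb
    · exact Finset.mem_filter.2 ⟨h, z, hz, rfl⟩
  have hW0W : W0 ⊆ W := Finset.filter_subset _ _
  set Rt0 := Rt.filter (fun r => r ∈ W0) with hRt0
  set key : Vt i → ℕ := fun v => if v ∈ D.ball i b then dep v else D.σ i + 1 + srch v with hkey
  have keyB : ∀ v, v ∈ D.ball i b → key v = dep v := fun v hv => by simp only [hkey, if_pos hv]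
  have keyW : ∀ v, v ∉ D.ball i b → key v = D.σ i + 1 + srch v := fun v hv => by
    simp only [hkey, if_neg hv]
  obtain ⟨T, hTS, hTrev, hTpeel, hTcard⟩ := itf_forest hD i S hSJ hSrev key
  set A := Finset.univ.filter (fun v => ∃ z ∈ S, z.1 = v ∧ key (D.nb i z.1 z.2) < key v) with hA
  have mA : ∀ v, v ∈ A ↔ ∃ z ∈ S, z.1 = v ∧ key (D.nb i z.1 z.2) < key v := fun v => by
    simp only [hA, Finset.mem_filter, Finset.mem_univ, true_and]
  refine ⟨T, hTS, hTrev, hTpeel, ?_⟩
  have hcount := itf_count hD hB hN hSJ hSrev hSW Rt0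
    (fun r hr => (Finset.mem_filter.1 (Finset.mem_filter.1 hr).2).2)
    (fun r hr u hu => by
      obtain ⟨h1, h2⟩ := hGb r (Finset.mem_filter.1 hr).1 u hu
      exact ⟨fun h => h1 ((mBl u).2 h), fun h => h2 (Finset.mem_filter.1 h).1⟩)
  set Sbb := S.filter (fun z => z.1 ∈ D.ball i b ∧ D.nb i z.1 z.2 ∈ D.ball i b) with hSbb
  set Sbw := S.filter (fun z => z.1 ∈ D.ball i b ∧ D.nb i z.1 z.2 ∉ D.ball i b) with hSbw
  set Swb := S.filter (fun z => z.1 ∉ D.ball i b ∧ D.nb i z.1 z.2 ∈ D.ball i b) with hSwb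
  set Sww := S.filter (fun z => z.1 ∉ D.ball i b ∧ D.nb i z.1 z.2 ∉ D.ball i b) with hSww
  have hpart : S.card = Sbb.card + Sbw.card + Swb.card + Sww.card := by
    have e1 := Finset.card_filter_add_card_filter_not (s := S) (fun z => z.1 ∈ D.ball i b)
    have e2 := Finset.card_filter_add_card_filter_not
      (s := S.filter (fun z => z.1 ∈ D.ball i b)) (fun z => D.nb i z.1 z.2 ∈ D.ball i b)
    have e3 := Finset.card_filter_add_card_filter_not
      (s := S.filter (fun z => z.1 ∉ D.ball i b)) (fun z => D.nb i z.1 z.2 ∈ D.ball i b)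
    simp only [Finset.filter_filter] at e2 e3
    rw [hSbb, hSbw, hSwb, hSww]
    omega
  -- Claim 5
  have c5 : Swb.card ≤ Sbw.card := by
    apply Finset.card_le_card_of_injOn (D.rev i)
    · intro z hz
      obtain ⟨h1, h2, h3⟩ := Finset.mem_filter.1 (Finset.mem_coe.1 hz)
      refine Finset.mem_coe.2 (Finset.mem_filter.2 ⟨hSrev z h1, h3, ?_⟩)
      rw [itf_rev_nb hD i z (hSJ z h1)]
      exact h2
    · intro z hz z' hz' he
      have h1 := (Finset.mem_filter.1 (Finset.mem_coe.1 hz)).1
      have h1' := (Finset.mem_filter.1 (Finset.mem_coe.1 hz')).1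
      rw [← itf_rev_rev hD i z (hSJ z h1), he, itf_rev_rev hD i z' (hSJ z' h1')]
  -- Claim 1
  set Dn := Sbb.filter (fun z => z.2 = bpar z.1 ∧ dep (D.nb i z.1 z.2) < dep z.1) with hDn
  have c1a : Sbb ⊆ Dn ∪ Dn.image (D.rev i) := by
    intro z hz
    obtain ⟨h1, h2, h3⟩ := Finset.mem_filter.1 hz
    rcases hbp z.1 z.2 (hSJ z h1) h2 h3 with h | h
    · exact Finset.mem_union_left _ (Finset.mem_filter.2 ⟨hz, h⟩)
    · apply Finset.mem_union_right
      refine Finset.mem_image.2 ⟨D.rev i z, ?_, itf_rev_rev hD i z (hSJ z h1)⟩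
      refine Finset.mem_filter.2 ⟨Finset.mem_filter.2 ⟨hSrev z h1, h3, ?_⟩, h.1, ?_⟩
      · rw [itf_rev_nb hD i z (hSJ z h1)]; exact h2
      · rw [itf_rev_nb hD i z (hSJ z h1)]; exact h.2
  have c1b : Dn.card ≤ (A.filter (fun v => v ∈ D.ball i b)).card := by
    apply Finset.card_le_card_of_injOn Prod.fst
    · intro z hz
      obtain ⟨h0, h4, h5⟩ := Finset.mem_filter.1 (Finset.mem_coe.1 hz)
      obtain ⟨h1, h2, h3⟩ := Finset.mem_filter.1 h0
      refine Finset.mem_coe.2 (Finset.mem_filter.2 ⟨(mA _).2 ⟨z, h1, rfl, ?_⟩, h2⟩)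
      rw [keyB _ h2, keyB _ h3]
      exact h5
    · intro z hz z' hz' he
      have h4 := (Finset.mem_filter.1 (Finset.mem_coe.1 hz)).2.1
      have h4' := (Finset.mem_filter.1 (Finset.mem_coe.1 hz')).2.1
      have he' : z.1 = z'.1 := he
      exact Prod.ext he' (by rw [h4, h4', he'])
  have c1 : Sbb.card ≤ 2 * (A.filter (fun v => v ∈ D.ball i b)).card := by
    have h1 := Finset.card_le_card c1a
    have h2 := Finset.card_union_le Dn (Dn.image (D.rev i))
    have h3 : (Dn.image (D.rev i)).card ≤ Dn.card := Finset.card_image_le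
    omega
  -- Claim 2
  have c2 : (Sww.card : ℝ) ≤ (D.d - D.c) * W0.card := by
    refine le_trans ?_ (hdens W0 hW0W)
    have : Sww ⊆ S.filter (fun z => z.1 ∈ W0 ∧ D.nb i z.1 z.2 ∈ W0) := by
      intro z hz
      obtain ⟨h1, h2, h3⟩ := Finset.mem_filter.1 hz
      refine Finset.mem_filter.2 ⟨h1, mW0 z h1 h2, ?_⟩
      exact mW0 (D.rev i z) (hSrev z h1) h3
    exact_mod_cast Finset.card_le_card this
  -- Claim 3
  have c3 : W0.card ≤ (A.filter (fun v => v ∈ W0)).card + Rt0.card := by
    have : W0 ⊆ A.filter (fun v => v ∈ W0) ∪ Rt0 := by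
      intro w hw
      have hwb : w ∉ D.ball i b := hW w (hW0W hw)
      by_cases hwR : w ∈ Rt
      · exact Finset.mem_union_right _ (Finset.mem_filter.2 ⟨hwR, hw⟩)
      · apply Finset.mem_union_left
        refine Finset.mem_filter.2 ⟨(mA w).2 ?_, hw⟩
        obtain ⟨u, ⟨s, hs, rfl⟩, hu⟩ := hGa w (fun h => hwb ((mBl w).1 h)) hwR
        refine ⟨(w, s), hs, rfl, ?_⟩
        show key (D.nb i w s) < key w
        rw [keyW w hwb]
        by_cases hub : D.nb i w s ∈ D.ball i b
        · rw [keyB _ hub]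
          have := hdep _ hub
          omega
        · rw [keyW _ hub]
          rcases hu with h | h
          · exact absurd ((mBl _).1 h) hub
          · omega
    exact (Finset.card_le_card this).trans (Finset.card_union_le _ _)
  have c4 : (A.filter (fun v => v ∈ D.ball i b)).card + (A.filter (fun v => v ∈ W0)).card
      ≤ A.card := by
    rw [← Finset.card_union_of_disjoint]
    · exact Finset.card_le_card
        (Finset.union_subset (Finset.filter_subset _ _) (Finset.filter_subset _ _))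
    · rw [Finset.disjoint_left]
      intro v h1 h2
      exact hW v (hW0W (Finset.mem_filter.1 h2).2) (Finset.mem_filter.1 h1).2
  -- arithmetic
  have hST : (S \ T).card + T.card = S.card := by
    rw [Finset.card_sdiff_of_subset hTS]
    have := Finset.card_le_card hTS
    omega
  have hnat : (S \ T).card + 2 * W0.card ≤ 2 * (Sbw.card + Rt0.card) + Sww.card := by omega
  have hσ := hD.σ_gt i
  have hσc := hD.σ_c i
  have hκ := hD.κ_pos
  have hc0 : 0 < D.c := by
    unfold ItGraphs.c
    positivity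
  have hc1 : D.c ≤ 1 / 200 := by
    unfold ItGraphs.c
    have : min D.κ 1 ≤ 1 := min_le_right _ _
    linarith
  have hm : (D.σ i : ℝ) ≤ 4 * ((D.σ i / 4 : ℕ) : ℝ) + 3 := by
    have : D.σ i ≤ 4 * (D.σ i / 4) + 3 := by omega
    exact_mod_cast this
  have hcm : 4 ≤ D.c * ((D.σ i / 4 : ℕ) : ℝ) := by nlinarith
  have hcountR : ((Sbw.card : ℝ) + Rt0.card) * ((D.σ i / 4 : ℕ) : ℝ) ≤ W0.card := by
    exact_mod_cast hcount
  have hlr : 4 * ((Sbw.card : ℝ) + Rt0.card) ≤ D.c * W0.card := by
    have h0 : (0 : ℝ) ≤ (Sbw.card : ℝ) + Rt0.card := by positivity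
    calc 4 * ((Sbw.card : ℝ) + Rt0.card)
        ≤ D.c * ((D.σ i / 4 : ℕ) : ℝ) * ((Sbw.card : ℝ) + Rt0.card) :=
          mul_le_mul_of_nonneg_right hcm h0
      _ = D.c * (((Sbw.card : ℝ) + Rt0.card) * ((D.σ i / 4 : ℕ) : ℝ)) := by ring
      _ ≤ D.c * W0.card := mul_le_mul_of_nonneg_left hcountR hc0.le
  have hnatR : ((S \ T).card : ℝ) + 2 * W0.card ≤ 2 * ((Sbw.card : ℝ) + Rt0.card) + Sww.card := by
    exact_mod_cast hnat
  have hd3 : (3 : ℝ) ≤ D.d := by exact_mod_cast hD.three_le
  have hK0 : 0 ≤ D.Kc := by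
    unfold ItGraphs.Kc
    linarith
  have hWW : (W0.card : ℝ) ≤ W.card := by exact_mod_cast Finset.card_le_card hW0W
  calc ((S \ T).card : ℝ) ≤ 2 * D.Kc * W0.card := by
        unfold ItGraphs.Kc
        nlinarith
    _ ≤ 2 * D.Kc * W.card := by
        apply mul_le_mul_of_nonneg_left hWW
        positivity

end core

/-! ### Part 5: reduction to the core -/

section final

variable {L Γ : Type} [Group Γ] {Vt : ℕ → Type} [∀ i, Fintype (Vt i)] {D : ItGraphs L Γ Vt}
  {i : ℕ} {b : Vt i}

open Classical in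
theorem itf_rank_aux (hD : D.Good) (hB : ItfBall D i b) (n : ℕ) :
    ∀ (S : Finset (Vt i × L)) (W : Finset (Vt i)), S.card = n →
      (∀ z ∈ S, z.2 ∈ D.J i z.1) → (∀ z ∈ S, D.rev i z ∈ S) →
      (∀ v ∈ W, v ∉ D.ball i b) → (∀ z ∈ S, z.1 ∈ D.ball i b ∨ z.1 ∈ W) →
      (∀ C ⊆ W, ((S.filter (fun z => z.1 ∈ C ∧ D.nb i z.1 z.2 ∈ C)).card : ℝ) ≤
        (D.d - D.c) * C.card) →
      ∃ T ⊆ S, (∀ z ∈ T, D.rev i z ∈ T) ∧ ItfPeel D i T ∧
        ((S \ T).card : ℝ) ≤ 2 * D.Kc * W.card := by
  induction n using Nat.strong_induction_on with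
  | _ n ih =>
    intro S W hn hSJ hSrev hW hSW hdens
    by_cases hcore : ∀ v, (S.filter (fun z => z.1 = v)).card ≠ 1
    · exact itf_core hD hB hSJ hSrev hW hSW hdens hcore
    · push Not at hcore
      obtain ⟨v, hv⟩ := hcore
      obtain ⟨z, hz⟩ := Finset.card_eq_one.1 hv
      have hzmem : z ∈ S.filter (fun z => z.1 = v) := by rw [hz]; exact Finset.mem_singleton_self _
      obtain ⟨hzS, hzv⟩ := Finset.mem_filter.1 hzmem
      have honly : ∀ z' ∈ S, z'.1 = v → z' = z := by
        intro z' h1 h2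
        have : z' ∈ S.filter (fun z => z.1 = v) := Finset.mem_filter.2 ⟨h1, h2⟩
        rw [hz] at this
        exact Finset.mem_singleton.1 this
      set S1 := (S.erase z).erase (D.rev i z) with hS1
      have mS1 : ∀ z', z' ∈ S1 ↔ z' ≠ D.rev i z ∧ z' ≠ z ∧ z' ∈ S := by
        intro z'
        simp only [hS1, Finset.mem_erase]
      have hS1S : S1 ⊆ S := fun z' h => ((mS1 z').1 h).2.2
      have hcard : S1.card < n := by
        have h1 : S1.card ≤ (S.erase z).card := Finset.card_le_card (Finset.erase_subset _ _)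
        have h2 := Finset.card_erase_of_mem hzS
        have h3 : 0 < S.card := Finset.card_pos.2 ⟨z, hzS⟩
        omega
      have hK0 : 0 ≤ D.Kc := by
        have hd3 : (3 : ℝ) ≤ D.d := by exact_mod_cast hD.three_le
        have hc1 : D.c ≤ 1 / 200 := by
          unfold ItGraphs.c
          have : min D.κ 1 ≤ 1 := min_le_right _ _
          linarith
        unfold ItGraphs.Kc
        linarith
      obtain ⟨T1, hT1S, hT1rev, hT1peel, hT1card⟩ := ih S1.card hcard S1 (W.erase v) rfl
        (fun z' h => hSJ z' (hS1S h))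
        (by
          intro z' h
          obtain ⟨h1, h2, h3⟩ := (mS1 z').1 h
          refine (mS1 _).2 ⟨?_, ?_, hSrev z' h3⟩
          · intro e
            apply h2
            rw [← itf_rev_rev hD i z' (hSJ z' h3), e, itf_rev_rev hD i z (hSJ z hzS)]
          · intro e
            apply h1
            rw [← e, itf_rev_rev hD i z' (hSJ z' h3)])
        (fun v' h => hW v' (Finset.mem_of_mem_erase h))
        (by
          intro z' h
          obtain ⟨h1, h2, h3⟩ := (mS1 z').1 h
          rcases hSW z' h3 with h4 | h4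
          · exact Or.inl h4
          · exact Or.inr (Finset.mem_erase.2 ⟨fun e => h2 (honly z' h3 e), h4⟩))
        (by
          intro C hC
          refine le_trans ?_ (hdens C (hC.trans (Finset.erase_subset _ _)))
          exact_mod_cast Finset.card_le_card (Finset.filter_subset_filter _ hS1S))
      refine ⟨insert z (insert (D.rev i z) T1), ?_, ?_, ?_, ?_⟩
      · intro z' h
        rcases Finset.mem_insert.1 h with rfl | h
        · exact hzS
        rcases Finset.mem_insert.1 h with rfl | h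
        · exact hSrev _ hzS
        · exact hS1S (hT1S h)
      · intro z' h
        rcases Finset.mem_insert.1 h with rfl | h
        · exact Finset.mem_insert_of_mem (Finset.mem_insert_self _ _)
        rcases Finset.mem_insert.1 h with rfl | h
        · rw [itf_rev_rev hD i z (hSJ z hzS)]
          exact Finset.mem_insert_self _ _
        · exact Finset.mem_insert_of_mem (Finset.mem_insert_of_mem (hT1rev z' h))
      · intro T' hT' hne hrev
        by_cases hzT : z ∈ T'
        · refine ⟨v, ?_⟩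
          rw [Finset.card_eq_one]
          refine ⟨z, ?_⟩
          ext z'
          simp only [Finset.mem_filter, Finset.mem_singleton]
          constructor
          · rintro ⟨h1, h2⟩
            apply honly z' _ h2
            rcases Finset.mem_insert.1 (hT' h1) with rfl | h
            · exact hzS
            rcases Finset.mem_insert.1 h with rfl | h
            · exact hSrev _ hzS
            · exact hS1S (hT1S h)
          · rintro rfl
            exact ⟨hzT, hzv⟩
        · have hrT : D.rev i z ∉ T' := by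
            intro h
            apply hzT
            have := hrev _ h
            rwa [itf_rev_rev hD i z (hSJ z hzS)] at this
          apply hT1peel T' _ hne hrev
          intro z' h
          rcases Finset.mem_insert.1 (hT' h) with rfl | h'
          · exact absurd h hzT
          rcases Finset.mem_insert.1 h' with rfl | h'
          · exact absurd h hrT
          · exact h'
      · have hsd : S \ insert z (insert (D.rev i z) T1) = S1 \ T1 := by
          ext z'
          simp only [Finset.mem_sdiff, Finset.mem_insert, not_or, mS1]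
          tauto
        rw [hsd]
        refine hT1card.trans ?_
        apply mul_le_mul_of_nonneg_left _ (by positivity)
        exact_mod_cast Finset.card_le_card (Finset.erase_subset _ _)

open Classical in
/-- **DEF-R** (modulo the geometry of the ball). -/
theorem itf_def_rank (hD : D.Good) (i : ℕ) (b : Vt i) (hB : ItfBall D i b)
    (S : Finset (Vt i × L)) (W : Finset (Vt i))
    (hSJ : ∀ z ∈ S, z.2 ∈ D.J i z.1) (hSrev : ∀ z ∈ S, D.rev i z ∈ S)
    (hW : ∀ v ∈ W, v ∉ D.ball i b) (hSW : ∀ z ∈ S, z.1 ∈ D.ball i b ∨ z.1 ∈ W)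
    (hdens : ∀ C ⊆ W, ((S.filter (fun z => z.1 ∈ C ∧ D.nb i z.1 z.2 ∈ C)).card : ℝ) ≤
      (D.d - D.c) * C.card) :
    ∃ T ⊆ S, (∀ z ∈ T, D.rev i z ∈ T) ∧
      (∀ T' ⊆ T, T'.Nonempty → (∀ z ∈ T', D.rev i z ∈ T') →
        ∃ v, (T'.filter (fun z => z.1 = v)).card = 1) ∧
      ((S \ T).card : ℝ) ≤ 2 * D.Kc * W.card :=
  itf_rank_aux hD hB S.card S W rfl hSJ hSrev hW hSW hdens

/-- the geometry of the ball, from `ItsBall.lean` (helper69). -/
theorem itf_ball (hD : D.Good) (i : ℕ) (b : Vt i) : ItfBall D i b where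
  par := its_ball_par hD i b
  noreturn := fun x s w hx hs r o l => its_att_noreturn hD i b x s w hx hs r o l
  inj := fun x x' s s' w w' hx hx' hs hs' r r' o o' l l' he =>
    its_att_inj hD i b x x' s s' w w' hx hx' hs hs' r r' o o' l l' he

open Classical in
/-- **DEF-R**: verbatim `it_def_rank` of `ItDefIface.lean`. -/
theorem itf_def_rank_main (D : ItGraphs L Γ Vt) (hD : D.Good) (i : ℕ) (b : Vt i)
    (S : Finset (Vt i × L)) (W : Finset (Vt i))
    (hSJ : ∀ z ∈ S, z.2 ∈ D.J i z.1) (hSrev : ∀ z ∈ S, D.rev i z ∈ S)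
    (hW : ∀ v ∈ W, v ∉ D.ball i b) (hSW : ∀ z ∈ S, z.1 ∈ D.ball i b ∨ z.1 ∈ W)
    (hdens : ∀ C ⊆ W, ((S.filter (fun z => z.1 ∈ C ∧ D.nb i z.1 z.2 ∈ C)).card : ℝ) ≤
      (D.d - D.c) * C.card) :
    ∃ T ⊆ S, (∀ z ∈ T, D.rev i z ∈ T) ∧
      (∀ T' ⊆ T, T'.Nonempty → (∀ z ∈ T', D.rev i z ∈ T') →
        ∃ v, (T'.filter (fun z => z.1 = v)).card = 1) ∧
      ((S \ T).card : ℝ) ≤ 2 * D.Kc * W.card :=
  itf_def_rank hD i b (itf_ball hD i b) S W hSJ hSrev hW hSW hdens

end final

end Claimed.Agent.R300
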