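/-
Row 300 (S0552), IT back end, owner helper128.
IT-DEF-L: linear algebra part of the global deficit (Lemma 5.3): Euler inequality, elimination of the
copies along `leaf` by rank-nullity in a quotient, and the assembly of `it_global_deficit` from
`itf_def_rank` (DEF-R) and `itds_span` (DEF-S).
-/
import Claimed.Agent.R300.ItDefIface
import Claimed.Agent.R300.ItdSpan
import Claimed.Agent.R300.ItfForest
import Claimed.Agent.R300.ItsBall

set_option autoImplicit false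

namespace Claimed.Agent.R300

open Module

/-! ### Generic linear algebra -/

section generic

variable {𝕜 : Type} [Field 𝕜] {α : Type}

instance it_supported_finite (A : Finset α) :
    Module.Finite 𝕜 (Finsupp.supported 𝕜 𝕜 (A : Set α)) :=
  Module.Finite.equiv (Finsupp.supportedEquivFinsupp (M := 𝕜) (R := 𝕜) (A : Set α)).symm

theorem it_finrank_supported (A : Finset α) :
    finrank 𝕜 (Finsupp.supported 𝕜 𝕜 (A : Set α)) = A.card := by
  rw [(Finsupp.supportedEquivFinsupp (M := 𝕜) (R := 𝕜) (A : Set α)).finrank_eq,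
    Module.finrank_finsupp_self]
  simp

/-- a space of chains which are determined by their values on `R` has dimension at most `|R|`. -/
theorem it_finrank_le_card (Z : Submodule 𝕜 (α →₀ 𝕜)) (R : Finset α)
    (h : ∀ c ∈ Z, (∀ e ∈ R, c e = 0) → c = 0) : finrank 𝕜 Z ≤ R.card := by
  let f : Z →ₗ[𝕜] ((R : Set α) →₀ 𝕜) :=
    (Finsupp.lsubtypeDomain (M := 𝕜) (R := 𝕜) (R : Set α)).domRestrict Z
  have hf : Function.Injective f := by
    intro a b hab
    have h0 : f (a - b) = 0 := by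
      have h3 := map_sub f a b
      rw [h3, hab, sub_self]
    have h2 : ((a - b : Z) : α →₀ 𝕜) = 0 := by
      apply h _ (a - b).2
      intro e he
      exact DFunLike.congr_fun h0 ⟨e, he⟩
    exact sub_eq_zero.1 (Subtype.ext h2)
  have h1 := LinearMap.finrank_le_finrank_of_injective hf
  rw [Module.finrank_finsupp_self] at h1
  simpa using h1

variable {C C0 : Type} [AddCommGroup C] [Module 𝕜 C] [AddCommGroup C0] [Module 𝕜 C0]

/-- Euler inequality. -/
theorem it_euler_gen (f : C →ₗ[𝕜] C0) (CA : Submodule 𝕜 C) [Module.Finite 𝕜 CA]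
    (Y : Submodule 𝕜 C0) [Module.Finite 𝕜 Y] (h : ∀ z ∈ CA, f z ∈ Y) :
    finrank 𝕜 CA ≤ finrank 𝕜 Y + finrank 𝕜 (CA ⊓ LinearMap.ker f : Submodule 𝕜 C) := by
  have h1 := LinearMap.finrank_range_add_finrank_ker (f.domRestrict CA)
  have h2 : finrank 𝕜 (LinearMap.ker (f.domRestrict CA)) =
      finrank 𝕜 (CA ⊓ LinearMap.ker f : Submodule 𝕜 C) := by
    rw [LinearMap.ker_domRestrict, ← Submodule.map_comap_subtype, Submodule.finrank_map_subtype_eq]
  have h3 : finrank 𝕜 (LinearMap.range (f.domRestrict CA)) ≤ finrank 𝕜 Y := by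
    apply Submodule.finrank_mono
    rintro _ ⟨z, rfl⟩
    exact h z.1 z.2
  omega

/-- one elimination step. -/
theorem it_elim_gen (CA ZQ Z' DQ : Submodule 𝕜 C) [Module.Finite 𝕜 CA] [Module.Finite 𝕜 DQ]
    (hloc : ∀ a ∈ ZQ, ∀ b ∈ Z', a + b ∈ CA → a ∈ DQ) :
    finrank 𝕜 (CA ⊓ (ZQ ⊔ Z') : Submodule 𝕜 C) ≤
      finrank 𝕜 (CA ⊓ Z' : Submodule 𝕜 C) + finrank 𝕜 DQ := by
  set S : Submodule 𝕜 C := CA ⊓ (ZQ ⊔ Z') with hS
  have : Module.Finite 𝕜 S := Module.Finite.of_injective (Submodule.inclusion inf_le_left)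
    (Submodule.inclusion_injective _)
  have h1 := LinearMap.finrank_range_add_finrank_ker (Z'.mkQ.domRestrict S)
  have h2 : finrank 𝕜 (LinearMap.ker (Z'.mkQ.domRestrict S)) =
      finrank 𝕜 (CA ⊓ Z' : Submodule 𝕜 C) := by
    rw [LinearMap.ker_domRestrict, ← Submodule.finrank_map_subtype_eq, Submodule.map_comap_subtype,
      Submodule.ker_mkQ, hS, inf_assoc, inf_eq_right.2 (le_sup_right : Z' ≤ ZQ ⊔ Z')]
  have h3 : finrank 𝕜 (LinearMap.range (Z'.mkQ.domRestrict S)) ≤ finrank 𝕜 DQ := by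
    refine le_trans ?_ (Submodule.finrank_map_le Z'.mkQ DQ)
    apply Submodule.finrank_mono
    rintro _ ⟨z, rfl⟩
    obtain ⟨hz1, hz2⟩ := z.2
    obtain ⟨a, ha, b, hb, hab⟩ := Submodule.mem_sup.1 hz2
    refine ⟨a, hloc a ha b hb (by rw [hab]; exact hz1), ?_⟩
    show Z'.mkQ a = Z'.mkQ z.1
    have hb0 : Z'.mkQ b = 0 := (Submodule.Quotient.mk_eq_zero Z').2 hb
    rw [← hab, map_add, hb0, add_zero]
  omega

end generic

/-! ### Darts and edges of the Cayley graph -/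

section darts

variable {L Γ : Type} [Group Γ] {Vt : ℕ → Type} [∀ i, Fintype (Vt i)] {D : ItGraphs L Γ Vt}

theorem ItGraphs.Good.pos_inv (hD : D.Good) (s : L) : D.pos (D.inv s) ↔ ¬ D.pos s := by
  unfold ItGraphs.pos
  rw [hD.inv_inv]
  constructor
  · intro h h'
    exact asymm_of WellOrderingRel h h'
  · intro h
    rcases trichotomous_of WellOrderingRel s (D.inv s) with h1 | h1 | h1
    · exact absurd h1 h
    · exact absurd h1.symm (hD.inv_ne s)
    · exact h1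

theorem ItGraphs.Good.pt_inj (hD : D.Good) (q : Γ × ℕ) : Function.Injective (D.pt q) := by
  intro v v' h
  exact hD.φ_inj q.2 (mul_left_cancel h)

theorem ItGraphs.Good.pt_nb (hD : D.Good) (q : Γ × ℕ) (v : Vt q.2) (s : L) (hs : s ∈ D.J q.2 v) :
    D.pt q (D.nb q.2 v s) = D.pt q v * D.val s := by
  unfold ItGraphs.pt
  rw [hD.φ_nb q.2 v s hs, mul_assoc]

/-- reversal of a Cayley dart. -/
def ItGraphs.revX (D : ItGraphs L Γ Vt) (δ : Γ × L) : Γ × L := (δ.1 * D.val δ.2, D.inv δ.2)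

theorem ItGraphs.Good.revX_revX (hD : D.Good) (δ : Γ × L) : D.revX (D.revX δ) = δ := by
  obtain ⟨h, s⟩ := δ
  simp [ItGraphs.revX, hD.val_inv, hD.inv_inv]

theorem ItGraphs.Good.revX_ne (hD : D.Good) (δ : Γ × L) : D.revX δ ≠ δ := by
  intro h
  exact hD.inv_ne δ.2 (congrArg Prod.snd h)

open Classical in
/-- the edge carrying a Cayley dart. -/
noncomputable def ItGraphs.Good.edgeX (hD : D.Good) (δ : Γ × L) : D.Ed :=
  if h : D.pos δ.2 then ⟨δ, h⟩ else ⟨D.revX δ, (hD.pos_inv _).2 h⟩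

theorem ItGraphs.Good.edgeX_coe (hD : D.Good) (e : D.Ed) : hD.edgeX e.1 = e := by
  unfold ItGraphs.Good.edgeX
  rw [dif_pos e.2]

theorem ItGraphs.Good.edgeX_revX (hD : D.Good) (δ : Γ × L) : hD.edgeX (D.revX δ) = hD.edgeX δ := by
  unfold ItGraphs.Good.edgeX
  by_cases h : D.pos δ.2
  · have h' : ¬ D.pos (D.revX δ).2 := fun h2 => ((hD.pos_inv _).1 h2) h
    rw [dif_pos h, dif_neg h']
    exact Subtype.ext (hD.revX_revX δ)
  · have h' : D.pos (D.revX δ).2 := (hD.pos_inv _).2 h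
    rw [dif_neg h, dif_pos h']

theorem ItGraphs.Good.edgeX_eq_iff (hD : D.Good) (δ δ' : Γ × L) :
    hD.edgeX δ' = hD.edgeX δ ↔ δ' = δ ∨ δ' = D.revX δ := by
  constructor
  · intro h
    unfold ItGraphs.Good.edgeX at h
    by_cases h1 : D.pos δ.2 <;> by_cases h2 : D.pos δ'.2
    · rw [dif_pos h1, dif_pos h2] at h
      exact Or.inl (congrArg Subtype.val h)
    · rw [dif_pos h1, dif_neg h2] at h
      have h3 : D.revX δ' = δ := congrArg Subtype.val h
      right
      rw [← h3, hD.revX_revX]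
    · rw [dif_neg h1, dif_pos h2] at h
      exact Or.inr (congrArg Subtype.val h)
    · rw [dif_neg h1, dif_neg h2] at h
      have h3 : D.revX δ' = D.revX δ := congrArg Subtype.val h
      left
      rw [← hD.revX_revX δ', h3, hD.revX_revX]
  · rintro (rfl | rfl)
    · rfl
    · exact hD.edgeX_revX δ

omit [∀ i, Fintype (Vt i)] in
theorem ItGraphs.bd_single (D : ItGraphs L Γ Vt) (e : D.Ed) (a : ZMod 2) :
    D.bd (Finsupp.single e a) =
      Finsupp.single e.1.1 a + Finsupp.single (e.1.1 * D.val e.1.2) a := by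
  simp [ItGraphs.bd, Finsupp.linearCombination_single]

theorem ItGraphs.Good.bd_edgeX (hD : D.Good) (δ : Γ × L) (a : ZMod 2) :
    D.bd (Finsupp.single (hD.edgeX δ) a) =
      Finsupp.single δ.1 a + Finsupp.single (δ.1 * D.val δ.2) a := by
  rw [ItGraphs.bd_single]
  unfold ItGraphs.Good.edgeX
  by_cases h : D.pos δ.2
  · rw [dif_pos h]
  · rw [dif_neg h]
    simp only [ItGraphs.revX, hD.val_inv, mul_inv_cancel_right]
    rw [add_comm]

/-- an edge touches a vertex. -/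
def ItGraphs.touch (D : ItGraphs L Γ Vt) (e : D.Ed) (x : Γ) : Prop :=
  e.1.1 = x ∨ e.1.1 * D.val e.1.2 = x

theorem ItGraphs.Good.touch_edgeX (hD : D.Good) (δ : Γ × L) (x : Γ) :
    D.touch (hD.edgeX δ) x ↔ δ.1 = x ∨ δ.1 * D.val δ.2 = x := by
  unfold ItGraphs.touch ItGraphs.Good.edgeX
  by_cases h : D.pos δ.2
  · rw [dif_pos h]
  · rw [dif_neg h]
    simp only [ItGraphs.revX, hD.val_inv, mul_inv_cancel_right]
    exact or_comm

omit [∀ i, Fintype (Vt i)] in
theorem ItGraphs.bd_apply_eq_zero (D : ItGraphs L Γ Vt) (z : D.Ed →₀ ZMod 2) (x : Γ)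
    (h : ∀ e ∈ z.support, ¬ D.touch e x) : D.bd z x = 0 := by
  classical
  rw [ItGraphs.bd, Finsupp.linearCombination_apply, Finsupp.sum, Finsupp.finsetSum_apply]
  refine Finset.sum_eq_zero (fun e he => ?_)
  have h1 := h e he
  unfold ItGraphs.touch at h1
  rw [not_or] at h1
  simp [h1.1, h1.2]

omit [∀ i, Fintype (Vt i)] in
theorem ItGraphs.bd_mem_supported (D : ItGraphs L Γ Vt) (z : D.Ed →₀ ZMod 2) (Y : Set Γ)
    (h : ∀ e ∈ z.support, e.1.1 ∈ Y ∧ e.1.1 * D.val e.1.2 ∈ Y) :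
    D.bd z ∈ Finsupp.supported (ZMod 2) (ZMod 2) Y := by
  rw [Finsupp.mem_supported]
  intro x hx
  by_contra hxY
  have := D.bd_apply_eq_zero z x (fun e he ht => by
    rcases ht with ht | ht
    · exact hxY (ht ▸ (h e he).1)
    · exact hxY (ht ▸ (h e he).2))
  exact (Finsupp.mem_support_iff.1 hx) this

omit [∀ i, Fintype (Vt i)] in
instance it_Zof_finite (A : Finset D.Ed) : Module.Finite (ZMod 2) (D.Zof (A : Set D.Ed)) := by
  unfold ItGraphs.Zof
  infer_instance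

/-- the Cayley dart of a dart of the copy `q`. -/
def ItGraphs.dq (D : ItGraphs L Γ Vt) (q : Γ × ℕ) (z : Vt q.2 × L) : Γ × L := (D.pt q z.1, z.2)

theorem ItGraphs.Good.revX_dq (hD : D.Good) (q : Γ × ℕ) (z : Vt q.2 × L)
    (hz : z.2 ∈ D.J q.2 z.1) : D.revX (D.dq q z) = D.dq q (D.rev q.2 z) := by
  unfold ItGraphs.revX ItGraphs.dq ItGraphs.rev
  simp only [hD.pt_nb q z.1 z.2 hz]

theorem ItGraphs.Good.dq_inj (hD : D.Good) (q : Γ × ℕ) : Function.Injective (D.dq q) := by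
  rintro ⟨v, s⟩ ⟨v', s'⟩ h
  have h1 : D.pt q v = D.pt q v' := congrArg Prod.fst h
  have h2 : s = s' := congrArg Prod.snd h
  rw [hD.pt_inj q h1, h2]

open Classical in
/-- a chain carried by a peeling forest of a copy and without boundary vanishes. -/
theorem it_forest_no_cycle (hD : D.Good) (q : Γ × ℕ) (T : Finset (Vt q.2 × L))
    (hTJ : ∀ z ∈ T, z.2 ∈ D.J q.2 z.1) (hTrev : ∀ z ∈ T, D.rev q.2 z ∈ T)
    (hpeel : ∀ T' ⊆ T, T'.Nonempty → (∀ z ∈ T', D.rev q.2 z ∈ T') →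
      ∃ v, (T'.filter (fun z => z.1 = v)).card = 1)
    (c : D.Ed →₀ ZMod 2) (hc : ∀ e ∈ c.support, ∃ z ∈ T, hD.edgeX (D.dq q z) = e)
    (hbd : D.bd c = 0) : c = 0 := by
  by_contra hne
  set T' : Finset (Vt q.2 × L) := T.filter (fun z => c (hD.edgeX (D.dq q z)) ≠ 0) with hT'
  have hmem : ∀ z, z ∈ T' ↔ z ∈ T ∧ c (hD.edgeX (D.dq q z)) ≠ 0 := by
    intro z; rw [hT', Finset.mem_filter]
  have hedge_rev : ∀ z ∈ T, hD.edgeX (D.dq q (D.rev q.2 z)) = hD.edgeX (D.dq q z) := by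
    intro z hz
    rw [← hD.revX_dq q z (hTJ z hz), hD.edgeX_revX]
  have hne' : T'.Nonempty := by
    obtain ⟨e, he⟩ := Finsupp.support_nonempty_iff.2 hne
    obtain ⟨z, hz, hze⟩ := hc e he
    exact ⟨z, (hmem z).2 ⟨hz, by rw [hze]; exact Finsupp.mem_support_iff.1 he⟩⟩
  have hrev' : ∀ z ∈ T', D.rev q.2 z ∈ T' := by
    intro z hz
    obtain ⟨h1, h2⟩ := (hmem z).1 hz
    exact (hmem _).2 ⟨hTrev z h1, by rw [hedge_rev z h1]; exact h2⟩
  obtain ⟨v, hv⟩ := hpeel T' (Finset.filter_subset _ _) hne' hrev'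
  obtain ⟨z0, hz0⟩ := Finset.card_eq_one.1 hv
  have huniq : ∀ z ∈ T', z.1 = v → z = z0 := by
    intro z hz hzv
    have : z ∈ T'.filter (fun z => z.1 = v) := Finset.mem_filter.2 ⟨hz, hzv⟩
    rw [hz0] at this
    exact Finset.mem_singleton.1 this
  have hz0mem : z0 ∈ T' ∧ z0.1 = v := by
    have : z0 ∈ T'.filter (fun z => z.1 = v) := by rw [hz0]; exact Finset.mem_singleton_self _
    exact Finset.mem_filter.1 this
  obtain ⟨hz0T', hz0v⟩ := hz0mem
  obtain ⟨hz0T, hz0c⟩ := (hmem z0).1 hz0T'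
  set e0 := hD.edgeX (D.dq q z0) with he0
  set x := D.pt q v with hx
  have hsplit : c = Finsupp.single e0 (c e0) + c.erase e0 := (Finsupp.single_add_erase e0 c).symm
  have h1 : D.bd (c.erase e0) x = 0 := by
    apply D.bd_apply_eq_zero
    intro e he ht
    rw [Finsupp.support_erase, Finset.mem_erase] at he
    obtain ⟨hee0, hes⟩ := he
    obtain ⟨z, hz, hze⟩ := hc e hes
    have hzT' : z ∈ T' := (hmem z).2 ⟨hz, by rw [hze]; exact Finsupp.mem_support_iff.1 hes⟩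
    rw [← hze, hD.touch_edgeX] at ht
    rcases ht with ht | ht
    · have : z.1 = v := hD.pt_inj q ht
      apply hee0
      rw [← hze, huniq z hzT' this]
    · have h2 : D.pt q (D.nb q.2 z.1 z.2) = D.pt q v := by
        rw [hD.pt_nb q z.1 z.2 (hTJ z hz)]; exact ht
      have h3 : (D.rev q.2 z).1 = v := hD.pt_inj q h2
      apply hee0
      rw [← hze, ← hedge_rev z hz, huniq _ (hrev' z hzT') h3]
  have h2 : D.bd (Finsupp.single e0 (c e0)) x = c e0 := by
    rw [he0, hD.bd_edgeX]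
    have h3 : (D.dq q z0).1 = x := by rw [hx, ← hz0v]; rfl
    have h4 : (D.dq q z0).1 * D.val (D.dq q z0).2 ≠ x := by
      intro h5
      have h6 : D.pt q (D.nb q.2 z0.1 z0.2) = D.pt q v := by
        rw [hD.pt_nb q z0.1 z0.2 (hTJ z0 hz0T)]; exact h5
      have h7 : (D.rev q.2 z0).1 = v := hD.pt_inj q h6
      have h8 := huniq _ (hrev' z0 hz0T') h7
      exact hD.inv_ne z0.2 (congrArg Prod.snd h8)
    rw [Finsupp.add_apply, Finsupp.single_eq_of_ne (Ne.symm h4), add_zero, h3,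
      Finsupp.single_eq_same]
  have h3 : D.bd c x = c e0 := by
    conv_lhs => rw [hsplit]
    rw [map_add, Finsupp.add_apply, h1, h2, add_zero]
  rw [hbd] at h3
  exact hz0c h3.symm

open Classical in
/-- the edges carried by a set of darts of the copy `q`. -/
noncomputable def ItGraphs.Good.edges (hD : D.Good) (q : Γ × ℕ) (U : Finset (Vt q.2 × L)) :
    Finset D.Ed := U.image (fun z => hD.edgeX (D.dq q z))

theorem ItGraphs.Good.mem_edges (hD : D.Good) (q : Γ × ℕ) (U : Finset (Vt q.2 × L)) (e : D.Ed) :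
    e ∈ hD.edges q U ↔ ∃ z ∈ U, hD.edgeX (D.dq q z) = e := by
  classical
  simp [ItGraphs.Good.edges]

open Classical in
theorem ItGraphs.Good.two_mul_card_edges_le (hD : D.Good) (q : Γ × ℕ) (U : Finset (Vt q.2 × L))
    (hUJ : ∀ z ∈ U, z.2 ∈ D.J q.2 z.1) (hUrev : ∀ z ∈ U, D.rev q.2 z ∈ U) :
    2 * (hD.edges q U).card ≤ U.card := by
  unfold ItGraphs.Good.edges
  apply Finset.mul_card_image_le_card
  intro e he
  obtain ⟨z, hz, rfl⟩ := Finset.mem_image.1 he
  have hne : D.rev q.2 z ≠ z := fun h => hD.inv_ne z.2 (congrArg Prod.snd h)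
  have hsub : ({z, D.rev q.2 z} : Finset (Vt q.2 × L)) ⊆
      U.filter (fun x => hD.edgeX (D.dq q x) = hD.edgeX (D.dq q z)) := by
    intro y hy
    rw [Finset.mem_insert, Finset.mem_singleton] at hy
    rcases hy with rfl | rfl
    · exact Finset.mem_filter.2 ⟨hz, rfl⟩
    · refine Finset.mem_filter.2 ⟨hUrev z hz, ?_⟩
      rw [← hD.revX_dq q z (hUJ z hz), hD.edgeX_revX]
  calc 2 = ({z, D.rev q.2 z} : Finset (Vt q.2 × L)).card := (Finset.card_pair hne.symm).symm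
    _ ≤ _ := Finset.card_le_card hsub

open Classical in
/-- the cycle rank of a subgraph of a copy is bounded by the number of edges outside a forest. -/
theorem it_rank_of_forest (hD : D.Good) (q : Γ × ℕ) (S T : Finset (Vt q.2 × L)) (hTS : T ⊆ S)
    (hSJ : ∀ z ∈ S, z.2 ∈ D.J q.2 z.1) (hSrev : ∀ z ∈ S, D.rev q.2 z ∈ S)
    (hTrev : ∀ z ∈ T, D.rev q.2 z ∈ T)
    (hpeel : ∀ T' ⊆ T, T'.Nonempty → (∀ z ∈ T', D.rev q.2 z ∈ T') →
      ∃ v, (T'.filter (fun z => z.1 = v)).card = 1) :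
    2 * finrank (ZMod 2) (D.Zof (hD.edges q S : Set D.Ed)) ≤ (S \ T).card := by
  have hrevrev : ∀ z ∈ S, D.rev q.2 (D.rev q.2 z) = z := by
    intro z hz
    obtain ⟨v, s⟩ := z
    simp only [ItGraphs.rev]
    rw [(hD.nb_inv q.2 v s (hSJ _ hz)).2, hD.inv_inv]
  have h1 : finrank (ZMod 2) (D.Zof (hD.edges q S : Set D.Ed)) ≤ (hD.edges q (S \ T)).card := by
    apply it_finrank_le_card
    intro c hc hR
    obtain ⟨hc1, hc2⟩ := hc
    apply it_forest_no_cycle hD q T (fun z hz => hSJ z (hTS hz)) hTrev hpeel c _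
      (LinearMap.mem_ker.1 hc2)
    intro e he
    have he1 : e ∈ hD.edges q S := (Finsupp.mem_supported _ _).1 hc1 he
    obtain ⟨z, hz, hze⟩ := (hD.mem_edges q S e).1 he1
    refine ⟨z, ?_, hze⟩
    by_contra hzT
    have : e ∈ hD.edges q (S \ T) :=
      (hD.mem_edges q _ e).2 ⟨z, Finset.mem_sdiff.2 ⟨hz, hzT⟩, hze⟩
    exact (Finsupp.mem_support_iff.1 he) (hR e this)
  have h2 := hD.two_mul_card_edges_le q (S \ T)
    (fun z hz => hSJ z (Finset.mem_sdiff.1 hz).1) (fun z hz => by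
      obtain ⟨hz1, hz2⟩ := Finset.mem_sdiff.1 hz
      refine Finset.mem_sdiff.2 ⟨hSrev z hz1, fun h => hz2 ?_⟩
      have := hTrev _ h
      rwa [hrevrev z hz1] at this)
  omega

end darts

/-! ### The elimination -/

section elim

variable {L Γ : Type} [Fintype L] [Group Γ] {Vt : ℕ → Type} [∀ i, Fintype (Vt i)]
  {D : ItGraphs L Γ Vt}

omit [Fintype L] in
theorem ItGraphs.Good.Kc_nonneg (hD : D.Good) : 0 ≤ D.Kc := by
  have hd : (3 : ℝ) ≤ D.d := by exact_mod_cast hD.three_le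
  have hc : D.c ≤ 1 := by
    unfold ItGraphs.c
    have : min D.κ 1 ≤ 1 := min_le_right _ _
    linarith
  unfold ItGraphs.Kc
  linarith

variable (hD : D.Good) (G : ItsDart Γ L) (hstep : ∀ h s, G.step h s = h * D.val s)
  (hinv : G.inv = D.inv) (Y : Finset Γ)

omit [Fintype L] [∀ i, Fintype (Vt i)] in
include hstep hinv in
theorem it_G_rev (δ : Γ × L) : G.rev δ = D.revX δ := by
  unfold ItsDart.rev ItGraphs.revX
  rw [hstep, hinv]

open Classical in
/-- the subgraph `D_Q` of the copy `q`: ball edges and enabled edges inside `Y`. -/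
noncomputable def itS (D : ItGraphs L Γ Vt) (G : ItsDart Γ L) (Y : Finset Γ) (q : Γ × ℕ)
    (b : Vt q.2) : Finset (Vt q.2 × L) :=
  Finset.univ.filter (fun z => z.2 ∈ D.J q.2 z.1 ∧
    (D.dq q z ∈ G.darts Y ∨ (z.1 ∈ D.ball q.2 b ∧ D.nb q.2 z.1 z.2 ∈ D.ball q.2 b)))

open Classical in
/-- the exterior vertices charged to the copy `q`. -/
noncomputable def itW (D : ItGraphs L Γ Vt) (Y : Finset Γ) (q : Γ × ℕ) (b : Vt q.2) :
    Finset (Vt q.2) :=
  Finset.univ.filter (fun v => D.pt q v ∈ Y ∧ v ∉ D.ball q.2 b)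

theorem it_mem_S (q : Γ × ℕ) (b : Vt q.2) (z : Vt q.2 × L) :
    z ∈ itS D G Y q b ↔ z.2 ∈ D.J q.2 z.1 ∧
      (D.dq q z ∈ G.darts Y ∨ (z.1 ∈ D.ball q.2 b ∧ D.nb q.2 z.1 z.2 ∈ D.ball q.2 b)) := by
  classical
  simp [itS]

omit [Fintype L] in
theorem it_mem_W (q : Γ × ℕ) (b : Vt q.2) (v : Vt q.2) :
    v ∈ itW D Y q b ↔ D.pt q v ∈ Y ∧ v ∉ D.ball q.2 b := by
  classical
  simp [itW]

include hD hstep hinv in
theorem itS_rev (q : Γ × ℕ) (b : Vt q.2) (z : Vt q.2 × L) (hz : z ∈ itS D G Y q b) :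
    D.rev q.2 z ∈ itS D G Y q b := by
  rw [it_mem_S] at hz ⊢
  obtain ⟨hJ, h⟩ := hz
  obtain ⟨h1, h2⟩ := hD.nb_inv q.2 z.1 z.2 hJ
  refine ⟨h1, ?_⟩
  rcases h with h | ⟨h3, h4⟩
  · left
    rw [← hD.revX_dq q z hJ, ← it_G_rev G hstep hinv]
    exact G.rev_mem_darts h
  · right
    exact ⟨h4, by simp only [ItGraphs.rev]; rw [h2]; exact h3⟩

include hD hstep hinv in
/-- **RANKQ**. -/
theorem it_rankQ (bad : Γ × ℕ → Prop)
    (hloc : ∀ q, bad q → ∀ B : Finset (Vt q.2), D.c * B.card ≤ D.d * B.card -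
      ({z : Vt q.2 × L | z.1 ∈ B ∧ z.2 ∈ D.J q.2 z.1 ∧ G.en (D.pt q z.1) z.2 ∧
        D.nb q.2 z.1 z.2 ∈ B}.ncard : ℝ))
    (hY : ∀ q, ¬ bad q → ∀ v, D.pt q v ∉ Y) (q : Γ × ℕ) (b : Vt q.2) :
    (finrank (ZMod 2) (D.Zof (hD.edges q (itS D G Y q b) : Set D.Ed)) : ℝ) ≤
      D.Kc * (itW D Y q b).card := by
  classical
  have hSJ : ∀ z ∈ itS D G Y q b, z.2 ∈ D.J q.2 z.1 := fun z hz => ((it_mem_S G Y q b z).1 hz).1
  have hSrev := itS_rev hD G hstep hinv Y q b
  obtain ⟨T, hTS, hTrev, hpeel, hcard⟩ := itf_def_rank hD q.2 b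
    ⟨its_ball_par hD q.2 b, fun x s w => its_att_noreturn hD q.2 b x s w,
      fun x x' s s' w w' => its_att_inj hD q.2 b x x' s s' w w'⟩ (itS D G Y q b) (itW D Y q b)
    hSJ hSrev (fun v hv => ((it_mem_W Y q b v).1 hv).2)
    (fun z hz => by
      rcases ((it_mem_S G Y q b z).1 hz).2 with h | h
      · by_cases hb : z.1 ∈ D.ball q.2 b
        · exact Or.inl hb
        · exact Or.inr ((it_mem_W Y q b _).2 ⟨(G.mem_darts.1 h).1, hb⟩)
      · exact Or.inl h.1)
    (fun C hC => by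
      by_cases hq : bad q
      · have h1 := hloc q hq C
        have h2 : (((itS D G Y q b).filter
            (fun z => z.1 ∈ C ∧ D.nb q.2 z.1 z.2 ∈ C)).card : ℝ) ≤
            ({z : Vt q.2 × L | z.1 ∈ C ∧ z.2 ∈ D.J q.2 z.1 ∧ G.en (D.pt q z.1) z.2 ∧
              D.nb q.2 z.1 z.2 ∈ C}.ncard : ℝ) := by
          rw [← Set.ncard_coe_finset]
          refine Nat.cast_le.2 (Set.ncard_le_ncard ?_ (Set.toFinite _))
          intro z hz
          rw [Finset.mem_coe, Finset.mem_filter, it_mem_S] at hz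
          obtain ⟨⟨hJ, h⟩, hz1, hz2⟩ := hz
          refine ⟨hz1, hJ, ?_, hz2⟩
          rcases h with h | h
          · exact (G.mem_darts.1 h).2.1
          · exact absurd h.1 ((it_mem_W Y q b _).1 (hC hz1)).2
        linarith
      · have hCe : C = ∅ := by
          rw [Finset.eq_empty_iff_forall_notMem]
          intro v hv
          exact hY q hq v ((it_mem_W Y q b v).1 (hC hv)).1
        subst hCe
        simp)
  have h3 := it_rank_of_forest hD q (itS D G Y q b) T hTS hSJ hSrev hTrev hpeel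
  have h4 : (2 : ℝ) * (finrank (ZMod 2) (D.Zof (hD.edges q (itS D G Y q b) : Set D.Ed)) : ℝ) ≤
      ((itS D G Y q b \ T).card : ℝ) := by exact_mod_cast h3
  linarith

open Classical in
/-- the enabled edges inside `Y`. -/
noncomputable def itA (hD : D.Good) (G : ItsDart Γ L) (Y : Finset Γ) : Finset D.Ed :=
  (G.darts Y).image hD.edgeX

/-- the span of the cycle spaces of a finite family of copies. -/
noncomputable def itZF (D : ItGraphs L Γ Vt) (F : Finset (Γ × ℕ)) :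
    Submodule (ZMod 2) (D.Ed →₀ ZMod 2) := ⨆ q ∈ F, D.Zof (D.copyEd q)

open Classical in
/-- the part of `Y` covered by a family of copies. -/
noncomputable def itCov (D : ItGraphs L Γ Vt) (Y : Finset Γ) (F : Finset (Γ × ℕ)) : Finset Γ :=
  Y.filter (fun h => ∃ q ∈ F, ∃ v, D.pt q v = h)

omit [Fintype L] [∀ i, Fintype (Vt i)] in
theorem itZF_support (F : Finset (Γ × ℕ)) (c : D.Ed →₀ ZMod 2) (hc : c ∈ itZF D F) (e : D.Ed)
    (he : e ∈ c.support) : ∃ q ∈ F, e ∈ D.copyEd q := by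
  have h1 : itZF D F ≤ Finsupp.supported (ZMod 2) (ZMod 2) (⋃ q ∈ F, D.copyEd q) := by
    unfold itZF
    refine iSup₂_le (fun q hq => ?_)
    refine le_trans inf_le_left (Finsupp.supported_mono ?_)
    exact Set.subset_biUnion_of_mem (u := fun q => D.copyEd q) hq
  have h2 := (Finsupp.mem_supported _ _).1 (h1 hc) he
  simpa using h2

include hstep hinv in
theorem it_mem_A_iff (e : D.Ed) : e ∈ itA hD G Y ↔ e.1 ∈ G.darts Y := by
  classical
  unfold itA
  rw [Finset.mem_image]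
  constructor
  · rintro ⟨δ, hδ, hδe⟩
    have h1 : hD.edgeX e.1 = hD.edgeX δ := by rw [hD.edgeX_coe, hδe]
    rcases (hD.edgeX_eq_iff δ e.1).1 h1 with h | h
    · rw [h]; exact hδ
    · rw [h, ← it_G_rev G hstep hinv]; exact G.rev_mem_darts hδ
  · intro h
    exact ⟨e.1, h, hD.edgeX_coe e⟩

include hstep hinv in
/-- localisation of the coordinate of the leaf copy. -/
theorem it_loc (F : Finset (Γ × ℕ)) (Q : Γ × ℕ) (b : Vt Q.2)
    (hleaf : ∀ Q' ∈ F, ∀ v v', D.pt Q v = D.pt Q' v' → v ∈ D.ball Q.2 b)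
    (a : D.Ed →₀ ZMod 2) (ha : a ∈ D.Zof (D.copyEd Q)) (c : D.Ed →₀ ZMod 2) (hc : c ∈ itZF D F)
    (hac : a + c ∈ Finsupp.supported (ZMod 2) (ZMod 2) (itA hD G Y : Set D.Ed)) :
    a ∈ D.Zof (hD.edges Q (itS D G Y Q b) : Set D.Ed) := by
  refine ⟨?_, ha.2⟩
  rw [SetLike.mem_coe, Finsupp.mem_supported]
  intro e he
  obtain ⟨v, hv, hJ⟩ := (Finsupp.mem_supported _ _).1 ha.1 he
  rw [Finset.mem_coe, hD.mem_edges]
  have hdq : D.dq Q (v, e.1.2) = e.1 := Prod.ext hv rfl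
  refine ⟨(v, e.1.2), ?_, by rw [hdq, hD.edgeX_coe]⟩
  rw [it_mem_S]
  refine ⟨hJ, ?_⟩
  by_cases heA : e ∈ itA hD G Y
  · left
    rw [hdq]
    exact (it_mem_A_iff hD G hstep hinv Y e).1 heA
  · right
    have h0 : (a + c) e = 0 := by
      by_contra h
      exact heA ((Finsupp.mem_supported _ _).1 hac (Finsupp.mem_support_iff.2 h))
    have hce : e ∈ c.support := by
      rw [Finsupp.mem_support_iff]
      intro h
      rw [Finsupp.add_apply, h, add_zero] at h0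
      exact (Finsupp.mem_support_iff.1 he) h0
    obtain ⟨Q', hQ', v', hv', hJ'⟩ := itZF_support F c hc e hce
    refine ⟨hleaf Q' hQ' v v' (by rw [hv, hv']), ?_⟩
    refine hleaf Q' hQ' _ (D.nb Q'.2 v' e.1.2) ?_
    rw [hD.pt_nb Q v _ hJ, hD.pt_nb Q' v' _ hJ', hv, hv']

include hstep hinv in
/-- **ELIM**. -/
theorem it_elim (bad : Γ × ℕ → Prop)
    (hloc : ∀ q, bad q → ∀ B : Finset (Vt q.2), D.c * B.card ≤ D.d * B.card -
      ({z : Vt q.2 × L | z.1 ∈ B ∧ z.2 ∈ D.J q.2 z.1 ∧ G.en (D.pt q z.1) z.2 ∧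
        D.nb q.2 z.1 z.2 ∈ B}.ncard : ℝ))
    (hY : ∀ q, ¬ bad q → ∀ v, D.pt q v ∉ Y) (n : ℕ) :
    ∀ F : Finset (Γ × ℕ), F.card = n →
      (finrank (ZMod 2) (Finsupp.supported (ZMod 2) (ZMod 2) (itA hD G Y : Set D.Ed) ⊓ itZF D F :
        Submodule (ZMod 2) (D.Ed →₀ ZMod 2)) : ℝ) ≤ D.Kc * (itCov D Y F).card := by
  classical
  induction n with
  | zero =>
    intro F hF
    rw [Finset.card_eq_zero] at hF
    subst hF
    have : itZF D (∅ : Finset (Γ × ℕ)) = ⊥ := by simp [itZF]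
    rw [this, inf_bot_eq, finrank_bot]
    simp [itCov]
  | succ n ih =>
    intro F hF
    -- the leaf
    obtain ⟨Q, hQF, b, hleaf⟩ : ∃ Q ∈ F, ∃ b : Vt Q.2, ∀ Q' ∈ F.erase Q, ∀ v v',
        D.pt Q v = D.pt Q' v' → v ∈ D.ball Q.2 b := by
      by_cases h2 : 2 ≤ F.card
      · obtain ⟨P0, hP0⟩ : F.Nonempty := Finset.card_pos.1 (by omega)
        obtain ⟨Q, hQ, -, b, hb⟩ := hD.leaf F P0 hP0 h2
        exact ⟨Q, hQ, b, fun Q' hQ' v v' h =>
          hb Q' (Finset.mem_of_mem_erase hQ') (Finset.ne_of_mem_erase hQ') v v' h⟩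
      · obtain ⟨Q, hQ⟩ := Finset.card_eq_one.1 (by omega : F.card = 1)
        have hne : Nonempty (Vt Q.2) := by
          have := hD.card_gt Q.2
          exact Fintype.card_pos_iff.1 (by omega)
        obtain ⟨b⟩ := hne
        refine ⟨Q, by rw [hQ]; exact Finset.mem_singleton_self _, b, ?_⟩
        intro Q' hQ'
        rw [hQ] at hQ'
        simp at hQ'
    have hFins : F = insert Q (F.erase Q) := (Finset.insert_erase hQF).symm
    have hZ : itZF D F = D.Zof (D.copyEd Q) ⊔ itZF D (F.erase Q) := by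
      conv_lhs => rw [hFins]
      unfold itZF
      rw [Finset.iSup_insert]
    have hcardF' : (F.erase Q).card = n := by rw [Finset.card_erase_of_mem hQF, hF]; rfl
    have h1 := it_elim_gen (Finsupp.supported (ZMod 2) (ZMod 2) (itA hD G Y : Set D.Ed))
      (D.Zof (D.copyEd Q)) (itZF D (F.erase Q))
      (D.Zof (hD.edges Q (itS D G Y Q b) : Set D.Ed))
      (fun a ha c hc hac => it_loc hD G hstep hinv Y (F.erase Q) Q b hleaf a ha c hc hac)
    have h2 := ih (F.erase Q) hcardF'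
    have h3 := it_rankQ hD G hstep hinv Y bad hloc hY Q b
    -- disjoint charges
    have h4 : (itCov D Y (F.erase Q)).card + (itW D Y Q b).card ≤ (itCov D Y F).card := by
      rw [← Finset.card_image_of_injective (itW D Y Q b) (hD.pt_inj Q)]
      rw [← Finset.card_union_of_disjoint]
      · apply Finset.card_le_card
        intro h hh
        rcases Finset.mem_union.1 hh with hh | hh
        · obtain ⟨hhY, q, hq, v, hv⟩ := Finset.mem_filter.1 hh
          exact Finset.mem_filter.2 ⟨hhY, q, Finset.mem_of_mem_erase hq, v, hv⟩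
        · obtain ⟨v, hv, rfl⟩ := Finset.mem_image.1 hh
          exact Finset.mem_filter.2 ⟨((it_mem_W Y Q b v).1 hv).1, Q, hQF, v, rfl⟩
      · rw [Finset.disjoint_left]
        intro h hh1 hh2
        obtain ⟨-, q, hq, v', hv'⟩ := Finset.mem_filter.1 hh1
        obtain ⟨v, hv, rfl⟩ := Finset.mem_image.1 hh2
        exact ((it_mem_W Y Q b v).1 hv).2 (hleaf q hq v v' hv'.symm)
    rw [hZ]
    have h5 : ((itCov D Y (F.erase Q)).card : ℝ) + ((itW D Y Q b).card : ℝ) ≤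
        ((itCov D Y F).card : ℝ) := by exact_mod_cast h4
    have h6 : (finrank (ZMod 2) (Finsupp.supported (ZMod 2) (ZMod 2) (itA hD G Y : Set D.Ed) ⊓
        (D.Zof (D.copyEd Q) ⊔ itZF D (F.erase Q)) : Submodule (ZMod 2) (D.Ed →₀ ZMod 2)) : ℝ) ≤
        (finrank (ZMod 2) (Finsupp.supported (ZMod 2) (ZMod 2) (itA hD G Y : Set D.Ed) ⊓
          itZF D (F.erase Q) : Submodule (ZMod 2) (D.Ed →₀ ZMod 2)) : ℝ) +
        (finrank (ZMod 2) (D.Zof (hD.edges Q (itS D G Y Q b) : Set D.Ed)) : ℝ) := by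
      exact_mod_cast h1
    have hK := hD.Kc_nonneg
    nlinarith

include hD hstep hinv in
/-- **IT-DEF** (Lemma 5.3): the global deficit. -/
theorem it_global_deficit' (bad : Γ × ℕ → Prop)
    (hloc : ∀ q, bad q → ∀ B : Finset (Vt q.2), D.c * B.card ≤ D.d * B.card -
      ({z : Vt q.2 × L | z.1 ∈ B ∧ z.2 ∈ D.J q.2 z.1 ∧ G.en (D.pt q z.1) z.2 ∧
        D.nb q.2 z.1 z.2 ∈ B}.ncard : ℝ))
    (hY : ∀ q, ¬ bad q → ∀ v, D.pt q v ∉ Y) :
    D.c / 2 * (Y.card : ℝ) ≤ D.d * (Y.card : ℝ) - ((G.darts Y).card : ℝ) := by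
  classical
  -- spanning
  have hZA : D.Zof (itA hD G Y : Set D.Ed) ≤ ⨆ q : Γ × ℕ, D.Zof (D.copyEd q) :=
    le_trans inf_le_right (itds_span hD)
  have hfg : (D.Zof (itA hD G Y : Set D.Ed)).FG := Module.Finite.iff_fg.1 inferInstance
  obtain ⟨F, hF⟩ := CompleteLattice.IsCompactElement.exists_finset_of_le_iSup _
    ((Submodule.fg_iff_compact _).1 hfg) _ hZA
  have h1 : finrank (ZMod 2) (D.Zof (itA hD G Y : Set D.Ed)) ≤
      finrank (ZMod 2) (Finsupp.supported (ZMod 2) (ZMod 2) (itA hD G Y : Set D.Ed) ⊓ itZF D F :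
        Submodule (ZMod 2) (D.Ed →₀ ZMod 2)) :=
    Submodule.finrank_mono (le_inf inf_le_left hF)
  have h2 := it_elim hD G hstep hinv Y bad hloc hY F.card F rfl
  have h3 : (itCov D Y F).card ≤ Y.card := Finset.card_filter_le _ _
  -- Euler
  have h4 := it_euler_gen D.bd (Finsupp.supported (ZMod 2) (ZMod 2) (itA hD G Y : Set D.Ed))
    (Finsupp.supported (ZMod 2) (ZMod 2) (Y : Set Γ)) (fun z hz => by
      apply D.bd_mem_supported
      intro e he
      have heA : e ∈ itA hD G Y := (Finsupp.mem_supported _ _).1 hz he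
      have hd := G.mem_darts.1 ((it_mem_A_iff hD G hstep hinv Y e).1 heA)
      refine ⟨hd.1, ?_⟩
      rw [← hstep]
      exact hd.2.2)
  rw [it_finrank_supported, it_finrank_supported] at h4
  -- darts and edges
  have h5 : (G.darts Y).card ≤ 2 * (itA hD G Y).card := by
    unfold itA
    apply Finset.card_le_mul_card_image
    intro e _
    have hsub : (G.darts Y).filter (fun δ => hD.edgeX δ = e) ⊆ {e.1, D.revX e.1} := by
      intro δ hδ
      have h6 : hD.edgeX δ = hD.edgeX e.1 := by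
        rw [(Finset.mem_filter.1 hδ).2, hD.edgeX_coe]
      rw [Finset.mem_insert, Finset.mem_singleton]
      exact (hD.edgeX_eq_iff e.1 δ).1 h6
    exact (Finset.card_le_card hsub).trans Finset.card_le_two
  have hK := hD.Kc_nonneg
  have h7 : ((G.darts Y).card : ℝ) ≤ 2 * ((itA hD G Y).card : ℝ) := by exact_mod_cast h5
  have h8 : ((itA hD G Y).card : ℝ) ≤ (Y.card : ℝ) +
      (finrank (ZMod 2) (D.Zof (itA hD G Y : Set D.Ed)) : ℝ) := by exact_mod_cast h4
  have h9 : (finrank (ZMod 2) (D.Zof (itA hD G Y : Set D.Ed)) : ℝ) ≤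
      D.Kc * (itCov D Y F).card := le_trans (by exact_mod_cast h1) h2
  have h10 : D.Kc * ((itCov D Y F).card : ℝ) ≤ D.Kc * (Y.card : ℝ) :=
    mul_le_mul_of_nonneg_left (by exact_mod_cast h3) hK
  have h11 : D.Kc * (Y.card : ℝ) = (D.d / 2 - 1 - D.c / 4) * (Y.card : ℝ) := rfl
  nlinarith

end elim

end Claimed.Agent.R300
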