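import Claimed.Agent.R300.ShellNext

/-!
# Shelling library, part 5a: the developing map `psi` from raw names to the group
-/

namespace Claimed.Agent.R300.Shell

universe u v w

variable {S : Type u} {T : Type v} {Q : Type w} {Θ : RelSys S T Q} {s : Stg S T}

/-! ### words in the group -/

@[simp] theorem gw_nil : gw Θ [] = 1 := by
  unfold gw
  rw [← FreeGroup.one_eq_mk, map_one]

theorem gw_append (u w : List (S × Bool)) : gw Θ (u ++ w) = gw Θ u * gw Θ w := by
  unfold gw
  rw [← FreeGroup.mul_mk, map_mul]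

theorem gw_cons (l : S × Bool) (w : List (S × Bool)) : gw Θ (l :: w) = gw Θ [l] * gw Θ w :=
  gw_append [l] w

theorem gw_invRev (w : List (S × Bool)) : gw Θ (FreeGroup.invRev w) = (gw Θ w)⁻¹ := by
  unfold gw
  rw [← FreeGroup.inv_mk, map_inv]

theorem gw_linv (l : S × Bool) : gw Θ [linv l] = (gw Θ [l])⁻¹ := by
  rw [← invRev_singleton, gw_invRev]

theorem gw_surjective (g : Gam Θ) : ∃ w, gw Θ w = g := by
  obtain ⟨f, rfl⟩ := PresentedGroup.mk_surjective (rels Θ) g
  obtain ⟨w, rfl⟩ := Quot.exists_rep f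
  exact ⟨w, rfl⟩

theorem gw_eq_of_mk_eq {u w : List (S × Bool)} (h : FreeGroup.mk u = FreeGroup.mk w) :
    gw Θ u = gw Θ w := by
  unfold gw; rw [h]

/-- closed walks of the relator graph are relators -/
theorem gw_closed {x : T} {w : List (S × Bool)} (h : Path Θ.E x w x) : gw Θ w = 1 :=
  PresentedGroup.one_of_mem ⟨x, w, h, rfl⟩

theorem gw_eq_of_same_end {x z : T} {u w : List (S × Bool)} (h1 : Path Θ.E x u z)
    (h2 : Path Θ.E x w z) : gw Θ u = gw Θ w := by
  have h := gw_closed (h1.append (h2.inv Θ.sym))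
  rw [gw_append, gw_invRev] at h
  exact mul_inv_eq_one.1 h

/-! ### the developing map -/

open Classical in
/-- some word read from `x` to `x'` (junk value `[]`) -/
noncomputable def someWord (Θ : RelSys S T Q) (x x' : T) : List (S × Bool) :=
  if h : ∃ u, Path Θ.E x u x' then h.choose else []

theorem someWord_spec {x x' : T} (h : ∃ u, Path Θ.E x u x') :
    Path Θ.E x (someWord Θ x x') x' := by
  unfold someWord
  rw [dif_pos h]
  exact h.choose_spec

/-- the developing map, by recursion on the name -/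
noncomputable def psi (Θ : RelSys S T Q) : Raw S T → Gam Θ
  | [] => 1
  | Mv.br w :: y => psi Θ y * gw Θ w
  | Mv.pv x x' :: y => psi Θ y * gw Θ (someWord Θ x x')

/-- `psi` is compatible with the edges of the stage -/
def PsiOK (Θ : RelSys S T Q) (s : Stg S T) : Prop :=
  ∀ ⦃a l b⦄, s.E a l b → psi Θ b = psi Θ a * gw Θ [l]

theorem PsiOK.path (hs : PsiOK Θ s) {a b : Raw S T} {w : List (S × Bool)} (hp : Path s.E a w b) :
    psi Θ b = psi Θ a * gw Θ w := by
  induction hp with
  | nil => simp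
  | @cons a b c l w e _ ih => rw [ih, hs e, gw_cons l w, mul_assoc]

/-- the value of `psi` on the points of a new copy -/
theorem psi_loc (hs : PsiOK Θ s) {p : Raw S T × T} {x' : T} {z : Raw S T} {u : List (S × Bool)}
    (hl : Loc Θ s p x' z) (hu : Path Θ.E p.2 u x') : psi Θ z = psi Θ p.1 * gw Θ u := by
  rcases hl with ⟨w, h1, h2⟩ | ⟨y, a, w, ⟨w0, h1, h2⟩, h3, -, rfl⟩ | ⟨hex, -, -, rfl⟩
  · rw [hs.path h1, gw_eq_of_same_end h2 hu]
  · rw [psi, hs.path h1, mul_assoc, ← gw_append, gw_eq_of_same_end (h2.append h3) hu]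
  · rw [psi, gw_eq_of_same_end (someWord_spec hex) hu]

theorem psiOK_next (hs : PsiOK Θ s) : PsiOK Θ (next Θ s) := by
  rintro a l b (e | ⟨p, x', x'', -, e, h1, h2⟩)
  · exact hs e
  · obtain ⟨u, hu⟩ := loc_conn h1
    rw [psi_loc hs h1 hu, psi_loc hs h2 (hu.concat e), gw_append, mul_assoc]

theorem psiOK_stg (n : ℕ) : PsiOK Θ (stg Θ n) := by
  induction n with
  | zero => intro a l b e; exact e.elim
  | succ n ih => exact psiOK_next ih

end Claimed.Agent.R300.Shell
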