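/-
Row 300 (S0552, irrational trace), IT front end glue (IT-DATA), owner helper179.  Prefix `itg`.

`itgD π c base σ κ ρ : ItGraphs (OsaLetter c × Bool) (Gam (osaRelSys π c)) V` is the data of
`ItData.lean` attached to a family of permutation graphs `π i : J → Perm (V i)` with a colouring
`c`.  This file: the definition and the dictionary between the dart model of `ItData.lean`
(`ok`, `run`, `red`) and the relational model of the shelling library (`Path`, `IsReduced`).
-/
import Claimed.Agent.R300.ItData
import Claimed.Agent.R300.OsaRel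
import Claimed.Agent.R300.ShellPsi

set_option autoImplicit false
set_option linter.unusedSectionVars false

namespace Claimed.Agent.R300

open Shell

section defs

variable {J : Type} {V : ℕ → Type} {q : ℕ}
  (π : ∀ i, J → Equiv.Perm (V i)) (c : ∀ i, J × V i → Fin q)

/-- the label of the dart leaving `v` in the direction `a`. -/
def itgLab (i : ℕ) (v : V i) (a : J × Bool) : OsaLetter c × Bool :=
  (⟨(a.1, c i (osaEdge (π i) a v)), i, (osaEdge (π i) a v).2, rfl⟩, a.2)

/-- the direction of a letter. -/
def itgDir (s : OsaLetter c × Bool) : J × Bool := (s.1.1.1, s.2)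

@[simp] theorem itgDir_lab (i : ℕ) (v : V i) (a : J × Bool) :
    itgDir c (itgLab π c i v a) = a := rfl

theorem itgLab_injective (i : ℕ) (v : V i) : Function.Injective (itgLab π c i v) := by
  intro a b h
  have := congrArg (itgDir c) h
  simpa using this

open Classical in
/-- The data of `ItData.lean` attached to a coloured family of permutation graphs. -/
noncomputable def itgD [Fintype J] (base : ∀ i, V i) (σ : ℕ → ℕ) (κ ρ : ℝ) :
    ItGraphs (OsaLetter c × Bool) (Gam (osaRelSys π c)) V where
  inv := linv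
  val := fun l => gw (osaRelSys π c) [l]
  d := 2 * Fintype.card J
  J := fun i v => Finset.univ.image (itgLab π c i v)
  nb := fun i v s => osaStep (π i) (itgDir c s) v
  φ := fun i v => gw (osaRelSys π c) (someWord (osaRelSys π c) ⟨i, base i⟩ ⟨i, v⟩)
  σ := σ
  κ := κ
  ρ := ρ

variable [Fintype J] (base : ∀ i, V i) (σ : ℕ → ℕ) (κ ρ : ℝ)

theorem itg_mem_J (i : ℕ) (v : V i) (s : OsaLetter c × Bool) :
    s ∈ (itgD π c base σ κ ρ).J i v ↔ c i (osaEdge (π i) (itgDir c s) v) = s.1.1.2 := by
  classical
  simp only [itgD, Finset.mem_image, Finset.mem_univ, true_and]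
  constructor
  · rintro ⟨a, rfl⟩
    rfl
  · intro h
    refine ⟨itgDir c s, ?_⟩
    obtain ⟨⟨⟨j, col⟩, hs⟩, b⟩ := s
    simp only [itgLab, itgDir] at h ⊢
    congr 1
    apply Subtype.ext
    simp only [h]

theorem itg_mem_J_iff_E (i : ℕ) (v : V i) (s : OsaLetter c × Bool) :
    s ∈ (itgD π c base σ κ ρ).J i v ↔
      osaE π c ⟨i, v⟩ s ⟨i, (itgD π c base σ κ ρ).nb i v s⟩ := by
  rw [itg_mem_J, osaE_iff]
  constructor
  · intro h
    exact ⟨rfl, h⟩
  · intro h
    exact h.2

theorem itg_E_iff (i : ℕ) (v : V i) (s : OsaLetter c × Bool) (z : Σ i, V i) :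
    osaE π c ⟨i, v⟩ s z ↔
      s ∈ (itgD π c base σ κ ρ).J i v ∧ z = ⟨i, (itgD π c base σ κ ρ).nb i v s⟩ := by
  rw [itg_mem_J, osaE_iff]
  exact and_comm

/-- dictionary: paths of the relator system = readable words of the dart model. -/
theorem itg_path_iff (i : ℕ) (v : V i) (w : List (OsaLetter c × Bool)) (z : Σ i, V i) :
    Path (osaRelSys π c).E ⟨i, v⟩ w z ↔
      (itgD π c base σ κ ρ).ok i v w ∧ z = ⟨i, (itgD π c base σ κ ρ).run i v w⟩ := by
  induction w generalizing v with
  | nil =>
    simp only [path_nil_iff, ItGraphs.ok, ItGraphs.run, true_and]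
    exact eq_comm
  | cons s w ih =>
    rw [path_cons_iff]
    simp only [ItGraphs.ok, ItGraphs.run]
    constructor
    · rintro ⟨b, h1, h2⟩
      obtain ⟨h3, rfl⟩ := (itg_E_iff π c base σ κ ρ i v s b).1 h1
      obtain ⟨h4, h5⟩ := (ih _).1 h2
      exact ⟨⟨h3, h4⟩, h5⟩
    · rintro ⟨⟨h3, h4⟩, h5⟩
      exact ⟨_, (itg_E_iff π c base σ κ ρ i v s _).2 ⟨h3, rfl⟩, (ih _).2 ⟨h4, h5⟩⟩

theorem itg_path_of_ok (i : ℕ) (v : V i) (w : List (OsaLetter c × Bool))
    (h : (itgD π c base σ κ ρ).ok i v w) :
    Path (osaRelSys π c).E ⟨i, v⟩ w ⟨i, (itgD π c base σ κ ρ).run i v w⟩ :=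
  (itg_path_iff π c base σ κ ρ i v w _).2 ⟨h, rfl⟩

/-- dictionary: reduced words. -/
theorem itg_red_iff (w : List (OsaLetter c × Bool)) :
    (itgD π c base σ κ ρ).red w ↔ FreeGroup.IsReduced w := by
  unfold ItGraphs.red FreeGroup.IsReduced
  have : ∀ s t : OsaLetter c × Bool, (t ≠ (itgD π c base σ κ ρ).inv s) ↔ (s.1 = t.1 → s.2 = t.2) := by
    rintro ⟨s, a⟩ ⟨t, b⟩
    simp only [itgD, linv, ne_eq, Prod.mk.injEq, not_and]
    constructor
    · intro h e
      have := h e.symm
      cases a <;> cases b <;> simp_all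
    · intro h e
      have := h e.symm
      cases a <;> cases b <;> simp_all
  simp only [this]

/-- the run of the dart model is the run of the shape word. -/
theorem itg_run_eq (i : ℕ) (v : V i) (w : List (OsaLetter c × Bool)) :
    (itgD π c base σ κ ρ).run i v w = osaRun (π i) (osaShape c w) v := by
  induction w generalizing v with
  | nil => rfl
  | cons s w ih =>
    simp only [ItGraphs.run, osaShape, List.map_cons, osaRun_cons]
    exact ih _

/-- the labelled word over a shape word. -/
def itgLift (i : ℕ) : V i → List (J × Bool) → List (OsaLetter c × Bool)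
  | _, [] => []
  | v, a :: w => itgLab π c i v a :: itgLift i (osaStep (π i) a v) w

@[simp] theorem itgLift_length (i : ℕ) (v : V i) (w : List (J × Bool)) :
    (itgLift π c i v w).length = w.length := by
  induction w generalizing v with
  | nil => rfl
  | cons a w ih => simp [itgLift, ih]

theorem itgLift_ok (i : ℕ) (v : V i) (w : List (J × Bool)) :
    (itgD π c base σ κ ρ).ok i v (itgLift π c i v w) := by
  induction w generalizing v with
  | nil => trivial
  | cons a w ih =>
    refine ⟨?_, ih _⟩
    rw [itg_mem_J]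
    rfl

theorem itgLift_run (i : ℕ) (v : V i) (w : List (J × Bool)) :
    (itgD π c base σ κ ρ).run i v (itgLift π c i v w) = osaRun (π i) w v := by
  induction w generalizing v with
  | nil => rfl
  | cons a w ih => exact ih _

theorem itgLift_path (i : ℕ) (v : V i) (w : List (J × Bool)) :
    Path (osaRelSys π c).E ⟨i, v⟩ (itgLift π c i v w) ⟨i, osaRun (π i) w v⟩ := by
  induction w generalizing v with
  | nil => exact Path.nil _
  | cons a w ih => exact Path.cons ((osaE_iff π c i v _ _).2 ⟨rfl, rfl⟩) (ih _)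

end defs

end Claimed.Agent.R300
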