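/-
Row 300 (S0552, irrational trace), IT front end glue (IT-DATA), owner helper47.  Prefix `itge`.

The (E) fields of `ItGraphs.Good` for the data `itgD π c base σ κ ρ` of `ItGeoDef.lean`, from abstract
hypotheses on the permutation systems `π i` (girth, edge expansion, Laplacian gap), and the
connectivity of the graphs.
-/
import Claimed.Agent.R300.ItGeoDef

set_option autoImplicit false
set_option linter.unusedSectionVars false

namespace Claimed.Agent.R300

open Shell

section single

variable {J V : Type} [Fintype J] [DecidableEq V] (π : J → Equiv.Perm V)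

/-- the vertices reached from `b` by shape words of length at most `r`. -/
def itgeReach : ℕ → V → Finset V
  | 0, b => {b}
  | r + 1, b => insert b (Finset.univ.biUnion fun a : J × Bool => itgeReach r (osaStep π a b))

theorem itge_mem_reach (w : List (J × Bool)) (r : ℕ) (b : V) (h : w.length ≤ r) :
    osaRun π w b ∈ itgeReach π r b := by
  induction w generalizing r b with
  | nil =>
    cases r with
    | zero => simp [itgeReach]
    | succ r => simp [itgeReach]
  | cons a w ih =>
    cases r with
    | zero => simp at h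
    | succ r =>
      simp only [itgeReach, osaRun_cons, Finset.mem_insert, Finset.mem_biUnion, Finset.mem_univ,
        true_and]
      exact Or.inr ⟨a, ih r _ (by simpa using h)⟩

theorem itge_reach_card (hJ : 1 ≤ Fintype.card J) (r : ℕ) (b : V) :
    (itgeReach π r b).card + 1 ≤ (2 * Fintype.card J) ^ (r + 1) := by
  induction r generalizing b with
  | zero => simp only [itgeReach, Finset.card_singleton, Nat.zero_add, pow_one]; omega
  | succ r ih =>
    have h1 : (itgeReach π (r + 1) b).card ≤
        (Finset.univ.biUnion fun a : J × Bool => itgeReach π r (osaStep π a b)).card + 1 :=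
      Finset.card_insert_le _ _
    have h2 : (Finset.univ.biUnion fun a : J × Bool => itgeReach π r (osaStep π a b)).card ≤
        ∑ a : J × Bool, (itgeReach π r (osaStep π a b)).card := Finset.card_biUnion_le
    have h3 : ∑ a : J × Bool, ((itgeReach π r (osaStep π a b)).card + 1) ≤
        ∑ _a : J × Bool, (2 * Fintype.card J) ^ (r + 1) :=
      Finset.sum_le_sum fun a _ => ih _
    rw [Finset.sum_add_distrib, Finset.sum_const, Finset.sum_const, Finset.card_univ,
      Fintype.card_prod, Fintype.card_bool, smul_eq_mul, smul_eq_mul, mul_one] at h3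
    have h4 : (2 * Fintype.card J) ^ (r + 1 + 1) =
        Fintype.card J * 2 * (2 * Fintype.card J) ^ (r + 1) := by
      rw [pow_succ (2 * Fintype.card J) (r + 1)]; ring
    rw [h4]
    omega

/-- an expanding system of permutations is connected. -/
theorem itge_conn_single [Fintype V] (κ : ℝ) (hκ : 0 < κ)
    (hexp : ∀ W : Finset V, 2 * W.card ≤ Fintype.card V →
      κ * W.card ≤ ((∑ j, (W.filter (fun a => π j a ∉ W)).card : ℕ) : ℝ))
    (x y : V) : ∃ w : List (J × Bool), osaRun π w x = y := by
  classical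
  set W : Finset V := Finset.univ.filter (fun y => ∃ w : List (J × Bool), osaRun π w x = y) with hW
  have hx : x ∈ W := by
    rw [hW, Finset.mem_filter]
    exact ⟨Finset.mem_univ _, [], rfl⟩
  have hstep : ∀ (a : J × Bool) (z : V), z ∈ W → osaStep π a z ∈ W := by
    intro a z hz
    rw [hW, Finset.mem_filter] at hz ⊢
    obtain ⟨-, w, rfl⟩ := hz
    exact ⟨Finset.mem_univ _, w ++ [a], by rw [osaRun_append]; rfl⟩
  have hout : ∑ j, (W.filter (fun a => π j a ∉ W)).card = 0 := by
    apply Finset.sum_eq_zero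
    intro j _
    rw [Finset.card_eq_zero, Finset.filter_eq_empty_iff]
    intro a ha
    rw [not_not]
    exact hstep (j, true) a ha
  have hout' : ∑ j, (Wᶜ.filter (fun a => π j a ∉ Wᶜ)).card = 0 := by
    apply Finset.sum_eq_zero
    intro j _
    rw [Finset.card_eq_zero, Finset.filter_eq_empty_iff]
    intro a ha
    rw [not_not]
    rw [Finset.mem_compl] at ha ⊢
    intro h
    apply ha
    have := hstep (j, false) _ h
    simpa [osaStep] using this
  by_cases h : 2 * W.card ≤ Fintype.card V
  · exfalso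
    have h1 := hexp W h
    rw [hout] at h1
    have h2 : (0 : ℝ) < W.card := by exact_mod_cast Finset.card_pos.2 ⟨x, hx⟩
    have := mul_pos hκ h2
    simp only [Nat.cast_zero] at h1
    linarith
  · have hc : Wᶜ.card = Fintype.card V - W.card := Finset.card_compl W
    have hle : W.card ≤ Fintype.card V := Finset.card_le_univ W
    have h1 := hexp Wᶜ (by omega)
    rw [hout'] at h1
    simp only [Nat.cast_zero] at h1
    have h2 : Wᶜ.card = 0 := by
      by_contra hne
      have h3 : (0 : ℝ) < Wᶜ.card := by exact_mod_cast Nat.pos_of_ne_zero hne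
      have := mul_pos hκ h3
      linarith
    rw [Finset.card_eq_zero, Finset.compl_eq_empty_iff] at h2
    have hy : y ∈ W := by rw [h2]; exact Finset.mem_univ _
    rw [hW, Finset.mem_filter] at hy
    exact hy.2

end single

section fields

variable {J : Type} {V : ℕ → Type} {q : ℕ} [Fintype J]
  (π : ∀ i, J → Equiv.Perm (V i)) (c : ∀ i, J × V i → Fin q)
  (base : ∀ i, V i) (σ : ℕ → ℕ) (κ ρ : ℝ)

/-- sums over the ports = sums over the directions. -/
theorem itge_sum_J {M : Type} [AddCommMonoid M] (i : ℕ) (v : V i) (g : V i → M) :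
    ∑ s ∈ (itgD π c base σ κ ρ).J i v, g ((itgD π c base σ κ ρ).nb i v s) =
      ∑ a : J × Bool, g (osaStep (π i) a v) := by
  classical
  simp only [itgD]
  rw [Finset.sum_image (fun a _ b _ h => itgLab_injective π c i v h)]
  rfl

/-- sum over directions = forward + backward. -/
theorem itge_sum_dir {M : Type} [AddCommMonoid M] (g : J × Bool → M) :
    ∑ a : J × Bool, g a = ∑ j, g (j, true) + ∑ j, g (j, false) := by
  rw [Fintype.sum_prod_type, ← Finset.sum_add_distrib]
  exact Finset.sum_congr rfl fun j _ => by simp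

theorem itge_energy [∀ i, Fintype (V i)] (i : ℕ) (E : V i → V i → ℝ) (hE : ∀ a b, E a b = E b a) :
    ∑ v, ∑ s ∈ (itgD π c base σ κ ρ).J i v, E v ((itgD π c base σ κ ρ).nb i v s) =
      2 * ∑ j, ∑ a, E a (π i j a) := by
  have h1 : ∀ v, ∑ s ∈ (itgD π c base σ κ ρ).J i v, E v ((itgD π c base σ κ ρ).nb i v s) =
      ∑ j, E v (π i j v) + ∑ j, E v ((π i j)⁻¹ v) := by
    intro v
    rw [itge_sum_J π c base σ κ ρ i v (fun z => E v z), itge_sum_dir]
    rfl
  simp only [h1]
  rw [Finset.sum_add_distrib, Finset.sum_comm, Finset.sum_comm (f := fun v j => E v ((π i j)⁻¹ v))]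
  have h2 : ∀ j, ∑ v, E v ((π i j)⁻¹ v) = ∑ v, E v (π i j v) := by
    intro j
    rw [← Equiv.sum_comp (π i j) (fun v => E v ((π i j)⁻¹ v))]
    exact Finset.sum_congr rfl fun v _ => by simp [hE]
  simp only [h2]
  ring

/-- the Poincaré inequality for complex functions from the real Laplacian gap. -/
theorem itge_poincare [∀ i, Fintype (V i)] (i : ℕ)
    (hgap : ∀ F : V i → ℝ, ∑ v, F v = 0 →
      ρ * ∑ v, F v ^ 2 ≤ ∑ j, ∑ a, (F a - F (π i j a)) ^ 2)
    (f : V i → ℂ) (hf : ∑ v, f v = 0) :
    (itgD π c base σ κ ρ).ρ * ∑ v, ‖f v‖ ^ 2 ≤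
      1 / 2 * ∑ v, ∑ s ∈ (itgD π c base σ κ ρ).J i v,
        ‖f v - f ((itgD π c base σ κ ρ).nb i v s)‖ ^ 2 := by
  rw [itge_energy π c base σ κ ρ i (fun a b => ‖f a - f b‖ ^ 2)
    (fun a b => by rw [norm_sub_rev])]
  have hre : ∑ v, (f v).re = 0 := by
    have := congrArg Complex.re hf
    simpa using this
  have him : ∑ v, (f v).im = 0 := by
    have := congrArg Complex.im hf
    simpa using this
  have h1 := hgap (fun v => (f v).re) hre
  have h2 := hgap (fun v => (f v).im) him
  have hn : ∀ z : ℂ, ‖z‖ ^ 2 = z.re ^ 2 + z.im ^ 2 := by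
    intro z
    rw [← Complex.normSq_eq_norm_sq, Complex.normSq_apply]
    ring
  simp only [hn, Complex.sub_re, Complex.sub_im, Finset.sum_add_distrib]
  show ρ * _ ≤ _
  linarith


/-- darts leaving `W` in the directions `(j, b)`. -/
theorem itge_count [∀ i, Fintype (V i)] [∀ i, DecidableEq (V i)] (i : ℕ) (W : Finset (V i))
    (b : Bool) :
    ∑ j, (W.filter (fun a => osaStep (π i) (j, b) a ∉ W)).card ≤
      {z : V i × (OsaLetter c × Bool) | z.1 ∈ W ∧ z.2 ∈ (itgD π c base σ κ ρ).J i z.1 ∧
        (itgD π c base σ κ ρ).nb i z.1 z.2 ∉ W}.ncard := by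
  classical
  set T : Finset (J × V i) :=
    (Finset.univ ×ˢ W).filter (fun e => osaStep (π i) (e.1, b) e.2 ∉ W) with hT
  have hcard : T.card = ∑ j, (W.filter (fun a => osaStep (π i) (j, b) a ∉ W)).card := by
    rw [hT, Finset.card_filter, Finset.sum_product]
    exact Finset.sum_congr rfl fun j _ => by rw [Finset.card_filter]
  rw [← hcard]
  set F : J × V i → V i × (OsaLetter c × Bool) := fun e => (e.2, itgLab π c i e.2 (e.1, b)) with hF
  have hinj : Function.Injective F := by
    rintro ⟨j, a⟩ ⟨j', a'⟩ h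
    simp only [hF, Prod.mk.injEq] at h
    obtain ⟨rfl, h2⟩ := h
    have := itgLab_injective π c i a h2
    simp only [Prod.mk.injEq, and_true] at this
    rw [this]
  rw [← Finset.card_image_of_injective T hinj, ← Set.ncard_coe_finset]
  apply Set.ncard_le_ncard _ (Set.toFinite _)
  intro z hz
  simp only [Finset.coe_image, Set.mem_image, Finset.mem_coe] at hz
  obtain ⟨e, he, rfl⟩ := hz
  simp only [hT, Finset.mem_filter, Finset.mem_product, Finset.mem_univ, true_and] at he
  refine ⟨he.1, ?_, he.2⟩
  rw [itg_mem_J]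
  rfl

/-- backward darts leaving `W` = forward darts leaving the complement. -/
theorem itge_back [∀ i, Fintype (V i)] [∀ i, DecidableEq (V i)] (i : ℕ) (W : Finset (V i)) (j : J) :
    (W.filter (fun a => osaStep (π i) (j, false) a ∉ W)).card =
      (Wᶜ.filter (fun a => π i j a ∉ Wᶜ)).card := by
  apply Finset.card_bij (fun a _ => (π i j)⁻¹ a)
  · intro a ha
    simp only [Finset.mem_filter, osaStep, Bool.false_eq_true, if_false] at ha
    simp only [Finset.mem_filter, Finset.mem_compl, not_not]
    exact ⟨ha.2, by simpa using ha.1⟩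
  · intro a _ a' _ h
    exact (π i j)⁻¹.injective h
  · intro a ha
    simp only [Finset.mem_filter, Finset.mem_compl, not_not] at ha
    refine ⟨π i j a, ?_, by simp⟩
    simp only [Finset.mem_filter, osaStep, Bool.false_eq_true, if_false]
    exact ⟨ha.2, by simpa using ha.1⟩

theorem itge_expansion [∀ i, Fintype (V i)] [∀ i, DecidableEq (V i)] (i : ℕ) (hκ : 0 ≤ κ)
    (hexp : ∀ W : Finset (V i), 2 * W.card ≤ Fintype.card (V i) →
      κ * W.card ≤ ((∑ j, (W.filter (fun a => π i j a ∉ W)).card : ℕ) : ℝ))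
    (W : Finset (V i)) :
    (itgD π c base σ κ ρ).κ * min (W.card : ℝ) ((Fintype.card (V i) : ℝ) - W.card) ≤
      ({z : V i × (OsaLetter c × Bool) | z.1 ∈ W ∧ z.2 ∈ (itgD π c base σ κ ρ).J i z.1 ∧
        (itgD π c base σ κ ρ).nb i z.1 z.2 ∉ W}.ncard : ℝ) := by
  show κ * _ ≤ _
  by_cases h : 2 * W.card ≤ Fintype.card (V i)
  · have h1 := hexp W h
    have h2 := itge_count π c base σ κ ρ i W true
    have h3 : κ * min (W.card : ℝ) ((Fintype.card (V i) : ℝ) - W.card) ≤ κ * W.card :=
      mul_le_mul_of_nonneg_left (min_le_left _ _) hκ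
    refine h3.trans (h1.trans ?_)
    exact_mod_cast h2
  · have hc : Wᶜ.card = Fintype.card (V i) - W.card := Finset.card_compl W
    have hle : W.card ≤ Fintype.card (V i) := Finset.card_le_univ W
    have h1 := hexp Wᶜ (by omega)
    have h2 := itge_count π c base σ κ ρ i W false
    simp only [itge_back] at h2
    have h3 : κ * min (W.card : ℝ) ((Fintype.card (V i) : ℝ) - W.card) ≤ κ * (Wᶜ.card : ℝ) := by
      apply mul_le_mul_of_nonneg_left _ hκ
      rw [hc, Nat.cast_sub hle]
      exact min_le_right _ _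
    refine h3.trans (h1.trans ?_)
    exact_mod_cast h2

theorem itge_girth (i : ℕ) (G : ℕ) (hg : OsaGirth (π i) G) (hσ : σ i ≤ G + 1) (v : V i)
    (w : List (OsaLetter c × Bool)) (hne : w ≠ []) (hred : (itgD π c base σ κ ρ).red w)
    (hok : (itgD π c base σ κ ρ).ok i v w) (hrun : (itgD π c base σ κ ρ).run i v w = v) :
    (itgD π c base σ κ ρ).σ i ≤ w.length := by
  show σ i ≤ _
  by_contra hlt
  push Not at hlt
  have h1 := itg_path_of_ok π c base σ κ ρ i v w hok
  have h2 := osa_shape_reduced π c _ _ w h1 ((itg_red_iff π c base σ κ ρ w).1 hred)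
  rw [itg_run_eq] at hrun
  refine hg (osaShape c w) h2 ?_ ?_ v hrun
  · intro h
    apply hne
    have := congrArg List.length h
    rw [osaShape_length] at this
    exact List.length_eq_zero_iff.1 (by simpa using this)
  · rw [osaShape_length]
    omega


theorem itge_ball_card [∀ i, DecidableEq (V i)] (hJ : 1 ≤ Fintype.card J) (i : ℕ) (b : V i) :
    ((itgD π c base σ κ ρ).ball i b).ncard + 1 ≤ (2 * Fintype.card J) ^ (σ i / 8 + 1) := by
  refine le_trans ?_ (itge_reach_card (π i) hJ (σ i / 8) b)
  apply Nat.add_le_add_right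
  rw [← Set.ncard_coe_finset]
  apply Set.ncard_le_ncard _ (Finset.finite_toSet _)
  rintro v ⟨w, hw, -, rfl⟩
  rw [itg_run_eq]
  apply itge_mem_reach
  rw [osaShape_length]
  have : 8 * w.length ≤ σ i := hw
  omega

/-- connectivity, in the form used for `φ`. -/
theorem itge_conn [∀ i, Fintype (V i)] [∀ i, DecidableEq (V i)] (i : ℕ) (hκ : 0 < κ)
    (hexp : ∀ W : Finset (V i), 2 * W.card ≤ Fintype.card (V i) →
      κ * W.card ≤ ((∑ j, (W.filter (fun a => π i j a ∉ W)).card : ℕ) : ℝ))
    (x y : V i) : ∃ w, Path (osaRelSys π c).E ⟨i, x⟩ w ⟨i, y⟩ := by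
  obtain ⟨w, rfl⟩ := itge_conn_single (π i) κ hκ hexp x y
  exact ⟨_, itgLift_path π c i x w⟩

end fields

end Claimed.Agent.R300
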