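import Claimed.Agent.R300.ShellSpec
import Claimed.Agent.R300.ShellPsi

/-!
# Shelling library: corollaries of `ShellSpec`
-/

namespace Claimed.Agent.R300.Shell

universe u v w

variable {S : Type u} {T : Type v} {Q : Type w} {Θ : RelSys S T Q}
  {vlev : Gam Θ → ℕ} {slev : Gam Θ → T → ℕ}

/-- two words read from `x` with the same value in the group have the same end point -/
theorem ShellSpec.same_end (H : ShellSpec Θ vlev slev) {x z z' : T} {u u' : List (S × Bool)}
    (hu : Path Θ.E x u z) (hu' : Path Θ.E x u' z') (he : gw Θ u = gw Θ u') : z = z' := by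
  have hc : Path Θ.E z (FreeGroup.invRev u ++ u') z' := (hu.inv Θ.sym).append hu'
  have h1 : gw Θ (FreeGroup.invRev u ++ u') = 1 := by
    rw [gw_append, gw_invRev, he, inv_mul_cancel]
  exact (H.embed hc h1).symm

/-- a sheet passes through a group element at one position only -/
theorem ShellSpec.pos_unique (H : ShellSpec Θ vlev slev) {x x' z z' : T} {u u' : List (S × Bool)}
    (hu : Path Θ.E x u z) (hu' : Path Θ.E x' u' z') (he : gw Θ u = gw Θ u')
    (hz : Θ.pos z = Θ.pos z') : Θ.pos x = Θ.pos x' := by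
  obtain ⟨x'', h1, h2⟩ := pos_path hz.symm (hu'.inv Θ.sym)
  have hc : Path Θ.E x (u ++ FreeGroup.invRev u') x'' := hu.append h1
  have h3 : gw Θ (u ++ FreeGroup.invRev u') = 1 := by
    rw [gw_append, gw_invRev, he, mul_inv_cancel]
  have := H.embed hc h3
  subst this
  exact h2

/-- PAIR: two different sheets through a common vertex (positions `x`, `x'`) which meet again
(positions `z`, `z'`) contain a common path between the two common vertices: their intersection
is connected, and it is one piece. -/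
theorem ShellSpec.pair (H : ShellSpec Θ vlev slev) {x x' z z' : T} {u u' : List (S × Bool)}
    (hne : Θ.pos x ≠ Θ.pos x') (hu : Path Θ.E x u z) (hu' : Path Θ.E x' u' z')
    (he : gw Θ u = gw Θ u') :
    ∃ b, FreeGroup.IsReduced b ∧ Path Θ.E x b z ∧ Path Θ.E x' b z' ∧ gw Θ b = gw Θ u := by
  have hv1 : vlev (1 : Gam Θ) = 0 := (H.vlev_zero 1).2 rfl
  have s0 : ∀ y, slev (1 : Gam Θ) y = 0 := fun y => by
    have := H.slev_le 1 y; omega
  by_cases hg : gw Θ u = 1
  · have e1 := H.embed hu hg
    have e2 := H.embed hu' (he ▸ hg)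
    subst e1 e2
    exact ⟨[], FreeGroup.IsReduced.nil, Path.nil _, Path.nil _, by rw [hg]; exact gw_nil⟩
  · have sz : slev (gw Θ u) z = 0 := by
      have := H.slev_path 1 hu
      rw [one_mul] at this
      rw [this, s0]
    have sz' : slev (gw Θ u) z' = 0 := by
      have := H.slev_path 1 hu'
      rw [one_mul, ← he] at this
      rw [this, s0]
    have hv : vlev (gw Θ u) = slev (gw Θ u) z + 1 := by
      have h1 := H.vlev_le (gw Θ u) z
      have h2 : vlev (gw Θ u) ≠ 0 := fun h0 => hg ((H.vlev_zero _).1 h0)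
      omega
    have hnz : Θ.pos z ≠ Θ.pos z' := fun hz => hne (H.pos_unique hu hu' he hz)
    obtain ⟨b, a, a', -, hb, pa, pa', hv0, -⟩ := H.branch (gw Θ u) hnz (sz.trans sz'.symm) hv
    rw [sz] at hv0
    have hgb : gw Θ u * (gw Θ b)⁻¹ = 1 := (H.vlev_zero _).1 hv0
    have hgb' : gw Θ b = gw Θ u := (mul_inv_eq_one.1 hgb).symm
    have ea : a = x := by
      have hc : Path Θ.E x (u ++ FreeGroup.invRev b) a := hu.append (pa.inv Θ.sym)
      exact H.embed hc (by rw [gw_append, gw_invRev, hgb])
    have ea' : a' = x' := by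
      have hc : Path Θ.E x' (u' ++ FreeGroup.invRev b) a' := hu'.append (pa'.inv Θ.sym)
      exact H.embed hc (by rw [gw_append, gw_invRev, ← he, hgb])
    subst ea ea'
    exact ⟨b, hb, pa, pa', hgb'⟩

/-- the common path of PAIR is a piece -/
theorem ShellSpec.pair_piece (H : ShellSpec Θ vlev slev) {x x' z z' : T} {u u' : List (S × Bool)}
    (hne : Θ.pos x ≠ Θ.pos x') (hu : Path Θ.E x u z) (hu' : Path Θ.E x' u' z')
    (he : gw Θ u = gw Θ u') : ∃ b, Piece Θ x b z ∧ Piece Θ x' b z' ∧ gw Θ b = gw Θ u := by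
  obtain ⟨b, hb, p, p', hg⟩ := H.pair hne hu hu' he
  exact ⟨b, ⟨p, hb, x', z', hne.symm, p'⟩, ⟨p', hb, x, z, hne, p⟩, hg⟩

end Claimed.Agent.R300.Shell
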