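/-
Row 300 (S0552, irrational trace), IT front end glue (IT-DATA), owner helper179.  Prefix `itg`.

The geometric fields of `ItGraphs.Good` for `itgD π c base σ κ ρ`:
`inv_inv, inv_ne, val_inv, gen, J_card, nb_inv, φ_nb`, (G1) `φ_inj`, (G3) `univ`, (LEAF) `leaf`,
from connectivity, the output `ShellSpec` of the shelling library and shortness of pieces.
-/
import Claimed.Agent.R300.ItGeoDef
import Claimed.Agent.R300.ShellCor

set_option autoImplicit false
set_option linter.unusedSectionVars false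

namespace Claimed.Agent.R300

open Shell

section geo

variable {J : Type} [Fintype J] {V : ℕ → Type} {q : ℕ}
  (π : ∀ i, J → Equiv.Perm (V i)) (c : ∀ i, J × V i → Fin q)
  (base : ∀ i, V i) (σ : ℕ → ℕ) (κ ρ : ℝ)

theorem itg_inv_inv (s : OsaLetter c × Bool) :
    (itgD π c base σ κ ρ).inv ((itgD π c base σ κ ρ).inv s) = s := linv_linv s

theorem itg_inv_ne (s : OsaLetter c × Bool) : (itgD π c base σ κ ρ).inv s ≠ s := by
  obtain ⟨s, b⟩ := s
  intro h
  have := congrArg Prod.snd h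
  simp [itgD, linv] at this

theorem itg_val_inv (s : OsaLetter c × Bool) :
    (itgD π c base σ κ ρ).val ((itgD π c base σ κ ρ).inv s) = ((itgD π c base σ κ ρ).val s)⁻¹ :=
  gw_linv s

theorem itg_gen : Subgroup.closure (Set.range (itgD π c base σ κ ρ).val) = ⊤ := by
  rw [eq_top_iff]
  intro g _
  obtain ⟨w, rfl⟩ := gw_surjective g
  induction w with
  | nil => rw [gw_nil]; exact Subgroup.one_mem _
  | cons l w ih =>
    rw [gw_cons]
    exact Subgroup.mul_mem _ (Subgroup.subset_closure ⟨l, rfl⟩) (ih trivial)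

theorem itg_J_card (i : ℕ) (v : V i) :
    ((itgD π c base σ κ ρ).J i v).card = (itgD π c base σ κ ρ).d := by
  classical
  simp only [itgD]
  rw [Finset.card_image_of_injective _ (itgLab_injective π c i v), Finset.card_univ,
    Fintype.card_prod, Fintype.card_bool, mul_comm]

theorem itg_nb_inv (i : ℕ) (v : V i) (s : OsaLetter c × Bool)
    (hs : s ∈ (itgD π c base σ κ ρ).J i v) :
    (itgD π c base σ κ ρ).inv s ∈ (itgD π c base σ κ ρ).J i ((itgD π c base σ κ ρ).nb i v s) ∧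
      (itgD π c base σ κ ρ).nb i ((itgD π c base σ κ ρ).nb i v s) ((itgD π c base σ κ ρ).inv s)
        = v := by
  have h1 := (itg_mem_J_iff_E π c base σ κ ρ i v s).1 hs
  have h2 := osaE_sym π c h1
  obtain ⟨h3, h4⟩ := (itg_E_iff π c base σ κ ρ i _ _ _).1 h2
  refine ⟨h3, ?_⟩
  rw [Sigma.mk.inj_iff] at h4
  exact (eq_of_heq h4.2).symm

/-- connectivity in the form used below. -/
def ItgConn : Prop := ∀ i (v : V i), ∃ w : List (J × Bool), osaRun (π i) w (base i) = v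

variable {π c base}

theorem ItgConn.path (hc : ItgConn π base) (i : ℕ) (v : V i) :
    Path (osaRelSys π c).E ⟨i, base i⟩ (someWord (osaRelSys π c) ⟨i, base i⟩ ⟨i, v⟩) ⟨i, v⟩ := by
  apply someWord_spec
  obtain ⟨w, hw⟩ := hc i v
  refine ⟨itgLift π c i (base i) w, ?_⟩
  have := itgLift_path π c i (base i) w
  rwa [hw] at this

/-- any path from the base point computes `φ`. -/
theorem ItgConn.φ_eq (hc : ItgConn π base) (i : ℕ) (v : V i) (u : List (OsaLetter c × Bool))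
    (hu : Path (osaRelSys π c).E ⟨i, base i⟩ u ⟨i, v⟩) :
    (itgD π c base σ κ ρ).φ i v = gw (osaRelSys π c) u :=
  gw_eq_of_same_end (hc.path i v) hu

/-- `φ` along a path. -/
theorem ItgConn.φ_path (hc : ItgConn π base) (i : ℕ) (v v' : V i)
    (u : List (OsaLetter c × Bool)) (hu : Path (osaRelSys π c).E ⟨i, v⟩ u ⟨i, v'⟩) :
    (itgD π c base σ κ ρ).φ i v' = (itgD π c base σ κ ρ).φ i v * gw (osaRelSys π c) u := by
  rw [hc.φ_eq σ κ ρ i v' _ ((hc.path i v).append hu), gw_append]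
  rfl

theorem ItgConn.path_between (hc : ItgConn π base) (i : ℕ) (v v' : V i) :
    ∃ u, Path (osaRelSys π c).E ⟨i, v⟩ u ⟨i, v'⟩ :=
  ⟨_, ((hc.path i v).inv (osaRelSys π c).sym).append (hc.path i v')⟩

theorem ItgConn.φ_nb (hc : ItgConn π base) (i : ℕ) (v : V i) (s : OsaLetter c × Bool)
    (hs : s ∈ (itgD π c base σ κ ρ).J i v) :
    (itgD π c base σ κ ρ).φ i ((itgD π c base σ κ ρ).nb i v s) =
      (itgD π c base σ κ ρ).φ i v * (itgD π c base σ κ ρ).val s := by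
  have h1 := (itg_mem_J_iff_E π c base σ κ ρ i v s).1 hs
  exact hc.φ_path σ κ ρ i v _ [s] (path_single_iff.2 h1)

variable {vlev : Gam (osaRelSys π c) → ℕ} {slev : Gam (osaRelSys π c) → (Σ i, V i) → ℕ}

/-- (G1) -/
theorem ItgConn.φ_inj (hc : ItgConn π base) (H : ShellSpec (osaRelSys π c) vlev slev) (i : ℕ) :
    Function.Injective ((itgD π c base σ κ ρ).φ i) := by
  intro v v' h
  have := H.same_end (hc.path i v) (hc.path i v') h
  rw [Sigma.mk.inj_iff] at this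
  exact eq_of_heq this.2

/-- (G3) -/
theorem itg_univ (H : Type) [Group H] (f : OsaLetter c × Bool → H)
    (hf : ∀ s, f ((itgD π c base σ κ ρ).inv s) = (f s)⁻¹)
    (hrel : ∀ i v w, (itgD π c base σ κ ρ).ok i v w → (itgD π c base σ κ ρ).run i v w = v →
      (w.map f).prod = 1) :
    ∃ Ψ : Gam (osaRelSys π c) →* H, ∀ s, Ψ ((itgD π c base σ κ ρ).val s) = f s := by
  have hcond : ∀ x : OsaLetter c × Bool,
      cond x.2 (f (x.1, true)) (f (x.1, true))⁻¹ = f x := by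
    rintro ⟨s, b⟩
    cases b
    · exact (hf (s, true)).symm
    · rfl
  have hlift : ∀ w : List (OsaLetter c × Bool),
      FreeGroup.lift (fun s => f (s, true)) (FreeGroup.mk w) = (w.map f).prod := by
    intro w
    rw [FreeGroup.lift_mk]
    congr 1
    exact List.map_congr_left fun x _ => hcond x
  have hr : ∀ r ∈ rels (osaRelSys π c), FreeGroup.lift (fun s => f (s, true)) r = 1 := by
    rintro r ⟨⟨i, v⟩, w, hp, rfl⟩
    rw [hlift]
    obtain ⟨h1, h2⟩ := (itg_path_iff π c base σ κ ρ i v w _).1 hp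
    rw [Sigma.mk.inj_iff] at h2
    exact hrel i v w h1 (eq_of_heq h2.2).symm
  refine ⟨PresentedGroup.toGroup hr, fun s => ?_⟩
  have : (itgD π c base σ κ ρ).val s
      = PresentedGroup.mk (rels (osaRelSys π c)) (FreeGroup.mk [s]) := rfl
  rw [this]
  have h2 : PresentedGroup.toGroup hr (PresentedGroup.mk (rels (osaRelSys π c)) (FreeGroup.mk [s]))
      = FreeGroup.lift (fun s => f (s, true)) (FreeGroup.mk [s]) := rfl
  rw [h2, hlift]
  simp

/-! ### (LEAF) -/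

/-- Points of the attaching set of a sheet are within two pieces of each other. -/
theorem ItgConn.att_close (hc : ItgConn π base) (H : ShellSpec (osaRelSys π c) vlev slev)
    {ℓ : ℕ → ℕ} (hPC : OsaPC π c ℓ) (hmono : Monotone ℓ)
    (g : Gam (osaRelSys π c)) (i : ℕ) (b v : V i) (k : ℕ)
    (hk : ∀ v : V i, slev (g * (itgD π c base σ κ ρ).φ i v) ⟨i, v⟩ = k)
    (hb : vlev (g * (itgD π c base σ κ ρ).φ i b) = k)
    (hv : vlev (g * (itgD π c base σ κ ρ).φ i v) = k) :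
    ∃ u, Path (osaRelSys π c).E ⟨i, b⟩ u ⟨i, v⟩ ∧ u.length ≤ 2 * ℓ i := by
  obtain ⟨u0, hu0⟩ := hc.path_between (c := c) i b v
  have e0 : g * (itgD π c base σ κ ρ).φ i b * gw (osaRelSys π c) u0
      = g * (itgD π c base σ κ ρ).φ i v := by
    rw [hc.φ_path σ κ ρ i b v u0 hu0, mul_assoc]
  obtain ⟨p₁, p₂, z₁, hred, hp1, hp2, h1, h2⟩ :=
    H.att_conn (g * (itgD π c base σ κ ρ).φ i b) (x := ⟨i, b⟩) (z := ⟨i, v⟩) (u := u0)
      (by rw [hb, hk]) hu0 (by rw [e0, hv, hk])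
  refine ⟨p₁ ++ p₂, hp1.append hp2, ?_⟩
  have hz1 : z₁.1 = i := osa_path_fst π c _ _ _ hp1
  have l1 : p₁.length ≤ ℓ i := by
    rcases h1 with rfl | ⟨x₁, hx1, e, he⟩
    · simp
    · have hpc : Piece (osaRelSys π c) ⟨i, b⟩ p₁ z₁ :=
        ⟨hp1, isReduced_left hred, x₁, e, fun h => by
          have h' : x₁ = ⟨i, b⟩ := h
          rw [h'] at hx1
          exact lt_irrefl _ hx1, he⟩
      exact (hPC.piece_lt hmono hpc).le
  have l2 : p₂.length ≤ ℓ i := by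
    rcases h2 with rfl | ⟨x₂, hx2, e, he⟩
    · simp
    · have hs := H.slev_path (g * (itgD π c base σ κ ρ).φ i b) hp1
      have hpc : Piece (osaRelSys π c) z₁ p₂ ⟨i, v⟩ :=
        ⟨hp2, isReduced_right hred, x₂, e, fun h => by
          have h' : x₂ = z₁ := h
          rw [h', hs] at hx2
          exact lt_irrefl _ hx2, he⟩
      have := hPC.piece_lt hmono hpc
      rw [hz1] at this
      exact this.le
  rw [List.length_append]
  omega

/-- (LEAF) -/
theorem ItgConn.leaf (hc : ItgConn π base) (H : ShellSpec (osaRelSys π c) vlev slev)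
    {ℓ : ℕ → ℕ} (hPC : OsaPC π c ℓ) (hmono : Monotone ℓ) (hσ : ∀ i, 24 * ℓ i ≤ σ i)
    (F : Finset (Gam (osaRelSys π c) × ℕ)) (P0 : Gam (osaRelSys π c) × ℕ) (hP0 : P0 ∈ F)
    (hF : 2 ≤ F.card) :
    ∃ Q ∈ F, Q ≠ P0 ∧ ∃ b : V Q.2, ∀ Q' ∈ F, Q' ≠ Q → ∀ v v',
      Q.1 * (itgD π c base σ κ ρ).φ Q.2 v = Q'.1 * (itgD π c base σ κ ρ).φ Q'.2 v' →
        v ∈ (itgD π c base σ κ ρ).ball Q.2 b := by
  classical
  set lev : Gam (osaRelSys π c) × ℕ → ℕ := fun Q => slev (P0.1⁻¹ * Q.1) ⟨Q.2, base Q.2⟩ with hlevdef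
  have hlev : ∀ (Q : Gam (osaRelSys π c) × ℕ) (v : V Q.2),
      slev (P0.1⁻¹ * Q.1 * (itgD π c base σ κ ρ).φ Q.2 v) ⟨Q.2, v⟩ = lev Q := fun Q v =>
    H.slev_path (P0.1⁻¹ * Q.1) (hc.path Q.2 v)
  have hlev0 : lev P0 = 0 := by
    have h1 := H.slev_le (P0.1⁻¹ * P0.1) ⟨P0.2, base P0.2⟩
    rw [inv_mul_cancel, (H.vlev_zero 1).2 rfl] at h1
    simp only [hlevdef, inv_mul_cancel]
    omega
  have hne : (F.erase P0).Nonempty := by
    rw [← Finset.card_pos, Finset.card_erase_of_mem hP0]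
    omega
  obtain ⟨Q, hQ, hmax⟩ := Finset.exists_max_image (F.erase P0) lev hne
  have hQF : Q ∈ F := Finset.mem_of_mem_erase hQ
  have hQne : Q ≠ P0 := Finset.ne_of_mem_erase hQ
  have hmax' : ∀ Q' ∈ F, lev Q' ≤ lev Q := by
    intro Q' hQ'
    by_cases h : Q' = P0
    · rw [h, hlev0]; exact Nat.zero_le _
    · exact hmax Q' (Finset.mem_erase.2 ⟨h, hQ'⟩)
  refine ⟨Q, hQF, hQne, ?_⟩
  obtain ⟨w, z, hw, hvw⟩ := H.att_nonempty (P0.1⁻¹ * Q.1) ⟨Q.2, base Q.2⟩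
  obtain ⟨-, rfl⟩ := (itg_path_iff π c base σ κ ρ Q.2 (base Q.2) w z).1 hw
  set b : V Q.2 := (itgD π c base σ κ ρ).run Q.2 (base Q.2) w with hbdef
  have hb : vlev (P0.1⁻¹ * Q.1 * (itgD π c base σ κ ρ).φ Q.2 b) = lev Q := by
    rw [hc.φ_eq σ κ ρ Q.2 b w hw]
    exact hvw
  refine ⟨b, ?_⟩
  intro Q' hQ' hQQ' v v' hvv
  -- it suffices to find a short path
  suffices hs : ∃ u, Path (osaRelSys π c).E ⟨Q.2, b⟩ u ⟨Q.2, v⟩ ∧ u.length ≤ 3 * ℓ Q.2 by
    obtain ⟨u, hu, hl⟩ := hs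
    obtain ⟨h1, h2⟩ := (itg_path_iff π c base σ κ ρ Q.2 b u _).1 hu
    rw [Sigma.mk.inj_iff] at h2
    refine ⟨u, ?_, h1, (eq_of_heq h2.2).symm⟩
    have := hσ Q.2
    show 8 * u.length ≤ σ Q.2
    omega
  set h : Gam (osaRelSys π c) := P0.1⁻¹ * Q.1 * (itgD π c base σ κ ρ).φ Q.2 v with hh
  have hh' : h = P0.1⁻¹ * Q'.1 * (itgD π c base σ κ ρ).φ Q'.2 v' := by
    rw [hh, mul_assoc, hvv, mul_assoc]
  have hxx : (⟨Q.2, v⟩ : Σ i, V i) ≠ ⟨Q'.2, v'⟩ := by
    intro e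
    apply hQQ'
    obtain ⟨g, i⟩ := Q
    obtain ⟨g', i'⟩ := Q'
    simp only at e hvv
    rw [Sigma.mk.inj_iff] at e
    obtain ⟨rfl, e2⟩ := e
    have e3 : v = v' := eq_of_heq e2
    subst e3
    rw [mul_right_cancel hvv]
  have s1 : slev h ⟨Q.2, v⟩ = lev Q := hlev Q v
  have s2 : slev h ⟨Q'.2, v'⟩ = lev Q' := by rw [hh']; exact hlev Q' v'
  have v1 := H.slev_le h ⟨Q.2, v⟩
  have v2 := H.vlev_le h ⟨Q.2, v⟩
  have v3 := H.vlev_le h ⟨Q'.2, v'⟩
  have hm := hmax' Q' hQ'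
  by_cases hcase : vlev h = lev Q
  · obtain ⟨u, hu, hl⟩ := hc.att_close σ κ ρ H hPC hmono (P0.1⁻¹ * Q.1) Q.2 b v (lev Q)
      (fun v => hlev Q v) hb hcase
    exact ⟨u, hu, by omega⟩
  · have hv : vlev h = slev h ⟨Q.2, v⟩ + 1 := by omega
    have hss : slev h ⟨Q.2, v⟩ = slev h ⟨Q'.2, v'⟩ := by omega
    obtain ⟨br, a, a', -, hbr, pa, pa', hva, -⟩ := H.branch h (x := ⟨Q.2, v⟩) (x' := ⟨Q'.2, v'⟩)
      hxx hss hv
    have ha1 : a.1 = Q.2 := (osa_path_fst π c _ _ _ pa).symm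
    obtain ⟨ia, va⟩ := a
    simp only at ha1
    subst ha1
    have haa : (⟨Q.2, va⟩ : Σ i, V i) ≠ a' := by
      intro e
      subst e
      exact hxx (pa.det (osaRelSys π c).det pa')
    have hpc : Piece (osaRelSys π c) ⟨Q.2, va⟩ br ⟨Q.2, v⟩ :=
      ⟨pa, hbr, a', _, fun e => haa e.symm, pa'⟩
    have hl3 := hPC.piece_lt hmono hpc
    have hha : h * (gw (osaRelSys π c) br)⁻¹
        = P0.1⁻¹ * Q.1 * (itgD π c base σ κ ρ).φ Q.2 va := by
      rw [hh, hc.φ_path σ κ ρ Q.2 va v br pa, ← mul_assoc, mul_inv_cancel_right]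
    rw [hha, s1] at hva
    obtain ⟨u, hu, hl⟩ := hc.att_close σ κ ρ H hPC hmono (P0.1⁻¹ * Q.1) Q.2 b va (lev Q)
      (fun v => hlev Q v) hb hva
    refine ⟨u ++ br, hu.append pa, ?_⟩
    rw [List.length_append]
    simp only at hl3
    omega

end geo

end Claimed.Agent.R300
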