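import Claimed.Agent.R300.ShellRel

/-!
# Shelling library: the specification of the output (light file, imports only `ShellRel`)

Vocabulary.  The *sheet through `g` at `x`* is the set of the `g * gw Θ w`, `Path Θ.E x w z`
(this point has position `z` on the sheet).  Two incidences `(g, x)`, `(g, x')` at the same group
element belong to the same sheet iff `Θ.pos x = Θ.pos x'`.
`vlev g` is the level of the vertex `g`, `slev g x` the level of the sheet through `g` at `x`:
all its vertices have level `slev` or `slev + 1`; those of level `slev` form its attaching set `A`.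

`ShellMain.lean` proves `shell_main : C6 Θ → AllLetters Θ → ∃ vlev slev, ShellSpec Θ vlev slev`.
-/

namespace Claimed.Agent.R300.Shell

universe u v w

variable {S : Type u} {T : Type v} {Q : Type w}

/-- The output of the shelling construction. -/
structure ShellSpec (Θ : RelSys S T Q) (vlev : Gam Θ → ℕ) (slev : Gam Θ → T → ℕ) : Prop where
  /-- sheets embed -/
  embed : ∀ ⦃x z : T⦄ ⦃w : List (S × Bool)⦄, Path Θ.E x w z → gw Θ w = 1 → z = x
  vlev_zero : ∀ g, vlev g = 0 ↔ g = 1
  slev_pos : ∀ g ⦃x x' : T⦄, Θ.pos x = Θ.pos x' → slev g x = slev g x'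
  slev_path : ∀ g ⦃x z : T⦄ ⦃w : List (S × Bool)⦄, Path Θ.E x w z →
    slev (g * gw Θ w) z = slev g x
  slev_le : ∀ g x, slev g x ≤ vlev g
  vlev_le : ∀ g x, vlev g ≤ slev g x + 1
  /-- the attaching set is not empty -/
  att_nonempty : ∀ g x, ∃ w z, Path Θ.E x w z ∧ vlev (g * gw Θ w) = slev g x
  /-- two points of the attaching set are joined by a reduced path covered by two sheets of lower
  level -/
  att_conn : ∀ g ⦃x z : T⦄ ⦃u : List (S × Bool)⦄, vlev g = slev g x → Path Θ.E x u z →
    vlev (g * gw Θ u) = slev g x →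
    ∃ p₁ p₂ z₁, FreeGroup.IsReduced (p₁ ++ p₂) ∧ Path Θ.E x p₁ z₁ ∧ Path Θ.E z₁ p₂ z ∧
      (p₁ = [] ∨ ∃ x₁, slev g x₁ < slev g x ∧ ∃ e, Path Θ.E x₁ p₁ e) ∧
      (p₂ = [] ∨ ∃ x₂, slev (g * gw Θ p₁) x₂ < slev g x ∧ ∃ e, Path Θ.E x₂ p₂ e)
  /-- two different sheets of the same level which meet outside their attaching sets share a
  branch issued from a common point of their attaching sets -/
  branch : ∀ g ⦃x x' : T⦄, Θ.pos x ≠ Θ.pos x' → slev g x = slev g x' → vlev g = slev g x + 1 →
    ∃ b a a', b ≠ [] ∧ FreeGroup.IsReduced b ∧ Path Θ.E a b x ∧ Path Θ.E a' b x' ∧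
      vlev (g * (gw Θ b)⁻¹) = slev g x ∧
      ∀ b₁ b₂, b = b₁ ++ b₂ → b₁ ≠ [] → vlev (g * (gw Θ b₂)⁻¹) = slev g x + 1

end Claimed.Agent.R300.Shell
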