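import Claimed.Agent.R300.ShellAct
import Claimed.Agent.R300.ShellSpec

/-!
# Shelling library, part 6: the exported theorem

`shell_main : C6 Θ → AllLetters Θ → ∃ vlev slev, ShellSpec Θ vlev slev`.

Vocabulary.  The *sheet through `g` at `x`* is the set of the `g * gw Θ w`, `Path Θ.E x w z`
(this point has position `z` on the sheet).  Two incidences `(g, x)`, `(g, x')` at the same group
element belong to the same sheet iff `Θ.pos x = Θ.pos x'`.
`vlev g` is the level of the vertex `g`, `slev g x` the level of the sheet through `g` at `x`: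
all its vertices have level `slev` or `slev + 1`; those of level `slev` form its attaching set `A`.
-/

namespace Claimed.Agent.R300.Shell

universe u v w

variable {S : Type u} {T : Type v} {Q : Type w}

variable {Θ : RelSys S T Q}

/-- level of a group element -/
noncomputable def vlevG (hC : C6 Θ) (hL : AllLetters Θ) (g : Gam Θ) : ℕ := (phi hC hL g).length

/-- level of the sheet through `g` at `x` -/
noncomputable def slevG (hC : C6 Θ) (hL : AllLetters Θ) (g : Gam Θ) (x : T) : ℕ :=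
  slevR Θ (phi hC hL g) x

/-- the end point of a path of the union issued from `phi g` -/
theorem phi_end (hC : C6 Θ) (hL : AllLetters Θ) (g : Gam Θ) {w : List (S × Bool)} {b : Raw S T}
    (hp : Path (YE Θ) (phi hC hL g) w b) : phi hC hL (g * gw Θ w) = b :=
  (phi_path hC hL g w).det (YE_det hC) hp

/-- an official incidence of the stage `n` has sheet level `< n` -/
theorem slevR_lt_of_off (hC : C6 Θ) {n : ℕ} {z : Raw S T} {x : T} (h : (stg Θ n).Off z x) :
    slevR Θ z x < n := by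
  obtain ⟨-, hpos⟩ := stg_Off_level hC h
  obtain ⟨k, rfl⟩ := Nat.exists_eq_succ_of_ne_zero hpos.ne'
  have hk : k ∈ {n | (stg Θ (n + 1)).Off z x} := h
  exact Nat.lt_succ_of_le (Nat.sInf_le hk)

theorem slevR_off (hC : C6 Θ) {z : Raw S T} (h : YW Θ z) (x : T) :
    (stg Θ (slevR Θ z x + 1)).Off z x :=
  Nat.sInf_mem (s := {n | (stg Θ (n + 1)).Off z x}) ⟨z.length, stg_Off_all hC h x⟩

/-- transport of the location along a path of the sheet -/
theorem slevR_transport (hC : C6 Θ) {a b : Raw S T} (ha : YW Θ a) {x z : T}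
    {w : List (S × Bool)} (hx : Path Θ.E x w z) (hab : Path (YE Θ) a w b) :
    ∃ p x₀ z₀, Canon Θ (stg Θ (slevR Θ a x)) p ∧ Loc Θ (stg Θ (slevR Θ a x)) p x₀ a ∧
      Θ.pos x₀ = Θ.pos x ∧ Path Θ.E x₀ w z₀ ∧ Θ.pos z₀ = Θ.pos z ∧
      Loc Θ (stg Θ (slevR Θ a x)) p z₀ b := by
  obtain ⟨p, x₀, hp, hl, hpos⟩ := slevR_spec hC ha x
  obtain ⟨z₀, hz₀, hz₀'⟩ := pos_path hpos.symm hx
  obtain ⟨z', hl', hpath⟩ := loc_path hp hl hz₀
  have hpath' : Path (YE Θ) a w z' := path_YE (n := slevR Θ a x + 1) hpath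
  obtain rfl : z' = b := hpath'.det (YE_det hC) hab
  exact ⟨p, x₀, z₀, hp, hl, hpos, hz₀, hz₀', hl'⟩

theorem main_embed (hC : C6 Θ) (hL : AllLetters Θ) ⦃x z : T⦄ ⦃w : List (S × Bool)⦄
    (hp : Path Θ.E x w z) (hw : gw Θ w = 1) : z = x := by
  obtain ⟨z', hz'⟩ := Y_run hC (YW_nil (Θ := Θ)) hp
  have h1 := Y_closes_of_gw_eq_one hC hL YW_nil hw hz'
  exact (Y_iff hC YW_nil hp hz').1 h1

theorem main_vlev_zero (hC : C6 Θ) (hL : AllLetters Θ) (g : Gam Θ) :
    vlevG hC hL g = 0 ↔ g = 1 := by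
  unfold vlevG
  constructor
  · intro h
    have h1 : phi hC hL g = [] := List.length_eq_zero_iff.1 h
    have h2 := psi_phi hC hL g
    rw [h1] at h2
    exact h2.symm
  · rintro rfl
    rw [phi_one]
    rfl

theorem main_slev_pos (hC : C6 Θ) (hL : AllLetters Θ) (g : Gam Θ) ⦃x x' : T⦄
    (h : Θ.pos x = Θ.pos x') : slevG hC hL g x = slevG hC hL g x' := by
  unfold slevG slevR
  congr 1
  ext n
  exact ⟨fun ho => (inv_stg hC (n + 1)).Off_pos ho h, fun ho => (inv_stg hC (n + 1)).Off_pos ho h.symm⟩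

theorem main_slev_path (hC : C6 Θ) (hL : AllLetters Θ) (g : Gam Θ) ⦃x z : T⦄
    ⦃w : List (S × Bool)⦄ (hp : Path Θ.E x w z) :
    slevG hC hL (g * gw Θ w) z = slevG hC hL g x := by
  unfold slevG
  obtain ⟨p, x₀, z₀, hcan, -, -, -, hz, hl⟩ :=
    slevR_transport hC (phi_W hC hL g) hp (phi_path hC hL g w)
  exact slevR_unique hC hcan hl hz

theorem main_slev_le (hC : C6 Θ) (hL : AllLetters Θ) (g : Gam Θ) (x : T) :
    slevG hC hL g x ≤ vlevG hC hL g := by
  unfold slevG vlevG slevR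
  exact Nat.sInf_le (stg_Off_all hC (phi_W hC hL g) x)

theorem main_vlev_le (hC : C6 Θ) (hL : AllLetters Θ) (g : Gam Θ) (x : T) :
    vlevG hC hL g ≤ slevG hC hL g x + 1 :=
  (stg_Off_level hC (slevR_off hC (phi_W hC hL g) x)).1

theorem main_att_nonempty (hC : C6 Θ) (hL : AllLetters Θ) (g : Gam Θ) (x : T) :
    ∃ w z, Path Θ.E x w z ∧ vlevG hC hL (g * gw Θ w) = slevG hC hL g x := by
  unfold vlevG slevG
  obtain ⟨p, x₀, hcan, hl, hpos⟩ := slevR_spec hC (phi_W hC hL g) x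
  obtain ⟨u, hu⟩ := loc_conn hl
  obtain ⟨z, hz, -⟩ := pos_path hpos (hu.inv Θ.sym)
  obtain ⟨z', hl', hpath⟩ := loc_path hcan hl (hu.inv Θ.sym)
  have h0 : Loc Θ (stg Θ (slevR Θ (phi hC hL g) x)) p p.2 p.1 := Or.inl (Tr.refl _ _)
  obtain rfl : z' = p.1 := loc_fun (inv_stg hC _) hC hcan hl' h0
  refine ⟨FreeGroup.invRev u, z, hz, ?_⟩
  rw [phi_end hC hL g (path_YE (n := slevR Θ (phi hC hL g) x + 1) hpath)]
  have := hcan.1.1.2
  rwa [stg_n] at this

theorem main_att_conn (hC : C6 Θ) (hL : AllLetters Θ) (g : Gam Θ) ⦃x z : T⦄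
    ⦃u : List (S × Bool)⦄ (h0 : vlevG hC hL g = slevG hC hL g x) (hp : Path Θ.E x u z)
    (h1 : vlevG hC hL (g * gw Θ u) = slevG hC hL g x) :
    ∃ p₁ p₂ z₁, FreeGroup.IsReduced (p₁ ++ p₂) ∧ Path Θ.E x p₁ z₁ ∧ Path Θ.E z₁ p₂ z ∧
      (p₁ = [] ∨ ∃ x₁, slevG hC hL g x₁ < slevG hC hL g x ∧ ∃ e, Path Θ.E x₁ p₁ e) ∧
      (p₂ = [] ∨ ∃ x₂, slevG hC hL (g * gw Θ p₁) x₂ < slevG hC hL g x ∧
        ∃ e, Path Θ.E x₂ p₂ e) := by
  unfold vlevG slevG at *
  obtain ⟨p, x₀, z₀, hcan, hl, hpos, hz₀, hz₀', hl'⟩ :=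
    slevR_transport hC (phi_W hC hL g) hp (phi_path hC hL g u)
  have hI := inv_stg hC (slevR Θ (phi hC hL g) x)
  have ho : LocOld Θ (stg Θ (slevR Θ (phi hC hL g) x)) p x₀ (phi hC hL g) := by
    rcases loc_cases hI hcan hl with h | h
    · exact h.1
    · have := h.2.2
      rw [stg_n] at this
      omega
  have ho' : LocOld Θ (stg Θ (slevR Θ (phi hC hL g) x)) p z₀ (phi hC hL (g * gw Θ u)) := by
    rcases loc_cases hI hcan hl' with h | h
    · exact h.1
    · have := h.2.2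
      rw [stg_n] at this
      omega
  have htask := locOld_task hI hcan ho
  obtain ⟨w, hw, q1, q2⟩ := Tr.exists_reduced hI ((Tr.symm hI ho).trans ho')
  obtain ⟨w₁, w₂, t₁, rfl, r1, r2, c1, c2, -⟩ := tr_two hI hC htask hw q1 q2
  obtain ⟨z'', hz'', -⟩ := pos_path hpos q2
  obtain rfl : z = z'' := pos_same_end hpos hz₀ q2 hp hz''
  obtain ⟨z₁, s1, s2⟩ := path_append_iff.1 hz''
  have ht₁ : phi hC hL (g * gw Θ w₁) = t₁ := phi_end hC hL g (path_YE r1)
  refine ⟨w₁, w₂, z₁, hw, s1, s2, ?_, ?_⟩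
  · rcases c1 with h | ⟨x₁, hx₁, e⟩
    · exact Or.inl h
    · exact Or.inr ⟨x₁, slevR_lt_of_off hC hx₁, e⟩
  · rcases c2 with h | ⟨x₂, hx₂, e⟩
    · exact Or.inl h
    · refine Or.inr ⟨x₂, ?_, e⟩
      rw [ht₁]
      exact slevR_lt_of_off hC hx₂

theorem main_branch (hC : C6 Θ) (hL : AllLetters Θ) (g : Gam Θ) ⦃x x' : T⦄
    (hne : Θ.pos x ≠ Θ.pos x') (hs : slevG hC hL g x = slevG hC hL g x')
    (hv : vlevG hC hL g = slevG hC hL g x + 1) :
    ∃ b a a', b ≠ [] ∧ FreeGroup.IsReduced b ∧ Path Θ.E a b x ∧ Path Θ.E a' b x' ∧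
      vlevG hC hL (g * (gw Θ b)⁻¹) = slevG hC hL g x ∧
      ∀ b₁ b₂, b = b₁ ++ b₂ → b₁ ≠ [] →
        vlevG hC hL (g * (gw Θ b₂)⁻¹) = slevG hC hL g x + 1 := by
  unfold vlevG slevG at *
  have hW := phi_W hC hL g
  have o1 := slevR_off hC hW x
  have o2 := slevR_off hC hW x'
  rw [← hs] at o2
  generalize slevR Θ (phi hC hL g) x = n at *
  have hI := inv_stg hC (n + 1)
  have hV : (stg Θ (n + 1)).V (phi hC hL g) := by
    obtain ⟨m, hm⟩ := hW
    refine ⟨?_, by rw [stg_n]; exact hv⟩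
    rw [← hv]
    exact stg_W_level hC hm
  obtain ⟨y, b, hyb⟩ := hI.shared hV o1 o2 hne
  rw [hyb] at hV o1 o2 hv
  obtain ⟨a, pa, -⟩ := hI.br_off hV o1
  obtain ⟨a', pa', -⟩ := hI.br_off hV o2
  have hylen : y.length = n := by
    simp only [List.length_cons] at hv
    omega
  have hg : psi Θ (Mv.br b :: y) = g := by rw [← hyb]; exact psi_phi hC hL g
  refine ⟨b, a, a', hI.br_ne_nil hV, hI.br_red hV, pa, pa', ?_, ?_⟩
  · have h1 : psi Θ y = g * (gw Θ b)⁻¹ := by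
      rw [← hg, psi]; group
    rw [← h1, phi_psi hC hL ⟨_, (hI.br_low hV).1⟩]
    exact hylen
  · rintro b₁ b₂ rfl hb₁
    have hV₁ := hI.br_prefix hV hb₁
    have h1 : psi Θ (Mv.br b₁ :: y) = g * (gw Θ b₂)⁻¹ := by
      rw [← hg, psi, psi, gw_append]; group
    rw [← h1, phi_psi hC hL ⟨_, hV₁.1⟩, List.length_cons, hylen]

/-- **The shelling theorem.** -/
theorem shell_main (hC : C6 Θ) (hL : AllLetters Θ) :
    ∃ (vlev : Gam Θ → ℕ) (slev : Gam Θ → T → ℕ), ShellSpec Θ vlev slev :=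
  ⟨vlevG hC hL, slevG hC hL,
    { embed := main_embed hC hL
      vlev_zero := main_vlev_zero hC hL
      slev_pos := main_slev_pos hC hL
      slev_path := main_slev_path hC hL
      slev_le := main_slev_le hC hL
      vlev_le := main_vlev_le hC hL
      att_nonempty := main_att_nonempty hC hL
      att_conn := main_att_conn hC hL
      branch := main_branch hC hL }⟩

end Claimed.Agent.R300.Shell
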