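/-
R300, IT black box (c): Osajda-type labelling.  Part 3: graphs given by a family of permutations
(Schreier form), words, runs, traversed edges.  Owner: helper185.
-/
import Mathlib

set_option autoImplicit false

namespace Claimed.Agent.R300

open Finset

section word

variable {J V : Type*}

/-- The permutation attached to a signed letter (`true` = forward). -/
def osaStep (π : J → Equiv.Perm V) (a : J × Bool) : Equiv.Perm V :=
  if a.2 then π a.1 else (π a.1)⁻¹

/-- End point of the path that starts at `x` and follows the shape word `w`. -/
def osaRun (π : J → Equiv.Perm V) : List (J × Bool) → V → V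
  | [], x => x
  | a :: w, x => osaRun π w (osaStep π a x)

/-- The edge traversed when leaving `x` along the letter `a`.  An edge is a pair
(generator, source): it stands for `source ⟶ π generator source`. -/
def osaEdge (π : J → Equiv.Perm V) (a : J × Bool) (x : V) : J × V :=
  (a.1, if a.2 then x else (π a.1)⁻¹ x)

/-- The list of edges traversed by the path from `x` with shape `w`. -/
def osaEdges (π : J → Equiv.Perm V) : List (J × Bool) → V → List (J × V)
  | [], _ => []
  | a :: w, x => osaEdge π a x :: osaEdges π w (osaStep π a x)

/-- No nonempty reduced word of length at most `L` has a fixed point. -/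
def OsaGirth (π : J → Equiv.Perm V) (L : ℕ) : Prop :=
  ∀ w : List (J × Bool), FreeGroup.IsReduced w → w ≠ [] → w.length ≤ L → ∀ x, osaRun π w x ≠ x

variable (π : J → Equiv.Perm V)

@[simp] theorem osaRun_nil (x : V) : osaRun π [] x = x := rfl

@[simp] theorem osaRun_cons (a : J × Bool) (w : List (J × Bool)) (x : V) :
    osaRun π (a :: w) x = osaRun π w (osaStep π a x) := rfl

@[simp] theorem osaEdges_nil (x : V) : osaEdges π [] x = [] := rfl

@[simp] theorem osaEdges_cons (a : J × Bool) (w : List (J × Bool)) (x : V) :
    osaEdges π (a :: w) x = osaEdge π a x :: osaEdges π w (osaStep π a x) := rfl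

theorem osaRun_append (u v : List (J × Bool)) (x : V) :
    osaRun π (u ++ v) x = osaRun π v (osaRun π u x) := by
  induction u generalizing x with
  | nil => rfl
  | cons a u ih => simp [ih]

theorem osaEdges_append (u v : List (J × Bool)) (x : V) :
    osaEdges π (u ++ v) x = osaEdges π u x ++ osaEdges π v (osaRun π u x) := by
  induction u generalizing x with
  | nil => rfl
  | cons a u ih => simp [ih]

@[simp] theorem osaEdges_length (w : List (J × Bool)) (x : V) :
    (osaEdges π w x).length = w.length := by
  induction w generalizing x with
  | nil => rfl
  | cons a w ih => simp [ih]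

theorem osaRun_injective (w : List (J × Bool)) : Function.Injective (osaRun π w) := by
  induction w with
  | nil => exact fun _ _ h => h
  | cons a w ih => exact fun x y h => (osaStep π a).injective (ih h)

theorem osaEdge_injective (a : J × Bool) : Function.Injective (osaEdge π a) := by
  intro x y h
  have h2 := congrArg Prod.snd h
  simp only [osaEdge] at h2
  by_cases ha : a.2
  · simpa [ha] using h2
  · simpa [ha] using h2

theorem osaEdges_take (w : List (J × Bool)) (x : V) (m : ℕ) :
    osaEdges π (w.take m) x = (osaEdges π w x).take m := by
  induction w generalizing x m with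
  | nil => simp
  | cons a w ih =>
    cases m with
    | zero => simp
    | succ m => simp [ih]

theorem osa_mem_edges_iff (w : List (J × Bool)) (x : V) (e : J × V) :
    e ∈ osaEdges π w x ↔
      ∃ u b v, w = u ++ b :: v ∧ e = osaEdge π b (osaRun π u x) := by
  induction w generalizing x with
  | nil => simp
  | cons a w ih =>
    rw [osaEdges_cons, List.mem_cons, ih]
    constructor
    · rintro (h | ⟨u, b, v, rfl, h⟩)
      · exact ⟨[], a, w, rfl, h⟩
      · exact ⟨a :: u, b, v, rfl, h⟩
    · rintro ⟨u, b, v, h, he⟩
      cases u with
      | nil =>
        simp only [List.nil_append, List.cons.injEq] at h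
        obtain ⟨rfl, rfl⟩ := h
        exact Or.inl he
      | cons a' u =>
        simp only [List.cons_append, List.cons.injEq] at h
        obtain ⟨rfl, rfl⟩ := h
        exact Or.inr ⟨u, b, v, rfl, he⟩

/-- Corresponding edges of two paths of the same shape with different origins are different. -/
theorem osaEdges_getElem_ne (w : List (J × Bool)) {x y : V} (hxy : x ≠ y) (t : ℕ)
    (h1 : t < (osaEdges π w x).length) (h2 : t < (osaEdges π w y).length) :
    (osaEdges π w x)[t] ≠ (osaEdges π w y)[t] := by
  induction w generalizing x y t with
  | nil => simp at h1
  | cons a w ih =>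
    cases t with
    | zero =>
      simp only [osaEdges_cons, List.getElem_cons_zero]
      exact fun h => hxy (osaEdge_injective π a h)
    | succ t =>
      simp only [osaEdges_cons, List.getElem_cons_succ]
      exact ih (fun h => hxy ((osaStep π a).injective h)) t _ _

variable {π}

theorem OsaGirth.mono {L L' : ℕ} (h : OsaGirth π L) (hL : L' ≤ L) : OsaGirth π L' :=
  fun w hw hne hl => h w hw hne (hl.trans hL)

/-- A reduced path shorter than the girth traverses pairwise distinct edges. -/
theorem OsaGirth.nodup_edges {L : ℕ} (hg : OsaGirth π L) (w : List (J × Bool))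
    (hw : FreeGroup.IsReduced w) (hl : w.length ≤ L) (x : V) : (osaEdges π w x).Nodup := by
  induction w generalizing x with
  | nil => simp
  | cons a w ih =>
    have hw' : FreeGroup.IsReduced w := hw.infix ⟨[a], [], by simp⟩
    rw [osaEdges_cons, List.nodup_cons]
    refine ⟨?_, ih hw' (by simp at hl; omega) _⟩
    rw [osa_mem_edges_iff]
    rintro ⟨u, b, v, rfl, he⟩
    simp only [List.length_cons, List.length_append] at hl
    have h1 : a.1 = b.1 := congrArg (fun z : J × V => z.1) he
    have h2 := congrArg (fun z : J × V => z.2) he
    simp only [osaEdge] at h2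
    have hau : FreeGroup.IsReduced (a :: u) := hw.infix ⟨[], b :: v, by simp⟩
    have haub : FreeGroup.IsReduced (a :: (u ++ [b])) := hw.infix ⟨[], v, by simp⟩
    have hu : FreeGroup.IsReduced u := hw.infix ⟨[a], b :: v, by simp⟩
    by_cases ha : a.2 <;> by_cases hb : b.2
    · simp only [ha, hb, if_true] at h2
      exact hg (a :: u) hau (by simp) (by simp; omega) x (by rw [osaRun_cons]; exact h2.symm)
    · simp only [ha, hb, if_true, Bool.false_eq_true, if_false] at h2
      refine hg (a :: (u ++ [b])) haub (by simp) (by simp; omega) x ?_
      rw [osaRun_cons, osaRun_append, osaRun_cons, osaRun_nil]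
      have : osaStep π b = (π b.1)⁻¹ := by simp [osaStep, hb]
      rw [this]
      exact h2.symm
    · simp only [ha, hb, if_true, Bool.false_eq_true, if_false] at h2
      have hstep : osaStep π a x = (π a.1)⁻¹ x := by simp [osaStep, ha]
      cases u with
      | nil =>
        simp only [List.nil_append, FreeGroup.isReduced_cons_cons] at hw
        have := hw.1 h1
        rw [hb] at this
        exact ha this
      | cons a' u =>
        refine hg (a' :: u) hu (by simp) (by simp at hl ⊢; omega) (osaStep π a x) ?_
        rw [← h2, hstep]
    · simp only [ha, hb, Bool.false_eq_true, if_false] at h2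
      rw [h1] at h2
      have h3 := (π b.1)⁻¹.injective h2
      exact hg (a :: u) hau (by simp) (by simp; omega) x (by rw [osaRun_cons]; exact h3.symm)

end word

section count

variable {J V : Type*} [Fintype V] [DecidableEq V] [DecidableEq J] (π : J → Equiv.Perm V)

/-- For a fixed shape, at most `|w|` origins lead to a path through a given edge. -/
theorem osa_card_origins_le (w : List (J × Bool)) (e : J × V) :
    (univ.filter fun x : V => e ∈ osaEdges π w x).card ≤ w.length := by
  induction w with
  | nil => simp
  | cons a w ih =>
    have hsub : (univ.filter fun x : V => e ∈ osaEdges π (a :: w) x)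
        ⊆ (univ.filter fun x : V => e = osaEdge π a x) ∪
          (univ.filter fun x : V => e ∈ osaEdges π w (osaStep π a x)) := by
      intro x hx
      simp only [osaEdges_cons, List.mem_cons, Finset.mem_filter, Finset.mem_univ, true_and,
        Finset.mem_union] at hx ⊢
      exact hx
    have h1 : (univ.filter fun x : V => e = osaEdge π a x).card ≤ 1 := by
      rw [Finset.card_le_one]
      intro x hx y hy
      exact osaEdge_injective π a ((Finset.mem_filter.1 hx).2.symm.trans (Finset.mem_filter.1 hy).2)
    have h2 : (univ.filter fun x : V => e ∈ osaEdges π w (osaStep π a x)).card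
        ≤ (univ.filter fun x : V => e ∈ osaEdges π w x).card := by
      refine Finset.card_le_card_of_injOn (osaStep π a) ?_ ((osaStep π a).injective.injOn)
      intro x hx
      simp only [Finset.coe_filter, Finset.mem_univ, true_and, Set.mem_ofPred_eq] at hx ⊢
      exact hx
    calc _ ≤ _ := Finset.card_le_card hsub
      _ ≤ _ := Finset.card_union_le _ _
      _ ≤ 1 + w.length := Nat.add_le_add h1 (h2.trans ih)
      _ = (a :: w).length := by simp [Nat.add_comm]

end count

end Claimed.Agent.R300
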