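import Claimed.Agent.R300.XpMain
import Claimed.Agent.R300.OsaWord
import Claimed.Agent.R300.ExpCheeger

/-!
# Regular expanders of logarithmic girth: export in permutation form

`xp_family` : list-word girth (`OsaGirth`), edge expansion and Laplacian gap for the systems of
permutations of `XpMain`.
-/

namespace Claimed.Agent.R300

open Equiv Finset Xp

set_option linter.unusedSectionVars false

section words

variable {k : ℕ} {V : Type*}

theorem xp_osaStep_eq (π : Fin k → Perm V) (a : Fin k × Bool) : osaStep π a = xp_act π a := rfl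

theorem xp_osaRun_eq (π : Fin k → Perm V) (d : Letter k) (w : List (Fin k × Bool)) (x : V) :
    osaRun π w x = xp_traj π (fun j => w.getD j d) x w.length := by
  induction w generalizing x with
  | nil => rfl
  | cons a w ih =>
    rw [osaRun_cons, ih, List.length_cons, Nat.add_comm, xp_traj_add]
    have e1 : (fun i => (a :: w).getD (1 + i) d) = fun j => w.getD j d := by
      funext i; rw [Nat.add_comm, List.getD_cons_succ]
    rw [e1]
    rfl

theorem xp_red_of_isReduced (d : Letter k) (w : List (Fin k × Bool)) (h : FreeGroup.IsReduced w) :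
    xp_Red (fun j => w.getD j d) w.length := by
  induction w with
  | nil => intro j hj; simp at hj
  | cons a w ih =>
    cases w with
    | nil => intro j hj; simp at hj
    | cons b L =>
      rw [FreeGroup.isReduced_cons_cons] at h
      intro j hj
      cases j with
      | zero =>
        intro e
        simp only [List.getD_cons_succ, List.getD_cons_zero, Nat.zero_add] at e
        have h1 : a.1 = b.1 := by rw [e]; rfl
        have h2 := h.1 h1
        rw [e] at h2
        simp [xp_inv] at h2
      | succ j =>
        have := ih h.2 j (by simpa using hj)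
        simpa using this

theorem xp_osaGirth (π : Fin k → Perm V) (L : ℕ)
    (h : ∀ (W : ℕ → Letter k) (l : ℕ) (z : V), 1 ≤ l → l ≤ L → xp_Red W l → xp_traj π W z l ≠ z) :
    OsaGirth π L := by
  intro w hw hne hlen x
  obtain ⟨a, w', rfl⟩ := List.exists_cons_of_ne_nil hne
  rw [xp_osaRun_eq π a]
  exact h _ _ x (by simp) hlen (xp_red_of_isReduced a _ hw)

end words

section gap

variable {k : ℕ} {V : Type*} [DecidableEq V] [Fintype V]

theorem xp_chVol (π : Fin k → Perm V) (Z : Finset V) :
    chVol (fun e : Fin k × V => e.2) (fun e : Fin k × V => π e.1 e.2) Z = 2 * k * Z.card := by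
  have h1 : (univ.filter fun e : Fin k × V => e.2 ∈ Z) = univ ×ˢ Z := by
    ext e; simp
  have h2 : (univ.filter fun e : Fin k × V => π e.1 e.2 ∈ Z).card = k * Z.card := by
    have : (univ.filter fun e : Fin k × V => π e.1 e.2 ∈ Z) =
        (univ ×ˢ Z).image (fun e : Fin k × V => (e.1, (π e.1)⁻¹ e.2)) := by
      ext e
      simp only [mem_filter, mem_univ, true_and, mem_image, mem_product, Prod.exists]
      constructor
      · intro h; exact ⟨e.1, π e.1 e.2, h, by simp⟩
      · rintro ⟨i, a, ha, rfl⟩; simpa using ha
    rw [this, card_image_of_injective, card_product, card_univ, Fintype.card_fin]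
    rintro ⟨i, a⟩ ⟨j, b⟩ h
    simp only [Prod.mk.injEq] at h
    obtain ⟨rfl, h⟩ := h
    simpa using h
  rw [chVol, h1, h2, card_product, card_univ, Fintype.card_fin]
  ring

theorem xp_chCut (π : Fin k → Perm V) (Z : Finset V) :
    chCut (fun e : Fin k × V => e.2) (fun e : Fin k × V => π e.1 e.2) Z = 2 * xp_out π Z := by
  have hi : ∀ i : Fin k, (univ.filter fun a : V => ¬ (a ∈ Z ↔ π i a ∈ Z)).card =
      2 * (Z.filter (fun a => π i a ∉ Z)).card := by
    intro i
    have hsplit : (univ.filter fun a : V => ¬ (a ∈ Z ↔ π i a ∈ Z)) =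
        Z.filter (fun a => π i a ∉ Z) ∪ (univ.filter fun a : V => a ∉ Z ∧ π i a ∈ Z) := by
      ext a
      simp only [mem_filter, mem_univ, true_and, mem_union]
      tauto
    have hdisj : Disjoint (Z.filter (fun a => π i a ∉ Z))
        (univ.filter fun a : V => a ∉ Z ∧ π i a ∈ Z) := by
      rw [disjoint_left]
      intro a ha hb
      simp only [mem_filter, mem_univ, true_and] at ha hb
      exact hb.1 ha.1
    have e1 : (Z.filter (fun a => π i a ∈ Z)).card + (Z.filter (fun a => π i a ∉ Z)).card
        = Z.card := card_filter_add_card_filter_not (s := Z) (fun a => π i a ∈ Z)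
    have e2 : (Z.filter (fun a => π i a ∈ Z)).card +
        (univ.filter fun a : V => a ∉ Z ∧ π i a ∈ Z).card = Z.card := by
      have : (univ.filter fun a : V => π i a ∈ Z).card = Z.card := by
        have : (univ.filter fun a : V => π i a ∈ Z) = Z.image (fun a => (π i)⁻¹ a) := by
          ext a
          simp only [mem_filter, mem_univ, true_and, mem_image]
          constructor
          · intro h; exact ⟨π i a, h, by simp⟩
          · rintro ⟨b, hb, rfl⟩; simpa using hb
        rw [this, card_image_of_injective _ (π i)⁻¹.injective]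
      rw [← this, ← card_union_of_disjoint]
      · congr 1
        ext a
        simp only [mem_filter, mem_univ, true_and, mem_union]
        tauto
      · rw [disjoint_left]
        intro a ha hb
        simp only [mem_filter, mem_univ, true_and] at ha hb
        exact hb.1 ha.1
    rw [hsplit, card_union_of_disjoint hdisj]
    omega
  have : (univ.filter fun e : Fin k × V => ¬ (e.2 ∈ Z ↔ π e.1 e.2 ∈ Z)).card =
      ∑ i : Fin k, (univ.filter fun a : V => ¬ (a ∈ Z ↔ π i a ∈ Z)).card := by
    rw [card_filter, ← univ_product_univ, sum_product]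
    apply sum_congr rfl
    intro i _
    rw [card_filter]
  rw [chCut, this, xp_out, mul_sum]
  exact sum_congr rfl (fun i _ => hi i)

/-- Cheeger: edge expansion gives a Laplacian gap (permutation form) -/
theorem xp_gap (π : Fin k → Perm V) (hk : 0 < k)
    (hexp : ∀ W : Finset V, 2 * W.card ≤ Fintype.card V → W.card ≤ 8 * xp_out π W)
    (F : V → ℝ) (hF : ∑ v, F v = 0) :
    1 / (64 * (k : ℝ)) * ∑ v, F v ^ 2 ≤ ∑ i, ∑ a, (F a - F (π i a)) ^ 2 := by
  have hk' : (0 : ℝ) < k := by exact_mod_cast hk
  have hsumy : ∀ (φ : V → ℝ), ∑ e : Fin k × V, φ (π e.1 e.2) = k * ∑ v, φ v := by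
    intro φ
    rw [← univ_product_univ, sum_product]
    have : ∀ i : Fin k, ∑ a, φ (π i a) = ∑ v, φ v := fun i => Equiv.sum_comp (π i) φ
    simp [this]
  have hsumx : ∀ (φ : V → ℝ), ∑ e : Fin k × V, φ e.2 = k * ∑ v, φ v := by
    intro φ
    rw [← univ_product_univ, sum_product]
    simp
  have h := ch_cheeger (fun e : Fin k × V => e.2) (fun e : Fin k × V => π e.1 e.2)
    (1 / (8 * k)) (by positivity) ?_ F ?_
  · rw [sum_add_distrib, hsumx (fun v => F v ^ 2), hsumy (fun v => F v ^ 2)] at h
    rw [← univ_product_univ, sum_product] at h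
    refine le_trans (le_of_eq ?_) h
    field_simp
    ring
  · intro Z hZ
    rw [xp_chVol, xp_chCut]
    rw [xp_chVol, Fintype.card_prod, Fintype.card_fin] at hZ
    have hZ' : 2 * Z.card ≤ Fintype.card V := by
      have : k * (2 * Z.card) ≤ k * Fintype.card V := by
        calc k * (2 * Z.card) = 2 * k * Z.card := by ring
          _ ≤ _ := hZ
      exact Nat.le_of_mul_le_mul_left this hk
    have h1 : (Z.card : ℝ) ≤ 8 * (xp_out π Z : ℝ) := by exact_mod_cast hexp Z hZ'
    push_cast
    have : 1 / (8 * (k : ℝ)) * (2 * k * Z.card) = Z.card / 4 := by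
      field_simp; ring
    rw [this]
    linarith
  · rw [sum_add_distrib, hsumx F, hsumy F, hF]; simp

end gap

/-- **Export (permutation form).**  For every `G` there are 64 permutations of a set with
`128 ^ (4 G + 5)` elements such that: no nonempty reduced word of length `≤ G + 1` has a fixed
point; every set `W` of at most half the size has at least `|W| / 8` outgoing slots; and the
Laplacian has gap `1 / 4096` off the constants. -/
theorem xp_family (G : ℕ) :
    ∃ π : Fin 64 → Perm (Fin (128 ^ (4 * G + 5))),
      OsaGirth π (G + 1) ∧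
      (∀ W : Finset (Fin (128 ^ (4 * G + 5))), 2 * W.card ≤ 128 ^ (4 * G + 5) →
        W.card ≤ 8 * ∑ i, (W.filter (fun a => π i a ∉ W)).card) ∧
      (∀ F : Fin (128 ^ (4 * G + 5)) → ℝ, ∑ v, F v = 0 →
        1 / 4096 * ∑ v, F v ^ 2 ≤ ∑ i, ∑ a, (F a - F (π i a)) ^ 2) := by
  obtain ⟨π, h1, h2⟩ := xp_exists G
  refine ⟨π, xp_osaGirth π (G + 1) h1, h2, ?_⟩
  intro F hF
  have := xp_gap π (by norm_num) (by simpa using h2) F hF
  norm_num at this ⊢
  linarith

end Claimed.Agent.R300
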