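/-
Row 300 (S0552, irrational trace), IT front end glue (IT-DATA), owner helper47.  Prefix `itge`.

Choice of the parameters, instantiation of the three black boxes (expanders of logarithmic girth
`xp_family`, labelling `osa_labelling`, shelling `shell_main`) and the final assembly
`itge_data_exists` = `it_data_exists` of `ItTop.lean`.

The parameters `ℓ i = i + 1400` (bound for the length of pieces) and `G i = 24 * ℓ i` (girth) are kept
as variables with their defining equations as hypotheses, so that nothing is ever evaluated.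
-/
import Claimed.Agent.R300.ItGeoE
import Claimed.Agent.R300.ItGeoLeaf
import Claimed.Agent.R300.XpOsa
import Claimed.Agent.R300.ShellMain

set_option autoImplicit false

namespace Claimed.Agent.R300

open Shell

section num

variable (ℓ G : ℕ → ℕ) (hℓ : ∀ i, ℓ i = i + 1400) (hG : ∀ i, G i = 24 * ℓ i)

include hℓ in
theorem itge_l_strictMono : StrictMono ℓ := fun a b h => by rw [hℓ, hℓ]; omega

include hℓ hG in
theorem itge_N_le (i : ℕ) : 128 ^ (4 * G i + 5) ≤ (128 ^ 101) ^ ℓ i := by
  rw [← pow_mul]
  apply Nat.pow_le_pow_right (by norm_num)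
  rw [hG, hℓ]
  omega

theorem itge_N_half (m : ℕ) : 128 ^ (m + 5) / 2 = 64 * 128 ^ (m + 4) := by
  rw [show m + 5 = (m + 4) + 1 from rfl, pow_succ]
  omega

include hℓ hG in
theorem itge_half_lt (i : ℕ) : 2 * (128 ^ (4 * G i + 5) / 2) ≤ 128 ^ (4 * G (i + 1) + 5) / 2 := by
  rw [itge_N_half, itge_N_half]
  have h : 4 * G (i + 1) + 4 = (4 * G i + 4) + 1 + 95 := by
    rw [hG, hG, hℓ, hℓ]; omega
  have h0 : 128 ^ (4 * G (i + 1) + 4) = 128 ^ (4 * G i + 4) * 128 * 128 ^ 95 := by
    rw [h, pow_add, pow_succ]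
  rw [h0]
  generalize 128 ^ (4 * G i + 4) = X
  have h1 : 0 < 128 ^ 95 := by positivity
  generalize 128 ^ 95 = Y at h1 ⊢
  have h2 : X * 128 * 1 ≤ X * 128 * Y := Nat.mul_le_mul_left _ h1
  omega

include hℓ hG in
theorem itge_half_ge (i : ℕ) : i + 1 ≤ 128 ^ (4 * G i + 5) / 2 := by
  induction i with
  | zero =>
    rw [itge_N_half]
    have : 0 < 128 ^ (4 * G 0 + 4) := by positivity
    omega
  | succ i ih =>
    have := itge_half_lt ℓ G hℓ hG i
    omega

/-- the expanders, instantiated. -/
theorem itge_family : ∃ (π : ∀ i, Fin 64 → Equiv.Perm (Fin (128 ^ (4 * G i + 5)))),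
    (∀ i, OsaGirth (π i) (G i + 1)) ∧
    (∀ i (W : Finset (Fin (128 ^ (4 * G i + 5)))),
      2 * W.card ≤ Fintype.card (Fin (128 ^ (4 * G i + 5))) →
      (1 / 8 : ℝ) * W.card ≤ ((∑ j, (W.filter (fun a => π i j a ∉ W)).card : ℕ) : ℝ)) ∧
    (∀ i (F : Fin (128 ^ (4 * G i + 5)) → ℝ), ∑ v, F v = 0 →
      (1 / 4096 : ℝ) * ∑ v, F v ^ 2 ≤ ∑ j, ∑ a, (F a - F (π i j a)) ^ 2) := by
  choose π h1 h2 h3 using fun i => xp_family (G i)
  refine ⟨π, h1, ?_, h3⟩
  intro i W hW
  rw [Fintype.card_fin] at hW
  have := h2 i W hW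
  have h4 : (W.card : ℝ) ≤ 8 * ((∑ j, (W.filter (fun a => π i j a ∉ W)).card : ℕ) : ℝ) := by
    exact_mod_cast this
  linarith

include hℓ hG in
theorem itge_data_exists_aux : ∃ (L Γ : Type) (_ : Fintype L) (_ : Group Γ) (Vt : ℕ → Type)
    (_ : ∀ i, Fintype (Vt i)) (D : ItGraphs L Γ Vt), D.Good := by
  classical
  have hmono := itge_l_strictMono ℓ hℓ
  obtain ⟨π, hgirth, hexp, hgap⟩ := itge_family G
  obtain ⟨q, c, hPC⟩ := osa_labelling π ℓ hmono (by rw [hℓ]; omega) (128 ^ 101)
    (fun i => by rw [Fintype.card_fin]; exact itge_N_le ℓ G hℓ hG i)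
    (fun i => (hgirth i).mono (by rw [hG]; omega))
  have hPC' : OsaPC π c ℓ := hPC
  have hC6 : C6 (osaRelSys π c) :=
    hPC'.c6 hmono.monotone (fun i => (hgirth i).mono (by rw [hG]; omega))
  obtain ⟨vlev, slev, H⟩ := shell_main hC6 (osa_allLetters π c)
  obtain ⟨base, -⟩ : ∃ base : ∀ i, Fin (128 ^ (4 * G i + 5)), True :=
    ⟨fun i => ⟨0, by positivity⟩, trivial⟩
  obtain ⟨σ, hσ⟩ : ∃ σ : ℕ → ℕ, ∀ i, σ i = G i + 2 := ⟨fun i => G i + 2, fun _ => rfl⟩
  have hconn : ItgConn π base := fun i v =>
    itge_conn_single (π i) (1 / 8) (by norm_num) (hexp i) (base i) v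
  have hk : ∀ i, (itgD π c base σ (1 / 8) (1 / 4096)).k i = 128 ^ (4 * G i + 5) / 2 := by
    intro i
    simp only [ItGraphs.k, Fintype.card_fin]
  refine ⟨OsaLetter c × Bool, Gam (osaRelSys π c), Fintype.ofFinite _, inferInstance,
    fun i => Fin (128 ^ (4 * G i + 5)), fun i => inferInstance,
    itgD π c base σ (1 / 8) (1 / 4096), ?_⟩
  exact
    { inv_inv := itg_inv_inv π c base σ _ _
      inv_ne := itg_inv_ne π c base σ _ _
      val_inv := itg_val_inv π c base σ _ _
      gen := itg_gen π c base σ _ _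
      three_le := by simp [itgD]
      J_card := itg_J_card π c base σ _ _
      nb_inv := itg_nb_inv π c base σ _ _
      φ_nb := hconn.φ_nb σ _ _
      φ_inj := hconn.φ_inj σ _ _ H
      univ := fun K _ f hf hrel => itg_univ σ _ _ K f hf hrel
      leaf := hconn.leaf σ _ _ H hPC' hmono.monotone (fun i => by rw [hσ, hG]; omega)
      ρ_pos := by simp [itgD]
      κ_pos := by simp [itgD]
      poincare := fun i f hf => itge_poincare π c base σ _ _ i (hgap i) f hf
      expansion := fun i W => itge_expansion π c base σ _ _ i (by norm_num) (hexp i) W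
      girth := fun i v w hne hred hok hrun =>
        itge_girth π c base σ _ _ i (G i + 1) (hgirth i) (by rw [hσ]) v w hne hred hok hrun
      ball_small := by
        intro i b
        have h1 := itge_ball_card π c base σ (1 / 8) (1 / 4096) (by simp) i b
        rw [Fintype.card_fin] at h1 ⊢
        have h2 : (2 * 64) ^ (σ i / 8 + 1) * 128 ≤ 128 ^ (4 * G i + 5) := by
          rw [← pow_succ]
          apply Nat.pow_le_pow_right (by norm_num)
          rw [hσ]
          omega
        generalize (2 * 64) ^ (σ i / 8 + 1) = X at h1 h2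
        refine lt_of_lt_of_le ?_ h2
        omega
      card_gt := by
        intro i
        rw [Fintype.card_fin]
        calc 100 < 128 ^ 1 := by norm_num
          _ ≤ _ := Nat.pow_le_pow_right (by norm_num) (by omega)
      σ_gt := by
        intro i
        show 16 < σ i
        rw [hσ, hG, hℓ]
        omega
      σ_c := by
        intro i
        have h1 : (itgD π c base σ (1 / 8) (1 / 4096)).c = 1 / 1600 := by
          simp only [ItGraphs.c, itgD]
          rw [min_eq_left (by norm_num)]
          norm_num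
        rw [h1]
        have h2 : (33602 : ℝ) ≤ ((itgD π c base σ (1 / 8) (1 / 4096)).σ i : ℝ) := by
          have : 33602 ≤ σ i := by rw [hσ, hG, hℓ]; omega
          exact_mod_cast this
        linarith
      k_mono := by
        apply strictMono_nat_of_lt_succ
        intro i
        rw [hk, hk]
        have := itge_half_lt ℓ G hℓ hG i
        have := itge_half_ge ℓ G hℓ hG i
        omega
      k_gap := by
        apply Filter.tendsto_atTop_mono _ Filter.tendsto_id
        intro i
        rw [hk, hk]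
        have := itge_half_lt ℓ G hℓ hG i
        have := itge_half_ge ℓ G hℓ hG i
        simp only [id]
        omega }

end num

/-- **IT-DATA**: the front end of the irrational trace construction. -/
theorem itge_data_exists : ∃ (L Γ : Type) (_ : Fintype L) (_ : Group Γ) (Vt : ℕ → Type)
    (_ : ∀ i, Fintype (Vt i)) (D : ItGraphs L Γ Vt), D.Good :=
  itge_data_exists_aux (fun i => i + 1400) (fun i => 24 * (i + 1400)) (fun _ => rfl) (fun _ => rfl)

end Claimed.Agent.R300
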