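/-
Row 300 (S0552), IT back end, leaf IT-MOD (Lemma 4.2 of the paper), owner helper179.  Prefix `itm`.

A relation of `W_0` which is supported on one copy is a dual codeword of this copy.
-/
import Claimed.Agent.R300.ItCodeDef

set_option autoImplicit false
set_option linter.unusedSectionVars false

namespace Claimed.Agent.R300

section

variable {L Γ : Type} [Group Γ] {Vt : ℕ → Type} [∀ i, Fintype (Vt i)]
  (D : ItGraphs L Γ Vt) {p : ℕ} (K : ItCode L Vt p)

theorem itm_pt_injective (hD : D.Good) (q : Γ × ℕ) : Function.Injective (D.pt q) := by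
  intro v v' h
  exact hD.φ_inj q.2 (mul_left_cancel h)

theorem itm_emb_pt (hD : D.Good) (q : Γ × ℕ) (y : Vt q.2 → ZMod p) (v : Vt q.2) :
    K.emb D q y (D.pt q v) = y v := by
  classical
  rw [ItCode.emb_apply, Finsupp.finsetSum_apply, Finset.sum_eq_single v]
  · simp
  · intro v' _ hne
    rw [Finsupp.single_apply, if_neg]
    exact fun h => hne (itm_pt_injective D hD q h)
  · intro h
    exact absurd (Finset.mem_univ v) h

theorem itm_emb_off (q : Γ × ℕ) (y : Vt q.2 → ZMod p) (h : Γ) (hh : ∀ v, D.pt q v ≠ h) :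
    K.emb D q y h = 0 := by
  classical
  rw [ItCode.emb_apply, Finsupp.finsetSum_apply]
  refine Finset.sum_eq_zero fun v _ => ?_
  rw [Finsupp.single_apply, if_neg (hh v)]

theorem itm_emb_injective (hD : D.Good) (q : Γ × ℕ) : Function.Injective (K.emb D q) := by
  intro y y' h
  funext v
  rw [← itm_emb_pt D K hD q y v, h, itm_emb_pt D K hD q y' v]

/-- elements of `W_0` are finite sums of embedded dual codewords. -/
theorem itm_W0_repr (x : Γ →₀ ZMod p) (hx : x ∈ K.W0 D) :
    ∃ (F : Finset (Γ × ℕ)) (y : ∀ Q : Γ × ℕ, Vt Q.2 → ZMod p), (∀ Q, y Q ∈ K.dual Q.2) ∧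
      (∀ Q, Q ∉ F → y Q = 0) ∧ x = ∑ Q ∈ F, K.emb D Q (y Q) := by
  classical
  unfold ItCode.W0 at hx
  induction hx using Submodule.iSup_induction' with
  | mem q x hx =>
    obtain ⟨y, hy, rfl⟩ := hx
    refine ⟨{q}, Function.update (fun _ => 0) q y, ?_, ?_, ?_⟩
    · intro Q
      by_cases h : Q = q
      · subst h
        rw [Function.update_self]
        exact hy
      · rw [Function.update_of_ne h]
        exact zero_mem _
    · intro Q hQ
      rw [Finset.mem_singleton] at hQ
      rw [Function.update_of_ne hQ]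
    · rw [Finset.sum_singleton, Function.update_self]
  | zero => exact ⟨∅, fun _ => 0, fun _ => zero_mem _, fun _ _ => rfl, by simp⟩
  | add x₁ x₂ _ _ h₁ h₂ =>
    obtain ⟨F₁, y₁, a₁, b₁, rfl⟩ := h₁
    obtain ⟨F₂, y₂, a₂, b₂, rfl⟩ := h₂
    refine ⟨F₁ ∪ F₂, fun Q => y₁ Q + y₂ Q, fun Q => add_mem (a₁ Q) (a₂ Q), ?_, ?_⟩
    · intro Q hQ
      rw [Finset.mem_union, not_or] at hQ
      show y₁ Q + y₂ Q = 0
      rw [b₁ Q hQ.1, b₂ Q hQ.2, add_zero]
    · simp only [map_add, Finset.sum_add_distrib]
      congr 1
      · refine Finset.sum_subset Finset.subset_union_left fun Q _ hQ => ?_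
        rw [b₁ Q hQ, map_zero]
      · refine Finset.sum_subset Finset.subset_union_right fun Q _ hQ => ?_
        rw [b₂ Q hQ, map_zero]

/-- the peeling induction. -/
theorem itm_peel (hD : D.Good) (hK : K.Good D) (q : Γ × ℕ) (z : Vt q.2 → ZMod p) (n : ℕ) :
    ∀ (F : Finset (Γ × ℕ)) (y : ∀ Q : Γ × ℕ, Vt Q.2 → ZMod p), F.card = n →
      (∀ Q, y Q ∈ K.dual Q.2) → K.emb D q z = ∑ Q ∈ F, K.emb D Q (y Q) → z ∈ K.dual q.2 := by
  classical
  induction n with
  | zero =>
    intro F y hF _ hz
    rw [Finset.card_eq_zero] at hF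
    subst hF
    rw [Finset.sum_empty, ← map_zero (K.emb D q)] at hz
    rw [itm_emb_injective D K hD q hz]
    exact zero_mem _
  | succ n ih =>
    intro F y hF hy hz
    by_cases hsub : ∀ Q ∈ F, Q = q
    · -- `F = {q}`
      have hFq : F = {q} := by
        apply Finset.eq_singleton_iff_unique_mem.2
        refine ⟨?_, hsub⟩
        have : F.Nonempty := by
          rw [← Finset.card_pos]; omega
        obtain ⟨Q, hQ⟩ := this
        rwa [hsub Q hQ] at hQ
      rw [hFq, Finset.sum_singleton] at hz
      rw [itm_emb_injective D K hD q hz]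
      exact hy q
    · push Not at hsub
      obtain ⟨Q0, hQ0, hne0⟩ := hsub
      have hcard : 2 ≤ (insert q F).card := by
        have h1 : ({q, Q0} : Finset (Γ × ℕ)) ⊆ insert q F := by
          intro a ha
          rw [Finset.mem_insert, Finset.mem_singleton] at ha
          rcases ha with rfl | rfl
          · exact Finset.mem_insert_self _ _
          · exact Finset.mem_insert_of_mem hQ0
        have h2 : ({q, Q0} : Finset (Γ × ℕ)).card = 2 := Finset.card_pair (Ne.symm hne0)
        calc 2 = _ := h2.symm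
          _ ≤ _ := Finset.card_le_card h1
      obtain ⟨Q, hQ, hQq, b, hb⟩ := hD.leaf (insert q F) q (Finset.mem_insert_self _ _) hcard
      have hQF : Q ∈ F := by
        rcases Finset.mem_insert.1 hQ with h | h
        · exact absurd h hQq
        · exact h
      have hy0 : y Q = 0 := by
        by_contra hne
        have h1 := hK.ddist Q.2 (y Q) (hy Q) hne
        have h2 := hD.ball_small Q.2 b
        have h3 : (D.ball Q.2 b).ncard < ItCode.wt (y Q) := by omega
        obtain ⟨v, hv1, hv2⟩ : ∃ v, y Q v ≠ 0 ∧ v ∉ D.ball Q.2 b := by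
          by_contra hcon
          push Not at hcon
          have : {v | y Q v ≠ 0} ⊆ D.ball Q.2 b := fun v hv => hcon v hv
          have := Set.ncard_le_ncard this (Set.toFinite _)
          unfold ItCode.wt at h3
          omega
        apply hv1
        have e1 : K.emb D q z (D.pt Q v) = 0 := by
          apply itm_emb_off
          intro v' hv'
          exact hv2 (hb q (Finset.mem_insert_self _ _) (Ne.symm hQq) v v' hv'.symm)
        rw [hz, Finsupp.finsetSum_apply, Finset.sum_eq_single Q] at e1
        · rwa [itm_emb_pt D K hD] at e1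
        · intro Q' hQ' hne'
          apply itm_emb_off
          intro v' hv'
          exact hv2 (hb Q' (Finset.mem_insert_of_mem hQ') hne' v v' hv'.symm)
        · intro h
          exact absurd hQF h
      refine ih (F.erase Q) y ?_ hy ?_
      · rw [Finset.card_erase_of_mem hQF, hF]
        rfl
      · rw [hz, ← Finset.add_sum_erase F _ hQF, hy0, map_zero, zero_add]

/-- **IT-MOD** (Lemma 4.2): a relation supported on one copy is a dual codeword of this copy. -/
theorem itm_module_inter (hD : D.Good) (hK : K.Good D) (q : Γ × ℕ) (z : Vt q.2 → ZMod p)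
    (hz : K.emb D q z ∈ K.W0 D) : z ∈ K.dual q.2 := by
  obtain ⟨F, y, hy, -, he⟩ := itm_W0_repr D K _ hz
  exact itm_peel D K hD hK q z F.card F y rfl hy he

end

end Claimed.Agent.R300
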