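/-
Row 300 (S0552), IT back end, leaf IT-RES+MARG (Lemma 4.3 of the paper), owner helper179.
Prefix `itr`.

* `itr_res_mem`  : the restriction of a pattern of `Ω` to a copy is a codeword;
* `itr_res_surj` : every codeword is such a restriction (uses IT-MOD);
* `itr_marginal` : the restriction to a copy is uniformly distributed on the code.
-/
import Claimed.Agent.R300.ItmMod

set_option autoImplicit false
set_option linter.unusedSectionVars false

namespace Claimed.Agent.R300

open MeasureTheory

section

variable {L Γ : Type} [Group Γ] {Vt : ℕ → Type} [∀ i, Fintype (Vt i)]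
  (D : ItGraphs L Γ Vt) {p : ℕ} [Fact p.Prime] (K : ItCode L Vt p)

theorem itr_pair_emb (X : Γ → ZMod p) (q : Γ × ℕ) (z : Vt q.2 → ZMod p) :
    itPair X (K.emb D q z) = ∑ v, z v * X (D.pt q v) := by
  rw [ItCode.emb_apply, map_sum]
  exact Finset.sum_congr rfl fun v _ => itPair_single _ _ _

/-- double dual in finite dimension. -/
theorem itr_double_dual (i : ℕ) (x : Vt i → ZMod p)
    (hx : ∀ z ∈ K.dual i, ∑ v, z v * x v = 0) : x ∈ K.C i := by
  classical
  by_contra hn
  obtain ⟨f, hf1, hf2⟩ := Submodule.exists_le_ker_of_notMem hn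
  have hf : ∀ y : Vt i → ZMod p, f y = ∑ v, f (Pi.single v 1) * y v := by
    intro y
    rw [LinearMap.pi_apply_eq_sum_univ f y]
    refine Finset.sum_congr rfl fun v _ => ?_
    rw [smul_eq_mul, mul_comm]
    congr 2
    funext u
    simp [Pi.single_apply, eq_comm]
  apply hf1
  rw [hf x]
  apply hx
  intro c hc
  rw [← hf c]
  exact hf2 hc

/-- **IT-RES** (Lemma 4.3, first half). -/
theorem itr_res_mem (X : (K.mod D).Om) (q : Γ × ℕ) : (fun v => X.1 (D.pt q v)) ∈ K.C q.2 := by
  apply itr_double_dual
  intro z hz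
  rw [← itr_pair_emb D K X.1 q z]
  apply X.2
  exact Submodule.mem_iSup_of_mem (p := fun q : Γ × ℕ => (K.dual q.2).map (K.emb D q)) q
    ⟨z, hz, rfl⟩

/-- every codeword is the restriction of a pattern of `Ω`. -/
theorem itr_res_surj (hD : D.Good) (hK : K.Good D) (q : Γ × ℕ) (a : Vt q.2 → ZMod p)
    (ha : a ∈ K.C q.2) : ∃ X : (K.mod D).Om, ∀ v, X.1 (D.pt q v) = a v := by
  classical
  set e : (Vt q.2 → ZMod p) →ₗ[ZMod p] ((Γ →₀ ZMod p) ⧸ K.W0 D) :=
    (K.W0 D).mkQ.comp (K.emb D q) with he
  set φ : Module.Dual (ZMod p) (Vt q.2 → ZMod p) :=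
    { toFun := fun z => ∑ v, z v * a v
      map_add' := by
        intro x y
        simp only [Pi.add_apply, add_mul, Finset.sum_add_distrib]
      map_smul' := by
        intro r x
        simp only [Pi.smul_apply, smul_eq_mul, mul_assoc, Finset.mul_sum, RingHom.id_apply] }
    with hφ
  have hmem : φ ∈ (LinearMap.ker e).dualAnnihilator := by
    rw [Submodule.mem_dualAnnihilator]
    intro z hz
    rw [LinearMap.mem_ker, he, LinearMap.comp_apply, Submodule.mkQ_apply,
      Submodule.Quotient.mk_eq_zero] at hz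
    exact itm_module_inter D K hD hK q z hz a ha
  rw [← LinearMap.range_dualMap_eq_dualAnnihilator_ker] at hmem
  obtain ⟨g, hg⟩ := hmem
  have hg' : ∀ z, g (e z) = φ z := fun z => by rw [← hg]; rfl
  have hpair : ∀ y : Γ →₀ ZMod p,
      itPair (fun h => g ((K.W0 D).mkQ (Finsupp.single h 1))) y = g ((K.W0 D).mkQ y) := by
    intro y
    induction y using Finsupp.induction_linear with
    | zero => simp
    | add a b ha hb => rw [map_add, map_add, map_add, ha, hb]
    | single h a =>
      rw [itPair_single]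
      have : Finsupp.single h a = a • Finsupp.single h (1 : ZMod p) := by simp
      rw [this, map_smul, map_smul, smul_eq_mul]
  refine ⟨⟨fun h => g ((K.W0 D).mkQ (Finsupp.single h 1)), ?_⟩, ?_⟩
  · intro y hy
    rw [hpair]
    have hy' : y ∈ K.W0 D := hy
    have : (K.W0 D).mkQ y = 0 := by
      rw [Submodule.mkQ_apply, Submodule.Quotient.mk_eq_zero]; exact hy'
    rw [this, map_zero]
  · intro v
    show g ((K.W0 D).mkQ (Finsupp.single (D.pt q v) 1)) = a v
    have h1 : K.emb D q (Pi.single v 1) = Finsupp.single (D.pt q v) 1 := by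
      rw [ItCode.emb_apply, Finset.sum_eq_single v]
      · simp
      · intro u _ hu
        rw [Pi.single_eq_of_ne hu, Finsupp.single_zero]
      · intro h
        exact absurd (Finset.mem_univ v) h
    rw [← h1]
    have h2 := hg' (Pi.single v 1)
    rw [he, LinearMap.comp_apply] at h2
    rw [h2]
    show ∑ u, (Pi.single v 1 : Vt q.2 → ZMod p) u * a u = a v
    rw [Finset.sum_eq_single v]
    · simp
    · intro u _ hu
      rw [Pi.single_eq_of_ne hu, zero_mul]
    · intro h
      exact absurd (Finset.mem_univ v) h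

/-- the fibre of the restriction map. -/
def itrFib (q : Γ × ℕ) (a : Vt q.2 → ZMod p) : Set (K.mod D).Om :=
  {X | ∀ v, X.1 (D.pt q v) = a v}

theorem itrFib_measurable (q : Γ × ℕ) (a : Vt q.2 → ZMod p) :
    MeasurableSet (itrFib D K q a) := by
  have : itrFib D K q a = ⋂ v, {X : (K.mod D).Om | X.1 (D.pt q v) = a v} := by
    ext X
    simp only [Set.mem_iInter]
    rfl
  rw [this]
  refine MeasurableSet.iInter fun v => ?_
  apply IsClosed.measurableSet
  exact isClosed_eq ((continuous_apply _).comp continuous_subtype_val) continuous_const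

/-- all fibres over codewords have the same measure. -/
theorem itrFib_measure_eq (hD : D.Good) (hK : K.Good D) (q : Γ × ℕ) (a b : Vt q.2 → ZMod p)
    (ha : a ∈ K.C q.2) (hb : b ∈ K.C q.2) :
    (K.mod D).haar (itrFib D K q a) = (K.mod D).haar (itrFib D K q b) := by
  obtain ⟨X0, hX0⟩ := itr_res_surj D K hD hK q (b - a) (sub_mem hb ha)
  rw [← measure_preimage_add (K.mod D).haar X0 (itrFib D K q b)]
  congr 1
  ext X
  simp only [itrFib, Set.mem_preimage]
  constructor
  · intro h v
    show X0.1 (D.pt q v) + X.1 (D.pt q v) = b v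
    rw [hX0 v, h v]
    simp
  · intro h v
    have h1 : X0.1 (D.pt q v) + X.1 (D.pt q v) = b v := h v
    rw [hX0 v] at h1
    have : (b - a) v = b v - a v := rfl
    rw [this] at h1
    linear_combination h1

/-- **IT-MARG** (Lemma 4.3): uniform marginals. -/
theorem itr_marginal (hD : D.Good) (hK : K.Good D) (q : Γ × ℕ) :
    (K.mod D).haar {X | K.valid D X.1 q} = ((p : ENNReal) ^ D.k q.2)⁻¹ := by
  classical
  have hset : {X : (K.mod D).Om | K.valid D X.1 q} = itrFib D K q (K.w q.2) := rfl
  rw [hset]
  have hfin : Finite (K.C q.2) := inferInstance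
  have hft : Fintype (K.C q.2) := Fintype.ofFinite _
  have hcover : (⋃ a : K.C q.2, itrFib D K q a.1) = Set.univ := by
    ext X
    simp only [Set.mem_iUnion, Set.mem_univ, iff_true]
    exact ⟨⟨_, itr_res_mem D K X q⟩, fun v => rfl⟩
  have hdisj : Pairwise (Function.onFun Disjoint fun a : K.C q.2 => itrFib D K q a.1) := by
    intro a b hab
    rw [Function.onFun, Set.disjoint_left]
    intro X hXa hXb
    apply hab
    apply Subtype.ext
    funext v
    rw [← hXa v, ← hXb v]
  have h1 : (K.mod D).haar (⋃ a : K.C q.2, itrFib D K q a.1)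
      = ∑' a : K.C q.2, (K.mod D).haar (itrFib D K q a.1) :=
    measure_iUnion hdisj fun a => itrFib_measurable D K q a.1
  rw [hcover, measure_univ, tsum_fintype,
    Finset.sum_congr rfl (fun a _ => itrFib_measure_eq D K hD hK q a.1 (K.w q.2) a.2 (hK.w_mem q.2)),
    Finset.sum_const, Finset.card_univ, nsmul_eq_mul] at h1
  have hcard : Fintype.card (K.C q.2) = p ^ D.k q.2 := by
    rw [Fintype.card_eq_nat_card, Module.natCard_eq_pow_finrank (K := ZMod p), Nat.card_zmod,
      hK.finrank]
  rw [hcard] at h1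
  have h2 : (K.mod D).haar (itrFib D K q (K.w q.2)) * ((p : ENNReal) ^ D.k q.2) = 1 := by
    rw [mul_comm, h1]
    push_cast
    rfl
  exact ENNReal.eq_inv_of_mul_eq_one_left h2

end

end Claimed.Agent.R300
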