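import Mathlib

/-!
# Row 300, paper IT, Section 6: irrationality of a lacunary series

`∑ i, p ^ (-(k i))` is irrational when `k` is strictly increasing and its gaps tend to infinity.
-/

set_option autoImplicit false

namespace Claimed.Agent.R300

open Filter Topology

theorem its_term_le (p : ℕ) (hp : 2 ≤ p) (k : ℕ → ℕ) (hk : StrictMono k) (i : ℕ) :
    (((p : ℝ) ^ (k i))⁻¹) ≤ (1 / 2 : ℝ) ^ i := by
  have hp' : (2 : ℝ) ≤ p := by exact_mod_cast hp
  have h1 : (2 : ℝ) ^ i ≤ (p : ℝ) ^ (k i) :=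
    calc (2 : ℝ) ^ i ≤ (p : ℝ) ^ i := pow_le_pow_left₀ (by norm_num) hp' i
      _ ≤ (p : ℝ) ^ (k i) := pow_le_pow_right₀ (by linarith) (hk.le_apply)
  rw [one_div, inv_pow]
  exact inv_anti₀ (by positivity) h1

theorem its_summable (p : ℕ) (hp : 2 ≤ p) (k : ℕ → ℕ) (hk : StrictMono k) :
    Summable fun i => (((p : ℝ) ^ (k i))⁻¹) :=
  Summable.of_nonneg_of_le (fun i => by positivity) (its_term_le p hp k hk)
    (summable_geometric_of_lt_one (by norm_num) (by norm_num))

theorem its_strictMono_add (k : ℕ → ℕ) (hk : StrictMono k) (m i : ℕ) : k m + i ≤ k (i + m) := by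
  induction i with
  | zero => simp
  | succ i ih =>
    have : k (i + m) < k (i + 1 + m) := hk (by omega)
    omega

/-- The scaled tail is small. -/
theorem its_tail_le (p : ℕ) (hp : 2 ≤ p) (k : ℕ → ℕ) (hk : StrictMono k) (n : ℕ) :
    (p : ℝ) ^ (k n) * ∑' i, (((p : ℝ) ^ (k (i + (n + 1))))⁻¹)
      ≤ 2 * (((p : ℝ) ^ (k (n + 1) - k n))⁻¹) := by
  have hp' : (2 : ℝ) ≤ p := by exact_mod_cast hp
  have hp0 : (0 : ℝ) < p := by linarith
  have hs : Summable fun i => (((p : ℝ) ^ (k (i + (n + 1))))⁻¹) :=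
    (summable_nat_add_iff (f := fun i => (((p : ℝ) ^ (k i))⁻¹)) (n + 1)).2
      (its_summable p hp k hk)
  have hg : Summable fun i : ℕ => (((p : ℝ) ^ (k (n + 1) - k n))⁻¹) * (1 / 2 : ℝ) ^ i :=
    (summable_geometric_of_lt_one (by norm_num) (by norm_num)).mul_left _
  rw [← tsum_mul_left]
  calc ∑' i, (p : ℝ) ^ (k n) * (((p : ℝ) ^ (k (i + (n + 1))))⁻¹)
      ≤ ∑' i : ℕ, (((p : ℝ) ^ (k (n + 1) - k n))⁻¹) * (1 / 2 : ℝ) ^ i := by
        refine Summable.tsum_le_tsum (fun i => ?_) (hs.mul_left _) hg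
        have h1 : k (n + 1) + i ≤ k (i + (n + 1)) := its_strictMono_add k hk (n + 1) i
        have h2 : k n ≤ k (n + 1) := hk.monotone (by omega)
        obtain ⟨r, hr, hir⟩ : ∃ r, k (i + (n + 1)) = k n + ((k (n + 1) - k n) + r) ∧ i ≤ r :=
          ⟨k (i + (n + 1)) - k (n + 1), by omega, by omega⟩
        rw [hr]
        generalize k (n + 1) - k n = g
        generalize k n = a
        have e1 : (p : ℝ) ^ a * ((p : ℝ) ^ (a + (g + r)))⁻¹ = ((p : ℝ) ^ g)⁻¹ * ((p : ℝ) ^ r)⁻¹ := by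
          rw [pow_add, pow_add]
          field_simp
        rw [e1]
        refine mul_le_mul_of_nonneg_left ?_ (by positivity)
        rw [one_div, inv_pow]
        refine inv_anti₀ (by positivity) ?_
        calc (2 : ℝ) ^ i ≤ (p : ℝ) ^ i := pow_le_pow_left₀ (by norm_num) hp' i
          _ ≤ (p : ℝ) ^ r := pow_le_pow_right₀ (by linarith) hir
    _ = 2 * (((p : ℝ) ^ (k (n + 1) - k n))⁻¹) := by
        rw [tsum_mul_left, tsum_geometric_of_lt_one (by norm_num) (by norm_num)]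
        ring

/-- The scaled head is an integer. -/
theorem its_head_int (p : ℕ) (hp : 2 ≤ p) (k : ℕ → ℕ) (hk : StrictMono k) (n : ℕ) :
    ∃ N : ℤ, (p : ℝ) ^ (k n) * ∑ i ∈ Finset.range (n + 1), (((p : ℝ) ^ (k i))⁻¹) = N := by
  have hp0 : (0 : ℝ) < p := by
    have : (2 : ℝ) ≤ p := by exact_mod_cast hp
    linarith
  refine ⟨∑ i ∈ Finset.range (n + 1), (p : ℤ) ^ (k n - k i), ?_⟩
  push_cast
  rw [Finset.mul_sum]
  refine Finset.sum_congr rfl fun i hi => ?_
  have hi' : i ≤ n := by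
    have := Finset.mem_range.1 hi
    omega
  have h1 : k i ≤ k n := hk.monotone hi'
  have h2 : k n = (k n - k i) + k i := by omega
  conv_lhs => rw [h2, pow_add]
  rw [mul_assoc, mul_inv_cancel₀ (by positivity), mul_one]

/-- IT Proposition 6.1, arithmetic part: the lacunary series is irrational. -/
theorem its_irrational (p : ℕ) (hp : 2 ≤ p) (k : ℕ → ℕ) (hk : StrictMono k)
    (hgap : Tendsto (fun i => k (i + 1) - k i) atTop atTop) :
    Irrational (∑' i, (((p : ℝ) ^ (k i))⁻¹)) := by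
  have hp' : (2 : ℝ) ≤ p := by exact_mod_cast hp
  have hp0 : (0 : ℝ) < p := by linarith
  rintro ⟨q, hq⟩
  have hS := its_summable p hp k hk
  -- choose `n` with a large gap
  obtain ⟨n, hn⟩ := (hgap.eventually_ge_atTop (2 * q.den)).exists
  obtain ⟨N, hN⟩ := its_head_int p hp k hk n
  have hsplit := hS.sum_add_tsum_nat_add (n + 1)
  set R : ℝ := (p : ℝ) ^ (k n) * ∑' i, (((p : ℝ) ^ (k (i + (n + 1))))⁻¹) with hR
  have hden : (0 : ℝ) < q.den := by exact_mod_cast q.den_pos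
  -- `den * R` is an integer
  have hint : (q.den : ℝ) * R = ((q.num * (p : ℤ) ^ (k n) - q.den * N : ℤ) : ℝ) := by
    have hq' : (q : ℝ) * q.den = q.num := by exact_mod_cast Rat.mul_den_eq_num q
    have : R = (p : ℝ) ^ (k n) * (q : ℝ) - N := by
      rw [hR, ← hN, hq, ← hsplit]
      ring
    rw [this]
    push_cast
    rw [← hq']
    ring
  -- positivity
  have hRpos : 0 < R := by
    refine mul_pos (by positivity) ?_
    have hs : Summable fun i => (((p : ℝ) ^ (k (i + (n + 1))))⁻¹) :=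
      (summable_nat_add_iff (f := fun i => (((p : ℝ) ^ (k i))⁻¹)) (n + 1)).2 hS
    exact hs.tsum_pos (fun i => by positivity) 0 (by positivity)
  -- smallness
  have hRlt : (q.den : ℝ) * R < 1 := by
    have h1 := its_tail_le p hp k hk n
    have h2 : ((2 * q.den : ℕ) : ℝ) < (p : ℝ) ^ (k (n + 1) - k n) := by
      calc ((2 * q.den : ℕ) : ℝ) < (2 : ℝ) ^ (2 * q.den) := by
            exact_mod_cast Nat.lt_two_pow_self
        _ ≤ (2 : ℝ) ^ (k (n + 1) - k n) := pow_le_pow_right₀ (by norm_num) hn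
        _ ≤ (p : ℝ) ^ (k (n + 1) - k n) := pow_le_pow_left₀ (by norm_num) hp' _
    have h3 : (0 : ℝ) < (p : ℝ) ^ (k (n + 1) - k n) := by positivity
    calc (q.den : ℝ) * R ≤ q.den * (2 * (((p : ℝ) ^ (k (n + 1) - k n))⁻¹)) :=
          mul_le_mul_of_nonneg_left h1 hden.le
      _ = ((2 * q.den : ℕ) : ℝ) / (p : ℝ) ^ (k (n + 1) - k n) := by
          push_cast
          field_simp
      _ < 1 := (div_lt_one h3).2 h2
  have hpos : (0 : ℝ) < (q.den : ℝ) * R := mul_pos hden hRpos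
  rw [hint] at hpos hRlt
  have h0 : (0 : ℤ) < q.num * (p : ℤ) ^ (k n) - q.den * N := by exact_mod_cast hpos
  have h1 : q.num * (p : ℤ) ^ (k n) - q.den * N < 1 := by exact_mod_cast hRlt
  omega

end Claimed.Agent.R300
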