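/-
Row 300 (S0552), IT back end, owner helper128.
IT-A4 (Proposition 6.1): the integral of the diagonal function is `∑ p^{-k_i}`.
-/
import Claimed.Agent.R300.ItrMarg
import Claimed.Agent.R300.ItsIrr

set_option autoImplicit false

namespace Claimed.Agent.R300

open MeasureTheory

variable {L Γ : Type} [Group Γ] {Vt : ℕ → Type} [∀ i, Fintype (Vt i)]
  (D : ItGraphs L Γ Vt) {p : ℕ} [Fact p.Prime] (K : ItCode L Vt p)

theorem it_valid_measurable (q : Γ × ℕ) :
    MeasurableSet {X : (K.mod D).Om | K.valid D X.1 q} :=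
  itrFib_measurable D K q (K.w q.2)

theorem it_valid_real (hD : D.Good) (hK : K.Good D) (q : Γ × ℕ) :
    (K.mod D).haar.real {X : (K.mod D).Om | K.valid D X.1 q} = ((p : ℝ) ^ D.k q.2)⁻¹ := by
  rw [Measure.real, itr_marginal D K hD hK q, ENNReal.toReal_inv, ENNReal.toReal_pow]
  simp

open Classical in
/-- the part of type `i` of the diagonal function (real version). -/
noncomputable def itDg (i : ℕ) (X : (K.mod D).Om) : ℝ :=
  ∑ v : Vt i, if K.valid D X.1 ((D.φ i v)⁻¹, i) then (Fintype.card (Vt i) : ℝ)⁻¹ else 0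

omit [Fact p.Prime] in
theorem itDg_nonneg (i : ℕ) (X : (K.mod D).Om) : 0 ≤ itDg D K i X := by
  classical
  unfold itDg
  refine Finset.sum_nonneg (fun v _ => ?_)
  split_ifs
  · positivity
  · exact le_rfl

theorem itDg_integrable_integral (hD : D.Good) (hK : K.Good D) (i : ℕ) :
    Integrable (itDg D K i) (K.mod D).haar ∧
      ∫ X, itDg D K i X ∂(K.mod D).haar = ((p : ℝ) ^ D.k i)⁻¹ := by
  classical
  have hterm : ∀ v : Vt i, (fun X : (K.mod D).Om =>
      if K.valid D X.1 ((D.φ i v)⁻¹, i) then (Fintype.card (Vt i) : ℝ)⁻¹ else 0) =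
      Set.indicator {X : (K.mod D).Om | K.valid D X.1 ((D.φ i v)⁻¹, i)}
        (fun _ => (Fintype.card (Vt i) : ℝ)⁻¹) := by
    intro v
    funext X
    simp [Set.indicator_apply]
  have hint : ∀ v : Vt i, Integrable (fun X : (K.mod D).Om =>
      if K.valid D X.1 ((D.φ i v)⁻¹, i) then (Fintype.card (Vt i) : ℝ)⁻¹ else 0)
      (K.mod D).haar := by
    intro v
    rw [hterm v]
    exact (integrable_const _).indicator (it_valid_measurable D K _)
  have hn : (0 : ℝ) < Fintype.card (Vt i) := by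
    have := hD.card_gt i
    exact_mod_cast (by omega : 0 < Fintype.card (Vt i))
  refine ⟨integrable_finsetSum _ (fun v _ => hint v), ?_⟩
  unfold itDg
  rw [integral_finsetSum _ (fun v _ => hint v)]
  have hval : ∀ v : Vt i, ∫ X : (K.mod D).Om,
      (if K.valid D X.1 ((D.φ i v)⁻¹, i) then (Fintype.card (Vt i) : ℝ)⁻¹ else 0)
      ∂(K.mod D).haar = ((p : ℝ) ^ D.k i)⁻¹ * (Fintype.card (Vt i) : ℝ)⁻¹ := by
    intro v
    rw [hterm v, integral_indicator_const _ (it_valid_measurable D K _),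
      it_valid_real D K hD hK, smul_eq_mul]
  simp only [hval, Finset.sum_const, Finset.card_univ, nsmul_eq_mul]
  field_simp

open Classical in
/-- **IT-A4** (Proposition 6.1, the integral). -/
theorem it_trace_integral' (hD : D.Good) (hK : K.Good D) :
    ∫ X : (K.mod D).Om, (∑' i, ∑ v : Vt i,
      if K.valid D X.1 ((D.φ i v)⁻¹, i) then (Fintype.card (Vt i) : ℂ)⁻¹ else 0) ∂(K.mod D).haar =
      ((∑' i, ((p : ℝ) ^ D.k i)⁻¹ : ℝ) : ℂ) := by
  have hp2 : 2 ≤ p := (Fact.out : p.Prime).two_le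
  have hcast : ∀ (i : ℕ) (X : (K.mod D).Om), (∑ v : Vt i,
      if K.valid D X.1 ((D.φ i v)⁻¹, i) then (Fintype.card (Vt i) : ℂ)⁻¹ else 0) =
      ((itDg D K i X : ℝ) : ℂ) := by
    intro i X
    unfold itDg
    push_cast
    refine Finset.sum_congr rfl (fun v _ => ?_)
    split_ifs <;> simp
  simp only [hcast]
  have hF_int : ∀ i, Integrable (fun X : (K.mod D).Om => ((itDg D K i X : ℝ) : ℂ))
      (K.mod D).haar := fun i => (itDg_integrable_integral D K hD hK i).1.ofReal
  have hF_val : ∀ i, ∫ X : (K.mod D).Om, ((itDg D K i X : ℝ) : ℂ) ∂(K.mod D).haar =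
      ((((p : ℝ) ^ D.k i)⁻¹ : ℝ) : ℂ) := by
    intro i
    rw [integral_complex_ofReal, (itDg_integrable_integral D K hD hK i).2]
  have hF_sum : Summable fun i => ∫ X : (K.mod D).Om, ‖((itDg D K i X : ℝ) : ℂ)‖
      ∂(K.mod D).haar := by
    have : (fun i => ∫ X : (K.mod D).Om, ‖((itDg D K i X : ℝ) : ℂ)‖ ∂(K.mod D).haar) =
        fun i => ((p : ℝ) ^ D.k i)⁻¹ := by
      funext i
      rw [← (itDg_integrable_integral D K hD hK i).2]
      refine integral_congr_ae (Filter.Eventually.of_forall fun X => ?_)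
      simp only [Complex.norm_real, Real.norm_eq_abs, abs_of_nonneg (itDg_nonneg D K i X)]
    rw [this]
    exact its_summable p hp2 D.k hD.k_mono
  have h := hasSum_integral_of_summable_integral_norm hF_int hF_sum
  rw [← h.tsum_eq]
  simp only [hF_val]
  rw [Complex.ofReal_tsum]

end Claimed.Agent.R300
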