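import Mathlib

/-!
# R300 / IT-COD: codes with large distance and large dual distance (IT Lemma 4.1)

`itc_code_one`: for a prime `p`, a finite set `V` with `n > 100` elements and a nowhere vanishing
vector `w : V → ZMod p` there is a subspace `C` of dimension `n / 2` containing `w` such that all
nonzero vectors of `C` and of its orthogonal have more than `n / 100` nonzero coordinates.

Proof: union bound over all `M : Fin (k - 1) → V → ZMod p`, `C = span (w, M_j)`.
-/

namespace Claimed.Agent.R300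

open Finset

open scoped Classical in
/-- Equidistribution by translation: if `f (M + c t) = f M + σ t` with `σ` bijective, every subset
`B` is hit by the proportion `|B| / |E|` of all `M`. -/
theorem itc_equidist {Ω E : Type*} [Fintype Ω] [AddGroup Ω] [Fintype E] [AddGroup E]
    (f : Ω → E) (c : E → Ω) (σ : E ≃ E) (h : ∀ M t, f (M + c t) = f M + σ t) (B : Finset E) :
    Fintype.card E * (univ.filter (fun M => f M ∈ B)).card = B.card * Fintype.card Ω := by
  have h1 : ∀ t : E, (∑ M : Ω, if f (M + c t) ∈ B then (1 : ℕ) else 0) =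
      ∑ M : Ω, if f M ∈ B then (1 : ℕ) else 0 := fun t =>
    Equiv.sum_comp (Equiv.addRight (c t)) (fun M => if f M ∈ B then (1 : ℕ) else 0)
  have h2 : ∀ e : E, (∑ t : E, if e + σ t ∈ B then (1 : ℕ) else 0) = B.card := by
    intro e
    have := Equiv.sum_comp (σ.trans (Equiv.addLeft e)) (fun x => if x ∈ B then (1 : ℕ) else 0)
    simp only [Equiv.trans_apply, Equiv.coe_addLeft] at this
    exact this.trans (by simp)
  calc Fintype.card E * (univ.filter (fun M => f M ∈ B)).card
      = ∑ _t : E, ∑ M : Ω, (if f M ∈ B then (1 : ℕ) else 0) := by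
        rw [Finset.card_filter]; simp
    _ = ∑ t : E, ∑ M : Ω, (if f (M + c t) ∈ B then (1 : ℕ) else 0) := by
        simp only [h1]
    _ = ∑ M : Ω, ∑ t : E, (if f M + σ t ∈ B then (1 : ℕ) else 0) := by
        rw [Finset.sum_comm]; simp only [h]
    _ = B.card * Fintype.card Ω := by
        simp only [h2]; simp [mul_comm]



open scoped Classical in
/-- number of nonzero coordinates -/
noncomputable def itcWt {p : ℕ} {V : Type} [Fintype V] (z : V → ZMod p) : ℕ :=
  (univ.filter (fun v => z v ≠ 0)).card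

open scoped Classical in
/-- vectors with at most `r` nonzero coordinates -/
noncomputable def itcBall (p : ℕ) [Fact p.Prime] (V : Type) [Fintype V] (r : ℕ) :
    Finset (V → ZMod p) := univ.filter (fun z => itcWt z ≤ r)

open scoped Classical in
theorem itc_ball_le (p : ℕ) [Fact p.Prime] (V : Type) [Fintype V] (r T : ℕ) (hT : 1 ≤ T) :
    (itcBall p V r).card * T ^ (Fintype.card V - r) ≤ (T + (p - 1)) ^ Fintype.card V := by
  set g : ZMod p → ℕ := fun c => if c = 0 then T else 1 with hg
  have hsum : ∑ c : ZMod p, g c = T + (p - 1) := by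
    have : ∑ c : ZMod p, g c = ∑ c : ZMod p, ((if c = 0 then (T - 1) else 0) + 1) := by
      apply Finset.sum_congr rfl
      intro c _
      simp only [hg]
      split_ifs <;> omega
    rw [this, Finset.sum_add_distrib]
    simp only [Finset.sum_ite_eq', Finset.mem_univ, if_true, Finset.sum_const, Finset.card_univ,
      ZMod.card, smul_eq_mul, mul_one]
    have := (Fact.out : p.Prime).one_lt
    omega
  have hprod : ∑ z : V → ZMod p, ∏ v, g (z v) = (T + (p - 1)) ^ Fintype.card V := by
    have := Finset.prod_univ_sum (fun _ : V => (univ : Finset (ZMod p))) (fun _ c => g c)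
    rw [Fintype.piFinset_univ] at this
    rw [← this]
    simp [hsum]
  have hz : ∀ z : V → ZMod p, ∏ v, g (z v) = T ^ (Fintype.card V - itcWt z) := by
    intro z
    simp only [hg]
    rw [Finset.prod_ite]
    simp only [Finset.prod_const, one_pow, mul_one]
    congr 1
    have := Finset.card_filter_add_card_filter_not (s := (univ : Finset V)) (fun v => z v = 0)
    simp only [Finset.card_univ] at this
    unfold itcWt
    simp only [ne_eq]
    omega
  calc (itcBall p V r).card * T ^ (Fintype.card V - r)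
      = ∑ _z ∈ itcBall p V r, T ^ (Fintype.card V - r) := by simp
    _ ≤ ∑ z ∈ itcBall p V r, ∏ v, g (z v) := by
        apply Finset.sum_le_sum
        intro z hz'
        rw [hz]
        apply Nat.pow_le_pow_right hT
        have : itcWt z ≤ r := (Finset.mem_filter.1 hz').2
        omega
    _ ≤ ∑ z : V → ZMod p, ∏ v, g (z v) :=
        Finset.sum_le_sum_of_subset (Finset.subset_univ _)
    _ = _ := hprod



theorem itc_num (n : ℕ) (hn : 100 < n) :
    8 ^ n < 2 ^ (n / 2 - 2 - n / 100) * 7 ^ (n - n / 100) := by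
  set e := n / 2 - 2 - n / 100 with he
  set m := n - n / 100 with hm
  apply lt_of_pow_lt_pow_left₀ 5 (Nat.zero_le _)
  have h1 : (8 ^ n) ^ 5 = 2 ^ (15 * n) := by
    rw [← pow_mul, show (8 : ℕ) = 2 ^ 3 by norm_num, ← pow_mul]
    congr 1; ring
  have h2 : 2 ^ (5 * e + 14 * m) ≤ (2 ^ e * 7 ^ m) ^ 5 := by
    rw [mul_pow, ← pow_mul, ← pow_mul, pow_add]
    have : (2 : ℕ) ^ (14 * m) ≤ 7 ^ (m * 5) := by
      rw [pow_mul, mul_comm m 5, pow_mul]
      exact Nat.pow_le_pow_left (by norm_num) m
    calc 2 ^ (5 * e) * 2 ^ (14 * m) ≤ 2 ^ (5 * e) * 7 ^ (m * 5) := Nat.mul_le_mul_left _ this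
      _ = 2 ^ (e * 5) * 7 ^ (m * 5) := by rw [mul_comm 5 e]
  rw [h1]
  refine lt_of_lt_of_le ?_ h2
  apply Nat.pow_lt_pow_right (by norm_num)
  omega

theorem itc_ball_lt_aux (p n b : ℕ) (hp : 2 ≤ p) (hn : 100 < n)
    (hb : b * (7 * p) ^ (n - n / 100) ≤ (7 * p + (p - 1)) ^ n) : b < p ^ (n / 2 - 2) := by
  set r := n / 100 with hr
  have hrn : r ≤ n := Nat.div_le_self _ _
  have h1 : (7 * p + (p - 1)) ^ n ≤ (8 * p) ^ n := Nat.pow_le_pow_left (by omega) n
  have h2 : b * 7 ^ (n - r) * p ^ (n - r) ≤ 8 ^ n * p ^ r * p ^ (n - r) := by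
    calc b * 7 ^ (n - r) * p ^ (n - r) = b * (7 * p) ^ (n - r) := by rw [mul_pow, mul_assoc]
      _ ≤ (8 * p) ^ n := hb.trans h1
      _ = 8 ^ n * p ^ r * p ^ (n - r) := by
          rw [mul_pow, mul_assoc, ← pow_add, Nat.add_sub_cancel' hrn]
  have hpp : 0 < p ^ (n - r) := pow_pos (by omega) _
  have h3 : b * 7 ^ (n - r) ≤ 8 ^ n * p ^ r := Nat.le_of_mul_le_mul_right h2 hpp
  have h4 := itc_num n hn
  have h5 : 2 ^ (n / 2 - 2 - r) ≤ p ^ (n / 2 - 2 - r) := Nat.pow_le_pow_left hp _
  have hpr : 0 < p ^ r := pow_pos (by omega) _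
  have h6 : b * 7 ^ (n - r) < p ^ (n / 2 - 2) * 7 ^ (n - r) := by
    calc b * 7 ^ (n - r) ≤ 8 ^ n * p ^ r := h3
      _ < 2 ^ (n / 2 - 2 - r) * 7 ^ (n - r) * p ^ r := Nat.mul_lt_mul_of_pos_right h4 hpr
      _ ≤ p ^ (n / 2 - 2 - r) * 7 ^ (n - r) * p ^ r :=
          Nat.mul_le_mul_right _ (Nat.mul_le_mul_right _ h5)
      _ = p ^ (n / 2 - 2) * 7 ^ (n - r) := by
          have : n / 2 - 2 = (n / 2 - 2 - r) + r := by omega
          rw [this, pow_add]
          simp only [Nat.add_sub_cancel]
          ring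
  exact Nat.lt_of_mul_lt_mul_right h6



variable {p : ℕ} [Fact p.Prime] {V : Type} [Fintype V] {J : Type} [Fintype J] [DecidableEq J]

/-- the vector `a w + ∑ u_j M_j` -/
def itcVal (w : V → ZMod p) (M : J → V → ZMod p) (a : ZMod p) (u : J → ZMod p) : V → ZMod p :=
  a • w + ∑ j, u j • M j

open scoped Classical in
theorem itc_bad1 (w : V → ZMod p) (a : ZMod p) (u : J → ZMod p) (hu : u ≠ 0)
    (B : Finset (V → ZMod p)) :
    Fintype.card (V → ZMod p) * (univ.filter (fun M : J → V → ZMod p => itcVal w M a u ∈ B)).card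
      = B.card * Fintype.card (J → V → ZMod p) := by
  obtain ⟨j₀, hj₀⟩ : ∃ j₀, u j₀ ≠ 0 := by
    by_contra hcon
    exact hu (funext fun j => by_contra fun hj => hcon ⟨j, hj⟩)
  have key := itc_equidist (fun M : J → V → ZMod p => itcVal w M a u) (fun t => Pi.single j₀ t)
    (LinearEquiv.smulOfNeZero (ZMod p) (V → ZMod p) (u j₀) hj₀).toEquiv ?_ B
  · convert key using 3
    ext M
    simp only [Finset.mem_filter, Finset.mem_univ, true_and]
  intro M t
  simp only [itcVal, Pi.add_apply, smul_add, Finset.sum_add_distrib, LinearEquiv.coe_toEquiv,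
    LinearEquiv.smulOfNeZero_apply]
  rw [add_assoc]
  congr 2
  rw [Finset.sum_eq_single j₀]
  · simp
  · intro j _ hj
    simp [Pi.single_eq_of_ne hj]
  · simp

open scoped Classical in
theorem itc_hyper (z : V → ZMod p) (hz : z ≠ 0) :
    p * (univ.filter (fun m : V → ZMod p => ∑ v, z v * m v = 0)).card
      = Fintype.card (V → ZMod p) := by
  obtain ⟨v₀, hv₀⟩ : ∃ v₀, z v₀ ≠ 0 := by
    by_contra hcon
    exact hz (funext fun j => by_contra fun hj => hcon ⟨j, hj⟩)
  have := itc_equidist (fun m : V → ZMod p => ∑ v, z v * m v) (fun t => Pi.single v₀ t)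
    (Equiv.mulLeft₀ (z v₀) hv₀) ?_ {0}
  · simpa [ZMod.card] using this
  · intro m t
    simp only [Pi.add_apply, mul_add, Finset.sum_add_distrib, Equiv.mulLeft₀_apply]
    congr 1
    rw [Finset.sum_eq_single v₀]
    · simp
    · intro v _ hv
      simp [Pi.single_eq_of_ne hv]
    · simp

open scoped Classical in
theorem itc_bad2 (z : V → ZMod p) (hz : z ≠ 0) :
    p ^ Fintype.card J *
      (univ.filter (fun M : J → V → ZMod p => ∀ j, ∑ v, z v * M j v = 0)).card
      = Fintype.card (J → V → ZMod p) := by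
  set H := univ.filter (fun m : V → ZMod p => ∑ v, z v * m v = 0) with hH
  have h1 : univ.filter (fun M : J → V → ZMod p => ∀ j, ∑ v, z v * M j v = 0) =
      Fintype.piFinset (fun _ : J => H) := by
    ext M
    simp [hH, Fintype.mem_piFinset]
  rw [h1, Fintype.card_piFinset]
  simp only [Finset.prod_const, Finset.card_univ]
  rw [← mul_pow, itc_hyper z hz]
  simp


open scoped Classical in
theorem itc_wt_eq {p : ℕ} {V : Type} [Fintype V] (z : V → ZMod p) :
    {v | z v ≠ 0}.ncard = itcWt z := by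
  rw [Set.ncard_eq_toFinset_card']
  unfold itcWt
  congr 1
  ext v
  simp

open scoped Classical in
/-- existence of a good family `M` by the union bound -/
theorem itc_exists_good (p : ℕ) [Fact p.Prime] {V : Type} [Fintype V]
    (hn : 100 < Fintype.card V) (w : V → ZMod p) :
    ∃ M : Fin (Fintype.card V / 2 - 1) → V → ZMod p,
      (∀ a u, u ≠ 0 → itcVal w M a u ∉ itcBall p V (Fintype.card V / 100)) ∧
      (∀ z ∈ itcBall p V (Fintype.card V / 100), z ≠ 0 → ¬ ∀ j, ∑ v, z v * M j v = 0) := by
  set n := Fintype.card V with hnV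
  set k := n / 2 with hk
  set B := itcBall p V (n / 100) with hB
  have hp2 : 2 ≤ p := (Fact.out : p.Prime).two_le
  have hp0 : 0 < p := by omega
  set P := Fintype.card (V → ZMod p) with hP
  set N := Fintype.card (Fin (k - 1) → V → ZMod p) with hN
  have hPn : P = p ^ n := by simp [hP, ZMod.card, hnV]
  have hN0 : 0 < N := Fintype.card_pos
  have hBlt : B.card < p ^ (k - 2) := by
    apply itc_ball_lt_aux p n B.card hp2 hn
    exact itc_ball_le p V (n / 100) (7 * p) (by omega)
  set Bad1 := univ.filter (fun M : Fin (k - 1) → V → ZMod p =>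
    ∃ a u, u ≠ 0 ∧ itcVal w M a u ∈ B) with hBad1
  set Bad2 := univ.filter (fun M : Fin (k - 1) → V → ZMod p =>
    ∃ z ∈ B, z ≠ 0 ∧ ∀ j, ∑ v, z v * M j v = 0) with hBad2
  -- first bad set
  have h1 : P * Bad1.card ≤ p ^ k * (B.card * N) := by
    have hsub : Bad1 ⊆ (univ.filter (fun au : ZMod p × (Fin (k - 1) → ZMod p) => au.2 ≠ 0)).biUnion
        (fun au => univ.filter (fun M : Fin (k - 1) → V → ZMod p => itcVal w M au.1 au.2 ∈ B)) := by
      intro M hM
      obtain ⟨a, u, hu, hval⟩ := (Finset.mem_filter.1 hM).2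
      exact Finset.mem_biUnion.2 ⟨(a, u), by simp [hu], by simp [hval]⟩
    calc P * Bad1.card ≤ P * _ := Nat.mul_le_mul_left _ (Finset.card_le_card hsub)
      _ ≤ P * ∑ au ∈ univ.filter (fun au : ZMod p × (Fin (k - 1) → ZMod p) => au.2 ≠ 0),
            (univ.filter (fun M : Fin (k - 1) → V → ZMod p =>
              itcVal w M au.1 au.2 ∈ B)).card := Nat.mul_le_mul_left _ Finset.card_biUnion_le
      _ = ∑ au ∈ univ.filter (fun au : ZMod p × (Fin (k - 1) → ZMod p) => au.2 ≠ 0),
            B.card * N := by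
          rw [Finset.mul_sum]
          apply Finset.sum_congr rfl
          intro au hau
          exact itc_bad1 w au.1 au.2 (Finset.mem_filter.1 hau).2 B
      _ ≤ ∑ _au : ZMod p × (Fin (k - 1) → ZMod p), B.card * N :=
          Finset.sum_le_sum_of_subset (Finset.filter_subset _ _)
      _ = p ^ k * (B.card * N) := by
          simp only [Finset.sum_const, Finset.card_univ, smul_eq_mul, Fintype.card_prod,
            Fintype.card_fun, ZMod.card, Fintype.card_fin]
          congr 1
          rw [← pow_succ']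
          congr 1
          omega
  -- second bad set
  have h2 : p ^ (k - 1) * Bad2.card ≤ B.card * N := by
    have hsub : Bad2 ⊆ (B.filter (fun z => z ≠ 0)).biUnion
        (fun z => univ.filter (fun M : Fin (k - 1) → V → ZMod p =>
          ∀ j, ∑ v, z v * M j v = 0)) := by
      intro M hM
      obtain ⟨z, hz, hz0, hval⟩ := (Finset.mem_filter.1 hM).2
      exact Finset.mem_biUnion.2 ⟨z, by simp [hz, hz0], by simp [hval]⟩
    calc p ^ (k - 1) * Bad2.card ≤ p ^ (k - 1) * _ :=
          Nat.mul_le_mul_left _ (Finset.card_le_card hsub)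
      _ ≤ p ^ (k - 1) * ∑ z ∈ B.filter (fun z => z ≠ 0),
            (univ.filter (fun M : Fin (k - 1) → V → ZMod p =>
              ∀ j, ∑ v, z v * M j v = 0)).card := Nat.mul_le_mul_left _ Finset.card_biUnion_le
      _ = ∑ z ∈ B.filter (fun z => z ≠ 0), N := by
          rw [Finset.mul_sum]
          apply Finset.sum_congr rfl
          intro z hz
          have := itc_bad2 (J := Fin (k - 1)) z (Finset.mem_filter.1 hz).2
          rw [Fintype.card_fin] at this
          convert this using 3
          ext M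
          simp only [Finset.mem_filter, Finset.mem_univ, true_and]
      _ ≤ ∑ _z ∈ B, N := Finset.sum_le_sum_of_subset (Finset.filter_subset _ _)
      _ = B.card * N := by simp
  -- union bound
  have h3 : Bad1.card + Bad2.card < N := by
    have hpos : 0 < P * p ^ (k - 1) := by rw [hPn]; positivity
    apply Nat.lt_of_mul_lt_mul_left (a := P * p ^ (k - 1))
    have e1 : P * p ^ (k - 1) * (Bad1.card + Bad2.card) =
        p ^ (k - 1) * (P * Bad1.card) + P * (p ^ (k - 1) * Bad2.card) := by ring
    have e2 : p ^ (k - 1) * (P * Bad1.card) + P * (p ^ (k - 1) * Bad2.card) ≤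
        B.card * (p ^ (k - 1) * p ^ k + P) * N := by
      calc _ ≤ p ^ (k - 1) * (p ^ k * (B.card * N)) + P * (B.card * N) :=
            Nat.add_le_add (Nat.mul_le_mul_left _ h1) (Nat.mul_le_mul_left _ h2)
        _ = _ := by ring
    have e3 : p ^ (k - 1) * p ^ k + P ≤ p ^ (n + 1) := by
      rw [hPn, ← pow_add]
      have : p ^ (k - 1 + k) ≤ p ^ n := Nat.pow_le_pow_right hp0 (by omega)
      calc p ^ (k - 1 + k) + p ^ n ≤ 2 * p ^ n := by omega
        _ ≤ p * p ^ n := Nat.mul_le_mul_right _ hp2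
        _ = p ^ (n + 1) := by rw [pow_succ']
    have e4 : B.card * (p ^ (k - 1) * p ^ k + P) < P * p ^ (k - 1) := by
      calc B.card * (p ^ (k - 1) * p ^ k + P) ≤ B.card * p ^ (n + 1) := Nat.mul_le_mul_left _ e3
        _ < p ^ (k - 2) * p ^ (n + 1) := Nat.mul_lt_mul_of_pos_right hBlt (by positivity)
        _ = P * p ^ (k - 1) := by
            rw [hPn, ← pow_add, ← pow_add]
            congr 1
            omega
    rw [e1]
    exact lt_of_le_of_lt e2 (Nat.mul_lt_mul_of_pos_right e4 hN0)
  have h4 : (Bad1 ∪ Bad2).card < (univ : Finset (Fin (k - 1) → V → ZMod p)).card := by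
    rw [Finset.card_univ]
    exact lt_of_le_of_lt (Finset.card_union_le _ _) h3
  obtain ⟨M, -, hM⟩ := Finset.exists_mem_notMem_of_card_lt_card h4
  rw [Finset.mem_union, not_or] at hM
  refine ⟨M, ?_, ?_⟩
  · intro a u hu hval
    exact hM.1 (Finset.mem_filter.2 ⟨Finset.mem_univ _, a, u, hu, hval⟩)
  · intro z hz hz0 hval
    exact hM.2 (Finset.mem_filter.2 ⟨Finset.mem_univ _, z, hz, hz0, hval⟩)


/-- the linear map `(a, u) ↦ a w + ∑ u_j M_j` -/
noncomputable def itcPhi {p : ℕ} [Fact p.Prime] {V : Type} [Fintype V] {J : Type} [Fintype J]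
    (w : V → ZMod p) (M : J → V → ZMod p) :
    (ZMod p × (J → ZMod p)) →ₗ[ZMod p] (V → ZMod p) :=
  LinearMap.coprod (LinearMap.toSpanSingleton (ZMod p) (V → ZMod p) w)
    (Fintype.linearCombination (ZMod p) M)

theorem itcPhi_apply {p : ℕ} [Fact p.Prime] {V : Type} [Fintype V] {J : Type} [Fintype J]
    (w : V → ZMod p) (M : J → V → ZMod p) (au : ZMod p × (J → ZMod p)) :
    itcPhi w M au = itcVal w M au.1 au.2 := by
  simp [itcPhi, itcVal, Fintype.linearCombination_apply]

open scoped Classical in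
theorem itc_wt_smul {p : ℕ} [Fact p.Prime] {V : Type} [Fintype V] (w : V → ZMod p)
    (hw : ∀ v, w v ≠ 0) {a : ZMod p} (ha : a ≠ 0) : itcWt (a • w) = Fintype.card V := by
  unfold itcWt
  rw [Finset.filter_true_of_mem, Finset.card_univ]
  intro v _
  simp [ha, hw v]

/-- **IT-COD** (IT Lemma 4.1, one graph). -/
theorem itc_code_one (p : ℕ) [Fact p.Prime] {V : Type} [Fintype V] (hn : 100 < Fintype.card V)
    (w : V → ZMod p) (hw : ∀ v, w v ≠ 0) :
    ∃ C : Submodule (ZMod p) (V → ZMod p), Module.finrank (ZMod p) C = Fintype.card V / 2 ∧ w ∈ C ∧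
      (∀ z ∈ C, z ≠ 0 → Fintype.card V < 100 * {v | z v ≠ 0}.ncard) ∧
      (∀ z : V → ZMod p, (∀ c ∈ C, ∑ v, z v * c v = 0) → z ≠ 0 →
        Fintype.card V < 100 * {v | z v ≠ 0}.ncard) := by
  classical
  obtain ⟨M, hM1, hM2⟩ := itc_exists_good p hn w
  have hball : ∀ z : V → ZMod p, z ∉ itcBall p V (Fintype.card V / 100) →
      Fintype.card V < 100 * {v | z v ≠ 0}.ncard := by
    intro z hz
    rw [itc_wt_eq]
    have : ¬ itcWt z ≤ Fintype.card V / 100 := fun h =>
      hz (Finset.mem_filter.2 ⟨Finset.mem_univ _, h⟩)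
    omega
  -- nonzero parameters give vectors outside the ball
  have hout : ∀ au : ZMod p × (Fin (Fintype.card V / 2 - 1) → ZMod p), au ≠ 0 →
      itcPhi w M au ∉ itcBall p V (Fintype.card V / 100) := by
    rintro ⟨a, u⟩ hau
    rw [itcPhi_apply]
    by_cases hu : u = 0
    · subst hu
      have ha : a ≠ 0 := by
        rintro rfl
        exact hau rfl
      intro hmem
      have h1 : itcWt (itcVal w M a 0) ≤ Fintype.card V / 100 := (Finset.mem_filter.1 hmem).2
      have h2 : itcVal w M a 0 = a • w := by simp [itcVal]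
      rw [h2, itc_wt_smul w hw ha] at h1
      omega
    · exact hM1 a u hu
  have hzero : (0 : V → ZMod p) ∈ itcBall p V (Fintype.card V / 100) := by
    refine Finset.mem_filter.2 ⟨Finset.mem_univ _, ?_⟩
    simp [itcWt]
  have hinj : Function.Injective (itcPhi w M) := by
    rw [injective_iff_map_eq_zero]
    intro au h0
    by_contra hne
    exact hout au hne (h0 ▸ hzero)
  refine ⟨LinearMap.range (itcPhi w M), ?_, ?_, ?_, ?_⟩
  · rw [LinearMap.finrank_range_of_inj hinj, Module.finrank_prod, Module.finrank_self,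
      Module.finrank_fintype_fun_eq_card, Fintype.card_fin]
    omega
  · refine ⟨(1, 0), ?_⟩
    rw [itcPhi_apply]
    simp [itcVal]
  · rintro z ⟨au, rfl⟩ hz
    apply hball
    apply hout
    rintro rfl
    exact hz (map_zero _)
  · intro z hz hz0
    apply hball
    intro hmem
    apply hM2 z hmem hz0
    intro j
    apply hz
    refine ⟨(0, Pi.single j 1), ?_⟩
    rw [itcPhi_apply]
    simp only [itcVal, zero_smul, zero_add]
    rw [Finset.sum_eq_single j]
    · simp
    · intro i _ hi
      simp [Pi.single_eq_of_ne hi]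
    · simp

end Claimed.Agent.R300
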