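import Claimed.Agent.R300.ItsCheeger

/-!
# Row 300, paper IT, Section 5.3: block decomposition, kernel projection and uniform gap

`A = d - Adj` for an enabled graph (dart model).  The "valid copies" are finite, pairwise
disjoint, `d`-regular unions of components `P k` with a Poincare inequality; on the complement `U`
a finite-set deficit holds.  Then the orthogonal projection `E` on `ker A` is the projection on
the constants of the blocks, and `A ≥ ε (1 - E)`, `A² ≥ ε A`, `A ≤ 2d`.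
-/

set_option autoImplicit false

namespace Claimed.Agent.R300

open scoped ComplexConjugate InnerProductSpace
open Finset

variable {V L : Type} [Fintype L]

section basic

variable (G : ItsDart V L) [∀ x, DecidablePred (G.en x)] (d : ℕ) (A : ScL2 V →L[ℂ] ScL2 V)

theorem its_count_symm (x y : V) :
    (∑ s, if G.en x s then (scDelta y (G.step x s) : ℂ) else 0) =
      ∑ s, if G.en y s then (scDelta x (G.step y s) : ℂ) else 0 := by
  classical
  refine Finset.sum_nbij' G.inv G.inv (fun _ _ => Finset.mem_univ _) (fun _ _ => Finset.mem_univ _)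
    (fun s _ => G.inv_inv s) (fun s _ => G.inv_inv s) ?_
  intro s _
  by_cases h1 : G.en x s ∧ G.step x s = y
  · obtain ⟨h1, rfl⟩ := h1
    rw [if_pos h1, if_pos (G.en_symm _ _ h1), G.step_inv]
    simp
  · by_cases h2 : G.en y (G.inv s) ∧ G.step y (G.inv s) = x
    · obtain ⟨h2, rfl⟩ := h2
      exfalso
      apply h1
      have := G.en_symm _ _ h2
      rw [G.inv_inv] at this
      refine ⟨this, ?_⟩
      have := G.step_inv y (G.inv s)
      rwa [G.inv_inv] at this
    · have e1 : (if G.en x s then (scDelta y (G.step x s) : ℂ) else 0) = 0 := by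
        by_cases h : G.en x s
        · rw [if_pos h, scDelta_ne (fun h' => h1 ⟨h, h'⟩)]
        · rw [if_neg h]
      have e2 : (if G.en y (G.inv s) then (scDelta x (G.step y (G.inv s)) : ℂ) else 0) = 0 := by
        by_cases h : G.en y (G.inv s)
        · rw [if_pos h, scDelta_ne (fun h' => h2 ⟨h, h'⟩)]
        · rw [if_neg h]
      rw [e1, e2]

variable {G d A}

theorem its_isSelfAdjoint (hA : G.IsLap d A) : IsSelfAdjoint A := by
  classical
  rw [IsSelfAdjoint]
  refine scOp_ext fun x => ?_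
  ext y
  rw [sc_star_delta_apply, hA, hA, its_count_symm G x y]
  have h1 : (scDelta y x : ℂ) = scDelta x y := by
    by_cases h : x = y
    · subst h; rfl
    · rw [scDelta_ne h, scDelta_ne (Ne.symm h)]
  rw [map_sub, map_mul, map_sum, h1]
  congr 1
  · by_cases h : y = x
    · subst h; simp
    · simp [scDelta_ne h]
  · refine Finset.sum_congr rfl fun s _ => ?_
    split_ifs
    · by_cases h : G.step y s = x
      · rw [h]; simp
      · simp [scDelta_ne h]
    · simp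

theorem its_inner_symm (hA : G.IsLap d A) (ξ η : ScL2 V) : ⟪A ξ, η⟫_ℂ = ⟪ξ, A η⟫_ℂ := by
  have h := its_isSelfAdjoint hA
  rw [← ContinuousLinearMap.adjoint_inner_right, ← ContinuousLinearMap.star_eq_adjoint, h.star_eq]

/-- `A` commutes with the restriction to a union of components. -/
theorem its_comm_restr (hA : G.IsLap d A) (B : Set V)
    (hB : ∀ x s, G.en x s → (x ∈ B ↔ G.step x s ∈ B)) (ξ : ScL2 V) :
    A (scRestr B ξ) = scRestr B (A ξ) := by
  ext x
  rw [hA]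
  by_cases hx : x ∈ B
  · rw [scRestr_apply_mem _ hx, scRestr_apply_mem _ hx, hA]
    congr 1
    refine Finset.sum_congr rfl fun s _ => ?_
    split_ifs with h
    · rw [scRestr_apply_mem _ ((hB x s h).1 hx)]
    · rfl
  · rw [scRestr_apply_not_mem _ hx, scRestr_apply_not_mem _ hx, mul_zero, zero_sub, neg_eq_zero]
    refine Finset.sum_eq_zero fun s _ => ?_
    split_ifs with h
    · rw [scRestr_apply_not_mem _ (fun h' => hx ((hB x s h).2 h'))]
    · rfl

end basic

/-- Bound for the adjacency form on a finite set. -/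
theorem its_darts_mul_le (G : ItsDart V L) [∀ x, DecidablePred (G.en x)] (d : ℕ)
    (hdeg : ∀ x, (Finset.univ.filter fun s => G.en x s).card ≤ d) (F : Finset V) (g : V → ℝ) :
    ∑ z ∈ G.darts F, g z.1 * g (G.step z.1 z.2) ≤ d * ∑ x ∈ F, g x ^ 2 := by
  have s1 : ∑ z ∈ G.darts F, g z.1 ^ 2 = ∑ x ∈ F, (G.degIn F x : ℝ) * g x ^ 2 :=
    G.sum_darts_src F fun x => g x ^ 2
  have s2 : ∑ z ∈ G.darts F, g (G.step z.1 z.2) ^ 2 = ∑ x ∈ F, (G.degIn F x : ℝ) * g x ^ 2 := by
    rw [← s1]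
    exact (G.sum_darts_rev F fun u _ => g u ^ 2).symm
  have hWN : ∑ x ∈ F, (G.degIn F x : ℝ) * g x ^ 2 ≤ d * ∑ x ∈ F, g x ^ 2 := by
    rw [Finset.mul_sum]
    refine Finset.sum_le_sum fun x _ => ?_
    refine mul_le_mul_of_nonneg_right ?_ (by positivity)
    exact_mod_cast (G.degIn_le F x).trans (hdeg x)
  have : 2 * ∑ z ∈ G.darts F, g z.1 * g (G.step z.1 z.2) ≤
      ∑ z ∈ G.darts F, g z.1 ^ 2 + ∑ z ∈ G.darts F, g (G.step z.1 z.2) ^ 2 := by
    rw [Finset.mul_sum, ← Finset.sum_add_distrib]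
    refine Finset.sum_le_sum fun z _ => ?_
    nlinarith [sq_nonneg (g z.1 - g (G.step z.1 z.2))]
  rw [s1, s2] at this
  linarith

/-- `A ≤ 2d`. -/
theorem its_form_le (G : ItsDart V L) [∀ x, DecidablePred (G.en x)] (d : ℕ)
    (hdeg : ∀ x, (Finset.univ.filter fun s => G.en x s).card ≤ d)
    (A : ScL2 V →L[ℂ] ScL2 V) (hA : G.IsLap d A) (ξ : ScL2 V) :
    (⟪A ξ, ξ⟫_ℂ).re ≤ 2 * d * ‖ξ‖ ^ 2 := by
  classical
  have hlim := its_restr_tendsto ξ
  have h1 : Filter.Tendsto (fun T : Finset V => 2 * (d : ℝ) * ‖scRestr (↑T : Set V) ξ‖ ^ 2)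
      Filter.atTop (nhds (2 * d * ‖ξ‖ ^ 2)) :=
    ((continuous_norm.tendsto _).comp hlim).pow 2 |>.const_mul _
  have hcont : Continuous fun η : ScL2 V => (⟪A η, η⟫_ℂ).re :=
    Complex.continuous_re.comp (Continuous.inner A.continuous continuous_id)
  have h2 := (hcont.tendsto ξ).comp hlim
  refine le_of_tendsto_of_tendsto' h2 h1 fun T => ?_
  set η := scRestr (↑T : Set V) ξ with hη
  have hη0 : ∀ x, x ∉ T → η x = 0 := fun x hx => scRestr_apply_not_mem ξ (by exact_mod_cast hx)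
  simp only [Function.comp]
  rw [its_norm_sq_fin T η hη0, its_form_fin G d A hA T η hη0]
  have h3 := its_darts_mul_le G d hdeg T fun x => ‖η x‖
  rw [G.sum_darts_eq T fun z => ‖η z.1‖ * ‖η (G.step z.1 z.2)‖] at h3
  dsimp only at h3
  have h4 : ∑ x ∈ T, ((d : ℝ) * ‖η x‖ ^ 2 -
      ∑ s, if G.en x s then (conj (η (G.step x s)) * η x).re else 0) ≤
      ∑ x ∈ T, ((d : ℝ) * ‖η x‖ ^ 2 +
      ∑ s, if G.en x s ∧ G.step x s ∈ T then ‖η x‖ * ‖η (G.step x s)‖ else 0) := by
    refine Finset.sum_le_sum fun x _ => ?_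
    rw [sub_eq_add_neg, ← Finset.sum_neg_distrib]
    refine add_le_add le_rfl (Finset.sum_le_sum fun s _ => ?_)
    by_cases h1 : G.en x s
    · by_cases h2 : G.step x s ∈ T
      · rw [if_pos h1, if_pos ⟨h1, h2⟩]
        calc -(conj (η (G.step x s)) * η x).re ≤ |(conj (η (G.step x s)) * η x).re| :=
              neg_le_abs _
          _ ≤ ‖conj (η (G.step x s)) * η x‖ := Complex.abs_re_le_norm _
          _ = ‖η x‖ * ‖η (G.step x s)‖ := by
            rw [norm_mul, RCLike.norm_conj, mul_comm]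
      · rw [if_pos h1, if_neg (fun h => h2 h.2), hη0 _ h2]
        simp
    · rw [if_neg h1, if_neg (fun h => h1 h.1)]
      simp
  refine h4.trans ?_
  rw [Finset.sum_add_distrib, ← Finset.mul_sum]
  have h3' : (∑ x ∈ T, ∑ s, if G.en x s ∧ G.step x s ∈ T then ‖η x‖ * ‖η (G.step x s)‖ else 0) ≤
      d * ∑ x ∈ T, ‖η x‖ ^ 2 := by
    convert h3
  linarith

/-- Local form of the Cheeger bound. -/
theorem its_cheeger_loc (G : ItsDart V L) [∀ x, DecidablePred (G.en x)] (d : ℕ)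
    (hd : 0 < d) (c : ℝ) (hc : 0 < c)
    (hdeg : ∀ x, (Finset.univ.filter fun s => G.en x s).card ≤ d) (T : Finset V)
    (hdef : ∀ S ⊆ T, c / 2 * (S.card : ℝ) ≤ d * (S.card : ℝ) - ((G.darts S).card : ℝ))
    (η : V → ℂ) (hη : ∀ x ∈ T, ∀ s, G.en x s → G.step x s ∉ T → η (G.step x s) = 0) :
    c ^ 2 / (8 * d) * ∑ x ∈ T, ‖η x‖ ^ 2 ≤ ∑ x ∈ T, ((d : ℝ) * ‖η x‖ ^ 2 -
      ∑ s, if G.en x s then (conj (η (G.step x s)) * η x).re else 0) := by
  classical
  refine (its_fin_cheeger G d hd c hc hdeg T hdef fun x => ‖η x‖).trans ?_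
  rw [G.sum_darts_eq T fun z => ‖η z.1‖ * ‖η (G.step z.1 z.2)‖, ← Finset.sum_sub_distrib]
  refine Finset.sum_le_sum fun x hx => ?_
  refine sub_le_sub_left (Finset.sum_le_sum fun s _ => ?_) _
  by_cases h1 : G.en x s
  · by_cases h2 : G.step x s ∈ T
    · rw [if_pos h1, if_pos ⟨h1, h2⟩]
      calc (conj (η (G.step x s)) * η x).re ≤ ‖conj (η (G.step x s)) * η x‖ := Complex.re_le_norm _
        _ = ‖η x‖ * ‖η (G.step x s)‖ := by
          rw [norm_mul, RCLike.norm_conj, mul_comm]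
    · rw [if_pos h1, if_neg (fun h => h2 h.2), hη x hx s h1 h2]
      simp
  · rw [if_neg h1, if_neg (fun h => h1 h.1)]

/-- The valid copies: finite disjoint `d`-regular unions of components with a spectral gap. -/
structure ItsBlocks (G : ItsDart V L) [∀ x, DecidablePred (G.en x)] (d : ℕ) (ρ : ℝ)
    (ι : Type) where
  P : ι → Finset V
  ne : ∀ k, (P k).Nonempty
  disj : ∀ k l x, x ∈ P k → x ∈ P l → k = l
  closed : ∀ k x s, x ∈ P k → G.en x s → G.step x s ∈ P k
  reg : ∀ k x, x ∈ P k → (Finset.univ.filter fun s => G.en x s).card = d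
  gap : ∀ k (f : V → ℝ), ∑ x ∈ P k, f x = 0 →
    ρ * ∑ x ∈ P k, f x ^ 2 ≤ ∑ x ∈ P k, ((d : ℝ) * f x ^ 2 -
      ∑ s, if G.en x s then f (G.step x s) * f x else 0)

namespace ItsBlocks

variable {G : ItsDart V L} [∀ x, DecidablePred (G.en x)] {d : ℕ} {ρ : ℝ} {ι : Type}
  (B : ItsBlocks G d ρ ι)

/-- The complement of all blocks. -/
def U : Set V := {x | ∀ k, x ∉ B.P k}

theorem closed_iff (k : ι) (x : V) (s : L) (h : G.en x s) :
    x ∈ B.P k ↔ G.step x s ∈ B.P k := by
  refine ⟨fun hx => B.closed k x s hx h, fun hx => ?_⟩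
  have := B.closed k _ _ hx (G.en_symm x s h)
  rwa [G.step_inv] at this

theorem closed_U (x : V) (s : L) (h : G.en x s) : x ∈ B.U ↔ G.step x s ∈ B.U := by
  show (∀ k, x ∉ B.P k) ↔ (∀ k, G.step x s ∉ B.P k)
  exact forall_congr' fun k => not_congr (B.closed_iff k x s h)

/-- Complex form of the Poincare inequality on a block. -/
theorem gap_complex (k : ι) (ζ : V → ℂ) (h0 : ∑ x ∈ B.P k, ζ x = 0) :
    ρ * ∑ x ∈ B.P k, ‖ζ x‖ ^ 2 ≤ ∑ x ∈ B.P k, ((d : ℝ) * ‖ζ x‖ ^ 2 -
      ∑ s, if G.en x s then (conj (ζ (G.step x s)) * ζ x).re else 0) := by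
  have hre : ∑ x ∈ B.P k, (ζ x).re = 0 := by
    rw [← Complex.re_sum, h0, Complex.zero_re]
  have him : ∑ x ∈ B.P k, (ζ x).im = 0 := by
    rw [← Complex.im_sum, h0, Complex.zero_im]
  have h1 := B.gap k (fun x => (ζ x).re) hre
  have h2 := B.gap k (fun x => (ζ x).im) him
  have e1 : ∑ x ∈ B.P k, ‖ζ x‖ ^ 2 =
      ∑ x ∈ B.P k, (ζ x).re ^ 2 + ∑ x ∈ B.P k, (ζ x).im ^ 2 := by
    rw [← Finset.sum_add_distrib]
    refine Finset.sum_congr rfl fun x _ => ?_
    rw [← Complex.normSq_eq_norm_sq, Complex.normSq_apply]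
    ring
  have e2 : ∑ x ∈ B.P k, ((d : ℝ) * ‖ζ x‖ ^ 2 -
      ∑ s, if G.en x s then (conj (ζ (G.step x s)) * ζ x).re else 0) =
      ∑ x ∈ B.P k, ((d : ℝ) * (ζ x).re ^ 2 -
        ∑ s, if G.en x s then (ζ (G.step x s)).re * (ζ x).re else 0) +
      ∑ x ∈ B.P k, ((d : ℝ) * (ζ x).im ^ 2 -
        ∑ s, if G.en x s then (ζ (G.step x s)).im * (ζ x).im else 0) := by
    rw [← Finset.sum_add_distrib]
    refine Finset.sum_congr rfl fun x _ => ?_
    have : ∑ s, (if G.en x s then (conj (ζ (G.step x s)) * ζ x).re else 0) =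
        ∑ s, (if G.en x s then (ζ (G.step x s)).re * (ζ x).re else 0) +
        ∑ s, (if G.en x s then (ζ (G.step x s)).im * (ζ x).im else 0) := by
      rw [← Finset.sum_add_distrib]
      refine Finset.sum_congr rfl fun s _ => ?_
      split_ifs
      · simp [Complex.mul_re]
      · simp
    rw [this, ← Complex.normSq_eq_norm_sq, Complex.normSq_apply]
    ring
  rw [e1, e2, mul_add]
  exact add_le_add h1 h2

end ItsBlocks

/-! ### Indicator vectors and the kernel projection -/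

/-- The indicator vector of a finite set. -/
noncomputable def itsOne (F : Finset V) : ScL2 V := ∑ x ∈ F, scDelta x

omit [Fintype L] in
theorem itsOne_apply (F : Finset V) (y : V) [Decidable (y ∈ F)] :
    itsOne F y = if y ∈ F then 1 else 0 := by
  classical
  have : (itsOne F) y = ∑ x ∈ F, (scDelta x : ScL2 V) y := by
    rw [itsOne, lp.coeFn_sum, Finset.sum_apply]
  rw [this]
  simp only [scDelta_apply]
  simp

omit [Fintype L] in
theorem itsOne_apply_mem {F : Finset V} {y : V} (h : y ∈ F) : itsOne F y = 1 := by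
  classical
  rw [itsOne_apply, if_pos h]

omit [Fintype L] in
theorem itsOne_apply_not_mem {F : Finset V} {y : V} (h : y ∉ F) : itsOne F y = 0 := by
  classical
  rw [itsOne_apply, if_neg h]

omit [Fintype L] in
theorem its_inner_one (F : Finset V) (ξ : ScL2 V) : ⟪itsOne F, ξ⟫_ℂ = ∑ x ∈ F, ξ x := by
  rw [itsOne, sum_inner]
  simp

/-- The kernel of `A` as a closed subspace. -/
noncomputable def itsKer (A : ScL2 V →L[ℂ] ScL2 V) : Submodule ℂ (ScL2 V) :=
  LinearMap.ker (A : ScL2 V →ₗ[ℂ] ScL2 V)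

omit [Fintype L] in
theorem mem_itsKer {A : ScL2 V →L[ℂ] ScL2 V} {ξ : ScL2 V} : ξ ∈ itsKer A ↔ A ξ = 0 :=
  LinearMap.mem_ker

instance its_ker_complete (A : ScL2 V →L[ℂ] ScL2 V) : CompleteSpace (itsKer A) :=
  A.isClosed_ker.completeSpace_coe

/-- The orthogonal projection on the kernel of `A`. -/
noncomputable def itsKerProj (A : ScL2 V →L[ℂ] ScL2 V) : ScL2 V →L[ℂ] ScL2 V :=
  (itsKer A).starProjection

omit [Fintype L] in
theorem its_kerProj_isStarProjection (A : ScL2 V →L[ℂ] ScL2 V) :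
    IsStarProjection (itsKerProj A) :=
  isStarProjection_starProjection

omit [Fintype L] in
theorem its_apply_kerProj (A : ScL2 V →L[ℂ] ScL2 V) (ξ : ScL2 V) : A (itsKerProj A ξ) = 0 :=
  mem_itsKer.1 ((itsKer A).starProjection_apply_mem ξ)

omit [Fintype L] in
theorem its_kerProj_eq_self_iff (A : ScL2 V →L[ℂ] ScL2 V) (ξ : ScL2 V) :
    itsKerProj A ξ = ξ ↔ A ξ = 0 :=
  (Submodule.starProjection_eq_self_iff).trans mem_itsKer

omit [Fintype L] in
theorem its_sub_kerProj_inner (A : ScL2 V →L[ℂ] ScL2 V) (ξ κ : ScL2 V) (hκ : A κ = 0) :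
    ⟪ξ - itsKerProj A ξ, κ⟫_ℂ = 0 :=
  Submodule.starProjection_inner_eq_zero ξ κ (mem_itsKer.2 hκ)

/-- All hypotheses of IT Lemma 5.4 in the dart model. -/
structure ItsSetup (G : ItsDart V L) [∀ x, DecidablePred (G.en x)] (d : ℕ) (ρ c : ℝ)
    (ι : Type) (A : ScL2 V →L[ℂ] ScL2 V) extends ItsBlocks G d ρ ι where
  d_pos : 0 < d
  rho_pos : 0 < ρ
  c_pos : 0 < c
  deg_le : ∀ x, (Finset.univ.filter fun s => G.en x s).card ≤ d
  lap : G.IsLap d A
  deficit : ∀ S : Finset V, (∀ x ∈ S, ∀ k, x ∉ P k) →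
    c / 2 * (S.card : ℝ) ≤ d * (S.card : ℝ) - ((G.darts S).card : ℝ)

namespace ItsSetup

variable {G : ItsDart V L} [∀ x, DecidablePred (G.en x)] {d : ℕ} {ρ c : ℝ} {ι : Type}
  {A : ScL2 V →L[ℂ] ScL2 V} (B : ItsSetup G d ρ c ι A)

theorem one_mem_ker (k : ι) : A (itsOne (B.P k)) = 0 := by
  classical
  ext x
  rw [B.lap]
  by_cases hx : x ∈ B.P k
  · have h1 : ∑ s, (if G.en x s then (itsOne (B.P k) (G.step x s) : ℂ) else 0) =
        ∑ s, if G.en x s then (1 : ℂ) else 0 := by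
      refine Finset.sum_congr rfl fun s _ => ?_
      split_ifs with h
      · rw [itsOne_apply_mem (B.closed k x s hx h)]
      · rfl
    rw [h1, itsOne_apply_mem hx, ← Finset.sum_filter, Finset.sum_const, B.reg k x hx]
    simp
  · have h1 : ∑ s, (if G.en x s then (itsOne (B.P k) (G.step x s) : ℂ) else 0) = 0 := by
      refine Finset.sum_eq_zero fun s _ => ?_
      split_ifs with h
      · rw [itsOne_apply_not_mem (fun h' => hx ((B.closed_iff k x s h).2 h'))]
      · rfl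
    rw [h1, itsOne_apply_not_mem hx]
    simp

theorem ker_zero_U {η : ScL2 V} (hη : A η = 0) {x : V} (hx : x ∈ B.U) : η x = 0 := by
  have h1 : A (scRestr B.U η) = 0 := by
    rw [its_comm_restr B.lap B.U B.closed_U, hη, map_zero]
  have h2 := its_cheeger G d B.d_pos c B.c_pos B.deg_le A B.lap B.U
    (fun S hS => B.deficit S fun x hx => hS hx) (scRestr B.U η)
    (fun x hx => scRestr_apply_not_mem η hx)
  rw [h1, inner_zero_left, Complex.zero_re] at h2
  have hd' : (0 : ℝ) < d := by exact_mod_cast B.d_pos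
  have hc := B.c_pos
  have h3 : 0 < c ^ 2 / (8 * d) := by positivity
  have h4 : ‖scRestr B.U η‖ ^ 2 ≤ 0 := by
    by_contra h
    nlinarith [mul_pos h3 (not_le.1 h)]
  have h5 : scRestr B.U η = 0 := by
    have : ‖scRestr B.U η‖ = 0 := by
      have := sq_nonneg ‖scRestr B.U η‖
      exact pow_eq_zero_iff (two_ne_zero) |>.1 (le_antisymm h4 this)
    exact norm_eq_zero.1 this
  rw [← scRestr_apply_mem η hx, h5]
  rfl

theorem ker_const {η : ScL2 V} (hη : A η = 0) {k : ι} {x : V} (hx : x ∈ B.P k) :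
    η x = ((B.P k).card : ℂ)⁻¹ * ∑ y ∈ B.P k, η y := by
  classical
  set n : ℂ := ((B.P k).card : ℂ) with hn
  have hn0 : n ≠ 0 := by
    rw [hn]
    exact_mod_cast (Finset.card_pos.2 (B.ne k)).ne'
  set μ : ℂ := n⁻¹ * ∑ y ∈ B.P k, η y with hμ
  set f : ScL2 V := scRestr (↑(B.P k) : Set V) η - μ • itsOne (B.P k) with hf
  have hAf : A f = 0 := by
    rw [hf, map_sub, map_smul, B.one_mem_ker k,
      its_comm_restr B.lap _ (fun x s h => by simpa using B.closed_iff k x s h), hη]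
    simp
  have hfin : ∀ y ∈ B.P k, f y = η y - μ := by
    intro y hy
    have : f y = scRestr (↑(B.P k) : Set V) η y - μ * itsOne (B.P k) y := by
      rw [hf]; rfl
    rw [this, scRestr_apply_mem η (by exact_mod_cast hy), itsOne_apply_mem hy, mul_one]
  have hfout : ∀ y, y ∉ B.P k → f y = 0 := by
    intro y hy
    have : f y = scRestr (↑(B.P k) : Set V) η y - μ * itsOne (B.P k) y := by
      rw [hf]; rfl
    rw [this, scRestr_apply_not_mem η (by exact_mod_cast hy), itsOne_apply_not_mem hy]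
    simp
  have hsum : ∑ y ∈ B.P k, f y = 0 := by
    rw [Finset.sum_congr rfl hfin, Finset.sum_sub_distrib, Finset.sum_const, nsmul_eq_mul, ← hn,
      hμ, ← mul_assoc, mul_inv_cancel₀ hn0, one_mul, sub_self]
  have h1 := B.gap_complex k (fun y => f y) hsum
  rw [← its_form_fin G d A B.lap (B.P k) f hfout, hAf, inner_zero_left, Complex.zero_re] at h1
  have h2 : ∑ y ∈ B.P k, ‖f y‖ ^ 2 ≤ 0 := by
    by_contra h
    nlinarith [mul_pos B.rho_pos (not_le.1 h)]
  have h3 : ‖f x‖ ^ 2 ≤ 0 :=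
    (Finset.single_le_sum (f := fun y => ‖f y‖ ^ 2) (fun y _ => by positivity) hx).trans h2
  have h4 : f x = 0 := by
    have : ‖f x‖ = 0 := pow_eq_zero_iff (two_ne_zero) |>.1 (le_antisymm h3 (sq_nonneg _))
    exact norm_eq_zero.1 this
  rw [hfin x hx, sub_eq_zero] at h4
  exact h4

/-- The kernel projection vanishes on `U`. -/
theorem kerProj_apply_U (ξ : ScL2 V) {x : V} (hx : x ∈ B.U) : itsKerProj A ξ x = 0 :=
  B.ker_zero_U (its_apply_kerProj A ξ) hx

/-- The kernel projection is the mean on each block. -/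
theorem kerProj_apply_P (ξ : ScL2 V) {k : ι} {x : V} (hx : x ∈ B.P k) :
    itsKerProj A ξ x = ((B.P k).card : ℂ)⁻¹ * ∑ y ∈ B.P k, ξ y := by
  rw [B.ker_const (its_apply_kerProj A ξ) hx]
  congr 1
  have h := its_sub_kerProj_inner A ξ (itsOne (B.P k)) (B.one_mem_ker k)
  rw [← inner_conj_symm, its_inner_one, map_eq_zero] at h
  have h2 : ∑ y ∈ B.P k, (ξ - itsKerProj A ξ) y = ∑ y ∈ B.P k, ξ y - ∑ y ∈ B.P k, itsKerProj A ξ y := by
    rw [← Finset.sum_sub_distrib]
    rfl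
  rw [h2, sub_eq_zero] at h
  exact h.symm

/-- Diagonal of the kernel projection (IT (5.20)). -/
theorem kerProj_diag_P {k : ι} {x : V} (hx : x ∈ B.P k) :
    itsKerProj A (scDelta x) x = ((B.P k).card : ℂ)⁻¹ := by
  classical
  rw [B.kerProj_apply_P _ hx]
  simp [scDelta_apply, hx]

theorem kerProj_diag_U {x : V} (hx : x ∈ B.U) : itsKerProj A (scDelta x) x = 0 :=
  B.kerProj_apply_U _ hx

include B in
/-- The form of `A` only sees the part orthogonal to the kernel. -/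
theorem form_sub_kerProj (ξ : ScL2 V) :
    ⟪A ξ, ξ⟫_ℂ = ⟪A (ξ - itsKerProj A ξ), ξ - itsKerProj A ξ⟫_ℂ := by
  have h1 : A (ξ - itsKerProj A ξ) = A ξ := by
    rw [map_sub, its_apply_kerProj, sub_zero]
  rw [h1, inner_sub_right, its_inner_symm B.lap ξ (itsKerProj A ξ), its_apply_kerProj,
    inner_zero_right, sub_zero]

theorem mean_zero (ξ : ScL2 V) (k : ι) : ∑ y ∈ B.P k, (ξ - itsKerProj A ξ) y = 0 := by
  have h := its_sub_kerProj_inner A ξ (itsOne (B.P k)) (B.one_mem_ker k)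
  rwa [← inner_conj_symm, its_inner_one, map_eq_zero] at h

/-- The gap constant. -/
noncomputable def eps (_B : ItsSetup G d ρ c ι A) : ℝ := min ρ (c ^ 2 / (8 * d))

theorem eps_pos : 0 < B.eps := by
  have hd' : (0 : ℝ) < d := by exact_mod_cast B.d_pos
  have hc := B.c_pos
  exact lt_min B.rho_pos (by positivity)

/-- Gap inequality for finitely supported vectors. -/
theorem gap_fin (T : Finset V) (ξ : ScL2 V) (hξ : ∀ x, x ∉ T → ξ x = 0) :
    B.eps * ‖ξ - itsKerProj A ξ‖ ^ 2 ≤ (⟪A ξ, ξ⟫_ℂ).re := by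
  classical
  rw [B.form_sub_kerProj ξ]
  set ζ : ScL2 V := ξ - itsKerProj A ξ with hζ
  have hζapp : ∀ x, ζ x = ξ x - itsKerProj A ξ x := fun x => rfl
  have hfin : {k | ∃ x ∈ T, x ∈ B.P k}.Finite := by
    have : {k | ∃ x ∈ T, x ∈ B.P k} = ⋃ x ∈ (↑T : Set V), {k | x ∈ B.P k} := by
      ext k
      simp
    rw [this]
    refine Set.Finite.biUnion T.finite_toSet fun x _ => Set.Subsingleton.finite ?_
    intro k hk l hl
    exact B.disj k l x hk hl
  set K : Finset ι := hfin.toFinset with hK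
  have hKmem : ∀ k, k ∈ K ↔ ∃ x ∈ T, x ∈ B.P k := by
    intro k
    rw [hK, Set.Finite.mem_toFinset]
    rfl
  set TU : Finset V := T.filter fun x => x ∈ B.U with hTU
  have hzeroU : ∀ x, x ∈ B.U → x ∉ TU → ζ x = 0 := by
    intro x hxU hx
    have hxT : x ∉ T := fun h => hx (Finset.mem_filter.2 ⟨h, hxU⟩)
    rw [hζapp, hξ x hxT, B.kerProj_apply_U ξ hxU, sub_zero]
  have hsupp : ∀ x, x ∉ TU ∪ K.biUnion B.P → ζ x = 0 := by
    intro x hx
    rw [Finset.mem_union, not_or] at hx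
    by_cases hxU : x ∈ B.U
    · exact hzeroU x hxU hx.1
    · have : ∃ k, x ∈ B.P k := by
        by_contra h
        exact hxU fun k hk => h ⟨k, hk⟩
      obtain ⟨k, hk⟩ := this
      have hkK : k ∉ K := fun h => hx.2 (Finset.mem_biUnion.2 ⟨k, h, hk⟩)
      have hz : ∀ y ∈ B.P k, ξ y = 0 := by
        intro y hy
        exact hξ y fun hyT => hkK ((hKmem k).2 ⟨y, hyT, hy⟩)
      rw [hζapp, hz x hk, B.kerProj_apply_P ξ hk, Finset.sum_eq_zero hz]
      simp
  have hdisj1 : Disjoint TU (K.biUnion B.P) := by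
    rw [Finset.disjoint_left]
    intro x hx hx'
    obtain ⟨k, _, hk⟩ := Finset.mem_biUnion.1 hx'
    exact (Finset.mem_filter.1 hx).2 k hk
  have hdisj2 : (↑K : Set ι).PairwiseDisjoint B.P := by
    intro k _ l _ hkl
    rw [Function.onFun, Finset.disjoint_left]
    intro x hx hx'
    exact hkl (B.disj k l x hx hx')
  rw [its_norm_sq_fin _ ζ hsupp, its_form_fin G d A B.lap _ ζ hsupp,
    Finset.sum_union hdisj1, Finset.sum_union hdisj1, Finset.sum_biUnion hdisj2,
    Finset.sum_biUnion hdisj2, mul_add]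
  refine add_le_add ?_ ?_
  · have h1 := its_cheeger_loc G d B.d_pos c B.c_pos B.deg_le TU
      (fun S hS => B.deficit S fun x hx => (Finset.mem_filter.1 (hS hx)).2) (fun x => ζ x)
      (fun x hx s hs hxs => hzeroU _ ((B.closed_U x s hs).1 (Finset.mem_filter.1 hx).2) hxs)
    refine le_trans ?_ h1
    exact mul_le_mul_of_nonneg_right (min_le_right _ _)
      (Finset.sum_nonneg fun x _ => by positivity)
  · rw [Finset.mul_sum]
    refine Finset.sum_le_sum fun k _ => ?_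
    refine le_trans ?_ (B.gap_complex k (fun x => ζ x) (B.mean_zero ξ k))
    exact mul_le_mul_of_nonneg_right (min_le_left _ _)
      (Finset.sum_nonneg fun x _ => by positivity)

/-- IT Lemma 5.4: `A ≥ ε (1 - E)` with `E` the projection on `ker A`. -/
theorem gap_ineq (ξ : ScL2 V) :
    B.eps * ‖ξ - itsKerProj A ξ‖ ^ 2 ≤ (⟪A ξ, ξ⟫_ℂ).re := by
  have hlim := its_restr_tendsto ξ
  have hc1 : Continuous fun η : ScL2 V => B.eps * ‖η - itsKerProj A η‖ ^ 2 :=
    continuous_const.mul ((continuous_id.sub (itsKerProj A).continuous).norm.pow 2)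
  have hc2 : Continuous fun η : ScL2 V => (⟪A η, η⟫_ℂ).re :=
    Complex.continuous_re.comp (Continuous.inner A.continuous continuous_id)
  refine le_of_tendsto_of_tendsto' ((hc1.tendsto ξ).comp hlim) ((hc2.tendsto ξ).comp hlim)
    fun T => ?_
  exact B.gap_fin T _ fun x hx => scRestr_apply_not_mem ξ (by exact_mod_cast hx)

include B in
theorem form_nonneg (ξ : ScL2 V) : 0 ≤ (⟪A ξ, ξ⟫_ℂ).re :=
  le_trans (mul_nonneg B.eps_pos.le (sq_nonneg _)) (B.gap_ineq ξ)

include B in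
theorem form_le (ξ : ScL2 V) : (⟪A ξ, ξ⟫_ℂ).re ≤ 2 * d * ‖ξ‖ ^ 2 :=
  its_form_le G d B.deg_le A B.lap ξ

/-- `A² ≥ ε A`. -/
theorem sq_ge (ξ : ScL2 V) : B.eps * (⟪A ξ, ξ⟫_ℂ).re ≤ ‖A ξ‖ ^ 2 := by
  set ζ : ScL2 V := ξ - itsKerProj A ξ with hζ
  have h1 : A ζ = A ξ := by rw [hζ, map_sub, its_apply_kerProj, sub_zero]
  set q : ℝ := (⟪A ξ, ξ⟫_ℂ).re with hq
  have hq0 : 0 ≤ q := B.form_nonneg ξ
  have hq1 : B.eps * ‖ζ‖ ^ 2 ≤ q := B.gap_ineq ξ
  have hq2 : q ≤ ‖A ξ‖ * ‖ζ‖ := by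
    rw [hq, B.form_sub_kerProj ξ, ← hζ, h1]
    exact (Complex.re_le_norm _).trans (norm_inner_le_norm _ _)
  have he := B.eps_pos
  rcases hq0.eq_or_lt with h0 | h0
  · rw [← h0, mul_zero]
    positivity
  · have h2 : q ^ 2 ≤ ‖A ξ‖ ^ 2 * ‖ζ‖ ^ 2 := by
      rw [← mul_pow]
      exact pow_le_pow_left₀ hq0 hq2 2
    have h3 : B.eps * q ^ 2 ≤ ‖A ξ‖ ^ 2 * q := by
      calc B.eps * q ^ 2 ≤ B.eps * (‖A ξ‖ ^ 2 * ‖ζ‖ ^ 2) := mul_le_mul_of_nonneg_left h2 he.le
        _ = ‖A ξ‖ ^ 2 * (B.eps * ‖ζ‖ ^ 2) := by ring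
        _ ≤ ‖A ξ‖ ^ 2 * q := mul_le_mul_of_nonneg_left hq1 (sq_nonneg _)
    have h4 : (B.eps * q) * q ≤ ‖A ξ‖ ^ 2 * q := by
      calc (B.eps * q) * q = B.eps * q ^ 2 := by ring
        _ ≤ _ := h3
    exact le_of_mul_le_mul_right h4 h0

include B in
theorem isSelfAdjoint : IsSelfAdjoint A := its_isSelfAdjoint B.lap

end ItsSetup

/-- Two star projections with the same fixed vectors coincide. -/
theorem its_proj_unique {H : Type*} [NormedAddCommGroup H] [InnerProductSpace ℂ H]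
    [CompleteSpace H] (e E : H →L[ℂ] H) (he : IsStarProjection e) (hE : IsStarProjection E)
    (h : ∀ ξ, e ξ = ξ ↔ E ξ = ξ) : e = E := by
  have h1 : ∀ ξ, E (e ξ) = e ξ := fun ξ => (h _).1 (by
    have := congrArg (fun T : H →L[ℂ] H => T ξ) he.isIdempotentElem.eq
    simpa using this)
  have h2 : ∀ ξ, e (E ξ) = E ξ := fun ξ => (h _).2 (by
    have := congrArg (fun T : H →L[ℂ] H => T ξ) hE.isIdempotentElem.eq
    simpa using this)
  have h3 : E * e = e := by
    ext ξ
    exact h1 ξ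
  have h4 : e * E = E := by
    ext ξ
    exact h2 ξ
  have h5 : star (E * e) = e * E := by
    rw [star_mul, he.isSelfAdjoint.star_eq, hE.isSelfAdjoint.star_eq]
  rw [h3, he.isSelfAdjoint.star_eq, h4] at h5
  exact h5

end Claimed.Agent.R300
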