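/-
Row 300 (S0552, irrational trace), IT back end, IT-GAP + IT-DIAG (Lemma 5.4, Proposition 5.5),
owner helper47.  Prefix `itgg` (final theorems `itg_fib_gap`, `itg_fib_diag`).

Assembly: the fibre operator `A = d - Adj` of the enabled graph, the valid copies as blocks
(`ItsBlock.lean`), the global deficit on the complement.  The statements of the other leaves (OPER, VAL1,
VAL2, LOC, DEF) enter as hypotheses, so that this file does not import `ItTop.lean`.
-/
import Claimed.Agent.R300.ItCodeDef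
import Claimed.Agent.R300.ItsBlock

set_option autoImplicit false

namespace Claimed.Agent.R300

open scoped ComplexConjugate InnerProductSpace

section hilb

variable {H : Type} [NormedAddCommGroup H] [InnerProductSpace ℂ H] [CompleteSpace H]

theorem itgg_nonneg_of_form {T : H →L[ℂ] H} (hs : IsSelfAdjoint T)
    (h : ∀ ξ, 0 ≤ (⟪T ξ, ξ⟫_ℂ).re) : 0 ≤ T := by
  rw [ContinuousLinearMap.nonneg_iff_isPositive, ContinuousLinearMap.isPositive_def']
  exact ⟨hs, h⟩

omit [CompleteSpace H] in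
theorem itgg_re_smul (r : ℝ) (x y : H) : (⟪r • x, y⟫_ℂ).re = r * (⟪x, y⟫_ℂ).re := by
  rw [← Complex.coe_smul, inner_smul_left]
  simp

/-- the three operator inequalities from the three inequalities between forms. -/
theorem itgg_gap_of_forms (A : H →L[ℂ] H) (hA : IsSelfAdjoint A) (ε M : ℝ)
    (h0 : ∀ ξ, 0 ≤ (⟪A ξ, ξ⟫_ℂ).re) (h1 : ∀ ξ, (⟪A ξ, ξ⟫_ℂ).re ≤ M * ‖ξ‖ ^ 2)
    (h2 : ∀ ξ, ε * (⟪A ξ, ξ⟫_ℂ).re ≤ ‖A ξ‖ ^ 2) : ItGap A ε M := by
  have hAA : IsSelfAdjoint (A * A) := by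
    rw [IsSelfAdjoint, star_mul, hA.star_eq]
  refine ⟨itgg_nonneg_of_form hA h0, itgg_nonneg_of_form ?_ ?_, itgg_nonneg_of_form ?_ ?_⟩
  · exact (IsSelfAdjoint.smul (IsSelfAdjoint.all M) (IsSelfAdjoint.one _)).sub hA
  · intro ξ
    have h1 := h1 ξ
    have h4 : (⟪ξ, ξ⟫_ℂ).re = ‖ξ‖ ^ 2 := inner_self_eq_norm_sq (𝕜 := ℂ) ξ
    rw [sub_apply, inner_sub_left, smul_apply, one_apply_eq_self, Complex.sub_re, itgg_re_smul, h4]
    linarith
  · exact hAA.sub (IsSelfAdjoint.smul (IsSelfAdjoint.all _) hA)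
  · intro ξ
    have h1 := h2 ξ
    have h3 : ⟪A (A ξ), ξ⟫_ℂ = ⟪A ξ, A ξ⟫_ℂ := by
      rw [← ContinuousLinearMap.adjoint_inner_right, ← ContinuousLinearMap.star_eq_adjoint,
        hA.star_eq]
    have h4 : (⟪A ξ, A ξ⟫_ℂ).re = ‖A ξ‖ ^ 2 := inner_self_eq_norm_sq (𝕜 := ℂ) (A ξ)
    rw [sub_apply, inner_sub_left, smul_apply, Complex.sub_re, itgg_re_smul, mul_apply_eq_comp,
      h3, h4]
    linarith

end hilb

section abstract

variable {V L : Type} [Fintype L] {G : ItsDart V L} [∀ x, DecidablePred (G.en x)] {d : ℕ}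
  {ρ c : ℝ} {ι : Type} {A : ScL2 V →L[ℂ] ScL2 V}

/-- the three operator inequalities. -/
theorem ItsSetup.itGap (B : ItsSetup G d ρ c ι A) : ItGap A (min ρ (c ^ 2 / (8 * d))) (2 * d) :=
  itgg_gap_of_forms A B.isSelfAdjoint _ _ B.form_nonneg B.form_le B.sq_ge

/-- the spectral projection is the kernel projection. -/
theorem ItsSetup.itProj_eq (B : ItsSetup G d ρ c ι A) (hM : min ρ (c ^ 2 / (8 * d)) ≤ 2 * (d : ℝ)) :
    itProj A (min ρ (c ^ 2 / (8 * d))) = itsKerProj A := by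
  have hg := B.itGap
  have hε : 0 < min ρ (c ^ 2 / (8 * d)) := B.eps_pos
  refine its_proj_unique _ _ (hg.isStarProjection hε) (its_kerProj_isStarProjection A) fun ξ => ?_
  rw [its_kerProj_eq_self_iff]
  constructor
  · intro h
    rw [← h]
    exact hg.apply_proj hε ξ
  · intro h
    exact hg.proj_of_ker hε hM h

end abstract

section graph

variable {L Γ : Type} [Group Γ] {Vt : ℕ → Type} [∀ i, Fintype (Vt i)] {D : ItGraphs L Γ Vt}

/-- reversal of the darts of a relator graph. -/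
theorem itgg_sum_rev (hD : D.Good) (i : ℕ) (φ : Vt i → Vt i → ℝ) :
    ∑ v, ∑ s ∈ D.J i v, φ v (D.nb i v s) = ∑ v, ∑ s ∈ D.J i v, φ (D.nb i v s) v := by
  rw [Finset.sum_sigma', Finset.sum_sigma']
  refine Finset.sum_nbij' (fun z => ⟨D.nb i z.1 z.2, D.inv z.2⟩)
    (fun z => ⟨D.nb i z.1 z.2, D.inv z.2⟩) ?_ ?_ ?_ ?_ ?_
  · rintro ⟨v, s⟩ hz
    simp only [Finset.mem_sigma, Finset.mem_univ, true_and] at hz ⊢
    exact (hD.nb_inv i v s hz).1
  · rintro ⟨v, s⟩ hz
    simp only [Finset.mem_sigma, Finset.mem_univ, true_and] at hz ⊢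
    exact (hD.nb_inv i v s hz).1
  · rintro ⟨v, s⟩ hz
    simp only [Finset.mem_sigma, Finset.mem_univ, true_and] at hz
    simp only [(hD.nb_inv i v s hz).2, hD.inv_inv]
  · rintro ⟨v, s⟩ hz
    simp only [Finset.mem_sigma, Finset.mem_univ, true_and] at hz
    simp only [(hD.nb_inv i v s hz).2, hD.inv_inv]
  · rintro ⟨v, s⟩ hz
    simp only [Finset.mem_sigma, Finset.mem_univ, true_and] at hz
    simp only [(hD.nb_inv i v s hz).2]

/-- the Poincare inequality in the form `d - Adj`, real functions. -/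
theorem itgg_poincare (hD : D.Good) (i : ℕ) (g : Vt i → ℝ) (hg : ∑ v, g v = 0) :
    D.ρ * ∑ v, g v ^ 2 ≤ ∑ v, ((D.d : ℝ) * g v ^ 2 - ∑ s ∈ D.J i v, g (D.nb i v s) * g v) := by
  have h1 := hD.poincare i (fun v => (g v : ℂ)) (by exact_mod_cast hg)
  have e1 : ∀ v, ‖((g v : ℂ))‖ ^ 2 = g v ^ 2 := by
    intro v
    rw [Complex.norm_real, Real.norm_eq_abs, sq_abs]
  have e2 : ∀ v s, ‖(g v : ℂ) - (g (D.nb i v s) : ℂ)‖ ^ 2 = (g v - g (D.nb i v s)) ^ 2 := by
    intro v s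
    rw [← Complex.ofReal_sub, Complex.norm_real, Real.norm_eq_abs, sq_abs]
  simp only [e1, e2] at h1
  refine h1.trans (le_of_eq ?_)
  have h2 : ∑ v, ∑ s ∈ D.J i v, g (D.nb i v s) ^ 2 = ∑ v, ∑ s ∈ D.J i v, g v ^ 2 :=
    (itgg_sum_rev hD i fun a _ => g a ^ 2).symm
  have h3 : ∀ v, ∑ s ∈ D.J i v, g v ^ 2 = (D.d : ℝ) * g v ^ 2 := by
    intro v
    rw [Finset.sum_const, hD.J_card, nsmul_eq_mul]
  have h4 : ∀ v, ∑ s ∈ D.J i v, (g v - g (D.nb i v s)) ^ 2 =
      ∑ s ∈ D.J i v, g v ^ 2 + ∑ s ∈ D.J i v, g (D.nb i v s) ^ 2 -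
        2 * ∑ s ∈ D.J i v, g (D.nb i v s) * g v := by
    intro v
    rw [Finset.mul_sum, ← Finset.sum_add_distrib, ← Finset.sum_sub_distrib]
    exact Finset.sum_congr rfl fun s _ => by ring
  simp only [h4, Finset.sum_sub_distrib, Finset.sum_add_distrib, h2, h3, ← Finset.mul_sum]
  ring

end graph

section concrete

open Classical

variable {L Γ : Type} [Fintype L] [Group Γ] {Vt : ℕ → Type} [∀ i, Fintype (Vt i)]
  (D : ItGraphs L Γ Vt) {p : ℕ} (K : ItCode L Vt p)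

/-- what the other leaves (VAL1, VAL2, LOC + DEF) say about one pattern. -/
structure ItggHyp (hD : D.Good) (X : Γ → ZMod p) : Prop where
  en : ∀ q, K.valid D X q → ∀ (v : Vt q.2) (s : L),
    ((K.dart D hD X).en (D.pt q v) s ↔ s ∈ D.J q.2 v)
  disj : ∀ q q', K.valid D X q → K.valid D X q' → ∀ (v : Vt q.2) (v' : Vt q'.2),
    D.pt q v = D.pt q' v' → q = q'
  deficit : ∀ Y : Finset Γ, (∀ q, K.valid D X q → ∀ v, D.pt q v ∉ Y) →
    D.c / 2 * (Y.card : ℝ) ≤ D.d * (Y.card : ℝ) - (((K.dart D hD X).darts Y).card : ℝ)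

variable {D K}

omit [Fintype L] in
theorem itgg_pt_injective (hD : D.Good) (q : Γ × ℕ) : Function.Injective (D.pt q) :=
  fun _ _ h => hD.φ_inj q.2 (mul_left_cancel h)

omit [Fintype L] in
theorem itgg_step (hD : D.Good) (q : Γ × ℕ) (v : Vt q.2) (s : L) (hs : s ∈ D.J q.2 v) :
    D.pt q v * D.val s = D.pt q (D.nb q.2 v s) := by
  simp only [ItGraphs.pt, hD.φ_nb _ _ _ hs, mul_assoc]

omit [Fintype L] in
theorem itgg_c_pos (hD : D.Good) : 0 < D.c := by
  unfold ItGraphs.c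
  have := hD.κ_pos
  positivity

omit [Fintype L] in
theorem itgg_eps_le (hD : D.Good) : min D.ρ (D.c ^ 2 / (8 * D.d)) ≤ 2 * (D.d : ℝ) := by
  have hd : (3 : ℝ) ≤ D.d := by exact_mod_cast hD.three_le
  have hc0 := itgg_c_pos hD
  have hc : D.c ≤ 1 := by
    unfold ItGraphs.c
    have : min D.κ 1 ≤ 1 := min_le_right _ _
    linarith
  refine (min_le_right _ _).trans ?_
  rw [div_le_iff₀ (by positivity)]
  nlinarith

/-- sums over the enabled darts at a vertex of a valid copy. -/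
theorem itgg_sum_en {hD : D.Good} {X : Γ → ZMod p} (H : ItggHyp D K hD X) (q : Γ × ℕ)
    (hq : K.valid D X q) (v : Vt q.2) (F : Γ → ℝ) :
    (∑ s, if (K.dart D hD X).en (D.pt q v) s then F ((K.dart D hD X).step (D.pt q v) s) else 0) =
      ∑ s ∈ D.J q.2 v, F (D.pt q (D.nb q.2 v s)) := by
  rw [← Finset.sum_filter]
  have : (Finset.univ.filter fun s => (K.dart D hD X).en (D.pt q v) s) = D.J q.2 v := by
    ext s
    simp only [Finset.mem_filter, Finset.mem_univ, true_and]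
    exact H.en q hq v s
  rw [this]
  refine Finset.sum_congr rfl fun s hs => ?_
  congr 1
  exact itgg_step hD q v s hs

/-- the valid copies as blocks, the deficit on the complement. -/
noncomputable def itggSetup (hD : D.Good) (hK : K.Good D) (X : Γ → ZMod p) (H : ItggHyp D K hD X)
    (A : ScL2 Γ →L[ℂ] ScL2 Γ) (hA : (K.dart D hD X).IsLap D.d A) :
    ItsSetup (K.dart D hD X) D.d D.ρ D.c {q : Γ × ℕ // K.valid D X q} A where
  P q := Finset.univ.image (D.pt q.1)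
  ne q := by
    have h : 0 < Fintype.card (Vt q.1.2) := lt_trans (by norm_num) (hD.card_gt q.1.2)
    obtain ⟨v⟩ := Fintype.card_pos_iff.1 h
    exact ⟨D.pt q.1 v, Finset.mem_image_of_mem _ (Finset.mem_univ v)⟩
  disj := by
    rintro ⟨q, hq⟩ ⟨q', hq'⟩ x hx hx'
    simp only [Finset.mem_image, Finset.mem_univ, true_and] at hx hx'
    obtain ⟨v, rfl⟩ := hx
    obtain ⟨v', hv'⟩ := hx'
    exact Subtype.ext (H.disj q q' hq hq' v v' hv'.symm)
  closed := by
    rintro ⟨q, hq⟩ x s hx hs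
    simp only [Finset.mem_image, Finset.mem_univ, true_and] at hx ⊢
    obtain ⟨v, rfl⟩ := hx
    exact ⟨D.nb q.2 v s, (itgg_step hD q v s ((H.en q hq v s).1 hs)).symm⟩
  reg := by
    rintro ⟨q, hq⟩ x hx
    simp only [Finset.mem_image, Finset.mem_univ, true_and] at hx
    obtain ⟨v, rfl⟩ := hx
    have : (Finset.univ.filter fun s => (K.dart D hD X).en (D.pt q v) s) = D.J q.2 v := by
      ext s
      simp only [Finset.mem_filter, Finset.mem_univ, true_and]
      exact H.en q hq v s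
    rw [this, hD.J_card]
  gap := by
    rintro ⟨q, hq⟩ f hf
    have hinj := itgg_pt_injective hD q
    rw [Finset.sum_image (fun a _ b _ h => hinj h)] at hf ⊢
    rw [Finset.sum_image (fun a _ b _ h => hinj h)]
    have h1 := itgg_poincare hD q.2 (fun v => f (D.pt q v)) hf
    refine h1.trans (le_of_eq ?_)
    refine Finset.sum_congr rfl fun v _ => ?_
    congr 1
    exact (itgg_sum_en H q hq v fun y => f y * f (D.pt q v)).symm
  d_pos := lt_of_lt_of_le (by norm_num) hD.three_le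
  rho_pos := hD.ρ_pos
  c_pos := itgg_c_pos hD
  deg_le := by
    intro x
    refine le_trans (Finset.card_le_card ?_) (hK.dec_card (X x))
    intro s hs
    simp only [Finset.mem_filter, Finset.mem_univ, true_and] at hs
    exact hs.1
  lap := hA
  deficit := by
    intro S hS
    refine H.deficit S fun q hq v hv => ?_
    exact hS _ hv ⟨q, hq⟩ (Finset.mem_image_of_mem _ (Finset.mem_univ v))

theorem itgg_gap (hD : D.Good) (hK : K.Good D) (X : Γ → ZMod p) (H : ItggHyp D K hD X)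
    (A : ScL2 Γ →L[ℂ] ScL2 Γ) (hA : (K.dart D hD X).IsLap D.d A) :
    ItGap A (min D.ρ (D.c ^ 2 / (8 * D.d))) (2 * D.d) :=
  (itggSetup hD hK X H A hA).itGap

theorem itgg_diag (hD : D.Good) (hK : K.Good D) (X : Γ → ZMod p) (H : ItggHyp D K hD X)
    (A : ScL2 Γ →L[ℂ] ScL2 Γ) (hA : (K.dart D hD X).IsLap D.d A) :
    scTr (itProj A (min D.ρ (D.c ^ 2 / (8 * D.d)))) =
      ∑' i, ∑ v : Vt i, if K.valid D X ((D.φ i v)⁻¹, i) then (Fintype.card (Vt i) : ℂ)⁻¹
        else 0 := by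
  set B := itggSetup hD hK X H A hA with hB
  rw [B.itProj_eq (itgg_eps_le hD)]
  unfold scTr
  have hone : ∀ i (v : Vt i), D.pt ((D.φ i v)⁻¹, i) v = 1 := by
    intro i v
    simp [ItGraphs.pt]
  by_cases h : ∃ i, ∃ v : Vt i, K.valid D X ((D.φ i v)⁻¹, i)
  · obtain ⟨i0, v0, h0⟩ := h
    have huniq : ∀ i (v : Vt i), K.valid D X ((D.φ i v)⁻¹, i) →
        (⟨i, v⟩ : Σ i, Vt i) = ⟨i0, v0⟩ := by
      intro i v hv
      have h1 := H.disj _ _ hv h0 v v0 ((hone i v).trans (hone i0 v0).symm)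
      rw [Prod.mk.injEq] at h1
      obtain ⟨h2, rfl⟩ := h1
      rw [hD.φ_inj i (inv_injective h2)]
    have hmem : (1 : Γ) ∈ B.P ⟨((D.φ i0 v0)⁻¹, i0), h0⟩ := by
      show (1 : Γ) ∈ Finset.univ.image (D.pt ((D.φ i0 v0)⁻¹, i0))
      exact Finset.mem_image.2 ⟨v0, Finset.mem_univ _, hone i0 v0⟩
    rw [B.kerProj_diag_P hmem]
    have hcard : (B.P ⟨((D.φ i0 v0)⁻¹, i0), h0⟩).card = Fintype.card (Vt i0) := by
      show (Finset.univ.image (D.pt ((D.φ i0 v0)⁻¹, i0))).card = _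
      rw [Finset.card_image_of_injective _ (itgg_pt_injective hD _)]
      rfl
    rw [hcard, tsum_eq_single i0, Finset.sum_eq_single v0, if_pos h0]
    · intro v _ hv
      rw [if_neg]
      intro hval
      have := huniq i0 v hval
      rw [Sigma.mk.inj_iff] at this
      exact hv (eq_of_heq this.2)
    · intro hv
      exact absurd (Finset.mem_univ _) hv
    · intro i hi
      refine Finset.sum_eq_zero fun v _ => ?_
      rw [if_neg]
      intro hval
      have := huniq i v hval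
      rw [Sigma.mk.inj_iff] at this
      exact hi this.1
  · have hU : (1 : Γ) ∈ B.U := by
      rintro ⟨q, hq⟩ hmem
      have hmem' : (1 : Γ) ∈ Finset.univ.image (D.pt q) := hmem
      obtain ⟨v, -, hv⟩ := Finset.mem_image.1 hmem'
      apply h
      refine ⟨q.2, v, ?_⟩
      have h1 : q.1 = (D.φ q.2 v)⁻¹ := eq_inv_of_mul_eq_one_left hv
      rw [← h1]
      exact hq
    rw [B.kerProj_diag_U hU]
    push Not at h
    symm
    have : ∀ i, (∑ v : Vt i, if K.valid D X ((D.φ i v)⁻¹, i) then (Fintype.card (Vt i) : ℂ)⁻¹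
        else 0) = 0 := by
      intro i
      exact Finset.sum_eq_zero fun v _ => if_neg (h i v)
    simp only [this, tsum_zero]

end concrete

section final

variable {L Γ : Type} [Fintype L] [Group Γ] {Vt : ℕ → Type} [∀ i, Fintype (Vt i)]
  (D : ItGraphs L Γ Vt) {p : ℕ} [Fact p.Prime] (K : ItCode L Vt p)

open Classical in
/-- The statements of the leaves OPER, VAL1, VAL2, LOC, DEF (verbatim from `ItMod.lean`, `ItTop.lean`). -/
structure ItggLeaves (hD : D.Good) : Prop where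
  oper : ∀ (X : (K.mod D).Om) (ξ : ScL2 Γ) (h : Γ),
    itFib ((K.mod D).chi X) (itT (K.mod D) D.val D.inv K.dec D.d) ξ h =
      D.d * ξ h - ∑ s : L, if s ∈ K.dec (X.1 h) ∧ D.inv s ∈ K.dec (X.1 (h * D.val s)) then
        ξ (h * D.val s) else 0
  valid_en : ∀ (X : Γ → ZMod p) (q : Γ × ℕ), K.valid D X q → ∀ (v : Vt q.2) (s : L),
    ((K.dart D hD X).en (D.pt q v) s ↔ s ∈ D.J q.2 v)
  valid_disj : ∀ (X : Γ → ZMod p) (q q' : Γ × ℕ), K.valid D X q → K.valid D X q' →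
    ∀ (v : Vt q.2) (v' : Vt q'.2), D.pt q v = D.pt q' v' → q = q'
  loc : ∀ (X : (K.mod D).Om) (q : Γ × ℕ), ¬ K.valid D X.1 q → ∀ B : Finset (Vt q.2),
    D.c * B.card ≤ D.d * B.card -
      ({z : Vt q.2 × L | z.1 ∈ B ∧ z.2 ∈ D.J q.2 z.1 ∧ (K.dart D hD X.1).en (D.pt q z.1) z.2 ∧
        D.nb q.2 z.1 z.2 ∈ B}.ncard : ℝ)
  glob : ∀ (G : ItsDart Γ L), (∀ h s, G.step h s = h * D.val s) → G.inv = D.inv →
    ∀ (bad : Γ × ℕ → Prop),
    (∀ q, bad q → ∀ B : Finset (Vt q.2), D.c * B.card ≤ D.d * B.card -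
      ({z : Vt q.2 × L | z.1 ∈ B ∧ z.2 ∈ D.J q.2 z.1 ∧ G.en (D.pt q z.1) z.2 ∧
        D.nb q.2 z.1 z.2 ∈ B}.ncard : ℝ)) →
    ∀ (Y : Finset Γ), (∀ q, ¬ bad q → ∀ v, D.pt q v ∉ Y) →
    D.c / 2 * (Y.card : ℝ) ≤ D.d * (Y.card : ℝ) - ((G.darts Y).card : ℝ)

variable {D K}

theorem ItggLeaves.hyp {hD : D.Good} (Lv : ItggLeaves D K hD) (X : (K.mod D).Om) :
    ItggHyp D K hD X.1 where
  en := Lv.valid_en X.1
  disj := Lv.valid_disj X.1
  deficit := fun Y hY =>
    Lv.glob (K.dart D hD X.1) (fun _ _ => rfl) rfl (fun q => ¬ K.valid D X.1 q)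
      (fun q hq B => Lv.loc X q hq B) Y (fun q hq v => hY q (not_not.1 hq) v)

open Classical in
theorem ItggLeaves.lap {hD : D.Good} (Lv : ItggLeaves D K hD) (X : (K.mod D).Om) :
    (K.dart D hD X.1).IsLap D.d
      (itFib ((K.mod D).chi X) (itT (K.mod D) D.val D.inv K.dec D.d)) := by
  intro ξ h
  rw [Lv.oper X ξ h]
  congr 1
  refine Finset.sum_congr rfl fun s _ => ?_
  by_cases hs : s ∈ K.dec (X.1 h) ∧ D.inv s ∈ K.dec (X.1 (h * D.val s))
  · rw [if_pos hs, if_pos (show (K.dart D hD X.1).en h s from hs)]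
    rfl
  · rw [if_neg hs, if_neg (show ¬ (K.dart D hD X.1).en h s from hs)]

/-- **IT-GAP** (Lemma 5.4). -/
theorem itg_fib_gap (hD : D.Good) (hK : K.Good D) (Lv : ItggLeaves D K hD) (X : (K.mod D).Om) :
    ItGap (itFib ((K.mod D).chi X) (itT (K.mod D) D.val D.inv K.dec D.d))
      (min D.ρ (D.c ^ 2 / (8 * D.d))) (2 * D.d) :=
  itgg_gap hD hK X.1 (Lv.hyp X) _ (Lv.lap X)

open Classical in
/-- **IT-DIAG** (Proposition 5.5, formula (5.17)). -/
theorem itg_fib_diag (hD : D.Good) (hK : K.Good D) (Lv : ItggLeaves D K hD) (X : (K.mod D).Om) :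
    scTr (itProj (itFib ((K.mod D).chi X) (itT (K.mod D) D.val D.inv K.dec D.d))
      (min D.ρ (D.c ^ 2 / (8 * D.d)))) =
      ∑' i, ∑ v : Vt i, if K.valid D X.1 ((D.φ i v)⁻¹, i) then (Fintype.card (Vt i) : ℂ)⁻¹
        else 0 :=
  itgg_diag hD hK X.1 (Lv.hyp X) _ (Lv.lap X)

end final

end Claimed.Agent.R300
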