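/-
Row 300 (S0552), IT back end, leaf IT-OPER, owner helper179.  Prefix `ito`.

In the fibre at the pattern `X` the group algebra element `t` acts as `d - Adj` of the enabled
graph.
-/
import Claimed.Agent.R300.ItMod

set_option autoImplicit false
set_option linter.unusedSectionVars false

namespace Claimed.Agent.R300

section

variable {Γ : Type} [Group Γ] {p : ℕ} {L : Type} [Fintype L] [NeZero p] (M : ItMod Γ p)

theorem ito_sum_apply {ι : Type} (s : Finset ι) (f : ι → ScL2 Γ) (x : Γ) :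
    (∑ i ∈ s, f i) x = ∑ i ∈ s, f i x := by
  classical
  induction s using Finset.induction_on with
  | empty => simp
  | insert a s ha ih => rw [Finset.sum_insert ha, Finset.sum_insert ha, ← ih]; rfl

theorem ito_fib_single {V : Type} [AddCommGroup V] [DistribMulAction Γ V] (χ : AddChar V Circle)
    (x : ItSemi Γ V) (c : ℂ) (ξ : ScL2 Γ) (h : Γ) :
    itFib χ (MonoidAlgebra.single x c) ξ h = c * (((χ (h • x.v) : Circle) : ℂ) * ξ (h * x.g)) := by
  unfold itFib
  rw [MonoidAlgebra.lift_single]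
  rfl

theorem ito_fib_inr {V : Type} [AddCommGroup V] [DistribMulAction Γ V] (χ : AddChar V Circle)
    (g : Γ) (ξ : ScL2 Γ) (h : Γ) :
    itFib χ (MonoidAlgebra.single (ItSemi.inr g) 1) ξ h = ξ (h * g) := by
  rw [ito_fib_single]
  simp

theorem ito_chi_orbit (X : M.Om) (h : Γ) (k : ZMod p) :
    M.chi X (h • (k • M.vs)) = ZMod.toCircle (k * X.1 h) := by
  have h1 : k • M.vs = M.cls (Finsupp.single 1 k) := by
    unfold ItMod.vs
    rw [← map_smul]
    congr 1
    simp
  rw [h1, ItMod.smul_cls, itShift_single, mul_one, ItMod.chi_apply, ItMod.fn_cls, itPair_single]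

theorem ito_char_sum (b : ZMod p) :
    ∑ k : ZMod p, ((ZMod.toCircle (k * b) : Circle) : ℂ) = if b = 0 then (p : ℂ) else 0 := by
  classical
  have := AddChar.sum_mulShift (R' := ℂ) b (ZMod.isPrimitive_stdAddChar p)
  simp only [ZMod.stdAddChar_apply, ZMod.card] at this
  rw [this]
  split_ifs <;> simp

open Classical in
theorem ito_fib_E (X : M.Om) (a : ZMod p) (ξ : ScL2 Γ) (h : Γ) :
    itFib (M.chi X) (itE M a) ξ h = if X.1 h = a then ξ h else 0 := by
  unfold itE
  rw [map_sum, sum_apply, ito_sum_apply]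
  have hterm : ∀ k : ZMod p,
      itFib (M.chi X) (MonoidAlgebra.single (ItSemi.inl (Multiplicative.ofAdd (k • M.vs)))
        ((p : ℂ)⁻¹ * ((ZMod.toCircle (-(k * a)) : Circle) : ℂ))) ξ h
      = (p : ℂ)⁻¹ * ξ h * ((ZMod.toCircle (k * (X.1 h - a)) : Circle) : ℂ) := by
    intro k
    rw [ito_fib_single]
    simp only [ItSemi.inl_v, ItSemi.inl_g, toAdd_ofAdd, mul_one]
    rw [ito_chi_orbit]
    have : k * (X.1 h - a) = -(k * a) + k * X.1 h := by ring
    rw [this, AddChar.map_add_eq_mul, Circle.coe_mul]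
    ring
  rw [Finset.sum_congr rfl fun k _ => hterm k, ← Finset.mul_sum, ito_char_sum]
  have hp : (p : ℂ) ≠ 0 := Nat.cast_ne_zero.2 (NeZero.ne p)
  by_cases hXa : X.1 h = a
  · rw [if_pos hXa, if_pos (sub_eq_zero.2 hXa)]
    field_simp
  · rw [if_neg hXa, if_neg (sub_ne_zero.2 hXa), mul_zero]

open Classical in
theorem ito_fib_F (dec : ZMod p → Finset L) (s : L) (X : M.Om) (ξ : ScL2 Γ) (h : Γ) :
    itFib (M.chi X) (itF M dec s) ξ h = if s ∈ dec (X.1 h) then ξ h else 0 := by
  unfold itF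
  rw [map_sum, sum_apply, ito_sum_apply]
  have hterm : ∀ a : ZMod p,
      itFib (M.chi X) (if s ∈ dec a then itE M a else 0) ξ h
        = if a = X.1 h then (if s ∈ dec (X.1 h) then ξ h else 0) else 0 := by
    intro a
    by_cases ha : a = X.1 h
    · subst ha
      rw [if_pos rfl]
      by_cases hs : s ∈ dec (X.1 h)
      · rw [if_pos hs, if_pos hs, ito_fib_E, if_pos rfl]
      · rw [if_neg hs, if_neg hs, map_zero]
        rfl
    · rw [if_neg ha]
      by_cases hs : s ∈ dec a
      · rw [if_pos hs, ito_fib_E, if_neg (Ne.symm ha)]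
      · rw [if_neg hs, map_zero]
        rfl
  rw [Finset.sum_congr rfl fun a _ => hterm a, Finset.sum_ite_eq' Finset.univ (X.1 h)]
  simp

open Classical in
/-- **OPER**: in the fibre at `X` the element `t` is `d - Adj` of the enabled graph. -/
theorem ito_fib_T (val : L → Γ) (inv : L → L) (dec : ZMod p → Finset L) (d : ℕ) (X : M.Om)
    (ξ : ScL2 Γ) (h : Γ) :
    itFib (M.chi X) (itT M val inv dec d) ξ h =
      d * ξ h - ∑ s : L, if s ∈ dec (X.1 h) ∧ inv s ∈ dec (X.1 (h * val s)) then ξ (h * val s)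
        else 0 := by
  unfold itT
  rw [map_sub, map_smul, map_one, map_sum]
  have h0 : (((d : ℂ) • (1 : ScL2 Γ →L[ℂ] ScL2 Γ) -
      ∑ s : L, itFib (M.chi X) (itF M dec s * MonoidAlgebra.single (ItSemi.inr (val s)) 1 *
        itF M dec (inv s)) : ScL2 Γ →L[ℂ] ScL2 Γ) ξ) h
      = d * ξ h - (∑ s : L, itFib (M.chi X) (itF M dec s *
          MonoidAlgebra.single (ItSemi.inr (val s)) 1 * itF M dec (inv s)) ξ) h := by
    rw [sub_apply, sum_apply]
    rfl
  rw [h0, ito_sum_apply]
  congr 1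
  refine Finset.sum_congr rfl fun s _ => ?_
  rw [map_mul, map_mul]
  show itFib (M.chi X) (itF M dec s)
    (itFib (M.chi X) (MonoidAlgebra.single (ItSemi.inr (val s)) 1)
      (itFib (M.chi X) (itF M dec (inv s)) ξ)) h = _
  rw [ito_fib_F, ito_fib_inr, ito_fib_F]
  by_cases h1 : s ∈ dec (X.1 h)
  · by_cases h2 : inv s ∈ dec (X.1 (h * val s))
    · rw [if_pos h1, if_pos h2, if_pos ⟨h1, h2⟩]
    · rw [if_pos h1, if_neg h2, if_neg fun hh => h2 hh.2]
  · rw [if_neg h1, if_neg fun hh => h1 hh.1]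

end

end Claimed.Agent.R300
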