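/-
Row 300 (S0552, irrational trace), IT back end, owner helper128.

TOP FILE: the frozen statement S0552 (`it_main`) from the section propositions, which are proved in the
files imported below (owners: helper47, 69, 128, 133, 179, 185, 240 and the Shell/Sc teams).
-/
import Claimed.Agent.R300.ItCodeDef
import Claimed.Agent.R300.ItsIrr
import Claimed.Agent.R300.ScBridge
import Claimed.Agent.R300.ItGeoMain
import Claimed.Agent.R300.ItcCode
import Claimed.Agent.R300.ItrMarg
import Claimed.Agent.R300.ItvValid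
import Claimed.Agent.R300.ItTrace
import Claimed.Agent.R300.ItDefLin
import Claimed.Agent.R300.ItoOper
import Claimed.Agent.R300.ItgGap

set_option autoImplicit false

namespace Claimed.Agent.R300

open MeasureTheory

/-- **IT-DATA** (front end: Proposition 3.1 + Section 2 of the paper). -/
theorem it_data_exists : ∃ (L Γ : Type) (_ : Fintype L) (_ : Group Γ) (Vt : ℕ → Type)
    (_ : ∀ i, Fintype (Vt i)) (D : ItGraphs L Γ Vt), D.Good :=
  itge_data_exists

section backend

variable {L Γ : Type} [Fintype L] [Group Γ] {Vt : ℕ → Type} [∀ i, Fintype (Vt i)]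
  (D : ItGraphs L Γ Vt)

/-- **IT-COD** (Lemma 4.1, one graph). -/
theorem it_code_one (p : ℕ) [Fact p.Prime] {V : Type} [Fintype V] (hn : 100 < Fintype.card V)
    (w : V → ZMod p) (hw : ∀ v, w v ≠ 0) :
    ∃ C : Submodule (ZMod p) (V → ZMod p), Module.finrank (ZMod p) C = Fintype.card V / 2 ∧ w ∈ C ∧
      (∀ z ∈ C, z ≠ 0 → Fintype.card V < 100 * {v | z v ≠ 0}.ncard) ∧
      (∀ z : V → ZMod p, (∀ c ∈ C, ∑ v, z v * c v = 0) → z ≠ 0 →
        Fintype.card V < 100 * {v | z v ≠ 0}.ncard) :=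
  itc_code_one p hn w hw

/-- **IT-ENC** (choice of the prime, the decoder, the prototype patterns; uses IT-COD). -/
theorem it_code_exists (hD : D.Good) :
    ∃ (p : ℕ) (_ : Fact p.Prime) (K : ItCode L Vt p), K.Good D :=
  ite_code_exists D (fun p _ _ _ hn w hw => itc_code_one p hn w hw) hD

variable {p : ℕ} [Fact p.Prime] (K : ItCode L Vt p)

/-- **IT-MOD** (Lemma 4.2): a relation supported on one copy is a dual codeword of this copy. -/
theorem it_module_inter (hD : D.Good) (hK : K.Good D) (q : Γ × ℕ) (z : Vt q.2 → ZMod p)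
    (hz : K.emb D q z ∈ K.W0 D) : z ∈ K.dual q.2 :=
  itm_module_inter D K hD hK q z hz

/-- **IT-RES** (Lemma 4.3, first half): the restriction of a pattern of `Ω` to a copy is a
codeword. -/
theorem it_res_mem (X : (K.mod D).Om) (q : Γ × ℕ) : (fun v => X.1 (D.pt q v)) ∈ K.C q.2 :=
  itr_res_mem D K X q

/-- **IT-MARG** (Lemma 4.3): uniform marginals. -/
theorem it_marginal (hD : D.Good) (hK : K.Good D) (q : Γ × ℕ) :
    (K.mod D).haar {X | K.valid D X.1 q} = ((p : ENNReal) ^ D.k q.2)⁻¹ :=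
  itr_marginal D K hD hK q

/-- **IT-VAL1**: on a valid copy the enabled darts are exactly the darts of the copy. -/
theorem it_valid_en (hD : D.Good) (hK : K.Good D) (X : Γ → ZMod p) (q : Γ × ℕ)
    (hq : K.valid D X q) (v : Vt q.2) (s : L) :
    (K.dart D hD X).en (D.pt q v) s ↔ s ∈ D.J q.2 v :=
  itv_valid_en D K hD hK X q hq v s

/-- **IT-VAL2**: distinct valid copies are disjoint. -/
theorem it_valid_disj (hD : D.Good) (hK : K.Good D) (X : Γ → ZMod p) (q q' : Γ × ℕ)
    (hq : K.valid D X q) (hq' : K.valid D X q') (v : Vt q.2) (v' : Vt q'.2)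
    (h : D.pt q v = D.pt q' v') : q = q' :=
  itv_valid_disj D K hD hK X q q' hq hq' v v' h

/-- **IT-LOC** (Lemma 5.2): deficit inside an invalid copy. -/
theorem it_local_deficit (hD : D.Good) (hK : K.Good D) (X : (K.mod D).Om) (q : Γ × ℕ)
    (hq : ¬ K.valid D X.1 q) (B : Finset (Vt q.2)) :
    D.c * B.card ≤ D.d * B.card -
      ({z : Vt q.2 × L | z.1 ∈ B ∧ z.2 ∈ D.J q.2 z.1 ∧ (K.dart D hD X.1).en (D.pt q z.1) z.2 ∧
        D.nb q.2 z.1 z.2 ∈ B}.ncard : ℝ) :=
  itl_local_deficit D K hD hK X q (it_res_mem D K X q) hq B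

/-- **IT-DEF** (Lemma 5.3): the global deficit, for an abstract enabled graph on the Cayley graph.
`bad q` = the copy `q` is invalid. -/
theorem it_global_deficit (hD : D.Good) (G : ItsDart Γ L) (hstep : ∀ h s, G.step h s = h * D.val s)
    (hinv : G.inv = D.inv) (bad : Γ × ℕ → Prop)
    (hloc : ∀ q, bad q → ∀ B : Finset (Vt q.2), D.c * B.card ≤ D.d * B.card -
      ({z : Vt q.2 × L | z.1 ∈ B ∧ z.2 ∈ D.J q.2 z.1 ∧ G.en (D.pt q z.1) z.2 ∧
        D.nb q.2 z.1 z.2 ∈ B}.ncard : ℝ))
    (Y : Finset Γ) (hY : ∀ q, ¬ bad q → ∀ v, D.pt q v ∉ Y) :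
    D.c / 2 * (Y.card : ℝ) ≤ D.d * (Y.card : ℝ) - ((G.darts Y).card : ℝ) :=
  it_global_deficit' hD G hstep hinv Y bad hloc hY

/-- the uniform gap. -/
noncomputable def ItGraphs.eps : ℝ := min D.ρ (D.c ^ 2 / (8 * D.d))

/-- the operator `t` of the construction. -/
noncomputable def ItCode.T : MonoidAlgebra ℂ (ItSemi Γ (K.mod D).V) :=
  itT (K.mod D) D.val D.inv K.dec D.d

theorem it_leaves (hD : D.Good) (hK : K.Good D) : ItggLeaves D K hD where
  oper := fun X ξ h => ito_fib_T (K.mod D) D.val D.inv K.dec D.d X ξ h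
  valid_en := fun X q hq v s => it_valid_en D K hD hK X q hq v s
  valid_disj := fun X q q' hq hq' v v' h => it_valid_disj D K hD hK X q q' hq hq' v v' h
  loc := fun X q hq B => it_local_deficit D K hD hK X q hq B
  glob := fun G hstep hinv bad hloc Y hY => it_global_deficit D hD G hstep hinv bad hloc Y hY

/-- **IT-GAP** (Lemma 5.4; assembly of OPER, VAL, LOC, DEF, CHE, BLK). -/
theorem it_fib_gap (hD : D.Good) (hK : K.Good D) (X : (K.mod D).Om) :
    ItGap (itFib ((K.mod D).chi X) (K.T D)) D.eps (2 * D.d) :=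
  itg_fib_gap hD hK (it_leaves D K hD hK) X

open Classical in
/-- **IT-DIAG** (Proposition 5.5, formula (5.17); same assembly). -/
theorem it_fib_diag (hD : D.Good) (hK : K.Good D) (X : (K.mod D).Om) :
    scTr (itProj (itFib ((K.mod D).chi X) (K.T D)) D.eps) =
      ∑' i, ∑ v : Vt i, if K.valid D X.1 ((D.φ i v)⁻¹, i) then (Fintype.card (Vt i) : ℂ)⁻¹
        else 0 :=
  itg_fib_diag hD hK (it_leaves D K hD hK) X

open Classical in
/-- **IT-A4** (Proposition 6.1, the integral). -/
theorem it_trace_integral (hD : D.Good) (hK : K.Good D) :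
    ∫ X : (K.mod D).Om, (∑' i, ∑ v : Vt i,
      if K.valid D X.1 ((D.φ i v)⁻¹, i) then (Fintype.card (Vt i) : ℂ)⁻¹ else 0) ∂(K.mod D).haar =
      ((∑' i, ((p : ℝ) ^ D.k i)⁻¹ : ℝ) : ℂ) :=
  it_trace_integral' D K hD hK

theorem ItGraphs.Good.eps_pos {D : ItGraphs L Γ Vt} (hD : D.Good) : 0 < D.eps := by
  have hd : (0 : ℝ) < D.d := by
    have := hD.three_le
    exact_mod_cast (by omega : 0 < D.d)
  have hc : 0 < D.c := by
    unfold ItGraphs.c
    have := hD.κ_pos
    positivity
  unfold ItGraphs.eps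
  exact lt_min hD.ρ_pos (by positivity)

theorem ItGraphs.Good.eps_le {D : ItGraphs L Γ Vt} (hD : D.Good) : D.eps ≤ 2 * D.d := by
  have hd : (3 : ℝ) ≤ D.d := by exact_mod_cast hD.three_le
  have hc0 : 0 < D.c := by
    unfold ItGraphs.c
    have := hD.κ_pos
    positivity
  have hc : D.c ≤ 1 := by
    unfold ItGraphs.c
    have : min D.κ 1 ≤ 1 := min_le_right _ _
    linarith
  unfold ItGraphs.eps
  refine (min_le_right _ _).trans ?_
  rw [div_le_iff₀ (by positivity)]
  nlinarith

/-- The back end: good data give the group and the projection. -/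
theorem it_backend (hD : D.Good) :
    ∃ (G : Type) (_ : Group G), Group.FG G ∧
      ∃ e ∈ Claims.C0480.reducedGroupCStarAlgebra G, IsStarProjection e ∧
        Irrational (Claims.C0480.canonicalGroupTrace G e).re := by
  obtain ⟨p, hp, K, hK⟩ := it_code_exists D hD
  have hp2 : 2 ≤ p := hp.out.two_le
  refine ⟨ItSemi Γ (K.mod D).V, inferInstance,
    ItSemi.fg D.val hD.gen (K.mod D).vs (K.mod D).closure_orbit, ?_⟩
  obtain ⟨h1, h2, _, h4⟩ := it_ana_main (K.mod D).haar (K.mod D).chi (K.mod D).chi_measurable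
    (K.mod D).chi_integral (K.T D) D.eps (2 * D.d) hD.eps_pos hD.eps_le (it_fib_gap D K hD hK)
  refine ⟨_, ?_, h1, ?_⟩
  · rw [sc480_reduced_eq]
    exact h2
  · rw [sc480_trace_eq, h4]
    simp_rw [it_fib_diag D K hD hK]
    rw [it_trace_integral D K hD hK, Complex.ofReal_re]
    exact its_irrational p hp2 D.k hD.k_mono hD.k_gap

end backend

/-- The frozen statement of S0552. -/
theorem it_main :
    ∃ (G : Type) (_ : Group G), Group.FG G ∧
      ∃ e ∈ Claims.C0480.reducedGroupCStarAlgebra G, IsStarProjection e ∧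
        Irrational (Claims.C0480.canonicalGroupTrace G e).re := by
  obtain ⟨L, Γ, _, _, Vt, _, D, hD⟩ := it_data_exists
  exact it_backend D hD

end Claimed.Agent.R300
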