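/-
Row 300 (S0552), IT back end, leaves IT-VAL, IT-LOC, IT-ENC, owner helper179.
Prefixes `itv`, `itl`, `ite`.

* `itv_valid_en`   : on a valid copy the enabled darts are exactly the darts of the copy;
* `itv_valid_disj` : distinct valid copies are disjoint;
* `itl_local_deficit` : deficit inside an invalid copy (Lemma 5.2 of the paper);
* `ite_code_exists` : IT-ENC (prime, decoder, prototype patterns), IT-COD being a hypothesis.
-/
import Claimed.Agent.R300.ItCodeDef

set_option autoImplicit false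
set_option linter.unusedSectionVars false

namespace Claimed.Agent.R300

section

variable {L Γ : Type} [Group Γ] {Vt : ℕ → Type} [∀ i, Fintype (Vt i)]
  (D : ItGraphs L Γ Vt) {p : ℕ} (K : ItCode L Vt p)

theorem itv_pt_nb (hD : D.Good) (q : Γ × ℕ) (v : Vt q.2) (s : L) (hs : s ∈ D.J q.2 v) :
    D.pt q (D.nb q.2 v s) = D.pt q v * D.val s := by
  simp only [ItGraphs.pt]
  rw [hD.φ_nb q.2 v s hs, mul_assoc]

/-- **IT-VAL1**: on a valid copy the enabled darts are exactly the darts of the copy. -/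
theorem itv_valid_en (hD : D.Good) (hK : K.Good D) (X : Γ → ZMod p) (q : Γ × ℕ)
    (hq : K.valid D X q) (v : Vt q.2) (s : L) :
    (K.dart D hD X).en (D.pt q v) s ↔ s ∈ D.J q.2 v := by
  show (s ∈ K.dec (X (D.pt q v)) ∧ D.inv s ∈ K.dec (X (D.pt q v * D.val s))) ↔ _
  rw [hq v, hK.dec_w]
  constructor
  · exact fun h => h.1
  · intro hs
    refine ⟨hs, ?_⟩
    rw [← itv_pt_nb D hD q v s hs, hq, hK.dec_w]
    exact (hD.nb_inv q.2 v s hs).1

/-- **IT-VAL2**: distinct valid copies are disjoint. -/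
theorem itv_valid_disj (hD : D.Good) (hK : K.Good D) (X : Γ → ZMod p) (q q' : Γ × ℕ)
    (hq : K.valid D X q) (hq' : K.valid D X q') (v : Vt q.2) (v' : Vt q'.2)
    (h : D.pt q v = D.pt q' v') : q = q' := by
  classical
  by_contra hne
  -- the set of the vertices of `q'` lying on `q`
  set S : Finset (Vt q'.2) := Finset.univ.filter fun u' => ∃ u, D.pt q u = D.pt q' u' with hS
  have hmem : ∀ u', u' ∈ S ↔ ∃ u, D.pt q u = D.pt q' u' := by
    intro u'; simp [hS]
  have hclosed : ∀ u' ∈ S, ∀ s ∈ D.J q'.2 u', D.nb q'.2 u' s ∈ S := by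
    intro u' hu' s hs
    obtain ⟨u, hu⟩ := (hmem u').1 hu'
    have hJ : D.J q.2 u = D.J q'.2 u' := by
      rw [← hK.dec_w, ← hK.dec_w, ← hq u, ← hq' u', hu]
    refine (hmem _).2 ⟨D.nb q.2 u s, ?_⟩
    rw [itv_pt_nb D hD q u s (hJ ▸ hs), itv_pt_nb D hD q' u' s hs, hu]
  have hbd : {z : Vt q'.2 × L | z.1 ∈ S ∧ z.2 ∈ D.J q'.2 z.1 ∧ D.nb q'.2 z.1 z.2 ∉ S} = ∅ := by
    ext z
    simp only [Set.mem_ofPred_eq, Set.mem_empty_iff_false, iff_false, not_and, not_not]
    exact fun h1 h2 => hclosed z.1 h1 z.2 h2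
  have hexp := hD.expansion q'.2 S
  rw [hbd, Set.ncard_empty, Nat.cast_zero] at hexp
  have hmin : min (S.card : ℝ) ((Fintype.card (Vt q'.2) : ℝ) - S.card) ≤ 0 := by
    by_contra hpos
    push Not at hpos
    have := mul_pos hD.κ_pos hpos
    linarith
  have hSpos : 0 < S.card := Finset.card_pos.2 ⟨v', (hmem v').2 ⟨v, h⟩⟩
  have hSn : Fintype.card (Vt q'.2) ≤ S.card := by
    rcases min_le_iff.1 hmin with h1 | h1
    · have : (0 : ℝ) < S.card := by exact_mod_cast hSpos
      linarith
    · have : (Fintype.card (Vt q'.2) : ℝ) ≤ S.card := by linarith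
      exact_mod_cast this
  have hSuniv : S = Finset.univ := by
    apply Finset.eq_univ_of_card
    exact le_antisymm (Finset.card_le_univ _) hSn
  -- `q'` is the leaf of the family `{q, q'}`
  obtain ⟨Q, hQ, hQq, b, hb⟩ := hD.leaf {q, q'} q (by simp) (by rw [Finset.card_pair hne])
  have hQ' : Q = q' := by
    rw [Finset.mem_insert, Finset.mem_singleton] at hQ
    rcases hQ with h1 | h1
    · exact absurd h1 hQq
    · exact h1
  subst hQ'
  have hball : D.ball Q.2 b = Set.univ := by
    ext u'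
    simp only [Set.mem_univ, iff_true]
    have : u' ∈ S := by rw [hSuniv]; exact Finset.mem_univ _
    obtain ⟨u, hu⟩ := (hmem u').1 this
    exact hb q (by simp) hne u' u hu.symm
  have := hD.ball_small Q.2 b
  rw [hball, Set.ncard_univ, Nat.card_eq_fintype_card] at this
  omega

end

section loc

variable {L Γ : Type} [Group Γ] {Vt : ℕ → Type} [∀ i, Fintype (Vt i)]
  (D : ItGraphs L Γ Vt) {p : ℕ} (K : ItCode L Vt p)

/-- **IT-LOC** (Lemma 5.2), combinatorial core: `x` is the restriction of the pattern to the copy,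
`en v s` the enabled darts; the only facts used are that an enabled dart is a port of the decoded
symbol and that `x` is a codeword different from the prototype. -/
theorem itl_core (hD : D.Good) (hK : K.Good D) (i : ℕ) (x : Vt i → ZMod p) (hx : x ∈ K.C i)
    (hne : x ≠ K.w i) (en : Vt i → L → Prop) (hen : ∀ v s, en v s → s ∈ K.dec (x v))
    (B : Finset (Vt i)) :
    D.c * B.card ≤ D.d * B.card -
      ({z : Vt i × L | z.1 ∈ B ∧ z.2 ∈ D.J i z.1 ∧ en z.1 z.2 ∧ D.nb i z.1 z.2 ∈ B}.ncard : ℝ) := by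
  classical
  set n := Fintype.card (Vt i) with hn
  -- all darts at `B`
  set T : Finset (Vt i × L) := B.sigma (fun v => D.J i v) |>.map
    ⟨fun z => (z.1, z.2), fun a b h => by
      obtain ⟨a1, a2⟩ := a
      obtain ⟨b1, b2⟩ := b
      simp only [Prod.mk.injEq] at h
      obtain ⟨rfl, rfl⟩ := h
      rfl⟩ with hT
  have hTmem : ∀ z : Vt i × L, z ∈ T ↔ z.1 ∈ B ∧ z.2 ∈ D.J i z.1 := by
    rintro ⟨v, s⟩
    rw [hT, Finset.mem_map]
    constructor
    · rintro ⟨⟨a, b⟩, h1, h2⟩
      have h3 : (a, b) = (v, s) := h2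
      obtain ⟨rfl, rfl⟩ := Prod.mk.inj h3
      exact Finset.mem_sigma.1 h1
    · intro h1
      exact ⟨⟨v, s⟩, Finset.mem_sigma.2 h1, rfl⟩
  have hTcard : T.card = D.d * B.card := by
    rw [hT, Finset.card_map, Finset.card_sigma, Finset.sum_congr rfl (fun v _ => hD.J_card i v),
      Finset.sum_const, smul_eq_mul, mul_comm]
  set A : Finset (Vt i × L) := T.filter fun z => en z.1 z.2 ∧ D.nb i z.1 z.2 ∈ B with hA
  have hAset : {z : Vt i × L | z.1 ∈ B ∧ z.2 ∈ D.J i z.1 ∧ en z.1 z.2 ∧ D.nb i z.1 z.2 ∈ B}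
      = (A : Set (Vt i × L)) := by
    ext z
    simp only [Set.mem_ofPred_eq, hA, Finset.coe_filter, hTmem]
    tauto
  rw [hAset, Set.ncard_coe_finset]
  set R : Finset (Vt i × L) := T.filter fun z => ¬ (en z.1 z.2 ∧ D.nb i z.1 z.2 ∈ B) with hR
  have hAR : A.card + R.card = T.card := Finset.card_filter_add_card_filter_not _
  have hgoal : (D.d : ℝ) * B.card - A.card = R.card := by
    have : (A.card : ℝ) + R.card = D.d * B.card := by exact_mod_cast hAR.trans hTcard
    linarith
  rw [hgoal]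
  -- (a) the mismatch set
  set M : Finset (Vt i) := Finset.univ.filter fun v => x v ≠ K.w i v with hM
  have hMcard : n < 100 * M.card := by
    have h1 : x - K.w i ∈ K.C i := sub_mem hx (hK.w_mem i)
    have h2 : x - K.w i ≠ 0 := sub_ne_zero.2 hne
    have h3 := hK.dist i _ h1 h2
    have h4 : ItCode.wt (x - K.w i) = M.card := by
      unfold ItCode.wt
      rw [← Set.ncard_coe_finset]
      congr 1
      ext v
      simp [hM, sub_ne_zero]
    rwa [h4] at h3
  have hport : ∀ v ∈ M, ∃ s ∈ D.J i v, s ∉ K.dec (x v) := by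
    intro v hv
    by_contra hcon
    push Not at hcon
    have hsub : D.J i v ⊆ K.dec (x v) := hcon
    have hcard : (K.dec (x v)).card ≤ (D.J i v).card := by
      rw [hD.J_card]; exact hK.dec_card _
    have heq : D.J i v = K.dec (x v) := Finset.eq_of_subset_of_card_le hsub hcard
    have hne' : (K.dec (x v)).Nonempty := by
      rw [← heq, ← Finset.card_pos, hD.J_card]
      have := hD.three_le
      omega
    have := hK.dec_inj (x v) (K.w i v) (by rw [hK.dec_w, heq]) hne'
    simp only [hM, Finset.mem_filter, Finset.mem_univ, true_and] at hv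
    exact hv this
  have : Nonempty L := by
    have : 0 < M.card := by omega
    obtain ⟨v0, hv0⟩ := Finset.card_pos.1 this
    obtain ⟨s, -, -⟩ := hport v0 hv0
    exact ⟨s⟩
  choose! sv hsv1 hsv2 using hport
  have hRa : (M ∩ B).card ≤ R.card := by
    apply Finset.card_le_card_of_injOn (fun v => (v, sv v))
    · intro v hv
      have hv' := Finset.mem_inter.1 (Finset.mem_coe.1 hv)
      simp only [hR, Finset.coe_filter, Set.mem_ofPred_eq, hTmem]
      exact ⟨⟨hv'.2, hsv1 v hv'.1⟩, fun h => hsv2 v hv'.1 (hen _ _ h.1)⟩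
    · intro a _ b _ hab
      exact (Prod.mk.inj hab).1
  -- (b) the boundary
  have hRb : D.κ * min (B.card : ℝ) ((n : ℝ) - B.card) ≤ R.card := by
    refine (hD.expansion i B).trans ?_
    have hsub : {z : Vt i × L | z.1 ∈ B ∧ z.2 ∈ D.J i z.1 ∧ D.nb i z.1 z.2 ∉ B}
        ⊆ (R : Set (Vt i × L)) := by
      intro z hz
      simp only [hR, Finset.coe_filter, Set.mem_ofPred_eq, hTmem]
      exact ⟨⟨hz.1, hz.2.1⟩, fun h => hz.2.2 h.2⟩
    have := Set.ncard_le_ncard hsub (Finset.finite_toSet R)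
    rw [Set.ncard_coe_finset] at this
    exact_mod_cast this
  have hBn : B.card ≤ n := Finset.card_le_univ B
  have hBnR : (B.card : ℝ) ≤ n := by exact_mod_cast hBn
  have hκ := hD.κ_pos
  have hB0 : (0 : ℝ) ≤ B.card := Nat.cast_nonneg _
  have hmin1 : min D.κ 1 ≤ 1 := min_le_right _ _
  have hmin2 : min D.κ 1 ≤ D.κ := min_le_left _ _
  have hmin0 : 0 < min D.κ 1 := lt_min hκ one_pos
  unfold ItGraphs.c
  by_cases hcase : (n : ℝ) ≤ 200 * ((n : ℝ) - B.card)
  · have h1 : (B.card : ℝ) / 200 ≤ min (B.card : ℝ) ((n : ℝ) - B.card) := by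
      apply le_min
      · linarith
      · linarith
    calc 1 / 200 * min D.κ 1 * B.card = min D.κ 1 * ((B.card : ℝ) / 200) := by ring
      _ ≤ D.κ * ((B.card : ℝ) / 200) := by
          apply mul_le_mul_of_nonneg_right hmin2; positivity
      _ ≤ D.κ * min (B.card : ℝ) ((n : ℝ) - B.card) := by
          apply mul_le_mul_of_nonneg_left h1 hκ.le
      _ ≤ R.card := hRb
  · push Not at hcase
    have h1 : M.card ≤ (M ∩ B).card + (n - B.card) := by
      have h2 : M.card = (M ∩ B).card + (M \ B).card := by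
        rw [Finset.card_inter_add_card_sdiff]
      have h3 : (M \ B).card ≤ (Finset.univ \ B).card :=
        Finset.card_le_card (Finset.sdiff_subset_sdiff (Finset.subset_univ _) le_rfl)
      rw [Finset.card_sdiff_of_subset (Finset.subset_univ _), Finset.card_univ] at h3
      omega
    have h1R : (M.card : ℝ) ≤ (M ∩ B).card + ((n : ℝ) - B.card) := by
      have : (M.card : ℝ) ≤ ((M ∩ B).card + (n - B.card) : ℕ) := by exact_mod_cast h1
      rw [Nat.cast_add, Nat.cast_sub hBn] at this
      exact this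
    have h2R : (n : ℝ) < 100 * M.card := by exact_mod_cast hMcard
    have h3R : ((M ∩ B).card : ℝ) ≤ R.card := by exact_mod_cast hRa
    calc 1 / 200 * min D.κ 1 * B.card ≤ 1 / 200 * 1 * B.card := by
          apply mul_le_mul_of_nonneg_right _ hB0
          apply mul_le_mul_of_nonneg_left hmin1; norm_num
      _ ≤ R.card := by linarith

/-- **IT-LOC** (Lemma 5.2): deficit inside an invalid copy.  `hres` is IT-RES (`it_res_mem`). -/
theorem itl_local_deficit (hD : D.Good) (hK : K.Good D) (X : (K.mod D).Om) (q : Γ × ℕ)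
    (hres : (fun v => X.1 (D.pt q v)) ∈ K.C q.2)
    (hq : ¬ K.valid D X.1 q) (B : Finset (Vt q.2)) :
    D.c * B.card ≤ D.d * B.card -
      ({z : Vt q.2 × L | z.1 ∈ B ∧ z.2 ∈ D.J q.2 z.1 ∧ (K.dart D hD X.1).en (D.pt q z.1) z.2 ∧
        D.nb q.2 z.1 z.2 ∈ B}.ncard : ℝ) := by
  refine itl_core D K hD hK q.2 (fun v => X.1 (D.pt q v)) hres ?_
    (fun v s => (K.dart D hD X.1).en (D.pt q v) s) (fun v s h => h.1) B
  intro h
  exact hq fun v => congrFun h v

end loc

/-! ### IT-ENC: the prime, the decoder, the prototype patterns -/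

section enc

variable {L : Type} [Fintype L]

/-- the symbol of a set of ports. -/
noncomputable def iteEnc (p : ℕ) (J : Finset L) : ZMod p :=
  (((Fintype.equivFin (Finset L) J).val + 1 : ℕ) : ZMod p)

theorem iteEnc_ne_zero (p : ℕ) (hp : Fintype.card (Finset L) < p) (J : Finset L) :
    iteEnc p J ≠ 0 := by
  unfold iteEnc
  rw [Ne, ZMod.natCast_eq_zero_iff]
  intro h
  have h1 := (Fintype.equivFin (Finset L) J).isLt
  have h2 := Nat.le_of_dvd (Nat.succ_pos _) h
  omega

theorem iteEnc_injective (p : ℕ) (hp : Fintype.card (Finset L) < p) :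
    Function.Injective (iteEnc (L := L) p) := by
  intro J J' h
  unfold iteEnc at h
  rw [ZMod.natCast_eq_natCast_iff] at h
  have h1 := (Fintype.equivFin (Finset L) J).isLt
  have h2 := (Fintype.equivFin (Finset L) J').isLt
  have h3 := Nat.ModEq.eq_of_lt_of_lt h (by omega) (by omega)
  apply (Fintype.equivFin (Finset L)).injective
  apply Fin.ext
  omega

open Classical in
/-- the decoder. -/
noncomputable def iteDec (p d : ℕ) (a : ZMod p) : Finset L :=
  if h : ∃ J : Finset L, J.card = d ∧ iteEnc p J = a then h.choose else ∅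

theorem iteDec_card (p d : ℕ) (a : ZMod p) : (iteDec (L := L) p d a).card ≤ d := by
  unfold iteDec
  split_ifs with h
  · exact h.choose_spec.1.le
  · simp

theorem iteDec_enc_of_nonempty (p d : ℕ) (a : ZMod p) (h : (iteDec (L := L) p d a).Nonempty) :
    iteEnc p (iteDec (L := L) p d a) = a := by
  unfold iteDec at h ⊢
  split_ifs at h ⊢ with h'
  · exact h'.choose_spec.2
  · simp at h

theorem iteDec_enc (p d : ℕ) (hp : Fintype.card (Finset L) < p) (J : Finset L) (hJ : J.card = d) :
    iteDec p d (iteEnc p J) = J := by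
  have h : ∃ J' : Finset L, J'.card = d ∧ iteEnc p J' = iteEnc p J := ⟨J, hJ, rfl⟩
  unfold iteDec
  rw [dif_pos h]
  exact iteEnc_injective p hp h.choose_spec.2

variable {Γ : Type} [Group Γ] {Vt : ℕ → Type} [∀ i, Fintype (Vt i)] (D : ItGraphs L Γ Vt)

/-- **IT-ENC**. -/
theorem ite_code_exists
    (hcode : ∀ (p : ℕ) [Fact p.Prime] {V : Type} [Fintype V] (_ : 100 < Fintype.card V)
      (w : V → ZMod p) (_ : ∀ v, w v ≠ 0),
      ∃ C : Submodule (ZMod p) (V → ZMod p),
        Module.finrank (ZMod p) C = Fintype.card V / 2 ∧ w ∈ C ∧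
        (∀ z ∈ C, z ≠ 0 → Fintype.card V < 100 * {v | z v ≠ 0}.ncard) ∧
        (∀ z : V → ZMod p, (∀ c ∈ C, ∑ v, z v * c v = 0) → z ≠ 0 →
          Fintype.card V < 100 * {v | z v ≠ 0}.ncard))
    (hD : D.Good) :
    ∃ (p : ℕ) (_ : Fact p.Prime) (K : ItCode L Vt p), K.Good D := by
  obtain ⟨p, hp1, hp2⟩ := Nat.exists_infinite_primes (Fintype.card (Finset L) + 1)
  have hp : Fintype.card (Finset L) < p := by omega
  have : Fact p.Prime := ⟨hp2⟩
  have hC := fun i => hcode p (hD.card_gt i) (fun v => iteEnc p (D.J i v))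
    (fun v => iteEnc_ne_zero p hp _)
  choose C hC1 hC2 hC3 hC4 using hC
  refine ⟨p, ⟨hp2⟩, ⟨iteDec p D.d, fun i v => iteEnc p (D.J i v), C⟩, ?_⟩
  refine ⟨fun a => iteDec_card p D.d a, ?_, ?_, hC2, hC1, hC3, ?_⟩
  · intro a b hab hne
    show a = b
    have hab' : iteDec (L := L) p D.d a = iteDec p D.d b := hab
    have hne' : (iteDec (L := L) p D.d a).Nonempty := hne
    rw [← iteDec_enc_of_nonempty p D.d a hne', hab',
      iteDec_enc_of_nonempty p D.d b (hab' ▸ hne')]
  · intro i v
    exact iteDec_enc p D.d hp _ (hD.J_card i v)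
  · intro i z hz hne
    exact hC4 i z hz hne

end enc

end Claimed.Agent.R300
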