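/-
Row 300 / S0553 (INJ paper), UPPER ASSEMBLY, package IU-BAND (sub-captain: helper145).
The band model on `ℓ²(ℕ × X)`: diagonal operators `iuD B` of bounded families, the unilateral
shift `iuS` of the `ℕ` coordinate, their relations and their blocks.
Everything is proved coordinatewise: `iu_ext` + `iuD_sl`, `iuSs_sl`, `iuS_sl_succ`, `iuS_sl_zero`.
The `sorry`s are replaced IN PLACE by the owner (table subtask, target row300, name IU-BAND).
-/
import Mathlib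
import Claimed.Agent.R300.InjDefs

set_option autoImplicit false

namespace Claimed.Agent.R300

open scoped ENNReal ComplexConjugate InnerProductSpace

/-- bounded operators on `ℓ²(X)` -/
abbrev IuOp (X : Type) : Type := ScL2 X →L[ℂ] ScL2 X

variable {X : Type}

theorem injSl_apply (i : ℕ) (ξ : ScL2 (ℕ × X)) (x : X) : injSl i ξ x = ξ (i, x) := rfl

/-- operators into `ℓ²(ℕ × X)` are determined by their slices -/
theorem iu_ext {E : Type*} [NormedAddCommGroup E] [NormedSpace ℂ E]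
    {M M' : E →L[ℂ] ScL2 (ℕ × X)} (h : ∀ i ξ, injSl i (M ξ) = injSl i (M' ξ)) : M = M' := by
  ext ξ p
  obtain ⟨i, x⟩ := p
  have := congrArg (fun ζ : ScL2 X => ζ x) (h i ξ)
  exact this

theorem iu_vec_ext {ξ η : ScL2 (ℕ × X)} (h : ∀ i, injSl i ξ = injSl i η) : ξ = η := by
  ext p
  obtain ⟨i, x⟩ := p
  exact congrArg (fun ζ : ScL2 X => ζ x) (h i)

/-- `‖ξ‖² = ∑_i ‖ξ_i‖²` -/
theorem iu_hasSum_sl (ξ : ScL2 (ℕ × X)) : HasSum (fun i => ‖injSl i ξ‖ ^ 2) (‖ξ‖ ^ 2) :=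
  (scL2_hasSum_sq ξ).prod_fiberwise (fun i => scL2_hasSum_sq (injSl i ξ))

theorem injSl_delta (k i : ℕ) (x : X) :
    injSl k (scDelta (i, x)) = if k = i then scDelta x else 0 := by
  by_cases h : k = i
  · subst h
    rw [if_pos rfl]
    exact scPull_delta (fun x : X => (k, x)) (injMk_injective k) x
  · rw [if_neg h]
    apply scPull_delta_of_not_mem
    intro y hy
    exact h (Prod.mk.inj hy).1

theorem injIn_apply (k : ℕ) (ζ : ScL2 X) (i : ℕ) (x : X) :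
    injIn k ζ (i, x) = if i = k then ζ x else 0 := by
  rw [← sc_inner_delta_left (i, x), injIn, ContinuousLinearMap.adjoint_inner_right, injSl_delta]
  by_cases h : k = i
  · rw [if_pos h, if_pos h.symm, sc_inner_delta_left]
  · rw [if_neg h, if_neg (fun h' => h h'.symm), inner_zero_left]

theorem injSl_in (i k : ℕ) :
    (injSl i ∘L injIn k : IuOp X) = if i = k then 1 else 0 := by
  ext ζ x
  change injIn k ζ (i, x) = _
  rw [injIn_apply]
  by_cases h : i = k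
  · simp [h]
  · simp [h]

theorem injSl_in_apply_self (i : ℕ) (ζ : ScL2 X) : injSl i (injIn i ζ) = ζ := by
  ext x
  change injIn i ζ (i, x) = _
  rw [injIn_apply, if_pos rfl]

theorem injSl_in_apply_ne {i k : ℕ} (h : i ≠ k) (ζ : ScL2 X) : injSl i (injIn k ζ) = 0 := by
  ext x
  change injIn k ζ (i, x) = _
  rw [injIn_apply, if_neg h]
  rfl

theorem injSl_norm_le (i : ℕ) : ‖(injSl i : ScL2 (ℕ × X) →L[ℂ] ScL2 X)‖ ≤ 1 :=
  ContinuousLinearMap.opNorm_le_bound _ zero_le_one (fun ξ => by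
    rw [one_mul]; exact scPull_norm_le _ _ ξ)

theorem injIn_norm_le (i : ℕ) : ‖(injIn i : ScL2 X →L[ℂ] ScL2 (ℕ × X))‖ ≤ 1 := by
  rw [injIn, LinearIsometryEquiv.norm_map]
  exact injSl_norm_le i

/-- a norm bound from the slices -/
theorem iu_norm_le_of_sl {M : IuOp (ℕ × X)} {C : ℝ} (hC : 0 ≤ C)
    (h : ∀ i ξ, ‖injSl i (M ξ)‖ ≤ C * ‖injSl i ξ‖) : ‖M‖ ≤ C := by
  refine ContinuousLinearMap.opNorm_le_bound _ hC (fun ξ => ?_)
  have h1 : ‖M ξ‖ ^ 2 ≤ C ^ 2 * ‖ξ‖ ^ 2 := by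
    refine hasSum_le (fun i => ?_) (iu_hasSum_sl (M ξ)) ((iu_hasSum_sl ξ).mul_left (C ^ 2))
    calc ‖injSl i (M ξ)‖ ^ 2 ≤ (C * ‖injSl i ξ‖) ^ 2 := by gcongr; exact h i ξ
      _ = C ^ 2 * ‖injSl i ξ‖ ^ 2 := by ring
  have h2 : ‖M ξ‖ ^ 2 ≤ (C * ‖ξ‖) ^ 2 := by rw [mul_pow]; exact h1
  exact le_of_sq_le_sq h2 (by positivity)

/-- bounded families -/
def IuBdd (B : ℕ → IuOp X) : Prop := ∃ C : ℝ, ∀ i, ‖B i‖ ≤ C

/-- existence of the diagonal operator:
`(M ξ)(i,x) = (B_i ξ_i)(x)`, `∑_i ‖B_i ξ_i‖² ≤ C² ∑_i ‖ξ_i‖²`. -/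
theorem iu_diag_exists (B : ℕ → IuOp X) (C : ℝ) (hB : ∀ i, ‖B i‖ ≤ C) :
    ∃ M : IuOp (ℕ × X), (∀ i ξ, injSl i (M ξ) = B i (injSl i ξ)) ∧ ‖M‖ ≤ C := by
  have hC : 0 ≤ C := (norm_nonneg _).trans (hB 0)
  have hle : ∀ i (ξ : ScL2 (ℕ × X)), ‖B i (injSl i ξ)‖ ^ 2 ≤ C ^ 2 * ‖injSl i ξ‖ ^ 2 := by
    intro i ξ
    calc ‖B i (injSl i ξ)‖ ^ 2 ≤ (C * ‖injSl i ξ‖) ^ 2 := by
          gcongr
          exact (B i).le_of_opNorm_le (hB i) _
      _ = C ^ 2 * ‖injSl i ξ‖ ^ 2 := by ring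
  have hsum : ∀ ξ : ScL2 (ℕ × X),
      Summable fun p : ℕ × X => ‖B p.1 (injSl p.1 ξ) p.2‖ ^ 2 := by
    intro ξ
    rw [summable_prod_of_nonneg (fun _ => by positivity)]
    refine ⟨fun i => scL2_summable_sq (B i (injSl i ξ)), ?_⟩
    have h1 : ∀ i, ∑' x, ‖B i (injSl i ξ) x‖ ^ 2 = ‖B i (injSl i ξ)‖ ^ 2 := fun i =>
      (scL2_norm_sq _).symm
    simp only [h1]
    exact Summable.of_nonneg_of_le (fun _ => by positivity) (fun i => hle i ξ)
      ((iu_hasSum_sl ξ).summable.mul_left _)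
  let f : ScL2 (ℕ × X) →ₗ[ℂ] ScL2 (ℕ × X) :=
    { toFun := fun ξ => scMk (fun p => B p.1 (injSl p.1 ξ) p.2) (hsum ξ)
      map_add' := fun ξ η => by ext p; simp
      map_smul' := fun c ξ => by ext p; simp }
  have hsl : ∀ i ξ, injSl i (f ξ) = B i (injSl i ξ) := fun i ξ => by ext x; rfl
  have hbd : ∀ ξ, ‖f ξ‖ ≤ C * ‖ξ‖ := by
    intro ξ
    have h1 : ‖f ξ‖ ^ 2 ≤ C ^ 2 * ‖ξ‖ ^ 2 := by
      refine hasSum_le (fun i => ?_) (iu_hasSum_sl (f ξ)) ((iu_hasSum_sl ξ).mul_left (C ^ 2))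
      rw [hsl]; exact hle i ξ
    have h2 : ‖f ξ‖ ^ 2 ≤ (C * ‖ξ‖) ^ 2 := by rw [mul_pow]; exact h1
    exact le_of_sq_le_sq h2 (by positivity)
  exact ⟨f.mkContinuous C hbd, hsl, LinearMap.mkContinuous_norm_le _ hC _⟩

open Classical in
/-- the diagonal operator of a bounded family (junk value `0` for unbounded families) -/
noncomputable def iuD (B : ℕ → IuOp X) : IuOp (ℕ × X) :=
  if h : IuBdd B then (iu_diag_exists B _ h.choose_spec).choose else 0

theorem iuD_sl {B : ℕ → IuOp X} (hB : IuBdd B) (i : ℕ) (ξ : ScL2 (ℕ × X)) :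
    injSl i (iuD B ξ) = B i (injSl i ξ) := by
  rw [iuD, dif_pos hB]
  exact (iu_diag_exists B _ hB.choose_spec).choose_spec.1 i ξ

theorem iuD_norm_le {B : ℕ → IuOp X} {C : ℝ} (hB : ∀ i, ‖B i‖ ≤ C) : ‖iuD B‖ ≤ C := by
  refine iu_norm_le_of_sl ((norm_nonneg _).trans (hB 0)) (fun i ξ => ?_)
  rw [iuD_sl ⟨C, hB⟩]
  exact (B i).le_of_opNorm_le (hB i) _

theorem iuBdd_const (T : IuOp X) : IuBdd fun _ => T := ⟨‖T‖, fun _ => le_rfl⟩

theorem iuD_zero : iuD (fun _ => (0 : IuOp X)) = 0 := by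
  refine iu_ext (fun i ξ => ?_)
  rw [iuD_sl (iuBdd_const 0)]
  simp

theorem iuD_one : iuD (fun _ => (1 : IuOp X)) = 1 := by
  refine iu_ext (fun i ξ => ?_)
  rw [iuD_sl (iuBdd_const 1)]
  rfl

theorem IuBdd.add {B B' : ℕ → IuOp X} (hB : IuBdd B) (hB' : IuBdd B') :
    IuBdd fun i => B i + B' i := by
  obtain ⟨C, hC⟩ := hB
  obtain ⟨C', hC'⟩ := hB'
  exact ⟨C + C', fun i => (norm_add_le _ _).trans (add_le_add (hC i) (hC' i))⟩

theorem IuBdd.sub {B B' : ℕ → IuOp X} (hB : IuBdd B) (hB' : IuBdd B') :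
    IuBdd fun i => B i - B' i := by
  obtain ⟨C, hC⟩ := hB
  obtain ⟨C', hC'⟩ := hB'
  exact ⟨C + C', fun i => (norm_sub_le _ _).trans (add_le_add (hC i) (hC' i))⟩

theorem IuBdd.mul {B B' : ℕ → IuOp X} (hB : IuBdd B) (hB' : IuBdd B') :
    IuBdd fun i => B i * B' i := by
  obtain ⟨C, hC⟩ := hB
  obtain ⟨C', hC'⟩ := hB'
  exact ⟨C * C', fun i => (norm_mul_le _ _).trans
    (mul_le_mul (hC i) (hC' i) (norm_nonneg _) ((norm_nonneg _).trans (hC i)))⟩

theorem IuBdd.smul {B : ℕ → IuOp X} (hB : IuBdd B) (c : ℂ) : IuBdd fun i => c • B i := by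
  obtain ⟨C, hC⟩ := hB
  exact ⟨‖c‖ * C, fun i => by
    rw [norm_smul]; exact mul_le_mul_of_nonneg_left (hC i) (norm_nonneg _)⟩

theorem IuBdd.star {B : ℕ → IuOp X} (hB : IuBdd B) : IuBdd fun i => star (B i) := by
  obtain ⟨C, hC⟩ := hB
  exact ⟨C, fun i => by
    change ‖Star.star (B i)‖ ≤ C
    rw [ContinuousLinearMap.star_eq_adjoint, LinearIsometryEquiv.norm_map]; exact hC i⟩

theorem IuBdd.sum {ι : Type*} (s : Finset ι) {B : ι → ℕ → IuOp X} (hB : ∀ a ∈ s, IuBdd (B a)) :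
    IuBdd fun i => ∑ a ∈ s, B a i := by
  classical
  induction s using Finset.induction_on with
  | empty => simpa using iuBdd_const (0 : IuOp X)
  | insert a s ha ih =>
    simp only [Finset.sum_insert ha]
    exact (hB a (Finset.mem_insert_self a s)).add
      (ih (fun b hb => hB b (Finset.mem_insert_of_mem hb)))

open Classical in
theorem IuBdd.ite {B : ℕ → IuOp X} (hB : IuBdd B) (P : ℕ → Prop) :
    IuBdd fun i => if P i then B i else 0 := by
  obtain ⟨C, hC⟩ := hB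
  refine ⟨C, fun i => ?_⟩
  beta_reduce
  by_cases h : P i
  · rw [if_pos h]; exact hC i
  · rw [if_neg h, norm_zero]; exact (norm_nonneg _).trans (hC 0)

theorem iuD_add {B B' : ℕ → IuOp X} (hB : IuBdd B) (hB' : IuBdd B') :
    iuD (fun i => B i + B' i) = iuD B + iuD B' := by
  refine iu_ext (fun i ξ => ?_)
  rw [iuD_sl (hB.add hB')]
  change _ = injSl i (iuD B ξ + iuD B' ξ)
  rw [map_add, iuD_sl hB, iuD_sl hB']
  rfl

theorem iuD_sub {B B' : ℕ → IuOp X} (hB : IuBdd B) (hB' : IuBdd B') :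
    iuD (fun i => B i - B' i) = iuD B - iuD B' := by
  refine iu_ext (fun i ξ => ?_)
  rw [iuD_sl (hB.sub hB')]
  change _ = injSl i (iuD B ξ - iuD B' ξ)
  rw [map_sub, iuD_sl hB, iuD_sl hB']
  rfl

theorem iuD_smul {B : ℕ → IuOp X} (hB : IuBdd B) (c : ℂ) :
    iuD (fun i => c • B i) = c • iuD B := by
  refine iu_ext (fun i ξ => ?_)
  rw [iuD_sl (hB.smul c)]
  change _ = injSl i (c • iuD B ξ)
  rw [map_smul, iuD_sl hB]
  rfl

theorem iuD_sum {ι : Type*} (s : Finset ι) {B : ι → ℕ → IuOp X} (hB : ∀ a ∈ s, IuBdd (B a)) :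
    iuD (fun i => ∑ a ∈ s, B a i) = ∑ a ∈ s, iuD (B a) := by
  classical
  induction s using Finset.induction_on with
  | empty => simpa using iuD_zero (X := X)
  | insert a s ha ih =>
    simp only [Finset.sum_insert ha]
    rw [iuD_add (hB a (Finset.mem_insert_self a s))
      (IuBdd.sum s (fun b hb => hB b (Finset.mem_insert_of_mem hb))),
      ih (fun b hb => hB b (Finset.mem_insert_of_mem hb))]

theorem iuD_mul {B B' : ℕ → IuOp X} (hB : IuBdd B) (hB' : IuBdd B') :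
    iuD B * iuD B' = iuD fun i => B i * B' i := by
  refine iu_ext (fun i ξ => ?_)
  rw [iuD_sl (hB.mul hB')]
  change injSl i (iuD B (iuD B' ξ)) = _
  rw [iuD_sl hB, iuD_sl hB']
  rfl

theorem iuD_delta_apply {B : ℕ → IuOp X} (hB : IuBdd B) (i k : ℕ) (x y : X) :
    iuD B (scDelta (i, x)) (k, y) = if k = i then B i (scDelta x) y else 0 := by
  change injSl k (iuD B (scDelta (i, x))) y = _
  rw [iuD_sl hB, injSl_delta]
  by_cases h : k = i
  · subst h; simp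
  · simp [h]

theorem iuD_star {B : ℕ → IuOp X} (hB : IuBdd B) : star (iuD B) = iuD fun i => star (B i) := by
  refine scOp_ext fun b => ?_
  ext a
  obtain ⟨k, y⟩ := b
  obtain ⟨i, x⟩ := a
  rw [sc_star_delta_apply, iuD_delta_apply hB, iuD_delta_apply hB.star]
  by_cases h : k = i
  · subst h
    rw [if_pos rfl, if_pos rfl, sc_star_delta_apply]
  · rw [if_neg h, if_neg (fun h' => h h'.symm), map_zero]

theorem iuD_in {B : ℕ → IuOp X} (hB : IuBdd B) (i : ℕ) :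
    iuD B ∘L injIn i = injIn i ∘L B i := by
  refine iu_ext (fun k ζ => ?_)
  change injSl k (iuD B (injIn i ζ)) = injSl k (injIn i (B i ζ))
  rw [iuD_sl hB]
  by_cases h : k = i
  · subst h
    rw [injSl_in_apply_self, injSl_in_apply_self]
  · rw [injSl_in_apply_ne h, injSl_in_apply_ne h, map_zero]

theorem iuD_blocks {B : ℕ → IuOp X} (hB : IuBdd B) :
    InjHasBlocks (iuD B) fun i k => if i = k then B i else 0 := by
  intro i k
  ext1 ζ
  change injSl i (iuD B (injIn k ζ)) = (if i = k then B i else 0) ζ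
  rw [iuD_sl hB]
  by_cases h : i = k
  · subst h
    rw [injSl_in_apply_self, if_pos rfl]
  · rw [injSl_in_apply_ne h, map_zero, if_neg h]
    rfl

/-- a single block at position `0` -/
theorem iuD_single (T : IuOp X) :
    iuD (fun i => if i = 0 then T else 0) = injIn 0 ∘L T ∘L injSl 0 := by
  have hB : IuBdd (fun i : ℕ => if i = 0 then T else 0) := by
    refine ⟨‖T‖, fun i => ?_⟩
    beta_reduce
    by_cases h : i = 0
    · rw [if_pos h]
    · rw [if_neg h, norm_zero]; exact norm_nonneg _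
  refine iu_ext (fun k ξ => ?_)
  rw [iuD_sl hB]
  change _ = injSl k (injIn 0 (T (injSl 0 ξ)))
  by_cases h : k = 0
  · subst h
    rw [injSl_in_apply_self, if_pos rfl]
  · rw [injSl_in_apply_ne h, if_neg h]
    rfl

/-! ### the shift -/

theorem iu_succ_injective : Function.Injective fun p : ℕ × X => (p.1 + 1, p.2) := by
  rintro ⟨i, x⟩ ⟨k, y⟩ h
  obtain ⟨h1, h2⟩ := Prod.mk.inj h
  exact Prod.ext (Nat.succ_injective h1) h2

/-- the backward shift `(S^* ξ)_i = ξ_{i+1}` -/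
noncomputable def iuSs : IuOp (ℕ × X) := scPull (fun p : ℕ × X => (p.1 + 1, p.2)) iu_succ_injective

/-- the forward shift `(S ξ)_{i+1} = ξ_i`, `(S ξ)_0 = 0` -/
noncomputable def iuS : IuOp (ℕ × X) := star iuSs

theorem iuS_star : star (iuS : IuOp (ℕ × X)) = iuSs := star_star _

theorem iuSs_sl (i : ℕ) (ξ : ScL2 (ℕ × X)) : injSl i (iuSs ξ) = injSl (i + 1) ξ := rfl

theorem iuS_apply (ξ : ScL2 (ℕ × X)) (p : ℕ × X) :
    iuS ξ p = ⟪iuSs (scDelta p), ξ⟫_ℂ := by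
  rw [← sc_inner_delta_left p, iuS, ContinuousLinearMap.star_eq_adjoint,
    ContinuousLinearMap.adjoint_inner_right]

theorem iuS_sl_succ (i : ℕ) (ξ : ScL2 (ℕ × X)) : injSl (i + 1) (iuS ξ) = injSl i ξ := by
  ext x
  change iuS ξ (i + 1, x) = ξ (i, x)
  have h : iuSs (scDelta ((i + 1, x) : ℕ × X)) = scDelta (i, x) :=
    scPull_delta (fun p : ℕ × X => (p.1 + 1, p.2)) iu_succ_injective (i, x)
  rw [iuS_apply, h, sc_inner_delta_left]

theorem iuS_sl_zero (ξ : ScL2 (ℕ × X)) : injSl 0 (iuS ξ) = 0 := by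
  ext x
  change iuS ξ (0, x) = 0
  have h : iuSs (scDelta ((0, x) : ℕ × X)) = 0 := by
    apply scPull_delta_of_not_mem
    intro p hp
    exact Nat.succ_ne_zero _ (Prod.mk.inj hp).1
  rw [iuS_apply, h, inner_zero_left]

theorem iuS_star_mul_self : star (iuS : IuOp (ℕ × X)) * iuS = 1 := by
  rw [iuS_star]
  refine iu_ext (fun i ξ => ?_)
  change injSl i (iuSs (iuS ξ)) = injSl i ξ
  rw [iuSs_sl, iuS_sl_succ]

theorem iuS_norm_le : ‖(iuS : IuOp (ℕ × X))‖ ≤ 1 := by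
  rw [iuS, ContinuousLinearMap.star_eq_adjoint, LinearIsometryEquiv.norm_map]
  exact ContinuousLinearMap.opNorm_le_bound _ zero_le_one (fun ξ => by
    rw [one_mul]; exact scPull_norm_le _ _ ξ)

/-- the shifted family -/
noncomputable def iuSh (B : ℕ → IuOp X) : ℕ → IuOp X
  | 0 => 0
  | i + 1 => B i

theorem IuBdd.sh {B : ℕ → IuOp X} (hB : IuBdd B) : IuBdd (iuSh B) := by
  obtain ⟨C, hC⟩ := hB
  refine ⟨C, fun i => ?_⟩
  cases i with
  | zero => rw [iuSh, norm_zero]; exact (norm_nonneg _).trans (hC 0)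
  | succ i => exact hC i

theorem iuS_mul_D {B : ℕ → IuOp X} (hB : IuBdd B) : iuS * iuD B = iuD (iuSh B) * iuS := by
  refine iu_ext (fun i ξ => ?_)
  change injSl i (iuS (iuD B ξ)) = injSl i (iuD (iuSh B) (iuS ξ))
  rw [iuD_sl hB.sh]
  cases i with
  | zero => rw [iuS_sl_zero, iuS_sl_zero, map_zero]
  | succ i => rw [iuS_sl_succ, iuS_sl_succ, iuD_sl hB]; rfl

theorem iuD_mul_S_mul_Ss {B : ℕ → IuOp X} (hB : IuBdd B) (h0 : B 0 = 0) :
    iuD B * iuS * star iuS = iuD B := by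
  rw [iuS_star]
  refine iu_ext (fun i ξ => ?_)
  change injSl i (iuD B (iuS (iuSs ξ))) = _
  rw [iuD_sl hB, iuD_sl hB]
  cases i with
  | zero => rw [h0]; rfl
  | succ i => rw [iuS_sl_succ, iuSs_sl]

/-- `S D(B) S^* = D(sh B)` -/
theorem iuS_conj_D {B : ℕ → IuOp X} (hB : IuBdd B) : iuS * iuD B * star iuS = iuD (iuSh B) := by
  rw [iuS_mul_D hB]
  exact iuD_mul_S_mul_Ss hB.sh rfl

/-- `D(B) S D(B') = 0` if `B_{i+1} B'_i = 0` for all `i` -/
theorem iuD_S_D_eq_zero {B B' : ℕ → IuOp X} (hB : IuBdd B) (hB' : IuBdd B')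
    (h : ∀ i, B (i + 1) * B' i = 0) : iuD B * iuS * iuD B' = 0 := by
  refine iu_ext (fun i ξ => ?_)
  change injSl i (iuD B (iuS (iuD B' ξ))) = injSl i 0
  rw [iuD_sl hB, map_zero]
  cases i with
  | zero => rw [iuS_sl_zero, map_zero]
  | succ i =>
    rw [iuS_sl_succ, iuD_sl hB']
    exact congrArg (fun T : IuOp X => T (injSl i ξ)) (h i)

theorem iuDS_blocks {B : ℕ → IuOp X} (hB : IuBdd B) :
    InjHasBlocks (iuD B * iuS) fun i k => if i = k + 1 then B i else 0 := by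
  intro i k
  ext1 ζ
  change injSl i (iuD B (iuS (injIn k ζ))) = (if i = k + 1 then B i else 0) ζ
  rw [iuD_sl hB]
  cases i with
  | zero =>
    rw [iuS_sl_zero, map_zero, if_neg (by omega)]
    rfl
  | succ i =>
    rw [iuS_sl_succ]
    by_cases h : i = k
    · subst h
      rw [injSl_in_apply_self, if_pos rfl]
    · rw [injSl_in_apply_ne h, map_zero, if_neg (by omega)]
      rfl

theorem iuDSs_blocks {B : ℕ → IuOp X} (hB : IuBdd B) :
    InjHasBlocks (iuD B * star iuS) fun i k => if i + 1 = k then B i else 0 := by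
  intro i k
  rw [iuS_star]
  ext1 ζ
  change injSl i (iuD B (iuSs (injIn k ζ))) = (if i + 1 = k then B i else 0) ζ
  rw [iuD_sl hB, iuSs_sl]
  by_cases h : i + 1 = k
  · subst h
    rw [injSl_in_apply_self, if_pos rfl]
  · rw [injSl_in_apply_ne h, map_zero, if_neg h]
    rfl

end Claimed.Agent.R300
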