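/-
Row 300 / S0553 (INJ paper), UPPER ASSEMBLY, package IU-MODEL (sub-captain: helper145).
The finite list of symbols fed into `InjPhysStmt`, the model operators with the prescribed blocks and the
exact relations between the model matrices
  `iuAm Φ b H0 N j P` = diagonal matrix with the blocks `Φ(a at mesh index j, height i)`, `i ∈ P`.
Everything follows from the STATEMENTS of IuBand.lean (`iuD`, `iuS`), IuFun.lean (`iuT`, `iuF`), IuAlg.lean.
The `sorry`s are replaced IN PLACE by the owner (table subtask, target row300, name IU-MODEL).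
-/
import Mathlib
import Claimed.Agent.R300.IuBand
import Claimed.Agent.R300.IuFun

set_option autoImplicit false

namespace Claimed.Agent.R300

open Matrix

/-! ### the symbols -/

/-- offsets -/
def iuOff : Fin 3 → ℤ := ![-1, 0, 1]

/-- selections: `{0}`, even `≥ 2`, odd, even -/
def iuSel : Fin 4 → ℕ → Prop
  | 0, i => i = 0
  | 1, i => Even i ∧ 2 ≤ i
  | 2, i => Odd i
  | 3, i => Even i

/-- index set of the symbols: mesh index, offset, selection, `x`-profile, `y`-profile -/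
abbrev IuIdx (N : ℕ) : Type := Fin (N + 1) × Fin 3 × Fin 4 × Fin 3 × Fin 2

/-- the symbols -/
noncomputable def iuSym (b N : ℕ) (τ : IuIdx N) : InjSym :=
  ⟨iuA τ.2.2.2.1 (iuLam b N τ.1), iuB τ.2.2.2.2 (iuMu b N τ.1), iuOff τ.2.1, iuSel τ.2.2.1⟩

theorem iuSym_adm (b : ℕ) {N : ℕ} (hN : 0 < N) (τ : IuIdx N) : (iuSym b N τ).Adm (iuR b) := by
  obtain ⟨j, o, s, k, l⟩ := τ
  have hj : (j : ℕ) ≤ N := Nat.lt_succ_iff.1 j.2
  refine ⟨fun m => iuA_contDiff k _ m, fun m => iuB_contDiff l _ m, iuA_supp_R k b hN hj,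
    iuB_supp_R l b hN hj, ?_⟩
  change iuOff o = -1 ∨ iuOff o = 0 ∨ iuOff o = 1
  fin_cases o <;> simp [iuOff]

/-! ### the model operators -/

variable {X : Type} (Φ : C(InjT × InjT, ℂ) →⋆ₐ[ℂ] IuOp X) (b H0 N : ℕ)

theorem iu_Phi_norm_le (f : C(InjT × InjT, ℂ)) : ‖Φ f‖ ≤ ‖f‖ := by
  exact NonUnitalStarAlgHom.norm_apply_le Φ f

/-- the carrier `c = diag Φ(χ_i²)` -/
noncomputable def iuC : IuOp (ℕ × X) := iuD fun i => Φ (injCut b H0 (2 * iuR b) i ^ 2)

open Classical in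
/-- the family `i ↦ [P i] Φ(term (k,l) at mesh index j, height i + sh)` -/
noncomputable def iuFam (j : ℕ) (P : ℕ → Prop) (sh : ℕ) (k : Fin 3) (l : Fin 2) : ℕ → IuOp X :=
  fun i => if P i then Φ (iuT b H0 N j (i + sh) k l) else 0

/-- the model matrix: diagonal, blocks `Φ(a_{j,i})`, `i ∈ P` -/
noncomputable def iuAm (j : ℕ) (P : ℕ → Prop) : Matrix (Fin 2) (Fin 2) (IuOp (ℕ × X)) :=
  iuMat fun k l => iuD (iuFam Φ b H0 N j P 0 k l)

/-- the shifted selection -/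
def iuNext (P : ℕ → Prop) : ℕ → Prop := fun i => ∃ i', i = i' + 1 ∧ P i'

theorem iuNext_even : iuNext (iuSel 3) = iuSel 2 := by
  funext i
  apply propext
  change (∃ i', i = i' + 1 ∧ Even i') ↔ Odd i
  constructor
  · rintro ⟨i', rfl, h⟩
    exact h.add_one
  · intro h
    obtain ⟨m, rfl⟩ := h
    exact ⟨2 * m, rfl, even_two_mul m⟩

theorem iuNext_odd : iuNext (iuSel 2) = iuSel 1 := by
  funext i
  apply propext
  change (∃ i', i = i' + 1 ∧ Odd i') ↔ (Even i ∧ 2 ≤ i)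
  constructor
  · rintro ⟨i', rfl, h⟩
    refine ⟨h.add_one, ?_⟩
    obtain ⟨m, rfl⟩ := h
    omega
  · rintro ⟨h, h2⟩
    obtain ⟨m, rfl⟩ := h
    refine ⟨m + m - 1, by omega, ⟨m - 1, by omega⟩⟩

variable {Φ b H0 N}

theorem iuC_fam_norm_le (h : IuBig b H0) (i : ℕ) :
    ‖Φ (injCut b H0 (2 * iuR b) i ^ 2)‖ ≤ 1 := by
  refine (iu_Phi_norm_le Φ _).trans ?_
  refine (norm_pow_le _ 2).trans ?_
  exact pow_le_one₀ (norm_nonneg _) (injCut_norm_le h i)

theorem iuC_bdd (h : IuBig b H0) : IuBdd fun i => Φ (injCut b H0 (2 * iuR b) i ^ 2) :=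
  ⟨1, iuC_fam_norm_le h⟩

theorem iuC_blocks (h : IuBig b H0) : InjHasBlocks (iuC Φ b H0)
    (fun i k => if i = k then Φ (injCut b H0 (2 * iuR b) i ^ 2) else 0) := by
  exact iuD_blocks (iuC_bdd h)

theorem iuC_norm_le (h : IuBig b H0) : ‖iuC Φ b H0‖ ≤ 1 := by
  exact iuD_norm_le (iuC_fam_norm_le h)

theorem iuFam_bdd (h : IuBig b H0) (hN : 0 < N) {j : ℕ} (hj : j ≤ N) (P : ℕ → Prop) (sh : ℕ)
    (k : Fin 3) (l : Fin 2) : ∀ i, ‖iuFam Φ b H0 N j P sh k l i‖ ≤ 1 := by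
  intro i
  unfold iuFam
  by_cases hP : P i
  · rw [if_pos hP]
    exact (iu_Phi_norm_le Φ _).trans (iuT_norm_le h hN hj _ k l)
  · rw [if_neg hP, norm_zero]
    exact zero_le_one

theorem iuFam_iuBdd (h : IuBig b H0) (hN : 0 < N) {j : ℕ} (hj : j ≤ N) (P : ℕ → Prop) (sh : ℕ)
    (k : Fin 3) (l : Fin 2) : IuBdd (iuFam Φ b H0 N j P sh k l) :=
  ⟨1, iuFam_bdd h hN hj P sh k l⟩

open Classical in
theorem iuSym_blocks (j : Fin (N + 1)) (o : Fin 3) (s : Fin 4) (k : Fin 3) (l : Fin 2) (i k' : ℕ) :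
    (iuSym b N (j, o, s, k, l)).blocks b H0 Φ i k' =
      if (k' : ℤ) = i + iuOff o ∧ iuSel s i then Φ (iuT b H0 N j (max i k') k l) else 0 := rfl

/-- the three kinds of model operators have the blocks of the symbols -/
theorem iu_blocks_zero (h : IuBig b H0) (hN : 0 < N) (j : Fin (N + 1)) (s : Fin 4) (k : Fin 3)
    (l : Fin 2) : InjHasBlocks (iuD (iuFam Φ b H0 N j (iuSel s) 0 k l))
      ((iuSym b N (j, 1, s, k, l)).blocks b H0 Φ) := by
  have hj : (j : ℕ) ≤ N := Nat.lt_succ_iff.1 j.2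
  intro i k'
  rw [iuD_blocks (iuFam_iuBdd h hN hj _ 0 k l) i k']
  rw [iuSym_blocks]
  have ho : iuOff 1 = 0 := rfl
  rw [ho, add_zero]
  unfold iuFam
  beta_reduce
  by_cases hik : i = k'
  · subst hik
    rw [if_pos rfl, max_self, add_zero]
    by_cases hs : iuSel s i
    · rw [if_pos hs, if_pos ⟨rfl, hs⟩]
    · rw [if_neg hs, if_neg (fun h' => hs h'.2)]
  · rw [if_neg hik, if_neg]
    rintro ⟨h1, -⟩
    exact hik (by exact_mod_cast h1.symm)

theorem iu_blocks_minus (h : IuBig b H0) (hN : 0 < N) (j : Fin (N + 1)) (s : Fin 4) (k : Fin 3)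
    (l : Fin 2) : InjHasBlocks (iuD (iuFam Φ b H0 N j (iuSel s) 0 k l) * iuS)
      ((iuSym b N (j, 0, s, k, l)).blocks b H0 Φ) := by
  have hj : (j : ℕ) ≤ N := Nat.lt_succ_iff.1 j.2
  intro i k'
  rw [iuDS_blocks (iuFam_iuBdd h hN hj _ 0 k l) i k']
  rw [iuSym_blocks]
  have ho : iuOff 0 = -1 := rfl
  rw [ho]
  unfold iuFam
  beta_reduce
  by_cases hik : i = k' + 1
  · subst hik
    rw [if_pos rfl, max_eq_left (Nat.le_succ k'), add_zero]
    by_cases hs : iuSel s (k' + 1)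
    · rw [if_pos hs, if_pos ⟨by push_cast; ring, hs⟩]
    · rw [if_neg hs, if_neg (fun h' => hs h'.2)]
  · rw [if_neg hik, if_neg]
    rintro ⟨h1, -⟩
    exact hik (by omega)

theorem iu_blocks_plus (h : IuBig b H0) (hN : 0 < N) (j : Fin (N + 1)) (s : Fin 4) (k : Fin 3)
    (l : Fin 2) : InjHasBlocks (iuD (iuFam Φ b H0 N j (iuSel s) 1 k l) * star iuS)
      ((iuSym b N (j, 2, s, k, l)).blocks b H0 Φ) := by
  have hj : (j : ℕ) ≤ N := Nat.lt_succ_iff.1 j.2
  intro i k'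
  rw [iuDSs_blocks (iuFam_iuBdd h hN hj _ 1 k l) i k']
  rw [iuSym_blocks]
  have ho : iuOff 2 = 1 := rfl
  rw [ho]
  unfold iuFam
  beta_reduce
  by_cases hik : i + 1 = k'
  · subst hik
    rw [if_pos rfl, max_eq_right (Nat.le_succ i)]
    by_cases hs : iuSel s i
    · rw [if_pos hs, if_pos ⟨by push_cast; ring, hs⟩]
    · rw [if_neg hs, if_neg (fun h' => hs h'.2)]
  · rw [if_neg hik, if_neg]
    rintro ⟨h1, -⟩
    exact hik (by omega)

/-! ### relations -/

/-- a linear combination of diagonal operators -/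
theorem iuMat_D {T : Fin 3 → Fin 2 → ℕ → IuOp X} (hT : ∀ k l, IuBdd (T k l)) (r s : Fin 2) :
    iuMat (fun k l => iuD (T k l)) r s = iuD fun i => iuMat (fun k l => T k l i) r s := by
  change ∑ k, ∑ l, iuCoef r s k l • iuD (T k l) = iuD fun i => ∑ k, ∑ l, iuCoef r s k l • T k l i
  have h1 : ∀ k l, IuBdd fun i => iuCoef r s k l • T k l i := fun k l => (hT k l).smul _
  have h2 : ∀ k, IuBdd fun i => ∑ l, iuCoef r s k l • T k l i :=
    fun k => IuBdd.sum Finset.univ (fun l _ => h1 k l)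
  rw [iuD_sum Finset.univ (fun k _ => h2 k)]
  refine Finset.sum_congr rfl (fun k _ => ?_)
  rw [iuD_sum Finset.univ (fun l _ => h1 k l)]
  refine Finset.sum_congr rfl (fun l _ => ?_)
  rw [iuD_smul (hT k l)]

theorem iuMat_zero_fam {M : Type*} [AddCommMonoid M] [Module ℂ M] (r s : Fin 2) :
    iuMat (fun _ _ => (0 : M)) r s = 0 := by
  simp [iuMat]

theorem iuMat_Phi (T : Fin 3 → Fin 2 → C(InjT × InjT, ℂ)) (r s : Fin 2) :
    iuMat (fun k l => Φ (T k l)) r s = Φ (iuMat T r s) := by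
  simp [iuMat, map_sum]

open Classical in
/-- the diagonal family of an entry of the model matrix -/
theorem iuMat_Fam (j : ℕ) (P : ℕ → Prop) (sh : ℕ) (r s : Fin 2) (i : ℕ) :
    iuMat (fun k l => iuFam Φ b H0 N j P sh k l i) r s =
      if P i then Φ (iuF b H0 N j (i + sh) r s) else 0 := by
  unfold iuFam
  by_cases hP : P i
  · simp only [if_pos hP]
    exact iuMat_Phi _ r s
  · simp only [if_neg hP]
    exact iuMat_zero_fam r s

open Classical in
/-- the families of the entries -/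
noncomputable def iuFamF (Φ : C(InjT × InjT, ℂ) →⋆ₐ[ℂ] IuOp X) (b H0 N j : ℕ) (P : ℕ → Prop)
    (sh : ℕ) (r s : Fin 2) : ℕ → IuOp X :=
  fun i => if P i then Φ (iuF b H0 N j (i + sh) r s) else 0

theorem iuFamF_norm_le (h : IuBig b H0) (hN : 0 < N) {j : ℕ} (hj : j ≤ N) (P : ℕ → Prop) (sh : ℕ)
    (r s : Fin 2) (i : ℕ) : ‖iuFamF Φ b H0 N j P sh r s i‖ ≤ 2 := by
  unfold iuFamF
  by_cases hP : P i
  · rw [if_pos hP]
    exact (iu_Phi_norm_le Φ _).trans (iuF_norm_le h hN hj _ r s)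
  · rw [if_neg hP, norm_zero]
    exact zero_le_two

theorem iuFamF_bdd (h : IuBig b H0) (hN : 0 < N) {j : ℕ} (hj : j ≤ N) (P : ℕ → Prop) (sh : ℕ)
    (r s : Fin 2) : IuBdd (iuFamF Φ b H0 N j P sh r s) :=
  ⟨2, iuFamF_norm_le h hN hj P sh r s⟩

theorem iuMat_D_Fam (h : IuBig b H0) (hN : 0 < N) {j : ℕ} (hj : j ≤ N) (P : ℕ → Prop) (sh : ℕ)
    (r s : Fin 2) :
    iuMat (fun k l => iuD (iuFam Φ b H0 N j P sh k l)) r s = iuD (iuFamF Φ b H0 N j P sh r s) := by
  rw [iuMat_D (fun k l => iuFam_iuBdd h hN hj P sh k l)]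
  congr 1
  funext i
  exact iuMat_Fam j P sh r s i

theorem iuAm_eq (h : IuBig b H0) (hN : 0 < N) {j : ℕ} (hj : j ≤ N) (P : ℕ → Prop) (r s : Fin 2) :
    iuAm Φ b H0 N j P r s = iuD (iuFamF Φ b H0 N j P 0 r s) :=
  iuMat_D_Fam h hN hj P 0 r s

/-- entries of the model matrix as diagonal operators -/
theorem iuAm_apply (h : IuBig b H0) (hN : 0 < N) {j : ℕ} (hj : j ≤ N) (P : ℕ → Prop)
    [DecidablePred P] (r s : Fin 2) :
    iuAm Φ b H0 N j P r s = iuD fun i => if P i then Φ (iuF b H0 N j i r s) else 0 := by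
  rw [iuAm_eq h hN hj]
  congr 1
  funext i
  unfold iuFamF
  by_cases hP : P i
  · rw [if_pos hP, if_pos hP, add_zero]
  · rw [if_neg hP, if_neg hP]

/-- `IuQ` passes from the blocks to the diagonal operators -/
theorem iuQ_D {B : Fin 2 → Fin 2 → ℕ → IuOp X} (hB : ∀ r s, IuBdd (B r s))
    (hQ : ∀ i, IuQ (Matrix.of fun r s => B r s i)) : IuQ (Matrix.of fun r s => iuD (B r s)) := by
  refine ⟨fun r s => ?_, fun r s => ?_⟩
  · change star (iuD (B s r)) = iuD (B r s)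
    rw [iuD_star (hB s r)]
    congr 1
    funext i
    exact (hQ i).1 r s
  · change (if r = 0 then iuD (B r s) else 0) + (if s = 0 then iuD (B r s) else 0)
      + ∑ l, iuD (B r l) * iuD (B l s) = iuD (B r s)
    have e1 : ∀ (p : Prop) [Decidable p], (if p then iuD (B r s) else 0)
        = iuD fun i => if p then B r s i else 0 := by
      intro p _
      by_cases hp : p
      · simp only [if_pos hp]
      · simp only [if_neg hp]
        exact iuD_zero.symm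
    have b1 : ∀ (p : Prop) [Decidable p], IuBdd fun i => if p then B r s i else 0 := by
      intro p _
      by_cases hp : p
      · simp only [if_pos hp]
        exact hB r s
      · simp only [if_neg hp]
        exact iuBdd_const 0
    have b2 : ∀ l, IuBdd fun i => B r l i * B l s i := fun l => (hB r l).mul (hB l s)
    have e2 : ∑ l, iuD (B r l) * iuD (B l s) = iuD fun i => ∑ l, B r l i * B l s i := by
      rw [iuD_sum Finset.univ (fun l _ => b2 l)]
      refine Finset.sum_congr rfl (fun l _ => ?_)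
      rw [iuD_mul (hB r l) (hB l s)]
    rw [e1, e1, e2, ← iuD_add (b1 _) (b1 _),
      ← iuD_add ((b1 _).add (b1 _)) (IuBdd.sum Finset.univ (fun l _ => b2 l))]
    congr 1
    funext i
    exact (hQ i).2 r s

theorem iuQ_Am (h : IuBig b H0) (hN : 0 < N) {j : ℕ} (hj : j ≤ N) (P : ℕ → Prop) :
    IuQ (iuAm Φ b H0 N j P) := by
  have e : iuAm Φ b H0 N j P = Matrix.of fun r s => iuD (iuFamF Φ b H0 N j P 0 r s) := by
    ext r s
    exact congrArg (fun T : IuOp (ℕ × X) => T _ _) (iuAm_eq h hN hj P r s)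
  rw [e]
  refine iuQ_D (fun r s => iuFamF_bdd h hN hj P 0 r s) (fun i => ?_)
  unfold iuFamF
  by_cases hP : P i
  · simp only [if_pos hP]
    exact (iuQ_F h hN hj (i + 0)).map Φ (map_zero Φ) (map_add Φ) (map_mul Φ) (map_star Φ)
  · simp only [if_neg hP]
    exact iuQ_zero

theorem iuAm_norm_le (h : IuBig b H0) (hN : 0 < N) {j : ℕ} (hj : j ≤ N) (P : ℕ → Prop)
    (r s : Fin 2) : ‖iuAm Φ b H0 N j P r s‖ ≤ 2 := by
  rw [iuAm_eq h hN hj]
  exact iuD_norm_le (iuFamF_norm_le h hN hj P 0 r s)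

/-- carried by `c` -/
theorem iuC_mul_D (h : IuBig b H0) (hN : 0 < N) {j : ℕ} (hj : j ≤ N) (P : ℕ → Prop) (sh : ℕ)
    (k : Fin 3) (l : Fin 2) :
    iuC Φ b H0 * iuD (iuFam Φ b H0 N j P sh k l) = iuD (iuFam Φ b H0 N j P sh k l) := by
  unfold iuC
  rw [iuD_mul (iuC_bdd h) (iuFam_iuBdd h hN hj P sh k l)]
  congr 1
  funext i
  unfold iuFam
  by_cases hP : P i
  · rw [if_pos hP, ← map_mul, pow_two, mul_assoc, iuT_cut h hN hj (Nat.le_add_right i sh),
      iuT_cut h hN hj (Nat.le_add_right i sh)]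
  · rw [if_neg hP, mul_zero]

/-- left multiplication passes through `iuMat` -/
theorem iuMat_mul_left {A : Type*} [Ring A] [Algebra ℂ A] (c : A) (T : Fin 3 → Fin 2 → A)
    (r s : Fin 2) : c * iuMat T r s = iuMat (fun k l => c * T k l) r s := by
  change c * ∑ k, ∑ l, iuCoef r s k l • T k l = ∑ k, ∑ l, iuCoef r s k l • (c * T k l)
  rw [Finset.mul_sum]
  refine Finset.sum_congr rfl (fun k _ => ?_)
  rw [Finset.mul_sum]
  refine Finset.sum_congr rfl (fun l _ => ?_)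
  rw [mul_smul_comm]

/-- right multiplication passes through `iuMat` -/
theorem iuMat_mul_right {A : Type*} [Ring A] [Algebra ℂ A] (c : A) (T : Fin 3 → Fin 2 → A)
    (r s : Fin 2) : iuMat T r s * c = iuMat (fun k l => T k l * c) r s := by
  change (∑ k, ∑ l, iuCoef r s k l • T k l) * c = ∑ k, ∑ l, iuCoef r s k l • (T k l * c)
  rw [Finset.sum_mul]
  refine Finset.sum_congr rfl (fun k _ => ?_)
  rw [Finset.sum_mul]
  refine Finset.sum_congr rfl (fun l _ => ?_)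
  rw [smul_mul_assoc]

theorem iuC_mul_Am (h : IuBig b H0) (hN : 0 < N) {j : ℕ} (hj : j ≤ N) (P : ℕ → Prop)
    (r s : Fin 2) : iuC Φ b H0 * iuAm Φ b H0 N j P r s = iuAm Φ b H0 N j P r s := by
  unfold iuAm
  rw [iuMat_mul_left]
  simp only [iuC_mul_D h hN hj]

theorem iuAm_mesh (h : IuBig b H0) (hN : IuMesh b N) {j : ℕ} (hj : j < N) (P : ℕ → Prop)
    (r s : Fin 2) : ‖iuAm Φ b H0 N j P r s - iuAm Φ b H0 N (j + 1) P r s‖ ≤ 1 / 100 := by
  have hN0 : 0 < N := hN.1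
  have key : ∀ (k : Fin 3) (l : Fin 2), ‖iuD (iuFam Φ b H0 N j P 0 k l)
      - iuD (iuFam Φ b H0 N (j + 1) P 0 k l)‖ ≤ 1 / 1000 := by
    intro k l
    rw [← iuD_sub (iuFam_iuBdd h hN0 hj.le P 0 k l) (iuFam_iuBdd h hN0 hj P 0 k l)]
    refine iuD_norm_le (fun i => ?_)
    unfold iuFam
    by_cases hP : P i
    · rw [if_pos hP, if_pos hP, ← map_sub]
      exact (iu_Phi_norm_le Φ _).trans (iuT_mesh h hN hj _ k l)
    · rw [if_neg hP, if_neg hP, sub_zero, norm_zero]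
      norm_num
  refine (iuMat_norm_sub_le _ _ key r s).trans ?_
  norm_num

theorem iuSh_Fam (hN : 0 < N) (P : ℕ → Prop) (k : Fin 3) (l : Fin 2) :
    iuSh (iuFam Φ b H0 N N P 0 k l) = iuFam Φ b H0 N 0 (iuNext P) 0 k l := by
  funext i
  cases i with
  | zero =>
    have h0 : ¬ iuNext P 0 := by
      rintro ⟨i', hi', -⟩
      omega
    unfold iuFam
    rw [if_neg h0]
    rfl
  | succ i =>
    change iuFam Φ b H0 N N P 0 k l i = _
    unfold iuFam
    by_cases hP : P i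
    · have h1 : iuNext P (i + 1) := ⟨i, rfl, hP⟩
      rw [if_pos hP, if_pos h1, add_zero, add_zero, iuT_scale hN]
    · have h1 : ¬ iuNext P (i + 1) := by
        rintro ⟨i', hi', hP'⟩
        have : i = i' := by omega
        exact hP (this ▸ hP')
      rw [if_neg hP, if_neg h1]

theorem iuFam_scale (hN : 0 < N) (P : ℕ → Prop) (k : Fin 3) (l : Fin 2) :
    iuFam Φ b H0 N N P 0 k l = iuFam Φ b H0 N 0 P 1 k l := by
  funext i
  unfold iuFam
  rw [add_zero, iuT_scale hN]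

/-- `S A = (terms at mesh index 0 on the shifted selection) S` -/
theorem iuS_mul_Am (h : IuBig b H0) (hN : 0 < N) (P : ℕ → Prop) (r s : Fin 2) :
    iuS * iuAm Φ b H0 N N P r s =
      iuMat (fun k l => iuD (iuFam Φ b H0 N 0 (iuNext P) 0 k l) * iuS) r s := by
  unfold iuAm
  rw [iuMat_mul_left]
  congr 1
  funext k l
  rw [iuS_mul_D (iuFam_iuBdd h hN le_rfl P 0 k l), iuSh_Fam hN]

/-- `A S^* = (terms at mesh index 0, height i+1, on the selection) S^*` -/
theorem iuAm_mul_Ss (h : IuBig b H0) (hN : 0 < N) (P : ℕ → Prop) (r s : Fin 2) :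
    iuAm Φ b H0 N N P r s * star iuS =
      iuMat (fun k l => iuD (iuFam Φ b H0 N 0 P 1 k l) * star iuS) r s := by
  unfold iuAm
  rw [iuMat_mul_right]
  congr 1
  funext k l
  rw [iuFam_scale hN]

/-- `S A S^* =` the model matrix at mesh index `0` on the shifted selection -/
theorem iuS_conj_Am (h : IuBig b H0) (hN : 0 < N) (P : ℕ → Prop) (r s : Fin 2) :
    iuS * iuAm Φ b H0 N N P r s * star iuS = iuAm Φ b H0 N 0 (iuNext P) r s := by
  unfold iuAm
  rw [iuMat_mul_left, iuMat_mul_right]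
  congr 1
  funext k l
  rw [iuS_conj_D (iuFam_iuBdd h hN le_rfl P 0 k l), iuSh_Fam hN]

theorem iuC_mul_S_Am (h : IuBig b H0) (hN : 0 < N) (P : ℕ → Prop) (r s : Fin 2) :
    iuC Φ b H0 * (iuS * iuAm Φ b H0 N N P r s) = iuS * iuAm Φ b H0 N N P r s := by
  rw [iuS_mul_Am h hN, iuMat_mul_left]
  simp only [← mul_assoc, iuC_mul_D h hN (Nat.zero_le N)]

theorem iuC_mul_Am_Ss (h : IuBig b H0) (hN : 0 < N) (P : ℕ → Prop) (r s : Fin 2) :
    iuC Φ b H0 * (iuAm Φ b H0 N N P r s * star iuS) = iuAm Φ b H0 N N P r s * star iuS := by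
  rw [← mul_assoc, iuC_mul_Am h hN le_rfl]

theorem iuC_mul_S_Am_Ss (h : IuBig b H0) (hN : 0 < N) (P : ℕ → Prop) (r s : Fin 2) :
    iuC Φ b H0 * (iuS * iuAm Φ b H0 N N P r s * star iuS) =
      iuS * iuAm Φ b H0 N N P r s * star iuS := by
  rw [← mul_assoc, iuC_mul_S_Am h hN]

/-- `A S A = 0` if the selection contains no two consecutive integers -/
theorem iuAm_S_Am (h : IuBig b H0) (hN : 0 < N) {j : ℕ} (hj : j ≤ N) (P : ℕ → Prop)
    (hP : ∀ i, ¬ (P (i + 1) ∧ P i)) (r l l' s : Fin 2) :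
    iuAm Φ b H0 N j P r l * iuS * iuAm Φ b H0 N j P l' s = 0 := by
  rw [iuAm_eq h hN hj, iuAm_eq h hN hj]
  refine iuD_S_D_eq_zero (iuFamF_bdd h hN hj P 0 r l) (iuFamF_bdd h hN hj P 0 l' s) (fun i => ?_)
  unfold iuFamF
  by_cases h1 : P (i + 1)
  · have h2 : ¬ P i := fun h2 => hP i ⟨h1, h2⟩
    rw [if_neg h2, mul_zero]
  · rw [if_neg h1, zero_mul]

/-- disjoint selections: sum and products -/
theorem iuAm_union (h : IuBig b H0) (hN : 0 < N) {j : ℕ} (hj : j ≤ N) (P P' : ℕ → Prop)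
    (hPP : ∀ i, ¬ (P i ∧ P' i)) :
    iuAm Φ b H0 N j (fun i => P i ∨ P' i) = iuAm Φ b H0 N j P + iuAm Φ b H0 N j P' := by
  unfold iuAm
  rw [← iuMat_add]
  congr 1
  funext k l
  rw [← iuD_add (iuFam_iuBdd h hN hj P 0 k l) (iuFam_iuBdd h hN hj P' 0 k l)]
  congr 1
  funext i
  unfold iuFam
  by_cases h1 : P i
  · have h2 : ¬ P' i := fun h2 => hPP i ⟨h1, h2⟩
    rw [if_pos (Or.inl h1), if_pos h1, if_neg h2]
    exact (add_zero _).symm
  · by_cases h2 : P' i
    · rw [if_pos (Or.inr h2), if_neg h1, if_pos h2, zero_add]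
    · rw [if_neg (not_or.2 ⟨h1, h2⟩), if_neg h1, if_neg h2, add_zero]

theorem iuAm_mul_disj (h : IuBig b H0) (hN : 0 < N) {j : ℕ} (hj : j ≤ N) (P P' : ℕ → Prop)
    (hPP : ∀ i, ¬ (P i ∧ P' i)) (r l l' s : Fin 2) :
    iuAm Φ b H0 N j P r l * iuAm Φ b H0 N j P' l' s = 0 := by
  rw [iuAm_eq h hN hj, iuAm_eq h hN hj,
    iuD_mul (iuFamF_bdd h hN hj P 0 r l) (iuFamF_bdd h hN hj P' 0 l' s), ← iuD_zero]
  congr 1
  funext i
  unfold iuFamF
  by_cases h1 : P i
  · have h2 : ¬ P' i := fun h2 => hPP i ⟨h1, h2⟩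
    rw [if_neg h2, mul_zero]
  · rw [if_neg h1, zero_mul]

theorem iuSel_even_eq : iuSel 3 = fun i => iuSel 0 i ∨ iuSel 1 i := by
  funext i
  apply propext
  change Even i ↔ (i = 0 ∨ (Even i ∧ 2 ≤ i))
  constructor
  · intro h
    obtain ⟨m, rfl⟩ := h
    by_cases hm : m = 0
    · left; omega
    · right
      exact ⟨⟨m, rfl⟩, by omega⟩
  · rintro (rfl | ⟨h, -⟩)
    · exact Even.zero
    · exact h

/-- the block at height `0` -/
theorem iuAm_zero (h : IuBig b H0) (hN : 0 < N) {j : ℕ} (hj : j ≤ N) (r s : Fin 2) :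
    iuAm Φ b H0 N j (iuSel 0) r s = injIn 0 ∘L Φ (iuF b H0 N j 0 r s) ∘L injSl 0 := by
  rw [iuAm_eq h hN hj, ← iuD_single]
  congr 1
  funext i
  unfold iuFamF
  by_cases hi : i = 0
  · subst hi
    rw [if_pos (show iuSel 0 0 from rfl), if_pos rfl]
  · rw [if_neg (show ¬ iuSel 0 i from hi), if_neg hi]

end Claimed.Agent.R300
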