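import Claimed.Agent.R300.ScAlg

/-!
# Row 300, KK Section 10: the equivariant Hilbert-Schmidt size (owner: helper236, prefix `spec`)

On `ℓ²(G × I)` the group `G` acts by right translations `specRho h` of the first coordinate.
`specHS X = ∑ i, ‖X δ_(1,i)‖²` (in `ℝ≥0∞`).  Main result `specHS_family`: for an equivariant family
`X q` (`ρ_h X_q = X_(h • q) ρ_h`) one has `∑ q, specHS (X q) = ∑ q, specHS (star (X q))`.
This replaces Lemma "Equivariant trace and size" (adjoint-square identity) of the paper.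
-/

set_option autoImplicit false

namespace Claimed.Agent.R300

open scoped ENNReal ComplexConjugate InnerProductSpace

variable {G : Type} [Group G] {I : Type}

theorem specRho_inj (h : G) : Function.Injective fun p : G × I => (p.1 * h, p.2) := by
  rintro ⟨a, i⟩ ⟨b, j⟩ hab
  simp only [Prod.mk.injEq, mul_left_inj] at hab
  exact Prod.ext hab.1 hab.2

/-- right translation of the group coordinate: `(ρ_h ξ)(x, i) = ξ (x h, i)`. -/
noncomputable def specRho (h : G) : ScL2 (G × I) →L[ℂ] ScL2 (G × I) :=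
  scPull (fun p : G × I => (p.1 * h, p.2)) (specRho_inj h)

@[simp] theorem specRho_apply (h : G) (ξ : ScL2 (G × I)) (p : G × I) :
    specRho h ξ p = ξ (p.1 * h, p.2) := rfl

theorem specRho_delta (h x : G) (i : I) :
    specRho h (scDelta (x, i)) = scDelta (x * h⁻¹, i) := by
  have := scPull_delta (fun p : G × I => (p.1 * h, p.2)) (specRho_inj h) (x * h⁻¹, i)
  simpa [specRho] using this

theorem specRho_one : specRho (1 : G) = (1 : ScL2 (G × I) →L[ℂ] ScL2 (G × I)) := by
  ext ξ p; simp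

theorem specRho_mul (g h : G) :
    (specRho (g * h) : ScL2 (G × I) →L[ℂ] ScL2 (G × I)) = specRho g * specRho h := by
  ext ξ p; simp [mul_assoc]

theorem specRho_norm (h : G) (ξ : ScL2 (G × I)) : ‖specRho h ξ‖ = ‖ξ‖ := by
  refine scPull_norm_of_bijective _ ⟨specRho_inj h, ?_⟩ ξ
  rintro ⟨a, i⟩
  exact ⟨(a * h⁻¹, i), by simp⟩

/-- the equivariant Hilbert-Schmidt size. -/
noncomputable def specHS (X : ScL2 (G × I) →L[ℂ] ScL2 (G × I)) : ℝ≥0∞ :=
  ∑' i : I, ENNReal.ofReal (‖X (scDelta ((1 : G), i))‖ ^ 2)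

theorem spec_ofReal_norm_sq {Z : Type} (ξ : ScL2 Z) :
    ENNReal.ofReal (‖ξ‖ ^ 2) = ∑' z, ENNReal.ofReal (‖ξ z‖ ^ 2) := by
  rw [scL2_norm_sq, ENNReal.ofReal_tsum_of_nonneg (fun _ => by positivity) (scL2_summable_sq ξ)]

/-- matrix coefficients of an equivariant family. -/
theorem spec_family_coeff {Q : Type} [MulAction G Q] (X : Q → ScL2 (G × I) →L[ℂ] ScL2 (G × I))
    (hX : ∀ (h : G) (q : Q), specRho h * X q = X (h • q) * specRho h) (q : Q) (i k : I) (g : G) :
    X q (scDelta ((1 : G), i)) (g, k) = conj (star (X (g • q)) (scDelta ((1 : G), k)) (g⁻¹, i)) := by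
  have h1 : X q (scDelta ((1 : G), i)) (g, k) = specRho g (X q (scDelta ((1 : G), i))) (1, k) := by
    simp
  have h2 : specRho g (X q (scDelta ((1 : G), i))) = X (g • q) (specRho g (scDelta ((1 : G), i))) := by
    have := congrArg (fun S : ScL2 (G × I) →L[ℂ] ScL2 (G × I) => S (scDelta ((1 : G), i))) (hX g q)
    simpa using this
  rw [h1, h2, specRho_delta, one_mul, sc_star_delta_apply]
  simp

/-- **Adjoint-square identity for equivariant families.** -/
theorem specHS_family {Q : Type} [MulAction G Q] (X : Q → ScL2 (G × I) →L[ℂ] ScL2 (G × I))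
    (hX : ∀ (h : G) (q : Q), specRho h * X q = X (h • q) * specRho h) :
    ∑' q, specHS (X q) = ∑' q, specHS (star (X q)) := by
  -- the four-fold sums
  set F : Q → I → G → I → ℝ≥0∞ := fun q k g i =>
    ENNReal.ofReal (‖star (X q) (scDelta ((1 : G), k)) (g, i)‖ ^ 2) with hF
  have hL : ∀ q, specHS (X q) = ∑' i, ∑' g, ∑' k, F (g • q) k g⁻¹ i := by
    intro q
    unfold specHS
    refine tsum_congr fun i => ?_
    rw [spec_ofReal_norm_sq, ENNReal.tsum_prod']
    refine tsum_congr fun g => tsum_congr fun k => ?_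
    rw [spec_family_coeff X hX q i k g, hF]
    simp
  have hR : ∀ q, specHS (star (X q)) = ∑' k, ∑' g, ∑' i, F q k g i := by
    intro q
    unfold specHS
    refine tsum_congr fun k => ?_
    rw [spec_ofReal_norm_sq, ENNReal.tsum_prod']
  simp_rw [hL, hR]
  -- reorganise
  let e : Q × G ≃ Q × G :=
    { toFun := fun p => (p.2 • p.1, p.2⁻¹)
      invFun := fun p => (p.2 • p.1, p.2⁻¹)
      left_inv := by rintro ⟨q, g⟩; simp
      right_inv := by rintro ⟨q, g⟩; simp }
  calc ∑' q, ∑' i, ∑' g, ∑' k, F (g • q) k g⁻¹ i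
      = ∑' i, ∑' k, ∑' p : Q × G, F (p.2 • p.1) k p.2⁻¹ i := by
        rw [ENNReal.tsum_comm]
        refine tsum_congr fun i => ?_
        rw [← ENNReal.tsum_prod (f := fun q g => ∑' k, F (g • q) k g⁻¹ i), ENNReal.tsum_comm]
    _ = ∑' i, ∑' k, ∑' p : Q × G, F p.1 k p.2 i := by
        refine tsum_congr fun i => tsum_congr fun k => ?_
        exact e.tsum_eq (fun p : Q × G => F p.1 k p.2 i)
    _ = ∑' q, ∑' k, ∑' g, ∑' i, F q k g i := by
        rw [ENNReal.tsum_comm]
        conv_lhs =>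
          enter [1, k]
          rw [ENNReal.tsum_comm]
        conv_lhs =>
          enter [1, k]
          rw [ENNReal.tsum_prod (f := fun q g => ∑' i, F q k g i)]
        rw [ENNReal.tsum_comm]

/-- **Adjoint-square identity** for a single equivariant operator. -/
theorem specHS_star {X : ScL2 (G × I) →L[ℂ] ScL2 (G × I)}
    (hX : ∀ h : G, specRho h * X = X * specRho h) : specHS X = specHS (star X) := by
  let _ : MulAction G PUnit :=
    { smul := fun _ _ => PUnit.unit
      one_smul := fun _ => rfl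
      mul_smul := fun _ _ _ => rfl }
  have := specHS_family (G := G) (I := I) (Q := PUnit) (fun _ => X) (fun h _ => hX h)
  simpa using this

theorem specHS_le_of_norm_le {X Y : ScL2 (G × I) →L[ℂ] ScL2 (G × I)} {c : ℝ}
    (h : ∀ i : I, ‖X (scDelta ((1 : G), i))‖ ^ 2 ≤ c * ‖Y (scDelta ((1 : G), i))‖ ^ 2) (hc : 0 ≤ c) :
    specHS X ≤ ENNReal.ofReal c * specHS Y := by
  unfold specHS
  rw [← ENNReal.tsum_mul_left]
  refine ENNReal.tsum_le_tsum fun i => ?_
  rw [← ENNReal.ofReal_mul hc]
  exact ENNReal.ofReal_le_ofReal (h i)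

theorem specHS_mul_le (A X : ScL2 (G × I) →L[ℂ] ScL2 (G × I)) {c : ℝ} (hA : ‖A‖ ≤ c) :
    specHS (A * X) ≤ ENNReal.ofReal (c ^ 2) * specHS X := by
  have hc : 0 ≤ c := (norm_nonneg _).trans hA
  refine specHS_le_of_norm_le (fun i => ?_) (by positivity)
  rw [← mul_pow]
  refine pow_le_pow_left₀ (norm_nonneg _) ?_ 2
  exact (A.le_opNorm _).trans (mul_le_mul_of_nonneg_right hA (norm_nonneg _))

theorem specHS_mul_le_one (A X : ScL2 (G × I) →L[ℂ] ScL2 (G × I)) (hA : ‖A‖ ≤ 1) :
    specHS (A * X) ≤ specHS X := by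
  have := specHS_mul_le A X hA
  simpa using this

end Claimed.Agent.R300
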