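/-
Row 300, KK Sections 8-10, fibre-free core (architect: helper21); design notes in the header of `KkCalc.lean`.
Proofs: helper193.  No sorry.
-/
import Claimed.Agent.R300.SpecTrace
import Claimed.Agent.R300.SmpConv

set_option autoImplicit false

namespace Claimed.Agent.R300

open scoped ENNReal ComplexConjugate InnerProductSpace Matrix.Norms.L2Operator

/-! ## 5. Left convolution matrices -/

section lconv

variable {G : Type} [Group G] {I : Type}

/-- Kernel of `∑ c u v g • E_{u v} ⊗ λ_g`. -/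
def smpLConvK (c : I → I → G → ℂ) : G × I → G × I → ℂ := fun x y => c x.2 y.2 (x.1 * y.1⁻¹)

/-- `smpLConv c = ∑ c u v g • E_{u v} ⊗ λ_g` on `ℓ²(G × I)`. -/
noncomputable def smpLConv (c : I → I → G → ℂ) : ScL2 (G × I) →L[ℂ] ScL2 (G × I) :=
  smpKer (smpLConvK c)

/-- `(v, g) ↦ (g⁻¹ f, v)`. -/
def smpLRowEquiv (f : G) : I × G ≃ G × I where
  toFun p := (p.2⁻¹ * f, p.1)
  invFun y := (y.2, f * y.1⁻¹)
  left_inv p := by simp
  right_inv y := by simp

/-- `(u, g) ↦ (g h, u)`. -/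
def smpLColEquiv (h : G) : I × G ≃ G × I where
  toFun p := (p.2 * h, p.1)
  invFun x := (x.2, x.1 * h⁻¹)
  left_inv p := by simp
  right_inv x := by simp

theorem SmpCoefBd.lschur {c : I → I → G → ℂ} {R : ℝ} (h : SmpCoefBd c R) :
    SmpSchur (smpLConvK c) R := by
  constructor
  · rintro ⟨f, u⟩
    have e : (fun y : G × I => ‖smpLConvK c (f, u) y‖) ∘ (smpLRowEquiv f)
        = fun p : I × G => ‖c u p.1 p.2‖ := by
      funext p
      simp [smpLConvK, smpLRowEquiv]
    refine ⟨?_, ?_⟩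
    · rw [← (smpLRowEquiv f).summable_iff, e]
      exact (h.1 u).1
    · rw [← (smpLRowEquiv f).tsum_eq]
      have e' := congrArg tsum e
      simp only [Function.comp_def] at e'
      rw [e']
      exact (h.1 u).2
  · rintro ⟨f, v⟩
    have e : (fun x : G × I => ‖smpLConvK c x (f, v)‖) ∘ (smpLColEquiv f)
        = fun p : I × G => ‖c p.1 v p.2‖ := by
      funext p
      simp [smpLConvK, smpLColEquiv]
    refine ⟨?_, ?_⟩
    · rw [← (smpLColEquiv f).summable_iff, e]
      exact (h.2 v).1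
    · rw [← (smpLColEquiv f).tsum_eq]
      have e' := congrArg tsum e
      simp only [Function.comp_def] at e'
      rw [e']
      exact (h.2 v).2

theorem SmpCoefBd.lhasKer {c : I → I → G → ℂ} {R : ℝ} (h : SmpCoefBd c R) :
    SmpHasKer (smpLConv c) (smpLConvK c) := h.lschur.hasKer

theorem smpFlip_bij : Function.Bijective fun p : G × I => (p.1⁻¹, p.2) := by
  refine ⟨?_, fun y => ⟨(y.1⁻¹, y.2), by simp⟩⟩
  rintro ⟨a, i⟩ ⟨b, j⟩ hab
  simp only [Prod.mk.injEq, inv_inj] at hab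
  exact Prod.ext hab.1 hab.2

/-- inversion of the group coordinate. -/
noncomputable def smpFlip : ScL2 (G × I) →L[ℂ] ScL2 (G × I) :=
  scPull (fun p : G × I => (p.1⁻¹, p.2)) smpFlip_bij.1

theorem smpFlip_apply (ξ : ScL2 (G × I)) (x : G × I) : smpFlip ξ x = ξ (x.1⁻¹, x.2) := rfl

theorem smpFlip_norm (ξ : ScL2 (G × I)) : ‖smpFlip ξ‖ = ‖ξ‖ :=
  scPull_norm_of_bijective _ smpFlip_bij ξ

theorem smpFlip_flip (ξ : ScL2 (G × I)) : smpFlip (smpFlip ξ) = ξ := by
  ext x
  simp [smpFlip_apply]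

theorem smpFlip_delta (y : G × I) : smpFlip (scDelta y) = scDelta (y.1⁻¹, y.2) := by
  have := scPull_delta (fun p : G × I => (p.1⁻¹, p.2)) smpFlip_bij.1 (y.1⁻¹, y.2)
  simpa [smpFlip] using this

theorem smpFlip_lconv {c : I → I → G → ℂ} {R : ℝ} (h : SmpCoefBd c R) :
    smpFlip ∘L smpLConv c = smpConv c ∘L smpFlip := by
  refine scOp_ext fun y => ?_
  ext x
  simp only [ContinuousLinearMap.comp_apply]
  rw [smpFlip_apply, smpFlip_delta, h.hasKer, h.lhasKer]
  rfl

/-- The inversion of the group coordinate conjugates `smpLConv c` into `smpConv c`. -/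
theorem smpLConv_norm {c : I → I → G → ℂ} {R : ℝ} (h : SmpCoefBd c R) :
    ‖smpLConv c‖ = ‖smpConv c‖ := by
  have hc : ∀ ξ, smpFlip (smpLConv c ξ) = smpConv c (smpFlip ξ) := fun ξ =>
    congrArg (fun S : ScL2 (G × I) →L[ℂ] ScL2 (G × I) => S ξ) (smpFlip_lconv h)
  refine le_antisymm ?_ ?_
  · refine ContinuousLinearMap.opNorm_le_bound _ (norm_nonneg _) fun ξ => ?_
    rw [← smpFlip_norm (smpLConv c ξ), hc, ← smpFlip_norm ξ]
    exact ContinuousLinearMap.le_opNorm _ _
  · refine ContinuousLinearMap.opNorm_le_bound _ (norm_nonneg _) fun ξ => ?_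
    rw [← smpFlip_flip ξ, ← hc, smpFlip_norm, smpFlip_flip, ← smpFlip_norm ξ]
    exact ContinuousLinearMap.le_opNorm _ _

theorem smpLConv_rho_comm {c : I → I → G → ℂ} {R : ℝ} (h : SmpCoefBd c R) (g : G) :
    Commute (smpLConv c) (specRho g) := by
  refine scOp_ext fun y => ?_
  ext x
  obtain ⟨y1, y2⟩ := y
  show smpLConv c (specRho g (scDelta (y1, y2))) x = specRho g (smpLConv c (scDelta (y1, y2))) x
  rw [specRho_apply, specRho_delta, h.lhasKer, h.lhasKer]
  simp [smpLConvK, mul_assoc]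

theorem smpLConv_hasSum {c : I → I → G → ℂ} {R : ℝ} (h : SmpCoefBd c R) (ξ : ScL2 (G × I))
    (f : G) (u : I) :
    HasSum (fun p : I × G => c u p.1 p.2 * ξ (p.2⁻¹ * f, p.1)) (smpLConv c ξ (f, u)) := by
  have h1 := h.lhasKer.hasSum ξ (f, u)
  rw [← (smpLRowEquiv f).hasSum_iff] at h1
  have e : (fun y : G × I => smpLConvK c (f, u) y * ξ y) ∘ (smpLRowEquiv f)
      = fun p : I × G => c u p.1 p.2 * ξ (p.2⁻¹ * f, p.1) := by
    funext p
    simp [smpLConvK, smpLRowEquiv]
  rw [e] at h1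
  exact h1

/-- a central element commutes with every left convolution matrix. -/
theorem smpLConv_lam_comm {c : I → I → G → ℂ} {R : ℝ} (h : SmpCoefBd c R) (z : G)
    (hz : ∀ g, z * g = g * z) : Commute (smpLConv c) (smpLam z) := by
  refine scOp_ext fun y => ?_
  ext x
  show smpLConv c (smpLam z (scDelta y)) x = smpLam z (smpLConv c (scDelta y)) x
  rw [smpConv_lam_apply, smpConv_lam_delta, h.lhasKer, h.lhasKer]
  simp only [smpLConvK]
  congr 1
  have h1 : z⁻¹ * (x.1 * y.1⁻¹) = (x.1 * y.1⁻¹) * z⁻¹ := by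
    have := hz (x.1 * y.1⁻¹)
    rw [inv_mul_eq_iff_eq_mul, ← mul_assoc, this, mul_assoc, mul_inv_cancel, mul_one]
  rw [mul_inv_rev, ← mul_assoc, ← h1, mul_assoc]

theorem smpLConv_sub {c c' : I → I → G → ℂ} {R R' : ℝ} (h : SmpCoefBd c R) (h' : SmpCoefBd c' R') :
    smpLConv c - smpLConv c' = smpLConv (c - c') :=
  (SmpHasKer.eq_smpKer (k := smpLConvK (c - c')) (h.lhasKer.sub h'.lhasKer)).symm

theorem smpLConv_star {c : I → I → G → ℂ} {R : ℝ} (h : SmpCoefBd c R) :
    star (smpLConv c) = smpLConv (fun u v g => conj (c v u g⁻¹)) := by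
  rw [ContinuousLinearMap.star_eq_adjoint]
  refine (SmpHasKer.eq_smpKer (k := smpLConvK (fun u v g => conj (c v u g⁻¹))) ?_).symm
  intro x y
  rw [h.lhasKer.adjoint x y]
  simp [smpLConvK]

end lconv

end Claimed.Agent.R300
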