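/-
Row 300, KK Sections 8-10, fibre-free core (architect: helper21); design notes in the header of `KkCalc.lean`.
-/
import Mathlib

set_option autoImplicit false

namespace Claimed.Agent.R300

open scoped ENNReal ComplexConjugate InnerProductSpace Matrix.Norms.L2Operator

/-! ## 3. Resolutions of the identity and block diagonal operators -/

section resolution

variable {H : Type*} [NormedAddCommGroup H] [InnerProductSpace ℂ H] [CompleteSpace H]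

/-- A resolution of the identity: mutually orthogonal projections with strong sum one. -/
structure KkRes (𝔄 : Type*) (Q : 𝔄 → H →L[ℂ] H) : Prop where
  proj : ∀ α, IsStarProjection (Q α)
  orth : ∀ α β, α ≠ β → Q α * Q β = 0
  total : ∀ ξ : H, HasSum (fun α => ‖Q α ξ‖ ^ 2) (‖ξ‖ ^ 2)

variable {𝔄 : Type*} {Q : 𝔄 → H →L[ℂ] H}

/-! ### sums of pairwise orthogonal vectors -/

omit [CompleteSpace H] in
theorem kkRes_norm_sum_sq {x : 𝔄 → H} (hx : ∀ α β, α ≠ β → ⟪x α, x β⟫_ℂ = 0) (s : Finset 𝔄) :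
    ‖∑ α ∈ s, x α‖ ^ 2 = ∑ α ∈ s, ‖x α‖ ^ 2 := by
  classical
  induction s using Finset.induction_on with
  | empty => simp
  | insert a s ha ih =>
    rw [Finset.sum_insert ha, Finset.sum_insert ha, ← ih, sq, sq, sq]
    apply norm_add_sq_eq_norm_sq_add_norm_sq_of_inner_eq_zero (𝕜 := ℂ)
    rw [inner_sum]
    exact Finset.sum_eq_zero (fun i hi => hx a i (fun h => ha (h ▸ hi)))

theorem kkRes_summable {x : 𝔄 → H} (hx : ∀ α β, α ≠ β → ⟪x α, x β⟫_ℂ = 0)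
    (hs : Summable (fun α => ‖x α‖ ^ 2)) : Summable x := by
  rw [summable_iff_vanishing_norm]
  intro ε hε
  obtain ⟨s, hs'⟩ := summable_iff_vanishing_norm.1 hs (ε ^ 2) (by positivity)
  refine ⟨s, fun t ht => ?_⟩
  have h1 := hs' t ht
  rw [← kkRes_norm_sum_sq hx, Real.norm_eq_abs, abs_of_nonneg (by positivity)] at h1
  have := abs_lt_of_sq_lt_sq h1 hε.le
  rwa [abs_of_nonneg (norm_nonneg _)] at this

omit [CompleteSpace H] in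
theorem kkRes_hasSum_norm_sq {x : 𝔄 → H} (hx : ∀ α β, α ≠ β → ⟪x α, x β⟫_ℂ = 0) {S : H}
    (hS : HasSum x S) : HasSum (fun α => ‖x α‖ ^ 2) (‖S‖ ^ 2) := by
  have h1 : Filter.Tendsto (fun s : Finset 𝔄 => ‖∑ α ∈ s, x α‖ ^ 2) Filter.atTop
      (nhds (‖S‖ ^ 2)) := (Filter.Tendsto.norm hS).pow 2
  simp only [kkRes_norm_sum_sq hx] at h1
  exact h1

/-! ### basic facts on the projections -/

theorem KkRes.idem (hQ : KkRes 𝔄 Q) (α : 𝔄) (ξ : H) : Q α (Q α ξ) = Q α ξ :=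
  congrArg (fun T : H →L[ℂ] H => T ξ) (hQ.proj α).isIdempotentElem

theorem KkRes.orth_apply (hQ : KkRes 𝔄 Q) {α β : 𝔄} (h : α ≠ β) (ξ : H) : Q α (Q β ξ) = 0 :=
  congrArg (fun T : H →L[ℂ] H => T ξ) (hQ.orth α β h)

theorem KkRes.inner_left (hQ : KkRes 𝔄 Q) (α : 𝔄) (ξ η : H) :
    ⟪Q α ξ, η⟫_ℂ = ⟪ξ, Q α η⟫_ℂ := by
  have := (hQ.proj α).isSelfAdjoint.adjoint_eq
  rw [← ContinuousLinearMap.adjoint_inner_left, this]

theorem KkRes.inner_range (hQ : KkRes 𝔄 Q) {α β : 𝔄} (h : α ≠ β) (ξ η : H) :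
    ⟪Q α ξ, Q β η⟫_ℂ = 0 := by
  rw [hQ.inner_left, hQ.orth_apply h, inner_zero_right]

theorem KkRes.hasSum (hQ : KkRes 𝔄 Q) (ξ : H) : HasSum (fun α => Q α ξ) ξ := by
  have horth : ∀ α β, α ≠ β → ⟪Q α ξ, Q β ξ⟫_ℂ = 0 := fun α β h => hQ.inner_range h ξ ξ
  have hsum : Summable (fun α => Q α ξ) := kkRes_summable horth (hQ.total ξ).summable
  obtain ⟨S, hS⟩ := hsum
  have h1 : ‖S‖ ^ 2 = ‖ξ‖ ^ 2 := (kkRes_hasSum_norm_sq horth hS).unique (hQ.total ξ)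
  have h2 : HasSum (fun α => ⟪ξ, Q α ξ⟫_ℂ) ⟪ξ, S⟫_ℂ := (innerSL ℂ ξ).hasSum hS
  have h3 : ∀ α, ⟪ξ, Q α ξ⟫_ℂ = ((‖Q α ξ‖ ^ 2 : ℝ) : ℂ) := by
    intro α
    rw [← hQ.idem α ξ, ← hQ.inner_left, hQ.idem, inner_self_eq_norm_sq_to_K]
    norm_cast
  simp only [h3] at h2
  have h4 : HasSum (fun α => ((‖Q α ξ‖ ^ 2 : ℝ) : ℂ)) ((‖ξ‖ ^ 2 : ℝ) : ℂ) :=
    Complex.hasSum_ofReal.2 (hQ.total ξ)
  have h5 : ⟪ξ, S⟫_ℂ = ((‖ξ‖ ^ 2 : ℝ) : ℂ) := h2.unique h4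
  have h6 : ‖ξ - S‖ ^ 2 = 0 := by
    rw [@norm_sub_sq ℂ, h5, h1]
    simp only [Complex.ofReal_re, RCLike.re_to_complex]
    ring
  have h7 : ξ - S = 0 := by
    have := pow_eq_zero_iff (two_ne_zero) |>.1 h6
    exact norm_eq_zero.1 this
  have h8 : ξ = S := sub_eq_zero.1 h7
  rw [← h8] at hS
  exact hS

/-- The block diagonal operator `∑ α, Q α * B α * Q α` (zero if the family is not bounded). -/
noncomputable def kkDiag (Q B : 𝔄 → H →L[ℂ] H) : H →L[ℂ] H :=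
  open Classical in
  if h : ∃ T : H →L[ℂ] H, ∀ ξ, HasSum (fun α => Q α (B α (Q α ξ))) (T ξ) then h.choose else 0

omit [CompleteSpace H] in
theorem kkDiag_eq_of_hasSum {B : 𝔄 → H →L[ℂ] H} {T : H →L[ℂ] H}
    (hT : ∀ ξ, HasSum (fun α => Q α (B α (Q α ξ))) (T ξ)) : kkDiag Q B = T := by
  have h : ∃ T : H →L[ℂ] H, ∀ ξ, HasSum (fun α => Q α (B α (Q α ξ))) (T ξ) := ⟨T, hT⟩
  rw [kkDiag, dif_pos h]
  ext ξ
  exact (h.choose_spec ξ).unique (hT ξ)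

theorem KkRes.block_orth (hQ : KkRes 𝔄 Q) (B : 𝔄 → H →L[ℂ] H) (ξ : H) (α β : 𝔄) (h : α ≠ β) :
    ⟪Q α (B α (Q α ξ)), Q β (B β (Q β ξ))⟫_ℂ = 0 := hQ.inner_range h _ _

theorem KkRes.block_norm_le (hQ : KkRes 𝔄 Q) (B : 𝔄 → H →L[ℂ] H) (c : ℝ)
    (hB : ∀ α, ‖Q α * B α * Q α‖ ≤ c) (ξ : H) (α : 𝔄) :
    ‖Q α (B α (Q α ξ))‖ ^ 2 ≤ c ^ 2 * ‖Q α ξ‖ ^ 2 := by
  have h1 : Q α (B α (Q α ξ)) = (Q α * B α * Q α) (Q α ξ) := by
    change _ = Q α (B α (Q α (Q α ξ)))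
    rw [hQ.idem]
  have h2 : ‖Q α (B α (Q α ξ))‖ ≤ c * ‖Q α ξ‖ := by
    rw [h1]
    exact ((Q α * B α * Q α).le_opNorm _).trans
      (mul_le_mul_of_nonneg_right (hB α) (norm_nonneg _))
  calc ‖Q α (B α (Q α ξ))‖ ^ 2 ≤ (c * ‖Q α ξ‖) ^ 2 := by gcongr
    _ = c ^ 2 * ‖Q α ξ‖ ^ 2 := by ring

theorem KkRes.block_summable (hQ : KkRes 𝔄 Q) (B : 𝔄 → H →L[ℂ] H) (c : ℝ)
    (hB : ∀ α, ‖Q α * B α * Q α‖ ≤ c) (ξ : H) : Summable (fun α => Q α (B α (Q α ξ))) := by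
  apply kkRes_summable (hQ.block_orth B ξ)
  exact Summable.of_nonneg_of_le (fun _ => by positivity) (hQ.block_norm_le B c hB ξ)
    ((hQ.total ξ).summable.mul_left _)

theorem KkRes.block_tsum_norm_le (hQ : KkRes 𝔄 Q) (B : 𝔄 → H →L[ℂ] H) (c : ℝ)
    (hB : ∀ α, ‖Q α * B α * Q α‖ ≤ c) (ξ : H) {S : H}
    (hS : HasSum (fun α => Q α (B α (Q α ξ))) S) : ‖S‖ ≤ |c| * ‖ξ‖ := by
  have h1 := kkRes_hasSum_norm_sq (hQ.block_orth B ξ) hS
  have h2 : ‖S‖ ^ 2 ≤ c ^ 2 * ‖ξ‖ ^ 2 :=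
    hasSum_le (hQ.block_norm_le B c hB ξ) h1 ((hQ.total ξ).mul_left _)
  have h3 : ‖S‖ ^ 2 ≤ (|c| * ‖ξ‖) ^ 2 := by rw [mul_pow, sq_abs]; exact h2
  exact le_of_sq_le_sq h3 (by positivity)

theorem KkRes.exists_diag (hQ : KkRes 𝔄 Q) (B : 𝔄 → H →L[ℂ] H) (c : ℝ)
    (hB : ∀ α, ‖Q α * B α * Q α‖ ≤ c) :
    ∃ T : H →L[ℂ] H, ∀ ξ, HasSum (fun α => Q α (B α (Q α ξ))) (T ξ) := by
  let f : H →ₗ[ℂ] H :=
    { toFun := fun ξ => ∑' α, Q α (B α (Q α ξ))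
      map_add' := by
        intro ξ η
        simp only [map_add]
        exact (hQ.block_summable B c hB ξ).tsum_add (hQ.block_summable B c hB η)
      map_smul' := by
        intro a ξ
        simp only [map_smul, RingHom.id_apply]
        exact (hQ.block_summable B c hB ξ).tsum_const_smul a }
  refine ⟨f.mkContinuous |c| (fun ξ => ?_), fun ξ => (hQ.block_summable B c hB ξ).hasSum⟩
  exact hQ.block_tsum_norm_le B c hB ξ (hQ.block_summable B c hB ξ).hasSum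

theorem KkRes.diag_hasSum (hQ : KkRes 𝔄 Q) (B : 𝔄 → H →L[ℂ] H) (c : ℝ)
    (hB : ∀ α, ‖Q α * B α * Q α‖ ≤ c) (ξ : H) :
    HasSum (fun α => Q α (B α (Q α ξ))) (kkDiag Q B ξ) := by
  obtain ⟨T, hT⟩ := hQ.exists_diag B c hB
  rw [kkDiag_eq_of_hasSum hT]
  exact hT ξ

theorem KkRes.diag_norm_le (hQ : KkRes 𝔄 Q) (B : 𝔄 → H →L[ℂ] H) (c : ℝ) (hc : 0 ≤ c)
    (hB : ∀ α, ‖Q α * B α * Q α‖ ≤ c) : ‖kkDiag Q B‖ ≤ c := by
  refine ContinuousLinearMap.opNorm_le_bound _ hc (fun ξ => ?_)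
  have := hQ.block_tsum_norm_le B c hB ξ (hQ.diag_hasSum B c hB ξ)
  rwa [abs_of_nonneg hc] at this

theorem KkRes.diag_mul_proj (hQ : KkRes 𝔄 Q) (B : 𝔄 → H →L[ℂ] H) (c : ℝ)
    (hB : ∀ α, ‖Q α * B α * Q α‖ ≤ c) (α : 𝔄) :
    kkDiag Q B * Q α = Q α * B α * Q α ∧ Q α * kkDiag Q B = Q α * B α * Q α := by
  constructor
  · ext ξ
    have h1 := hQ.diag_hasSum B c hB (Q α ξ)
    have h2 : HasSum (fun β => Q β (B β (Q β (Q α ξ)))) (Q α (B α (Q α (Q α ξ)))) := by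
      apply hasSum_single α
      intro β hβ
      rw [hQ.orth_apply hβ, map_zero, map_zero]
    rw [hQ.idem] at h2
    exact h1.unique h2
  · ext ξ
    have h1 := (Q α).hasSum (hQ.diag_hasSum B c hB ξ)
    have h2 : HasSum (fun β => Q α (Q β (B β (Q β ξ)))) (Q α (Q α (B α (Q α ξ)))) := by
      apply hasSum_single α
      intro β hβ
      rw [hQ.orth_apply hβ.symm]
    rw [hQ.idem] at h2
    exact h1.unique h2

theorem KkRes.block_mul (hQ : KkRes 𝔄 Q) (B B' : 𝔄 → H →L[ℂ] H) (α : 𝔄) :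
    Q α * (B α * Q α * B' α) * Q α = (Q α * B α * Q α) * (Q α * B' α * Q α) := by
  have h := (hQ.proj α).isIdempotentElem.eq
  calc Q α * (B α * Q α * B' α) * Q α = Q α * B α * (Q α) * B' α * Q α := by
        simp only [mul_assoc]
    _ = Q α * B α * (Q α * Q α) * B' α * Q α := by rw [h]
    _ = _ := by simp only [mul_assoc]

theorem KkRes.diag_mul (hQ : KkRes 𝔄 Q) (B B' : 𝔄 → H →L[ℂ] H) (c c' : ℝ)
    (hB : ∀ α, ‖Q α * B α * Q α‖ ≤ c) (hB' : ∀ α, ‖Q α * B' α * Q α‖ ≤ c') :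
    kkDiag Q B * kkDiag Q B' = kkDiag Q (fun α => B α * Q α * B' α) := by
  symm
  apply kkDiag_eq_of_hasSum
  intro ξ
  have h1 := hQ.diag_hasSum B c hB (kkDiag Q B' ξ)
  have h2 : ∀ α, Q α (kkDiag Q B' ξ) = Q α (B' α (Q α ξ)) := fun α =>
    congrArg (fun T : H →L[ℂ] H => T ξ) (hQ.diag_mul_proj B' c' hB' α).2
  simp only [h2] at h1
  exact h1

theorem KkRes.diag_star (hQ : KkRes 𝔄 Q) (B : 𝔄 → H →L[ℂ] H) (c : ℝ)
    (hB : ∀ α, ‖Q α * B α * Q α‖ ≤ c) : star (kkDiag Q B) = kkDiag Q (fun α => star (B α)) := by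
  have hB' : ∀ α, ‖Q α * star (B α) * Q α‖ ≤ c := by
    intro α
    have h1 : Q α * star (B α) * Q α = star (Q α * B α * Q α) := by
      rw [star_mul, star_mul, (hQ.proj α).isSelfAdjoint.star_eq, mul_assoc]
    rw [h1, norm_star]
    exact hB α
  rw [ContinuousLinearMap.star_eq_adjoint]
  symm
  rw [ContinuousLinearMap.eq_adjoint_iff]
  intro ξ η
  have h1 : HasSum (fun α => ⟪Q α (star (B α) (Q α ξ)), η⟫_ℂ)
      ⟪kkDiag Q (fun α => star (B α)) ξ, η⟫_ℂ :=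
    (innerSLFlip ℂ η).hasSum (hQ.diag_hasSum _ c hB' ξ)
  have h2 : HasSum (fun α => ⟪ξ, Q α (B α (Q α η))⟫_ℂ) ⟪ξ, kkDiag Q B η⟫_ℂ :=
    (innerSL ℂ ξ).hasSum (hQ.diag_hasSum B c hB η)
  have h3 : ∀ α, ⟪Q α (star (B α) (Q α ξ)), η⟫_ℂ = ⟪ξ, Q α (B α (Q α η))⟫_ℂ := by
    intro α
    rw [hQ.inner_left, ContinuousLinearMap.star_eq_adjoint,
      ContinuousLinearMap.adjoint_inner_left, hQ.inner_left]
  simp only [h3] at h1
  exact h1.unique h2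

theorem KkRes.diag_add (hQ : KkRes 𝔄 Q) (B B' : 𝔄 → H →L[ℂ] H) (c c' : ℝ)
    (hB : ∀ α, ‖Q α * B α * Q α‖ ≤ c) (hB' : ∀ α, ‖Q α * B' α * Q α‖ ≤ c') :
    kkDiag Q B + kkDiag Q B' = kkDiag Q (fun α => B α + B' α) := by
  symm
  apply kkDiag_eq_of_hasSum
  intro ξ
  have := (hQ.diag_hasSum B c hB ξ).add (hQ.diag_hasSum B' c' hB' ξ)
  have h2 : ∀ α, Q α ((B α + B' α) (Q α ξ)) = Q α (B α (Q α ξ)) + Q α (B' α (Q α ξ)) := by
    intro α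
    change Q α (B α (Q α ξ) + B' α (Q α ξ)) = _
    rw [map_add]
  simp only [h2]
  exact this

/-- an operator that commutes with all `Q α` is the block diagonal operator of the constant family. -/
theorem KkRes.diag_const (hQ : KkRes 𝔄 Q) (T : H →L[ℂ] H) (hT : ∀ α, Commute T (Q α)) :
    kkDiag Q (fun _ => T) = T := by
  apply kkDiag_eq_of_hasSum
  intro ξ
  have h1 := T.hasSum (hQ.hasSum ξ)
  have h2 : ∀ α, Q α (T (Q α ξ)) = T (Q α ξ) := by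
    intro α
    have : T (Q α (Q α ξ)) = Q α (T (Q α ξ)) :=
      congrArg (fun X : H →L[ℂ] H => X (Q α ξ)) (hT α).eq
    rw [hQ.idem] at this
    exact this.symm
  simp only [h2]
  exact h1

/-- `‖T‖ = sup ‖T Q α‖` for an operator that commutes with the resolution. -/
theorem KkRes.norm_le (hQ : KkRes 𝔄 Q) (T : H →L[ℂ] H) (hT : ∀ α, Commute T (Q α)) (c : ℝ)
    (hc : 0 ≤ c) (h : ∀ α, ‖T * Q α‖ ≤ c) : ‖T‖ ≤ c := by
  rw [← hQ.diag_const T hT]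
  apply hQ.diag_norm_le _ c hc
  intro α
  have : Q α * T * Q α = T * Q α := by
    rw [← (hT α).eq, mul_assoc, (hQ.proj α).isIdempotentElem.eq]
  rw [this]
  exact h α

theorem KkRes.diag_commute (hQ : KkRes 𝔄 Q) (B : 𝔄 → H →L[ℂ] H) (c : ℝ)
    (hB : ∀ α, ‖Q α * B α * Q α‖ ≤ c) (X : H →L[ℂ] H) (hXQ : ∀ α, Commute X (Q α))
    (hXB : ∀ α, Commute X (Q α * B α * Q α)) : Commute X (kkDiag Q B) := by
  ext ξ
  have h1 := X.hasSum (hQ.diag_hasSum B c hB ξ)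
  have h2 := hQ.diag_hasSum B c hB (X ξ)
  have h3 : ∀ α, X (Q α (B α (Q α ξ))) = Q α (B α (Q α (X ξ))) := fun α =>
    congrArg (fun T : H →L[ℂ] H => T ξ) (hXB α).eq
  simp only [h3] at h1
  exact h1.unique h2

theorem KkRes.diag_congr (hQ : KkRes 𝔄 Q) (B B' : 𝔄 → H →L[ℂ] H) (c : ℝ)
    (hB : ∀ α, ‖Q α * B α * Q α‖ ≤ c) (h : ∀ α, Q α * B' α * Q α = Q α * B α * Q α) :
    kkDiag Q B' = kkDiag Q B := by
  apply kkDiag_eq_of_hasSum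
  intro ξ
  have h1 := hQ.diag_hasSum B c hB ξ
  have h2 : ∀ α, Q α (B' α (Q α ξ)) = Q α (B α (Q α ξ)) := fun α =>
    congrArg (fun T : H →L[ℂ] H => T ξ) (h α)
  simp only [h2]
  exact h1

/-- a block diagonal family of projections is a projection. -/
theorem KkRes.diag_isStarProjection (hQ : KkRes 𝔄 Q) (B : 𝔄 → H →L[ℂ] H)
    (hB : ∀ α, IsStarProjection (Q α * B α * Q α)) : IsStarProjection (kkDiag Q B) := by
  have hB1 : ∀ α, ‖Q α * B α * Q α‖ ≤ 1 := fun α => IsStarProjection.norm_le _ (hB α)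
  constructor
  · change kkDiag Q B * kkDiag Q B = kkDiag Q B
    rw [hQ.diag_mul B B 1 1 hB1 hB1]
    apply hQ.diag_congr B _ 1 hB1
    intro α
    rw [hQ.block_mul, (hB α).isIdempotentElem.eq]
  · change star (kkDiag Q B) = kkDiag Q B
    rw [hQ.diag_star B 1 hB1]
    apply hQ.diag_congr B _ 1 hB1
    intro α
    have h1 : Q α * star (B α) * Q α = star (Q α * B α * Q α) := by
      rw [star_mul, star_mul, (hQ.proj α).isSelfAdjoint.star_eq, mul_assoc]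
    rw [h1, (hB α).isSelfAdjoint.star_eq]

theorem KkRes.diag_norm_sq (hQ : KkRes 𝔄 Q) (B : 𝔄 → H →L[ℂ] H) (c : ℝ)
    (hB : ∀ α, ‖Q α * B α * Q α‖ ≤ c) (ξ : H) :
    HasSum (fun α => ‖Q α (B α (Q α ξ))‖ ^ 2) (‖kkDiag Q B ξ‖ ^ 2) :=
  kkRes_hasSum_norm_sq (hQ.block_orth B ξ) (hQ.diag_hasSum B c hB ξ)

end resolution

end Claimed.Agent.R300
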