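/-
Row 300, KK Sections 8-10, FIBRE-FREE CORE (architect: helper21).

No direct integrals, no measurable fields.  The central Fourier decomposition of the paper is replaced by
  * `kkHom u : C(UnitAddCircle, ℂ) →⋆ₐ[ℂ] A`, the continuous functional calculus `f ↦ f(u)` of a unitary `u`
    in the variable `t`, `u = e(t)`  (so `kkHom u (fourier n) = u ^ n`);
  * `kkArc u S`, the SHARP spectral projection of `u` for a closed set `S` of the circle (orthogonal projection
    onto the common kernel of all `g(u)`, `g = 0` on `S`);  for `u = Z = λ(z₀)` on `ℓ²(F × J)` and a countable family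
    of closed arcs with disjoint interiors and total length one these projections form a RESOLUTION OF THE
    IDENTITY `KkRes` (mutually orthogonal, strong sum one), they commute with everything that commutes with `Z`;
  * `kkDiag Q B = ∑ α, Q α * B α * Q α` (strong sum), the block diagonal operator of a bounded family.
A "field" `t ↦ X(t)` of the paper becomes a PIECEWISE CONSTANT field `kkDiag Q (fun α => X (t α))`.

CONVENTION (that of `SpecTrace`, `SpecCayley`): on `ℓ²(F × J)` the operators of the construction are built from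
LEFT translations `smpLam g`, `(λ_g ξ)(f, j) = ξ (g⁻¹ f, j)`, and are equivariant for the right translations
`specRho`.  The formulas of the paper (written with `ρ`) hold verbatim because `λ` is a homomorphism too.
`smpLConv c = ∑ c u v g • E_{u v} ⊗ λ_g` has the same norm as `smpConv c` (conjugation by the inversion).
-/
import Mathlib

set_option autoImplicit false

namespace Claimed.Agent.R300

open scoped ENNReal ComplexConjugate InnerProductSpace Matrix.Norms.L2Operator

/-! ## 1. Functional calculus of a unitary in the angle variable -/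

section calculus

variable {A : Type*} [CStarAlgebra A]

theorem kk_mem_sphere (u : unitary A) (z : spectrum ℂ (u : A)) :
    (z : ℂ) ∈ Submonoid.unitSphere ℂ := by
  have := Unitary.spectrum_subset_circle (𝕜 := ℂ) u z.2
  simpa [Submonoid.unitSphere] using this

/-- The angle `t` of a spectral value `e(t)` of a unitary. -/
noncomputable def kkAngle (u : unitary A) : C(spectrum ℂ (u : A), UnitAddCircle) where
  toFun z := (AddCircle.homeomorphCircle (T := 1) one_ne_zero).symm ⟨z.1, kk_mem_sphere u z⟩
  continuous_toFun := by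
    refine (AddCircle.homeomorphCircle (T := 1) one_ne_zero).symm.continuous.comp ?_
    exact Continuous.subtype_mk continuous_subtype_val _

theorem kk_isStarNormal (u : unitary A) : IsStarNormal (u : A) := inferInstance

/-- `f ↦ f(u)`, `u = e(t)`. -/
noncomputable def kkHom (u : unitary A) : C(UnitAddCircle, ℂ) →⋆ₐ[ℂ] A :=
  (cfcHom (R := ℂ) (kk_isStarNormal u)).comp (ContinuousMap.compStarAlgHom' ℂ ℂ (kkAngle u))

theorem kkHom_fourier_one (u : unitary A) : kkHom u (fourier 1) = (u : A) := by
  have h : (ContinuousMap.compStarAlgHom' ℂ ℂ (kkAngle u)) (fourier 1)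
      = ContinuousMap.restrict (spectrum ℂ (u : A)) (ContinuousMap.id ℂ) := by
    ext z
    have := (AddCircle.homeomorphCircle (T := 1) one_ne_zero).apply_symm_apply
      ⟨z.1, kk_mem_sphere u z⟩
    simp only [ContinuousMap.compStarAlgHom'_apply, ContinuousMap.comp_apply, fourier_apply,
      one_smul, kkAngle, ContinuousMap.coe_mk]
    rw [← AddCircle.homeomorphCircle_apply one_ne_zero, this]
    rfl
  simp only [kkHom, StarAlgHom.comp_apply, h, cfcHom_id]

theorem kkHom_fourier (u : unitary A) (n : ℤ) :
    kkHom u (fourier n) = ((u ^ n : unitary A) : A) := by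
  have hmul : ∀ m k : ℤ, (fourier (m + k) : C(UnitAddCircle, ℂ)) = fourier m * fourier k := by
    intro m k
    ext x
    exact fourier_add
  have hneg : (fourier (-1) : C(UnitAddCircle, ℂ)) = star (fourier 1) := by
    ext x
    exact fourier_neg
  have h0 : (fourier 0 : C(UnitAddCircle, ℂ)) = 1 := by
    ext x
    exact fourier_zero
  induction n using Int.induction_on with
  | zero => rw [h0, map_one, zpow_zero]; rfl
  | succ n ih =>
    rw [hmul, map_mul, ih, kkHom_fourier_one, zpow_add_one]; rfl
  | pred n ih =>
    rw [sub_eq_add_neg, hmul, map_mul, ih, hneg, map_star, kkHom_fourier_one, ← sub_eq_add_neg,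
      zpow_sub_one, ← Unitary.star_eq_inv]
    rfl

theorem kkHom_norm_le (u : unitary A) (f : C(UnitAddCircle, ℂ)) : ‖kkHom u f‖ ≤ ‖f‖ :=
  NonUnitalStarAlgHom.norm_apply_le (kkHom u) f

theorem kkHom_continuous (u : unitary A) : Continuous (kkHom u) :=
  AddMonoidHomClass.continuous_of_bound (kkHom u) 1 (fun f => by
    rw [one_mul]; exact kkHom_norm_le u f)

/-- Norm convergent Fourier series. -/
theorem kkHom_hasSum (u : unitary A) (f : C(UnitAddCircle, ℂ)) (hf : Summable (fourierCoeff f)) :
    HasSum (fun n : ℤ => fourierCoeff f n • ((u ^ n : unitary A) : A)) (kkHom u f) := by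
  have h1 := (hasSum_fourier_series_of_summable hf).map (kkHom u) (kkHom_continuous u)
  have h2 : (kkHom u ∘ fun i : ℤ => fourierCoeff (⇑f) i • (fourier i : C(UnitAddCircle, ℂ))) =
      fun n : ℤ => fourierCoeff f n • ((u ^ n : unitary A) : A) := by
    funext n
    simp only [Function.comp, map_smul, kkHom_fourier]
  rw [h2] at h1
  exact h1

theorem kkHom_commute (u : unitary A) (f : C(UnitAddCircle, ℂ)) {b : A} (hb : Commute b (u : A))
    (hb' : Commute b (star (u : A))) : Commute b (kkHom u f) :=
  (Commute.cfcHom (kk_isStarNormal u) hb.symm hb'.symm _).symm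

/-- Naturality. -/
theorem kkHom_map {B : Type*} [CStarAlgebra B] (φ : A →⋆ₐ[ℂ] B) (u : unitary A) (v : unitary B)
    (huv : φ (u : A) = (v : B)) (f : C(UnitAddCircle, ℂ)) : φ (kkHom u f) = kkHom v f := by
  have hφc : Continuous φ := AddMonoidHomClass.continuous_of_bound φ 1 (fun a => by
    rw [one_mul]; exact NonUnitalStarAlgHom.norm_apply_le φ a)
  have hpow : ∀ n : ℤ, φ ((u ^ n : unitary A) : A) = ((v ^ n : unitary B) : B) := by
    intro n
    induction n using Int.induction_on with
    | zero => simp
    | succ n ih =>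
      rw [zpow_add_one, zpow_add_one]
      change φ (((u ^ (n : ℤ) : unitary A) : A) * (u : A)) = ((v ^ (n : ℤ) : unitary B) : B) * (v : B)
      rw [map_mul, ih, huv]
    | pred n ih =>
      rw [zpow_sub_one, zpow_sub_one, ← Unitary.star_eq_inv, ← Unitary.star_eq_inv]
      change φ (((u ^ (-(n : ℤ)) : unitary A) : A) * star (u : A)) =
        ((v ^ (-(n : ℤ)) : unitary B) : B) * star (v : B)
      rw [map_mul, ih, map_star, huv]
  let L1 : C(UnitAddCircle, ℂ) →L[ℂ] B :=
    ⟨(φ.toAlgHom.toLinearMap).comp (kkHom u).toAlgHom.toLinearMap,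
      hφc.comp (kkHom_continuous u)⟩
  let L2 : C(UnitAddCircle, ℂ) →L[ℂ] B := ⟨(kkHom v).toAlgHom.toLinearMap, kkHom_continuous v⟩
  have hd : Dense (Submodule.span ℂ (Set.range (fourier (T := 1))) : Set C(UnitAddCircle, ℂ)) := by
    have := span_fourier_closure_eq_top (T := 1)
    exact Submodule.dense_iff_topologicalClosure_eq_top.2 this
  have hL : L1 = L2 := by
    apply ContinuousLinearMap.ext_on hd
    rintro _ ⟨n, rfl⟩
    change φ (kkHom u (fourier n)) = kkHom v (fourier n)
    rw [kkHom_fourier, kkHom_fourier, hpow]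
  exact congrArg (fun L : C(UnitAddCircle, ℂ) →L[ℂ] B => L f) hL

/-- A real function as a complex function. -/
def kkC (g : C(UnitAddCircle, ℝ)) : C(UnitAddCircle, ℂ) :=
  ⟨fun t => (g t : ℂ), Complex.continuous_ofReal.comp g.continuous⟩

/-- `g(u)` for a real mask `g`. -/
noncomputable def kkMask (u : unitary A) (g : C(UnitAddCircle, ℝ)) : A := kkHom u (kkC g)

theorem kkMask_isSelfAdjoint (u : unitary A) (g : C(UnitAddCircle, ℝ)) :
    IsSelfAdjoint (kkMask u g) := by
  have h : star (kkC g) = kkC g := by
    ext t
    simp [kkC]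
  rw [IsSelfAdjoint, kkMask, ← map_star, h]

theorem kkMask_mul (u : unitary A) (g h : C(UnitAddCircle, ℝ)) :
    kkMask u (g * h) = kkMask u g * kkMask u h := by
  have h1 : kkC (g * h) = kkC g * kkC h := by
    ext t
    simp [kkC]
  rw [kkMask, h1, map_mul]; rfl

theorem kkMask_add (u : unitary A) (g h : C(UnitAddCircle, ℝ)) :
    kkMask u (g + h) = kkMask u g + kkMask u h := by
  have h1 : kkC (g + h) = kkC g + kkC h := by
    ext t
    simp [kkC]
  rw [kkMask, h1, map_add]; rfl

theorem kkMask_one (u : unitary A) : kkMask u 1 = 1 := by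
  have h1 : kkC 1 = 1 := by
    ext t
    simp [kkC]
  rw [kkMask, h1, map_one]

theorem kkMask_norm_le (u : unitary A) (g : C(UnitAddCircle, ℝ)) (c : ℝ) (hc : 0 ≤ c)
    (hg : ∀ t, |g t| ≤ c) : ‖kkMask u g‖ ≤ c := by
  refine (kkHom_norm_le u _).trans ?_
  rw [ContinuousMap.norm_le _ hc]
  intro t
  simpa [kkC] using hg t

end calculus

end Claimed.Agent.R300
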