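/-
Row 300, KK Sections 8-10, fibre-free core (architect: helper21); design notes in the header of `KkCalc.lean`.
-/
import Claimed.Agent.R300.KkCalc

set_option autoImplicit false

namespace Claimed.Agent.R300

open scoped ENNReal ComplexConjugate InnerProductSpace Matrix.Norms.L2Operator

/-! ## 2. Sharp spectral projections -/

section sharp

variable {H : Type*} [NormedAddCommGroup H] [InnerProductSpace ℂ H] [CompleteSpace H]

/-- The spectral subspace of the unitary `u` for the closed set `S` of the circle. -/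
noncomputable def kkArcSpace (u : unitary (H →L[ℂ] H)) (S : Set UnitAddCircle) : Submodule ℂ H :=
  ⨅ g : {g : C(UnitAddCircle, ℂ) // ∀ t ∈ S, g t = 0}, LinearMap.ker ((kkHom u g.1 : H →L[ℂ] H) : H →ₗ[ℂ] H)

theorem kkArcSpace_isClosed (u : unitary (H →L[ℂ] H)) (S : Set UnitAddCircle) :
    IsClosed (kkArcSpace u S : Set H) := by
  rw [kkArcSpace, Submodule.coe_iInf]
  exact isClosed_iInter (fun g => ContinuousLinearMap.isClosed_ker _)

theorem mem_kkArcSpace (u : unitary (H →L[ℂ] H)) (S : Set UnitAddCircle) (ξ : H) :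
    ξ ∈ kkArcSpace u S ↔ ∀ g : C(UnitAddCircle, ℂ), (∀ t ∈ S, g t = 0) → kkHom u g ξ = 0 := by
  rw [kkArcSpace, Submodule.mem_iInf]
  constructor
  · intro h g hg
    exact h ⟨g, hg⟩
  · intro h g
    exact h g.1 g.2

/-- The sharp spectral projection `1_S(u)`. -/
noncomputable def kkArc (u : unitary (H →L[ℂ] H)) (S : Set UnitAddCircle) : H →L[ℂ] H :=
  haveI : CompleteSpace (kkArcSpace u S) := (kkArcSpace_isClosed u S).completeSpace_coe
  (kkArcSpace u S).starProjection

theorem kkArc_isStarProjection (u : unitary (H →L[ℂ] H)) (S : Set UnitAddCircle) :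
    IsStarProjection (kkArc u S) := by
  have : CompleteSpace (kkArcSpace u S) := (kkArcSpace_isClosed u S).completeSpace_coe
  exact isStarProjection_starProjection (U := kkArcSpace u S)

theorem kkArc_apply_mem (u : unitary (H →L[ℂ] H)) (S : Set UnitAddCircle) (ξ : H) :
    kkArc u S ξ ∈ kkArcSpace u S := by
  have : CompleteSpace (kkArcSpace u S) := (kkArcSpace_isClosed u S).completeSpace_coe
  exact Submodule.starProjection_apply_mem (kkArcSpace u S) ξ

theorem kkArc_apply_eq_iff_mem (u : unitary (H →L[ℂ] H)) (S : Set UnitAddCircle) (ξ : H) :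
    kkArc u S ξ = ξ ↔ ξ ∈ kkArcSpace u S := by
  have : CompleteSpace (kkArcSpace u S) := (kkArcSpace_isClosed u S).completeSpace_coe
  exact Submodule.starProjection_eq_self_iff (K := kkArcSpace u S)

theorem kkArc_norm_le (u : unitary (H →L[ℂ] H)) (S : Set UnitAddCircle) : ‖kkArc u S‖ ≤ 1 := by
  have : CompleteSpace (kkArcSpace u S) := (kkArcSpace_isClosed u S).completeSpace_coe
  exact Submodule.starProjection_norm_le (kkArcSpace u S)

theorem kkArc_apply_eq_iff (u : unitary (H →L[ℂ] H)) (S : Set UnitAddCircle) (ξ : H) :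
    kkArc u S ξ = ξ ↔ ∀ g : C(UnitAddCircle, ℂ), (∀ t ∈ S, g t = 0) → kkHom u g ξ = 0 := by
  rw [kkArc_apply_eq_iff_mem, mem_kkArcSpace]

/-- an operator commuting with `u` and `u*` preserves the spectral subspace -/
theorem kkArc_mul_mul_of_commute (u : unitary (H →L[ℂ] H)) (S : Set UnitAddCircle)
    {b : H →L[ℂ] H} (hb : Commute b (u : H →L[ℂ] H)) (hb' : Commute b (star (u : H →L[ℂ] H))) :
    kkArc u S * b * kkArc u S = b * kkArc u S := by
  ext ξ
  change kkArc u S (b (kkArc u S ξ)) = b (kkArc u S ξ)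
  rw [kkArc_apply_eq_iff]
  intro g hg
  have h1 : b (kkHom u g (kkArc u S ξ)) = kkHom u g (b (kkArc u S ξ)) :=
    congrArg (fun T : H →L[ℂ] H => T (kkArc u S ξ)) (kkHom_commute u g hb hb').eq
  rw [← h1, (mem_kkArcSpace u S _).1 (kkArc_apply_mem u S ξ) g hg, map_zero]

/-- `1_S(u)` commutes with everything that commutes with `u` and `u*`. -/
theorem kkArc_commute (u : unitary (H →L[ℂ] H)) (S : Set UnitAddCircle) {b : H →L[ℂ] H}
    (hb : Commute b (u : H →L[ℂ] H)) (hb' : Commute b (star (u : H →L[ℂ] H))) :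
    Commute b (kkArc u S) := by
  have h1 := kkArc_mul_mul_of_commute u S hb hb'
  have hs : Commute (star b) (u : H →L[ℂ] H) := by
    have := hb'.star_star
    rwa [star_star] at this
  have hs' : Commute (star b) (star (u : H →L[ℂ] H)) := hb.star_star
  have h2 := kkArc_mul_mul_of_commute u S hs hs'
  have hP := (kkArc_isStarProjection u S).isSelfAdjoint.star_eq
  have h3 := congrArg star h2
  rw [star_mul, star_mul, star_mul, star_star, hP, ← mul_assoc] at h3
  change b * kkArc u S = kkArc u S * b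
  rw [← h1, h3]

theorem kkArc_commute_hom (u : unitary (H →L[ℂ] H)) (S : Set UnitAddCircle)
    (f : C(UnitAddCircle, ℂ)) : Commute (kkHom u f) (kkArc u S) := by
  apply kkArc_commute
  · have := (Commute.all f (fourier 1)).map (kkHom u)
    rwa [kkHom_fourier_one] at this
  · have := (Commute.all f (star (fourier 1))).map (kkHom u)
    rwa [map_star, kkHom_fourier_one] at this

/-- two functions that agree on `S` have the same restriction to the spectral subspace. -/
theorem kkHom_mul_arc_congr (u : unitary (H →L[ℂ] H)) (S : Set UnitAddCircle)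
    (f g : C(UnitAddCircle, ℂ)) (hfg : ∀ t ∈ S, f t = g t) :
    kkHom u f * kkArc u S = kkHom u g * kkArc u S := by
  ext ξ
  change kkHom u f (kkArc u S ξ) = kkHom u g (kkArc u S ξ)
  have h1 := (mem_kkArcSpace u S _).1 (kkArc_apply_mem u S ξ) (f - g)
    (fun t ht => by simp [hfg t ht])
  rw [map_sub] at h1
  exact sub_eq_zero.1 h1

/-- `‖f(u) 1_S(u)‖ ≤ sup_S |f|` (`S` closed). -/
theorem kkHom_mul_arc_norm_le (u : unitary (H →L[ℂ] H)) (S : Set UnitAddCircle) (hS : IsClosed S)
    (f : C(UnitAddCircle, ℂ)) (c : ℝ) (hc : 0 ≤ c) (hf : ∀ t ∈ S, ‖f t‖ ≤ c) :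
    ‖kkHom u f * kkArc u S‖ ≤ c := by
  rcases hc.eq_or_lt with rfl | hc'
  · have h0 := kkHom_mul_arc_congr u S f 0 (fun t ht => by simpa using hf t ht)
    rw [h0, map_zero, zero_mul, norm_zero]
  · let r : C(UnitAddCircle, ℂ) :=
      ⟨fun t => ((c / max c ‖f t‖ : ℝ) : ℂ), by
        apply Complex.continuous_ofReal.comp
        apply Continuous.div continuous_const (by fun_prop)
        intro t
        exact (lt_of_lt_of_le hc' (le_max_left _ _)).ne'⟩
    have h1 := kkHom_mul_arc_congr u S f (r * f) (fun t ht => by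
      simp only [r, ContinuousMap.mul_apply, ContinuousMap.coe_mk, max_eq_left (hf t ht),
        div_self hc'.ne', Complex.ofReal_one, one_mul])
    have h2 : ‖r * f‖ ≤ c := by
      rw [ContinuousMap.norm_le _ hc]
      intro t
      have hm : 0 < max c ‖f t‖ := lt_of_lt_of_le hc' (le_max_left _ _)
      simp only [r, ContinuousMap.mul_apply, ContinuousMap.coe_mk, norm_mul, Complex.norm_real,
        Real.norm_eq_abs, abs_of_pos (div_pos hc' hm)]
      rw [div_mul_eq_mul_div, div_le_iff₀ hm]
      exact mul_le_mul_of_nonneg_left (le_max_right _ _) hc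
    rw [h1]
    calc ‖kkHom u (r * f) * kkArc u S‖ ≤ ‖kkHom u (r * f)‖ * ‖kkArc u S‖ := norm_mul_le _ _
      _ ≤ c * 1 := mul_le_mul ((kkHom_norm_le u _).trans h2) (kkArc_norm_le u S)
          (norm_nonneg _) hc
      _ = c := mul_one c

/-- **Frozen parameter**: on the spectral subspace of `S`, `f(u)` is `f(a)` up to the oscillation. -/
theorem kkHom_frozen (u : unitary (H →L[ℂ] H)) (S : Set UnitAddCircle) (hS : IsClosed S)
    (f : C(UnitAddCircle, ℂ)) (w : ℂ) (c : ℝ) (hc : 0 ≤ c) (hf : ∀ t ∈ S, ‖f t - w‖ ≤ c) :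
    ‖kkHom u f * kkArc u S - w • kkArc u S‖ ≤ c := by
  have h1 : kkHom u f * kkArc u S - w • kkArc u S = kkHom u (f - w • 1) * kkArc u S := by
    rw [map_sub, map_smul, map_one, sub_mul, smul_mul_assoc, one_mul]
  rw [h1]
  apply kkHom_mul_arc_norm_le u S hS _ c hc
  intro t ht
  simpa using hf t ht

/-- a function supported in `S` maps into the spectral subspace. -/
theorem kkArc_mul_hom (u : unitary (H →L[ℂ] H)) (S : Set UnitAddCircle)
    (k : C(UnitAddCircle, ℂ)) (hk : ∀ t, t ∉ S → k t = 0) :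
    kkArc u S * kkHom u k = kkHom u k := by
  ext ξ
  change kkArc u S (kkHom u k ξ) = kkHom u k ξ
  rw [kkArc_apply_eq_iff]
  intro g hg
  have h1 : g * k = 0 := by
    ext t
    by_cases ht : t ∈ S
    · simp [hg t ht]
    · simp [hk t ht]
  have h2 : kkHom u g (kkHom u k ξ) = kkHom u (g * k) ξ := by
    rw [map_mul]; rfl
  rw [h2, h1, map_zero]; rfl

theorem kkArc_mono (u : unitary (H →L[ℂ] H)) {S S' : Set UnitAddCircle} (h : S ⊆ S') :
    kkArc u S' * kkArc u S = kkArc u S := by
  ext ξ
  change kkArc u S' (kkArc u S ξ) = kkArc u S ξ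
  rw [kkArc_apply_eq_iff]
  intro g hg
  exact (mem_kkArcSpace u S _).1 (kkArc_apply_mem u S ξ) g (fun t ht => hg t (h ht))

end sharp

end Claimed.Agent.R300
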