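/-
Row 300, KK Sections 8-10, fibre-free core (architect: helper21); design notes in the header of `KkCalc.lean`.
-/
import Claimed.Agent.R300.KkSharp
import Claimed.Agent.R300.KkRes
import Claimed.Agent.R300.SpecTrace
import Claimed.Agent.R300.SmpConv

set_option autoImplicit false

namespace Claimed.Agent.R300

open scoped ENNReal ComplexConjugate InnerProductSpace Matrix.Norms.L2Operator

/-! ## 4. The central unitary of `ℓ²(F × J)` -/

section regular

variable {F : Type} [Group F] {J : Type}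

theorem smpLam_mul (g h : F) :
    (smpLam (g * h) : ScL2 (F × J) →L[ℂ] ScL2 (F × J)) = smpLam g * smpLam h := by
  ext ξ x
  change ξ ((g * h)⁻¹ * x.1, x.2) = ξ (h⁻¹ * (g⁻¹ * x.1), x.2)
  rw [mul_inv_rev, mul_assoc]

theorem smpLam_one : (smpLam (1 : F) : ScL2 (F × J) →L[ℂ] ScL2 (F × J)) = 1 := by
  ext ξ x
  change ξ ((1 : F)⁻¹ * x.1, x.2) = ξ x
  rw [inv_one, one_mul]

theorem smpLam_delta (g x : F) (j : J) : smpLam g (scDelta (x, j)) = scDelta (g * x, j) :=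
  smpConv_lam_delta g (x, j)

theorem smpLam_star (g : F) :
    star (smpLam g : ScL2 (F × J) →L[ℂ] ScL2 (F × J)) = smpLam g⁻¹ := by
  classical
  refine scOp_ext fun b => ?_
  ext a
  obtain ⟨b1, b2⟩ := b
  obtain ⟨a1, a2⟩ := a
  rw [sc_star_delta_apply, smpLam_delta, smpLam_delta, scDelta_apply, scDelta_apply]
  by_cases h : (b1, b2) = (g * a1, a2)
  · have h' : (a1, a2) = (g⁻¹ * b1, b2) := by
      obtain ⟨h1, h2⟩ := Prod.mk.inj h
      rw [h1, h2, inv_mul_cancel_left]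
    rw [if_pos h, if_pos h', map_one]
  · have h' : ¬ (a1, a2) = (g⁻¹ * b1, b2) := by
      intro h'
      apply h
      obtain ⟨h1, h2⟩ := Prod.mk.inj h'
      rw [h1, h2, mul_inv_cancel_left]
    rw [if_neg h, if_neg h', map_zero]

theorem smpLam_rho_comm (g h : F) :
    Commute (smpLam g : ScL2 (F × J) →L[ℂ] ScL2 (F × J)) (specRho h) := by
  ext ξ x
  change ξ (g⁻¹ * x.1 * h, x.2) = ξ (g⁻¹ * (x.1 * h), x.2)
  rw [mul_assoc]

theorem smpLam_mem_unitary (g : F) :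
    (smpLam g : ScL2 (F × J) →L[ℂ] ScL2 (F × J)) ∈ unitary (ScL2 (F × J) →L[ℂ] ScL2 (F × J)) := by
  rw [Unitary.mem_iff, smpLam_star, ← smpLam_mul, ← smpLam_mul, inv_mul_cancel, mul_inv_cancel,
    smpLam_one]
  exact ⟨rfl, rfl⟩

/-- `λ_g` as a unitary. -/
noncomputable def kkU (J : Type) (g : F) : unitary (ScL2 (F × J) →L[ℂ] ScL2 (F × J)) :=
  ⟨smpLam g, smpLam_mem_unitary g⟩

theorem kkU_zpow (g : F) (n : ℤ) :
    ((kkU J g ^ n : unitary (ScL2 (F × J) →L[ℂ] ScL2 (F × J))) : ScL2 (F × J) →L[ℂ] ScL2 (F × J))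
      = smpLam (g ^ n) := by
  induction n using Int.induction_on with
  | zero => rw [zpow_zero, zpow_zero, smpLam_one]; rfl
  | succ n ih =>
    rw [zpow_add_one, zpow_add_one, smpLam_mul, ← ih]; rfl
  | pred n ih =>
    rw [zpow_sub_one, zpow_sub_one, smpLam_mul, ← ih, ← smpLam_star, ← Unitary.star_eq_inv]; rfl

variable (z₀ : F)

/-! ### matrix coefficients of `f(Z)` -/

/-- `f ↦ (f(u) ξ)(p)` as a continuous linear functional -/
noncomputable def kkCoefL (u : unitary (ScL2 (F × J) →L[ℂ] ScL2 (F × J))) (ξ : ScL2 (F × J))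
    (p : F × J) : C(UnitAddCircle, ℂ) →L[ℂ] ℂ :=
  (innerSL ℂ (scDelta p)).comp ((ContinuousLinearMap.apply ℂ (ScL2 (F × J)) ξ).comp
    (⟨(kkHom u).toAlgHom.toLinearMap, kkHom_continuous u⟩ :
      C(UnitAddCircle, ℂ) →L[ℂ] (ScL2 (F × J) →L[ℂ] ScL2 (F × J))))

omit [Group F] in
theorem kkCoefL_apply (u : unitary (ScL2 (F × J) →L[ℂ] ScL2 (F × J))) (ξ : ScL2 (F × J))
    (p : F × J) (f : C(UnitAddCircle, ℂ)) : kkCoefL u ξ p f = kkHom u f ξ p := by
  change ⟪scDelta p, kkHom u f ξ⟫_ℂ = _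
  rw [sc_inner_delta_left]

/-- `f ↦ fhat(n)` as a continuous linear functional -/
noncomputable def kkFourL (n : ℤ) : C(UnitAddCircle, ℂ) →L[ℂ] ℂ :=
  (innerSL ℂ (fourierBasis (T := 1) n)).comp
    (ContinuousMap.toLp (E := ℂ) 2 AddCircle.haarAddCircle ℂ)

theorem kkFourL_apply (n : ℤ) (f : C(UnitAddCircle, ℂ)) : kkFourL n f = fourierCoeff f n := by
  change ⟪fourierBasis (T := 1) n, ContinuousMap.toLp (E := ℂ) 2 AddCircle.haarAddCircle ℂ f⟫_ℂ = _
  rw [← HilbertBasis.repr_apply_apply, fourierBasis_repr, fourierCoeff_toLp]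

theorem kk_fourierCoeff_fourier (m n : ℤ) :
    fourierCoeff (fourier m : C(UnitAddCircle, ℂ)) n = if n = m then 1 else 0 := by
  rw [← kkFourL_apply]
  change ⟪fourierBasis (T := 1) n, fourierLp (T := 1) 2 m⟫_ℂ = _
  rw [coe_fourierBasis]
  exact (orthonormal_iff_ite.1 orthonormal_fourier) n m

theorem kk_dense_fourier :
    Dense (Submodule.span ℂ (Set.range (fourier (T := 1))) : Set C(UnitAddCircle, ℂ)) :=
  Submodule.dense_iff_topologicalClosure_eq_top.2 (span_fourier_closure_eq_top (T := 1))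

theorem kkHom_fourier_delta (m : ℤ) (x : F) (j : J) :
    kkHom (kkU J z₀) (fourier m) (scDelta (x, j)) = scDelta (z₀ ^ m * x, j) := by
  rw [kkHom_fourier, kkU_zpow, smpLam_delta]

/-- Matrix coefficients of `f(Z)`, `Z = λ(z₀)`, `z₀` of infinite order:
`f(Z) δ_(x,j) = ∑ n, fhat(n) δ_(z₀^n x, j)`. -/
theorem kkHom_delta_apply (hz : Function.Injective fun n : ℤ => z₀ ^ n) (f : C(UnitAddCircle, ℂ))
    (x : F) (j : J) (n : ℤ) :
    kkHom (kkU J z₀) f (scDelta (x, j)) (z₀ ^ n * x, j) = fourierCoeff f n := by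
  classical
  rw [← kkCoefL_apply, ← kkFourL_apply]
  have : kkCoefL (kkU J z₀) (scDelta (x, j)) (z₀ ^ n * x, j) = kkFourL n := by
    apply ContinuousLinearMap.ext_on kk_dense_fourier
    rintro _ ⟨m, rfl⟩
    rw [kkCoefL_apply, kkFourL_apply, kkHom_fourier_delta, kk_fourierCoeff_fourier, scDelta_apply]
    by_cases h : n = m
    · rw [if_pos h, if_pos (by rw [h])]
    · rw [if_neg h, if_neg]
      intro h'
      have h1 := (Prod.mk.inj h').1
      exact h (hz (mul_right_cancel h1))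
  rw [this]

theorem kkHom_delta_apply_eq_zero (f : C(UnitAddCircle, ℂ)) (x y : F) (j k : J)
    (h : ¬ (k = j ∧ ∃ n : ℤ, y = z₀ ^ n * x)) :
    kkHom (kkU J z₀) f (scDelta (x, j)) (y, k) = 0 := by
  rw [← kkCoefL_apply]
  have : kkCoefL (kkU J z₀) (scDelta (x, j)) (y, k) = 0 := by
    apply ContinuousLinearMap.ext_on kk_dense_fourier
    rintro _ ⟨m, rfl⟩
    rw [kkCoefL_apply, kkHom_fourier_delta]
    change _ = (0 : ℂ)
    apply scDelta_ne
    intro h'
    obtain ⟨h1, h2⟩ := Prod.mk.inj h'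
    exact h ⟨h2, m, h1⟩
  rw [this]; rfl

/-! ### Parseval -/

theorem kk_norm_sq_hom_delta (hz : Function.Injective fun n : ℤ => z₀ ^ n)
    (g : C(UnitAddCircle, ℂ)) (x : F) (j : J) :
    ‖kkHom (kkU J z₀) g (scDelta (x, j))‖ ^ 2 = ∫ t, ‖g t‖ ^ 2 ∂AddCircle.haarAddCircle := by
  have hinj : Function.Injective (fun n : ℤ => ((z₀ ^ n * x, j) : F × J)) := by
    intro n m h
    exact hz (mul_right_cancel (Prod.mk.inj h).1)
  have hsupp : Function.support (fun p : F × J => ‖kkHom (kkU J z₀) g (scDelta (x, j)) p‖ ^ 2) ⊆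
      Set.range (fun n : ℤ => ((z₀ ^ n * x, j) : F × J)) := by
    rintro ⟨y, k⟩ hp
    by_contra hcon
    apply hp
    have : kkHom (kkU J z₀) g (scDelta (x, j)) (y, k) = 0 := by
      apply kkHom_delta_apply_eq_zero
      rintro ⟨rfl, n, rfl⟩
      exact hcon ⟨n, rfl⟩
    simp [this]
  rw [scL2_norm_sq, ← hinj.tsum_eq hsupp]
  simp only [kkHom_delta_apply z₀ hz]
  have h1 := tsum_sq_fourierCoeff (T := 1)
    (ContinuousMap.toLp (E := ℂ) 2 AddCircle.haarAddCircle ℂ g)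
  simp only [fourierCoeff_toLp] at h1
  rw [h1]
  apply MeasureTheory.integral_congr_ae
  filter_upwards [ContinuousMap.coeFn_toLp (p := 2) (𝕜 := ℂ) AddCircle.haarAddCircle g] with t ht
  rw [ht]

theorem kk_orbit_disjoint {x x' : F} {j j' : J}
    (hx : ¬ (j = j' ∧ ∃ n : ℤ, x = z₀ ^ n * x')) (p : F × J) :
    ¬ (p.2 = j ∧ ∃ n : ℤ, p.1 = z₀ ^ n * x) ∨ ¬ (p.2 = j' ∧ ∃ n : ℤ, p.1 = z₀ ^ n * x') := by
  by_contra hcon
  push Not at hcon
  obtain ⟨⟨h1, n, h2⟩, h3, m, h4⟩ := hcon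
  apply hx
  refine ⟨h1.symm.trans h3, -n + m, ?_⟩
  rw [zpow_add, zpow_neg, mul_assoc, ← h4, h2, inv_mul_cancel_left]

/-- **Parseval**: vectors `∑ s, g_s(Z) δ_(x_s, j_s)` with the `(x_s, j_s)` in different cosets of `⟨z₀⟩`. -/
theorem kk_parseval (hz : Function.Injective fun n : ℤ => z₀ ^ n) {ι : Type*} (s : Finset ι)
    (g : ι → C(UnitAddCircle, ℂ)) (x : ι → F) (j : ι → J)
    (hx : ∀ a ∈ s, ∀ b ∈ s, a ≠ b → ¬ (j a = j b ∧ ∃ n : ℤ, x a = z₀ ^ n * x b)) :
    ‖∑ a ∈ s, kkHom (kkU J z₀) (g a) (scDelta (x a, j a))‖ ^ 2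
      = ∑ a ∈ s, ∫ t, ‖g a t‖ ^ 2 ∂AddCircle.haarAddCircle := by
  rw [sc_norm_sq_sum_of_disjoint]
  · exact Finset.sum_congr rfl (fun a _ => kk_norm_sq_hom_delta z₀ hz (g a) (x a) (j a))
  · intro a ha b hb hab p
    obtain ⟨y, k⟩ := p
    rcases kk_orbit_disjoint z₀ (hx a ha b hb hab) (y, k) with h | h
    · exact Or.inl (kkHom_delta_apply_eq_zero z₀ _ _ _ _ _ h)
    · exact Or.inr (kkHom_delta_apply_eq_zero z₀ _ _ _ _ _ h)

/-- The closed arc `[a, b]` of the circle. -/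
def kkIcc (a b : ℝ) : Set UnitAddCircle := (fun x : ℝ => (x : UnitAddCircle)) '' Set.Icc a b

theorem kkIcc_isClosed (a b : ℝ) : IsClosed (kkIcc a b) :=
  (isCompact_Icc.image (AddCircle.continuous_mk' (1 : ℝ))).isClosed

theorem kkIcc_mono {a b a' b' : ℝ} (h1 : a ≤ a') (h2 : b' ≤ b) : kkIcc a' b' ⊆ kkIcc a b :=
  Set.image_mono (Set.Icc_subset_Icc h1 h2)

theorem kkIcc_cover (a b : ℝ) (t : UnitAddCircle) : t ∈ kkIcc a b ∨ t ∈ kkIcc b (a + 1) := by
  have h : t ∈ (fun x : ℝ => (x : UnitAddCircle)) '' Set.Icc a (a + 1) := by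
    have := AddCircle.coe_image_Icc_eq (1 : ℝ) a
    rw [this]; trivial
  obtain ⟨x, hx, rfl⟩ := h
  rcases le_total x b with h1 | h1
  · exact Or.inl ⟨x, ⟨hx.1, h1⟩, rfl⟩
  · exact Or.inr ⟨x, ⟨h1, hx.2⟩, rfl⟩

/-- the measure of an arc -/
theorem kk_measure_Icc (a b : ℝ) (hab1 : b ≤ a + 1) :
    AddCircle.haarAddCircle (kkIcc a b) = ENNReal.ofReal (b - a) := by
  have hvol : (MeasureTheory.volume : MeasureTheory.Measure UnitAddCircle) =
      AddCircle.haarAddCircle := by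
    rw [AddCircle.volume_eq_smul_haarAddCircle, ENNReal.ofReal_one, one_smul]
  have hm : MeasurableSet (kkIcc a b) := (kkIcc_isClosed a b).measurableSet
  have h1 := (AddCircle.measurePreserving_mk (1 : ℝ) a).measure_preimage hm.nullMeasurableSet
  rw [← hvol, ← h1, MeasureTheory.Measure.restrict_apply
    ((AddCircle.measurePreserving_mk (1 : ℝ) a).measurable hm)]
  apply le_antisymm
  · have hsub : (QuotientAddGroup.mk ⁻¹' kkIcc a b : Set ℝ) ∩ Set.Ioc a (a + 1) ⊆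
        Set.Ioc a b ∪ {a + 1} := by
      rintro x ⟨⟨y, hy, hxy⟩, hx⟩
      have hxy' : (y : UnitAddCircle) = (x : UnitAddCircle) := hxy
      rw [QuotientAddGroup.eq_iff_sub_mem, AddSubgroup.mem_zmultiples_iff] at hxy'
      obtain ⟨n, hn⟩ := hxy'
      have hn' : (n : ℝ) = y - x := by simpa using hn
      have h2 : (-2 : ℝ) < n := by rw [hn']; linarith [hy.1, hx.2]
      have h3 : (n : ℝ) < 1 := by rw [hn']; linarith [hy.2, hx.1]
      have h2' : -2 < n := by exact_mod_cast h2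
      have h3' : n < 1 := by exact_mod_cast h3
      have h4 : n = -1 ∨ n = 0 := by omega
      rcases h4 with rfl | rfl
      · right
        have : x = y + 1 := by push_cast at hn'; linarith
        have h5 : x = a + 1 := le_antisymm hx.2 (by linarith [hy.1])
        exact h5
      · left
        have : x = y := by push_cast at hn'; linarith
        exact ⟨hx.1, this ▸ hy.2⟩
    calc MeasureTheory.volume ((QuotientAddGroup.mk ⁻¹' kkIcc a b : Set ℝ) ∩ Set.Ioc a (a + 1))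
        ≤ MeasureTheory.volume (Set.Ioc a b ∪ {a + 1}) := MeasureTheory.measure_mono hsub
      _ ≤ MeasureTheory.volume (Set.Ioc a b) + MeasureTheory.volume ({a + 1} : Set ℝ) :=
          MeasureTheory.measure_union_le _ _
      _ = ENNReal.ofReal (b - a) := by rw [Real.volume_Ioc, Real.volume_singleton, add_zero]
  · have hsub : Set.Ioc a b ⊆
        (QuotientAddGroup.mk ⁻¹' kkIcc a b : Set ℝ) ∩ Set.Ioc a (a + 1) := by
      intro x hx
      exact ⟨⟨x, ⟨hx.1.le, hx.2⟩, rfl⟩, hx.1, hx.2.trans hab1⟩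
    calc ENNReal.ofReal (b - a) = MeasureTheory.volume (Set.Ioc a b) := Real.volume_Ioc.symm
      _ ≤ _ := MeasureTheory.measure_mono hsub

/-- outer approximation of a closed set by a continuous function -/
theorem kk_exists_outer (C : Set UnitAddCircle) (hC : IsClosed C) (ε : ℝ) (hε : 0 < ε) :
    ∃ g : C(UnitAddCircle, ℂ), (∀ t ∈ C, g t = 1) ∧
      ∫ t, ‖g t‖ ^ 2 ∂AddCircle.haarAddCircle ≤ (AddCircle.haarAddCircle C).toReal + ε := by
  have hpos : ∀ n : ℕ, (0 : ℝ) < 1 / ((n : ℝ) + 1) := fun n => by positivity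
  have hlim := MeasureTheory.tendsto_lintegral_thickenedIndicator_of_isClosed
    (AddCircle.haarAddCircle (T := 1)) hC hpos tendsto_one_div_add_atTop_nhds_zero_nat
  have hfin : AddCircle.haarAddCircle C ≠ ∞ := MeasureTheory.measure_ne_top _ _
  have hlt : AddCircle.haarAddCircle C < AddCircle.haarAddCircle C + ENNReal.ofReal ε :=
    ENNReal.lt_add_right hfin (by simpa using hε)
  obtain ⟨n, hn⟩ := (hlim.eventually (gt_mem_nhds hlt)).exists
  let th := thickenedIndicator (hpos n) C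
  let g : C(UnitAddCircle, ℂ) :=
    ⟨fun t => (((th t : NNReal) : ℝ) : ℂ), by
      exact Complex.continuous_ofReal.comp (NNReal.continuous_coe.comp th.continuous)⟩
  refine ⟨g, fun t ht => ?_, ?_⟩
  · simp only [g, th, ContinuousMap.coe_mk, thickenedIndicator_one (hpos n) C ht]
    simp
  · rw [MeasureTheory.integral_eq_lintegral_of_nonneg_ae
      (Filter.Eventually.of_forall (fun t => by positivity))
      ((by fun_prop : Continuous fun t => ‖g t‖ ^ 2).aestronglyMeasurable)]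
    have h1 : ∫⁻ t, ENNReal.ofReal (‖g t‖ ^ 2) ∂AddCircle.haarAddCircle ≤
        ∫⁻ t, ((th t : NNReal) : ℝ≥0∞) ∂AddCircle.haarAddCircle := by
      apply MeasureTheory.lintegral_mono
      intro t
      have h2' : th t ≤ 1 := thickenedIndicator_le_one (hpos n) C t
      have h2 : ((th t : NNReal) : ℝ) ≤ 1 := by exact_mod_cast h2'
      have h3 : (0 : ℝ) ≤ ((th t : NNReal) : ℝ) := NNReal.coe_nonneg _
      have h4 : ‖g t‖ ^ 2 ≤ ((th t : NNReal) : ℝ) := by
        simp only [g, ContinuousMap.coe_mk, Complex.norm_real, Real.norm_eq_abs, abs_of_nonneg h3]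
        nlinarith
      calc ENNReal.ofReal (‖g t‖ ^ 2) ≤ ENNReal.ofReal ((th t : NNReal) : ℝ) :=
            ENNReal.ofReal_le_ofReal h4
        _ = _ := ENNReal.ofReal_coe_nnreal
    have h5 := h1.trans hn.le
    calc (∫⁻ t, ENNReal.ofReal (‖g t‖ ^ 2) ∂AddCircle.haarAddCircle).toReal
        ≤ (AddCircle.haarAddCircle C + ENNReal.ofReal ε).toReal :=
          ENNReal.toReal_mono (ENNReal.add_ne_top.2 ⟨hfin, ENNReal.ofReal_ne_top⟩) h5
      _ = _ := by rw [ENNReal.toReal_add hfin ENNReal.ofReal_ne_top, ENNReal.toReal_ofReal hε.le]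

/-! ### size of the sharp projections -/

theorem kk_proj_pyth {H : Type*} [NormedAddCommGroup H] [InnerProductSpace ℂ H] [CompleteSpace H]
    {P : H →L[ℂ] H} (hP : IsStarProjection P) (η : H) :
    ‖P η‖ ^ 2 + ‖η - P η‖ ^ 2 = ‖η‖ ^ 2 := by
  have h1 : ⟪P η, η - P η⟫_ℂ = 0 := by
    have hsa := hP.isSelfAdjoint.adjoint_eq
    have hid : P (P η) = P η := congrArg (fun T : H →L[ℂ] H => T η) hP.isIdempotentElem
    rw [← ContinuousLinearMap.adjoint_inner_right, hsa, map_sub, hid, sub_self, inner_zero_right]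
  have h2 := norm_add_sq_eq_norm_sq_add_norm_sq_of_inner_eq_zero (𝕜 := ℂ) _ _ h1
  rw [add_sub_cancel] at h2
  rw [sq, sq, sq, h2]

theorem kk_proj_norm_le {H : Type*} [NormedAddCommGroup H] [InnerProductSpace ℂ H]
    [CompleteSpace H] {P : H →L[ℂ] H} (hP : IsStarProjection P) (η : H) : ‖P η‖ ^ 2 ≤ ‖η‖ ^ 2 := by
  have := kk_proj_pyth hP η
  nlinarith [sq_nonneg ‖η - P η‖]

theorem kk_proj_compl_norm_le {H : Type*} [NormedAddCommGroup H] [InnerProductSpace ℂ H]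
    [CompleteSpace H] {P : H →L[ℂ] H} (hP : IsStarProjection P) (η : H) :
    ‖η - P η‖ ^ 2 ≤ ‖η‖ ^ 2 := by
  have := kk_proj_pyth hP η
  nlinarith [sq_nonneg ‖P η‖]

/-- outer bound -/
theorem kkArc_delta_le (hz : Function.Injective fun n : ℤ => z₀ ^ n) (S : Set UnitAddCircle)
    (hS : IsClosed S) (x : F) (j : J) :
    ‖kkArc (kkU J z₀) S (scDelta (x, j))‖ ^ 2 ≤ (AddCircle.haarAddCircle S).toReal := by
  apply le_of_forall_pos_le_add
  intro ε hε
  obtain ⟨g, hg1, hg2⟩ := kk_exists_outer S hS ε hε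
  have h1 : kkHom (kkU J z₀) g * kkArc (kkU J z₀) S = kkArc (kkU J z₀) S := by
    rw [kkHom_mul_arc_congr (kkU J z₀) S g 1 (fun t ht => by simpa using hg1 t ht), map_one,
      one_mul]
  have h2 : kkArc (kkU J z₀) S * kkHom (kkU J z₀) g = kkArc (kkU J z₀) S := by
    rw [← (kkArc_commute_hom (kkU J z₀) S g).eq, h1]
  have h3 : kkArc (kkU J z₀) S (scDelta (x, j)) =
      kkArc (kkU J z₀) S (kkHom (kkU J z₀) g (scDelta (x, j))) :=
    (congrArg (fun T : ScL2 (F × J) →L[ℂ] ScL2 (F × J) => T (scDelta (x, j))) h2).symm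
  rw [h3]
  refine (kk_proj_norm_le (kkArc_isStarProjection _ _) _).trans ?_
  rw [kk_norm_sq_hom_delta z₀ hz]
  exact hg2

/-- inner bound -/
theorem kkArc_delta_compl_le (hz : Function.Injective fun n : ℤ => z₀ ^ n)
    (S C : Set UnitAddCircle) (hC : IsClosed C) (hSC : ∀ t, t ∈ S ∨ t ∈ C) (x : F) (j : J) :
    ‖scDelta (x, j) - kkArc (kkU J z₀) S (scDelta (x, j))‖ ^ 2 ≤
      (AddCircle.haarAddCircle C).toReal := by
  apply le_of_forall_pos_le_add
  intro ε hε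
  obtain ⟨g, hg1, hg2⟩ := kk_exists_outer C hC ε hε
  have h1 : kkArc (kkU J z₀) S * kkHom (kkU J z₀) (1 - g) = kkHom (kkU J z₀) (1 - g) := by
    apply kkArc_mul_hom
    intro t ht
    have := hg1 t ((hSC t).resolve_left ht)
    simp [this]
  set δ := scDelta (x, j) with hδ
  set P := kkArc (kkU J z₀) S with hP
  have h2 : P (kkHom (kkU J z₀) (1 - g) δ) = kkHom (kkU J z₀) (1 - g) δ :=
    congrArg (fun T : ScL2 (F × J) →L[ℂ] ScL2 (F × J) => T δ) h1
  have h3 : kkHom (kkU J z₀) (1 - g) δ = δ - kkHom (kkU J z₀) g δ := by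
    rw [map_sub, map_one]; rfl
  have h4 : δ - P δ = kkHom (kkU J z₀) g δ - P (kkHom (kkU J z₀) g δ) := by
    rw [h3, map_sub] at h2
    have : P δ = δ - kkHom (kkU J z₀) g δ + P (kkHom (kkU J z₀) g δ) := by
      rw [← h2]; abel
    rw [this]; abel
  rw [h4]
  refine (kk_proj_compl_norm_le (kkArc_isStarProjection _ _) _).trans ?_
  rw [hδ, kk_norm_sq_hom_delta z₀ hz]
  exact hg2

/-- Size of a sharp arc projection. -/
theorem kkArc_delta_norm_sq (hz : Function.Injective fun n : ℤ => z₀ ^ n) (a b : ℝ) (hab : a ≤ b)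
    (hab1 : b ≤ a + 1) (x : F) (j : J) :
    ‖kkArc (kkU J z₀) (kkIcc a b) (scDelta (x, j))‖ ^ 2 = b - a := by
  apply le_antisymm
  · have := kkArc_delta_le z₀ hz (kkIcc a b) (kkIcc_isClosed a b) x j
    rwa [kk_measure_Icc a b hab1, ENNReal.toReal_ofReal (by linarith)] at this
  · have h1 := kkArc_delta_compl_le z₀ hz (kkIcc a b) (kkIcc b (a + 1)) (kkIcc_isClosed _ _)
      (kkIcc_cover a b) x j
    rw [kk_measure_Icc b (a + 1) (by linarith), ENNReal.toReal_ofReal (by linarith)] at h1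
    have h2 := kk_proj_pyth (kkArc_isStarProjection (kkU J z₀) (kkIcc a b)) (scDelta (x, j))
    rw [scDelta_norm] at h2
    linarith

/-- the orbit of `(x, j)` under `⟨z₀⟩` -/
def kkOrb (x : F) (j : J) : Set (F × J) := {p | p.2 = j ∧ ∃ n : ℤ, p.1 = z₀ ^ n * x}

theorem kkOrb_restr_commute (x : F) (j : J) (m : ℤ) :
    Commute (scRestr (kkOrb z₀ x j)) (smpLam (z₀ ^ m) : ScL2 (F × J) →L[ℂ] ScL2 (F × J)) := by
  ext ξ p
  obtain ⟨y, k⟩ := p
  change scRestr (kkOrb z₀ x j) (smpLam (z₀ ^ m) ξ) (y, k) =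
    scRestr (kkOrb z₀ x j) ξ ((z₀ ^ m)⁻¹ * y, k)
  by_cases h : (y, k) ∈ kkOrb z₀ x j
  · have h' : ((z₀ ^ m)⁻¹ * y, k) ∈ kkOrb z₀ x j := by
      obtain ⟨h1, n, h2⟩ := h
      refine ⟨h1, -m + n, ?_⟩
      change (z₀ ^ m)⁻¹ * y = _
      have h2' : y = z₀ ^ n * x := h2
      rw [h2', zpow_add, zpow_neg, mul_assoc]
    rw [scRestr_apply_mem _ h, scRestr_apply_mem _ h']
    rfl
  · have h' : ((z₀ ^ m)⁻¹ * y, k) ∉ kkOrb z₀ x j := by
      intro h'
      apply h
      obtain ⟨h1, n, h2⟩ := h'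
      refine ⟨h1, m + n, ?_⟩
      change y = _
      have h2' : (z₀ ^ m)⁻¹ * y = z₀ ^ n * x := h2
      rw [zpow_add, mul_assoc, ← h2', mul_inv_cancel_left]
    rw [scRestr_apply_not_mem _ h, scRestr_apply_not_mem _ h']

/-- `1_S(Z) δ_(x,j)` is supported in the orbit of `(x, j)` -/
theorem kkArc_delta_apply_eq_zero (S : Set UnitAddCircle) (x : F) (j : J) (p : F × J)
    (hp : p ∉ kkOrb z₀ x j) : kkArc (kkU J z₀) S (scDelta (x, j)) p = 0 := by
  have h1 : Commute (scRestr (kkOrb z₀ x j)) (kkArc (kkU J z₀) S) := by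
    apply kkArc_commute
    · have := kkOrb_restr_commute z₀ x j 1
      rwa [zpow_one] at this
    · have := kkOrb_restr_commute z₀ x j (-1)
      rw [zpow_neg_one, ← smpLam_star] at this
      exact this
  have h2 : scRestr (kkOrb z₀ x j) (scDelta (x, j)) = scDelta (x, j) := by
    ext q
    by_cases hq : q ∈ kkOrb z₀ x j
    · rw [scRestr_apply_mem _ hq]
    · rw [scRestr_apply_not_mem _ hq, scDelta_ne]
      rintro rfl
      exact hq ⟨rfl, 0, by simp⟩
  have h3 : scRestr (kkOrb z₀ x j) (kkArc (kkU J z₀) S (scDelta (x, j))) =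
      kkArc (kkU J z₀) S (scRestr (kkOrb z₀ x j) (scDelta (x, j))) :=
    congrArg (fun T : ScL2 (F × J) →L[ℂ] ScL2 (F × J) => T (scDelta (x, j))) h1.eq
  rw [h2] at h3
  rw [← h3, scRestr_apply_not_mem _ hp]

/-- **Parseval with a sharp cut-off.** -/
theorem kk_parseval_arc (hz : Function.Injective fun n : ℤ => z₀ ^ n) (a b : ℝ) (hab : a ≤ b)
    (hab1 : b ≤ a + 1) {ι : Type*} (s : Finset ι) (c : ι → ℂ) (x : ι → F) (j : ι → J)
    (hx : ∀ p ∈ s, ∀ r ∈ s, p ≠ r → ¬ (j p = j r ∧ ∃ n : ℤ, x p = z₀ ^ n * x r)) :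
    ‖kkArc (kkU J z₀) (kkIcc a b) (∑ p ∈ s, c p • scDelta (x p, j p))‖ ^ 2
      = (b - a) * ∑ p ∈ s, ‖c p‖ ^ 2 := by
  rw [map_sum, sc_norm_sq_sum_of_disjoint, Finset.mul_sum]
  · refine Finset.sum_congr rfl (fun p _ => ?_)
    rw [map_smul, norm_smul, mul_pow, kkArc_delta_norm_sq z₀ hz a b hab hab1, mul_comm]
  · intro p hp r hr hpr q
    rcases kk_orbit_disjoint z₀ (hx p hp r hr hpr) q with h | h
    · left
      rw [map_smul, lp.coeFn_smul, Pi.smul_apply, kkArc_delta_apply_eq_zero z₀ _ _ _ q h,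
        smul_zero]
    · right
      rw [map_smul, lp.coeFn_smul, Pi.smul_apply, kkArc_delta_apply_eq_zero z₀ _ _ _ q h,
        smul_zero]

/-! ### orthogonality of arcs -/

section meet

variable {H : Type*} [NormedAddCommGroup H] [InnerProductSpace ℂ H] [CompleteSpace H]

/-- If two closed sets cover the circle, a vector in both spectral subspaces lies in the spectral
subspace of the intersection. -/
theorem kkArc_meet (u : unitary (H →L[ℂ] H)) (S C : Set UnitAddCircle) (hS : IsClosed S)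
    (hC : IsClosed C) (hSC : ∀ t, t ∈ S ∨ t ∈ C) (ξ : H) (h1 : kkArc u S ξ = ξ)
    (h2 : kkArc u C ξ = ξ) : kkArc u (S ∩ C) ξ = ξ := by
  classical
  rw [kkArc_apply_eq_iff] at h1 h2 ⊢
  intro g hg
  have hcont : Continuous (fun t => if t ∈ S then (0 : ℂ) else g t) := by
    apply Continuous.if _ continuous_const g.continuous
    intro t ht
    have ht1 : t ∈ S := by
      have := frontier_subset_closure ht
      rwa [show {x | x ∈ S} = S from rfl, hS.closure_eq] at this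
    have ht2 : t ∈ C := by
      have h3 : t ∈ closure Sᶜ := by
        have := ht.2
        rw [show {x | x ∈ S} = S from rfl] at this
        rwa [closure_compl]
      have h4 : Sᶜ ⊆ C := fun s hs => (hSC s).resolve_left hs
      exact (closure_minimal h4 hC) h3
    exact (hg t ⟨ht1, ht2⟩).symm
  let g₁ : C(UnitAddCircle, ℂ) := ⟨fun t => if t ∈ S then (0 : ℂ) else g t, hcont⟩
  have e1 : kkHom u g₁ ξ = 0 := h1 g₁ (fun t ht => by simp [g₁, ht])
  have e2 : kkHom u (g - g₁) ξ = 0 := h2 (g - g₁) (fun t ht => by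
    by_cases hs : t ∈ S
    · simp [g₁, hs, hg t ⟨hs, ht⟩]
    · simp [g₁, hs])
  rw [map_sub] at e2
  have e3 : kkHom u g ξ - kkHom u g₁ ξ = 0 := e2
  rw [e1, sub_zero] at e3
  exact e3

theorem kkArc_commute_arc (u : unitary (H →L[ℂ] H)) (S S' : Set UnitAddCircle) :
    Commute (kkArc u S) (kkArc u S') := by
  apply kkArc_commute
  · have := (kkArc_commute_hom u S (fourier 1)).symm
    rwa [kkHom_fourier_one] at this
  · have := (kkArc_commute_hom u S (star (fourier 1))).symm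
    rwa [map_star, kkHom_fourier_one] at this

end meet

theorem kkArc_orth_compl (hz : Function.Injective fun n : ℤ => z₀ ^ n) (a b : ℝ) (hab : a ≤ b)
    (hab1 : b ≤ a + 1) :
    kkArc (kkU J z₀) (kkIcc a b) * kkArc (kkU J z₀) (kkIcc b (a + 1)) = 0 := by
  set u := kkU J z₀ with hu
  set S := kkIcc a b with hS
  set C := kkIcc b (a + 1) with hC
  have hmeas : AddCircle.haarAddCircle (S ∩ C) = 0 := by
    have h1 := MeasureTheory.measure_union_add_inter (μ := AddCircle.haarAddCircle (T := 1)) S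
      (kkIcc_isClosed b (a + 1)).measurableSet
    have h2 : S ∪ C = Set.univ := Set.eq_univ_of_forall (fun t => kkIcc_cover a b t)
    rw [← hC, h2, MeasureTheory.measure_univ, hS, hC, kk_measure_Icc a b hab1,
      kk_measure_Icc b (a + 1) (by linarith), ← ENNReal.ofReal_add (by linarith) (by linarith)] at h1
    have h3 : b - a + (a + 1 - b) = 1 := by ring
    rw [h3, ENNReal.ofReal_one] at h1
    have h4 : (1 : ℝ≥0∞) + AddCircle.haarAddCircle (kkIcc a b ∩ kkIcc b (a + 1)) = 1 + 0 := by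
      rw [h1, add_zero]
    exact (ENNReal.add_right_inj ENNReal.one_ne_top).1 h4
  refine scOp_ext fun p => ?_
  obtain ⟨x, j⟩ := p
  set v := (kkArc u S * kkArc u C) (scDelta (x, j)) with hv
  have hPS := (kkArc_isStarProjection u S).isIdempotentElem.eq
  have hPC := (kkArc_isStarProjection u C).isIdempotentElem.eq
  have hcomm := (kkArc_commute_arc u S C).eq
  have e1 : kkArc u S v = v := by
    change (kkArc u S * (kkArc u S * kkArc u C)) (scDelta (x, j)) = _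
    rw [← mul_assoc, hPS]
  have e2 : kkArc u C v = v := by
    change (kkArc u C * (kkArc u S * kkArc u C)) (scDelta (x, j)) = _
    rw [hcomm, ← mul_assoc, hPC, ← hcomm]
  have e3 := kkArc_meet u S C (kkIcc_isClosed _ _) (kkIcc_isClosed _ _) (kkIcc_cover a b) v e1 e2
  have e4 : kkArc u (S ∩ C) v =
      (kkArc u S * kkArc u C) (kkArc u (S ∩ C) (scDelta (x, j))) := by
    have h5 : kkArc u (S ∩ C) * (kkArc u S * kkArc u C) =
        (kkArc u S * kkArc u C) * kkArc u (S ∩ C) :=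
      ((kkArc_commute_arc u (S ∩ C) S).mul_right (kkArc_commute_arc u (S ∩ C) C)).eq
    exact congrArg (fun T : ScL2 (F × J) →L[ℂ] ScL2 (F × J) => T (scDelta (x, j))) h5
  have e5 : kkArc u (S ∩ C) (scDelta (x, j)) = 0 := by
    have := kkArc_delta_le z₀ hz (S ∩ C) ((kkIcc_isClosed _ _).inter (kkIcc_isClosed _ _)) x j
    rw [hmeas, ENNReal.toReal_zero] at this
    have h6 : ‖kkArc u (S ∩ C) (scDelta (x, j))‖ ^ 2 = 0 := le_antisymm this (by positivity)
    exact norm_eq_zero.1 (pow_eq_zero_iff two_ne_zero |>.1 h6)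
  rw [e5, map_zero] at e4
  rw [← e3, e4]
  rfl

/-- Arcs that overlap in at most one point give orthogonal projections. -/
theorem kkArc_orth (hz : Function.Injective fun n : ℤ => z₀ ^ n) (a b a' b' : ℝ) (hab : a ≤ b)
    (hbb : b ≤ a') (hab' : a' ≤ b') (h1 : b' ≤ a + 1) :
    kkArc (kkU J z₀) (kkIcc a b) * kkArc (kkU J z₀) (kkIcc a' b') = 0 := by
  have h2 := kkArc_mono (kkU J z₀) (kkIcc_mono hbb h1)
  rw [← h2, ← mul_assoc, kkArc_orth_compl z₀ hz a b hab (by linarith), zero_mul]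

/-! ### resolutions of the identity -/

/-- Mutually orthogonal projections which are total on a determining set of vectors form a
resolution of the identity. -/
theorem kkRes_of_total {H : Type*} [NormedAddCommGroup H] [InnerProductSpace ℂ H]
    [CompleteSpace H] {𝔄 : Type*} {Q : 𝔄 → H →L[ℂ] H} (proj : ∀ α, IsStarProjection (Q α))
    (orth : ∀ α β, α ≠ β → Q α * Q β = 0) (D : Set H)
    (hD : ∀ T : H →L[ℂ] H, (∀ ξ ∈ D, T ξ = ξ) → T = 1)
    (htot : ∀ ξ ∈ D, HasSum (fun α => ‖Q α ξ‖ ^ 2) (‖ξ‖ ^ 2)) : KkRes 𝔄 Q := by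
  have hidem : ∀ α ξ, Q α (Q α ξ) = Q α ξ := fun α ξ =>
    congrArg (fun T : H →L[ℂ] H => T ξ) (proj α).isIdempotentElem
  have hinner : ∀ α ξ η, ⟪Q α ξ, η⟫_ℂ = ⟪ξ, Q α η⟫_ℂ := by
    intro α ξ η
    rw [← ContinuousLinearMap.adjoint_inner_left, (proj α).isSelfAdjoint.adjoint_eq]
  have horth : ∀ ξ α β, α ≠ β → ⟪Q α ξ, Q β ξ⟫_ℂ = 0 := by
    intro ξ α β h
    have : Q α (Q β ξ) = 0 := congrArg (fun T : H →L[ℂ] H => T ξ) (orth α β h)
    rw [hinner, this, inner_zero_right]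
  have hself : ∀ α ξ, ⟪ξ, Q α ξ⟫_ℂ = ((‖Q α ξ‖ ^ 2 : ℝ) : ℂ) := by
    intro α ξ
    rw [← hidem α ξ, ← hinner, hidem, inner_self_eq_norm_sq_to_K]
    norm_cast
  have hbessel : ∀ ξ (s : Finset 𝔄), ∑ α ∈ s, ‖Q α ξ‖ ^ 2 ≤ ‖ξ‖ ^ 2 := by
    intro ξ s
    have h1 := kkRes_norm_sum_sq (horth ξ) s
    have h2 : ⟪ξ, ∑ α ∈ s, Q α ξ⟫_ℂ = ((∑ α ∈ s, ‖Q α ξ‖ ^ 2 : ℝ) : ℂ) := by
      rw [inner_sum]
      simp only [hself]
      push_cast
      rfl
    have h3 : 0 ≤ ‖ξ - ∑ α ∈ s, Q α ξ‖ ^ 2 := by positivity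
    rw [@norm_sub_sq ℂ, h2, h1] at h3
    simp only [Complex.ofReal_re, RCLike.re_to_complex] at h3
    linarith
  have hsumsq : ∀ ξ, Summable (fun α => ‖Q α ξ‖ ^ 2) := fun ξ =>
    summable_of_sum_le (fun _ => by positivity) (hbessel ξ)
  have hsum : ∀ ξ, Summable (fun α => Q α ξ) := fun ξ => kkRes_summable (horth ξ) (hsumsq ξ)
  have hnorm : ∀ ξ, ‖∑' α, Q α ξ‖ ^ 2 ≤ ‖ξ‖ ^ 2 := by
    intro ξ
    have h1 := kkRes_hasSum_norm_sq (horth ξ) (hsum ξ).hasSum
    rw [← h1.tsum_eq]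
    exact (hsumsq ξ).tsum_le_of_sum_le (hbessel ξ)
  let f : H →ₗ[ℂ] H :=
    { toFun := fun ξ => ∑' α, Q α ξ
      map_add' := by
        intro ξ η
        simp only [map_add]
        exact (hsum ξ).tsum_add (hsum η)
      map_smul' := by
        intro a ξ
        simp only [map_smul, RingHom.id_apply]
        exact (hsum ξ).tsum_const_smul a }
  let E : H →L[ℂ] H := f.mkContinuous 1 (fun ξ => by
    rw [one_mul]
    exact le_of_sq_le_sq (hnorm ξ) (norm_nonneg _))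
  have hE : ∀ ξ, HasSum (fun α => Q α ξ) (E ξ) := fun ξ => (hsum ξ).hasSum
  have hE1 : E = 1 := by
    apply hD
    intro ξ hξ
    have h1 : ‖E ξ‖ ^ 2 = ‖ξ‖ ^ 2 := (kkRes_hasSum_norm_sq (horth ξ) (hE ξ)).unique (htot ξ hξ)
    have h2 : HasSum (fun α => ⟪ξ, Q α ξ⟫_ℂ) ⟪ξ, E ξ⟫_ℂ := (innerSL ℂ ξ).hasSum (hE ξ)
    simp only [hself] at h2
    have h4 : HasSum (fun α => ((‖Q α ξ‖ ^ 2 : ℝ) : ℂ)) ((‖ξ‖ ^ 2 : ℝ) : ℂ) :=
      Complex.hasSum_ofReal.2 (htot ξ hξ)
    have h5 : ⟪ξ, E ξ⟫_ℂ = ((‖ξ‖ ^ 2 : ℝ) : ℂ) := h2.unique h4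
    have h6 : ‖ξ - E ξ‖ ^ 2 = 0 := by
      rw [@norm_sub_sq ℂ, h5, h1]
      simp only [Complex.ofReal_re, RCLike.re_to_complex]
      ring
    have h7 : ξ - E ξ = 0 := norm_eq_zero.1 (pow_eq_zero_iff two_ne_zero |>.1 h6)
    exact (sub_eq_zero.1 h7).symm
  refine ⟨proj, orth, fun ξ => ?_⟩
  have h1 := hE ξ
  rw [hE1] at h1
  exact kkRes_hasSum_norm_sq (horth ξ) h1

/-- **Central localisation.**  A countable family of closed arcs `[lo α, hi α]` inside `[x₀, x₀ + 1]` with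
disjoint interiors and total length one gives a resolution of the identity. -/
theorem kk_res_of_arcs (hz : Function.Injective fun n : ℤ => z₀ ^ n) {𝔄 : Type*} (lo hi : 𝔄 → ℝ)
    (x₀ : ℝ) (hlh : ∀ α, lo α ≤ hi α) (hx₀ : ∀ α, x₀ ≤ lo α ∧ hi α ≤ x₀ + 1)
    (hdisj : ∀ α β, α ≠ β → hi α ≤ lo β ∨ hi β ≤ lo α)
    (hlen : HasSum (fun α => hi α - lo α) 1) :
    KkRes 𝔄 (fun α => kkArc (kkU J z₀) (kkIcc (lo α) (hi α))) := by
  apply kkRes_of_total (fun α => kkArc_isStarProjection _ _) _ (Set.range scDelta)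
  · intro T hT
    exact scOp_ext (fun p => hT _ ⟨p, rfl⟩)
  · rintro _ ⟨⟨x, j⟩, rfl⟩
    have h1 : ∀ α, ‖kkArc (kkU J z₀) (kkIcc (lo α) (hi α)) (scDelta (x, j))‖ ^ 2 = hi α - lo α :=
      fun α => kkArc_delta_norm_sq z₀ hz _ _ (hlh α) (by linarith [(hx₀ α).1, (hx₀ α).2]) x j
    simp only [h1, scDelta_norm, one_pow]
    exact hlen
  · intro α β hαβ
    rcases hdisj α β hαβ with h | h
    · exact kkArc_orth z₀ hz _ _ _ _ (hlh α) h (hlh β) (by linarith [(hx₀ α).1, (hx₀ β).2])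
    · rw [(kkArc_commute_arc _ _ _).eq]
      exact kkArc_orth z₀ hz _ _ _ _ (hlh β) h (hlh α) (by linarith [(hx₀ β).1, (hx₀ α).2])

/-- `specHS` is additive along a resolution that commutes with the right translations. -/
theorem KkRes.specHS_eq {𝔄 : Type*} [Countable 𝔄]
    {Q : 𝔄 → ScL2 (F × J) →L[ℂ] ScL2 (F × J)} (hQ : KkRes 𝔄 Q)
    (X : ScL2 (F × J) →L[ℂ] ScL2 (F × J)) : specHS X = ∑' α, specHS (Q α * X) := by
  unfold specHS
  rw [ENNReal.tsum_comm]
  refine tsum_congr (fun i => ?_)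
  have h1 := hQ.total (X (scDelta ((1 : F), i)))
  rw [← h1.tsum_eq, ENNReal.ofReal_tsum_of_nonneg (fun _ => by positivity) h1.summable]
  rfl

end regular

end Claimed.Agent.R300
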