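/-
Row 300, KK Sections 8-10, fibre-free core (architect: helper21); design notes in the header of `KkCalc.lean`.
Proofs: helper193.  No sorry in this file.
-/
import Claimed.Agent.R300.KkReg

set_option autoImplicit false

namespace Claimed.Agent.R300

open scoped ENNReal ComplexConjugate InnerProductSpace Matrix.Norms.L2Operator

/-! ## 6. Finite matrix on the vertex coordinate, tensored with an operator on `ℓ²(F × J)` -/

section tensor

variable {F V J : Type}

/-- Kernel of `M ⊗ B`. -/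
noncomputable def kkTensK (M : V → V → ℂ) (B : ScL2 (F × J) →L[ℂ] ScL2 (F × J)) :
    F × (V × J) → F × (V × J) → ℂ :=
  fun x y => M x.2.1 y.2.1 * B (scDelta (y.1, y.2.2)) (x.1, x.2.2)

/-- `M ⊗ B` on `ℓ²(F × (V × J))`, for `B` on `ℓ²(F × J)` and a matrix `M` on `V`
(finitely supported, or the identity). -/
noncomputable def kkTens (M : V → V → ℂ) (B : ScL2 (F × J) →L[ℂ] ScL2 (F × J)) :
    ScL2 (F × (V × J)) →L[ℂ] ScL2 (F × (V × J)) :=
  smpKer (kkTensK M B)

/-- the identity matrix. -/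
noncomputable def kkOne (V : Type) : V → V → ℂ := fun v v' => open Classical in if v = v' then 1 else 0

/-- `M` vanishes outside `S × S`. -/
def KkSupp (M : V → V → ℂ) (S : Finset V) : Prop := ∀ v v', ¬ (v ∈ S ∧ v' ∈ S) → M v v' = 0

/-! ### slices -/

/-- the vertex coordinate first. -/
def kkE (F V J : Type) : F × (V × J) ≃ V × (F × J) where
  toFun := fun x => (x.2.1, (x.1, x.2.2))
  invFun := fun y => (y.2.1, (y.1, y.2.2))
  left_inv := fun _ => rfl
  right_inv := fun _ => rfl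

/-- the slice at the vertex `v`. -/
noncomputable abbrev kkSl (v : V) : ScL2 (F × (V × J)) →L[ℂ] ScL2 (F × J) := scSlice (kkE F V J) v

/-- the embedding of the slice at the vertex `v`. -/
noncomputable def kkIn (v : V) : ScL2 (F × J) →L[ℂ] ScL2 (F × (V × J)) :=
  ContinuousLinearMap.adjoint (kkSl v)

theorem kkSl_apply (v : V) (ξ : ScL2 (F × (V × J))) (p : F × J) : kkSl v ξ p = ξ (p.1, (v, p.2)) := rfl

theorem kkSl_delta (v : V) (y : F × (V × J)) [Decidable (v = y.2.1)] :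
    kkSl v (scDelta y) = if v = y.2.1 then scDelta (y.1, y.2.2) else 0 := by
  split_ifs with h
  · subst h
    exact scSlice_delta (kkE F V J) y
  · exact scSlice_delta_ne (kkE F V J) y h

theorem kkSl_in_same (v : V) (η : ScL2 (F × J)) : kkSl v (kkIn v η) = η :=
  scPull_push _ (scSlice_inj (kkE F V J) v) η

theorem kkSl_in_ne {v a : V} (h : v ≠ a) (η : ScL2 (F × J)) : kkSl v (kkIn a η) = 0 := by
  ext p
  have := scPush_apply_of_not_mem (fun q : F × J => (kkE F V J).symm (a, q))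
    (scSlice_inj (kkE F V J) a) η (p.1, (v, p.2)) (fun q hq => h (by
      have := congrArg (fun z : F × (V × J) => z.2.1) hq
      exact this.symm))
  exact this

theorem kkSl_in (v a : V) [Decidable (v = a)] (η : ScL2 (F × J)) :
    kkSl v (kkIn a η) = if v = a then η else 0 := by
  split_ifs with h
  · subst h; exact kkSl_in_same v η
  · exact kkSl_in_ne h η

theorem kkSl_ext {ξ η : ScL2 (F × (V × J))} (h : ∀ v, kkSl v ξ = kkSl v η) : ξ = η :=
  scSlice_ext (kkE F V J) h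

/-- `T` acts on the slices as the matrix `M` with the entries multiplied with `B`. -/
def KkSliceForm (T : ScL2 (F × (V × J)) →L[ℂ] ScL2 (F × (V × J))) (M : V → V → ℂ) (S : Finset V)
    (B : ScL2 (F × J) →L[ℂ] ScL2 (F × J)) : Prop :=
  ∀ ξ v, kkSl v (T ξ) = ∑ v' ∈ S, M v v' • B (kkSl v' ξ)

theorem KkSliceForm.hasKer {T : ScL2 (F × (V × J)) →L[ℂ] ScL2 (F × (V × J))} {M : V → V → ℂ}
    {S : Finset V} {B : ScL2 (F × J) →L[ℂ] ScL2 (F × J)} (hT : KkSliceForm T M S B)
    (hM : KkSupp M S) : SmpHasKer T (kkTensK M B) := by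
  classical
  intro x y
  have h1 : T (scDelta y) x = kkSl x.2.1 (T (scDelta y)) (x.1, x.2.2) := rfl
  rw [h1, hT, scL2_sum_apply]
  simp only [kkSl_delta]
  by_cases hy : y.2.1 ∈ S
  · rw [Finset.sum_eq_single y.2.1]
    · rw [if_pos rfl]; rfl
    · intro b _ hb
      rw [if_neg hb]; simp
    · intro h; exact absurd hy h
  · rw [Finset.sum_eq_zero]
    · simp only [kkTensK]
      rw [hM _ _ (fun h => hy h.2), zero_mul]
    · intro b hb
      rw [if_neg (fun h : b = y.2.1 => hy (by rw [← h]; exact hb))]; simp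

theorem KkSliceForm.eq {T : ScL2 (F × (V × J)) →L[ℂ] ScL2 (F × (V × J))} {M : V → V → ℂ}
    {S : Finset V} {B : ScL2 (F × J) →L[ℂ] ScL2 (F × J)} (hT : KkSliceForm T M S B)
    (hM : KkSupp M S) : kkTens M B = T := (hT.hasKer hM).eq_smpKer

/-- the explicit finite sum. -/
noncomputable def kkTens0 (M : V → V → ℂ) (S : Finset V) (B : ScL2 (F × J) →L[ℂ] ScL2 (F × J)) :
    ScL2 (F × (V × J)) →L[ℂ] ScL2 (F × (V × J)) :=
  ∑ a ∈ S, ∑ b ∈ S, M a b • (kkIn a ∘L B ∘L kkSl b)

theorem kkTens0_sliceForm (M : V → V → ℂ) (S : Finset V) (hM : KkSupp M S)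
    (B : ScL2 (F × J) →L[ℂ] ScL2 (F × J)) : KkSliceForm (kkTens0 M S B) M S B := by
  classical
  intro ξ v
  unfold kkTens0
  simp only [sum_apply, map_sum, smul_apply, ContinuousLinearMap.comp_apply,
    map_smul, kkSl_in]
  by_cases hv : v ∈ S
  · rw [Finset.sum_eq_single v]
    · simp
    · intro a _ ha
      exact Finset.sum_eq_zero fun b _ => by rw [if_neg (Ne.symm ha), smul_zero]
    · intro h; exact absurd hv h
  · rw [Finset.sum_eq_zero, Finset.sum_eq_zero]
    · intro b _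
      rw [hM v b (fun h => hv h.1), zero_smul]
    · intro a ha
      exact Finset.sum_eq_zero fun b _ => by
        rw [if_neg (fun h : v = a => hv (by rw [h]; exact ha)), smul_zero]

theorem kkTens_sliceForm (M : V → V → ℂ) (S : Finset V) (hM : KkSupp M S)
    (B : ScL2 (F × J) →L[ℂ] ScL2 (F × J)) : KkSliceForm (kkTens M B) M S B := by
  rw [(kkTens0_sliceForm M S hM B).eq hM]
  exact kkTens0_sliceForm M S hM B

theorem kkTens_hasKer (M : V → V → ℂ) (S : Finset V) (hM : KkSupp M S)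
    (B : ScL2 (F × J) →L[ℂ] ScL2 (F × J)) : SmpHasKer (kkTens M B) (kkTensK M B) :=
  (kkTens_sliceForm M S hM B).hasKer hM

theorem kk_amp_hasKer (B : ScL2 (F × J) →L[ℂ] ScL2 (F × J)) :
    SmpHasKer (scAmp (kkE F V J) B) (kkTensK (kkOne V) B) := by
  classical
  intro x y
  have h1 : scAmp (kkE F V J) B (scDelta y) x = B (kkSl x.2.1 (scDelta y)) (x.1, x.2.2) := rfl
  rw [h1, kkSl_delta]
  simp only [kkTensK, kkOne]
  split_ifs with h
  · rw [one_mul]
  · rw [zero_mul]; simp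

theorem kkTens_one_eq (B : ScL2 (F × J) →L[ℂ] ScL2 (F × J)) :
    kkTens (kkOne V) B = scAmp (kkE F V J) B := (kk_amp_hasKer B).eq_smpKer

theorem kkTens_one_hasKer (B : ScL2 (F × J) →L[ℂ] ScL2 (F × J)) :
    SmpHasKer (kkTens (kkOne V) B) (kkTensK (kkOne V) B) := by
  rw [kkTens_one_eq]
  exact kk_amp_hasKer B

/-- `‖M ⊗ 1‖ ≤ ‖M‖`. -/
theorem kkTens_id_norm_le [DecidableEq V] (M : V → V → ℂ) (S : Finset V) (hM : KkSupp M S) :
    ‖kkTens M (1 : ScL2 (F × J) →L[ℂ] ScL2 (F × J))‖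
      ≤ ‖(Matrix.of fun a b : S => M a b : Matrix S S ℂ)‖ := by
  classical
  have hK := kkTens_hasKer M S hM (1 : ScL2 (F × J) →L[ℂ] ScL2 (F × J))
  refine smp_norm_le_of_blocks _ (fun x : F × (V × J) => (x.1, x.2.2))
    (fun x : F × (V × J) => (x.1, x.2.2)) ?_ _ (norm_nonneg _) ?_
  · intro x y hxy
    rw [hK x y]
    simp only [kkTensK]
    rw [one_apply_eq_self, scDelta_ne hxy, mul_zero]
  · rintro ⟨f, j⟩
    have hKr := hK.restr {x : F × (V × J) | (x.1, x.2.2) = (f, j)}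
      {x : F × (V × J) | (x.1, x.2.2) = (f, j)}
    have hinj : Function.Injective (fun a : S => ((f, ((a : V), j)) : F × (V × J))) := by
      intro a b hab
      simp only [Prod.mk.injEq, true_and, and_true] at hab
      exact Subtype.ext hab
    have h := hKr.norm_le_matrix_inj (fun a : S => ((f, ((a : V), j)) : F × (V × J)))
      (fun a : S => ((f, ((a : V), j)) : F × (V × J))) hinj hinj (by
        intro x y hxy
        split_ifs with hc
        · simp only [kkTensK]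
          rw [hM _ _ (fun hS => hxy ⟨⟨⟨x.2.1, hS.1⟩, ?_⟩, ⟨⟨y.2.1, hS.2⟩, ?_⟩⟩), zero_mul]
          · have := hc.1
            simp only [Set.mem_ofPred_eq, Prod.mk.injEq] at this
            obtain ⟨x1, x2, x3⟩ := x
            simp only at this ⊢
            rw [this.1, this.2]
          · have := hc.2
            simp only [Set.mem_ofPred_eq, Prod.mk.injEq] at this
            obtain ⟨y1, y2, y3⟩ := y
            simp only at this ⊢
            rw [this.1, this.2]
        · rfl)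
    refine h.trans (le_of_eq ?_)
    congr 1
    ext a b
    simp only [Matrix.of_apply]
    rw [if_pos ⟨rfl, rfl⟩]
    simp [kkTensK]

theorem kkSupp_mul {M M' : V → V → ℂ} {S : Finset V} (hM : KkSupp M S) (hM' : KkSupp M' S) :
    KkSupp (fun v v' => ∑ x ∈ S, M v x * M' x v') S := by
  intro v v' h
  refine Finset.sum_eq_zero fun x hx => ?_
  by_cases hv : v ∈ S
  · rw [hM' x v' (fun h' => h ⟨hv, h'.2⟩), mul_zero]
  · rw [hM v x (fun h' => hv h'.1), zero_mul]

theorem kkTens_mul_sliceForm (M M' : V → V → ℂ) (S : Finset V) (hM : KkSupp M S)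
    (hM' : KkSupp M' S) (B B' : ScL2 (F × J) →L[ℂ] ScL2 (F × J)) :
    KkSliceForm (kkTens M B * kkTens M' B') (fun v v' => ∑ x ∈ S, M v x * M' x v') S (B * B') := by
  intro ξ v
  show kkSl v (kkTens M B (kkTens M' B' ξ)) = _
  rw [kkTens_sliceForm M S hM B]
  simp only [kkTens_sliceForm M' S hM' B' ξ, map_sum, map_smul, Finset.smul_sum, Finset.sum_smul,
    smul_smul]
  rw [Finset.sum_comm]
  rfl

theorem kkTens_norm_le [DecidableEq V] (M : V → V → ℂ) (S : Finset V) (hM : KkSupp M S)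
    (B : ScL2 (F × J) →L[ℂ] ScL2 (F × J)) :
    ‖kkTens M B‖ ≤ ‖(Matrix.of fun a b : S => M a b : Matrix S S ℂ)‖ * ‖B‖ := by
  have h : kkTens M B = kkTens M (1 : ScL2 (F × J) →L[ℂ] ScL2 (F × J)) * scAmp (kkE F V J) B := by
    refine KkSliceForm.eq ?_ hM
    intro ξ v
    show kkSl v (kkTens M 1 (scAmp (kkE F V J) B ξ)) = _
    rw [kkTens_sliceForm M S hM 1]
    refine Finset.sum_congr rfl fun v' _ => ?_
    rw [scSlice_amp]
    rfl
  rw [h]
  exact (norm_mul_le _ _).trans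
    (mul_le_mul (kkTens_id_norm_le M S hM) (scAmp_norm_le _ _) (norm_nonneg _) (norm_nonneg _))

theorem kkTens_one_norm_le (B : ScL2 (F × J) →L[ℂ] ScL2 (F × J)) :
    ‖kkTens (kkOne V) B‖ ≤ ‖B‖ := by
  rw [kkTens_one_eq]
  exact scAmp_norm_le _ _

/-- `1 ⊗ ·` is a unital star homomorphism. -/
noncomputable def kkAmpHom (F V J : Type) :
    (ScL2 (F × J) →L[ℂ] ScL2 (F × J)) →⋆ₐ[ℂ] (ScL2 (F × (V × J)) →L[ℂ] ScL2 (F × (V × J))) :=
  scAmpHom (Z := F × (V × J)) (Y := V) (X := F × J)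
    { toFun := fun x => (x.2.1, (x.1, x.2.2))
      invFun := fun y => (y.2.1, (y.1, y.2.2))
      left_inv := fun _ => rfl
      right_inv := fun _ => rfl }

theorem kkAmpHom_apply (B : ScL2 (F × J) →L[ℂ] ScL2 (F × J)) :
    kkAmpHom F V J B = scAmp (kkE F V J) B := rfl

theorem kkSl_amp (B : ScL2 (F × J) →L[ℂ] ScL2 (F × J)) (v : V) (ξ : ScL2 (F × (V × J))) :
    kkSl v (kkAmpHom F V J B ξ) = B (kkSl v ξ) := scSlice_amp (kkE F V J) B v ξ

theorem kkAmpHom_eq (B : ScL2 (F × J) →L[ℂ] ScL2 (F × J)) :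
    kkAmpHom F V J B = kkTens (kkOne V) B := (kkTens_one_eq B).symm

theorem kkTens_mul (M M' : V → V → ℂ) (S : Finset V) (hM : KkSupp M S) (hM' : KkSupp M' S)
    (B B' : ScL2 (F × J) →L[ℂ] ScL2 (F × J)) :
    kkTens M B * kkTens M' B' = kkTens (fun v v' => ∑ x ∈ S, M v x * M' x v') (B * B') :=
  ((kkTens_mul_sliceForm M M' S hM hM' B B').eq (kkSupp_mul hM hM')).symm

theorem kkTens_mul_amp (M : V → V → ℂ) (S : Finset V) (hM : KkSupp M S)
    (B B' : ScL2 (F × J) →L[ℂ] ScL2 (F × J)) :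
    kkTens M B * kkAmpHom F V J B' = kkTens M (B * B') ∧
      kkAmpHom F V J B' * kkTens M B = kkTens M (B' * B) := by
  constructor
  · refine (KkSliceForm.eq (S := S) ?_ hM).symm
    intro ξ v
    show kkSl v (kkTens M B (kkAmpHom F V J B' ξ)) = _
    rw [kkTens_sliceForm M S hM B]
    refine Finset.sum_congr rfl fun v' _ => ?_
    rw [kkSl_amp]
    rfl
  · refine (KkSliceForm.eq (S := S) ?_ hM).symm
    intro ξ v
    show kkSl v (kkAmpHom F V J B' (kkTens M B ξ)) = _
    rw [kkSl_amp, kkTens_sliceForm M S hM B, map_sum]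
    refine Finset.sum_congr rfl fun v' _ => ?_
    rw [map_smul]
    rfl

theorem kkSupp_star {M : V → V → ℂ} {S : Finset V} (hM : KkSupp M S) :
    KkSupp (fun v v' => conj (M v' v)) S := by
  intro v v' h
  show conj (M v' v) = 0
  rw [hM v' v (fun h' => h ⟨h'.2, h'.1⟩), map_zero]

theorem kkTens_star (M : V → V → ℂ) (S : Finset V) (hM : KkSupp M S)
    (B : ScL2 (F × J) →L[ℂ] ScL2 (F × J)) :
    star (kkTens M B) = kkTens (fun v v' => conj (M v' v)) (star B) := by
  rw [ContinuousLinearMap.star_eq_adjoint]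
  refine (SmpHasKer.eq_smpKer (k := kkTensK (fun v v' => conj (M v' v)) (star B)) ?_).symm
  intro x y
  rw [(kkTens_hasKer M S hM B).adjoint x y]
  simp only [kkTensK, map_mul]
  rw [sc_star_delta_apply]

theorem kkTens_add_left (M M' : V → V → ℂ) (S : Finset V) (hM : KkSupp M S) (hM' : KkSupp M' S)
    (B : ScL2 (F × J) →L[ℂ] ScL2 (F × J)) :
    kkTens (fun v v' => M v v' + M' v v') B = kkTens M B + kkTens M' B := by
  refine SmpHasKer.eq_smpKer ?_
  intro x y
  rw [(kkTens_hasKer M S hM B).add (kkTens_hasKer M' S hM' B) x y]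
  simp only [kkTensK, add_mul]

theorem kkTens_sub_right (M : V → V → ℂ) (S : Finset V) (hM : KkSupp M S)
    (B B' : ScL2 (F × J) →L[ℂ] ScL2 (F × J)) :
    kkTens M (B - B') = kkTens M B - kkTens M B' := by
  refine SmpHasKer.eq_smpKer ?_
  intro x y
  rw [(kkTens_hasKer M S hM B).sub (kkTens_hasKer M S hM B') x y]
  simp only [kkTensK]
  rw [← mul_sub]
  rfl

theorem kkTens_smul (M : V → V → ℂ) (S : Finset V) (hM : KkSupp M S) (a : ℂ)
    (B : ScL2 (F × J) →L[ℂ] ScL2 (F × J)) :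
    kkTens (fun v v' => a * M v v') B = a • kkTens M B ∧ kkTens M (a • B) = a • kkTens M B := by
  constructor
  · refine SmpHasKer.eq_smpKer ?_
    intro x y
    rw [(kkTens_hasKer M S hM B).smul a x y]
    simp only [kkTensK, mul_assoc]
  · refine SmpHasKer.eq_smpKer ?_
    intro x y
    rw [(kkTens_hasKer M S hM B).smul a x y]
    simp only [kkTensK]
    rw [mul_left_comm]
    rfl

/-- two star projections with the same fixed vectors are equal. -/
theorem kk_starProjection_ext {H : Type*} [NormedAddCommGroup H] [InnerProductSpace ℂ H]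
    [CompleteSpace H] {p q : H →L[ℂ] H} (hp : IsStarProjection p) (hq : IsStarProjection q)
    (h : ∀ ξ, p ξ = ξ ↔ q ξ = ξ) : p = q := by
  have hpp : ∀ ξ, p (p ξ) = p ξ := fun ξ =>
    congrArg (fun T : H →L[ℂ] H => T ξ) hp.isIdempotentElem.eq
  have hqq : ∀ ξ, q (q ξ) = q ξ := fun ξ =>
    congrArg (fun T : H →L[ℂ] H => T ξ) hq.isIdempotentElem.eq
  have h1 : p * q = q := by
    ext ξ
    exact (h (q ξ)).2 (hqq ξ)
  have h2 : q * p = p := by
    ext ξ
    exact (h (p ξ)).1 (hpp ξ)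
  have h3 := congrArg star h1
  rw [star_mul, hp.isSelfAdjoint.star_eq, hq.isSelfAdjoint.star_eq, h2] at h3
  exact h3

variable [Group F]

/-- the amplification of a left translation, of the functional calculus and of the sharp projections. -/
theorem kkAmpHom_lam (g : F) :
    kkAmpHom F V J (smpLam g) = (smpLam g : ScL2 (F × (V × J)) →L[ℂ] ScL2 (F × (V × J))) := by
  ext1 ξ
  refine kkSl_ext fun v => ?_
  rw [kkSl_amp]
  rfl

theorem kkAmpHom_rho (g : F) :
    kkAmpHom F V J (specRho g) = (specRho g : ScL2 (F × (V × J)) →L[ℂ] ScL2 (F × (V × J))) := by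
  ext1 ξ
  refine kkSl_ext fun v => ?_
  rw [kkSl_amp]
  rfl

theorem kkAmpHom_hom (z₀ : F) (f : C(UnitAddCircle, ℂ)) :
    kkAmpHom F V J (kkHom (kkU J z₀) f) = kkHom (kkU (V × J) z₀) f :=
  kkHom_map (kkAmpHom F V J) (kkU J z₀) (kkU (V × J) z₀) (kkAmpHom_lam z₀) f

theorem kkAmpHom_arc (z₀ : F) (S : Set UnitAddCircle) :
    kkAmpHom F V J (kkArc (kkU J z₀) S) = kkArc (kkU (V × J) z₀) S := by
  refine kk_starProjection_ext ((kkArc_isStarProjection _ S).map (kkAmpHom F V J))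
    (kkArc_isStarProjection _ S) fun ξ => ?_
  rw [kkArc_apply_eq_iff]
  constructor
  · intro h g hg
    rw [← kkAmpHom_hom]
    refine kkSl_ext fun v => ?_
    rw [kkSl_amp, map_zero]
    have hv : kkArc (kkU J z₀) S (kkSl v ξ) = kkSl v ξ := by
      rw [← kkSl_amp, h]
    exact (kkArc_apply_eq_iff _ S _).1 hv g hg
  · intro h
    refine kkSl_ext fun v => ?_
    rw [kkSl_amp, kkArc_apply_eq_iff]
    intro g hg
    rw [← kkSl_amp, kkAmpHom_hom, h g hg, map_zero]

omit [Group F] in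
theorem kkTens_delta_slice (M : V → V → ℂ) (S : Finset V) (hM : KkSupp M S)
    (B : ScL2 (F × J) →L[ℂ] ScL2 (F × J)) (y : F × (V × J)) (v : V) :
    kkSl v (kkTens M B (scDelta y)) = M v y.2.1 • B (scDelta (y.1, y.2.2)) := by
  ext p
  rw [kkSl_apply, kkTens_hasKer M S hM B]
  rfl

omit [Group F] in
theorem kkTens_delta_norm_sq (M : V → V → ℂ) (S : Finset V) (hM : KkSupp M S)
    (B : ScL2 (F × J) →L[ℂ] ScL2 (F × J)) (y : F × (V × J)) :
    ‖kkTens M B (scDelta y)‖ ^ 2 = (∑ v ∈ S, ‖M v y.2.1‖ ^ 2) * ‖B (scDelta (y.1, y.2.2))‖ ^ 2 := by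
  refine (scSlice_hasSum_sq (kkE F V J) (kkTens M B (scDelta y))).unique ?_
  rw [Finset.sum_mul]
  have e : (fun v => ‖scSlice (kkE F V J) v (kkTens M B (scDelta y))‖ ^ 2)
      = fun v => ‖M v y.2.1‖ ^ 2 * ‖B (scDelta (y.1, y.2.2))‖ ^ 2 := by
    funext v
    rw [kkTens_delta_slice M S hM B y v, norm_smul, mul_pow]
  rw [e]
  refine hasSum_sum_of_ne_finset_zero fun v hv => ?_
  rw [hM v _ (fun h => hv h.1)]
  simp

/-- `specHS` of `M ⊗ B`. -/
theorem specHS_kkTens (M : V → V → ℂ) (S : Finset V) (hM : KkSupp M S)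
    (B : ScL2 (F × J) →L[ℂ] ScL2 (F × J)) :
    specHS (kkTens M B) = ENNReal.ofReal (∑ v ∈ S, ∑ v' ∈ S, ‖M v v'‖ ^ 2) * specHS B := by
  unfold specHS
  have h1 : ∀ i : V × J, ENNReal.ofReal (‖kkTens M B (scDelta ((1 : F), i))‖ ^ 2)
      = ENNReal.ofReal (∑ v ∈ S, ‖M v i.1‖ ^ 2)
        * ENNReal.ofReal (‖B (scDelta ((1 : F), i.2))‖ ^ 2) := by
    intro i
    rw [kkTens_delta_norm_sq M S hM B,
      ENNReal.ofReal_mul (Finset.sum_nonneg fun v _ => sq_nonneg _)]
  rw [tsum_congr h1, ENNReal.tsum_prod (f := fun (v' : V) (j : J) =>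
    ENNReal.ofReal (∑ v ∈ S, ‖M v v'‖ ^ 2) * ENNReal.ofReal (‖B (scDelta ((1 : F), j))‖ ^ 2))]
  simp only [ENNReal.tsum_mul_left]
  rw [ENNReal.tsum_mul_right]
  congr 1
  rw [tsum_eq_sum (s := S), ← ENNReal.ofReal_sum_of_nonneg, Finset.sum_comm]
  · exact fun v' _ => Finset.sum_nonneg fun v _ => sq_nonneg _
  · intro v' hv'
    rw [Finset.sum_eq_zero, ENNReal.ofReal_zero]
    intro v _
    rw [hM v v' (fun h => hv' h.2)]
    simp

end tensor

end Claimed.Agent.R300
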