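import Claimed.Agent.R300.NilDefs

/-!
# KK Section 9, Lemma 9.3(a), leaf NIL-BOX: Foelner boxes in the deck group; polynomial size bounds

`CBound g M`: all integer coordinates of `g` are bounded by `M` in absolute value.

PLAN for `nil_box`.  `Box T` = coordinates of weight `j` in `[-T^j, T^j]` (weights `wtL` for `lam`, `wtB` for `bet`,
`m` for `z`), `T : ℕ`.  For `f ∈ Box T`, `CBound g M`, `1 ≤ M ≤ T`: each coordinate of weight `j` of `f * g` differs from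
that of `f` by at most `c_m M T^(j-1)`:
  bet:  `(circ f.bet g.bet - f.bet)_(i,j) = g_(i,j) + ∑_k f_(i,k) g_(k,j)`            (weights `k - i ≤ j - i - 1`)
  lam:  `(lact g.lam f.bet)_(i,k) = g_(i,k) + ∑_{j>k} g.lam_(i,j) f.bet_(k,j)`       (weights `j - k ≤ m - (k - i) - 1`)
  z:    `g.z + <g.gX.lam, f.gX.bet> + <g.gY.lam, f.gY.bet>`                          (weights `≤ m - 1`).
So `f * g ∈ Box T` unless some coordinate of `f` is within `c_m M T^(j-1)` of a face: fraction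
`≤ (#coordinates) c_m M / T`.  Take `M = x^a`, `T = x^(a+B)`; `|Box T| ≤ (3 T^m)^(#coordinates)`.
-/

set_option autoImplicit false

namespace Claimed.Agent.R300.Nil

variable {m : ℕ}

/-- all coordinates bounded by `M` -/
def EBar.CBound (g : EBar m ℤ) (M : ℝ) : Prop :=
  (∀ p, |(g.lam p : ℝ)| ≤ M) ∧ (∀ p, |(g.bet p : ℝ)| ≤ M)

/-- all coordinates bounded by `M` -/
def Deck.CBound (g : Deck m ℤ) (M : ℝ) : Prop :=
  g.gX.CBound M ∧ g.gY.CBound M ∧ |(g.z : ℝ)| ≤ M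

section Count

variable {J : Type*} [Fintype J] [DecidableEq J]

/-- integer box with radii `R j` -/
noncomputable def nbBox (R : J → ℕ) : Finset (J → ℤ) :=
  Fintype.piFinset fun j => Finset.Icc (-(R j : ℤ)) (R j)

theorem mem_nbBox (R : J → ℕ) (f : J → ℤ) : f ∈ nbBox R ↔ ∀ j, |f j| ≤ R j := by
  unfold nbBox
  simp only [Fintype.mem_piFinset, Finset.mem_Icc, abs_le]

theorem card_nbBox (R : J → ℕ) : (nbBox R).card = ∏ j, (2 * R j + 1) := by
  unfold nbBox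
  rw [Fintype.card_piFinset]
  refine Finset.prod_congr rfl fun j _ => ?_
  rw [Int.card_Icc]
  omega

theorem nbBox_nonempty (R : J → ℕ) : (nbBox R).Nonempty :=
  ⟨0, (mem_nbBox R 0).2 fun j => by simp⟩

theorem nb_bad_card (R δ : ℕ) :
    ((Finset.Icc (-(R : ℤ)) R).filter fun t => (R : ℤ) - δ < |t|).card ≤ 2 * δ := by
  have hsub : ((Finset.Icc (-(R : ℤ)) R).filter fun t => (R : ℤ) - δ < |t|)
      ⊆ Finset.Ioc ((R : ℤ) - δ) R ∪ Finset.Ico (-(R : ℤ)) (δ - R) := by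
    intro t ht
    rw [Finset.mem_filter, Finset.mem_Icc] at ht
    rw [Finset.mem_union, Finset.mem_Ioc, Finset.mem_Ico]
    obtain ⟨⟨h1, h2⟩, h3⟩ := ht
    rcases abs_cases t with ⟨h, _⟩ | ⟨h, _⟩
    · left; constructor <;> omega
    · right; constructor <;> omega
  refine (Finset.card_le_card hsub).trans ((Finset.card_union_le _ _).trans ?_)
  rw [Int.card_Ioc, Int.card_Ico]
  omega

theorem nb_face (R δ : J → ℕ) (j : J) :
    ((nbBox R).filter fun f => (R j : ℤ) - δ j < |f j|).card * (2 * R j + 1)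
      ≤ 2 * δ j * (nbBox R).card := by
  set s : J → Finset ℤ := fun j => Finset.Icc (-(R j : ℤ)) (R j) with hs
  set t : Finset ℤ := (s j).filter fun t => (R j : ℤ) - δ j < |t| with ht
  have h1 : ((nbBox R).filter fun f => (R j : ℤ) - δ j < |f j|)
      = Fintype.piFinset (Function.update s j t) := by
    rw [Fintype.piFinset_update_eq_filter_piFinset_mem s j (Finset.filter_subset _ _)]
    ext f
    simp only [Finset.mem_filter, nbBox, Fintype.mem_piFinset]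
    constructor
    · rintro ⟨h, h'⟩
      exact ⟨h, h j, h'⟩
    · rintro ⟨h, _, h'⟩
      exact ⟨h, h'⟩
  have h2 : (Fintype.piFinset (Function.update s j t)).card
      = t.card * ∏ i ∈ Finset.univ.erase j, (s i).card := by
    rw [Fintype.card_piFinset, ← Finset.mul_prod_erase Finset.univ _ (Finset.mem_univ j),
      Function.update_self]
    congr 1
    refine Finset.prod_congr rfl fun i hi => ?_
    rw [Function.update_of_ne (Finset.ne_of_mem_erase hi)]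
  have h3 : (nbBox R).card = (s j).card * ∏ i ∈ Finset.univ.erase j, (s i).card := by
    unfold nbBox
    rw [Fintype.card_piFinset, ← Finset.mul_prod_erase Finset.univ _ (Finset.mem_univ j)]
  have h4 : (s j).card = 2 * R j + 1 := by
    rw [hs, Int.card_Icc]
    omega
  have h5 : t.card ≤ 2 * δ j := nb_bad_card (R j) (δ j)
  rw [h1, h2, h3, h4]
  calc t.card * (∏ i ∈ Finset.univ.erase j, (s i).card) * (2 * R j + 1)
      ≤ 2 * δ j * (∏ i ∈ Finset.univ.erase j, (s i).card) * (2 * R j + 1) := by gcongr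
    _ = 2 * δ j * ((2 * R j + 1) * ∏ i ∈ Finset.univ.erase j, (s i).card) := by ring

theorem nb_folner (R δ : J → ℕ) (φ : (J → ℤ) → (J → ℤ))
    (h : ∀ f ∈ nbBox R, ∀ j, |φ f j - f j| ≤ δ j) (ε : ℝ) (hε0 : 0 ≤ ε)
    (hε : ∀ j, (δ j : ℝ) ≤ ε * R j) :
    (((nbBox R).filter fun f => φ f ∉ nbBox R).card : ℝ)
      ≤ Fintype.card J * ε * (nbBox R).card := by
  have hsub : ((nbBox R).filter fun f => φ f ∉ nbBox R)
      ⊆ Finset.univ.biUnion fun j => (nbBox R).filter fun f => (R j : ℤ) - δ j < |f j| := by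
    intro f hf
    rw [Finset.mem_filter] at hf
    obtain ⟨hf1, hf2⟩ := hf
    rw [mem_nbBox] at hf2
    push Not at hf2
    obtain ⟨j, hj⟩ := hf2
    rw [Finset.mem_biUnion]
    refine ⟨j, Finset.mem_univ _, ?_⟩
    rw [Finset.mem_filter]
    refine ⟨hf1, ?_⟩
    have h1 := h f hf1 j
    have h2 : |φ f j| ≤ |φ f j - f j| + |f j| := by
      have := abs_add_le (φ f j - f j) (f j)
      rwa [sub_add_cancel] at this
    omega
  have hface : ∀ j, (((nbBox R).filter fun f => (R j : ℤ) - δ j < |f j|).card : ℝ)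
      ≤ ε * (nbBox R).card := by
    intro j
    have h1 := nb_face R δ j
    have h1' : (((nbBox R).filter fun f => (R j : ℤ) - δ j < |f j|).card : ℝ) * (2 * R j + 1)
        ≤ 2 * δ j * (nbBox R).card := by exact_mod_cast h1
    have hpos : (0 : ℝ) < 2 * R j + 1 := by positivity
    have h2 : 2 * (δ j : ℝ) * (nbBox R).card ≤ ε * (nbBox R).card * (2 * R j + 1) := by
      have hc : (0 : ℝ) ≤ (nbBox R).card := by positivity
      have := hε j
      nlinarith [mul_nonneg hε0 hc, mul_le_mul_of_nonneg_right this hc]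
    exact le_of_mul_le_mul_right (h1'.trans h2) hpos
  calc (((nbBox R).filter fun f => φ f ∉ nbBox R).card : ℝ)
      ≤ ((Finset.univ.biUnion fun j => (nbBox R).filter fun f => (R j : ℤ) - δ j < |f j|).card : ℝ) := by
        exact_mod_cast Finset.card_le_card hsub
    _ ≤ ((∑ j, ((nbBox R).filter fun f => (R j : ℤ) - δ j < |f j|).card : ℕ) : ℝ) := by
        exact_mod_cast Finset.card_biUnion_le
    _ = ∑ j, (((nbBox R).filter fun f => (R j : ℤ) - δ j < |f j|).card : ℝ) := by push_cast; rfl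
    _ ≤ ∑ _j : J, ε * (nbBox R).card := Finset.sum_le_sum fun j _ => hface j
    _ = Fintype.card J * ε * (nbBox R).card := by
        rw [Finset.sum_const, Finset.card_univ, nsmul_eq_mul]; ring

end Count

section Real

/-- cast of integer coordinates to real coordinates -/
def nbR (x : Idx m → ℤ) : Idx m → ℝ := cmap (Int.castRingHom ℝ) x

@[simp] theorem nbR_apply (x : Idx m → ℤ) (p : Idx m) : nbR x p = (x p : ℝ) := rfl

theorem nb_mat_le (X Y : Matrix (Fin m) (Fin m) ℝ) (i j : Fin m) (c : ℝ)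
    (h : ∀ k, |X i k * Y k j| ≤ c) : |(X * Y) i j| ≤ m * c := by
  rw [Matrix.mul_apply]
  refine (Finset.abs_sum_le_sum_abs _ _).trans ?_
  refine (Finset.sum_le_card_nsmul _ _ c fun k _ => h k).trans ?_
  rw [Finset.card_univ, Fintype.card_fin, nsmul_eq_mul]

theorem nb_nmul_le (x y : Idx m → ℝ) (p : Idx m) (c : ℝ)
    (h : ∀ k, |toMat x p.1.1 k * toMat y k p.1.2| ≤ c) : |nmul x y p| ≤ m * c :=
  nb_mat_le _ _ _ _ c h

theorem nb_ract_le (mu bet : Idx m → ℝ) (p : Idx m) (c : ℝ)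
    (h : ∀ k, |toMat mu p.1.1 k * toMat bet p.1.2 k| ≤ c) : |ract mu bet p| ≤ m * c :=
  nb_mat_le _ _ _ _ c h

theorem nb_pr_le (l x : Idx m → ℝ) (c : ℝ) (h : ∀ p, |l p * x p| ≤ c) :
    |pr l x| ≤ Fintype.card (Idx m) * c := by
  unfold pr
  refine (Finset.abs_sum_le_sum_abs _ _).trans ?_
  refine (Finset.sum_le_card_nsmul _ _ c fun k _ => h k).trans ?_
  rw [Finset.card_univ, nsmul_eq_mul]

theorem nb_toMat_le (x : Idx m → ℝ) (a : ℝ) (ha : 0 ≤ a) (h : ∀ p, |x p| ≤ a) (i j : Fin m) :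
    |toMat x i j| ≤ a := by
  by_cases hij : i < j
  · rw [toMat_apply_lt x hij]; exact h _
  · rw [toMat_apply_not_lt x hij, abs_zero]; exact ha

/-! unweighted bounds -/

theorem nb_nmul_le' (x y : Idx m → ℝ) (a b : ℝ) (ha : 0 ≤ a) (hb : 0 ≤ b) (hx : ∀ p, |x p| ≤ a)
    (hy : ∀ p, |y p| ≤ b) (p : Idx m) : |nmul x y p| ≤ m * (a * b) := by
  refine nb_nmul_le x y p _ fun k => ?_
  rw [abs_mul]
  exact mul_le_mul (nb_toMat_le x a ha hx _ _) (nb_toMat_le y b hb hy _ _) (abs_nonneg _) ha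

theorem nb_ract_le' (x y : Idx m → ℝ) (a b : ℝ) (ha : 0 ≤ a) (hb : 0 ≤ b) (hx : ∀ p, |x p| ≤ a)
    (hy : ∀ p, |y p| ≤ b) (p : Idx m) : |ract x y p| ≤ m * (a * b) := by
  refine nb_ract_le x y p _ fun k => ?_
  rw [abs_mul]
  exact mul_le_mul (nb_toMat_le x a ha hx _ _) (nb_toMat_le y b hb hy _ _) (abs_nonneg _) ha

theorem nb_pr_le' (x y : Idx m → ℝ) (a b : ℝ) (ha : 0 ≤ a) (hx : ∀ p, |x p| ≤ a)
    (hy : ∀ p, |y p| ≤ b) : |pr x y| ≤ Fintype.card (Idx m) * (a * b) := by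
  refine nb_pr_le x y _ fun k => ?_
  rw [abs_mul]
  exact mul_le_mul (hx _) (hy _) (abs_nonneg _) ha

theorem nb_pow_le (X : Matrix (Fin m) (Fin m) ℝ) (a : ℝ) (ha : 0 ≤ a) (h : ∀ i j, |X i j| ≤ a)
    (k : ℕ) (i j : Fin m) : |(X ^ k) i j| ≤ (m * a) ^ k := by
  induction k generalizing i j with
  | zero =>
    rw [pow_zero, pow_zero, Matrix.one_apply]
    split_ifs <;> simp
  | succ k ih =>
    rw [pow_succ]
    refine (nb_mat_le _ _ i j ((m * a) ^ k * a) fun l => ?_).trans ?_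
    · rw [abs_mul]
      exact mul_le_mul (ih _ _) (h _ _) (abs_nonneg _) (by positivity)
    · rw [pow_succ]
      apply le_of_eq
      ring

theorem nb_ninv_le (x : Idx m → ℝ) (M : ℝ) (hM : 1 ≤ M) (hx : ∀ p, |x p| ≤ M) (p : Idx m) :
    |ninv x p| ≤ (m : ℝ) ^ (m + 1) * M ^ m := by
  have hm : 1 ≤ (m : ℝ) := by
    have : 0 < m := Fin.pos p.1.1
    exact_mod_cast this
  have hM0 : 0 ≤ M := by linarith
  have h1 : 1 ≤ (m : ℝ) * M := by nlinarith
  change |(∑ k ∈ Finset.range m, (-toMat x) ^ k) p.1.1 p.1.2| ≤ _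
  rw [Matrix.sum_apply]
  refine (Finset.abs_sum_le_sum_abs _ _).trans ?_
  have h2 : ∀ k ∈ Finset.range m, |((-toMat x) ^ k) p.1.1 p.1.2| ≤ ((m : ℝ) * M) ^ m := by
    intro k hk
    refine (nb_pow_le (-toMat x) M hM0 (fun i j => ?_) k _ _).trans ?_
    · rw [Matrix.neg_apply, abs_neg]
      exact nb_toMat_le x M hM0 hx i j
    · exact pow_le_pow_right₀ h1 (Finset.mem_range.1 hk).le
  refine (Finset.sum_le_card_nsmul _ _ _ h2).trans ?_
  rw [Finset.card_range, nsmul_eq_mul, mul_pow, pow_succ]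
  apply le_of_eq
  ring

theorem nbR_mul_lam (g h : EBar m ℤ) :
    nbR (g * h).lam = nbR g.lam + (nbR h.lam + ract (nbR h.lam) (nbR g.bet)) := by
  simp only [nbR, EBar.mul_lam, cmap_add, lact, cmap_ract]

theorem nbR_mul_bet (g h : EBar m ℤ) :
    nbR (g * h).bet = nbR g.bet + nbR h.bet + nmul (nbR g.bet) (nbR h.bet) := by
  simp only [nbR, EBar.mul_bet, circ, cmap_add, cmap_nmul]

theorem nbR_coc (g h : EBar m ℤ) : ((EBar.coc g h : ℤ) : ℝ) = pr (nbR h.lam) (nbR g.bet) :=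
  (pr_cmap (Int.castRingHom ℝ) h.lam g.bet).symm

theorem nbR_inv_bet (g : EBar m ℤ) : nbR g⁻¹.bet = ninv (nbR g.bet) := by
  simp only [nbR, EBar.inv_bet, cmap_ninv]

theorem nbR_inv_lam (g : EBar m ℤ) :
    nbR g⁻¹.lam = -(nbR g.lam + ract (nbR g.lam) (ninv (nbR g.bet))) := by
  simp only [nbR, EBar.inv_lam, cmap_neg, lact, cmap_add, cmap_ract, cmap_ninv]

theorem EBar.CBound.mono {g : EBar m ℤ} {M M' : ℝ} (h : g.CBound M) (hM : M ≤ M') :
    g.CBound M' :=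
  ⟨fun p => (h.1 p).trans hM, fun p => (h.2 p).trans hM⟩

theorem nb_ebar_mul (g h : EBar m ℤ) (M : ℝ) (hM : 1 ≤ M) (hg : g.CBound M) (hh : h.CBound M) :
    (g * h).CBound (((m : ℝ) + 2) * M ^ 2) := by
  have hM0 : 0 ≤ M := by linarith
  have hMM : M ≤ M ^ 2 := by nlinarith
  constructor
  · intro p
    have e : (((g * h).lam p : ℤ) : ℝ) = nbR (g * h).lam p := rfl
    rw [e, nbR_mul_lam]
    simp only [Pi.add_apply, nbR_apply]
    have h1 := nb_ract_le' (nbR h.lam) (nbR g.bet) M M hM0 hM0 hh.1 hg.2 p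
    have h2 := hg.1 p
    have h3 := hh.1 p
    have h4 := abs_add_le ((g.lam p : ℝ)) ((h.lam p : ℝ) + ract (nbR h.lam) (nbR g.bet) p)
    have h5 := abs_add_le ((h.lam p : ℝ)) (ract (nbR h.lam) (nbR g.bet) p)
    nlinarith
  · intro p
    have e : (((g * h).bet p : ℤ) : ℝ) = nbR (g * h).bet p := rfl
    rw [e, nbR_mul_bet]
    simp only [Pi.add_apply, nbR_apply]
    have h1 := nb_nmul_le' (nbR g.bet) (nbR h.bet) M M hM0 hM0 hg.2 hh.2 p
    have h2 := hg.2 p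
    have h3 := hh.2 p
    have h4 := abs_add_le ((g.bet p : ℝ) + (h.bet p : ℝ)) (nmul (nbR g.bet) (nbR h.bet) p)
    have h5 := abs_add_le ((g.bet p : ℝ)) ((h.bet p : ℝ))
    nlinarith

theorem nb_ebar_inv (g : EBar m ℤ) (M : ℝ) (hM : 1 ≤ M) (hg : g.CBound M) :
    g⁻¹.CBound ((1 + (m : ℝ) * (m : ℝ) ^ (m + 1)) * M ^ (m + 1)) := by
  have hM0 : 0 ≤ M := by linarith
  have hMm : M ≤ M ^ (m + 1) := by
    calc M = M ^ 1 := (pow_one M).symm
      _ ≤ M ^ (m + 1) := pow_le_pow_right₀ hM (by omega)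
  have hn := nb_ninv_le (nbR g.bet) M hM hg.2
  have hC : (0 : ℝ) ≤ (m : ℝ) ^ (m + 1) * M ^ m := by positivity
  constructor
  · intro p
    have e : ((g⁻¹.lam p : ℤ) : ℝ) = nbR g⁻¹.lam p := rfl
    rw [e, nbR_inv_lam]
    simp only [Pi.neg_apply, Pi.add_apply, nbR_apply, abs_neg]
    have h1 := nb_ract_le' (nbR g.lam) (ninv (nbR g.bet)) M _ hM0 hC hg.1 hn p
    have h2 := hg.1 p
    have h4 := abs_add_le ((g.lam p : ℝ)) (ract (nbR g.lam) (ninv (nbR g.bet)) p)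
    have e2 : (m : ℝ) * (M * ((m : ℝ) ^ (m + 1) * M ^ m))
        = (m : ℝ) * (m : ℝ) ^ (m + 1) * M ^ (m + 1) := by ring
    rw [e2] at h1
    linarith
  · intro p
    have hm : 1 ≤ (m : ℝ) := by
      have : 0 < m := Fin.pos p.1.1
      exact_mod_cast this
    have e : ((g⁻¹.bet p : ℤ) : ℝ) = nbR g⁻¹.bet p := rfl
    rw [e, nbR_inv_bet]
    refine (hn p).trans ?_
    have h1 : M ^ m ≤ M ^ (m + 1) := pow_le_pow_right₀ hM (by omega)
    have h2 : (0 : ℝ) ≤ (m : ℝ) ^ (m + 1) := by positivity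
    have h3 : (0 : ℝ) ≤ M ^ (m + 1) := by positivity
    calc (m : ℝ) ^ (m + 1) * M ^ m ≤ (m : ℝ) ^ (m + 1) * M ^ (m + 1) := by gcongr
      _ ≤ (1 + (m : ℝ) * (m : ℝ) ^ (m + 1)) * M ^ (m + 1) := by
        apply mul_le_mul_of_nonneg_right _ h3
        nlinarith

theorem nb_deck_mul (g h : Deck m ℤ) (M : ℝ) (hM : 1 ≤ M) (hg : g.CBound M) (hh : h.CBound M) :
    (g * h).CBound (((m : ℝ) + 2 * Fintype.card (Idx m) + 2) * M ^ 2) := by
  have hM0 : 0 ≤ M := by linarith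
  have hMM : M ≤ M ^ 2 := by nlinarith
  have hM2 : 0 ≤ M ^ 2 := by positivity
  have hn : (0 : ℝ) ≤ Fintype.card (Idx m) := by positivity
  have hle : ((m : ℝ) + 2) * M ^ 2 ≤ ((m : ℝ) + 2 * Fintype.card (Idx m) + 2) * M ^ 2 := by
    nlinarith
  refine ⟨(nb_ebar_mul _ _ M hM hg.1 hh.1).mono hle, (nb_ebar_mul _ _ M hM hg.2.1 hh.2.1).mono hle,
    ?_⟩
  rw [Deck.mul_z]
  push_cast
  rw [nbR_coc, nbR_coc]
  have h1 := nb_pr_le' (nbR h.gX.lam) (nbR g.gX.bet) M M hM0 hh.1.1 hg.1.2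
  have h2 := nb_pr_le' (nbR h.gY.lam) (nbR g.gY.bet) M M hM0 hh.2.1.1 hg.2.1.2
  have h3 := hg.2.2
  have h4 := hh.2.2
  have hm : (0 : ℝ) ≤ m := by positivity
  rw [abs_le] at h1 h2 h3 h4 ⊢
  constructor <;> nlinarith

theorem nb_deck_inv (g : Deck m ℤ) (M : ℝ) (hM : 1 ≤ M) (hg : g.CBound M) :
    g⁻¹.CBound ((1 + (m : ℝ) * (m : ℝ) ^ (m + 1)
      + 2 * Fintype.card (Idx m) * (m : ℝ) ^ (m + 1)) * M ^ (m + 1)) := by
  have hM0 : 0 ≤ M := by linarith
  have hMm : M ≤ M ^ (m + 1) := by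
    calc M = M ^ 1 := (pow_one M).symm
      _ ≤ M ^ (m + 1) := pow_le_pow_right₀ hM (by omega)
  have hM2 : 0 ≤ M ^ (m + 1) := by positivity
  have hn : (0 : ℝ) ≤ Fintype.card (Idx m) := by positivity
  have hmm : (0 : ℝ) ≤ (m : ℝ) ^ (m + 1) := by positivity
  have hle : (1 + (m : ℝ) * (m : ℝ) ^ (m + 1)) * M ^ (m + 1)
      ≤ (1 + (m : ℝ) * (m : ℝ) ^ (m + 1)
        + 2 * Fintype.card (Idx m) * (m : ℝ) ^ (m + 1)) * M ^ (m + 1) := by
    apply mul_le_mul_of_nonneg_right _ hM2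
    nlinarith [mul_nonneg hn hmm]
  refine ⟨(nb_ebar_inv _ M hM hg.1).mono hle, (nb_ebar_inv _ M hM hg.2.1).mono hle, ?_⟩
  rw [Deck.inv_z]
  push_cast
  rw [nbR_coc, nbR_coc, nbR_inv_bet, nbR_inv_bet]
  have h1 := nb_pr_le' (nbR g.gX.lam) (ninv (nbR g.gX.bet)) M _ hM0 hg.1.1
    (nb_ninv_le (nbR g.gX.bet) M hM hg.1.2)
  have h2 := nb_pr_le' (nbR g.gY.lam) (ninv (nbR g.gY.bet)) M _ hM0 hg.2.1.1
    (nb_ninv_le (nbR g.gY.bet) M hM hg.2.1.2)
  have h3 := hg.2.2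
  have e2 : (Fintype.card (Idx m) : ℝ) * (M * ((m : ℝ) ^ (m + 1) * M ^ m))
      = (Fintype.card (Idx m) : ℝ) * (m : ℝ) ^ (m + 1) * M ^ (m + 1) := by ring
  rw [e2] at h1 h2
  have hm : (0 : ℝ) ≤ (m : ℝ) * (m : ℝ) ^ (m + 1) * M ^ (m + 1) := by positivity
  rw [abs_le] at h1 h2 h3 ⊢
  constructor <;> nlinarith


/-! weighted bounds -/

theorem nb_nmul_w (x y : Idx m → ℝ) (T M : ℝ) (hT : 1 ≤ T) (hM : 0 ≤ M)
    (hx : ∀ p, |x p| ≤ T ^ wtB p) (hy : ∀ p, |y p| ≤ M) (p : Idx m) :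
    |nmul x y p| ≤ m * (M * T ^ (wtB p - 1)) := by
  have hT0 : 0 ≤ T := by linarith
  refine nb_nmul_le x y p _ fun k => ?_
  by_cases h1 : p.1.1 < k
  · by_cases h2 : k < p.1.2
    · rw [toMat_apply_lt x h1, toMat_apply_lt y h2, abs_mul, mul_comm]
      refine mul_le_mul (hy _) ((hx _).trans ?_) (abs_nonneg _) hM
      apply pow_le_pow_right₀ hT
      have h1' : (p.1.1 : ℕ) < k := h1
      have h2' : (k : ℕ) < p.1.2 := h2
      simp only [wtB]
      omega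
    · rw [toMat_apply_not_lt y h2, mul_zero, abs_zero]; positivity
  · rw [toMat_apply_not_lt x h1, zero_mul, abs_zero]; positivity

theorem nb_ract_w (mu bet : Idx m → ℝ) (T M : ℝ) (hT : 1 ≤ T) (hM : 0 ≤ M)
    (hmu : ∀ p, |mu p| ≤ M) (hb : ∀ p, |bet p| ≤ T ^ wtB p) (p : Idx m) :
    |ract mu bet p| ≤ m * (M * T ^ (wtL p - 1)) := by
  have hT0 : 0 ≤ T := by linarith
  refine nb_ract_le mu bet p _ fun k => ?_
  by_cases h2 : p.1.2 < k
  · rw [toMat_apply_lt bet h2, abs_mul]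
    refine mul_le_mul (nb_toMat_le mu M hM hmu _ _) ((hb _).trans ?_) (abs_nonneg _) hM
    apply pow_le_pow_right₀ hT
    have h1' : (p.1.1 : ℕ) < p.1.2 := p.2
    have h2' : (p.1.2 : ℕ) < k := h2
    have h3 := k.2
    simp only [wtB, wtL]
    omega
  · rw [toMat_apply_not_lt bet h2, mul_zero, abs_zero]; positivity

theorem nb_pr_w (l x : Idx m → ℝ) (T M : ℝ) (hT : 1 ≤ T) (hM : 0 ≤ M)
    (hl : ∀ p, |l p| ≤ M) (hx : ∀ p, |x p| ≤ T ^ wtB p) :
    |pr l x| ≤ Fintype.card (Idx m) * (M * T ^ m) := by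
  refine nb_pr_le l x _ fun p => ?_
  rw [abs_mul]
  refine mul_le_mul (hl p) ((hx p).trans ?_) (abs_nonneg _) hM
  exact pow_le_pow_right₀ hT (wtB_lt p).le

theorem nb_ebar_lam_w (f g : EBar m ℤ) (T M : ℝ) (hT : 1 ≤ T) (hM : 0 ≤ M)
    (hf : ∀ p, |(f.bet p : ℝ)| ≤ T ^ wtB p) (hg : g.CBound M) (p : Idx m) :
    |(((f * g).lam p : ℤ) : ℝ) - f.lam p| ≤ ((m : ℝ) + 1) * (M * T ^ (wtL p - 1)) := by
  have e : (((f * g).lam p : ℤ) : ℝ) = nbR (f * g).lam p := rfl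
  rw [e, nbR_mul_lam]
  simp only [Pi.add_apply, nbR_apply, add_sub_cancel_left]
  have h1 := nb_ract_w (nbR g.lam) (nbR f.bet) T M hT hM hg.1 hf p
  have h2 := hg.1 p
  have h3 := abs_add_le ((g.lam p : ℝ)) (ract (nbR g.lam) (nbR f.bet) p)
  have h4 : M ≤ M * T ^ (wtL p - 1) := le_mul_of_one_le_right hM (one_le_pow₀ hT)
  linarith

theorem nb_ebar_bet_w (f g : EBar m ℤ) (T M : ℝ) (hT : 1 ≤ T) (hM : 0 ≤ M)
    (hf : ∀ p, |(f.bet p : ℝ)| ≤ T ^ wtB p) (hg : g.CBound M) (p : Idx m) :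
    |(((f * g).bet p : ℤ) : ℝ) - f.bet p| ≤ ((m : ℝ) + 1) * (M * T ^ (wtB p - 1)) := by
  have e : (((f * g).bet p : ℤ) : ℝ) = nbR (f * g).bet p := rfl
  rw [e, nbR_mul_bet]
  simp only [Pi.add_apply, nbR_apply]
  have h1 := nb_nmul_w (nbR f.bet) (nbR g.bet) T M hT hM hf hg.2 p
  have h2 := hg.2 p
  have h3 := abs_add_le ((g.bet p : ℝ)) (nmul (nbR f.bet) (nbR g.bet) p)
  have h4 : M ≤ M * T ^ (wtB p - 1) := le_mul_of_one_le_right hM (one_le_pow₀ hT)
  have e2 : (f.bet p : ℝ) + (g.bet p : ℝ) + nmul (nbR f.bet) (nbR g.bet) p - (f.bet p : ℝ)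
      = (g.bet p : ℝ) + nmul (nbR f.bet) (nbR g.bet) p := by ring
  rw [e2]
  linarith

theorem nb_deck_z_w (f g : Deck m ℤ) (T M : ℝ) (hT : 1 ≤ T) (hM : 0 ≤ M)
    (hfX : ∀ p, |(f.gX.bet p : ℝ)| ≤ T ^ wtB p) (hfY : ∀ p, |(f.gY.bet p : ℝ)| ≤ T ^ wtB p)
    (hg : g.CBound M) :
    |(((f * g).z : ℤ) : ℝ) - f.z| ≤ (2 * (Fintype.card (Idx m) : ℝ) + 1) * (M * T ^ m) := by
  rw [Deck.mul_z]
  push_cast
  rw [nbR_coc, nbR_coc]
  have h1 := nb_pr_w (nbR g.gX.lam) (nbR f.gX.bet) T M hT hM hg.1.1 hfX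
  have h2 := nb_pr_w (nbR g.gY.lam) (nbR f.gY.bet) T M hT hM hg.2.1.1 hfY
  have h3 := hg.2.2
  have h4 : M ≤ M * T ^ m := le_mul_of_one_le_right hM (one_le_pow₀ hT)
  rw [abs_le] at h1 h2 h3 ⊢
  constructor <;> linarith

end Real

/-! the coordinates of the deck group -/

/-- index set of all coordinates -/
abbrev NbJ (m : ℕ) := ((Idx m ⊕ Idx m) ⊕ (Idx m ⊕ Idx m)) ⊕ Unit

/-- coordinates -/
def nbE : Deck m ℤ ≃ (NbJ m → ℤ) where
  toFun f := Sum.elim (Sum.elim (Sum.elim f.gX.lam f.gX.bet) (Sum.elim f.gY.lam f.gY.bet))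
    (fun _ => f.z)
  invFun u := ⟨⟨fun p => u (.inl (.inl (.inl p))), fun p => u (.inl (.inl (.inr p)))⟩,
    ⟨fun p => u (.inl (.inr (.inl p))), fun p => u (.inl (.inr (.inr p)))⟩, u (.inr ())⟩
  left_inv f := rfl
  right_inv u := by
    funext j
    rcases j with ((p | p) | (p | p)) | u <;> rfl

/-- weights -/
def nbWt : NbJ m → ℕ := Sum.elim (Sum.elim (Sum.elim wtL wtB) (Sum.elim wtL wtB)) (fun _ => m + 1)

theorem nbWt_pos (j : NbJ m) : 1 ≤ nbWt j := by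
  rcases j with ((p | p) | (p | p)) | u
  · exact wtL_pos p
  · exact wtB_pos p
  · exact wtL_pos p
  · exact wtB_pos p
  · exact Nat.succ_le_succ (Nat.zero_le _)

theorem nbWt_le (j : NbJ m) : nbWt j ≤ m + 1 := by
  rcases j with ((p | p) | (p | p)) | u
  · exact (wtL_lt p).le.trans (Nat.le_succ _)
  · exact (wtB_lt p).le.trans (Nat.le_succ _)
  · exact (wtL_lt p).le.trans (Nat.le_succ _)
  · exact (wtB_lt p).le.trans (Nat.le_succ _)
  · exact le_rfl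

theorem nb_card_J : Fintype.card (NbJ m) = 4 * Fintype.card (Idx m) + 1 := by
  simp only [Fintype.card_sum, Fintype.card_unit]
  ring

/-- displacement of the coordinates under right multiplication -/
theorem nb_disp (T M : ℕ) (hT : 1 ≤ T) (g : Deck m ℤ) (hg : g.CBound (M : ℝ))
    (u : NbJ m → ℤ) (hu : u ∈ nbBox fun j => T ^ nbWt j) (j : NbJ m) :
    |nbE (nbE.symm u * g) j - u j|
      ≤ (((m + 2 * Fintype.card (Idx m) + 1) * M * T ^ (nbWt j - 1) : ℕ) : ℤ) := by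
  rw [mem_nbBox] at hu
  have hTR : (1 : ℝ) ≤ (T : ℝ) := by exact_mod_cast hT
  have hMR : (0 : ℝ) ≤ (M : ℝ) := by positivity
  set f : Deck m ℤ := nbE.symm u with hf
  have hfX : ∀ p, |(f.gX.bet p : ℝ)| ≤ (T : ℝ) ^ wtB p := by
    intro p
    have := hu (.inl (.inl (.inr p)))
    exact_mod_cast this
  have hfY : ∀ p, |(f.gY.bet p : ℝ)| ≤ (T : ℝ) ^ wtB p := by
    intro p
    have := hu (.inl (.inr (.inr p)))
    exact_mod_cast this
  have hn : (0 : ℝ) ≤ Fintype.card (Idx m) := by positivity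
  have hm : (0 : ℝ) ≤ m := by positivity
  have key : |((nbE (f * g) j - u j : ℤ) : ℝ)|
      ≤ ((m : ℝ) + 2 * Fintype.card (Idx m) + 1) * (M * (T : ℝ) ^ (nbWt j - 1)) := by
    have hpos : ∀ w : ℕ, (0 : ℝ) ≤ M * (T : ℝ) ^ w := fun w => by positivity
    rcases j with ((p | p) | (p | p)) | v
    · have := nb_ebar_lam_w f.gX g.gX T M hTR hMR hfX hg.1 p
      push_cast
      refine this.trans ?_
      apply mul_le_mul_of_nonneg_right _ (hpos _)
      linarith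
    · have := nb_ebar_bet_w f.gX g.gX T M hTR hMR hfX hg.1 p
      push_cast
      refine this.trans ?_
      apply mul_le_mul_of_nonneg_right _ (hpos _)
      linarith
    · have := nb_ebar_lam_w f.gY g.gY T M hTR hMR hfY hg.2.1 p
      push_cast
      refine this.trans ?_
      apply mul_le_mul_of_nonneg_right _ (hpos _)
      linarith
    · have := nb_ebar_bet_w f.gY g.gY T M hTR hMR hfY hg.2.1 p
      push_cast
      refine this.trans ?_
      apply mul_le_mul_of_nonneg_right _ (hpos _)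
      linarith
    · have := nb_deck_z_w f g T M hTR hMR hfX hfY hg
      push_cast
      refine this.trans ?_
      apply mul_le_mul_of_nonneg_right _ (hpos _)
      linarith
  have key2 : ((|nbE (f * g) j - u j| : ℤ) : ℝ)
      ≤ ((((m + 2 * Fintype.card (Idx m) + 1) * M * T ^ (nbWt j - 1) : ℕ) : ℤ) : ℝ) := by
    push_cast
    push_cast at key
    linarith
  exact_mod_cast key2

/-- **Foelner boxes** (KK Lemma 9.3(a)). -/
theorem nil_box (m a B : ℕ) : ∃ (c : ℕ) (Cc : ℝ), ∀ x : ℕ, 2 ≤ x →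
    ∃ Bx : Finset (Deck m ℤ), Bx.Nonempty ∧ (Bx.card : ℝ) ≤ (x : ℝ) ^ c ∧
      ∀ g : Deck m ℤ, g.CBound ((x : ℝ) ^ a) →
        ((Bx.filter fun f => f * g ∉ Bx).card : ℝ) ≤ Cc * ((x : ℝ) ^ B)⁻¹ * Bx.card := by
  classical
  obtain ⟨K, hK⟩ : ∃ K : ℕ, K = m + 2 * Fintype.card (Idx m) + 1 := ⟨_, rfl⟩
  refine ⟨(2 + (a + B) * (m + 1)) * Fintype.card (NbJ m), Fintype.card (NbJ m) * K, ?_⟩
  intro x hx
  obtain ⟨T, hT⟩ : ∃ T : ℕ, T = x ^ (a + B) := ⟨_, rfl⟩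
  obtain ⟨M, hM⟩ : ∃ M : ℕ, M = x ^ a := ⟨_, rfl⟩
  have hx0 : 0 < x := by omega
  have hT1 : 1 ≤ T := by rw [hT]; exact Nat.one_le_pow _ _ hx0
  obtain ⟨R, hR⟩ : ∃ R : NbJ m → ℕ, R = fun j => T ^ nbWt j := ⟨_, rfl⟩
  refine ⟨(nbBox R).map nbE.symm.toEmbedding, (nbBox_nonempty R).map, ?_, ?_⟩
  · rw [Finset.card_map, card_nbBox]
    have h1 : ∀ j ∈ (Finset.univ : Finset (NbJ m)), 2 * R j + 1 ≤ x ^ (2 + (a + B) * (m + 1)) := by
      intro j _
      have h2 : R j ≤ T ^ (m + 1) := by rw [hR]; exact Nat.pow_le_pow_right hT1 (nbWt_le j)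
      have h3 : 1 ≤ T ^ (m + 1) := Nat.one_le_pow _ _ hT1
      have h4 : 3 ≤ x ^ 2 := by nlinarith
      calc 2 * R j + 1 ≤ 3 * T ^ (m + 1) := by omega
        _ ≤ x ^ 2 * T ^ (m + 1) := Nat.mul_le_mul_right _ h4
        _ = x ^ (2 + (a + B) * (m + 1)) := by rw [hT, ← pow_mul, ← pow_add]
    have h5 := Finset.prod_le_pow_card Finset.univ (fun j => 2 * R j + 1) _ h1
    rw [Finset.card_univ, ← pow_mul] at h5
    exact_mod_cast h5
  · intro g hg
    have hg' : g.CBound ((M : ℕ) : ℝ) := by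
      rw [hM]; push_cast; exact hg
    have hfil : (((nbBox R).map nbE.symm.toEmbedding).filter
          fun f => f * g ∉ (nbBox R).map nbE.symm.toEmbedding).card
        = ((nbBox R).filter fun u => nbE (nbE.symm u * g) ∉ nbBox R).card := by
      rw [Finset.filter_map, Finset.card_map]
      congr 1
      refine Finset.filter_congr fun u _ => ?_
      simp only [Function.comp_apply, Equiv.coe_toEmbedding, Finset.mem_map_equiv, Equiv.symm_symm]
    rw [hfil, Finset.card_map]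
    have hxR : (0 : ℝ) < (x : ℝ) := by exact_mod_cast hx0
    have hdisp : ∀ u ∈ nbBox R, ∀ j, |nbE (nbE.symm u * g) j - u j|
        ≤ ((K * M * T ^ (nbWt j - 1) : ℕ) : ℤ) := by
      intro u hu j
      rw [hR] at hu
      rw [hK]
      exact nb_disp T M hT1 g hg' u hu j
    have key := nb_folner R (fun j => K * M * T ^ (nbWt j - 1)) (fun u => nbE (nbE.symm u * g))
      hdisp ((K : ℝ) * ((x : ℝ) ^ B)⁻¹) (by positivity) ?_
    · refine key.trans (le_of_eq ?_)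
      ring
    · intro j
      obtain ⟨w, hw⟩ : ∃ w, nbWt j = w + 1 := ⟨nbWt j - 1, by have := nbWt_pos j; omega⟩
      simp only [hR, hw, Nat.add_sub_cancel]
      apply le_of_eq
      rw [hT, hM]
      push_cast
      rw [pow_succ ((x : ℝ) ^ (a + B)) w, pow_add (x : ℝ) a B]
      field_simp

theorem nil_ebar_cbound_mul (m : ℕ) : ∃ Cm : ℝ, ∀ (g h : EBar m ℤ) (M : ℝ), 1 ≤ M →
    g.CBound M → h.CBound M → (g * h).CBound (Cm * M ^ 2) :=
  ⟨_, fun g h M hM hg hh => nb_ebar_mul g h M hM hg hh⟩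

theorem nil_ebar_cbound_inv (m : ℕ) : ∃ (Cm : ℝ) (k : ℕ), ∀ (g : EBar m ℤ) (M : ℝ), 1 ≤ M →
    g.CBound M → g⁻¹.CBound (Cm * M ^ k) :=
  ⟨_, _, fun g M hM hg => nb_ebar_inv g M hM hg⟩

theorem nil_cbound_mul (m : ℕ) : ∃ Cm : ℝ, ∀ (g h : Deck m ℤ) (M : ℝ), 1 ≤ M →
    g.CBound M → h.CBound M → (g * h).CBound (Cm * M ^ 2) :=
  ⟨_, fun g h M hM hg hh => nb_deck_mul g h M hM hg hh⟩

theorem nil_cbound_inv (m : ℕ) : ∃ (Cm : ℝ) (k : ℕ), ∀ (g : Deck m ℤ) (M : ℝ), 1 ≤ M →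
    g.CBound M → g⁻¹.CBound (Cm * M ^ k) :=
  ⟨_, _, fun g M hM hg => nb_deck_inv g M hM hg⟩

end Claimed.Agent.R300.Nil
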