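import Claimed.Agent.R300.SmpRank

/-!
# KK Section 8, leaf NIL-PIVOT: bounded pivot words (graph part of Lemma 8.2, simplified)

Dart graphs `HeisLaw.HlGraph`.  `W` nonempty cyclically reduced closed walk, `|W| ≤ C g`, every nonempty
cyclically reduced closed walk inside the support of `W` is longer than `g`.
CLAIM: there is an `inv`-invariant set of darts `piv` such that the subword `W.filter piv` is nonempty,
reduced, and of length `≤ nilL C`.

PLAN (no arcs, no suppression of degree 2 vertices).
(0) A nonempty REDUCED closed walk contains (as an infix) a nonempty CYCLICALLY reduced closed walk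
    (strip `d ... inv d`), so it is longer than `g` too.
(1) First-visit tree: a dart occurrence `W[t]` is a TREE step if its undirected edge was not used before and
    its target was not visited before (and is not the base point); `piv d` := the undirected edge of `d` is in
    the support and is not a tree edge.
(2) No nonempty reduced closed walk uses only tree edges: by (0) take it cyclically reduced, look at its
    vertex of maximal first-visit time: both neighbouring edges are its parent edge: backtrack or loop.
    Hence (a) `W.filter piv ≠ []`; (b) `W.filter piv` is reduced: between two consecutive pivot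
    crossings `d`, `inv d` the walk is a reduced closed walk in the tree, so empty, so `W` backtracks.
(3) Every undirected edge is crossed at most `C` times by `W`: two consecutive crossings bound a nonempty
    reduced closed subwalk (same direction: `W[t, t')`; opposite: `W(t, t')`), so `t' - t > g`.
(4) Number of pivot edges `≤ smpB C`: EITHER `smp_rank_bound` (applied to the graph restricted to the support)
    plus `#tree edges = #vertices - 1`; OR directly: cut time into `r ≤ 2 C + 3` windows of length `≤ g / 2`; each window is
    a simple path; two reduced walks with the same end points and total length `≤ g` are equal; so a pivot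
    discovery in window `j` (new edge into an old vertex) can be charged injectively to an earlier window `i < j`
    containing that vertex: `#pivots ≤ r ^ 2`.   (`g ≤ 1` is trivial: `|W| ≤ C`, take all darts of the support.)
-/

set_option autoImplicit false

namespace Claimed.Agent.R300.Nil

open HeisLaw

universe u v

/-- bound for the length of the pivot word -/
def nilL (C : ℕ) : ℕ := (smpB C + 1) * (C + 1)

/-! ### Lists -/

section Lists

variable {α : Type*}

lemma nilpv_split_first (p : α → Prop) : ∀ l : List α, (∃ x ∈ l, p x) →
    ∃ U e B, l = U ++ e :: B ∧ p e ∧ ∀ u ∈ U, ¬ p u := by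
  classical
  intro l
  induction l with
  | nil => rintro ⟨x, hx, -⟩; simp at hx
  | cons y l ih =>
    rintro ⟨x, hx, hpx⟩
    by_cases hy : p y
    · exact ⟨[], y, l, rfl, hy, by simp⟩
    · have hex : ∃ x ∈ l, p x := by
        rcases List.mem_cons.1 hx with rfl | h
        · exact absurd hpx hy
        · exact ⟨x, h, hpx⟩
      obtain ⟨U, e, B, rfl, he, hU⟩ := ih hex
      refine ⟨y :: U, e, B, rfl, he, ?_⟩
      intro u hu
      rcases List.mem_cons.1 hu with rfl | h
      · exact hy
      · exact hU u h

lemma nilpv_chain_filter (R : α → α → Prop) (p : α → Bool) (l : List α)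
    (h : ∀ A d U d' B, l = A ++ d :: (U ++ d' :: B) → p d = true → p d' = true →
      (∀ u ∈ U, ¬ p u = true) → R d d') :
    (l.filter p).IsChain R := by
  induction l with
  | nil => simp
  | cons x l ih =>
    have ih' := ih (fun A d U d' B hl => h (x :: A) d U d' B (by rw [hl]; rfl))
    by_cases hx : p x = true
    · rw [List.filter_cons_of_pos hx]
      cases hf : l.filter p with
      | nil => simp
      | cons y t =>
        rw [hf] at ih'
        rw [List.isChain_cons_cons]
        refine ⟨?_, ih'⟩
        obtain ⟨l₁, l₂, hl, h1, h2, -⟩ := List.filter_eq_cons_iff.1 hf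
        exact h [] x l₁ y l₂ (by rw [hl]; rfl) hx h2 h1
    · rw [List.filter_cons_of_neg hx]; exact ih'

end Lists

/-! ### Reversal -/

lemma nilpv_reduced_rev {V : Type u} {D : Type v} (G : HlGraph V D) {c : List D}
    (h : G.Reduced c) : G.Reduced (hlRev G c) := by
  unfold HlGraph.Reduced hlRev at *
  rw [List.isChain_reverse, List.isChain_map]
  refine h.imp fun d d' hdd hcon => hdd ?_
  have := G.inv_injective hcon
  rw [this, G.inv_inv]

/-! ### The tree has no reduced closed walks -/

section Tree

variable {V : Type u} {D : Type v} {G : HlGraph V D} [DecidableEq V] {v : V} {VS : Finset V}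
  {par : V → D} {dep : V → ℕ}

omit [DecidableEq V] in
lemma nilpv_down_or_up [DecidableEq V] (h : SmpTree G v VS par dep) {e : D}
    (he : smpIsT G v VS par e) :
    (e = par (G.tgt e) ∧ dep (G.tgt e) = dep (G.src e) + 1) ∨
      (e = G.inv (par (G.src e)) ∧ dep (G.src e) = dep (G.tgt e) + 1) := by
  obtain ⟨z, hz, hzv, rfl | rfl⟩ := he
  · left
    rw [h.tgt_par z hz hzv]
    exact ⟨rfl, h.dep_par z hz hzv⟩
  · right
    rw [HlGraph.src_inv, HlGraph.tgt_inv, h.tgt_par z hz hzv]
    exact ⟨rfl, h.dep_par z hz hzv⟩

/-- after a step away from the root a reduced walk in the tree goes on away from the root -/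
lemma nilpv_down_walk (h : SmpTree G v VS par dep) : ∀ (c : List D) (e : D) (y : V),
    G.IsWalk (G.src e) (e :: c) y → G.Reduced (e :: c) →
    (∀ d ∈ e :: c, smpIsT G v VS par d) → dep (G.tgt e) = dep (G.src e) + 1 →
    dep y = dep (G.src e) + (c.length + 1) := by
  intro c
  induction c with
  | nil =>
    intro e y hw _ _ hd
    rw [HlGraph.isWalk_cons, HlGraph.isWalk_nil] at hw
    rw [← hw.2, hd]; rfl
  | cons e' c ih =>
    intro e y hw hred ht hd
    rw [HlGraph.isWalk_cons] at hw
    have hw2 := hw.2
    have hs : G.src e' = G.tgt e := (HlGraph.isWalk_cons G).1 hw2 |>.1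
    unfold HlGraph.Reduced at hred
    rw [List.isChain_cons_cons] at hred
    have hte : smpIsT G v VS par e := ht e (by simp)
    have hte' : smpIsT G v VS par e' := ht e' (by simp)
    have he : e = par (G.tgt e) := by
      rcases nilpv_down_or_up h hte with h1 | h1
      · exact h1.1
      · omega
    rcases nilpv_down_or_up h hte' with h1 | h1
    · have := ih e' y (hs ▸ hw2) hred.2 (fun d hd' => ht d (List.mem_cons_of_mem _ hd')) h1.2
      rw [this, hs, hd, List.length_cons]; omega
    · exfalso
      apply hred.1
      rw [h1.1, hs, ← he]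

lemma nilpv_tree_acyclic (h : SmpTree G v VS par dep) : ∀ (n : ℕ) (c : List D) (x : V),
    c.length ≤ n → c ≠ [] → G.IsWalk x c x → G.Reduced c →
    (∀ d ∈ c, smpIsT G v VS par d) → False := by
  intro n
  induction n with
  | zero =>
    intro c x hn hc
    exact absurd (List.length_eq_zero_iff.mp (Nat.le_zero.mp hn)) hc
  | succ n ih =>
    intro c x hn hc hw hred ht
    cases c with
    | nil => exact hc rfl
    | cons e t =>
      have hsx : G.src e = x := ((HlGraph.isWalk_cons G).1 hw).1
      subst hsx
      rcases nilpv_down_or_up h (ht e (by simp)) with h1 | h1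
      · have := nilpv_down_walk h t e _ hw hred ht h1.2
        omega
      · rcases List.eq_nil_or_concat t with rfl | ⟨t', f, htf⟩
        · rw [HlGraph.isWalk_cons, HlGraph.isWalk_nil] at hw
          have := hw.2
          rw [this] at h1
          omega
        · rw [List.concat_eq_append] at htf
          subst htf
          have hw0 := hw
          rw [HlGraph.isWalk_cons, HlGraph.isWalk_append] at hw
          obtain ⟨-, c0, hw1, hw2⟩ := hw
          rw [HlGraph.isWalk_cons, HlGraph.isWalk_nil] at hw2
          obtain ⟨hf1, hf2⟩ := hw2
          have htf : smpIsT G v VS par f := ht f (by simp)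
          rcases nilpv_down_or_up h htf with h2 | h2
          · -- strip
            have hef : e = G.inv f := by rw [h1.1, h2.1, hf2]
            have hred1 : G.Reduced (t' ++ [f]) := List.IsChain.tail hred
            have hred2 : G.Reduced t' := (List.isChain_append.mp hred1).1
            have hc0 : c0 = G.tgt e := by rw [← hf1, hef, HlGraph.tgt_inv]
            rw [hc0] at hw1
            have hne : t' ≠ [] := by
              rintro rfl
              have h4 : G.Reduced [e, f] := hred
              unfold HlGraph.Reduced at h4
              rw [List.isChain_cons_cons] at h4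
              exact h4.1 (by rw [hef, G.inv_inv])
            refine ih t' (G.tgt e) ?_ hne hw1 hred2 (fun d hd => ht d (by simp [hd]))
            simp only [List.length_cons, List.length_append, List.length_nil] at hn
            omega
          · -- the reversed walk starts with a step away from the root
            have hrw := hlRev_walk hw0
            have hrr := nilpv_reduced_rev G hred
            have e1 : hlRev G (e :: (t' ++ [f])) = G.inv f :: hlRev G (e :: t') := by
              rw [← List.cons_append, hlRev_concat]
            rw [e1] at hrw hrr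
            have hs : G.src (G.inv f) = G.src e := by rw [HlGraph.src_inv, hf2]
            have := nilpv_down_walk h (hlRev G (e :: t')) (G.inv f) (G.src e) (hs ▸ hrw) hrr
              (by
                intro d hd
                rw [← e1, mem_hlRev] at hd
                exact smpIsT_inv.1 (ht _ hd))
              (by rw [HlGraph.src_inv, HlGraph.tgt_inv]; exact h2.2)
            rw [hs] at this
            omega

/-- the number of tree darts -/
lemma nilpv_card_tree [DecidableEq D] (h : SmpTree G v VS par dep) :
    ((VS.erase v).image par ∪ (VS.erase v).image (fun z => G.inv (par z))).card + 2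
      = 2 * VS.card := by
  have hinj : Set.InjOn par (VS.erase v : Finset V) := by
    intro x hx y hy hxy
    rw [Finset.mem_coe, Finset.mem_erase] at hx hy
    rw [← h.tgt_par x hx.2 hx.1, hxy, h.tgt_par y hy.2 hy.1]
  have hinj' : Set.InjOn (fun z => G.inv (par z)) (VS.erase v : Finset V) := by
    intro x hx y hy hxy
    exact hinj hx hy (G.inv_injective hxy)
  have hdisj : Disjoint ((VS.erase v).image par) ((VS.erase v).image (fun z => G.inv (par z))) := by
    rw [Finset.disjoint_left]
    intro e he he'
    obtain ⟨x, hx, rfl⟩ := Finset.mem_image.1 he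
    obtain ⟨y, hy, hxy⟩ := Finset.mem_image.1 he'
    rw [Finset.mem_erase] at hx hy
    have e1 : G.src (par y) = x := by
      rw [← h.tgt_par x hx.2 hx.1, ← hxy, HlGraph.tgt_inv]
    have e2 : G.src (par x) = y := by
      rw [← hxy, HlGraph.src_inv, h.tgt_par y hy.2 hy.1]
    have d1 := h.dep_par x hx.2 hx.1
    have d2 := h.dep_par y hy.2 hy.1
    rw [e2] at d1
    rw [e1] at d2
    omega
  rw [Finset.card_union_of_disjoint hdisj, Finset.card_image_of_injOn hinj,
    Finset.card_image_of_injOn hinj', Finset.card_erase_of_mem h.root]
  have : 0 < VS.card := Finset.card_pos.mpr ⟨v, h.root⟩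
  omega

end Tree

/-! ### Every edge is crossed rarely -/

lemma nilpv_cross {V : Type u} {D : Type v} (G : HlGraph V D) [DecidableEq D] (g : ℕ)
    (hshort : ∀ (x : V) (r : List D), r ≠ [] → G.IsWalk x r x → G.Reduced r → g < r.length)
    (d : D) : ∀ (n : ℕ) (L : List D) (x y : V), L.length ≤ n → G.IsWalk x L y → G.Reduced L →
      (L.count d + L.count (G.inv d)) * (g + 1) ≤ L.length + g := by
  intro n
  induction n with
  | zero =>
    intro L x y hn _ _
    rw [List.length_eq_zero_iff.mp (Nat.le_zero.mp hn)]
    simp
  | succ n ih =>
    intro L x y hn hw hred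
    cases L with
    | nil => simp
    | cons e L' =>
      have hn' : L'.length ≤ n := by simpa using hn
      have hw' := ((HlGraph.isWalk_cons G).1 hw).2
      have hred' : G.Reduced L' := List.IsChain.tail hred
      by_cases he : e = d ∨ e = G.inv d
      · have hone : (e :: L').count d + (e :: L').count (G.inv d)
            = 1 + (L'.count d + L'.count (G.inv d)) := by
          rcases he with rfl | rfl
          · rw [List.count_cons_self, List.count_cons_of_ne (G.ne_inv e)]; omega
          · rw [List.count_cons_self, List.count_cons_of_ne (G.inv_ne d)]; omega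
        rw [hone]
        by_cases hex : ∃ z ∈ L', z = d ∨ z = G.inv d
        · obtain ⟨U, e', B, rfl, he', hU⟩ := nilpv_split_first _ L' hex
          have cU1 : U.count d = 0 := List.count_eq_zero.2 fun hm => hU d hm (Or.inl rfl)
          have cU2 : U.count (G.inv d) = 0 := List.count_eq_zero.2 fun hm => hU _ hm (Or.inr rfl)
          rw [HlGraph.isWalk_append] at hw'
          obtain ⟨c0, hwU, hwB⟩ := hw'
          have hc0 : G.src e' = c0 := ((HlGraph.isWalk_cons G).1 hwB).1
          have hredB : G.Reduced (e' :: B) := (List.isChain_append.mp hred').2.1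
          have hredU : G.Reduced U := (List.isChain_append.mp hred').1
          have hee : e' = e ∨ e' = G.inv e := by
            rcases he with rfl | rfl <;> rcases he' with rfl | rfl
            · exact Or.inl rfl
            · exact Or.inr rfl
            · exact Or.inr (G.inv_inv _).symm
            · exact Or.inl rfl
          have hlenU : g < U.length + 1 := by
            rcases hee with rfl | rfl
            · have hr : G.Reduced (e' :: U) := by
                have : G.Reduced ((e' :: U) ++ e' :: B) := hred
                exact (List.isChain_append.mp this).1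
              have := hshort (G.src e') (e' :: U) (by simp) ⟨rfl, hc0 ▸ hwU⟩ hr
              simpa using this
            · have hUne : U ≠ [] := by
                rintro rfl
                have h4 : G.Reduced (e :: G.inv e :: B) := hred
                unfold HlGraph.Reduced at h4
                rw [List.isChain_cons_cons] at h4
                exact h4.1 rfl
              have hc1 : c0 = G.tgt e := by rw [← hc0, HlGraph.src_inv]
              have := hshort (G.tgt e) U hUne (hc1 ▸ hwU) hredU
              omega
          have IH := ih (e' :: B) c0 y (by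
            simp only [List.length_append, List.length_cons] at hn' ⊢; omega) hwB hredB
          rw [List.count_append, List.count_append, cU1, cU2, zero_add, zero_add]
          simp only [List.length_cons, List.length_append] at IH ⊢
          generalize (e' :: B).count d + (e' :: B).count (G.inv d) = K at IH ⊢
          have : (1 + K) * (g + 1) = (g + 1) + K * (g + 1) := by ring
          rw [this]
          omega
        · have c1 : L'.count d = 0 := List.count_eq_zero.2 fun hm => hex ⟨d, hm, Or.inl rfl⟩
          have c2 : L'.count (G.inv d) = 0 :=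
            List.count_eq_zero.2 fun hm => hex ⟨_, hm, Or.inr rfl⟩
          rw [c1, c2, List.length_cons]
          omega
      · rw [not_or] at he
        rw [List.count_cons_of_ne he.1, List.count_cons_of_ne he.2, List.length_cons]
        have := ih L' _ y hn' hw' hred'
        omega

/-! ### The statement when all darts belong to the support -/

theorem nilpv_core {V : Type u} {D : Type v} (G : HlGraph V D) (g C : ℕ) (a : V) (W : List D)
    (hW : G.IsWalk a W a) (hne : W ≠ []) (hred : G.Reduced W)
    (hgirth : ∀ (x : V) (c : List D), c ≠ [] → G.IsWalk x c x → G.CycRed c → g < c.length)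
    (hall : ∀ d, d ∈ W ∨ G.inv d ∈ W)
    (hlen : W.length ≤ C * g) :
    ∃ piv : D → Bool, (∀ d, piv (G.inv d) = piv d) ∧ W.filter piv ≠ [] ∧
      (W.filter piv).IsChain (fun d d' => d' ≠ G.inv d) ∧ (W.filter piv).length ≤ nilL C := by
  classical
  obtain ⟨d₀, -⟩ : ∃ d₀, d₀ ∈ W := List.exists_mem_of_ne_nil W hne
  obtain ⟨hrw, -⟩ := (smp_isWalk_iff G a a W).1 hW
  obtain ⟨par, dep, ht⟩ := smp_tree_exists G d₀ hrw
  rw [smpVSupp_reverse] at ht
  set VS := smpVSupp G a W with hVS
  have hshort : ∀ (x : V) (r : List D), r ≠ [] → G.IsWalk x r x → G.Reduced r → g < r.length := by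
    intro x r hr hw hrr
    obtain ⟨y, c, k1, k2, k3, k4⟩ := smp_cycRed_of_reduced G _ x r le_rfl hr hw hrr
    exact lt_of_lt_of_le (hgirth y c k1 k2 k3) k4
  have hpiv : ∀ d, (decide (¬ smpIsT G a VS par d) = true) ↔ ¬ smpIsT G a VS par d := by
    intro d; simp
  refine ⟨fun d => decide (¬ smpIsT G a VS par d), ?_, ?_, ?_, ?_⟩
  · intro d
    simp only [smpIsT_inv]
  · intro hnil
    rw [List.filter_eq_nil_iff] at hnil
    refine nilpv_tree_acyclic ht _ W a le_rfl hne hW hred fun d hd => ?_
    have := hnil d hd
    rw [hpiv] at this
    exact not_not.1 this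
  · refine nilpv_chain_filter _ _ W ?_
    intro A d U d' B hWeq _ _ hU hdd
    subst hdd
    have hWw := hW
    rw [hWeq, HlGraph.isWalk_append] at hWw
    obtain ⟨c1, -, hw1⟩ := hWw
    rw [HlGraph.isWalk_cons, HlGraph.isWalk_append] at hw1
    obtain ⟨-, c2, hw2, hw3⟩ := hw1
    have hc2 : c2 = G.tgt d := by
      rw [← ((HlGraph.isWalk_cons G).1 hw3).1, HlGraph.src_inv]
    rw [hc2] at hw2
    have hr1 : G.Reduced (d :: (U ++ G.inv d :: B)) := by
      have : G.Reduced (A ++ d :: (U ++ G.inv d :: B)) := hWeq ▸ hred
      exact (List.isChain_append.mp this).2.1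
    have hr2 : G.Reduced U := (List.isChain_append.mp (List.IsChain.tail hr1)).1
    have hUne : U ≠ [] := by
      rintro rfl
      unfold HlGraph.Reduced at hr1
      rw [List.nil_append, List.isChain_cons_cons] at hr1
      exact hr1.1 rfl
    refine nilpv_tree_acyclic ht _ U _ le_rfl hUne hw2 hr2 fun e he => ?_
    have := hU e he
    rw [hpiv] at this
    exact not_not.1 this
  · -- counting
    set DS := smpDSupp G W with hDS
    have hDSall : ∀ d, d ∈ DS := fun d => (mem_smpDSupp G).2 (hall d)
    have hDScard : DS.card ≤ 2 * (C * g) := by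
      have h1 : DS.card ≤ (W ++ W.map G.inv).length := List.toFinset_card_le _
      rw [List.length_append, List.length_map] at h1
      omega
    have hrank := smp_rank_bound G g C hgirth a a W hW hDScard
    unfold smpRankLe at hrank
    rw [← hDS, ← hVS] at hrank
    set T : Finset D := (VS.erase a).image par ∪ (VS.erase a).image (fun z => G.inv (par z))
      with hT
    have hTmem : ∀ e, e ∈ T ↔ smpIsT G a VS par e := by
      intro e
      simp only [hT, Finset.mem_union, Finset.mem_image, Finset.mem_erase, smpIsT]
      constructor
      · rintro (⟨z, ⟨h1, h2⟩, rfl⟩ | ⟨z, ⟨h1, h2⟩, rfl⟩)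
        · exact ⟨z, h2, h1, Or.inl rfl⟩
        · exact ⟨z, h2, h1, Or.inr rfl⟩
      · rintro ⟨z, h2, h1, rfl | rfl⟩
        · exact Or.inl ⟨z, ⟨h1, h2⟩, rfl⟩
        · exact Or.inr ⟨z, ⟨h1, h2⟩, rfl⟩
    have hTcard : T.card + 2 = 2 * VS.card := nilpv_card_tree ht
    set P : Finset D := DS \ T with hP
    have hPcard : P.card ≤ 2 * smpB C := by
      have h1 : P.card = DS.card - T.card :=
        Finset.card_sdiff_of_subset fun e _ => hDSall e
      omega
    have hPmem : ∀ d, d ∈ P ↔ ¬ smpIsT G a VS par d := by
      intro d
      rw [hP, Finset.mem_sdiff, hTmem]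
      exact ⟨fun h => h.2, fun h => ⟨hDSall d, h⟩⟩
    have hPinv : ∀ d, G.inv d ∈ P ↔ d ∈ P := by
      intro d; rw [hPmem, hPmem, smpIsT_inv]
    have hcount : (W.filter fun d => decide (¬ smpIsT G a VS par d)).length
        = W.countP (fun d => decide (d ∈ P)) := by
      rw [List.countP_eq_length_filter]
      congr 2
      funext d
      simp only [hPmem]
    have hg : 0 < g := by
      rcases Nat.eq_zero_or_pos g with rfl | h
      · simp at hlen; exact absurd hlen hne
      · exact h
    have hcross : ∀ d, W.count d + W.count (G.inv d) ≤ C := by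
      intro d
      have h1 := nilpv_cross G g hshort d _ W a a le_rfl hW hred
      by_contra hcon
      push Not at hcon
      have h2 : (C + 1) * (g + 1) ≤ (W.count d + W.count (G.inv d)) * (g + 1) :=
        Nat.mul_le_mul_right _ hcon
      have h3 : (C + 1) * (g + 1) = C * g + C + g + 1 := by ring
      omega
    have hsum : 2 * W.countP (fun d => decide (d ∈ P)) ≤ P.card * C := by
      have e1 := smp_sum_count P W
      have e2 := smp_sum_count_inv G P hPinv W
      have e3 : ∑ d ∈ P, (W.count d + W.count (G.inv d)) ≤ ∑ _d ∈ P, C :=
        Finset.sum_le_sum fun d _ => hcross d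
      rw [Finset.sum_add_distrib, e1, e2, Finset.sum_const, smul_eq_mul] at e3
      omega
    rw [hcount]
    unfold nilL
    have h5 : P.card * C ≤ 2 * smpB C * C := Nat.mul_le_mul_right _ hPcard
    have h6 : (smpB C + 1) * (C + 1) = smpB C * C + smpB C + C + 1 := by ring
    have h7 : 2 * smpB C * C = 2 * (smpB C * C) := by ring
    omega

/-! ### Restriction to the support -/

/-- restriction of a dart graph to an inversion invariant set of darts -/
def nilpvRes {V : Type u} {D : Type v} (G : HlGraph V D) (S : D → Prop)
    (hS : ∀ d, S d → S (G.inv d)) : HlGraph V {d : D // S d} where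
  src d := G.src d.1
  inv d := ⟨G.inv d.1, hS d.1 d.2⟩
  inv_inv d := Subtype.ext (G.inv_inv d.1)
  inv_ne d := fun h => G.inv_ne d.1 (congrArg Subtype.val h)

section Res

variable {V : Type u} {D : Type v} (G : HlGraph V D) (S : D → Prop)
  (hS : ∀ d, S d → S (G.inv d))

lemma nilpvRes_walk (c : List {d : D // S d}) : ∀ (x y : V),
    (nilpvRes G S hS).IsWalk x c y ↔ G.IsWalk x (c.map Subtype.val) y := by
  induction c with
  | nil => intro x y; simp
  | cons d c ih =>
    intro x y
    rw [List.map_cons, HlGraph.isWalk_cons, HlGraph.isWalk_cons, ih]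
    rfl

lemma nilpvRes_ne (d d' : {d : D // S d}) :
    d' ≠ (nilpvRes G S hS).inv d ↔ d'.1 ≠ G.inv d.1 := by
  rw [Ne, Ne, Subtype.ext_iff]
  rfl

lemma nilpvRes_reduced (c : List {d : D // S d}) :
    (nilpvRes G S hS).Reduced c ↔ G.Reduced (c.map Subtype.val) := by
  unfold HlGraph.Reduced
  rw [List.isChain_map]
  constructor
  · exact fun h => h.imp fun d d' hdd => (nilpvRes_ne G S hS d d').1 hdd
  · exact fun h => h.imp fun d d' hdd => (nilpvRes_ne G S hS d d').2 hdd

lemma nilpvRes_cycRed (c : List {d : D // S d}) (h : (nilpvRes G S hS).CycRed c) :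
    G.CycRed (c.map Subtype.val) := by
  refine ⟨(nilpvRes_reduced G S hS c).1 h.1, ?_⟩
  intro d hd d' hd'
  rw [List.head?_map, Option.mem_def, Option.map_eq_some_iff] at hd
  rw [List.getLast?_map, Option.mem_def, Option.map_eq_some_iff] at hd'
  obtain ⟨e, he, rfl⟩ := hd
  obtain ⟨e', he', rfl⟩ := hd'
  exact (nilpvRes_ne G S hS e' e).1 (h.2 e he e' he')

end Res

theorem nil_pivot {V : Type u} {D : Type v} (G : HlGraph V D) (g C : ℕ) (a : V) (W : List D)
    (hW : G.IsWalk a W a) (hne : W ≠ []) (hcr : G.CycRed W)
    (hgirth : ∀ (x : V) (c : List D), c ≠ [] → G.IsWalk x c x → G.CycRed c →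
      (∀ d ∈ c, d ∈ W ∨ G.inv d ∈ W) → g < c.length)
    (hlen : W.length ≤ C * g) :
    ∃ piv : D → Bool, (∀ d, piv (G.inv d) = piv d) ∧ W.filter piv ≠ [] ∧
      (W.filter piv).IsChain (fun d d' => d' ≠ G.inv d) ∧ (W.filter piv).length ≤ nilL C := by
  classical
  set S : D → Prop := fun d => d ∈ W ∨ G.inv d ∈ W with hSdef
  have hS : ∀ d, S d → S (G.inv d) := by
    intro d hd
    rcases hd with h | h
    · exact Or.inr (by rw [G.inv_inv]; exact h)
    · exact Or.inl h
  set G' := nilpvRes G S hS with hG'
  set W' : List {d : D // S d} := W.attachWith S (fun d hd => Or.inl hd) with hW'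
  have hmap : W'.map Subtype.val = W := List.attachWith_map_subtype_val _
  have hmem : ∀ d : {d : D // S d}, d ∈ W' ↔ d.1 ∈ W := fun d => List.mem_attachWith _ _
  obtain ⟨piv', h1, h2, h3, h4⟩ := nilpv_core G' g C a W'
    ((nilpvRes_walk G S hS W' a a).2 (hmap.symm ▸ hW))
    (by intro h; rw [h] at hmap; exact hne hmap.symm)
    ((nilpvRes_reduced G S hS W').2 (hmap.symm ▸ hcr.1))
    (by
      intro x c hc hw hcc
      have := hgirth x (c.map Subtype.val) (by rw [Ne, List.map_eq_nil_iff]; exact hc) ((nilpvRes_walk G S hS c x x).1 hw)
        (nilpvRes_cycRed G S hS c hcc) (by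
          intro d hd
          obtain ⟨e, -, rfl⟩ := List.mem_map.1 hd
          exact e.2)
      simpa using this)
    (by
      intro d
      rcases d.2 with h | h
      · exact Or.inl ((hmem d).2 h)
      · exact Or.inr ((hmem _).2 h))
    (by rw [← hmap] at hlen; simpa using hlen)
  set piv : D → Bool := fun d => if h : S d then piv' ⟨d, h⟩ else false with hpiv
  have hcomp : piv ∘ Subtype.val = piv' := by
    funext d
    simp only [Function.comp, hpiv, dif_pos d.2]
  have hfil : W.filter piv = (W'.filter piv').map Subtype.val := by
    rw [← hmap, List.filter_map, hcomp]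
  refine ⟨piv, ?_, ?_, ?_, ?_⟩
  · intro d
    by_cases h : S d
    · simp only [hpiv, dif_pos h, dif_pos (hS d h)]
      exact h1 ⟨d, h⟩
    · have h' : ¬ S (G.inv d) := fun hh => h (by have := hS _ hh; rwa [G.inv_inv] at this)
      simp only [hpiv, dif_neg h, dif_neg h']
  · rw [hfil, Ne, List.map_eq_nil_iff]
    exact h2
  · rw [hfil, List.isChain_map]
    exact h3.imp fun d d' hdd => (nilpvRes_ne G S hS d d').1 hdd
  · rw [hfil, List.length_map]
    exact h4

end Claimed.Agent.R300.Nil
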