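import Mathlib

/-!
# KK Section 8: the character `ee t = exp (2 π i t)`
-/

set_option autoImplicit false

namespace Claimed.Agent.R300.Nil

open Complex

/-- `ee t = exp (2 π i t)` -/
noncomputable def ee (t : ℝ) : ℂ := Complex.exp (((2 * Real.pi * t : ℝ) : ℂ) * Complex.I)

lemma ee_add (a b : ℝ) : ee (a + b) = ee a * ee b := by
  unfold ee
  rw [← Complex.exp_add]
  congr 1
  push_cast
  ring

@[simp] lemma ee_zero : ee 0 = 1 := by simp [ee]

@[simp] lemma norm_ee (t : ℝ) : ‖ee t‖ = 1 := by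
  unfold ee
  exact Complex.norm_exp_ofReal_mul_I _

lemma ee_ne_zero (t : ℝ) : ee t ≠ 0 := Complex.exp_ne_zero _

lemma ee_neg (t : ℝ) : ee (-t) = (starRingEnd ℂ) (ee t) := by
  unfold ee
  rw [← Complex.exp_conj]
  congr 1
  rw [map_mul, Complex.conj_ofReal, Complex.conj_I]
  push_cast
  ring

lemma ee_mul_ee_neg (t : ℝ) : ee t * ee (-t) = 1 := by
  rw [← ee_add]; simp

lemma ee_sub (a b : ℝ) : ee (a - b) = ee a * (starRingEnd ℂ) (ee b) := by
  rw [sub_eq_add_neg, ee_add, ee_neg]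

lemma ee_conj_mul_self (t : ℝ) : (starRingEnd ℂ) (ee t) * ee t = 1 := by
  rw [← ee_neg, ← ee_add]; simp

@[simp] lemma ee_int (n : ℤ) : ee (n : ℝ) = 1 := by
  unfold ee
  have : (((2 * Real.pi * (n : ℝ) : ℝ) : ℂ) * Complex.I) = (n : ℂ) * (2 * (Real.pi : ℂ) * Complex.I) := by
    push_cast; ring
  rw [this]
  exact Complex.exp_int_mul_two_pi_mul_I n

lemma ee_add_int (t : ℝ) (n : ℤ) : ee (t + n) = ee t := by rw [ee_add, ee_int, mul_one]

lemma continuous_ee : Continuous ee := by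
  unfold ee
  fun_prop

lemma ee_eq_fourierChar (t : ℝ) : ee t = (Real.fourierChar t : ℂ) := by
  rw [Real.fourierChar_apply]; rfl

/-- `|e(a) - 1| ≤ 2 π |a|` -/
lemma norm_ee_sub_one_le (a : ℝ) : ‖ee a - 1‖ ≤ 2 * Real.pi * |a| := by
  unfold ee
  have h := Real.norm_exp_I_mul_ofReal_sub_one_le (x := 2 * Real.pi * a)
  rw [mul_comm] at h
  refine h.trans ?_
  rw [Real.norm_eq_abs, abs_mul, abs_of_pos (by positivity : (0 : ℝ) < 2 * Real.pi)]

/-- `|e(a) - e(b)| ≤ 2 π |a - b|` -/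
lemma norm_ee_sub_ee_le (a b : ℝ) : ‖ee a - ee b‖ ≤ 2 * Real.pi * |a - b| := by
  have h : ee a - ee b = ee b * (ee (a - b) - 1) := by
    rw [mul_sub, ← ee_add]; simp
  rw [h, norm_mul, norm_ee, one_mul]
  exact norm_ee_sub_one_le _

end Claimed.Agent.R300.Nil
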