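import Claimed.Agent.R300.NilDefs
import Claimed.Agent.R300.NilEe

/-!
# KK Section 8, leaf NIL-RQ: the finite magnetic representation `R`, the congruence subgroup

`(R_g ψ)(x) = e(-<lam, x>/q) ψ((1+x) b - 1)` on functions on `Idx m → ZMod q` (paper (8.22), in the
inverse-free convention of `NilDefs`).  As a matrix: `Rq q g x x' = e(-<lam,x>/q) [x' = x ∘ bet]`.

PLAN.  Everything follows from the group law over `ZMod q` (`EBar.map (Int.castRingHom _)`),
`pr_lact`, and `ZMod.stdAddChar` being an additive character; `eq q z = e(z/q)`.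
Factorisation: `v :=` coordinatewise residues of `γ` in `[0,q)`; `y := γ * v⁻¹` lies in the kernel of
the reduction because `map γ = map v`.  Uniqueness: `map v = map v'` and residues in `[0,q)`.
-/

set_option autoImplicit false
set_option linter.unusedSectionVars false

namespace Claimed.Agent.R300.Nil

open Matrix

variable {m : ℕ} (q : ℕ) [NeZero q]

/-- reduction mod `q` -/
def red : EBar m ℤ →* EBar m (ZMod q) := EBar.map (Int.castRingHom (ZMod q))

/-- the finite magnetic representation on the section `σ(g)` -/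
noncomputable def Rq (g : EBar m ℤ) : Matrix (Idx m → ZMod q) (Idx m → ZMod q) ℂ :=
  fun x x' => if x' = circ x (red q g).bet then ZMod.stdAddChar (-(pr (red q g).lam x)) else 0

/-- the congruence subgroup (paper: Lambda_q) -/
def Lamq : Subgroup (EBar m ℤ) := (red (m := m) q).ker

theorem mem_Lamq_iff (g : EBar m ℤ) :
    g ∈ Lamq (m := m) q ↔ (∀ p, (q : ℤ) ∣ g.lam p) ∧ (∀ p, (q : ℤ) ∣ g.bet p) := by
  unfold Lamq
  rw [MonoidHom.mem_ker]
  constructor
  · intro h
    constructor
    · intro p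
      have := congrFun (congrArg EBar.lam h) p
      exact (ZMod.intCast_zmod_eq_zero_iff_dvd _ _).1 this
    · intro p
      have := congrFun (congrArg EBar.bet h) p
      exact (ZMod.intCast_zmod_eq_zero_iff_dvd _ _).1 this
  · rintro ⟨h1, h2⟩
    ext1
    · funext p
      exact (ZMod.intCast_zmod_eq_zero_iff_dvd _ _).2 (h1 p)
    · funext p
      exact (ZMod.intCast_zmod_eq_zero_iff_dvd _ _).2 (h2 p)

theorem Rq_one : Rq q (1 : EBar m ℤ) = 1 := by
  ext x x'
  unfold Rq
  rw [map_one, Matrix.one_apply]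
  simp only [EBar.one_bet, EBar.one_lam, circ_zero, pr_zero_left, neg_zero, AddChar.map_zero_eq_one]
  by_cases h : x = x'
  · rw [if_pos h, if_pos h.symm]
  · rw [if_neg h, if_neg (Ne.symm h)]

/-- `e(-c/q)` is the standard character at `-c` -/
theorem nilrq_ee (c : ℤ) : ee (-(c : ℝ) / q) = ZMod.stdAddChar (-(c : ZMod q)) := by
  have h := ZMod.stdAddChar_coe (N := q) (-c)
  rw [Int.cast_neg] at h
  rw [h]
  unfold ee
  congr 1
  push_cast
  ring

/-- multiplier `e(-c/q)` -/
theorem Rq_mul (g h : EBar m ℤ) :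
    Rq q g * Rq q h = ee (-((EBar.coc g h : ℤ) : ℝ) / q) • Rq q (g * h) := by
  ext x x''
  rw [Matrix.mul_apply, Matrix.smul_apply, smul_eq_mul]
  unfold Rq
  rw [Finset.sum_eq_single (circ x (red q g).bet)]
  · rw [if_pos rfl, map_mul, EBar.mul_bet, EBar.mul_lam, circ_assoc]
    by_cases hx : x'' = circ x (circ (red q g).bet (red q h).bet)
    · rw [if_pos hx, if_pos hx, nilrq_ee, ← AddChar.map_add_eq_mul, ← AddChar.map_add_eq_mul]
      congr 1
      have hc : ((EBar.coc g h : ℤ) : ZMod q) = pr (red q h).lam (red q g).bet :=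
        (EBar.coc_map (Int.castRingHom (ZMod q)) g h).symm
      rw [hc, pr_add_left, pr_lact, circ, pr_add_right, pr_add_right, pr_add_right]
      ring
    · rw [if_neg hx, if_neg hx, mul_zero, mul_zero]
  · intro b _ hb
    rw [if_neg hb, zero_mul]
  · intro h
    exact absurd (Finset.mem_univ _) h

theorem Rq_unitary (g : EBar m ℤ) : (Rq q g)ᴴ * Rq q g = 1 ∧ Rq q g * (Rq q g)ᴴ = 1 := by
  have h2 : Rq q g * (Rq q g)ᴴ = 1 := by
    ext x x''
    rw [Matrix.mul_apply, Matrix.one_apply]
    simp only [Matrix.conjTranspose_apply]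
    unfold Rq
    rw [Finset.sum_eq_single (circ x (red q g).bet)]
    · rw [if_pos rfl]
      by_cases h : x = x''
      · subst h
        rw [if_pos rfl, if_pos rfl, RCLike.star_def, Complex.mul_conj, Complex.normSq_eq_norm_sq,
          ZMod.stdAddChar_apply, Circle.norm_coe]
        simp
      · have h' : circ x (red q g).bet ≠ circ x'' (red q g).bet := by
          intro e
          apply h
          have := congrArg (fun t => circ t (ninv (red q g).bet)) e
          simpa [circ_assoc] using this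
        rw [if_neg h', if_neg h, star_zero, mul_zero]
    · intro b _ hb
      rw [if_neg hb, zero_mul]
    · intro h
      exact absurd (Finset.mem_univ _) h
  exact ⟨mul_eq_one_comm.1 h2, h2⟩

theorem Rq_of_mem (g : EBar m ℤ) (hg : g ∈ Lamq (m := m) q) : Rq q g = 1 := by
  have h1 : red q g = red q 1 := by
    rw [map_one]
    exact hg
  rw [← Rq_one q]
  unfold Rq
  rw [h1]

/-- coordinates in `[0, q)` -/
def IsRep (v : EBar m ℤ) : Prop :=
  (∀ p, 0 ≤ v.lam p ∧ v.lam p < q) ∧ (∀ p, 0 ≤ v.bet p ∧ v.bet p < q)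

theorem nilrq_rep_inj {v v' : EBar m ℤ} (hv : IsRep q v) (hv' : IsRep q v')
    (h : red q v = red q v') : v = v' := by
  have key : ∀ a b : ℤ, 0 ≤ a → a < q → 0 ≤ b → b < q → (a : ZMod q) = (b : ZMod q) → a = b := by
    intro a b ha ha' hb hb' hab
    rw [ZMod.intCast_eq_intCast_iff'] at hab
    rwa [Int.emod_eq_of_lt ha ha', Int.emod_eq_of_lt hb hb'] at hab
  ext1
  · funext p
    exact key _ _ (hv.1 p).1 (hv.1 p).2 (hv'.1 p).1 (hv'.1 p).2 (congrFun (congrArg EBar.lam h) p)
  · funext p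
    exact key _ _ (hv.2 p).1 (hv.2 p).2 (hv'.2 p).1 (hv'.2 p).2 (congrFun (congrArg EBar.bet h) p)

theorem nilrq_mk_inj :
    Function.Injective fun t : (Idx m → ℤ) × (Idx m → ℤ) => (⟨t.1, t.2⟩ : EBar m ℤ) := by
  intro a b h
  exact Prod.ext (congrArg EBar.lam h) (congrArg EBar.bet h)

theorem nilrq_rep_eq : {v : EBar m ℤ | IsRep q v}
    = ↑(((Fintype.piFinset fun _ : Idx m => Finset.Ico (0 : ℤ) q) ×ˢ
        (Fintype.piFinset fun _ : Idx m => Finset.Ico (0 : ℤ) q)).image
          fun t : (Idx m → ℤ) × (Idx m → ℤ) => (⟨t.1, t.2⟩ : EBar m ℤ)) := by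
  ext v
  simp only [Set.mem_ofPred_eq, Finset.coe_image, Set.mem_image, Finset.mem_coe, Finset.mem_product,
    Fintype.mem_piFinset, Finset.mem_Ico]
  constructor
  · intro h
    exact ⟨(v.lam, v.bet), ⟨h.1, h.2⟩, rfl⟩
  · rintro ⟨t, ⟨h1, h2⟩, rfl⟩
    exact ⟨h1, h2⟩

/-- every element is uniquely `y * v`, `y ∈ Lamq`, `v` a representative -/
theorem exists_unique_factor (g : EBar m ℤ) :
    ∃! yv : EBar m ℤ × EBar m ℤ, yv.1 ∈ Lamq (m := m) q ∧ IsRep q yv.2 ∧ g = yv.1 * yv.2 := by
  have hq : (0 : ℤ) < q := by exact_mod_cast Nat.pos_of_ne_zero (NeZero.ne q)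
  set v : EBar m ℤ := ⟨fun p => g.lam p % q, fun p => g.bet p % q⟩ with hv
  have hvrep : IsRep q v :=
    ⟨fun p => ⟨Int.emod_nonneg _ hq.ne', Int.emod_lt_of_pos _ hq⟩,
      fun p => ⟨Int.emod_nonneg _ hq.ne', Int.emod_lt_of_pos _ hq⟩⟩
  have hvred : red q v = red q g := by
    ext1
    · funext p
      change (((g.lam p % q : ℤ)) : ZMod q) = ((g.lam p : ℤ) : ZMod q)
      rw [ZMod.intCast_eq_intCast_iff']
      exact Int.emod_emod_of_dvd _ dvd_rfl
    · funext p
      change (((g.bet p % q : ℤ)) : ZMod q) = ((g.bet p : ℤ) : ZMod q)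
      rw [ZMod.intCast_eq_intCast_iff']
      exact Int.emod_emod_of_dvd _ dvd_rfl
  refine ⟨(g * v⁻¹, v), ⟨?_, hvrep, by simp⟩, ?_⟩
  · change g * v⁻¹ ∈ (red (m := m) q).ker
    rw [MonoidHom.mem_ker, map_mul, map_inv, hvred, mul_inv_cancel]
  · rintro ⟨y', v'⟩ ⟨hy', hv', hg⟩
    simp only at hy' hv' hg
    have hred : red q v' = red q v := by
      rw [hvred, hg, map_mul, (MonoidHom.mem_ker).1 hy', one_mul]
    have hvv : v' = v := nilrq_rep_inj q hv' hvrep hred
    subst hvv
    rw [hg]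
    simp

/-- the set of representatives is finite with `q ^ (2 n_f)` elements -/
theorem isRep_finite : Set.Finite {v : EBar m ℤ | IsRep q v} := by
  rw [nilrq_rep_eq]
  exact Finset.finite_toSet _

theorem isRep_ncard : Set.ncard {v : EBar m ℤ | IsRep q v} = q ^ (2 * Fintype.card (Idx m)) := by
  rw [nilrq_rep_eq, Set.ncard_coe_finset, Finset.card_image_of_injective _ nilrq_mk_inj,
    Finset.card_product, Fintype.card_piFinset]
  simp only [Int.card_Ico, sub_zero, Int.toNat_natCast, Finset.prod_const, Finset.card_univ]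
  rw [two_mul, pow_add]

end Claimed.Agent.R300.Nil
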