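/-
Row 300, KK Sections 8-10: THE INTERFACE between the tower (Secs 4-6), the nilpotent group (Sec 8), the sampling
(Sec 9) and the spectral section (Sec 10).   Architect: helper21.   Design notes: header of `KkCalc.lean`.

* `KkGraph ℓ`      : the graph part of Prop 6.3 (pair `Y ⊆ Y⁰`; `Y` = induced subgraph on `keep`).
* `KkGraph.TP`     : the weighted adjacency `T_P` of the voltage cover on `ℓ²(F × (V0 × J))` (zero on deleted vertices).
* `KkLaw`          : a finitely supported law of `(z, W)`; `KkLaw.meanOp = E[W ⊗ λ(z)]` on `ℓ²(F × J)`.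
* `KkWide`         : anti-concentration of the unitriangular coordinates (input of the girth step 9.g).
* `KkArcData`      : arcs `[lo α, hi α]`, frozen scalars `hh α i = h_i(t_α)`, frozen projections `pp α`.
* `kk_realize_proof` (KkRzMain)  : steps 9.g, 9.h, 9.i  (abstract in the laws).
* `kk_laws_proof` (KkLawsMain)   : Section 8 + steps 9.a-9.f + 9.b in local form.
* `kk_cover_local_proof` (KkComb): the export to Section 10.
-/
import Claimed.Agent.R300.KkIface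
import Claimed.Agent.R300.KkTens
import Claimed.Agent.R300.KkLConv
import Claimed.Agent.R300.NilRq
import Claimed.Agent.R300.NilBox
import Claimed.Agent.R300.NilPivot
import Claimed.Agent.R300.SmpPath

set_option autoImplicit false

namespace Claimed.Agent.R300

open Nil HeisLaw
open scoped ENNReal ComplexConjugate InnerProductSpace Matrix.Norms.L2Operator

/-! ## Numbers -/

-- `kkd ℓ = 2^(4ℓ)`, `kkD ℓ = d²`, `kkH ℓ i = H_i` are defined in `KkIface.lean`.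

/-- `D_ik = D 2^(|i| - |k|)` (used for `|i - k| ≤ 1`). -/
def kkDik (ℓ : ℕ) (i k : ℤ) : ℕ := kkD ℓ * 2 ^ (i.natAbs + 1 - k.natAbs) / 2

/-- the normaliser `√(d D_ik)`. -/
noncomputable def kkNrm (ℓ : ℕ) (i k : ℤ) : ℝ := Real.sqrt (kkd ℓ * kkDik ℓ i k)

/-! ## The graph part of the tower -/

/-- The pair `Y ⊆ Y⁰` of Prop 6.3, graph part.  Edges are positively oriented from the `A` side (`src`) to the
`B` side (`tgt`). -/
structure KkGraph (ℓ : ℕ) where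
  V0 : Type
  E0 : Type
  lay : V0 → ℤ
  sideA : V0 → Prop
  src : E0 → V0
  tgt : E0 → V0
  keep : V0 → Prop
  src_A : ∀ e, sideA (src e)
  tgt_B : ∀ e, ¬ sideA (tgt e)
  band : ∀ e, |lay (src e) - lay (tgt e)| ≤ 1
  cardA : ∀ i, Nat.card {v // lay v = i ∧ sideA v} = kkd ℓ * 2 ^ kkH ℓ i
  cardB : ∀ i, Nat.card {v // lay v = i ∧ ¬ sideA v} = 2 ^ kkH ℓ i
  degA : ∀ a, sideA a → ∀ k, |lay a - k| ≤ 1 →
    Nat.card {e // src e = a ∧ lay (tgt e) = k} = kkd ℓ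
  degB : ∀ b, ¬ sideA b → ∀ i, |i - lay b| ≤ 1 →
    Nat.card {e // tgt e = b ∧ lay (src e) = i} = kkDik ℓ i (lay b)

namespace KkGraph

variable {ℓ : ℕ} (Y : KkGraph ℓ)

/-- edges of `Y`. -/
def keepE (e : Y.E0) : Prop := Y.keep (Y.src e) ∧ Y.keep (Y.tgt e)

/-- the dart graph of `Y⁰`. -/
def darts : HlGraph Y.V0 (Y.E0 × Bool) := smpGraph Y.src Y.tgt

/-- a nonempty cyclically reduced closed walk of `Y` based at `v`. -/
def IsCyc (v : Y.V0) (w : List (Y.E0 × Bool)) : Prop :=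
  w ≠ [] ∧ Y.darts.IsWalk v w v ∧ Y.darts.CycRed w ∧ ∀ d ∈ w, Y.keepE d.1

/-- Prop 6.3 (5): no cyclically reduced closed walk based at layer `i` of length `≤ H_i / (100 log₂ d)`. -/
def Girth : Prop := ∀ v w, Y.IsCyc v w → kkH ℓ (Y.lay v) < 400 * ℓ * w.length

/-- Prop 6.3 (2): deleted fraction at most `β` in every `A_i`, `B_i`. -/
def Del (β : ℝ) : Prop :=
  (∀ i, (Nat.card {v // Y.lay v = i ∧ Y.sideA v ∧ ¬ Y.keep v} : ℝ) ≤ β * (kkd ℓ * 2 ^ kkH ℓ i)) ∧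
    ∀ i, (Nat.card {v // Y.lay v = i ∧ ¬ Y.sideA v ∧ ¬ Y.keep v} : ℝ) ≤ β * 2 ^ kkH ℓ i

/-- number of edges from `v` to `v'`. -/
noncomputable def inc (v v' : Y.V0) : ℕ := Nat.card {e // Y.src e = v ∧ Y.tgt e = v'}

/-- the block `U⁰_ik` (rows in `A_i`, columns in `B_k`). -/
noncomputable def U0 (i k : ℤ) : Y.V0 → Y.V0 → ℂ := fun v v' =>
  open Classical in if Y.lay v = i ∧ Y.lay v' = k then ((Y.inc v v' : ℝ) / kkNrm ℓ i k : ℝ) else 0

/-- Prop 6.3 (1): spectral gap of the blocks on the mean zero functions. -/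
def Gap (χ : ℝ) : Prop := ∀ i k : ℤ, |i - k| ≤ 1 → ∀ f : Y.V0 → ℂ,
  (∀ v, f v ≠ 0 → Y.lay v = k ∧ ¬ Y.sideA v) → ∑ᶠ v, f v = 0 →
    ∑ᶠ a, ‖∑ᶠ b, Y.U0 i k a b * f b‖ ^ 2 ≤ (1 - χ) ^ 2 * ∑ᶠ b, ‖f b‖ ^ 2

/-- the symmetric frozen model matrix `∑ h_i h_k (U⁰_ik + adjoint)`. -/
noncomputable def modelM (h : ℤ → ℝ) : Y.V0 → Y.V0 → ℂ := fun v v' =>
  ((h (Y.lay v) * h (Y.lay v') : ℝ) : ℂ)
    * (Y.U0 (Y.lay v) (Y.lay v') v v' + Y.U0 (Y.lay v') (Y.lay v) v' v)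

/-- the frozen upper vector `2^(-1/2) ∑ h_i (a_i + b_i)`. -/
noncomputable def modelV (h : ℤ → ℝ) : Y.V0 → ℂ := fun v =>
  open Classical in
  ((h (Y.lay v) / Real.sqrt (2 * (if Y.sideA v then kkd ℓ * 2 ^ kkH ℓ (Y.lay v)
    else 2 ^ kkH ℓ (Y.lay v))) : ℝ) : ℂ)

variable {F : Type} [Group F] {J : Type}

/-- holonomy of a walk. -/
def hol (z : Y.E0 → F) (w : List (Y.E0 × Bool)) : F :=
  (w.map fun d => if d.2 then (z d.1)⁻¹ else z d.1).prod

/-- Thm 9.2 (2): girth of the voltage cover. -/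
def CoverGirth (Cstar : ℕ) (z : Y.E0 → F) : Prop :=
  ∀ v w, Y.IsCyc v w → 4 * ℓ * w.length ≤ Cstar * kkH ℓ (Y.lay v) → Y.hol z w ≠ 1

/-- coefficients of `T_P`. -/
noncomputable def coef (z : Y.E0 → F) (W : Y.E0 → Matrix J J ℂ) :
    Y.V0 × J → Y.V0 × J → F → ℂ := fun a b g =>
  open Classical in
  ∑' e : Y.E0,
    ((if Y.src e = a.1 ∧ Y.tgt e = b.1 ∧ Y.keepE e ∧ z e = g then
        ((kkNrm ℓ (Y.lay (Y.src e)) (Y.lay (Y.tgt e)))⁻¹ : ℝ) * W e a.2 b.2 else 0)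
      + (if Y.tgt e = a.1 ∧ Y.src e = b.1 ∧ Y.keepE e ∧ (z e)⁻¹ = g then
        ((kkNrm ℓ (Y.lay (Y.src e)) (Y.lay (Y.tgt e)))⁻¹ : ℝ) * conj (W e b.2 a.2) else 0))

/-- `T_P = ∑_e (d D_ik)^(-1/2) (E_ab ⊗ W_e ⊗ λ(z_e) + adjoint)`. -/
noncomputable def TP (z : Y.E0 → F) (W : Y.E0 → Matrix J J ℂ) :
    ScL2 (F × (Y.V0 × J)) →L[ℂ] ScL2 (F × (Y.V0 × J)) :=
  smpLConv (Y.coef z W)

/-- the projection `Π` onto the vertices of `Y`. -/
noncomputable def PiOp (F J : Type) : ScL2 (F × (Y.V0 × J)) →L[ℂ] ScL2 (F × (Y.V0 × J)) :=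
  scRestr {x | Y.keep x.2.1}

/-- the projection onto `A_i` (`s = true`) or `B_i` (`s = false`). -/
noncomputable def sideOp (F J : Type) (s : Prop) (i : ℤ) :
    ScL2 (F × (Y.V0 × J)) →L[ℂ] ScL2 (F × (Y.V0 × J)) :=
  scRestr {x | Y.lay x.2.1 = i ∧ (Y.sideA x.2.1 ↔ s)}

end KkGraph

/-! ## Laws -/

/-- A finitely supported law of a voltage and a matrix weight. -/
structure KkLaw (F J : Type) where
  Ω : Type
  [fin : Fintype Ω]
  p : Ω → ℝ
  z : Ω → F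
  W : Ω → Matrix J J ℂ
  p_nonneg : ∀ a, 0 ≤ p a
  p_sum : ∑ a, p a = 1

attribute [instance] KkLaw.fin

namespace KkLaw

variable {F J : Type}

/-- coefficients of `E[W ⊗ λ(z)]`. -/
noncomputable def mean (μ : KkLaw F J) : J → J → F → ℂ := fun j j' g =>
  open Classical in ∑ a, (μ.p a : ℂ) * (if μ.z a = g then μ.W a j j' else 0)

/-- `E[W ⊗ λ(z)]` on `ℓ²(F × J)`. -/
noncomputable def meanOp [Group F] (μ : KkLaw F J) : ScL2 (F × J) →L[ℂ] ScL2 (F × J) :=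
  smpLConv μ.mean

end KkLaw

/-- **Anti-concentration.**  The law of `u : Ω → Idx m → ℤ` is a mixture, over auxiliary choices `c`, of the laws of
`(1 + Al c)(1 + x)(1 + Br c) - 1` where the coordinates of `x` are independent with atoms of mass `≤ κ`. -/
def KkWide {m : ℕ} {Ω : Type} [Fintype Ω] (p : Ω → ℝ) (u : Ω → Idx m → ℤ) (κ : ℝ) : Prop :=
  ∃ (C : Type) (_ : Fintype C) (pc : C → ℝ) (Θ : C → Idx m → Type) (_ : ∀ c s, Fintype (Θ c s))
    (r : ∀ c s, Θ c s → ℝ) (val : ∀ c s, Θ c s → ℤ) (Al Br : C → Idx m → ℤ),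
    (∀ c, 0 ≤ pc c) ∧ ∑ c, pc c = 1 ∧ (∀ c s a, 0 ≤ r c s a) ∧ (∀ c s, ∑ a, r c s a = 1) ∧
    (∀ c s (t : ℤ), ∑ a with val c s a = t, r c s a ≤ κ) ∧
    ∀ t : Idx m → ℤ, ∑ a with u a = t, p a
      = ∑ c, pc c * ∑ x : (∀ s, Θ c s) with
          circ (circ (Al c) (fun s => val c s (x s))) (Br c) = t, ∏ s, r c s (x s)

/-! ## Arcs, frozen scalars, frozen projections -/

/-- Arcs with frozen data. -/
structure KkArcData (F J 𝔄 : Type) where
  lo : 𝔄 → ℝ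
  hi : 𝔄 → ℝ
  hh : 𝔄 → ℤ → ℝ
  pp : 𝔄 → ScL2 (F × J) →L[ℂ] ScL2 (F × J)

namespace KkArcData

variable {F J 𝔄 : Type} [Group F] (A : KkArcData F J 𝔄) (z₀ : F)

/-- the sharp arc projection on `ℓ²(F × J')`. -/
noncomputable def Q (J' : Type) (α : 𝔄) : ScL2 (F × J') →L[ℂ] ScL2 (F × J') :=
  kkArc (kkU J' z₀) (kkIcc (A.lo α) (A.hi α))

/-- The local model facts. -/
structure Good : Prop where
  lo_le : ∀ α, A.lo α ≤ A.hi α
  unit : ∀ α, 0 ≤ A.lo α ∧ A.hi α ≤ 1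
  disj : ∀ α β, α ≠ β → A.hi α ≤ A.lo β ∨ A.hi β ≤ A.lo α
  len : HasSum (fun α => A.hi α - A.lo α) 1
  hh_nonneg : ∀ α i, 0 ≤ A.hh α i
  hh_two : ∀ α, ∃ j : ℤ, (∀ i, i ≠ j → i ≠ j + 1 → A.hh α i = 0) ∧
    A.hh α j ^ 2 + A.hh α (j + 1) ^ 2 = 1
  pp_proj : ∀ α, IsStarProjection (A.pp α)
  pp_rho : ∀ α g, Commute (A.pp α) (specRho g)
  pp_arc : ∀ α, A.pp α * A.Q z₀ J α = A.pp α

end KkArcData

/-! ## The three theorems

The statements that used to stand here (sorried) are now PROVED downstream, verbatim: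
* `kk_realize_proof`     (KkRzMain.lean,   steps 9.g, 9.h, 9.i; helper121),
* `kk_laws_proof`        (KkLawsMain.lean, Section 8 and steps 9.a-9.f in local form),
* `kk_cover_local_proof` (KkComb.lean,     the export to Section 10; helper145). -/

end Claimed.Agent.R300
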