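/-
Row 300, KK: adapter from the tower interface `KkTower` (`KkIface.lean`, helper113) to the graph interface
`KkGraph` (`KkModel.lean`, helper21) used by Sections 8-10.  An edge is a triple `(a, σ, b)` with `E0 a σ b`.
-/
import Claimed.Agent.R300.KkModel

set_option autoImplicit false

namespace Claimed.Agent.R300

open HeisLaw

/-- the defining equation determines `D_ik` -/
theorem kkDik_eq {l : ℕ} {i k : ℤ} (h : |i - k| ≤ 1) {N : ℕ}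
    (hN : N * 2 ^ k.natAbs = kkD l * 2 ^ i.natAbs) : kkDik l i k = N := by
  unfold kkDik
  have h1 : k.natAbs ≤ i.natAbs + 1 := by
    rw [abs_le] at h
    omega
  have h2 : kkD l * 2 ^ (i.natAbs + 1 - k.natAbs) = 2 * N := by
    have h3 : (kkD l * 2 ^ (i.natAbs + 1 - k.natAbs)) * 2 ^ k.natAbs = (2 * N) * 2 ^ k.natAbs := by
      rw [mul_assoc, ← pow_add, Nat.sub_add_cancel h1, pow_succ, mul_assoc 2 N, hN]
      ring
    exact Nat.eq_of_mul_eq_mul_right (by positivity) h3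
  rw [h2]
  omega

namespace KkTower

variable {l : ℕ} {ε : ℝ} (𝕋 : KkTower l ε)

/-- the type of edges -/
abbrev Edge : Type := {t : 𝕋.V0 × 𝕋.S × 𝕋.V0 // 𝕋.E0 t.1 t.2.1 t.2.2}

theorem card_sub_lA (i : ℤ) (P : 𝕋.V0 → Prop) :
    Nat.card {v // 𝕋.lay v = i ∧ v ∈ 𝕋.sideA ∧ P v} = ((𝕋.lA i : Set 𝕋.V0) ∩ {v | P v}).ncard := by
  rw [← Nat.card_coe_set_eq]
  refine Nat.card_congr (Equiv.subtypeEquivRight fun v => ?_)
  simp only [Set.mem_inter_iff, Finset.mem_coe, 𝕋.mem_lA]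
  constructor
  · rintro ⟨h1, h2, h3⟩; exact ⟨⟨h2, h1⟩, h3⟩
  · rintro ⟨⟨h2, h1⟩, h3⟩; exact ⟨h1, h2, h3⟩

theorem card_sub_lB (i : ℤ) (P : 𝕋.V0 → Prop) :
    Nat.card {v // 𝕋.lay v = i ∧ v ∉ 𝕋.sideA ∧ P v} = ((𝕋.lB i : Set 𝕋.V0) ∩ {v | P v}).ncard := by
  rw [← Nat.card_coe_set_eq]
  refine Nat.card_congr (Equiv.subtypeEquivRight fun v => ?_)
  simp only [Set.mem_inter_iff, Finset.mem_coe, 𝕋.mem_lB]
  constructor
  · rintro ⟨h1, h2, h3⟩; exact ⟨⟨h2, h1⟩, h3⟩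
  · rintro ⟨⟨h2, h1⟩, h3⟩; exact ⟨h1, h2, h3⟩

theorem card_layA (i : ℤ) :
    Nat.card {v // 𝕋.lay v = i ∧ v ∈ 𝕋.sideA} = kkd l * 2 ^ kkH l i := by
  have h : Nat.card {v // 𝕋.lay v = i ∧ v ∈ 𝕋.sideA} = Nat.card {v // v ∈ 𝕋.lA i} :=
    Nat.card_congr (Equiv.subtypeEquivRight fun v => by rw [𝕋.mem_lA]; tauto)
  rw [h, Nat.card_eq_fintype_card, Fintype.card_coe, 𝕋.cardA]

theorem card_layB (i : ℤ) :
    Nat.card {v // 𝕋.lay v = i ∧ v ∉ 𝕋.sideA} = 2 ^ kkH l i := by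
  have h : Nat.card {v // 𝕋.lay v = i ∧ v ∉ 𝕋.sideA} = Nat.card {v // v ∈ 𝕋.lB i} :=
    Nat.card_congr (Equiv.subtypeEquivRight fun v => by rw [𝕋.mem_lB]; tauto)
  rw [h, Nat.card_eq_fintype_card, Fintype.card_coe, 𝕋.cardB]

theorem card_outA (a : 𝕋.V0) (k : ℤ) :
    Nat.card {e : 𝕋.Edge // e.1.1 = a ∧ 𝕋.lay e.1.2.2 = k} =
      {σ | ∃ b ∈ 𝕋.lB k, 𝕋.E0 a σ b}.ncard := by
  rw [← Nat.card_coe_set_eq]
  refine Nat.card_congr (Equiv.ofBijective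
    (fun e => ⟨e.1.1.2.1, e.1.1.2.2, (𝕋.mem_lB _ _).2 ⟨(𝕋.E0_side _ _ _ e.1.2).2.1, e.2.2⟩,
      by have := e.1.2; rwa [e.2.1] at this⟩) ⟨?_, ?_⟩)
  · rintro ⟨⟨⟨a₁, σ₁, b₁⟩, h₁⟩, e₁, e₁'⟩ ⟨⟨⟨a₂, σ₂, b₂⟩, h₂⟩, e₂, e₂'⟩ h
    simp only [Subtype.mk.injEq] at h e₁ e₂
    subst e₁ e₂ h
    obtain rfl := 𝕋.fold_src _ _ _ _ h₁ h₂
    rfl
  · rintro ⟨σ, b, hb, h⟩
    exact ⟨⟨⟨(a, σ, b), h⟩, rfl, ((𝕋.mem_lB _ _).1 hb).2⟩, rfl⟩

theorem card_inB (b : 𝕋.V0) (i : ℤ) :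
    Nat.card {e : 𝕋.Edge // e.1.2.2 = b ∧ 𝕋.lay e.1.1 = i} =
      {σ | ∃ a ∈ 𝕋.lA i, 𝕋.E0 a σ b}.ncard := by
  rw [← Nat.card_coe_set_eq]
  refine Nat.card_congr (Equiv.ofBijective
    (fun e => ⟨e.1.1.2.1, e.1.1.1, (𝕋.mem_lA _ _).2 ⟨(𝕋.E0_side _ _ _ e.1.2).1, e.2.2⟩,
      by have := e.1.2; rwa [e.2.1] at this⟩) ⟨?_, ?_⟩)
  · rintro ⟨⟨⟨a₁, σ₁, b₁⟩, h₁⟩, e₁, e₁'⟩ ⟨⟨⟨a₂, σ₂, b₂⟩, h₂⟩, e₂, e₂'⟩ h
    simp only [Subtype.mk.injEq] at h e₁ e₂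
    subst e₁ e₂ h
    obtain rfl := 𝕋.fold_tgt _ _ _ _ h₁ h₂
    rfl
  · rintro ⟨σ, a, ha, h⟩
    exact ⟨⟨⟨(a, σ, b), h⟩, rfl, ((𝕋.mem_lA _ _).1 ha).2⟩, rfl⟩

theorem card_inc (a b : 𝕋.V0) :
    Nat.card {e : 𝕋.Edge // e.1.1 = a ∧ e.1.2.2 = b} = {σ | 𝕋.E0 a σ b}.ncard := by
  rw [← Nat.card_coe_set_eq]
  refine Nat.card_congr (Equiv.ofBijective
    (fun e => ⟨e.1.1.2.1, by have := e.1.2; rwa [e.2.1, e.2.2] at this⟩) ⟨?_, ?_⟩)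
  · rintro ⟨⟨⟨a₁, σ₁, b₁⟩, h₁⟩, e₁, e₁'⟩ ⟨⟨⟨a₂, σ₂, b₂⟩, h₂⟩, e₂, e₂'⟩ h
    simp only [Subtype.mk.injEq] at h e₁ e₂ e₁' e₂'
    subst e₁ e₂ h e₁' e₂'
    rfl
  · rintro ⟨σ, h⟩
    exact ⟨⟨⟨(a, σ, b), h⟩, rfl, rfl⟩, rfl⟩

/-- The graph part of a tower. -/
def toGraph : KkGraph l where
  V0 := 𝕋.V0
  E0 := {t : 𝕋.V0 × 𝕋.S × 𝕋.V0 // 𝕋.E0 t.1 t.2.1 t.2.2}
  lay := 𝕋.lay
  sideA v := v ∈ 𝕋.sideA
  src e := e.1.1
  tgt e := e.1.2.2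
  keep v := v ∈ 𝕋.keep
  src_A e := (𝕋.E0_side _ _ _ e.2).1
  tgt_B e := (𝕋.E0_side _ _ _ e.2).2.1
  band e := (𝕋.E0_side _ _ _ e.2).2.2
  cardA i := 𝕋.card_layA i
  cardB i := 𝕋.card_layB i
  degA a ha k hk := by
    rw [𝕋.card_outA a k]
    exact 𝕋.degA (𝕋.lay a) k hk a ((𝕋.mem_lA _ _).2 ⟨ha, rfl⟩)
  degB b hb i hi := by
    rw [𝕋.card_inB b i]
    exact (kkDik_eq hi (𝕋.degB i (𝕋.lay b) hi b ((𝕋.mem_lB _ _).2 ⟨hb, rfl⟩))).symm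

/-- the label of an edge. -/
def labE (e : 𝕋.toGraph.E0) : 𝕋.S := e.1.2.1

/-- the normaliser is a function of the label. -/
theorem toGraph_nrm (e : 𝕋.toGraph.E0) :
    kkNrm l (𝕋.toGraph.lay (𝕋.toGraph.src e)) (𝕋.toGraph.lay (𝕋.toGraph.tgt e))
      = Real.sqrt (kkd l * 𝕋.dfac (𝕋.labE e)) := by
  unfold kkNrm
  rw [kkDik_eq (𝕋.toGraph.band e) (𝕋.dfac_spec _ _ _ e.2)]
  rfl

theorem toGraph_del : 𝕋.toGraph.Del ε := by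
  constructor
  · intro i
    have h1 : Nat.card {v // 𝕋.toGraph.lay v = i ∧ 𝕋.toGraph.sideA v ∧ ¬ 𝕋.toGraph.keep v} =
        ((𝕋.lA i : Set 𝕋.V0) \ 𝕋.keep).ncard := 𝕋.card_sub_lA i (fun v => v ∉ 𝕋.keep)
    rw [h1]
    have h2 := 𝕋.delA i
    rw [𝕋.cardA] at h2
    push_cast at h2
    exact h2
  · intro i
    have h1 : Nat.card {v // 𝕋.toGraph.lay v = i ∧ ¬ 𝕋.toGraph.sideA v ∧ ¬ 𝕋.toGraph.keep v} =
        ((𝕋.lB i : Set 𝕋.V0) \ 𝕋.keep).ncard := 𝕋.card_sub_lB i (fun v => v ∉ 𝕋.keep)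
    rw [h1]
    have h2 := 𝕋.delB i
    rw [𝕋.cardB] at h2
    push_cast at h2
    exact h2

/-! ### walks of darts and paths of letters -/

/-- walks of darts and paths of letters: the word read along a walk. -/
def wordOf (w : List (𝕋.toGraph.E0 × Bool)) : List (𝕋.S × Bool) :=
  w.map fun d => (𝕋.labE d.1, !d.2)

@[simp] theorem wordOf_length (w : List (𝕋.toGraph.E0 × Bool)) :
    (𝕋.wordOf w).length = w.length := by
  simp [wordOf]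

theorem EY_dart (d : 𝕋.toGraph.E0 × Bool) (hk : 𝕋.toGraph.keepE d.1) :
    𝕋.EY (𝕋.toGraph.darts.src d) (𝕋.labE d.1, !d.2) (𝕋.toGraph.darts.tgt d) := by
  obtain ⟨e, b⟩ := d
  cases b
  · exact ⟨hk.1, hk.2, Or.inl ⟨rfl, e.2⟩⟩
  · exact ⟨hk.2, hk.1, Or.inr ⟨rfl, e.2⟩⟩

theorem path_of_walk (v x : 𝕋.V0) (w : List (𝕋.toGraph.E0 × Bool))
    (hw : 𝕋.toGraph.darts.IsWalk v w x) (hk : ∀ d ∈ w, 𝕋.toGraph.keepE d.1) :
    Shell.Path 𝕋.EY v (𝕋.wordOf w) x := by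
  induction w generalizing v with
  | nil =>
    obtain rfl : v = x := hw
    exact Shell.Path.nil _
  | cons d w ih =>
    obtain ⟨h1, h2⟩ := hw
    subst h1
    exact Shell.Path.cons (𝕋.EY_dart d (hk d (by simp)))
      (ih _ h2 fun d' hd' => hk d' (by simp [hd']))

theorem exists_walk_of_path (v x : 𝕋.V0) (u : List (𝕋.S × Bool)) (hu : Shell.Path 𝕋.EY v u x) :
    ∃ w : List (𝕋.toGraph.E0 × Bool), 𝕋.toGraph.darts.IsWalk v w x ∧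
      (∀ d ∈ w, 𝕋.toGraph.keepE d.1) ∧ 𝕋.wordOf w = u := by
  induction hu with
  | nil a => exact ⟨[], rfl, by simp, rfl⟩
  | @cons a b c lt u e _ ih =>
    obtain ⟨w, hw, hk, rfl⟩ := ih
    obtain ⟨ha, hb, h⟩ := e
    obtain ⟨σ, t⟩ := lt
    rcases h with ⟨ht, h⟩ | ⟨ht, h⟩
    · simp only at ht h
      subst ht
      refine ⟨((⟨(a, σ, b), h⟩ : 𝕋.toGraph.E0), false) :: w, ⟨rfl, hw⟩, ?_, rfl⟩
      intro d hd
      rcases List.mem_cons.1 hd with rfl | hd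
      · exact ⟨ha, hb⟩
      · exact hk d hd
    · simp only at ht h
      subst ht
      refine ⟨((⟨(b, σ, a), h⟩ : 𝕋.toGraph.E0), true) :: w, ⟨rfl, hw⟩, ?_, rfl⟩
      intro d hd
      rcases List.mem_cons.1 hd with rfl | hd
      · exact ⟨hb, ha⟩
      · exact hk d hd

/-- two consecutive darts cancel iff their letters cancel (the labelling is folded) -/
theorem step_iff (d d' : 𝕋.toGraph.E0 × Bool)
    (h : 𝕋.toGraph.darts.tgt d = 𝕋.toGraph.darts.src d') :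
    (𝕋.labE d.1 = 𝕋.labE d'.1 → (!d.2) = (!d'.2)) ↔ d' ≠ 𝕋.toGraph.darts.inv d := by
  obtain ⟨⟨⟨a, σ, b⟩, he⟩, t⟩ := d
  obtain ⟨⟨⟨a', σ', b'⟩, he'⟩, t'⟩ := d'
  constructor
  · intro H hd
    have h1 : (⟨(a', σ', b'), he'⟩ : 𝕋.toGraph.E0) = ⟨(a, σ, b), he⟩ := congrArg Prod.fst hd
    have h2 : t' = !t := congrArg Prod.snd hd
    have h3 : σ' = σ := by
      have := congrArg (fun e : 𝕋.toGraph.E0 => e.1.2.1) h1
      exact this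
    have := H h3.symm
    subst h2
    simp at this
  · intro H hl
    by_contra hne
    apply H
    have hl' : σ = σ' := hl
    subst hl'
    cases t <;> cases t' <;> simp at hne
    · have h' : b = b' := h
      subst h'
      obtain rfl := 𝕋.fold_tgt _ _ _ _ he he'
      rfl
    · have h' : a = a' := h
      subst h'
      obtain rfl := 𝕋.fold_src _ _ _ _ he he'
      rfl

theorem wordOf_reduced (v x : 𝕋.V0) (w : List (𝕋.toGraph.E0 × Bool))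
    (hw : 𝕋.toGraph.darts.IsWalk v w x) :
    FreeGroup.IsReduced (𝕋.wordOf w) ↔ 𝕋.toGraph.darts.Reduced w := by
  unfold FreeGroup.IsReduced HlGraph.Reduced wordOf
  rw [List.isChain_map]
  induction w generalizing v with
  | nil => simp
  | cons d w ih =>
    cases w with
    | nil => simp
    | cons d' w =>
      obtain ⟨h1, h2⟩ := hw
      have h3 : 𝕋.toGraph.darts.src d' = 𝕋.toGraph.darts.tgt d := h2.1
      rw [List.isChain_cons_cons, List.isChain_cons_cons, ih _ h2, 𝕋.step_iff d d' h3.symm]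

theorem tgt_getLast {v x : 𝕋.V0} {w : List (𝕋.toGraph.E0 × Bool)}
    (hw : 𝕋.toGraph.darts.IsWalk v w x) {d : 𝕋.toGraph.E0 × Bool} (hd : d ∈ w.getLast?) :
    𝕋.toGraph.darts.tgt d = x := by
  obtain ⟨w', rfl⟩ := List.getLast?_eq_some_iff.1 hd
  obtain ⟨c, -, h2⟩ := (HlGraph.isWalk_append _).1 hw
  exact h2.2

theorem src_head {v x : 𝕋.V0} {w : List (𝕋.toGraph.E0 × Bool)}
    (hw : 𝕋.toGraph.darts.IsWalk v w x) {d : 𝕋.toGraph.E0 × Bool} (hd : d ∈ w.head?) :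
    𝕋.toGraph.darts.src d = v := by
  cases w with
  | nil => simp at hd
  | cons d' w =>
    simp only [List.head?_cons, Option.mem_def, Option.some.injEq] at hd
    subst hd
    exact hw.1

theorem wordOf_cycRed (v : 𝕋.V0) (w : List (𝕋.toGraph.E0 × Bool))
    (hw : 𝕋.toGraph.darts.IsWalk v w v) :
    FreeGroup.IsCyclicallyReduced (𝕋.wordOf w) ↔ 𝕋.toGraph.darts.CycRed w := by
  unfold FreeGroup.IsCyclicallyReduced HlGraph.CycRed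
  rw [𝕋.wordOf_reduced v v w hw]
  refine and_congr_right fun _ => ?_
  simp only [wordOf, List.getLast?_map, List.head?_map, Option.mem_def, Option.map_eq_some_iff]
  constructor
  · intro H d hd d' hd'
    exact (𝕋.step_iff d' d ((𝕋.tgt_getLast hw hd').trans (𝕋.src_head hw hd).symm)).1
      (H _ ⟨d', hd', rfl⟩ _ ⟨d, hd, rfl⟩)
  · rintro H _ ⟨d', hd', rfl⟩ _ ⟨d, hd, rfl⟩
    exact (𝕋.step_iff d' d ((𝕋.tgt_getLast hw hd').trans (𝕋.src_head hw hd).symm)).2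
      (H d hd d' hd')

theorem toGraph_girth : 𝕋.toGraph.Girth := by
  rintro v w ⟨hne, hw, hc, hk⟩
  have := 𝕋.girth v (𝕋.wordOf w) (by simpa [wordOf] using hne) ((𝕋.wordOf_cycRed v w hw).2 hc)
    (𝕋.path_of_walk v v w hw hk)
  rw [wordOf_length] at this
  exact this

/-! ### the spectral gap -/

theorem inc_eq (a b : 𝕋.V0) : 𝕋.toGraph.inc a b = {σ | 𝕋.E0 a σ b}.ncard := 𝕋.card_inc a b

theorem inc_eq_zero {a : 𝕋.V0} (b : 𝕋.V0) (ha : a ∉ 𝕋.sideA) : 𝕋.toGraph.inc a b = 0 := by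
  rw [inc_eq]
  have : {σ | 𝕋.E0 a σ b} = ∅ := by
    ext σ
    simp only [Set.mem_ofPred_eq, Set.mem_empty_iff_false, iff_false]
    intro h
    exact ha (𝕋.E0_side _ _ _ h).1
  rw [this, Set.ncard_empty]

include 𝕋 in
theorem kkDik_spec (i k : ℤ) (hik : |i - k| ≤ 1) :
    kkDik l i k * 2 ^ k.natAbs = kkD l * 2 ^ i.natAbs := by
  have hne : (𝕋.lB k).Nonempty := by
    rw [← Finset.card_pos, 𝕋.cardB]
    positivity
  obtain ⟨b₀, hb₀⟩ := hne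
  have hN := 𝕋.degB i k hik b₀ hb₀
  rw [kkDik_eq hik hN]
  exact hN

theorem gap_real (i k : ℤ) (hik : |i - k| ≤ 1) (g : 𝕋.V0 → ℝ) (hg : ∑ b ∈ 𝕋.lB k, g b = 0) :
    ∑ a ∈ 𝕋.lA i, (∑ b ∈ 𝕋.lB k, ({σ | 𝕋.E0 a σ b}.ncard : ℝ) * g b) ^ 2 ≤
      (1 - 1 / 800) ^ 2 * ((kkd l : ℝ) * kkDik l i k) * ∑ b ∈ 𝕋.lB k, g b ^ 2 := by
  have hN : (kkDik l i k : ℝ) * 2 ^ k.natAbs = (kkD l : ℝ) * 2 ^ i.natAbs := by
    exact_mod_cast 𝕋.kkDik_spec i k hik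
  have h := 𝕋.gap i k hik g hg
  have hpos : (0 : ℝ) < 2 ^ k.natAbs := by positivity
  refine le_of_mul_le_mul_right (le_trans h (le_of_eq ?_)) hpos
  rw [mul_assoc (kkd l : ℝ), ← hN]
  ring

/-- the gap for complex functions and a normalised kernel -/
theorem gap_aux (i k : ℤ) (hik : |i - k| ≤ 1) (c : ℝ) (hc2 : c ^ 2 = (kkd l : ℝ) * kkDik l i k)
    (U : 𝕋.V0 → 𝕋.V0 → ℂ)
    (hU : ∀ a ∈ 𝕋.lA i, ∀ b ∈ 𝕋.lB k, U a b = ((({σ | 𝕋.E0 a σ b}.ncard : ℝ) / c : ℝ) : ℂ))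
    (hU0 : ∀ a, a ∉ 𝕋.lA i → ∀ b, U a b = 0) (f : 𝕋.V0 → ℂ)
    (hsupp : Function.support f ⊆ (𝕋.lB k : Set 𝕋.V0)) (hsum : ∑ᶠ v, f v = 0) :
    ∑ᶠ a, ‖∑ᶠ b, U a b * f b‖ ^ 2 ≤ (1 - 1 / 800) ^ 2 * ∑ᶠ b, ‖f b‖ ^ 2 := by
  have hDpos : 0 < kkDik l i k := by
    have h1 := 𝕋.kkDik_spec i k hik
    have h2 : 0 < kkD l * 2 ^ i.natAbs := by unfold kkD kkd; positivity
    rw [← h1] at h2
    exact Nat.pos_of_mul_pos_right h2
  have hc2pos : 0 < c ^ 2 := by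
    rw [hc2]
    have : 0 < kkd l := by unfold kkd; positivity
    positivity
  have hcne : c ≠ 0 := by
    rintro rfl
    simp at hc2pos
  have hin : ∀ a, ∑ᶠ b, U a b * f b = ∑ b ∈ 𝕋.lB k, U a b * f b := by
    intro a
    apply finsum_eq_sum_of_support_subset
    intro b hb
    apply hsupp
    intro h0
    apply hb
    simp [h0]
  have hout : ∑ᶠ a, ‖∑ᶠ b, U a b * f b‖ ^ 2 =
      ∑ a ∈ 𝕋.lA i, ‖∑ b ∈ 𝕋.lB k, U a b * f b‖ ^ 2 := by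
    simp only [hin]
    apply finsum_eq_sum_of_support_subset
    intro a ha
    by_contra hna
    apply ha
    have hna' : a ∉ 𝕋.lA i := hna
    simp [hU0 a hna']
  have hnorm : ∑ᶠ b, ‖f b‖ ^ 2 = ∑ b ∈ 𝕋.lB k, ‖f b‖ ^ 2 := by
    apply finsum_eq_sum_of_support_subset
    intro b hb
    apply hsupp
    intro h0
    apply hb
    simp [h0]
  have hs : ∑ b ∈ 𝕋.lB k, f b = 0 := by
    rw [← finsum_eq_sum_of_support_subset f hsupp]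
    exact hsum
  rw [hout, hnorm]
  have hre := 𝕋.gap_real i k hik (fun v => (f v).re) (by rw [← Complex.re_sum, hs]; rfl)
  have him := 𝕋.gap_real i k hik (fun v => (f v).im) (by rw [← Complex.im_sum, hs]; rfl)
  have hterm : ∀ a ∈ 𝕋.lA i, ‖∑ b ∈ 𝕋.lB k, U a b * f b‖ ^ 2 =
      ((∑ b ∈ 𝕋.lB k, ({σ | 𝕋.E0 a σ b}.ncard : ℝ) * (f b).re) ^ 2 +
        (∑ b ∈ 𝕋.lB k, ({σ | 𝕋.E0 a σ b}.ncard : ℝ) * (f b).im) ^ 2) / c ^ 2 := by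
    intro a ha
    rw [Finset.sum_congr rfl (fun b hb => by rw [hU a ha b hb])]
    rw [Complex.sq_norm, Complex.normSq_apply, Complex.re_sum, Complex.im_sum]
    simp only [Complex.re_ofReal_mul, Complex.im_ofReal_mul]
    have e1 : ∑ b ∈ 𝕋.lB k, ({σ | 𝕋.E0 a σ b}.ncard : ℝ) / c * (f b).re =
        (∑ b ∈ 𝕋.lB k, ({σ | 𝕋.E0 a σ b}.ncard : ℝ) * (f b).re) / c := by
      rw [Finset.sum_div]
      exact Finset.sum_congr rfl fun b _ => by ring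
    have e2 : ∑ b ∈ 𝕋.lB k, ({σ | 𝕋.E0 a σ b}.ncard : ℝ) / c * (f b).im =
        (∑ b ∈ 𝕋.lB k, ({σ | 𝕋.E0 a σ b}.ncard : ℝ) * (f b).im) / c := by
      rw [Finset.sum_div]
      exact Finset.sum_congr rfl fun b _ => by ring
    rw [e1, e2]
    field_simp
  rw [Finset.sum_congr rfl hterm, ← Finset.sum_div, Finset.sum_add_distrib,
    div_le_iff₀ hc2pos]
  have hf2 : ∑ b ∈ 𝕋.lB k, ‖f b‖ ^ 2 =
      ∑ b ∈ 𝕋.lB k, (f b).re ^ 2 + ∑ b ∈ 𝕋.lB k, (f b).im ^ 2 := by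
    rw [← Finset.sum_add_distrib]
    refine Finset.sum_congr rfl fun b _ => ?_
    rw [Complex.sq_norm, Complex.normSq_apply]
    ring
  rw [hf2, hc2]
  linarith

theorem toGraph_gap : 𝕋.toGraph.Gap (1 / 800) := by
  intro i k hik f hf hsum
  refine 𝕋.gap_aux i k hik (kkNrm l i k) (Real.sq_sqrt (by positivity)) (𝕋.toGraph.U0 i k)
    ?_ ?_ f ?_ hsum
  · intro a ha b hb
    unfold KkGraph.U0
    rw [if_pos ⟨((𝕋.mem_lA _ _).1 ha).2, ((𝕋.mem_lB _ _).1 hb).2⟩, inc_eq]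
  · intro a ha b
    unfold KkGraph.U0
    split_ifs with h
    · have : a ∉ 𝕋.sideA := fun hs => ha ((𝕋.mem_lA _ _).2 ⟨hs, h.1⟩)
      rw [𝕋.inc_eq_zero b this]
      simp
    · rfl
  · intro v hv
    exact (𝕋.mem_lB _ _).2 ⟨(hf v hv).2, (hf v hv).1⟩

end KkTower

end Claimed.Agent.R300
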