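/-
Row 300, KK Sections 8-9: the operators `W ⊗ λ(z)` on `ℓ²(F × J)`, the twisted families `X(g) = λ(σ_X g)`,
`Y(g) = R_g ⊗ λ(σ_Y g)`, their coefficient sums `kkLX a`, `kkLY a`, and the FROZEN `ℓ¹` calculus on a sharp arc.
Architect: helper21.  Design notes: header of `KkCalc.lean`.  Proofs: helper193.

`Z = λ(z₀)` corresponds to `e(t)`.  `X(g) X(h) = Z^c X(gh)`, `Y(g) Y(h) = e(-c/q) Z^c Y(gh)`, `c = coc g h`.  On the arc
`[lo, hi] ∋ t₀` one has `‖(Z^c - e(t₀ c)) Q‖ ≤ 2π |c| (hi - lo)` (`kkHom_frozen`, `norm_ee_sub_ee_le`).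
-/
import Claimed.Agent.R300.KkModel

set_option autoImplicit false
set_option linter.unusedSectionVars false

namespace Claimed.Agent.R300

open Nil
open scoped ENNReal ComplexConjugate InnerProductSpace Matrix.Norms.L2Operator

/-! ## `W ⊗ λ(z)` -/

section general

variable {F : Type} [Group F] {J : Type} [Fintype J] [DecidableEq J]

/-- `W ⊗ λ(z)` on `ℓ²(F × J)`. -/
noncomputable def kkWL (W : Matrix J J ℂ) (z : F) : ScL2 (F × J) →L[ℂ] ScL2 (F × J) :=
  smpLConv fun j j' h => open Classical in if h = z then W j j' else 0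

omit [DecidableEq J] in
theorem kkWL_coefBd (W : Matrix J J ℂ) (z : F) :
    ∃ R, SmpCoefBd (fun (j j' : J) (h : F) => open Classical in if h = z then W j j' else 0) R := by
  classical
  refine smpCoefBd_exists_of_finite _ {z} fun u v g hg => ?_
  rw [if_neg (fun h => hg (by rw [h]; exact Finset.mem_singleton_self z))]

omit [DecidableEq J] in
theorem kkWL_hasKer (W : Matrix J J ℂ) (z : F) :
    SmpHasKer (kkWL W z)
      (fun x y => open Classical in if x.1 = z * y.1 then W x.2 y.2 else 0) := by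
  classical
  obtain ⟨R, hR⟩ := kkWL_coefBd W z
  intro x y
  have h := hR.lhasKer x y
  refine h.trans ?_
  simp only [smpLConvK, mul_inv_eq_iff_eq_mul]

theorem kkWL_delta (W : Matrix J J ℂ) (z x : F) (j' : J) :
    kkWL W z (scDelta (x, j')) = ∑ j, W j j' • scDelta (z * x, j) := by
  classical
  ext p
  rw [kkWL_hasKer W z p (x, j'), scL2_sum_apply]
  obtain ⟨f, i⟩ := p
  simp only [lp.coeFn_smul, Pi.smul_apply, smul_eq_mul]
  split_ifs with h
  · have h' : f = z * x := h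
    subst h'
    rw [Finset.sum_eq_single i]
    · rw [scDelta_self, mul_one]
    · intro b _ hb
      rw [scDelta_ne (fun hh => hb (Prod.mk.inj hh).2.symm), mul_zero]
    · intro hh; exact absurd (Finset.mem_univ _) hh
  · refine (Finset.sum_eq_zero fun b _ => ?_).symm
    rw [scDelta_ne (fun hh => h (Prod.mk.inj hh).1), mul_zero]

theorem kkWL_mul (W W' : Matrix J J ℂ) (z z' : F) :
    kkWL W z * kkWL W' z' = kkWL (W * W') (z * z') := by
  refine scOp_ext fun y => ?_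
  obtain ⟨x, j'⟩ := y
  show kkWL W z (kkWL W' z' (scDelta (x, j'))) = _
  rw [kkWL_delta, kkWL_delta, map_sum]
  simp only [map_smul, kkWL_delta, Finset.smul_sum, smul_smul, Matrix.mul_apply, Finset.sum_smul,
    mul_assoc]
  rw [Finset.sum_comm]
  refine Finset.sum_congr rfl fun i _ => Finset.sum_congr rfl fun k _ => ?_
  rw [mul_comm]

theorem kkWL_star (W : Matrix J J ℂ) (z : F) : star (kkWL W z) = kkWL W.conjTranspose z⁻¹ := by
  classical
  obtain ⟨R, hR⟩ := kkWL_coefBd W z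
  unfold kkWL
  rw [smpLConv_star hR]
  congr 1
  funext u v g
  by_cases h : g = z⁻¹
  · subst h
    simp
  · have h' : g⁻¹ ≠ z := fun hh => h (by rw [← hh, inv_inv])
    simp [h, h']

theorem kkWL_norm_le (W : Matrix J J ℂ) (z : F) : ‖kkWL W z‖ ≤ ‖W‖ := by
  classical
  have hK := kkWL_hasKer W z
  refine smp_norm_le_of_blocks _ (fun x : F × J => x.1) (fun y : F × J => z * y.1) ?_ _
    (norm_nonneg _) ?_
  · intro x y hxy
    rw [hK x y]
    exact if_neg hxy
  · intro f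
    have hKr := hK.restr {x : F × J | x.1 = f} {y : F × J | z * y.1 = f}
    have hinj : ∀ g : F, Function.Injective (fun a : J => ((g, a) : F × J)) := fun g a b hab =>
      (Prod.mk.inj hab).2
    have h := hKr.norm_le_matrix_inj (fun a : J => ((f, a) : F × J))
      (fun a : J => ((z⁻¹ * f, a) : F × J)) (hinj _) (hinj _) (by
        intro x y hxy
        rw [if_neg]
        rintro ⟨hx, hy⟩
        refine hxy ⟨⟨x.2, ?_⟩, ⟨y.2, ?_⟩⟩
        · exact Prod.ext hx.symm rfl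
        · refine Prod.ext ?_ rfl
          have hy' : z * y.1 = f := hy
          show z⁻¹ * f = y.1
          rw [← hy', inv_mul_cancel_left])
    refine h.trans (le_of_eq ?_)
    congr 1
    ext a b
    simp only [Matrix.of_apply]
    rw [if_pos ⟨rfl, by show z * (z⁻¹ * f) = f; rw [mul_inv_cancel_left]⟩, if_pos]
    show f = z * (z⁻¹ * f)
    rw [mul_inv_cancel_left]

theorem kkWL_one (z : F) : kkWL (1 : Matrix J J ℂ) z = smpLam z := by
  refine scOp_ext fun y => ?_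
  obtain ⟨x, j'⟩ := y
  rw [kkWL_delta, smpConv_lam_delta, Finset.sum_eq_single j']
  · simp
  · intro b _ hb
    rw [Matrix.one_apply_ne hb, zero_smul]
  · intro hh; exact absurd (Finset.mem_univ _) hh

theorem kkWL_smul (a : ℂ) (W : Matrix J J ℂ) (z : F) : kkWL (a • W) z = a • kkWL W z := by
  refine scOp_ext fun y => ?_
  obtain ⟨x, j'⟩ := y
  rw [smul_apply, kkWL_delta, kkWL_delta, Finset.smul_sum]
  refine Finset.sum_congr rfl fun i _ => ?_
  rw [smul_smul]
  rfl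

theorem kkWL_add (W W' : Matrix J J ℂ) (z : F) : kkWL (W + W') z = kkWL W z + kkWL W' z := by
  refine scOp_ext fun y => ?_
  obtain ⟨x, j'⟩ := y
  rw [add_apply, kkWL_delta, kkWL_delta, kkWL_delta, ← Finset.sum_add_distrib]
  refine Finset.sum_congr rfl fun i _ => ?_
  rw [← add_smul]
  rfl

theorem kkWL_rho_comm (W : Matrix J J ℂ) (z g : F) : Commute (kkWL W z) (specRho g) := by
  obtain ⟨R, hR⟩ := kkWL_coefBd W z
  exact smpLConv_rho_comm hR g

theorem kkWL_lam_comm (W : Matrix J J ℂ) (z z₀ : F) (hz : ∀ g, z₀ * g = g * z₀) :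
    Commute (kkWL W z) (smpLam z₀) := by
  obtain ⟨R, hR⟩ := kkWL_coefBd W z
  exact smpLConv_lam_comm hR z₀ hz

theorem KkLaw.meanOp_eq (μ : KkLaw F J) :
    μ.meanOp = ∑ a, (μ.p a : ℂ) • kkWL (μ.W a) (μ.z a) := by
  classical
  refine SmpHasKer.eq_smpKer ?_
  intro x y
  rw [SmpHasKer.sum Finset.univ (fun a _ => (kkWL_hasKer (μ.W a) (μ.z a)).smul (μ.p a : ℂ)) x y]
  simp only [smpLConvK, KkLaw.mean]
  refine Finset.sum_congr rfl fun a _ => ?_
  congr 1
  by_cases h : x.1 = μ.z a * y.1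
  · rw [if_pos h, if_pos (by rw [h, mul_inv_cancel_right])]
  · rw [if_neg h, if_neg (fun hh => h (by rw [hh, inv_mul_cancel_right]))]

theorem KkLaw.meanOp_norm_le (μ : KkLaw F J) (C : ℝ) (h : ∀ a, ‖μ.W a‖ ≤ C) : ‖μ.meanOp‖ ≤ C := by
  rw [μ.meanOp_eq]
  calc ‖∑ a, (μ.p a : ℂ) • kkWL (μ.W a) (μ.z a)‖
      ≤ ∑ a, ‖(μ.p a : ℂ) • kkWL (μ.W a) (μ.z a)‖ := norm_sum_le _ _
    _ ≤ ∑ a, μ.p a * C := by
        refine Finset.sum_le_sum fun a _ => ?_
        rw [norm_smul, Complex.norm_real, Real.norm_eq_abs, abs_of_nonneg (μ.p_nonneg a)]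
        exact mul_le_mul_of_nonneg_left ((kkWL_norm_le _ _).trans (h a)) (μ.p_nonneg a)
    _ = C := by rw [← Finset.sum_mul, μ.p_sum, one_mul]

omit [Fintype J] [DecidableEq J] in
/-- `f(Z) 1_S(Z) δ_(x,j)` is supported in the orbit of `(x, j)`. -/
theorem kkHom_arc_delta_apply_eq_zero (z₀ : F) (f : C(UnitAddCircle, ℂ)) (S : Set UnitAddCircle)
    (x : F) (j : J) (p : F × J) (hp : p ∉ kkOrb z₀ x j) :
    kkHom (kkU J z₀) f (kkArc (kkU J z₀) S (scDelta (x, j))) p = 0 := by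
  have h1 : Commute (scRestr (kkOrb z₀ x j)) (kkHom (kkU J z₀) f) := by
    apply kkHom_commute
    · have := kkOrb_restr_commute z₀ x j 1
      rwa [zpow_one] at this
    · have := kkOrb_restr_commute z₀ x j (-1)
      rw [zpow_neg_one, ← smpLam_star] at this
      exact this
  have h2 : scRestr (kkOrb z₀ x j) (kkArc (kkU J z₀) S (scDelta (x, j)))
      = kkArc (kkU J z₀) S (scDelta (x, j)) := by
    ext q
    by_cases hq : q ∈ kkOrb z₀ x j
    · rw [scRestr_apply_mem _ hq]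
    · rw [scRestr_apply_not_mem _ hq, kkArc_delta_apply_eq_zero z₀ S x j q hq]
  have h3 : scRestr (kkOrb z₀ x j) (kkHom (kkU J z₀) f (kkArc (kkU J z₀) S (scDelta (x, j)))) =
      kkHom (kkU J z₀) f (scRestr (kkOrb z₀ x j) (kkArc (kkU J z₀) S (scDelta (x, j)))) :=
    congrArg (fun T : ScL2 (F × J) →L[ℂ] ScL2 (F × J) => T (kkArc (kkU J z₀) S (scDelta (x, j))))
      h1.eq
  rw [h2] at h3
  rw [← h3, scRestr_apply_not_mem _ hp]

/-- **Orthogonality of cosets with a sharp cut-off and function coefficients.** -/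
theorem kk_arc_sum_le (z₀ : F) (hz : Function.Injective fun n : ℤ => z₀ ^ n) (lo hi : ℝ)
    (h1 : lo ≤ hi) (h2 : hi ≤ lo + 1) {ι : Type*} (s : Finset ι) (f : ι → C(UnitAddCircle, ℂ))
    (c : ι → ℝ) (hc : ∀ a ∈ s, ∀ t ∈ kkIcc lo hi, ‖f a t‖ ≤ c a) (x : ι → F) (j : ι → J)
    (hx : ∀ a ∈ s, ∀ b ∈ s, a ≠ b → ¬ (j a = j b ∧ ∃ n : ℤ, x a = z₀ ^ n * x b)) :
    ‖∑ a ∈ s, kkHom (kkU J z₀) (f a) (kkArc (kkU J z₀) (kkIcc lo hi) (scDelta (x a, j a)))‖ ^ 2
      ≤ (hi - lo) * ∑ a ∈ s, c a ^ 2 := by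
  rw [sc_norm_sq_sum_of_disjoint, Finset.mul_sum]
  · refine Finset.sum_le_sum fun a ha => ?_
    have hc0 : 0 ≤ c a :=
      (norm_nonneg _).trans (hc a ha (lo : UnitAddCircle) ⟨lo, ⟨le_refl _, h1⟩, rfl⟩)
    set Q := kkArc (kkU J z₀) (kkIcc lo hi) with hQ
    have hQQ : Q (Q (scDelta (x a, j a))) = Q (scDelta (x a, j a)) :=
      congrArg (fun T : ScL2 (F × J) →L[ℂ] ScL2 (F × J) => T (scDelta (x a, j a)))
        (kkArc_isStarProjection (kkU J z₀) (kkIcc lo hi)).isIdempotentElem.eq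
    have hn := kkHom_mul_arc_norm_le (kkU J z₀) (kkIcc lo hi) (kkIcc_isClosed lo hi) (f a) (c a) hc0
      (hc a ha)
    have h3 : ‖kkHom (kkU J z₀) (f a) (Q (scDelta (x a, j a)))‖ ≤ c a * ‖Q (scDelta (x a, j a))‖ := by
      have h4 := ((kkHom (kkU J z₀) (f a) * Q).le_opNorm (Q (scDelta (x a, j a)))).trans
        (mul_le_mul_of_nonneg_right hn (norm_nonneg _))
      have h5 : (kkHom (kkU J z₀) (f a) * Q) (Q (scDelta (x a, j a)))
          = kkHom (kkU J z₀) (f a) (Q (Q (scDelta (x a, j a)))) := rfl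
      rwa [h5, hQQ] at h4
    calc ‖kkHom (kkU J z₀) (f a) (Q (scDelta (x a, j a)))‖ ^ 2
        ≤ (c a * ‖Q (scDelta (x a, j a))‖) ^ 2 := pow_le_pow_left₀ (norm_nonneg _) h3 2
      _ = (hi - lo) * c a ^ 2 := by
          rw [mul_pow, kkArc_delta_norm_sq z₀ hz lo hi h1 h2, mul_comm]
  · intro a ha b hb hab q
    rcases kk_orbit_disjoint z₀ (hx a ha b hb hab) q with h | h
    · left
      exact kkHom_arc_delta_apply_eq_zero z₀ _ _ _ _ q h
    · right
      exact kkHom_arc_delta_apply_eq_zero z₀ _ _ _ _ q h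

end general

end Claimed.Agent.R300
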