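/-
Row 300, KK Section 9.e-9.f: finite laws of `(voltage z, scalar c, matrix R)` ("pre-laws"), their combinators, the
RANDOMISED ROUNDING of the scalar and the anti-concentration calculus.     Architect: helper21.

`KkPre.meanOp μ = E[c · R ⊗ λ(z)]`.   Combinators: `unif`, `mul` (independent product, `meanOp` multiplicative), `mix`
(uniform mixture), `scale`, `sub` (empirical sublist).

SIMPLIFICATION of the paper's deterministic rounding of `c` to a grid: a scalar `c = x + i y` with `|x| + |y| ≤ C` is the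
mean of a random element of `{C, -C, iC, -iC}` (weights `kkRnd C c`).  So `μ.toLaw C` has weights `W ∈ {±C, ±iC} · R`,
EXACTLY the same mean operator and the same law of the voltage.
-/
import Claimed.Agent.R300.KkOps

set_option autoImplicit false
set_option linter.unusedSectionVars false

namespace Claimed.Agent.R300

open Nil
open scoped ENNReal ComplexConjugate InnerProductSpace Matrix.Norms.L2Operator

/-- A finitely supported law of a voltage, a scalar and a matrix. -/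
structure KkPre (F J : Type) where
  Ω : Type
  [fin : Fintype Ω]
  p : Ω → ℝ
  z : Ω → F
  c : Ω → ℂ
  R : Ω → Matrix J J ℂ
  p_nonneg : ∀ a, 0 ≤ p a
  p_sum : ∑ a, p a = 1

attribute [instance] KkPre.fin

/-- the four directions. -/
noncomputable def kkDir : Fin 4 → ℂ := ![1, -1, Complex.I, -Complex.I]

/-- the weights of the randomised rounding. -/
noncomputable def kkRnd (C : ℝ) (c : ℂ) : Fin 4 → ℝ :=
  ![max c.re 0 / C + (1 - (|c.re| + |c.im|) / C) / 4, max (-c.re) 0 / C + (1 - (|c.re| + |c.im|) / C) / 4,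
    max c.im 0 / C + (1 - (|c.re| + |c.im|) / C) / 4, max (-c.im) 0 / C + (1 - (|c.re| + |c.im|) / C) / 4]

theorem kkRnd_nonneg {C : ℝ} (hC : 0 < C) {c : ℂ} (hc : |c.re| + |c.im| ≤ C) (s : Fin 4) :
    0 ≤ kkRnd C c s := by
  have h1 : 0 ≤ (1 - (|c.re| + |c.im|) / C) / 4 := by
    have : (|c.re| + |c.im|) / C ≤ 1 := (div_le_one hC).2 hc
    linarith
  have h2 : ∀ x : ℝ, 0 ≤ max x 0 / C := fun x => div_nonneg (le_max_right _ _) hC.le
  fin_cases s
  · exact add_nonneg (h2 _) h1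
  · exact add_nonneg (h2 _) h1
  · exact add_nonneg (h2 _) h1
  · exact add_nonneg (h2 _) h1

theorem kkPre_max_add (x : ℝ) : max x 0 + max (-x) 0 = |x| := by
  rcases le_total 0 x with h | h
  · rw [max_eq_left h, max_eq_right (by linarith), abs_of_nonneg h, add_zero]
  · rw [max_eq_right h, max_eq_left (by linarith), abs_of_nonpos h, zero_add]

theorem kkPre_max_sub (x : ℝ) : max x 0 - max (-x) 0 = x := by
  rcases le_total 0 x with h | h
  · rw [max_eq_left h, max_eq_right (by linarith), sub_zero]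
  · rw [max_eq_right h, max_eq_left (by linarith)]; ring

theorem kkRnd_sum {C : ℝ} (hC : 0 < C) (c : ℂ) : ∑ s, kkRnd C c s = 1 := by
  have _ := hC
  rw [Fin.sum_univ_four]
  show max c.re 0 / C + (1 - (|c.re| + |c.im|) / C) / 4
      + (max (-c.re) 0 / C + (1 - (|c.re| + |c.im|) / C) / 4)
      + (max c.im 0 / C + (1 - (|c.re| + |c.im|) / C) / 4)
      + (max (-c.im) 0 / C + (1 - (|c.re| + |c.im|) / C) / 4) = 1
  rw [← kkPre_max_add c.re, ← kkPre_max_add c.im]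
  ring

theorem kkRnd_mean {C : ℝ} (hC : 0 < C) (c : ℂ) :
    ∑ s, (kkRnd C c s : ℂ) * ((C : ℂ) * kkDir s) = c := by
  rw [Fin.sum_univ_four]
  show ((max c.re 0 / C + (1 - (|c.re| + |c.im|) / C) / 4 : ℝ) : ℂ) * ((C : ℂ) * 1)
      + ((max (-c.re) 0 / C + (1 - (|c.re| + |c.im|) / C) / 4 : ℝ) : ℂ) * ((C : ℂ) * (-1))
      + ((max c.im 0 / C + (1 - (|c.re| + |c.im|) / C) / 4 : ℝ) : ℂ) * ((C : ℂ) * Complex.I)
      + ((max (-c.im) 0 / C + (1 - (|c.re| + |c.im|) / C) / 4 : ℝ) : ℂ) * ((C : ℂ) * (-Complex.I)) = c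
  have hC' : (C : ℂ) ≠ 0 := by exact_mod_cast hC.ne'
  have h1 : ((max c.re 0 - max (-c.re) 0 : ℝ) : ℂ) = (c.re : ℂ) := by rw [kkPre_max_sub]
  have h2 : ((max c.im 0 - max (-c.im) 0 : ℝ) : ℂ) = (c.im : ℂ) := by rw [kkPre_max_sub]
  conv_rhs => rw [← Complex.re_add_im c, ← h1, ← h2]
  push_cast
  field_simp
  ring

theorem kkDir_norm (s : Fin 4) : ‖kkDir s‖ = 1 := by
  fin_cases s <;> simp [kkDir]

namespace KkPre

variable {F J : Type}

/-- the uniform law on a finite nonempty type. -/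
noncomputable def unif (Ω : Type) [Fintype Ω] [Nonempty Ω] (z : Ω → F) (c : Ω → ℂ)
    (R : Ω → Matrix J J ℂ) : KkPre F J where
  Ω := Ω
  p := fun _ => (Fintype.card Ω : ℝ)⁻¹
  z := z
  c := c
  R := R
  p_nonneg := fun _ => by positivity
  p_sum := by
    have : (Fintype.card Ω : ℝ) ≠ 0 := by exact_mod_cast Fintype.card_ne_zero
    simp [this]

/-- multiply the scalar by a constant. -/
def scale (s : ℂ) (μ : KkPre F J) : KkPre F J where
  Ω := μ.Ω
  p := μ.p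
  z := μ.z
  c := fun a => s * μ.c a
  R := μ.R
  p_nonneg := μ.p_nonneg
  p_sum := μ.p_sum

/-- uniform mixture. -/
noncomputable def mix {ι : Type} [Fintype ι] [Nonempty ι] (μ : ι → KkPre F J) : KkPre F J where
  Ω := Σ i, (μ i).Ω
  p := fun x => (Fintype.card ι : ℝ)⁻¹ * (μ x.1).p x.2
  z := fun x => (μ x.1).z x.2
  c := fun x => (μ x.1).c x.2
  R := fun x => (μ x.1).R x.2
  p_nonneg := fun x => mul_nonneg (by positivity) ((μ x.1).p_nonneg x.2)
  p_sum := by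
    have : (Fintype.card ι : ℝ) ≠ 0 := by exact_mod_cast Fintype.card_ne_zero
    rw [Fintype.sum_sigma]
    simp [← Finset.mul_sum, (μ _).p_sum, this]

/-- empirical sublist. -/
noncomputable def sub (μ : KkPre F J) {M : ℕ} (hM : 0 < M) (ω : Fin M → μ.Ω) : KkPre F J :=
  haveI : Nonempty (Fin M) := ⟨⟨0, hM⟩⟩
  unif (Fin M) (fun j => μ.z (ω j)) (fun j => μ.c (ω j)) (fun j => μ.R (ω j))

/-- randomised rounding of the scalar. -/
noncomputable def toLaw (μ : KkPre F J) (C : ℝ) (hC : 0 < C)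
    (hc : ∀ a, |(μ.c a).re| + |(μ.c a).im| ≤ C) : KkLaw F J where
  Ω := μ.Ω × Fin 4
  p := fun x => μ.p x.1 * kkRnd C (μ.c x.1) x.2
  z := fun x => μ.z x.1
  W := fun x => ((C : ℂ) * kkDir x.2) • μ.R x.1
  p_nonneg := fun x => mul_nonneg (μ.p_nonneg x.1) (kkRnd_nonneg hC (hc x.1) x.2)
  p_sum := by
    rw [Fintype.sum_prod_type]
    simp [← Finset.mul_sum, kkRnd_sum hC, μ.p_sum]

variable [Group F] [Fintype J] [DecidableEq J]

/-- independent product. -/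
def mul (μ ν : KkPre F J) : KkPre F J where
  Ω := μ.Ω × ν.Ω
  p := fun x => μ.p x.1 * ν.p x.2
  z := fun x => μ.z x.1 * ν.z x.2
  c := fun x => μ.c x.1 * ν.c x.2
  R := fun x => μ.R x.1 * ν.R x.2
  p_nonneg := fun x => mul_nonneg (μ.p_nonneg x.1) (ν.p_nonneg x.2)
  p_sum := by
    rw [Fintype.sum_prod_type]
    simp [← Finset.mul_sum, ν.p_sum, μ.p_sum]

/-- `E[c · R ⊗ λ(z)]`. -/
noncomputable def meanOp (μ : KkPre F J) : ScL2 (F × J) →L[ℂ] ScL2 (F × J) :=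
  ∑ a, ((μ.p a : ℂ) * μ.c a) • kkWL (μ.R a) (μ.z a)

theorem meanOp_unif (Ω : Type) [Fintype Ω] [Nonempty Ω] (z : Ω → F) (c : Ω → ℂ)
    (R : Ω → Matrix J J ℂ) :
    (unif Ω z c R).meanOp = (Fintype.card Ω : ℂ)⁻¹ • ∑ a, c a • kkWL (R a) (z a) := by
  rw [Finset.smul_sum]
  show ∑ a : Ω, ((((Fintype.card Ω : ℝ)⁻¹ : ℝ) : ℂ) * c a) • kkWL (R a) (z a) = _
  refine Finset.sum_congr rfl fun a _ => ?_
  rw [smul_smul]
  push_cast
  rfl

theorem meanOp_scale (s : ℂ) (μ : KkPre F J) : (μ.scale s).meanOp = s • μ.meanOp := by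
  unfold meanOp
  rw [Finset.smul_sum]
  show ∑ a : μ.Ω, ((μ.p a : ℂ) * (s * μ.c a)) • kkWL (μ.R a) (μ.z a) = _
  refine Finset.sum_congr rfl fun a _ => ?_
  rw [smul_smul]
  congr 1
  ring

theorem meanOp_mix {ι : Type} [Fintype ι] [Nonempty ι] (μ : ι → KkPre F J) :
    (mix μ).meanOp = (Fintype.card ι : ℂ)⁻¹ • ∑ i, (μ i).meanOp := by
  unfold meanOp
  show ∑ x : (Σ i, (μ i).Ω), ((((Fintype.card ι : ℝ)⁻¹ * (μ x.1).p x.2 : ℝ) : ℂ) * (μ x.1).c x.2)
      • kkWL ((μ x.1).R x.2) ((μ x.1).z x.2) = _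
  rw [Fintype.sum_sigma, Finset.smul_sum]
  refine Finset.sum_congr rfl fun i _ => ?_
  rw [Finset.smul_sum]
  refine Finset.sum_congr rfl fun a _ => ?_
  rw [smul_smul]
  congr 1
  push_cast
  ring

theorem meanOp_mul (μ ν : KkPre F J) : (μ.mul ν).meanOp = μ.meanOp * ν.meanOp := by
  unfold meanOp
  show ∑ x : μ.Ω × ν.Ω, (((μ.p x.1 * ν.p x.2 : ℝ) : ℂ) * (μ.c x.1 * ν.c x.2))
      • kkWL (μ.R x.1 * ν.R x.2) (μ.z x.1 * ν.z x.2) = _
  rw [Fintype.sum_prod_type, Finset.sum_mul_sum]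
  refine Finset.sum_congr rfl fun a _ => Finset.sum_congr rfl fun b _ => ?_
  rw [smul_mul_smul_comm, kkWL_mul]
  congr 1
  push_cast
  ring

theorem meanOp_toLaw (μ : KkPre F J) (C : ℝ) (hC : 0 < C)
    (hc : ∀ a, |(μ.c a).re| + |(μ.c a).im| ≤ C) : (μ.toLaw C hC hc).meanOp = μ.meanOp := by
  rw [KkLaw.meanOp_eq]
  unfold meanOp
  show ∑ x : μ.Ω × Fin 4, ((μ.p x.1 * kkRnd C (μ.c x.1) x.2 : ℝ) : ℂ)
      • kkWL (((C : ℂ) * kkDir x.2) • μ.R x.1) (μ.z x.1) = _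
  rw [Fintype.sum_prod_type]
  refine Finset.sum_congr rfl fun a _ => ?_
  conv_rhs => rw [← kkRnd_mean hC (μ.c a), Finset.mul_sum, Finset.sum_smul]
  refine Finset.sum_congr rfl fun s _ => ?_
  rw [kkWL_smul, smul_smul]
  congr 1
  push_cast
  ring

theorem meanOp_norm_le (μ : KkPre F J) (B : ℝ) (hc : ∀ a, ‖μ.c a‖ ≤ B) (hR : ∀ a, ‖μ.R a‖ ≤ 1) :
    ‖μ.meanOp‖ ≤ B := by
  calc ‖∑ a, ((μ.p a : ℂ) * μ.c a) • kkWL (μ.R a) (μ.z a)‖
      ≤ ∑ a, ‖((μ.p a : ℂ) * μ.c a) • kkWL (μ.R a) (μ.z a)‖ := norm_sum_le _ _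
    _ ≤ ∑ a, μ.p a * B := by
        refine Finset.sum_le_sum fun a _ => ?_
        rw [norm_smul, norm_mul, Complex.norm_real, Real.norm_eq_abs, abs_of_nonneg (μ.p_nonneg a),
          mul_assoc]
        refine mul_le_mul_of_nonneg_left ?_ (μ.p_nonneg a)
        calc ‖μ.c a‖ * ‖kkWL (μ.R a) (μ.z a)‖ ≤ ‖μ.c a‖ * 1 :=
              mul_le_mul_of_nonneg_left ((kkWL_norm_le _ _).trans (hR a)) (norm_nonneg _)
          _ ≤ B := by rw [mul_one]; exact hc a
    _ = B := by rw [← Finset.sum_mul, μ.p_sum, one_mul]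

theorem toLaw_W_norm_le (μ : KkPre F J) (C : ℝ) (hC : 0 < C)
    (hc : ∀ a, |(μ.c a).re| + |(μ.c a).im| ≤ C) (hR : ∀ a, ‖μ.R a‖ ≤ 1) (x : (μ.toLaw C hC hc).Ω) :
    ‖(μ.toLaw C hC hc).W x‖ ≤ C := by
  show ‖((C : ℂ) * kkDir x.2) • μ.R x.1‖ ≤ C
  rw [norm_smul, norm_mul, kkDir_norm, mul_one, Complex.norm_real, Real.norm_eq_abs,
    abs_of_pos hC]
  calc C * ‖μ.R x.1‖ ≤ C * 1 := mul_le_mul_of_nonneg_left (hR x.1) hC.le
    _ = C := mul_one C

end KkPre

/-! ## Anti-concentration calculus -/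

section wide

variable {m : ℕ}

/-- `KkWide` depends only on the law of `u`. -/
theorem KkWide.congr {Ω Ω' : Type} [Fintype Ω] [Fintype Ω'] {p : Ω → ℝ} {p' : Ω' → ℝ}
    {u : Ω → Idx m → ℤ} {u' : Ω' → Idx m → ℤ} {κ : ℝ}
    (h : ∀ t : Idx m → ℤ, ∑ a with u a = t, p a = ∑ a with u' a = t, p' a) (hw : KkWide p u κ) :
    KkWide p' u' κ := by
  obtain ⟨C, iC, pc, Θ, iΘ, r, val, Al, Br, h1, h2, h3, h4, h5, h6⟩ := hw
  exact ⟨C, iC, pc, Θ, iΘ, r, val, Al, Br, h1, h2, h3, h4, h5, fun t => (h t).symm.trans (h6 t)⟩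

theorem KkWide.mono {Ω : Type} [Fintype Ω] {p : Ω → ℝ} {u : Ω → Idx m → ℤ} {κ κ' : ℝ}
    (h : κ ≤ κ') (hw : KkWide p u κ) : KkWide p u κ' := by
  obtain ⟨C, iC, pc, Θ, iΘ, r, val, Al, Br, h1, h2, h3, h4, h5, h6⟩ := hw
  exact ⟨C, iC, pc, Θ, iΘ, r, val, Al, Br, h1, h2, h3, h4, fun c s t => (h5 c s t).trans h, h6⟩

theorem kkPre_ninv_circ_cancel (L y : Idx m → ℤ) : circ (ninv L) (circ L y) = y := by
  rw [← circ_assoc, ninv_circ, zero_circ]

theorem kkPre_circ_ninv_cancel (L y : Idx m → ℤ) : circ L (circ (ninv L) y) = y := by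
  rw [← circ_assoc, circ_ninv, zero_circ]

theorem kkPre_circ_iff (L R y t : Idx m → ℤ) :
    circ (circ L y) R = t ↔ y = circ (circ (ninv L) t) (ninv R) := by
  constructor
  · rintro rfl
    simp only [circ_assoc, circ_ninv, circ_zero, kkPre_ninv_circ_cancel]
  · rintro rfl
    simp only [circ_assoc, ninv_circ, circ_zero, kkPre_circ_ninv_cancel]

/-- **Mixtures of two-sided translates** of wide laws are wide. -/
theorem KkWide.mixT {ι : Type} [Fintype ι] (q : ι → ℝ) (hq : ∀ i, 0 ≤ q i) (hq1 : ∑ i, q i = 1)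
    (Ωi : ι → Type) [∀ i, Fintype (Ωi i)] (pi : ∀ i, Ωi i → ℝ) (ui : ∀ i, Ωi i → Idx m → ℤ)
    (L R : ι → Idx m → ℤ) {κ : ℝ} (hw : ∀ i, KkWide (pi i) (ui i) κ)
    {Ω : Type} [Fintype Ω] {p : Ω → ℝ} {u : Ω → Idx m → ℤ}
    (h : ∀ t : Idx m → ℤ, ∑ a with u a = t, p a
      = ∑ i, q i * ∑ a with circ (circ (L i) (ui i a)) (R i) = t, pi i a) :
    KkWide p u κ := by
  choose C iC pc Θ iΘ r val Al Br h1 h2 h3 h4 h5 h6 using hw
  refine ⟨Σ i, C i, inferInstance, fun x => q x.1 * pc x.1 x.2, fun x => Θ x.1 x.2,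
    fun x s => iΘ x.1 x.2 s, fun x => r x.1 x.2, fun x => val x.1 x.2,
    fun x => circ (L x.1) (Al x.1 x.2), fun x => circ (Br x.1 x.2) (R x.1),
    fun x => mul_nonneg (hq _) (h1 _ _), ?_, fun x => h3 _ _, fun x => h4 _ _, fun x => h5 _ _, ?_⟩
  · rw [Fintype.sum_sigma]
    simp only [← Finset.mul_sum, h2, mul_one, hq1]
  · intro t
    rw [h t, Fintype.sum_sigma]
    refine Finset.sum_congr rfl fun i _ => ?_
    have e1 : ∑ a with circ (circ (L i) (ui i a)) (R i) = t, pi i a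
        = ∑ a with ui i a = circ (circ (ninv (L i)) t) (ninv (R i)), pi i a := by
      refine Finset.sum_congr (Finset.filter_congr fun a _ => ?_) fun _ _ => rfl
      exact kkPre_circ_iff (L i) (R i) (ui i a) t
    rw [e1, h6 i, Finset.mul_sum]
    refine Finset.sum_congr rfl fun c _ => ?_
    rw [mul_assoc]
    refine congrArg _ (congrArg _ (Finset.sum_congr (Finset.filter_congr fun x _ => ?_)
      fun _ _ => rfl))
    rw [← kkPre_circ_iff]
    simp only [circ_assoc]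

/-- independent coordinates, uniform on arithmetic progressions (with an independent auxiliary coordinate `Ξ`). -/
theorem kkWide_box (Ξ : Type) [Fintype Ξ] [Nonempty Ξ] (st : ℤ) (hst : st ≠ 0) (r : Idx m → ℕ) (κ : ℝ)
    (hκ : ∀ s, 1 ≤ κ * (2 * r s + 1)) :
    KkWide (fun _ : Ξ × (∀ s : Idx m, Fin (2 * r s + 1)) =>
        (Fintype.card (Ξ × (∀ s : Idx m, Fin (2 * r s + 1))) : ℝ)⁻¹)
      (fun a s => st * (((a.2 s : ℕ) : ℤ) - r s)) κ := by
  refine ⟨Unit, inferInstance, fun _ => 1, fun _ s => Fin (2 * r s + 1), fun _ _ => inferInstance,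
    fun _ s _ => ((2 * r s + 1 : ℕ) : ℝ)⁻¹, fun _ s a => st * (((a : ℕ) : ℤ) - r s), fun _ => 0,
    fun _ => 0, fun _ => zero_le_one, by simp, fun _ _ _ => by positivity, ?_, ?_, ?_⟩
  · intro _ s
    rw [Finset.sum_const, Finset.card_univ, Fintype.card_fin, nsmul_eq_mul]
    exact mul_inv_cancel₀ (by positivity)
  · intro _ s t
    rw [Finset.sum_const, nsmul_eq_mul]
    have hcard : (Finset.univ.filter
        fun a : Fin (2 * r s + 1) => st * (((a : ℕ) : ℤ) - r s) = t).card ≤ 1 := by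
      rw [Finset.card_le_one]
      intro a ha b hb
      have ha' := (Finset.mem_filter.1 ha).2
      have hb' := (Finset.mem_filter.1 hb).2
      have := mul_left_cancel₀ hst (ha'.trans hb'.symm)
      ext
      omega
    have hpos : (0 : ℝ) < ((2 * r s + 1 : ℕ) : ℝ) := by positivity
    have h1 : (((2 * r s + 1 : ℕ) : ℝ))⁻¹ ≤ κ := by
      rw [inv_le_iff_one_le_mul₀ hpos]
      have := hκ s
      push_cast
      exact this
    calc ((Finset.univ.filter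
          fun a : Fin (2 * r s + 1) => st * (((a : ℕ) : ℤ) - r s) = t).card : ℝ)
          * (((2 * r s + 1 : ℕ) : ℝ))⁻¹ ≤ 1 * (((2 * r s + 1 : ℕ) : ℝ))⁻¹ :=
          mul_le_mul_of_nonneg_right (by exact_mod_cast hcard) (inv_nonneg.2 hpos.le)
      _ ≤ κ := by rw [one_mul]; exact h1
  · intro t
    have hΞ : (Fintype.card Ξ : ℝ) ≠ 0 := by exact_mod_cast Fintype.card_ne_zero
    have hc : (Fintype.card (Ξ × (∀ s : Idx m, Fin (2 * r s + 1))) : ℝ)⁻¹
        = (Fintype.card Ξ : ℝ)⁻¹ * ∏ s, ((2 * r s + 1 : ℕ) : ℝ)⁻¹ := by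
      rw [Fintype.card_prod, Fintype.card_pi, Finset.prod_inv_distrib, ← mul_inv]
      simp only [Fintype.card_fin]
      push_cast
      rfl
    simp only [zero_circ, circ_zero, Finset.univ_unique, Finset.sum_singleton, one_mul]
    rw [Finset.sum_filter, Fintype.sum_prod_type, Finset.sum_filter]
    show ∑ _ξ : Ξ, ∑ y : (∀ s : Idx m, Fin (2 * r s + 1)),
      (if (fun s => st * (((y s : ℕ) : ℤ) - r s)) = t then
        (Fintype.card (Ξ × (∀ s : Idx m, Fin (2 * r s + 1))) : ℝ)⁻¹ else 0) = _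
    rw [Finset.sum_const, Finset.card_univ, nsmul_eq_mul, Finset.mul_sum]
    refine Finset.sum_congr rfl fun x _ => ?_
    split_ifs
    · rw [hc, ← mul_assoc, mul_inv_cancel₀ hΞ, one_mul]
    · rw [mul_zero]

variable {J : Type}

/-- anti-concentration of a coordinate `π` of the voltage. -/
def KkPre.Wide (μ : KkPre (Deck m ℤ) J) (π : Deck m ℤ → Idx m → ℤ) (κ : ℝ) : Prop :=
  KkWide μ.p (fun a => π (μ.z a)) κ

theorem KkPre.Wide.scale {μ : KkPre (Deck m ℤ) J} {π : Deck m ℤ → Idx m → ℤ} {κ : ℝ}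
    (h : μ.Wide π κ) (s : ℂ) : (μ.scale s).Wide π κ := h

theorem KkPre.Wide.mix {ι : Type} [Fintype ι] [Nonempty ι] {μ : ι → KkPre (Deck m ℤ) J}
    {π : Deck m ℤ → Idx m → ℤ} {κ : ℝ} (h : ∀ i, (μ i).Wide π κ) : (KkPre.mix μ).Wide π κ := by
  have hι : (Fintype.card ι : ℝ) ≠ 0 := by exact_mod_cast Fintype.card_ne_zero
  refine KkWide.mixT (fun _ : ι => (Fintype.card ι : ℝ)⁻¹) (fun _ => by positivity)
    (by simp [hι]) (fun i => (μ i).Ω) (fun i => (μ i).p) (fun i a => π ((μ i).z a))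
    (fun _ => 0) (fun _ => 0) h ?_
  intro t
  simp only [zero_circ, circ_zero]
  show ∑ x : (Σ i, (μ i).Ω) with π ((μ x.1).z x.2) = t,
    (Fintype.card ι : ℝ)⁻¹ * (μ x.1).p x.2 = _
  rw [Finset.sum_filter, Fintype.sum_sigma]
  refine Finset.sum_congr rfl fun i _ => ?_
  rw [Finset.sum_filter, Finset.mul_sum]
  refine Finset.sum_congr rfl fun a _ => ?_
  split_ifs
  · rfl
  · rw [mul_zero]

theorem KkPre.Wide.toLaw {μ : KkPre (Deck m ℤ) J} {π : Deck m ℤ → Idx m → ℤ} {κ : ℝ}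
    (h : μ.Wide π κ) (C : ℝ) (hC : 0 < C) (hc : ∀ a, |(μ.c a).re| + |(μ.c a).im| ≤ C) :
    KkWide (μ.toLaw C hC hc).p (fun a => π ((μ.toLaw C hC hc).z a)) κ := by
  refine KkWide.congr (fun t => ?_) h
  show _ = ∑ x : μ.Ω × Fin 4 with π (μ.z x.1) = t, μ.p x.1 * kkRnd C (μ.c x.1) x.2
  rw [Finset.sum_filter, Finset.sum_filter, Fintype.sum_prod_type]
  refine Finset.sum_congr rfl fun a _ => ?_
  split_ifs
  · show _ = ∑ s : Fin 4, μ.p a * kkRnd C (μ.c a) s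
    rw [← Finset.mul_sum, kkRnd_sum hC, mul_one]
  · rw [Finset.sum_const_zero]

variable [Fintype J] [DecidableEq J]

theorem KkPre.Wide.mul_left {μ : KkPre (Deck m ℤ) J} {π : Deck m ℤ → Idx m → ℤ} {κ : ℝ}
    (hπ : ∀ z z', π (z * z') = circ (π z) (π z')) (h : μ.Wide π κ) (ν : KkPre (Deck m ℤ) J) :
    (μ.mul ν).Wide π κ := by
  refine KkWide.mixT ν.p ν.p_nonneg ν.p_sum (fun _ => μ.Ω) (fun _ => μ.p)
    (fun _ a => π (μ.z a)) (fun _ => 0) (fun b => π (ν.z b)) (fun _ => h) ?_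
  intro t
  simp only [zero_circ]
  show ∑ x : μ.Ω × ν.Ω with π (μ.z x.1 * ν.z x.2) = t, μ.p x.1 * ν.p x.2 = _
  rw [Finset.sum_filter, Fintype.sum_prod_type_right]
  refine Finset.sum_congr rfl fun b _ => ?_
  rw [Finset.sum_filter, Finset.mul_sum]
  refine Finset.sum_congr rfl fun a _ => ?_
  rw [hπ]
  split_ifs
  · rw [mul_comm]
  · rw [mul_zero]

theorem KkPre.Wide.mul_right {ν : KkPre (Deck m ℤ) J} {π : Deck m ℤ → Idx m → ℤ} {κ : ℝ}
    (hπ : ∀ z z', π (z * z') = circ (π z) (π z')) (h : ν.Wide π κ) (μ : KkPre (Deck m ℤ) J) :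
    (μ.mul ν).Wide π κ := by
  refine KkWide.mixT μ.p μ.p_nonneg μ.p_sum (fun _ => ν.Ω) (fun _ => ν.p)
    (fun _ b => π (ν.z b)) (fun a => π (μ.z a)) (fun _ => 0) (fun _ => h) ?_
  intro t
  simp only [circ_zero]
  show ∑ x : μ.Ω × ν.Ω with π (μ.z x.1 * ν.z x.2) = t, μ.p x.1 * ν.p x.2 = _
  rw [Finset.sum_filter, Fintype.sum_prod_type]
  refine Finset.sum_congr rfl fun a _ => ?_
  rw [Finset.sum_filter, Finset.mul_sum]
  refine Finset.sum_congr rfl fun b _ => ?_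
  rw [hπ]
  split_ifs
  · rfl
  · rw [mul_zero]

end wide

end Claimed.Agent.R300
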