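import Claimed.Agent.R300.NilFrame

/-!
# KK Section 8, leaf NIL-FRAME-L: `ℓ¹` size and tails of the sampled coefficients, lattice point count

Use the equivalence `EBar m ℤ ≃ (Idx m → ℤ) × (Idx m → ℤ)`; bound finite partial sums (`summable_of_sum_le`,
`Real.tsum_le_of_sum_le`) by products of the two one-factor bounds.
Proofs: helper20.
-/

set_option autoImplicit false

namespace Claimed.Agent.R300.Nil

open MeasureTheory

variable {m : ℕ}

/-- partial sums of a function dominated by a product `u (lam) * v (bet)` -/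
theorem nfl_sum_le (F : EBar m ℤ → ℝ) (u v : (Idx m → ℤ) → ℝ) (U V : ℝ)
    (hu0 : ∀ n, 0 ≤ u n) (hv0 : ∀ n, 0 ≤ v n) (hF : ∀ γ, F γ ≤ u γ.lam * v γ.bet)
    (hU : ∀ S : Finset (Idx m → ℤ), ∑ n ∈ S, u n ≤ U)
    (hV : ∀ S : Finset (Idx m → ℤ), ∑ n ∈ S, v n ≤ V) (S : Finset (EBar m ℤ)) :
    ∑ γ ∈ S, F γ ≤ U * V := by
  classical
  have hU0 : 0 ≤ U := by simpa using hU ∅
  calc ∑ γ ∈ S, F γ ≤ ∑ γ ∈ S, u γ.lam * v γ.bet := Finset.sum_le_sum fun γ _ => hF γ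
    _ = ∑ x ∈ S.image (fun γ => (γ.lam, γ.bet)), u x.1 * v x.2 := by
        rw [Finset.sum_image]
        intro a _ b _ h
        exact EBar.ext (congrArg Prod.fst h) (congrArg Prod.snd h)
    _ ≤ ∑ x ∈ (S.image EBar.lam) ×ˢ (S.image EBar.bet), u x.1 * v x.2 := by
        apply Finset.sum_le_sum_of_subset_of_nonneg
        · intro x hx
          obtain ⟨γ, hγ, rfl⟩ := Finset.mem_image.1 hx
          exact Finset.mem_product.2
            ⟨Finset.mem_image_of_mem _ hγ, Finset.mem_image_of_mem _ hγ⟩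
        · intro x _ _
          exact mul_nonneg (hu0 _) (hv0 _)
    _ = (∑ n ∈ S.image EBar.lam, u n) * ∑ n ∈ S.image EBar.bet, v n := by
        rw [Finset.sum_product, Finset.sum_mul_sum]
    _ ≤ U * V := mul_le_mul (hU _) (hV _) (Finset.sum_nonneg fun _ _ => hv0 _) hU0

/-- the `bet` weight: normalised indicator of a box -/
noncomputable def nflV (m : ℕ) (y R : ℝ) (n : Idx m → ℤ) : ℝ :=
  (∏ p : Idx m, y ^ wtB p) * (if ∀ p, |y ^ wtB p * (n p : ℝ)| ≤ R then 1 else 0)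

/-- the `lam` weight -/
noncomputable def nflU (m : ℕ) (y : ℝ) (n : Idx m → ℤ) : ℝ :=
  (∏ p : Idx m, y ^ wtL p) * ∏ p : Idx m, ((1 + y ^ wtL p * |(n p : ℝ)|) ^ 2)⁻¹

theorem nflV_nonneg {y : ℝ} (hy : 0 < y) (R : ℝ) (n : Idx m → ℤ) : 0 ≤ nflV m y R n := by
  unfold nflV
  split_ifs <;> positivity

theorem nflU_nonneg {y : ℝ} (hy : 0 < y) (n : Idx m → ℤ) : 0 ≤ nflU m y n := by
  unfold nflU
  positivity

theorem nflV_sum_le {y R : ℝ} (hy : 0 < y) (hy1 : y ≤ 1) (hR : 0 ≤ R)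
    (S : Finset (Idx m → ℤ)) : ∑ n ∈ S, nflV m y R n ≤ (2 * R + 1) ^ nf m := by
  classical
  have hs0 : ∀ p : Idx m, 0 < y ^ wtB p := fun p => pow_pos hy _
  have hs1 : ∀ p : Idx m, y ^ wtB p ≤ 1 := fun p => pow_le_one₀ hy.le hy1
  refine le_trans ?_ (nil_count R hR (fun p : Idx m => y ^ wtB p) hs0 hs1)
  unfold nflV
  rw [← Finset.mul_sum, Finset.sum_boole]
  apply mul_le_mul_of_nonneg_left _ (Finset.prod_nonneg fun p _ => (hs0 p).le)
  have hfin := nil_lattice_finite R (fun p : Idx m => y ^ wtB p) hs0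
  have h1 : ((S.filter fun n : Idx m → ℤ => ∀ p, |y ^ wtB p * (n p : ℝ)| ≤ R : Finset _) :
      Set (Idx m → ℤ)).ncard ≤ {n : Idx m → ℤ | ∀ p, |y ^ wtB p * (n p : ℝ)| ≤ R}.ncard := by
    apply Set.ncard_le_ncard _ hfin
    intro n hn
    exact (Finset.mem_filter.1 (Finset.mem_coe.1 hn)).2
  rw [Set.ncard_coe_finset] at h1
  exact_mod_cast h1

theorem nflU_sum_le {y : ℝ} (hy : 0 < y) (hy1 : y ≤ 1) (S : Finset (Idx m → ℤ)) :
    ∑ n ∈ S, nflU m y n ≤ 3 ^ nf m := by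
  have hs0 : ∀ p : Idx m, 0 < y ^ wtL p := fun p => pow_pos hy _
  have hs1 : ∀ p : Idx m, y ^ wtL p ≤ 1 := fun p => pow_le_one₀ hy.le hy1
  have := nil_decay_sum (fun p : Idx m => y ^ wtL p) hs0 hs1 S
  unfold nflU
  rw [← Finset.mul_sum]
  exact this

theorem nflU_tail_le {y Lam : ℝ} (hy : 0 < y) (hy1 : y ≤ 1) (hLam : 1 ≤ Lam)
    (S : Finset (Idx m → ℤ)) :
    ∑ n ∈ S, (if ∃ p, Lam < y ^ wtL p * |(n p : ℝ)| then nflU m y n else 0)
      ≤ nf m * 3 ^ nf m * (2 / Lam) := by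
  classical
  have hs0 : ∀ p : Idx m, 0 < y ^ wtL p := fun p => pow_pos hy _
  have hs1 : ∀ p : Idx m, y ^ wtL p ≤ 1 := fun p => pow_le_one₀ hy.le hy1
  have := nil_decay_tail (fun p : Idx m => y ^ wtL p) hs0 hs1 Lam hLam
    (S.filter fun n => ∃ p, Lam < y ^ wtL p * |(n p : ℝ)|)
    (fun n hn => (Finset.mem_filter.1 hn).2)
  rw [← Finset.sum_filter]
  unfold nflU
  rw [← Finset.mul_sum]
  exact this

/-- pointwise domination of the sampled coefficients -/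
theorem nfl_point (w : Win m) : ∃ C R : ℝ, 0 ≤ C ∧ 0 ≤ R ∧ ∀ (y : ℝ) (γ : EBar m ℤ), 0 < y →
    ‖kk w y γ‖ ≤ (C * nflU m y γ.lam) * nflV m y R γ.bet := by
  obtain ⟨C, hC, hdec⟩ := JJ_decay w
  obtain ⟨R, hR, hR0⟩ := nil_R0 m
  refine ⟨C, R, hC, hR, ?_⟩
  intro y γ hy
  have hnu : 0 ≤ nu m y := by unfold nu; positivity
  have hkk : ‖kk w y γ‖ = nu m y * ‖JJ w (sc y γ)‖ := by
    unfold kk
    rw [norm_mul, Complex.norm_real, Real.norm_of_nonneg hnu]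
  rw [hkk]
  by_cases hbox : ∀ p, |y ^ wtB p * (γ.bet p : ℝ)| ≤ R
  · have h1 := hdec (sc y γ)
    have h2 : ∀ p, |(sc y γ).lam p| = y ^ wtL p * |(γ.lam p : ℝ)| := by
      intro p
      rw [sc_lam, abs_mul, abs_of_pos (pow_pos hy _)]
    simp only [h2] at h1
    have hpos : 0 < ∏ p : Idx m, (1 + y ^ wtL p * |(γ.lam p : ℝ)|) ^ 2 :=
      Finset.prod_pos fun p _ => by positivity
    have h3 : ‖JJ w (sc y γ)‖ ≤ C * ∏ p : Idx m, ((1 + y ^ wtL p * |(γ.lam p : ℝ)|) ^ 2)⁻¹ := by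
      rw [Finset.prod_inv_distrib, ← div_eq_mul_inv, le_div_iff₀ hpos]
      exact h1
    unfold nflU nflV
    rw [if_pos hbox, mul_one, nu_eq]
    calc (∏ p : Idx m, y ^ wtL p) * (∏ p : Idx m, y ^ wtB p) * ‖JJ w (sc y γ)‖
        ≤ (∏ p : Idx m, y ^ wtL p) * (∏ p : Idx m, y ^ wtB p) *
            (C * ∏ p : Idx m, ((1 + y ^ wtL p * |(γ.lam p : ℝ)|) ^ 2)⁻¹) :=
          mul_le_mul_of_nonneg_left h3 (by positivity)
      _ = _ := by ring
  · push Not at hbox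
    obtain ⟨p, hp⟩ := hbox
    have h1 : R < ‖(sc y γ).bet‖ := by
      refine lt_of_lt_of_le hp ?_
      rw [← sc_bet, ← Real.norm_eq_abs]
      exact norm_le_pi_norm _ p
    rw [JJ_supp w R hR0 _ h1, norm_zero, mul_zero]
    exact mul_nonneg (mul_nonneg hC (nflU_nonneg hy _)) (nflV_nonneg hy _ _)

/-- (F5) `ℓ¹` size of `kk` and of its tails (from `JJ_decay`, `JJ_supp`, `nil_decay_sum`, `nil_decay_tail`,
`nil_count`; the sum over `EBar m ℤ` factors as (sum over `lam`) x (sum over `bet`)) -/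
theorem kk_l1 (w : Win m) : ∃ C : ℝ, 0 ≤ C ∧ ∀ y : ℝ, 0 < y → y ≤ 1 →
    Summable (fun γ => ‖kk w y γ‖) ∧ ∑' γ, ‖kk w y γ‖ ≤ C := by
  obtain ⟨C, R, hC, hR, hpt⟩ := nfl_point w
  refine ⟨(C * 3 ^ nf m) * (2 * R + 1) ^ nf m, by positivity, ?_⟩
  intro y hy hy1
  have key : ∀ S : Finset (EBar m ℤ), ∑ γ ∈ S, ‖kk w y γ‖ ≤ (C * 3 ^ nf m) * (2 * R + 1) ^ nf m :=
    nfl_sum_le _ (fun n => C * nflU m y n) (nflV m y R) _ _
      (fun n => mul_nonneg hC (nflU_nonneg hy n)) (nflV_nonneg hy R) (fun γ => hpt y γ hy)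
      (fun S => by
        rw [← Finset.mul_sum]
        exact mul_le_mul_of_nonneg_left (nflU_sum_le hy hy1 S) hC)
      (nflV_sum_le hy hy1 hR)
  exact ⟨summable_of_sum_le (fun _ => norm_nonneg _) key,
    Real.tsum_le_of_sum_le (fun _ => norm_nonneg _) key⟩

/-- a large sup norm is attained at a coordinate -/
theorem nfl_exists_coord {Lam : ℝ} (hLam : 0 ≤ Lam) (x : VV m) (h : Lam < ‖x‖) :
    ∃ p, Lam < |x p| := by
  by_contra hcon
  push Not at hcon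
  exact absurd ((pi_norm_le_iff_of_nonneg hLam).2 fun p => by
    rw [Real.norm_eq_abs]; exact hcon p) (not_le.2 h)

theorem kk_tail (w : Win m) : ∃ C : ℝ, 0 ≤ C ∧ ∀ (y Lam : ℝ), 0 < y → y ≤ 1 → 1 ≤ Lam →
    ∑' γ : EBar m ℤ, (if Lam < ‖(sc y γ).lam‖ then ‖kk w y γ‖ else 0) ≤ C / Lam := by
  obtain ⟨C, R, hC, hR, hpt⟩ := nfl_point w
  refine ⟨(C * (nf m * 3 ^ nf m * 2)) * (2 * R + 1) ^ nf m, by positivity, ?_⟩
  intro y Lam hy hy1 hLam
  have hLam0 : 0 < Lam := by linarith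
  have key : ∀ S : Finset (EBar m ℤ),
      ∑ γ ∈ S, (if Lam < ‖(sc y γ).lam‖ then ‖kk w y γ‖ else 0)
        ≤ (C * (nf m * 3 ^ nf m * (2 / Lam))) * (2 * R + 1) ^ nf m :=
    nfl_sum_le _
      (fun n => C * (if ∃ p, Lam < y ^ wtL p * |(n p : ℝ)| then nflU m y n else 0))
      (nflV m y R) _ _
      (fun n => by
        apply mul_nonneg hC
        split_ifs
        · exact nflU_nonneg hy n
        · exact le_rfl)
      (nflV_nonneg hy R)
      (fun γ => by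
        split_ifs with h1 h2
        · exact hpt y γ hy
        · exfalso
          obtain ⟨p, hp⟩ := nfl_exists_coord hLam0.le _ h1
          apply h2
          refine ⟨p, ?_⟩
          rwa [sc_lam, abs_mul, abs_of_pos (pow_pos hy _)] at hp
        · exact mul_nonneg (mul_nonneg hC (nflU_nonneg hy _)) (nflV_nonneg hy _ _)
        · simp)
      (fun S => by
        rw [← Finset.mul_sum]
        exact mul_le_mul_of_nonneg_left (nflU_tail_le hy hy1 hLam S) hC)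
      (nflV_sum_le hy hy1 hR)
  have h2 := Real.tsum_le_of_sum_le (f := fun γ : EBar m ℤ =>
    (if Lam < ‖(sc y γ).lam‖ then ‖kk w y γ‖ else 0)) (fun γ => by
      simp only
      split_ifs
      · exact norm_nonneg _
      · exact le_rfl) key
  refine h2.trans (le_of_eq ?_)
  field_simp

theorem kk_sup_tail (w : Win m) : ∃ C : ℝ, 0 ≤ C ∧ ∀ (y Lam : ℝ) (γ : EBar m ℤ), 0 < y → y ≤ 1 → 1 ≤ Lam →
    Lam < ‖(sc y γ).lam‖ → ‖kk w y γ‖ ≤ C / Lam * nu m y := by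
  obtain ⟨C, hC, hdec⟩ := JJ_decay w
  refine ⟨C, hC, ?_⟩
  intro y Lam γ hy _ hLam hbig
  have hLam0 : 0 < Lam := by linarith
  have hnu : 0 ≤ nu m y := by unfold nu; positivity
  have hkk : ‖kk w y γ‖ = nu m y * ‖JJ w (sc y γ)‖ := by
    unfold kk
    rw [norm_mul, Complex.norm_real, Real.norm_of_nonneg hnu]
  obtain ⟨p, hp⟩ := nfl_exists_coord hLam0.le _ hbig
  have h1 : Lam ≤ ∏ q, (1 + |(sc y γ).lam q|) ^ 2 := by
    classical
    rw [← Finset.mul_prod_erase Finset.univ _ (Finset.mem_univ p)]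
    have h2 : (1 : ℝ) ≤ ∏ q ∈ Finset.univ.erase p, (1 + |(sc y γ).lam q|) ^ 2 := by
      calc (1 : ℝ) = ∏ _q ∈ Finset.univ.erase p, (1 : ℝ) := by simp
        _ ≤ _ := Finset.prod_le_prod (fun _ _ => zero_le_one) fun q _ => by
            have := abs_nonneg ((sc y γ).lam q)
            nlinarith
    have h3 : Lam ≤ (1 + |(sc y γ).lam p|) ^ 2 := by nlinarith [abs_nonneg ((sc y γ).lam p)]
    nlinarith
  have h4 : ‖JJ w (sc y γ)‖ * Lam ≤ C :=
    (mul_le_mul_of_nonneg_left h1 (norm_nonneg _)).trans (hdec _)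
  have h5 : ‖JJ w (sc y γ)‖ ≤ C / Lam := by rwa [le_div_iff₀ hLam0]
  rw [hkk, mul_comm]
  exact mul_le_mul_of_nonneg_right h5 hnu

/-- volume-normalised number of lattice points in a box of scaled coordinates -/
theorem sc_count (R : ℝ) (hR : 0 ≤ R) (y : ℝ) (hy0 : 0 < y) (hy1 : y ≤ 1) :
    Set.Finite {γ : EBar m ℤ | ‖(sc y γ).lam‖ ≤ R ∧ ‖(sc y γ).bet‖ ≤ R} ∧
    nu m y * (Set.ncard {γ : EBar m ℤ | ‖(sc y γ).lam‖ ≤ R ∧ ‖(sc y γ).bet‖ ≤ R} : ℝ)
      ≤ (2 * R + 1) ^ (2 * nf m) := by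
  have hL0 : ∀ p : Idx m, 0 < y ^ wtL p := fun p => pow_pos hy0 _
  have hL1 : ∀ p : Idx m, y ^ wtL p ≤ 1 := fun p => pow_le_one₀ hy0.le hy1
  have hB0 : ∀ p : Idx m, 0 < y ^ wtB p := fun p => pow_pos hy0 _
  have hB1 : ∀ p : Idx m, y ^ wtB p ≤ 1 := fun p => pow_le_one₀ hy0.le hy1
  set BL : Set (Idx m → ℤ) := {n | ∀ p, |y ^ wtL p * (n p : ℝ)| ≤ R} with hBL
  set BB : Set (Idx m → ℤ) := {n | ∀ p, |y ^ wtB p * (n p : ℝ)| ≤ R} with hBB
  have hfL : BL.Finite := nil_lattice_finite R (fun p : Idx m => y ^ wtL p) hL0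
  have hfB : BB.Finite := nil_lattice_finite R (fun p : Idx m => y ^ wtB p) hB0
  have hset : {γ : EBar m ℤ | ‖(sc y γ).lam‖ ≤ R ∧ ‖(sc y γ).bet‖ ≤ R}
      = (fun x : (Idx m → ℤ) × (Idx m → ℤ) => (⟨x.1, x.2⟩ : EBar m ℤ)) '' (BL ×ˢ BB) := by
    ext γ
    simp only [Set.mem_ofPred_eq, Set.mem_image, Set.mem_prod, Prod.exists]
    constructor
    · rintro ⟨h1, h2⟩
      refine ⟨γ.lam, γ.bet, ⟨?_, ?_⟩, rfl⟩
      · intro p
        have := (pi_norm_le_iff_of_nonneg hR).1 h1 p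
        rwa [Real.norm_eq_abs, sc_lam] at this
      · intro p
        have := (pi_norm_le_iff_of_nonneg hR).1 h2 p
        rwa [Real.norm_eq_abs, sc_bet] at this
    · rintro ⟨n, n', ⟨h1, h2⟩, rfl⟩
      refine ⟨(pi_norm_le_iff_of_nonneg hR).2 fun p => ?_,
        (pi_norm_le_iff_of_nonneg hR).2 fun p => ?_⟩
      · rw [Real.norm_eq_abs, sc_lam]; exact h1 p
      · rw [Real.norm_eq_abs, sc_bet]; exact h2 p
  have hinj : Function.Injective
      (fun x : (Idx m → ℤ) × (Idx m → ℤ) => (⟨x.1, x.2⟩ : EBar m ℤ)) := by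
    intro x x' h
    exact Prod.ext (congrArg EBar.lam h) (congrArg EBar.bet h)
  rw [hset]
  refine ⟨(hfL.prod hfB).image _, ?_⟩
  rw [Set.ncard_image_of_injective _ hinj, Set.ncard_prod, nu_eq]
  have h1 := nil_count R hR (fun p : Idx m => y ^ wtL p) hL0 hL1
  have h2 := nil_count R hR (fun p : Idx m => y ^ wtB p) hB0 hB1
  push_cast
  calc (∏ p : Idx m, y ^ wtL p) * (∏ p : Idx m, y ^ wtB p) * ((BL.ncard : ℝ) * (BB.ncard : ℝ))
      = ((∏ p : Idx m, y ^ wtL p) * (BL.ncard : ℝ)) * ((∏ p : Idx m, y ^ wtB p) * (BB.ncard : ℝ)) := by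
        ring
    _ ≤ (2 * R + 1) ^ nf m * (2 * R + 1) ^ nf m :=
        mul_le_mul h1 h2 (by positivity) (by positivity)
    _ = (2 * R + 1) ^ (2 * nf m) := by rw [← pow_add]; congr 1; ring

end Claimed.Agent.R300.Nil
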