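import Claimed.Agent.R300.NilFrameC
import Claimed.Agent.R300.NilFrameL

/-!
# KK Section 8: EXPORT.  Compactly supported templates and their `ℓ¹`/`ℓ²` calculus (paper P8.7, L8.8)

`cut Lam l` = Lipschitz cut-off, `1` for `‖l‖ ≤ Lam`, `0` for `‖l‖ ≥ 2 Lam`.
`Jf w Lam a = cut Lam a.lam * JJ w a`   (paper: J^flat_+;  J^flat_- is its complex conjugate),
`tpl w Lam y γ = y^(m n_f) * Jf w Lam (Delta_y γ)`   (paper: alpha^(n_f) J^flat(Delta_{alpha^(1/m)} γ), alpha = y^m).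

MATHEMATICS of `tpl_main`.  `k = kk w y`, `k♭ = tpl`, `T = k - k♭` (`|T| ≤ |k| 1[Lam < ‖lam‖]`), `d = dd w y`,
`e = k♭ * k♭ - k♭ = d - k * T - T * k♭ + T`.
  `‖T‖₁ ≤ C/Lam` (`kk_tail`), `‖T‖_∞ ≤ C nu/Lam` (`kk_sup_tail`), `‖k‖₁ ≤ C` (`kk_l1`).
  `e` is supported in a set `S₂` of scaled radius `R₂(Lam)` (`norm_circ_le`, `norm_lact_le`), `nu #S₂ ≤ C(Lam)` (`sc_count`);
  `∑_{S₂} |d| ≤ sqrt(#S₂) ‖d‖₂ ≤ C(Lam) y` (`dd_l2`, Cauchy-Schwarz);  so `‖e‖₁ ≤ C(Lam) y + C/Lam`;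
  `‖e‖_∞ ≤ nu (C y + C/Lam)` (`dd_sup`, `norm_tconv_le`, `norm_tconv_le'`);  `‖e‖₂² ≤ ‖e‖_∞ ‖e‖₁`;
  `‖k♭‖₂² ≤ ‖k‖₂²`, `‖k‖₂² - ‖k♭‖₂² ≤ 2 ‖k‖_∞ ‖T‖₁`  (`kk_l2`, `JJ_bound`).
  adjoint: `JJ_inv` gives `k* = k` exactly, `k♭* - k♭ = T - T*`.
First choose `Lam`, then `y0`.
-/

set_option autoImplicit false

namespace Claimed.Agent.R300.Nil

open MeasureTheory

variable {m : ℕ}

/-- Lipschitz cut-off -/
noncomputable def cut (Lam : ℝ) (l : VV m) : ℝ := max 0 (min 1 (2 - ‖l‖ / Lam))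

/-- compactly supported coefficient function (paper: J^flat_+) -/
noncomputable def Jf (w : Win m) (Lam : ℝ) (a : EBar m ℝ) : ℂ := (cut Lam a.lam : ℂ) * JJ w a

/-- the template at scale `y` (paper: alpha = y^m) -/
noncomputable def tpl (w : Win m) (Lam y : ℝ) (γ : EBar m ℤ) : ℂ := (nu m y : ℂ) * Jf w Lam (sc y γ)

/-- twisted adjoint of a coefficient function -/
noncomputable def tadj (θ : ℝ) (a : EBar m ℤ → ℂ) (γ : EBar m ℤ) : ℂ :=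
  (starRingEnd ℂ) (a γ⁻¹ * om θ γ γ⁻¹)

/-- radius of the `bet` support -/
noncomputable def R0 (m : ℕ) : ℝ := Classical.choose (nil_R0 m)

lemma cut_nonneg (Lam : ℝ) (l : VV m) : 0 ≤ cut Lam l := le_max_left _ _

lemma cut_le_one (Lam : ℝ) (l : VV m) : cut Lam l ≤ 1 :=
  max_le zero_le_one (min_le_left _ _)

theorem cut_eq_one {Lam : ℝ} (hL : 0 < Lam) {l : VV m} (h : ‖l‖ ≤ Lam) : cut Lam l = 1 := by
  have h1 : ‖l‖ / Lam ≤ 1 := (div_le_one hL).mpr h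
  unfold cut
  rw [min_eq_left (by linarith), max_eq_right zero_le_one]

theorem cut_eq_zero {Lam : ℝ} (hL : 0 < Lam) {l : VV m} (h : 2 * Lam ≤ ‖l‖) : cut Lam l = 0 := by
  have h1 : 2 ≤ ‖l‖ / Lam := (le_div_iff₀ hL).mpr h
  unfold cut
  rw [min_eq_right (by linarith), max_eq_left (by linarith)]

theorem cut_lipschitz {Lam : ℝ} (hL : 0 < Lam) (l l' : VV m) :
    |cut Lam l - cut Lam l'| ≤ ‖l - l'‖ / Lam := by
  unfold cut
  refine (abs_max_sub_max_le_max (0 : ℝ) _ 0 _).trans ?_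
  rw [sub_self, abs_zero, max_eq_right (abs_nonneg _)]
  refine (abs_min_sub_min_le_max (1 : ℝ) _ 1 _).trans ?_
  rw [sub_self, abs_zero, max_eq_right (abs_nonneg _)]
  have e : 2 - ‖l‖ / Lam - (2 - ‖l'‖ / Lam) = (‖l'‖ - ‖l‖) / Lam := by ring
  rw [e, abs_div, abs_of_pos hL]
  refine div_le_div_of_nonneg_right ?_ hL.le
  rw [abs_sub_comm]
  exact abs_norm_sub_norm_le l l'

/-- (T0) `Jf` is bounded, Lipschitz, compactly supported -/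
theorem Jf_bound (w : Win m) : ∃ C : ℝ, 0 ≤ C ∧ ∀ (Lam : ℝ) (a : EBar m ℝ), ‖Jf w Lam a‖ ≤ C := by
  obtain ⟨C, hC0, hC⟩ := JJ_bound w
  refine ⟨C, hC0, fun Lam a => ?_⟩
  unfold Jf
  rw [norm_mul, Complex.norm_real, Real.norm_of_nonneg (cut_nonneg _ _)]
  calc cut Lam a.lam * ‖JJ w a‖ ≤ 1 * C :=
        mul_le_mul (cut_le_one _ _) (hC a) (norm_nonneg _) zero_le_one
    _ = C := one_mul _

theorem Jf_lipschitz (w : Win m) : ∃ K : ℝ, 0 ≤ K ∧ ∀ (Lam : ℝ) (a a' : EBar m ℝ), 1 ≤ Lam →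
    ‖Jf w Lam a - Jf w Lam a'‖ ≤ K * (‖a.lam - a'.lam‖ + ‖a.bet - a'.bet‖) := by
  obtain ⟨C, hC0, hC⟩ := JJ_bound w
  obtain ⟨K, hK0, hK⟩ := JJ_lipschitz w
  refine ⟨K + C, by positivity, fun Lam a a' hL => ?_⟩
  have hL0 : 0 < Lam := by linarith
  have e : Jf w Lam a - Jf w Lam a'
      = (cut Lam a.lam : ℂ) * (JJ w a - JJ w a')
        + ((cut Lam a.lam - cut Lam a'.lam : ℝ) : ℂ) * JJ w a' := by
    unfold Jf; push_cast; ring
  have h1 : ‖(cut Lam a.lam : ℂ) * (JJ w a - JJ w a')‖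
      ≤ K * (‖a.lam - a'.lam‖ + ‖a.bet - a'.bet‖) := by
    rw [norm_mul, Complex.norm_real, Real.norm_of_nonneg (cut_nonneg _ _)]
    calc cut Lam a.lam * ‖JJ w a - JJ w a'‖ ≤ 1 * (K * (‖a.lam - a'.lam‖ + ‖a.bet - a'.bet‖)) :=
          mul_le_mul (cut_le_one _ _) (hK a a') (norm_nonneg _) zero_le_one
      _ = _ := one_mul _
  have h2 : ‖((cut Lam a.lam - cut Lam a'.lam : ℝ) : ℂ) * JJ w a'‖
      ≤ C * (‖a.lam - a'.lam‖ + ‖a.bet - a'.bet‖) := by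
    rw [norm_mul, Complex.norm_real, Real.norm_eq_abs]
    have h3 : |cut Lam a.lam - cut Lam a'.lam| ≤ ‖a.lam - a'.lam‖ :=
      (cut_lipschitz hL0 _ _).trans (div_le_self (norm_nonneg _) hL)
    calc |cut Lam a.lam - cut Lam a'.lam| * ‖JJ w a'‖
        ≤ (‖a.lam - a'.lam‖ + ‖a.bet - a'.bet‖) * C :=
          mul_le_mul (h3.trans (le_add_of_nonneg_right (norm_nonneg _))) (hC a') (norm_nonneg _)
            (by positivity)
      _ = _ := mul_comm _ _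
  rw [e]
  calc _ ≤ _ := norm_add_le _ _
    _ ≤ K * (‖a.lam - a'.lam‖ + ‖a.bet - a'.bet‖) + C * (‖a.lam - a'.lam‖ + ‖a.bet - a'.bet‖) :=
        add_le_add h1 h2
    _ = _ := by ring

theorem Jf_supp (w : Win m) {Lam : ℝ} (hL : 0 < Lam) (a : EBar m ℝ) (h : Jf w Lam a ≠ 0) :
    ‖a.lam‖ ≤ 2 * Lam ∧ ‖a.bet‖ ≤ R0 m := by
  constructor
  · by_contra hc
    apply h
    unfold Jf
    rw [cut_eq_zero hL (not_le.mp hc).le]
    simp
  · by_contra hc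
    apply h
    unfold Jf
    rw [JJ_supp w (R0 m) (Classical.choose_spec (nil_R0 m)).2 a (not_le.mp hc), mul_zero]

/-- (T1) support of the template: weighted coordinate box -/
theorem tpl_supp (w : Win m) {Lam y : ℝ} (hL : 0 < Lam) (γ : EBar m ℤ)
    (h : tpl w Lam y γ ≠ 0) :
    (∀ p, y ^ wtL p * |(γ.lam p : ℝ)| ≤ 2 * Lam) ∧ (∀ p, y ^ wtB p * |(γ.bet p : ℝ)| ≤ R0 m) := by
  have h1 : Jf w Lam (sc y γ) ≠ 0 := fun h0 => h (by unfold tpl; rw [h0, mul_zero])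
  obtain ⟨h2, h3⟩ := Jf_supp w hL _ h1
  constructor
  · intro p
    have h4 : |(sc y γ).lam p| ≤ ‖(sc y γ).lam‖ := norm_le_pi_norm (sc y γ).lam p
    rw [sc_lam, abs_mul] at h4
    exact (mul_le_mul_of_nonneg_right (le_abs_self _) (abs_nonneg _)).trans (h4.trans h2)
  · intro p
    have h4 : |(sc y γ).bet p| ≤ ‖(sc y γ).bet‖ := norm_le_pi_norm (sc y γ).bet p
    rw [sc_bet, abs_mul] at h4
    exact (mul_le_mul_of_nonneg_right (le_abs_self _) (abs_nonneg _)).trans (h4.trans h3)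

theorem tpl_finite_support (w : Win m) {Lam y : ℝ} (hL : 0 < Lam) (hy : 0 < y) :
    Set.Finite {γ : EBar m ℤ | tpl w Lam y γ ≠ 0} := by
  classical
  set B : ℝ := ∑ p : Idx m, (2 * Lam / y ^ wtL p + |R0 m| / y ^ wtB p) with hB
  have hterm : ∀ p : Idx m, 0 ≤ 2 * Lam / y ^ wtL p + |R0 m| / y ^ wtB p := fun p => by positivity
  have hBp : ∀ p : Idx m, 2 * Lam / y ^ wtL p + |R0 m| / y ^ wtB p ≤ B := fun p =>
    Finset.single_le_sum (f := fun p : Idx m => 2 * Lam / y ^ wtL p + |R0 m| / y ^ wtB p)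
      (fun p _ => hterm p) (Finset.mem_univ p)
  set N : ℤ := ⌈B⌉ with hN
  have hfin : Set.Finite ((fun q : (Idx m → ℤ) × (Idx m → ℤ) => (⟨q.1, q.2⟩ : EBar m ℤ)) ''
      (Set.Icc (fun _ => -N) (fun _ => N) ×ˢ Set.Icc (fun _ => -N) (fun _ => N))) :=
    ((Set.finite_Icc _ _).prod (Set.finite_Icc _ _)).image _
  refine hfin.subset ?_
  intro γ hγ
  obtain ⟨h1, h2⟩ := tpl_supp w hL γ hγ
  have key : ∀ (c : ℤ), |(c : ℝ)| ≤ B → -N ≤ c ∧ c ≤ N := by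
    intro c hc
    have h3 : |(c : ℝ)| ≤ (N : ℝ) := hc.trans (Int.le_ceil B)
    obtain ⟨h4, h5⟩ := abs_le.mp h3
    constructor
    · exact_mod_cast h4
    · exact_mod_cast h5
  have hl : ∀ p, |(γ.lam p : ℝ)| ≤ B := fun p => by
    have h3 : |(γ.lam p : ℝ)| ≤ 2 * Lam / y ^ wtL p := by
      rw [le_div_iff₀ (pow_pos hy _), mul_comm]; exact h1 p
    have h4 : 0 ≤ |R0 m| / y ^ wtB p := by positivity
    linarith [hBp p]
  have hb : ∀ p, |(γ.bet p : ℝ)| ≤ B := fun p => by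
    have h3 : |(γ.bet p : ℝ)| ≤ |R0 m| / y ^ wtB p := by
      rw [le_div_iff₀ (pow_pos hy _), mul_comm]; exact (h2 p).trans (le_abs_self _)
    have h4 : 0 ≤ 2 * Lam / y ^ wtL p := by positivity
    linarith [hBp p]
  refine ⟨(γ.lam, γ.bet), ⟨⟨fun p => (key _ (hl p)).1, fun p => (key _ (hl p)).2⟩,
    ⟨fun p => (key _ (hb p)).1, fun p => (key _ (hb p)).2⟩⟩, rfl⟩

/-- (T1') the cocycle on the supports -/
theorem tpl_coc_bound (w : Win m) {Lam y : ℝ} (hL : 0 < Lam) (hy : 0 < y) (g h : EBar m ℤ)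
    (hg : tpl w Lam y g ≠ 0) (hh : tpl w Lam y h ≠ 0) :
    y ^ m * |((EBar.coc g h : ℤ) : ℝ)| ≤ nf m * (2 * Lam) * R0 m := by
  have h1 : Jf w Lam (sc y g) ≠ 0 := fun h0 => hg (by unfold tpl; rw [h0, mul_zero])
  have h2 : Jf w Lam (sc y h) ≠ 0 := fun h0 => hh (by unfold tpl; rw [h0, mul_zero])
  have h3 := (Jf_supp w hL _ h1).2
  have h4 := (Jf_supp w hL _ h2).1
  have e : y ^ m * |((EBar.coc g h : ℤ) : ℝ)| = |EBar.coc (sc y g) (sc y h)| := by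
    rw [coc_sc, abs_mul, abs_of_pos (pow_pos hy _)]
  rw [e]
  unfold EBar.coc
  refine (abs_pr_le _ _).trans ?_
  unfold nf
  gcongr

/-- (T2) uniform `ℓ¹` bound (constant independent of the cut-off) -/
theorem tpl_l1 (w : Win m) : ∃ C : ℝ, 0 ≤ C ∧ ∀ (Lam y : ℝ), 0 < Lam → 0 < y → y ≤ 1 →
    ∑' γ, ‖tpl w Lam y γ‖ ≤ C := by
  obtain ⟨C, hC0, hC⟩ := kk_l1 w
  refine ⟨C, hC0, fun Lam y _ hy0 hy1 => ?_⟩
  obtain ⟨hs, hle⟩ := hC y hy0 hy1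
  have hb : ∀ γ, ‖tpl w Lam y γ‖ ≤ ‖kk w y γ‖ := by
    intro γ
    unfold tpl kk Jf
    rw [norm_mul, norm_mul, norm_mul, Complex.norm_real (cut _ _),
      Real.norm_of_nonneg (cut_nonneg _ _)]
    refine mul_le_mul_of_nonneg_left ?_ (norm_nonneg _)
    exact mul_le_of_le_one_left (norm_nonneg _) (cut_le_one _ _)
  have hs' : Summable fun γ => ‖tpl w Lam y γ‖ :=
    Summable.of_nonneg_of_le (fun _ => norm_nonneg _) hb hs
  exact (hs'.tsum_le_tsum hb hs).trans hle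

end Claimed.Agent.R300.Nil
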