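/-
Row 300, KK Sections 8-9: the twisted families `X(g) = λ(σ_X g)`, `Y(g) = R_g ⊗ λ(σ_Y g)` on `ℓ²(Deck × J)`, their
coefficient sums `kkLX a`, `kkLY a`, and the FROZEN `ℓ¹` calculus on a sharp arc.   Architect: helper21.

`Z = λ(z₀)` corresponds to `e(t)`.  `X(g) X(h) = Z^c X(gh)`, `Y(g) Y(h) = e(-c/q) Z^c Y(gh)`, `c = coc g h`.  On the arc
`[lo, hi] ∋ t₀` one has `‖(Z^c - e(t₀ c)) Q‖ ≤ 2π |c| (hi - lo)` (`kkHom_frozen`, `norm_ee_sub_ee_le`).
-/
import Claimed.Agent.R300.KkOps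
import Claimed.Agent.R300.NilTpl

set_option autoImplicit false
set_option linter.unusedSectionVars false

namespace Claimed.Agent.R300

open Nil
open scoped ENNReal ComplexConjugate InnerProductSpace Matrix.Norms.L2Operator

section twisted

variable {Γ : Type*} [Group Γ] {𝓐 : Type*} [NormedRing 𝓐] [NormedAlgebra ℂ 𝓐]

/-- coefficient sums `∑ a(g) U(g)` -/
noncomputable def kkL (U : Γ → 𝓐) (a : Γ → ℂ) : 𝓐 := ∑ᶠ g, a g • U g

theorem kkL_eq_sum (U : Γ → 𝓐) (a : Γ → ℂ) (s : Finset Γ) (hs : Function.support a ⊆ s) :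
    kkL U a = ∑ g ∈ s, a g • U g := by
  unfold kkL
  refine finsum_eq_sum_of_support_subset _ fun g hg => hs ?_
  intro h0
  apply hg
  simp only [h0, zero_smul]

theorem kk_tsum_eq_sum (a : Γ → ℂ) (s : Finset Γ) (hs : Function.support a ⊆ s) :
    ∑' g, ‖a g‖ = ∑ g ∈ s, ‖a g‖ := by
  refine tsum_eq_sum fun g hg => ?_
  have : a g = 0 := by
    by_contra h
    exact hg (by exact_mod_cast hs h)
  rw [this, norm_zero]

theorem kkL_norm_le (U : Γ → 𝓐) (hU : ∀ g, ‖U g‖ ≤ 1) (a : Γ → ℂ)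
    (ha : (Function.support a).Finite) : ‖kkL U a‖ ≤ ∑' g, ‖a g‖ := by
  rw [kkL_eq_sum U a ha.toFinset (by simp), kk_tsum_eq_sum a ha.toFinset (by simp)]
  refine (norm_sum_le _ _).trans (Finset.sum_le_sum fun g _ => ?_)
  rw [norm_smul]
  exact mul_le_of_le_one_right (norm_nonneg _) (hU g)

theorem kkL_sub (U : Γ → 𝓐) (a b : Γ → ℂ) (ha : (Function.support a).Finite)
    (hb : (Function.support b).Finite) : kkL U a - kkL U b = kkL U fun g => a g - b g := by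
  classical
  have h1 : Function.support a ⊆ ↑(ha.toFinset ∪ hb.toFinset) := by
    intro g hg; simp [Function.mem_support.1 hg]
  have h2 : Function.support b ⊆ ↑(ha.toFinset ∪ hb.toFinset) := by
    intro g hg; simp [Function.mem_support.1 hg]
  have h3 : Function.support (fun g => a g - b g) ⊆ ↑(ha.toFinset ∪ hb.toFinset) := by
    intro g hg
    by_contra hcon
    simp only [Finset.coe_union, Set.Finite.coe_toFinset, Set.mem_union, Function.mem_support,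
      not_or, not_not] at hcon
    apply hg
    simp only [hcon.1, hcon.2, sub_zero]
  rw [kkL_eq_sum U a _ h1, kkL_eq_sum U b _ h2, kkL_eq_sum U _ _ h3, ← Finset.sum_sub_distrib]
  refine Finset.sum_congr rfl fun g _ => ?_
  rw [sub_smul]

theorem kkL_commute (U : Γ → 𝓐) (a : Γ → ℂ) (T : 𝓐) (h : ∀ g, Commute (U g) T) :
    Commute (kkL U a) T := by
  unfold kkL
  refine finsum_induction (fun x => Commute x T) (Commute.zero_left T)
    (fun x y hx hy => hx.add_left hy) fun g => (h g).smul_left (a g)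

theorem kkL_mul (U : Γ → 𝓐) (a b : Γ → ℂ) (A B : Finset Γ) (hA : Function.support a ⊆ A)
    (hB : Function.support b ⊆ B) :
    kkL U a * kkL U b = ∑ g ∈ A, ∑ h ∈ B, (a g * b h) • (U g * U h) := by
  rw [kkL_eq_sum U a A hA, kkL_eq_sum U b B hB, Finset.sum_mul_sum]
  refine Finset.sum_congr rfl fun g _ => Finset.sum_congr rfl fun h _ => ?_
  rw [smul_mul_smul_comm]

theorem kk_tconv_eq_sum (ω : Γ → Γ → ℂ) (a b : Γ → ℂ) (A : Finset Γ)
    (hA : Function.support a ⊆ A) (k : Γ) :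
    tconv ω a b k = ∑ g ∈ A, a g * b (g⁻¹ * k) * ω g (g⁻¹ * k) := by
  unfold tconv
  refine tsum_eq_sum fun g hg => ?_
  have : a g = 0 := by
    by_contra h
    exact hg (by exact_mod_cast hA h)
  rw [this, zero_mul, zero_mul]

theorem kkL_tconv (U : Γ → 𝓐) (ω : Γ → Γ → ℂ) (a b : Γ → ℂ) (A B : Finset Γ)
    (hA : Function.support a ⊆ A) (hB : Function.support b ⊆ B) :
    kkL U (tconv ω a b) = ∑ g ∈ A, ∑ h ∈ B, (a g * b h * ω g h) • U (g * h) := by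
  classical
  set S : Finset Γ := (A ×ˢ B).image fun p => p.1 * p.2 with hS
  have hb0 : ∀ h, h ∉ B → b h = 0 := by
    intro h hh
    by_contra h0
    exact hh (by exact_mod_cast hB h0)
  have hsupp : Function.support (tconv ω a b) ⊆ S := by
    intro k hk
    by_contra hcon
    apply hk
    rw [kk_tconv_eq_sum ω a b A hA]
    refine Finset.sum_eq_zero fun g hg => ?_
    have : g⁻¹ * k ∉ B := by
      intro hB'
      apply hcon
      rw [hS]
      simp only [Finset.coe_image, Set.mem_image, Finset.mem_coe, Finset.mem_product]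
      exact ⟨(g, g⁻¹ * k), ⟨hg, hB'⟩, by simp⟩
    rw [hb0 _ this, mul_zero, zero_mul]
  rw [kkL_eq_sum U _ S hsupp]
  simp only [kk_tconv_eq_sum ω a b A hA, Finset.sum_smul]
  rw [Finset.sum_comm]
  refine Finset.sum_congr rfl fun g hg => ?_
  have himg : B.image (fun h => g * h) ⊆ S := by
    intro k hk
    obtain ⟨h, hh, rfl⟩ := Finset.mem_image.1 hk
    exact Finset.mem_image.2 ⟨(g, h), Finset.mem_product.2 ⟨hg, hh⟩, rfl⟩
  rw [← Finset.sum_subset himg]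
  · rw [Finset.sum_image fun x _ y _ hxy => mul_left_cancel hxy]
    refine Finset.sum_congr rfl fun h _ => ?_
    rw [inv_mul_cancel_left]
  · intro k _ hk
    have : g⁻¹ * k ∉ B := by
      intro hB'
      apply hk
      exact Finset.mem_image.2 ⟨g⁻¹ * k, hB', by simp⟩
    rw [hb0 _ this, mul_zero, zero_mul, zero_smul]

theorem kk_reindex {M : Type*} [AddCommMonoid M] (A B S : Finset Γ)
    (hS : ∀ g ∈ A, ∀ h ∈ B, g * h ∈ S) (Ψ : Γ → Γ → M) (hΨ : ∀ g h, h ∉ B → Ψ g h = 0) :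
    ∑ k ∈ S, ∑ g ∈ A, Ψ g (g⁻¹ * k) = ∑ g ∈ A, ∑ h ∈ B, Ψ g h := by
  classical
  rw [Finset.sum_comm]
  refine Finset.sum_congr rfl fun g hg => ?_
  have himg : B.image (fun h => g * h) ⊆ S := by
    intro k hk
    obtain ⟨h, hh, rfl⟩ := Finset.mem_image.1 hk
    exact hS g hg h hh
  rw [← Finset.sum_subset himg]
  · rw [Finset.sum_image fun x _ y _ hxy => mul_left_cancel hxy]
    refine Finset.sum_congr rfl fun h _ => ?_
    rw [inv_mul_cancel_left]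
  · intro k _ hk
    apply hΨ
    intro hB'
    apply hk
    exact Finset.mem_image.2 ⟨g⁻¹ * k, hB', by simp⟩

theorem kk_tconv_eq_zero (ω : Γ → Γ → ℂ) (a b : Γ → ℂ) (A B S : Finset Γ)
    (hA : Function.support a ⊆ A) (hB : Function.support b ⊆ B)
    (hS : ∀ g ∈ A, ∀ h ∈ B, g * h ∈ S) (k : Γ) (hk : k ∉ S) : tconv ω a b k = 0 := by
  rw [kk_tconv_eq_sum ω a b A hA]
  refine Finset.sum_eq_zero fun g hg => ?_
  have : b (g⁻¹ * k) = 0 := by
    by_contra h0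
    apply hk
    have := hS g hg (g⁻¹ * k) (by exact_mod_cast hB h0)
    rwa [mul_inv_cancel_left] at this
  rw [this, mul_zero, zero_mul]

/-- abstract frozen product -/
theorem kkL_mul_frozen (U : Γ → 𝓐) (Q : 𝓐) (ω : Γ → Γ → ℂ) (a b : Γ → ℂ)
    (ha : (Function.support a).Finite) (hb : (Function.support b).Finite) (ε : ℝ)
    (h : ∀ g h, a g ≠ 0 → b h ≠ 0 → ‖(U g * U h - ω g h • U (g * h)) * Q‖ ≤ ε) :
    ‖(kkL U a * kkL U b - kkL U (tconv ω a b)) * Q‖ ≤ ε * ((∑' g, ‖a g‖) * ∑' g, ‖b g‖) := by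
  rw [kkL_mul U a b ha.toFinset hb.toFinset (by simp) (by simp),
    kkL_tconv U ω a b ha.toFinset hb.toFinset (by simp) (by simp),
    kk_tsum_eq_sum a ha.toFinset (by simp), kk_tsum_eq_sum b hb.toFinset (by simp),
    ← Finset.sum_sub_distrib, Finset.sum_mul, Finset.sum_mul_sum, Finset.mul_sum]
  refine (norm_sum_le _ _).trans (Finset.sum_le_sum fun g hg => ?_)
  rw [← Finset.sum_sub_distrib, Finset.sum_mul, Finset.mul_sum]
  refine (norm_sum_le _ _).trans (Finset.sum_le_sum fun k hk => ?_)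
  have e : ((a g * b k) • (U g * U k) - (a g * b k * ω g k) • U (g * k)) * Q
      = (a g * b k) • ((U g * U k - ω g k • U (g * k)) * Q) := by
    rw [mul_smul (a g * b k), ← smul_sub, smul_mul_assoc]
  rw [e, norm_smul, norm_mul, mul_comm]
  refine mul_le_mul_of_nonneg_right (h g k ?_ ?_) (by positivity)
  · simpa using hg
  · simpa using hk

variable [StarRing 𝓐] [StarModule ℂ 𝓐]

theorem kkL_star (U : Γ → 𝓐) (a : Γ → ℂ) (A : Finset Γ) (hA : Function.support a ⊆ A) :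
    star (kkL U a) = ∑ g ∈ A, conj (a g) • star (U g) := by
  rw [kkL_eq_sum U a A hA, star_sum]
  refine Finset.sum_congr rfl fun g _ => ?_
  rw [star_smul]
  rfl

theorem kkL_adj (U : Γ → 𝓐) (κ : Γ → ℂ) (a : Γ → ℂ) (A : Finset Γ)
    (hA : Function.support a ⊆ A) :
    kkL U (fun γ => conj (a γ⁻¹ * κ γ)) = ∑ g ∈ A, conj (a g * κ g⁻¹) • U g⁻¹ := by
  classical
  have hsupp : Function.support (fun γ => conj (a γ⁻¹ * κ γ)) ⊆ ↑(A.image fun g => g⁻¹) := by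
    intro γ hγ
    have h1 : a γ⁻¹ ≠ 0 := by
      intro h0
      apply hγ
      simp only [h0, zero_mul, map_zero]
    have h2 : γ⁻¹ ∈ A := by exact_mod_cast hA h1
    simp only [Finset.coe_image, Set.mem_image, Finset.mem_coe]
    exact ⟨γ⁻¹, h2, inv_inv γ⟩
  rw [kkL_eq_sum U _ _ hsupp, Finset.sum_image fun x _ y _ hxy => inv_injective hxy]
  refine Finset.sum_congr rfl fun g _ => ?_
  rw [inv_inv]

/-- abstract frozen adjoint -/
theorem kkL_star_frozen (U : Γ → 𝓐) (Q : 𝓐) (κ : Γ → ℂ) (a : Γ → ℂ)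
    (ha : (Function.support a).Finite) (ε : ℝ)
    (h : ∀ g, a g ≠ 0 → ‖(star (U g) - conj (κ g⁻¹) • U g⁻¹) * Q‖ ≤ ε) :
    ‖(star (kkL U a) - kkL U (fun γ => conj (a γ⁻¹ * κ γ))) * Q‖ ≤ ε * ∑' g, ‖a g‖ := by
  rw [kkL_star U a ha.toFinset (by simp), kkL_adj U κ a ha.toFinset (by simp),
    kk_tsum_eq_sum a ha.toFinset (by simp), ← Finset.sum_sub_distrib, Finset.sum_mul,
    Finset.mul_sum]
  refine (norm_sum_le _ _).trans (Finset.sum_le_sum fun g hg => ?_)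
  have e : (conj (a g) • star (U g) - conj (a g * κ g⁻¹) • U g⁻¹) * Q
      = conj (a g) • ((star (U g) - conj (κ g⁻¹) • U g⁻¹) * Q) := by
    rw [map_mul, mul_smul, ← smul_sub, smul_mul_assoc]
  rw [e, norm_smul, RCLike.norm_conj, mul_comm]
  refine mul_le_mul_of_nonneg_right (h g ?_) (norm_nonneg _)
  simpa using hg

end twisted

section arcsum

variable {F : Type} [Group F] {J : Type}

/-- one step: with an everywhere bound and an outer function -/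
theorem kk_arc_sum_aux (z₀ : F) (hz : Function.Injective fun n : ℤ => z₀ ^ n)
    (S : Set UnitAddCircle) {ι : Type*} (s : Finset ι) (f : ι → C(UnitAddCircle, ℂ))
    (μ k : C(UnitAddCircle, ℂ)) (hμ : ∀ t ∈ S, μ t = 1) (C' : ℝ)
    (hC : ∀ t, ∑ a ∈ s, ‖f a t * μ t‖ ^ 2 ≤ C' * ‖k t‖ ^ 2) (x : ι → F) (j : ι → J)
    (hx : ∀ a ∈ s, ∀ b ∈ s, a ≠ b → ¬ (j a = j b ∧ ∃ n : ℤ, x a = z₀ ^ n * x b)) :
    ‖∑ a ∈ s, kkHom (kkU J z₀) (f a) (kkArc (kkU J z₀) S (scDelta (x a, j a)))‖ ^ 2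
      ≤ C' * ∫ t, ‖k t‖ ^ 2 ∂AddCircle.haarAddCircle := by
  have h1 : ∀ a, kkHom (kkU J z₀) (f a) (kkArc (kkU J z₀) S (scDelta (x a, j a)))
      = kkArc (kkU J z₀) S (kkHom (kkU J z₀) (f a * μ) (scDelta (x a, j a))) := by
    intro a
    have e1 := kkHom_mul_arc_congr (kkU J z₀) S (f a) (f a * μ) (fun t ht => by
      simp [hμ t ht])
    have e2 := (kkArc_commute_hom (kkU J z₀) S (f a * μ)).eq
    have e3 := congrArg (fun T : ScL2 (F × J) →L[ℂ] ScL2 (F × J) => T (scDelta (x a, j a)))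
      (e1.trans e2)
    exact e3
  simp only [h1]
  rw [← map_sum]
  refine (kk_proj_norm_le (kkArc_isStarProjection _ _) _).trans ?_
  rw [kk_parseval z₀ hz s _ x j hx, ← MeasureTheory.integral_finsetSum,
    ← MeasureTheory.integral_const_mul]
  · refine MeasureTheory.integral_mono ?_ ?_ fun t => ?_
    · refine Continuous.integrable_of_hasCompactSupport ?_ (HasCompactSupport.of_compactSpace _)
      fun_prop
    · refine Continuous.integrable_of_hasCompactSupport ?_ (HasCompactSupport.of_compactSpace _)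
      fun_prop
    · exact hC t
  · intro a _
    refine Continuous.integrable_of_hasCompactSupport ?_ (HasCompactSupport.of_compactSpace _)
    fun_prop

/-- **Orthogonality of cosets with a sharp cut-off and function coefficients**, `sup` of the sum. -/
theorem kk_arc_sum_le_sup (z₀ : F) (hz : Function.Injective fun n : ℤ => z₀ ^ n) (lo hi : ℝ)
    (h1 : lo ≤ hi) (h2 : hi ≤ lo + 1) {ι : Type*} (s : Finset ι) (f : ι → C(UnitAddCircle, ℂ))
    (C : ℝ) (hC : ∀ t ∈ kkIcc lo hi, ∑ a ∈ s, ‖f a t‖ ^ 2 ≤ C) (x : ι → F) (j : ι → J)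
    (hx : ∀ a ∈ s, ∀ b ∈ s, a ≠ b → ¬ (j a = j b ∧ ∃ n : ℤ, x a = z₀ ^ n * x b)) :
    ‖∑ a ∈ s, kkHom (kkU J z₀) (f a) (kkArc (kkU J z₀) (kkIcc lo hi) (scDelta (x a, j a)))‖ ^ 2
      ≤ (hi - lo) * C := by
  have hC0 : 0 ≤ C := by
    have := hC (lo : UnitAddCircle) ⟨lo, ⟨le_rfl, h1⟩, rfl⟩
    exact (Finset.sum_nonneg fun a _ => by positivity).trans this
  have hL0 : 0 ≤ hi - lo := by linarith
  have key : ∀ η : ℝ, 0 < η →
      ‖∑ a ∈ s, kkHom (kkU J z₀) (f a) (kkArc (kkU J z₀) (kkIcc lo hi) (scDelta (x a, j a)))‖ ^ 2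
        ≤ (C + η) * ((hi - lo) + η) := by
    intro η hη
    have hC' : 0 < C + η := by linarith
    obtain ⟨k, hk1, hk2⟩ := kk_exists_outer (kkIcc lo hi) (kkIcc_isClosed lo hi) η hη
    rw [kk_measure_Icc lo hi h2, ENNReal.toReal_ofReal hL0] at hk2
    let G : UnitAddCircle → ℝ := fun t => ∑ a ∈ s, ‖f a t‖ ^ 2
    have hGc : Continuous G := by
      refine continuous_finsetSum _ fun a _ => ?_
      fun_prop
    have hG0 : ∀ t, 0 ≤ G t := fun t => Finset.sum_nonneg fun a _ => by positivity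
    have hmax : ∀ t, 0 < max (C + η) (G t) := fun t => lt_of_lt_of_le hC' (le_max_left _ _)
    let r : C(UnitAddCircle, ℂ) :=
      ⟨fun t => (((C + η) / max (C + η) (G t) : ℝ) : ℂ), by
        apply Complex.continuous_ofReal.comp
        apply Continuous.div continuous_const (continuous_const.max hGc)
        intro t
        exact (hmax t).ne'⟩
    have hr1 : ∀ t ∈ kkIcc lo hi, r t = 1 := by
      intro t ht
      have : G t ≤ C + η := (hC t ht).trans (by linarith)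
      simp only [r, ContinuousMap.coe_mk, max_eq_left this, div_self hC'.ne', Complex.ofReal_one]
    have hrG : ∀ t, ‖r t‖ ^ 2 * G t ≤ C + η := by
      intro t
      have hq0 : 0 ≤ (C + η) / max (C + η) (G t) := div_nonneg hC'.le (hmax t).le
      have hq1 : (C + η) / max (C + η) (G t) ≤ 1 := by
        rw [div_le_one (hmax t)]
        exact le_max_left _ _
      have hqG : (C + η) / max (C + η) (G t) * G t ≤ C + η := by
        rw [div_mul_eq_mul_div, div_le_iff₀ (hmax t)]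
        exact mul_le_mul_of_nonneg_left (le_max_right _ _) hC'.le
      simp only [r, ContinuousMap.coe_mk, Complex.norm_real, Real.norm_eq_abs, abs_of_nonneg hq0]
      calc ((C + η) / max (C + η) (G t)) ^ 2 * G t
          ≤ ((C + η) / max (C + η) (G t)) * G t := by
            apply mul_le_mul_of_nonneg_right _ (hG0 t)
            nlinarith
        _ ≤ C + η := hqG
    have h := kk_arc_sum_aux z₀ hz (kkIcc lo hi) s f (r * k) k
      (fun t ht => by simp [hr1 t ht, hk1 t ht]) (C + η) (fun t => ?_) x j hx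
    · refine h.trans ?_
      exact mul_le_mul_of_nonneg_left hk2 hC'.le
    · have e : ∀ a, ‖f a t * (r * k) t‖ ^ 2 = ‖f a t‖ ^ 2 * (‖r t‖ ^ 2 * ‖k t‖ ^ 2) := by
        intro a
        rw [ContinuousMap.mul_apply, norm_mul, norm_mul]
        ring
      simp only [e]
      rw [← Finset.sum_mul]
      calc (∑ a ∈ s, ‖f a t‖ ^ 2) * (‖r t‖ ^ 2 * ‖k t‖ ^ 2)
          = (‖r t‖ ^ 2 * G t) * ‖k t‖ ^ 2 := by simp only [G]; ring
        _ ≤ (C + η) * ‖k t‖ ^ 2 := mul_le_mul_of_nonneg_right (hrG t) (by positivity)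
  refine le_of_forall_pos_le_add fun δ hδ => ?_
  set η : ℝ := min 1 (δ / (C + (hi - lo) + 1)) with hη
  have hden : 0 < C + (hi - lo) + 1 := by linarith
  have hη0 : 0 < η := lt_min one_pos (div_pos hδ hden)
  have hη1 : η ≤ 1 := min_le_left _ _
  have hη2 : η * (C + (hi - lo) + 1) ≤ δ := by
    have : η ≤ δ / (C + (hi - lo) + 1) := min_le_right _ _
    rwa [le_div_iff₀ hden] at this
  refine (key η hη0).trans ?_
  nlinarith

end arcsum

/-! ## The twisted families -/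

section deck

variable {m : ℕ} (q : ℕ) [NeZero q]

/-- the Hilbert space `ℓ²(F × J)`, `F = Deck m ℤ`, `J = Idx m → ZMod q`. -/
abbrev KkK (m q : ℕ) : Type := ScL2 (Deck m ℤ × (Idx m → ZMod q))

/-- `X(g) = λ(σ_X g)`. -/
noncomputable def kkX (g : EBar m ℤ) : KkK m q →L[ℂ] KkK m q := smpLam (Deck.sigX g)

/-- `Y(g) = R_g ⊗ λ(σ_Y g)`. -/
noncomputable def kkY (g : EBar m ℤ) : KkK m q →L[ℂ] KkK m q := kkWL (Rq q g) (Deck.sigY g)

/-- `∑ a(g) X(g)` (finitely supported `a`). -/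
noncomputable def kkLX (a : EBar m ℤ → ℂ) : KkK m q →L[ℂ] KkK m q := ∑ᶠ g, a g • kkX q g

/-- `∑ a(g) Y(g)` (finitely supported `a`). -/
noncomputable def kkLY (a : EBar m ℤ → ℂ) : KkK m q →L[ℂ] KkK m q := ∑ᶠ g, a g • kkY q g

/-- the sharp arc projection on `KkK m q`. -/
noncomputable def kkQ (lo hi : ℝ) : KkK m q →L[ℂ] KkK m q :=
  kkArc (kkU (Idx m → ZMod q) (Deck.z0 : Deck m ℤ)) (kkIcc lo hi)

theorem deck_z0_injective : Function.Injective fun n : ℤ => (Deck.z0 : Deck m ℤ) ^ n := by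
  intro n k h
  simp only [Deck.z0_zpow] at h
  exact congrArg Deck.z h

theorem deck_z0_central (g : Deck m ℤ) : Deck.z0 * g = g * Deck.z0 := Deck.cen_comm 1 g

theorem kkX_mul (g h : EBar m ℤ) :
    kkX q g * kkX q h = smpLam ((Deck.z0 : Deck m ℤ) ^ (EBar.coc g h)) * kkX q (g * h) := by
  unfold kkX
  rw [← smpLam_mul, ← smpLam_mul, Deck.sigX_mul, Deck.z0_zpow]

theorem kkY_mul (g h : EBar m ℤ) :
    kkY q g * kkY q h = ee (-((EBar.coc g h : ℤ) : ℝ) / q) •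
      (smpLam ((Deck.z0 : Deck m ℤ) ^ (EBar.coc g h)) * kkY q (g * h)) := by
  unfold kkY
  rw [kkWL_mul, Rq_mul, Deck.sigY_mul, kkWL_smul, ← kkWL_one, kkWL_mul, one_mul, Deck.z0_zpow]

theorem kkX_star (g : EBar m ℤ) :
    star (kkX q g) = smpLam ((Deck.z0 : Deck m ℤ) ^ (-(EBar.coc g⁻¹ g))) * kkX q g⁻¹ := by
  unfold kkX
  rw [smpLam_star, ← smpLam_mul, Deck.z0_zpow]
  congr 1
  ext1 <;> simp

theorem kkY_star (g : EBar m ℤ) :
    star (kkY q g) = ee (((EBar.coc g⁻¹ g : ℤ) : ℝ) / q) •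
      (smpLam ((Deck.z0 : Deck m ℤ) ^ (-(EBar.coc g⁻¹ g))) * kkY q g⁻¹) := by
  unfold kkY
  rw [kkWL_star, ← kkWL_one, kkWL_mul, one_mul, ← kkWL_smul, Deck.z0_zpow]
  congr 1
  · have h1 := Rq_mul q g⁻¹ g
    rw [inv_mul_cancel, Rq_one] at h1
    have h2 := (Rq_unitary q g).2
    -- `(Rq g)ᴴ = (Rq g⁻¹ * Rq g) * ... `
    have h3 : Rq q g⁻¹ = ee (-((EBar.coc g⁻¹ g : ℤ) : ℝ) / q) • (Rq q g).conjTranspose := by
      calc Rq q g⁻¹ = Rq q g⁻¹ * (Rq q g * (Rq q g).conjTranspose) := by rw [h2, mul_one]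
        _ = (Rq q g⁻¹ * Rq q g) * (Rq q g).conjTranspose := by rw [mul_assoc]
        _ = ee (-((EBar.coc g⁻¹ g : ℤ) : ℝ) / q) • (Rq q g).conjTranspose := by
          rw [h1, smul_mul_assoc, one_mul]
    rw [h3, smul_smul, ← ee_add]
    have : ((EBar.coc g⁻¹ g : ℤ) : ℝ) / q + -((EBar.coc g⁻¹ g : ℤ) : ℝ) / q = 0 := by ring
    rw [this, ee_zero, one_smul]
  · ext1 <;> simp

theorem kkX_kkY_comm (g h : EBar m ℤ) : Commute (kkX q g) (kkY q h) := by
  unfold kkX kkY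
  change _ * _ = _ * _
  rw [← kkWL_one, kkWL_mul, kkWL_mul, one_mul, mul_one, Deck.sigX_sigY_comm]

theorem kk_smpLam_norm_le {F J : Type} [Group F] (g : F) :
    ‖(smpLam g : ScL2 (F × J) →L[ℂ] ScL2 (F × J))‖ ≤ 1 :=
  ContinuousLinearMap.opNorm_le_bound _ zero_le_one fun ξ => by
    rw [one_mul]; exact scPull_norm_le _ _ ξ

theorem kkX_norm_le (g : EBar m ℤ) : ‖kkX q g‖ ≤ 1 := kk_smpLam_norm_le _

theorem kk_Rq_norm_le (g : EBar m ℤ) : ‖Rq q g‖ ≤ 1 := by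
  have h : Rq q g ∈ unitary (Matrix (Idx m → ZMod q) (Idx m → ZMod q) ℂ) := by
    rw [Unitary.mem_iff, Matrix.star_eq_conjTranspose]
    exact Rq_unitary q g
  exact (CStarRing.norm_of_mem_unitary h).le

theorem kkY_norm_le (g : EBar m ℤ) : ‖kkY q g‖ ≤ 1 :=
  (kkWL_norm_le _ _).trans (kk_Rq_norm_le q g)

theorem deck_z0_zpow_central (n : ℤ) (g : Deck m ℤ) : Deck.z0 ^ n * g = g * Deck.z0 ^ n := by
  rw [Deck.z0_zpow]; exact Deck.cen_comm n g

theorem kkX_Z_comm (g : EBar m ℤ) (n : ℤ) :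
    Commute (kkX q g) (smpLam ((Deck.z0 : Deck m ℤ) ^ n)) := by
  unfold kkX
  change _ * _ = _ * _
  rw [← smpLam_mul, ← smpLam_mul, deck_z0_zpow_central]

theorem kkY_Z_comm (g : EBar m ℤ) (n : ℤ) :
    Commute (kkY q g) (smpLam ((Deck.z0 : Deck m ℤ) ^ n)) :=
  kkWL_lam_comm _ _ _ (deck_z0_zpow_central n)

theorem kk_comm_Q (T : KkK m q →L[ℂ] KkK m q)
    (h : ∀ n : ℤ, Commute T (smpLam ((Deck.z0 : Deck m ℤ) ^ n))) (lo hi : ℝ) :
    Commute T (kkQ q lo hi) := by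
  apply kkArc_commute
  · have := h 1
    rwa [zpow_one] at this
  · have := h (-1)
    rw [zpow_neg_one, ← smpLam_star] at this
    exact this

theorem kkX_Q_comm (g : EBar m ℤ) (lo hi : ℝ) : Commute (kkX q g) (kkQ q lo hi) :=
  kk_comm_Q q _ (kkX_Z_comm q g) lo hi

theorem kkY_Q_comm (g : EBar m ℤ) (lo hi : ℝ) : Commute (kkY q g) (kkQ q lo hi) :=
  kk_comm_Q q _ (kkY_Z_comm q g) lo hi

theorem kk_fourier_coe (c : ℤ) (x : ℝ) : fourier c (x : UnitAddCircle) = ee (x * c) := by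
  rw [fourier_coe_apply]
  unfold ee
  congr 1
  push_cast
  ring

/-- the central unitary is frozen on an arc -/
theorem kkZ_frozen (c : ℤ) (lo hi t₀ : ℝ) (h1 : lo ≤ t₀) (h2 : t₀ ≤ hi) :
    ‖(smpLam ((Deck.z0 : Deck m ℤ) ^ c) - ee (t₀ * c) • (1 : KkK m q →L[ℂ] KkK m q)) * kkQ q lo hi‖
      ≤ 2 * Real.pi * (hi - lo) * |(c : ℝ)| := by
  have hlh : 0 ≤ hi - lo := by linarith
  have h := kkHom_frozen (kkU (Idx m → ZMod q) (Deck.z0 : Deck m ℤ)) (kkIcc lo hi)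
    (kkIcc_isClosed lo hi) (fourier c) (ee (t₀ * c)) (2 * Real.pi * (hi - lo) * |(c : ℝ)|)
    (by positivity) ?_
  · rw [kkHom_fourier, kkU_zpow] at h
    rw [sub_mul, smul_mul_assoc, one_mul]
    exact h
  · rintro _ ⟨x, hx, rfl⟩
    rw [kk_fourier_coe]
    refine (norm_ee_sub_ee_le _ _).trans ?_
    rw [← sub_mul, abs_mul]
    have h3 : |x - t₀| ≤ hi - lo := by
      rw [abs_le]
      constructor <;> linarith [hx.1, hx.2]
    have hpi : 0 ≤ 2 * Real.pi := by positivity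
    calc 2 * Real.pi * (|x - t₀| * |(c : ℝ)|) ≤ 2 * Real.pi * ((hi - lo) * |(c : ℝ)|) := by
          gcongr
      _ = 2 * Real.pi * (hi - lo) * |(c : ℝ)| := by ring

/-- `(Z^c - e(t₀ c)) T Q` for `T` a contraction commuting with `Q` -/
theorem kkZ_frozen_mul (T : KkK m q →L[ℂ] KkK m q) (hT : ‖T‖ ≤ 1) (c : ℤ) (lo hi t₀ : ℝ)
    (hTQ : Commute T (kkQ q lo hi)) (h1 : lo ≤ t₀) (h2 : t₀ ≤ hi) (Cc : ℝ) (hc : |(c : ℝ)| ≤ Cc) :
    ‖(smpLam ((Deck.z0 : Deck m ℤ) ^ c) - ee (t₀ * c) • (1 : KkK m q →L[ℂ] KkK m q)) * T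
        * kkQ q lo hi‖ ≤ 2 * Real.pi * (hi - lo) * Cc := by
  have hlh : 0 ≤ hi - lo := by linarith
  rw [mul_assoc, hTQ.eq, ← mul_assoc]
  refine (norm_mul_le _ _).trans ?_
  have h := kkZ_frozen (m := m) q c lo hi t₀ h1 h2
  calc _ ≤ (2 * Real.pi * (hi - lo) * |(c : ℝ)|) * 1 :=
        mul_le_mul h hT (norm_nonneg _) (by positivity)
    _ ≤ 2 * Real.pi * (hi - lo) * Cc := by
        rw [mul_one]
        gcongr

variable {a b : EBar m ℤ → ℂ}

theorem kkLX_norm_le (ha : (Function.support a).Finite) : ‖kkLX q a‖ ≤ ∑' g, ‖a g‖ := by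
  exact kkL_norm_le (kkX q) (kkX_norm_le q) a ha

theorem kkLY_norm_le (ha : (Function.support a).Finite) : ‖kkLY q a‖ ≤ ∑' g, ‖a g‖ := by
  exact kkL_norm_le (kkY q) (kkY_norm_le q) a ha

theorem kkLX_sub (ha : (Function.support a).Finite) (hb : (Function.support b).Finite) :
    kkLX q a - kkLX q b = kkLX q (fun g => a g - b g) := by
  exact kkL_sub (kkX q) a b ha hb

theorem kkLY_sub (ha : (Function.support a).Finite) (hb : (Function.support b).Finite) :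
    kkLY q a - kkLY q b = kkLY q (fun g => a g - b g) := by
  exact kkL_sub (kkY q) a b ha hb

theorem kkLX_kkLY_comm (a b : EBar m ℤ → ℂ) : Commute (kkLX q a) (kkLY q b) := by
  refine kkL_commute (kkX q) a _ fun g => ?_
  exact (kkL_commute (kkY q) b _ fun h => (kkX_kkY_comm q g h).symm).symm

theorem kkLX_rho_comm (a : EBar m ℤ → ℂ) (g : Deck m ℤ) : Commute (kkLX q a) (specRho g) := by
  exact kkL_commute (kkX q) a _ fun h => smpLam_rho_comm _ _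

theorem kkLY_rho_comm (a : EBar m ℤ → ℂ) (g : Deck m ℤ) : Commute (kkLY q a) (specRho g) := by
  exact kkL_commute (kkY q) a _ fun h => kkWL_rho_comm _ _ _

theorem kkLX_Q_comm (a : EBar m ℤ → ℂ) (lo hi : ℝ) : Commute (kkLX q a) (kkQ q lo hi) := by
  exact kkL_commute (kkX q) a _ fun h => kkX_Q_comm q h lo hi

theorem kkLY_Q_comm (a : EBar m ℤ → ℂ) (lo hi : ℝ) : Commute (kkLY q a) (kkQ q lo hi) := by
  exact kkL_commute (kkY q) a _ fun h => kkY_Q_comm q h lo hi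

theorem kkQ_rho_comm (lo hi : ℝ) (g : Deck m ℤ) :
    Commute (kkQ (m := m) q lo hi) (specRho g) := by
  refine (kk_comm_Q q (specRho g) (fun n => ?_) lo hi).symm
  exact (smpLam_rho_comm _ _).symm

/-- **Frozen product**, first factor: multiplier `e(t₀ c)`. -/
theorem kkLX_mul_frozen (ha : (Function.support a).Finite) (hb : (Function.support b).Finite)
    (Cc : ℝ) (hc : ∀ g h, a g ≠ 0 → b h ≠ 0 → |((EBar.coc g h : ℤ) : ℝ)| ≤ Cc)
    (lo hi t₀ : ℝ) (h1 : lo ≤ t₀) (h2 : t₀ ≤ hi) :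
    ‖(kkLX q a * kkLX q b - kkLX q (tconv (om t₀) a b)) * kkQ q lo hi‖
      ≤ 2 * Real.pi * (hi - lo) * Cc * ((∑' g, ‖a g‖) * ∑' g, ‖b g‖) := by
  refine kkL_mul_frozen (kkX q) (kkQ q lo hi) (om t₀) a b ha hb _ fun g h hg hh => ?_
  have e : kkX q g * kkX q h - om t₀ g h • kkX q (g * h)
      = (smpLam ((Deck.z0 : Deck m ℤ) ^ (EBar.coc g h))
          - ee (t₀ * ((EBar.coc g h : ℤ) : ℝ)) • (1 : KkK m q →L[ℂ] KkK m q)) * kkX q (g * h) := by
    rw [kkX_mul, sub_mul, smul_mul_assoc, one_mul]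
    rfl
  rw [e]
  exact kkZ_frozen_mul q _ (kkX_norm_le q _) _ lo hi t₀ (kkX_Q_comm q _ lo hi) h1 h2 Cc (hc g h hg hh)

/-- **Frozen product**, second factor: multiplier `e((t₀ - 1/q) c)`. -/
theorem kkLY_mul_frozen (ha : (Function.support a).Finite) (hb : (Function.support b).Finite)
    (Cc : ℝ) (hc : ∀ g h, a g ≠ 0 → b h ≠ 0 → |((EBar.coc g h : ℤ) : ℝ)| ≤ Cc)
    (lo hi t₀ : ℝ) (h1 : lo ≤ t₀) (h2 : t₀ ≤ hi) :
    ‖(kkLY q a * kkLY q b - kkLY q (tconv (om (t₀ - 1 / q)) a b)) * kkQ q lo hi‖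
      ≤ 2 * Real.pi * (hi - lo) * Cc * ((∑' g, ‖a g‖) * ∑' g, ‖b g‖) := by
  refine kkL_mul_frozen (kkY q) (kkQ q lo hi) (om (t₀ - 1 / q)) a b ha hb _ fun g h hg hh => ?_
  have e : kkY q g * kkY q h - om (t₀ - 1 / q) g h • kkY q (g * h)
      = ee (-((EBar.coc g h : ℤ) : ℝ) / q) • ((smpLam ((Deck.z0 : Deck m ℤ) ^ (EBar.coc g h))
          - ee (t₀ * ((EBar.coc g h : ℤ) : ℝ)) • (1 : KkK m q →L[ℂ] KkK m q)) * kkY q (g * h)) := by
    rw [kkY_mul, sub_mul, smul_mul_assoc, one_mul, smul_sub, smul_smul, ← ee_add]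
    congr 2
    unfold om
    congr 1
    ring
  rw [e, smul_mul_assoc, norm_smul, norm_ee, one_mul]
  exact kkZ_frozen_mul q _ (kkY_norm_le q _) _ lo hi t₀ (kkY_Q_comm q _ lo hi) h1 h2 Cc (hc g h hg hh)

/-- **Frozen adjoint**, first factor. -/
theorem kkLX_star_frozen (ha : (Function.support a).Finite)
    (Cc : ℝ) (hc : ∀ g, a g ≠ 0 → |((EBar.coc g⁻¹ g : ℤ) : ℝ)| ≤ Cc)
    (lo hi t₀ : ℝ) (h1 : lo ≤ t₀) (h2 : t₀ ≤ hi) :
    ‖(star (kkLX q a) - kkLX q (tadj t₀ a)) * kkQ q lo hi‖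
      ≤ 2 * Real.pi * (hi - lo) * Cc * ∑' g, ‖a g‖ := by
  refine kkL_star_frozen (kkX q) (kkQ q lo hi) (fun γ => om t₀ γ γ⁻¹) a ha _ fun g hg => ?_
  have e : star (kkX q g) - conj (om t₀ g⁻¹ g⁻¹⁻¹) • kkX q g⁻¹
      = (smpLam ((Deck.z0 : Deck m ℤ) ^ (-(EBar.coc g⁻¹ g)))
          - ee (t₀ * ((-(EBar.coc g⁻¹ g) : ℤ) : ℝ)) • (1 : KkK m q →L[ℂ] KkK m q)) * kkX q g⁻¹ := by
    rw [kkX_star, sub_mul, smul_mul_assoc, one_mul, inv_inv]
    congr 2
    unfold om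
    rw [← ee_neg]
    congr 1
    push_cast
    ring
  rw [e]
  refine kkZ_frozen_mul q _ (kkX_norm_le q _) _ lo hi t₀ (kkX_Q_comm q _ lo hi) h1 h2 Cc ?_
  push_cast
  rw [abs_neg]
  exact hc g hg

/-- **Frozen adjoint**, second factor. -/
theorem kkLY_star_frozen (ha : (Function.support a).Finite)
    (Cc : ℝ) (hc : ∀ g, a g ≠ 0 → |((EBar.coc g⁻¹ g : ℤ) : ℝ)| ≤ Cc)
    (lo hi t₀ : ℝ) (h1 : lo ≤ t₀) (h2 : t₀ ≤ hi) :
    ‖(star (kkLY q a) - kkLY q (tadj (t₀ - 1 / q) a)) * kkQ q lo hi‖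
      ≤ 2 * Real.pi * (hi - lo) * Cc * ∑' g, ‖a g‖ := by
  refine kkL_star_frozen (kkY q) (kkQ q lo hi) (fun γ => om (t₀ - 1 / q) γ γ⁻¹) a ha _
    fun g hg => ?_
  have e : star (kkY q g) - conj (om (t₀ - 1 / q) g⁻¹ g⁻¹⁻¹) • kkY q g⁻¹
      = ee (((EBar.coc g⁻¹ g : ℤ) : ℝ) / q) • ((smpLam ((Deck.z0 : Deck m ℤ) ^ (-(EBar.coc g⁻¹ g)))
          - ee (t₀ * ((-(EBar.coc g⁻¹ g) : ℤ) : ℝ)) • (1 : KkK m q →L[ℂ] KkK m q)) * kkY q g⁻¹) := by
    rw [kkY_star, sub_mul, smul_mul_assoc, one_mul, inv_inv, smul_sub, smul_smul, ← ee_add]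
    congr 2
    unfold om
    rw [← ee_neg]
    congr 1
    push_cast
    ring
  rw [e, smul_mul_assoc, norm_smul, norm_ee, one_mul]
  refine kkZ_frozen_mul q _ (kkY_norm_le q _) _ lo hi t₀ (kkY_Q_comm q _ lo hi) h1 h2 Cc ?_
  push_cast
  rw [abs_neg]
  exact hc g hg

/-- the row of the generalized permutation matrix `Rq q h` that meets the column `j` -/
def kkYj (h : EBar m ℤ) (j : Idx m → ZMod q) : Idx m → ZMod q := circ j (ninv (red q h).bet)

/-- the entry of `Rq q h` in the column `j` -/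
noncomputable def kkYu (h : EBar m ℤ) (j : Idx m → ZMod q) : ℂ :=
  ZMod.stdAddChar (-(pr (red q h).lam (kkYj q h j)))

theorem kkYu_norm (h : EBar m ℤ) (j : Idx m → ZMod q) : ‖kkYu q h j‖ = 1 := by
  unfold kkYu
  rw [ZMod.stdAddChar_apply, Circle.norm_coe]

theorem kkY_delta (h : EBar m ℤ) (x : Deck m ℤ) (j : Idx m → ZMod q) :
    kkY q h (scDelta (x, j)) = kkYu q h j • scDelta (Deck.sigY h * x, kkYj q h j) := by
  unfold kkY
  rw [kkWL_delta, Finset.sum_eq_single (kkYj q h j)]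
  · congr 1
    unfold Rq kkYu
    rw [if_pos]
    unfold kkYj
    rw [circ_assoc, ninv_circ, circ_zero]
  · intro j' _ hj'
    unfold Rq
    rw [if_neg, zero_smul]
    intro e
    apply hj'
    unfold kkYj
    rw [e, circ_assoc, circ_ninv, circ_zero]
  · intro h'
    exact absurd (Finset.mem_univ _) h'

theorem kkXY_delta (k l : EBar m ℤ) (j : Idx m → ZMod q) :
    kkX q k (kkY q l (scDelta ((1 : Deck m ℤ), j)))
      = kkYu q l j • scDelta (Deck.sigX k * Deck.sigY l, kkYj q l j) := by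
  rw [kkY_delta, map_smul, mul_one]
  unfold kkX
  rw [smpLam_delta]

theorem kk_coset_sep (p r : EBar m ℤ × EBar m ℤ) (hpr : p ≠ r) (j j' : Idx m → ZMod q) :
    ¬ (j = j' ∧ ∃ n : ℤ, Deck.sigX p.1 * Deck.sigY p.2
      = (Deck.z0 : Deck m ℤ) ^ n * (Deck.sigX r.1 * Deck.sigY r.2)) := by
  rintro ⟨_, n, hn⟩
  apply hpr
  rw [Deck.z0_zpow] at hn
  have h1 := congrArg Deck.gX hn
  have h2 := congrArg Deck.gY hn
  simp at h1 h2
  exact Prod.ext h1 h2

theorem kk_tsum_sq_eq_sum (a : EBar m ℤ → ℂ) (s : Finset (EBar m ℤ))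
    (hs : Function.support a ⊆ s) : ∑' g, ‖a g‖ ^ 2 = ∑ g ∈ s, ‖a g‖ ^ 2 := by
  refine tsum_eq_sum fun g hg => ?_
  have : a g = 0 := by
    by_contra h
    exact hg (by exact_mod_cast hs h)
  rw [this, norm_zero]
  simp

theorem kkLXLY_delta (A B : Finset (EBar m ℤ)) (hA : Function.support a ⊆ A)
    (hB : Function.support b ⊆ B) (j : Idx m → ZMod q) :
    kkLX q a (kkLY q b (scDelta ((1 : Deck m ℤ), j)))
      = ∑ p ∈ A ×ˢ B, (a p.1 * b p.2 * kkYu q p.2 j) •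
          scDelta (Deck.sigX p.1 * Deck.sigY p.2, kkYj q p.2 j) := by
  have h1 : kkLX q a = ∑ g ∈ A, a g • kkX q g := kkL_eq_sum (kkX q) a A hA
  have h2 : kkLY q b = ∑ g ∈ B, b g • kkY q g := kkL_eq_sum (kkY q) b B hB
  rw [h1, h2, Finset.sum_product]
  simp only [_root_.sum_apply, _root_.smul_apply, map_sum, map_smul,
    kkXY_delta, Finset.smul_sum, smul_smul]
  rw [Finset.sum_comm]
  refine Finset.sum_congr rfl fun g _ => Finset.sum_congr rfl fun h _ => ?_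
  congr 1
  ring

/-- **Size** of `Q LX(a) LY(b) δ`. -/
theorem kk_LXLY_delta_norm_sq (ha : (Function.support a).Finite)
    (hb : (Function.support b).Finite) (lo hi : ℝ) (h1 : lo ≤ hi) (h2 : hi ≤ lo + 1)
    (j : Idx m → ZMod q) :
    ‖kkQ q lo hi (kkLX q a (kkLY q b (scDelta ((1 : Deck m ℤ), j))))‖ ^ 2
      = (hi - lo) * ((∑' g, ‖a g‖ ^ 2) * ∑' g, ‖b g‖ ^ 2) := by
  rw [kkLXLY_delta q ha.toFinset hb.toFinset (by simp) (by simp) j]
  unfold kkQ
  rw [kk_parseval_arc (Deck.z0 : Deck m ℤ) deck_z0_injective lo hi h1 h2]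
  · rw [kk_tsum_sq_eq_sum a ha.toFinset (by simp), kk_tsum_sq_eq_sum b hb.toFinset (by simp),
      Finset.sum_mul_sum, Finset.sum_product]
    congr 1
    refine Finset.sum_congr rfl fun g _ => Finset.sum_congr rfl fun h _ => ?_
    rw [norm_mul, norm_mul, kkYu_norm, mul_one, mul_pow]
  · intro p _ r _ hpr
    exact kk_coset_sep q p r hpr _ _

/-- `specHS` of `LX(a) LY(b) Q`: the unnormalised matrix trace gives the factor `N = card J`. -/
theorem specHS_LXLY (ha : (Function.support a).Finite) (hb : (Function.support b).Finite)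
    (lo hi : ℝ) (h1 : lo ≤ hi) (h2 : hi ≤ lo + 1) :
    specHS (kkLX q a * kkLY q b * kkQ q lo hi)
      = ENNReal.ofReal ((Fintype.card (Idx m → ZMod q) : ℝ) * (hi - lo)
          * ((∑' g, ‖a g‖ ^ 2) * ∑' g, ‖b g‖ ^ 2)) := by
  have hcomm : Commute (kkLX q a * kkLY q b) (kkQ q lo hi) :=
    (kkLX_Q_comm q a lo hi).mul_left (kkLY_Q_comm q b lo hi)
  unfold specHS
  have h : ∀ j : Idx m → ZMod q,
      ‖(kkLX q a * kkLY q b * kkQ q lo hi : KkK m q →L[ℂ] KkK m q)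
          (scDelta ((1 : Deck m ℤ), j))‖ ^ 2
        = (hi - lo) * ((∑' g, ‖a g‖ ^ 2) * ∑' g, ‖b g‖ ^ 2) := by
    intro j
    rw [hcomm.eq]
    exact kk_LXLY_delta_norm_sq q ha hb lo hi h1 h2 j
  simp only [h]
  rw [tsum_fintype, Finset.sum_const, Finset.card_univ, nsmul_eq_mul, mul_assoc,
    ENNReal.ofReal_mul (p := (Fintype.card (Idx m → ZMod q) : ℝ)) (by positivity),
    ENNReal.ofReal_natCast]

theorem kk_l2_add {ι : Type*} (s : Finset ι) (u v : ι → ℂ) (U V : ℝ) (hU0 : 0 ≤ U) (hV0 : 0 ≤ V)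
    (hu : ∑ i ∈ s, ‖u i‖ ^ 2 ≤ U ^ 2) (hv : ∑ i ∈ s, ‖v i‖ ^ 2 ≤ V ^ 2) :
    ∑ i ∈ s, ‖u i + v i‖ ^ 2 ≤ (U + V) ^ 2 := by
  have h0 : 0 ≤ ∑ i ∈ s, ‖u i‖ * ‖v i‖ := Finset.sum_nonneg fun i _ => by positivity
  have h1 : ∑ i ∈ s, ‖u i‖ * ‖v i‖ ≤ U * V := by
    have hcs := Finset.sum_mul_sq_le_sq_mul_sq s (fun i => ‖u i‖) (fun i => ‖v i‖)
    have h2 : (∑ i ∈ s, ‖u i‖ * ‖v i‖) ^ 2 ≤ (U * V) ^ 2 := by
      refine hcs.trans ?_
      rw [mul_pow]
      exact mul_le_mul hu hv (Finset.sum_nonneg fun i _ => by positivity) (by positivity)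
    exact (pow_le_pow_iff_left₀ h0 (by positivity) two_ne_zero).1 h2
  calc ∑ i ∈ s, ‖u i + v i‖ ^ 2
      ≤ ∑ i ∈ s, (‖u i‖ ^ 2 + 2 * (‖u i‖ * ‖v i‖) + ‖v i‖ ^ 2) := by
        refine Finset.sum_le_sum fun i _ => ?_
        have := norm_add_le (u i) (v i)
        have h3 : ‖u i + v i‖ ^ 2 ≤ (‖u i‖ + ‖v i‖) ^ 2 :=
          pow_le_pow_left₀ (norm_nonneg _) this 2
        nlinarith
    _ = ∑ i ∈ s, ‖u i‖ ^ 2 + 2 * ∑ i ∈ s, ‖u i‖ * ‖v i‖ + ∑ i ∈ s, ‖v i‖ ^ 2 := by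
        rw [Finset.sum_add_distrib, Finset.sum_add_distrib, Finset.mul_sum]
    _ ≤ (U + V) ^ 2 := by nlinarith

theorem kk_l2_prod {ι κ : Type*} (s : Finset ι) (t : Finset κ) (u : ι → ℂ) (v : κ → ℂ) (U V : ℝ)
    (_hU0 : 0 ≤ U) (hu : ∑ i ∈ s, ‖u i‖ ^ 2 ≤ U ^ 2) (hv : ∑ i ∈ t, ‖v i‖ ^ 2 ≤ V ^ 2) :
    ∑ p ∈ s ×ˢ t, ‖u p.1 * v p.2‖ ^ 2 ≤ (U * V) ^ 2 := by
  have e : ∑ p ∈ s ×ˢ t, ‖u p.1 * v p.2‖ ^ 2 = (∑ i ∈ s, ‖u i‖ ^ 2) * ∑ i ∈ t, ‖v i‖ ^ 2 := by
    rw [Finset.sum_mul_sum, Finset.sum_product]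
    refine Finset.sum_congr rfl fun i _ => Finset.sum_congr rfl fun k _ => ?_
    rw [norm_mul, mul_pow]
  rw [e, mul_pow]
  exact mul_le_mul hu hv (Finset.sum_nonneg fun i _ => by positivity) (by positivity)

/-- the function `t ↦ (a *_t a)(k)` on the circle; `φ` is an additional constant phase -/
noncomputable def kkCf (φ : EBar m ℤ → EBar m ℤ → ℂ) (a : EBar m ℤ → ℂ) (A : Finset (EBar m ℤ))
    (k : EBar m ℤ) : C(UnitAddCircle, ℂ) :=
  ∑ g ∈ A, (a g * a (g⁻¹ * k) * φ g (g⁻¹ * k)) • fourier (EBar.coc g (g⁻¹ * k))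

theorem kkCf_coe (φ : EBar m ℤ → EBar m ℤ → ℂ) (a : EBar m ℤ → ℂ) (A : Finset (EBar m ℤ))
    (hA : Function.support a ⊆ A) (k : EBar m ℤ) (x : ℝ) :
    kkCf φ a A k (x : UnitAddCircle)
      = tconv (fun g h => φ g h * ee (x * ((EBar.coc g h : ℤ) : ℝ))) a a k := by
  rw [kk_tconv_eq_sum _ a a A hA]
  unfold kkCf
  rw [ContinuousMap.sum_apply]
  refine Finset.sum_congr rfl fun g _ => ?_
  rw [ContinuousMap.smul_apply, kk_fourier_coe, smul_eq_mul]
  ring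

theorem kkL_sq (U : EBar m ℤ → KkK m q →L[ℂ] KkK m q) (φ : EBar m ℤ → EBar m ℤ → ℂ)
    (hU : ∀ g h, U g * U h = φ g h • (smpLam ((Deck.z0 : Deck m ℤ) ^ (EBar.coc g h)) * U (g * h)))
    (a : EBar m ℤ → ℂ) (A S : Finset (EBar m ℤ)) (hA : Function.support a ⊆ A)
    (hS : ∀ g ∈ A, ∀ h ∈ A, g * h ∈ S) :
    kkL U a * kkL U a
      = ∑ k ∈ S, kkHom (kkU (Idx m → ZMod q) (Deck.z0 : Deck m ℤ)) (kkCf φ a A k) * U k := by
  rw [kkL_mul U a a A A hA hA]
  have ha0 : ∀ h, h ∉ A → a h = 0 := by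
    intro h hh
    by_contra h0
    exact hh (by exact_mod_cast hA h0)
  have hre := kk_reindex A A S hS
    (fun g h => (a g * a h * φ g h) • (smpLam ((Deck.z0 : Deck m ℤ) ^ (EBar.coc g h)) * U (g * h)))
    (fun g h hh => by simp only [ha0 h hh, mul_zero, zero_mul, zero_smul])
  have e1 : ∑ g ∈ A, ∑ h ∈ A, (a g * a h) • (U g * U h)
      = ∑ g ∈ A, ∑ h ∈ A, (a g * a h * φ g h) •
          (smpLam ((Deck.z0 : Deck m ℤ) ^ (EBar.coc g h)) * U (g * h)) := by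
    refine Finset.sum_congr rfl fun g _ => Finset.sum_congr rfl fun h _ => ?_
    rw [hU, smul_smul]
  rw [e1, ← hre]
  refine Finset.sum_congr rfl fun k _ => ?_
  unfold kkCf
  rw [map_sum, Finset.sum_mul]
  refine Finset.sum_congr rfl fun g _ => ?_
  rw [map_smul, kkHom_fourier, kkU_zpow, mul_inv_cancel_left, smul_mul_assoc]

theorem kk_hom_comm (T : KkK m q →L[ℂ] KkK m q)
    (h : ∀ n : ℤ, Commute T (smpLam ((Deck.z0 : Deck m ℤ) ^ n))) (f : C(UnitAddCircle, ℂ)) :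
    Commute T (kkHom (kkU (Idx m → ZMod q) (Deck.z0 : Deck m ℤ)) f) := by
  apply kkHom_commute
  · have := h 1
    rwa [zpow_one] at this
  · have := h (-1)
    rw [zpow_neg_one, ← smpLam_star] at this
    exact this

/-- **`ℓ²` defect on the arc** (for the nonvanishing of the frozen projection):  if for every `t` in the arc the
twisted squares are `ℓ²`-close to `a`, `b`, then `(P² - P) Q δ` is small compared with `P Q δ`. -/
theorem kk_defect_delta (ha : (Function.support a).Finite) (hb : (Function.support b).Finite)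
    (lo hi : ℝ) (h1 : lo ≤ hi) (h2 : hi ≤ lo + 1) (ea eb Ba Bb : ℝ)
    (hea : ∀ t ∈ Set.Icc lo hi, ∑' k, ‖tconv (om t) a a k - a k‖ ^ 2 ≤ ea ^ 2)
    (heb : ∀ t ∈ Set.Icc lo hi, ∑' k, ‖tconv (om (t - 1 / q)) b b k - b k‖ ^ 2 ≤ eb ^ 2)
    (hBa : ∑' k, ‖a k‖ ^ 2 ≤ Ba ^ 2) (hBb : ∑' k, ‖b k‖ ^ 2 ≤ Bb ^ 2)
    (hea0 : 0 ≤ ea) (heb0 : 0 ≤ eb) (hBa0 : 0 ≤ Ba) (hBb0 : 0 ≤ Bb) (j : Idx m → ZMod q) :
    ‖kkQ q lo hi ((kkLX q a * kkLY q b * (kkLX q a * kkLY q b) - kkLX q a * kkLY q b)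
        (scDelta ((1 : Deck m ℤ), j)))‖ ^ 2
      ≤ (hi - lo) * (ea * (Bb + eb) + Ba * eb) ^ 2 := by
  classical
  obtain ⟨A, hA⟩ : ∃ A : Finset (EBar m ℤ), Function.support a ⊆ A := ⟨ha.toFinset, by simp⟩
  obtain ⟨B, hB⟩ : ∃ B : Finset (EBar m ℤ), Function.support b ⊆ B := ⟨hb.toFinset, by simp⟩
  obtain ⟨SA, hASA, hSA⟩ : ∃ SA : Finset (EBar m ℤ), A ⊆ SA ∧ ∀ g ∈ A, ∀ h ∈ A, g * h ∈ SA :=
    ⟨A ∪ (A ×ˢ A).image (fun p => p.1 * p.2), Finset.subset_union_left, fun g hg h hh =>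
      Finset.mem_union_right _ (Finset.mem_image.2 ⟨(g, h), Finset.mem_product.2 ⟨hg, hh⟩, rfl⟩)⟩
  obtain ⟨SB, hBSB, hSB⟩ : ∃ SB : Finset (EBar m ℤ), B ⊆ SB ∧ ∀ g ∈ B, ∀ h ∈ B, g * h ∈ SB :=
    ⟨B ∪ (B ×ˢ B).image (fun p => p.1 * p.2), Finset.subset_union_left, fun g hg h hh =>
      Finset.mem_union_right _ (Finset.mem_image.2 ⟨(g, h), Finset.mem_product.2 ⟨hg, hh⟩, rfl⟩)⟩
  have hA' : Function.support a ⊆ SA := hA.trans (by exact_mod_cast hASA)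
  have hB' : Function.support b ⊆ SB := hB.trans (by exact_mod_cast hBSB)
  obtain ⟨α, hα⟩ : ∃ α : EBar m ℤ → C(UnitAddCircle, ℂ), α = kkCf (fun _ _ => 1) a A := ⟨_, rfl⟩
  obtain ⟨β, hβ⟩ : ∃ β : EBar m ℤ → C(UnitAddCircle, ℂ),
      β = kkCf (fun g h => ee (-((EBar.coc g h : ℤ) : ℝ) / q)) b B := ⟨_, rfl⟩
  have hXX : kkLX q a * kkLX q a
      = ∑ k ∈ SA, kkHom (kkU (Idx m → ZMod q) (Deck.z0 : Deck m ℤ)) (α k) * kkX q k := by
    rw [hα]
    exact kkL_sq q (kkX q) (fun _ _ => 1) (fun g h => by rw [kkX_mul, one_smul]) a A SA hA hSA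
  have hYY : kkLY q b * kkLY q b
      = ∑ k ∈ SB, kkHom (kkU (Idx m → ZMod q) (Deck.z0 : Deck m ℤ)) (β k) * kkY q k := by
    rw [hβ]
    exact kkL_sq q (kkY q) _ (kkY_mul q) b B SB hB hSB
  have hX : kkLX q a = ∑ k ∈ SA, a k • kkX q k := kkL_eq_sum (kkX q) a SA hA'
  have hY : kkLY q b = ∑ k ∈ SB, b k • kkY q k := kkL_eq_sum (kkY q) b SB hB'
  -- the operator identity
  have hop : kkLX q a * kkLY q b * (kkLX q a * kkLY q b) - kkLX q a * kkLY q b
      = ∑ p ∈ SA ×ˢ SB, kkHom (kkU (Idx m → ZMod q) (Deck.z0 : Deck m ℤ))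
          (α p.1 * β p.2 - (a p.1 * b p.2) • 1) * (kkX q p.1 * kkY q p.2) := by
    have hc := (kkLX_kkLY_comm q a b).eq
    have c1 : kkLX q a * kkLY q b * (kkLX q a * kkLY q b)
        = (kkLX q a * kkLX q a) * (kkLY q b * kkLY q b) := by
      calc kkLX q a * kkLY q b * (kkLX q a * kkLY q b)
          = kkLX q a * (kkLY q b * kkLX q a) * kkLY q b := by noncomm_ring
        _ = kkLX q a * (kkLX q a * kkLY q b) * kkLY q b := by rw [hc]
        _ = _ := by noncomm_ring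
    rw [c1, hXX, hYY]
    conv_lhs => rw [hX, hY]
    rw [Finset.sum_mul_sum, Finset.sum_mul_sum, Finset.sum_product, ← Finset.sum_sub_distrib]
    refine Finset.sum_congr rfl fun k _ => ?_
    rw [← Finset.sum_sub_distrib]
    refine Finset.sum_congr rfl fun l _ => ?_
    have hkc := (kk_hom_comm q (kkX q k) (kkX_Z_comm q k) (β l)).eq
    simp only
    rw [map_sub, map_mul, map_smul, map_one, sub_mul, smul_mul_smul_comm,
      smul_mul_assoc (a k * b l) (1 : KkK m q →L[ℂ] KkK m q), one_mul]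
    congr 1
    calc kkHom (kkU (Idx m → ZMod q) (Deck.z0 : Deck m ℤ)) (α k) * kkX q k
          * (kkHom (kkU (Idx m → ZMod q) (Deck.z0 : Deck m ℤ)) (β l) * kkY q l)
        = kkHom (kkU (Idx m → ZMod q) (Deck.z0 : Deck m ℤ)) (α k)
          * (kkX q k * kkHom (kkU (Idx m → ZMod q) (Deck.z0 : Deck m ℤ)) (β l)) * kkY q l := by
          noncomm_ring
      _ = _ := by rw [hkc]; noncomm_ring
  -- the vector
  have hvec : kkQ q lo hi ((kkLX q a * kkLY q b * (kkLX q a * kkLY q b) - kkLX q a * kkLY q b)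
        (scDelta ((1 : Deck m ℤ), j)))
      = ∑ p ∈ SA ×ˢ SB, kkHom (kkU (Idx m → ZMod q) (Deck.z0 : Deck m ℤ))
          (kkYu q p.2 j • (α p.1 * β p.2 - (a p.1 * b p.2) • 1))
          (kkArc (kkU (Idx m → ZMod q) (Deck.z0 : Deck m ℤ)) (kkIcc lo hi)
            (scDelta (Deck.sigX p.1 * Deck.sigY p.2, kkYj q p.2 j))) := by
    rw [hop, _root_.sum_apply, map_sum]
    refine Finset.sum_congr rfl fun p _ => ?_
    rw [_root_.mul_apply_eq_comp, _root_.mul_apply_eq_comp, kkXY_delta, map_smul,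
      map_smul, map_smul, _root_.smul_apply]
    congr 1
    have := (kkArc_commute_hom (kkU (Idx m → ZMod q) (Deck.z0 : Deck m ℤ)) (kkIcc lo hi)
      (α p.1 * β p.2 - (a p.1 * b p.2) • 1)).eq
    exact (congrArg (fun T : KkK m q →L[ℂ] KkK m q =>
      T (scDelta (Deck.sigX p.1 * Deck.sigY p.2, kkYj q p.2 j))) this).symm
  rw [hvec]
  refine kk_arc_sum_le_sup (Deck.z0 : Deck m ℤ) deck_z0_injective lo hi h1 h2 _ _ _ ?_ _ _
    (fun p _ r _ hpr => kk_coset_sep q p r hpr _ _)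
  rintro _ ⟨x, hx, rfl⟩
  -- the fibre at `x`
  obtain ⟨α', hα'⟩ : ∃ α' : EBar m ℤ → ℂ, α' = tconv (om x) a a := ⟨_, rfl⟩
  obtain ⟨β', hβ'⟩ : ∃ β' : EBar m ℤ → ℂ, β' = tconv (om (x - 1 / q)) b b := ⟨_, rfl⟩
  have hαx : ∀ k, α k (x : UnitAddCircle) = α' k := by
    intro k
    rw [hα, hα', kkCf_coe _ a A hA]
    congr 1
    funext g h
    rw [one_mul]
    rfl
  have hβx : ∀ k, β k (x : UnitAddCircle) = β' k := by
    intro k
    rw [hβ, hβ', kkCf_coe _ b B hB]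
    congr 1
    funext g h
    unfold om
    rw [← ee_add]
    congr 1
    ring
  have E1 : ∑ k ∈ SA, ‖α' k - a k‖ ^ 2 ≤ ea ^ 2 := by
    have := hea x hx
    rwa [tsum_eq_sum (s := SA) (fun k hk => by
      have h1 : a k = 0 := by
        by_contra h0
        exact hk (by exact_mod_cast hA' h0)
      rw [kk_tconv_eq_zero (om x) a a A A SA hA hA hSA k hk, h1]
      simp), ← hα'] at this
  have E2 : ∑ k ∈ SB, ‖β' k - b k‖ ^ 2 ≤ eb ^ 2 := by
    have := heb x hx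
    rwa [tsum_eq_sum (s := SB) (fun k hk => by
      have h1 : b k = 0 := by
        by_contra h0
        exact hk (by exact_mod_cast hB' h0)
      rw [kk_tconv_eq_zero (om (x - 1 / q)) b b B B SB hB hB hSB k hk, h1]
      simp), ← hβ'] at this
  have E3 : ∑ k ∈ SA, ‖a k‖ ^ 2 ≤ Ba ^ 2 := by
    rwa [kk_tsum_sq_eq_sum a SA hA'] at hBa
  have E4 : ∑ k ∈ SB, ‖b k‖ ^ 2 ≤ Bb ^ 2 := by
    rwa [kk_tsum_sq_eq_sum b SB hB'] at hBb
  have E5 : ∑ k ∈ SB, ‖β' k‖ ^ 2 ≤ (Bb + eb) ^ 2 := by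
    have := kk_l2_add SB b (fun k => β' k - b k) Bb eb hBb0 heb0 E4 E2
    simpa using this
  have P1 := kk_l2_prod SA SB (fun k => α' k - a k) β' ea (Bb + eb) hea0 E1 E5
  have P2 := kk_l2_prod SA SB a (fun k => β' k - b k) Ba eb hBa0 E3 E2
  have P3 := kk_l2_add (SA ×ˢ SB) (fun p => (α' p.1 - a p.1) * β' p.2)
    (fun p => a p.1 * (β' p.2 - b p.2)) (ea * (Bb + eb)) (Ba * eb) (by positivity) (by positivity)
    P1 P2
  refine le_trans (le_of_eq ?_) P3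
  refine Finset.sum_congr rfl fun p _ => ?_
  rw [ContinuousMap.smul_apply, norm_smul, kkYu_norm, one_mul]
  congr 2
  simp only [ContinuousMap.sub_apply, ContinuousMap.mul_apply, ContinuousMap.smul_apply,
    ContinuousMap.one_apply, hαx, hβx, smul_eq_mul, mul_one]
  ring

end deck

end Claimed.Agent.R300
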