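/-
Row 300, KK Sections 8-9: almost projections (Part 1 of `KkProj.lean`, architect helper21).  Proofs: helper193.  No sorry.

An almost selfadjoint almost idempotent `T` has a star projection `kkNear T` nearby
(`S = (T + T*)/2`, `‖S² - S‖ ≤ ε (C + 2) ≤ 3/16`, so the spectrum of `S` avoids `(1/4, 3/4)`; `kkNear T = specProj (1/4) (3/4) S`).
`specBand (1/4) (3/4) x = kkG x * x` with `kkG` continuous, `|kkG| ≤ 4/3`: `kkNear T = kkG(S) S` (`kkNear_eq`).
-/
import Claimed.Agent.R300.SpecHilb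
import Claimed.Agent.R300.SpecTrace

set_option autoImplicit false

namespace Claimed.Agent.R300

open scoped ENNReal ComplexConjugate InnerProductSpace Matrix.Norms.L2Operator

section abstract

variable {H : Type*} [NormedAddCommGroup H] [InnerProductSpace ℂ H] [CompleteSpace H]

/-- the selfadjoint part. -/
noncomputable def kkRe (T : H →L[ℂ] H) : H →L[ℂ] H := (1 / 2 : ℂ) • (T + star T)

/-- the projection near an almost projection. -/
noncomputable def kkNear (T : H →L[ℂ] H) : H →L[ℂ] H := specProj (1 / 4) (3 / 4) (kkRe T)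

theorem kkRe_isSelfAdjoint (T : H →L[ℂ] H) : IsSelfAdjoint (kkRe T) := by
  unfold kkRe IsSelfAdjoint
  rw [star_smul, star_add, star_star, add_comm]
  congr 1
  simp

/-- `specBand (1/4) (3/4) x = x * kkG x`. -/
noncomputable def kkG (x : ℝ) : ℝ := specBand (1 / 4) (3 / 4) x * (max x (1 / 4))⁻¹

theorem kkG_continuous : Continuous kkG := by
  unfold kkG
  refine (specBand_continuous _ _).mul (Continuous.inv₀ (by fun_prop) ?_)
  intro x
  exact (lt_of_lt_of_le (by norm_num) (le_max_right _ _)).ne'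

theorem kkG_mul (x : ℝ) : kkG x * x = specBand (1 / 4) (3 / 4) x := by
  unfold kkG
  rcases le_total x (1 / 4) with h | h
  · rw [specBand_of_le (by norm_num) h]; simp
  · rw [max_eq_left h, mul_assoc, inv_mul_cancel₀ (by linarith), mul_one]

theorem kkG_abs_le (x : ℝ) : |kkG x| ≤ 4 / 3 := by
  unfold kkG
  rcases le_total x (1 / 4) with h | h
  · rw [specBand_of_le (by norm_num) h]; norm_num
  · rw [max_eq_left h]
    have hx : 0 < x := by linarith
    rcases le_total x (3 / 4) with h' | h'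
    · have hb : specBand (1 / 4) (3 / 4) x = 2 * x - 1 / 2 := by
        unfold specBand
        have e : (x - 1 / 4) / (3 / 4 - 1 / 4) = 2 * x - 1 / 2 := by ring
        rw [e, min_eq_right (by linarith), max_eq_right (by linarith)]
      rw [hb, abs_of_nonneg (mul_nonneg (by linarith) (inv_nonneg.2 hx.le)), ← div_eq_mul_inv,
        div_le_iff₀ hx]
      linarith
    · rw [specBand_of_ge (by norm_num) h', one_mul, abs_of_pos (inv_pos.2 hx),
        inv_le_comm₀ hx (by norm_num)]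
      linarith

theorem kkNear_eq (T : H →L[ℂ] H) : kkNear T = cfc kkG (kkRe T) * kkRe T := by
  have hS := kkRe_isSelfAdjoint T
  unfold kkNear specProj
  conv_rhs => rw [← cfc_id' ℝ (kkRe T) hS]
  rw [cfc_id' ℝ (kkRe T) hS]
  have := cfc_mul kkG (fun x : ℝ => x) (kkRe T) kkG_continuous.continuousOn
    continuous_id.continuousOn
  rw [cfc_id' ℝ (kkRe T) hS] at this
  rw [← this]
  exact cfc_congr fun x _ => (kkG_mul x).symm

theorem kkG_cfc_norm_le (S : H →L[ℂ] H) : ‖cfc kkG S‖ ≤ 4 / 3 :=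
  norm_cfc_le (by norm_num) fun x _ => by rw [Real.norm_eq_abs]; exact kkG_abs_le x

theorem kkRe_sub (T : H →L[ℂ] H) : kkRe T - T = (1 / 2 : ℂ) • (star T - T) := by
  unfold kkRe
  module

theorem kkRe_sub_norm_le (T : H →L[ℂ] H) (ε : ℝ) (h1 : ‖star T - T‖ ≤ ε) :
    ‖kkRe T - T‖ ≤ ε / 2 := by
  rw [kkRe_sub, norm_smul]
  have : ‖(1 / 2 : ℂ)‖ = 1 / 2 := by norm_num
  rw [this]
  linarith

theorem kkRe_defect_le (T : H →L[ℂ] H) (C ε : ℝ) (hT : ‖T‖ ≤ C) (h1 : ‖star T - T‖ ≤ ε)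
    (h2 : ‖T * T - T‖ ≤ ε) (hε1 : ε ≤ 1) : ‖kkRe T * kkRe T - kkRe T‖ ≤ ε * (C + 2) := by
  set Δ := kkRe T - T with hΔ
  have hΔn : ‖Δ‖ ≤ ε / 2 := kkRe_sub_norm_le T ε h1
  have hε0 : 0 ≤ ε := (norm_nonneg _).trans h1
  have hC0 : 0 ≤ C := (norm_nonneg _).trans hT
  have hS : kkRe T = T + Δ := by rw [hΔ]; abel
  have e : kkRe T * kkRe T - kkRe T = (T * T - T) + T * Δ + Δ * T + Δ * Δ - Δ := by
    rw [hS]; noncomm_ring
  rw [e]
  have n1 : ‖T * Δ‖ ≤ C * (ε / 2) :=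
    (norm_mul_le _ _).trans (mul_le_mul hT hΔn (norm_nonneg _) hC0)
  have n2 : ‖Δ * T‖ ≤ (ε / 2) * C :=
    (norm_mul_le _ _).trans (mul_le_mul hΔn hT (norm_nonneg _) (by linarith))
  have n3 : ‖Δ * Δ‖ ≤ (ε / 2) * (ε / 2) :=
    (norm_mul_le _ _).trans (mul_le_mul hΔn hΔn (norm_nonneg _) (by linarith))
  calc ‖(T * T - T) + T * Δ + Δ * T + Δ * Δ - Δ‖
      ≤ ‖T * T - T‖ + ‖T * Δ‖ + ‖Δ * T‖ + ‖Δ * Δ‖ + ‖Δ‖ := by
        refine (norm_sub_le _ _).trans (add_le_add_left ?_ _)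
        refine (norm_add_le _ _).trans (add_le_add_left ?_ _)
        refine (norm_add_le _ _).trans (add_le_add_left ?_ _)
        exact norm_add_le _ _
    _ ≤ ε + C * (ε / 2) + (ε / 2) * C + (ε / 2) * (ε / 2) + ε / 2 := by gcongr
    _ ≤ ε * (C + 2) := by nlinarith

/-- spectral values of an almost idempotent selfadjoint operator. -/
theorem kk_spec_defect {S : H →L[ℂ] H} (hS : IsSelfAdjoint S) {δ : ℝ}
    (hδ : ‖S * S - S‖ ≤ δ) {z : ℝ} (hz : z ∈ spectrum ℝ S) : |z * z - z| ≤ δ := by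
  have e : S * S - S = cfc (fun x : ℝ => x * x - x) S := by
    rw [cfc_sub (fun x : ℝ => x * x) (fun x : ℝ => x) S (by fun_prop) (by fun_prop),
      cfc_mul (fun x : ℝ => x) (fun x : ℝ => x) S (by fun_prop) (by fun_prop), cfc_id' ℝ S hS]
  rw [e] at hδ
  have := norm_apply_le_norm_cfc (fun x : ℝ => x * x - x) S hz (by fun_prop) hS
  rw [Real.norm_eq_abs] at this
  exact this.trans hδ

theorem kk_specGap {S : H →L[ℂ] H} (hS : IsSelfAdjoint S) {δ : ℝ}
    (hδ : ‖S * S - S‖ ≤ δ) (hδ1 : δ ≤ 3 / 16) : SpecGap S (1 / 4) (3 / 4) := by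
  intro z hz
  have h := (kk_spec_defect hS hδ hz).trans hδ1
  rw [abs_le] at h
  by_contra hcon
  rw [not_or, not_le, not_le] at hcon
  nlinarith [h.1, hcon.1, hcon.2]

theorem kk_specProj_sub_le {S : H →L[ℂ] H} (hS : IsSelfAdjoint S) {δ : ℝ}
    (hδ : ‖S * S - S‖ ≤ δ) (hδ1 : δ ≤ 3 / 16) :
    ‖specProj (1 / 4) (3 / 4) S - S‖ ≤ 4 / 3 * δ := by
  have hδ0 : 0 ≤ δ := (norm_nonneg _).trans hδ
  have e : specProj (1 / 4) (3 / 4) S - S = cfc (fun x : ℝ => specBand (1 / 4) (3 / 4) x - x) S := by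
    unfold specProj
    rw [cfc_sub _ (fun x : ℝ => x) S (specBand_continuous _ _).continuousOn (by fun_prop),
      cfc_id' ℝ S hS]
  rw [e]
  refine norm_cfc_le (by positivity) fun z hz => ?_
  have h := kk_spec_defect hS hδ hz
  rw [abs_le] at h
  rw [Real.norm_eq_abs, abs_le]
  rcases kk_specGap hS hδ hδ1 z hz with h' | h'
  · rw [specBand_of_le (by norm_num) h']
    constructor <;> nlinarith [h.1, h.2]
  · rw [specBand_of_ge (by norm_num) h']
    constructor <;> nlinarith [h.1, h.2]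

theorem kkNear_spec (T : H →L[ℂ] H) (C ε : ℝ) (hT : ‖T‖ ≤ C) (h1 : ‖star T - T‖ ≤ ε)
    (h2 : ‖T * T - T‖ ≤ ε) (hε1 : ε ≤ 1) (hε : ε * (C + 2) ≤ 3 / 16) :
    IsStarProjection (kkNear T) ∧ ‖kkNear T - T‖ ≤ 2 * ε * (C + 2) := by
  have hS := kkRe_isSelfAdjoint T
  have hd := kkRe_defect_le T C ε hT h1 h2 hε1
  have hε0 : 0 ≤ ε := (norm_nonneg _).trans h1
  have hC0 : 0 ≤ C := (norm_nonneg _).trans hT
  refine ⟨specProj_isStarProjection (by norm_num) (kk_specGap hS hd hε), ?_⟩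
  have e : kkNear T - T = (specProj (1 / 4) (3 / 4) (kkRe T) - kkRe T) + (kkRe T - T) := by
    unfold kkNear; abel
  rw [e]
  refine (norm_add_le _ _).trans ?_
  have a1 := kk_specProj_sub_le hS hd hε
  have a2 := kkRe_sub_norm_le T ε h1
  nlinarith

theorem kkNear_commute (T B : H →L[ℂ] H) (h1 : Commute T B) (h2 : Commute (star T) B) :
    Commute (kkNear T) B := by
  refine specProj_commute ?_ _ _
  unfold kkRe
  exact (h1.add_left h2).smul_left _

theorem kkNear_absorb (T Q : H →L[ℂ] H) (h1 : T * Q = T) (h2 : star T * Q = star T) :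
    kkNear T * Q = kkNear T := by
  have h3 : kkRe T * Q = kkRe T := by
    unfold kkRe
    rw [smul_mul_assoc, add_mul, h1, h2]
  rw [kkNear_eq, mul_assoc, h3]

theorem kkNear_ne_zero (T : H →L[ℂ] H) (C ε : ℝ) (hT : ‖T‖ ≤ C) (h1 : ‖star T - T‖ ≤ ε)
    (h2 : ‖T * T - T‖ ≤ ε) (hε1 : ε ≤ 1) (hε : ε * (C + 2) ≤ 3 / 16) (x : H) (hx : T x ≠ 0)
    (hx2 : ‖(T * T - T) x‖ ≤ 1 / 4 * ‖T x‖) : kkNear T ≠ 0 := by
  intro h0
  have h := (kkNear_spec T C ε hT h1 h2 hε1 hε).2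
  rw [h0, zero_sub, norm_neg] at h
  have hT' : ‖T‖ ≤ 3 / 8 := by linarith
  have hpos : 0 < ‖T x‖ := norm_pos_iff.2 hx
  have e : (T * T - T) x = T (T x) - T x := rfl
  rw [e] at hx2
  have h3 : ‖T (T x)‖ ≤ 3 / 8 * ‖T x‖ :=
    (T.le_opNorm _).trans (mul_le_mul_of_nonneg_right hT' (norm_nonneg _))
  have h4 : ‖T x‖ - ‖T (T x)‖ ≤ ‖T (T x) - T x‖ := by
    rw [norm_sub_rev]
    exact norm_sub_norm_le _ _
  linarith

end abstract

theorem specHS_kkRe_le {G I : Type} [Group G] (T : ScL2 (G × I) →L[ℂ] ScL2 (G × I))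
    (hT : ∀ g : G, Commute T (specRho g)) : specHS (kkRe T) ≤ specHS T := by
  have hstar : specHS T = specHS (star T) := specHS_star fun h => (hT h).eq.symm
  have h1 : specHS (kkRe T) ≤ ENNReal.ofReal (1 / 2) * (specHS T + specHS (star T)) := by
    unfold specHS
    rw [← ENNReal.tsum_add, ← ENNReal.tsum_mul_left]
    refine ENNReal.tsum_le_tsum fun i => ?_
    rw [← ENNReal.ofReal_add (by positivity) (by positivity),
      ← ENNReal.ofReal_mul (by norm_num)]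
    refine ENNReal.ofReal_le_ofReal ?_
    set a := T (scDelta ((1 : G), i)) with ha
    set b := star T (scDelta ((1 : G), i)) with hb
    have e : kkRe T (scDelta ((1 : G), i)) = (1 / 2 : ℂ) • (a + b) := rfl
    rw [e, norm_smul]
    have h2 : ‖(1 / 2 : ℂ)‖ = 1 / 2 := by norm_num
    rw [h2]
    have h3 := norm_add_le a b
    have h4 : 0 ≤ ‖a + b‖ := norm_nonneg _
    nlinarith [sq_nonneg (‖a‖ - ‖b‖), norm_nonneg a, norm_nonneg b]
  rw [← hstar, ← two_mul, ← mul_assoc] at h1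
  have h5 : ENNReal.ofReal (1 / 2) * 2 = 1 := by
    rw [show (2 : ℝ≥0∞) = ENNReal.ofReal 2 by simp, ← ENNReal.ofReal_mul (by norm_num)]
    norm_num
  rwa [h5, one_mul] at h1

theorem specHS_kkNear_le {G I : Type} [Group G] (T : ScL2 (G × I) →L[ℂ] ScL2 (G × I))
    (hT : ∀ g : G, Commute T (specRho g)) : specHS (kkNear T) ≤ 2 * specHS T := by
  rw [kkNear_eq]
  refine (specHS_mul_le _ _ (kkG_cfc_norm_le (kkRe T))).trans ?_
  refine mul_le_mul' ?_ (specHS_kkRe_le T hT)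
  rw [show (2 : ℝ≥0∞) = ENNReal.ofReal 2 by simp]
  exact ENNReal.ofReal_le_ofReal (by norm_num)

end Claimed.Agent.R300
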