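import Claimed.Agent.R300.NilTpl

/-!
# KK Section 8, EXPORT: frozen parameter and change of scale

`tpl_frozen`: `tsum_norm_tconv_sub_le` with `η = 2π u nf (2 Lam) R0` (`tpl_coc_bound`, `norm_ee_sub_ee_le`), `tpl_l1`.
For `tadj`: `coc h h⁻¹ = pr h⁻¹.lam h.bet`, `h.bet = ninv h⁻¹.bet`, `nil_ninv_bound`.
`tpl_scale`: `r = y / y' ∈ [1/e, e]`, `sc y γ = dil r (sc y' γ)`, `Jf_lipschitz`, `norm_dB_sub_le`, `norm_dL_sub_le`, `sc_count`.
-/

set_option autoImplicit false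

namespace Claimed.Agent.R300.Nil

open MeasureTheory

variable {m : ℕ}

/-! ### helpers -/

lemma nilta_R0_nonneg : 0 ≤ R0 m := (Classical.choose_spec (nil_R0 m)).1

lemma nilta_Jf_ne {w : Win m} {Lam y : ℝ} {γ : EBar m ℤ} (h : tpl w Lam y γ ≠ 0) :
    Jf w Lam (sc y γ) ≠ 0 := by
  intro h0
  exact h (by rw [tpl, h0, mul_zero])

lemma nilta_summable (w : Win m) {Lam y : ℝ} (hL : 0 < Lam) (hy : 0 < y) :
    Summable fun γ => ‖tpl w Lam y γ‖ := by
  refine summable_of_ne_finset_zero (s := (tpl_finite_support w hL hy).toFinset) fun γ hγ => ?_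
  rw [Set.Finite.mem_toFinset, Set.mem_ofPred_eq, not_not] at hγ
  rw [hγ, norm_zero]

lemma nilta_om_sub (θ θ' : ℝ) (g h : EBar m ℤ) :
    ‖om θ g h - om θ' g h‖ ≤ 2 * Real.pi * (|θ - θ'| * |((EBar.coc g h : ℤ) : ℝ)|) := by
  unfold om
  refine (norm_ee_sub_ee_le _ _).trans (le_of_eq ?_)
  rw [← sub_mul, abs_mul]

/-- change of the phase when the scaled cocycle is bounded -/
lemma nilta_om_sub' {θ y u B : ℝ} (hu : 0 ≤ u) (hθ : |θ - y ^ m| ≤ u * y ^ m) (g h : EBar m ℤ)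
    (hB : y ^ m * |((EBar.coc g h : ℤ) : ℝ)| ≤ B) :
    ‖om θ g h - om (y ^ m) g h‖ ≤ 2 * Real.pi * u * B := by
  refine (nilta_om_sub θ (y ^ m) g h).trans ?_
  have h1 : |θ - y ^ m| * |((EBar.coc g h : ℤ) : ℝ)| ≤ u * B := by
    calc |θ - y ^ m| * |((EBar.coc g h : ℤ) : ℝ)|
        ≤ (u * y ^ m) * |((EBar.coc g h : ℤ) : ℝ)| :=
          mul_le_mul_of_nonneg_right hθ (abs_nonneg _)
      _ = u * (y ^ m * |((EBar.coc g h : ℤ) : ℝ)|) := by ring
      _ ≤ u * B := mul_le_mul_of_nonneg_left hB hu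
  calc 2 * Real.pi * (|θ - y ^ m| * |((EBar.coc g h : ℤ) : ℝ)|) ≤ 2 * Real.pi * (u * B) :=
        mul_le_mul_of_nonneg_left h1 (by positivity)
    _ = 2 * Real.pi * u * B := by ring

/-- the cocycle `c(h, h⁻¹)` on the support -/
lemma nilta_coc_inv (w : Win m) {R' : ℝ} (hR' : ∀ x : VV m, ‖x‖ ≤ R0 m → ‖ninv x‖ ≤ R')
    {Lam y : ℝ} (hL : 0 < Lam) (hy : 0 < y) (h : EBar m ℤ) (hh : tpl w Lam y h⁻¹ ≠ 0) :
    y ^ m * |((EBar.coc h h⁻¹ : ℤ) : ℝ)| ≤ nf m * (2 * Lam) * R' := by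
  obtain ⟨h1, h2⟩ := Jf_supp w hL _ (nilta_Jf_ne hh)
  have e1 : y ^ m * |((EBar.coc h h⁻¹ : ℤ) : ℝ)| = |EBar.coc (sc y h) (sc y h⁻¹)| := by
    rw [coc_sc, abs_mul, abs_of_pos (pow_pos hy m)]
  have e2 : (sc y h).bet = ninv (sc y h⁻¹).bet := by
    rw [map_inv, EBar.inv_bet, ninv_ninv]
  rw [e1]
  unfold EBar.coc
  refine (abs_pr_le _ _).trans ?_
  have h3 : ‖(sc y h).bet‖ ≤ R' := by rw [e2]; exact hR' _ h2
  unfold nf
  have hc : (0 : ℝ) ≤ (Fintype.card (Idx m) : ℝ) := Nat.cast_nonneg _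
  calc (Fintype.card (Idx m) : ℝ) * ‖(sc y h⁻¹).lam‖ * ‖(sc y h).bet‖
      ≤ (Fintype.card (Idx m) : ℝ) * (2 * Lam) * R' := by
        refine mul_le_mul (mul_le_mul_of_nonneg_left h1 hc) h3 (norm_nonneg _) (by positivity)

lemma nilta_ratio {y y' a : ℝ} (hy : 0 < y) (hy' : 0 < y') (ha1 : a ≤ 1)
    (h : |Real.log (y / y')| ≤ a) : |y / y' - 1| ≤ 2 * a := by
  have h1 := Real.abs_exp_sub_one_le (h.trans ha1)
  rw [Real.exp_log (div_pos hy hy')] at h1
  linarith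

lemma nilta_sc_dil (y y' : ℝ) (hy' : y' ≠ 0) (γ : EBar m ℤ) :
    sc y γ = EBar.dil (y / y') (sc y' γ) := by
  ext p
  · rw [EBar.dil_lam, sc_lam]
    unfold dL
    rw [sc_lam, ← mul_assoc, ← mul_pow, div_mul_cancel₀ _ hy']
  · rw [EBar.dil_bet, sc_bet]
    unfold dB
    rw [sc_bet, ← mul_assoc, ← mul_pow, div_mul_cancel₀ _ hy']

lemma nilta_abs_pow_sub_one_le (N : ℕ) {r : ℝ} (h0 : 0 ≤ r) (h3 : r ≤ 3) :
    |r ^ N - 1| ≤ (N * 3 ^ N : ℝ) * |r - 1| := by
  rw [← geom_sum_mul, abs_mul]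
  refine mul_le_mul_of_nonneg_right ?_ (abs_nonneg _)
  rw [abs_of_nonneg (Finset.sum_nonneg fun k _ => pow_nonneg h0 k)]
  calc ∑ k ∈ Finset.range N, r ^ k ≤ ∑ _k ∈ Finset.range N, (3 : ℝ) ^ N := by
        refine Finset.sum_le_sum fun k hk => ?_
        calc r ^ k ≤ 3 ^ k := pow_le_pow_left₀ h0 h3 k
          _ ≤ 3 ^ N := pow_le_pow_right₀ (by norm_num) (Finset.mem_range.1 hk).le
    _ = N * 3 ^ N := by simp

lemma nilta_nu (y y' : ℝ) (hy' : y' ≠ 0) : nu m y = (y / y') ^ (m * nf m) * nu m y' := by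
  unfold nu
  rw [← mul_pow, div_mul_cancel₀ _ hy']

/-- (T3') frozen parameter: the multiplier `θ` need only be close to `y^m` in ratio -/
theorem tpl_frozen (w : Win m) : ∃ C : ℝ, 0 ≤ C ∧ ∀ (Lam y θ u : ℝ), 1 ≤ Lam → 0 < y → y ≤ 1 →
    |θ - y ^ m| ≤ u * y ^ m →
      (∑' h, ‖tconv (om θ) (tpl w Lam y) (tpl w Lam y) h
          - tconv (om (y ^ m)) (tpl w Lam y) (tpl w Lam y) h‖ ≤ C * Lam * u) ∧
      (∑' h, ‖tadj θ (tpl w Lam y) h - tadj (y ^ m) (tpl w Lam y) h‖ ≤ C * Lam * u) := by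
  obtain ⟨C1, hC10, hC1⟩ := tpl_l1 w
  obtain ⟨R', hR'0, hR'⟩ := nil_ninv_bound m (R0 m)
  have hR0 : 0 ≤ R0 m := nilta_R0_nonneg
  have hpi := Real.pi_pos
  refine ⟨4 * Real.pi * nf m * R0 m * (C1 * C1) + 4 * Real.pi * nf m * R' * C1, by positivity, ?_⟩
  intro Lam y θ u hLam hy0 hy1 hθ
  have hL : 0 < Lam := by linarith
  have hym : 0 < y ^ m := pow_pos hy0 m
  have hu : 0 ≤ u := by
    by_contra hcon
    push Not at hcon
    have := mul_neg_of_neg_of_pos hcon hym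
    linarith [abs_nonneg (θ - y ^ m)]
  have hsum := nilta_summable w hL hy0
  have hl1 := hC1 Lam y hL hy0 hy1
  have hl0 : 0 ≤ ∑' γ, ‖tpl w Lam y γ‖ := tsum_nonneg fun _ => norm_nonneg _
  have hnf : (0 : ℝ) ≤ nf m := Nat.cast_nonneg _
  constructor
  · have h1 := tsum_norm_tconv_sub_le (ω := om θ) (ω' := om (y ^ m)) (a := tpl w Lam y)
      (b := tpl w Lam y) (fun g h => (norm_om θ g h).le) (fun g h => (norm_om _ g h).le) hsum hsum
      (η := 2 * Real.pi * u * (nf m * (2 * Lam) * R0 m))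
      (fun g h hg hh => nilta_om_sub' hu hθ g h (tpl_coc_bound w hL hy0 g h hg hh))
    refine h1.trans ?_
    have h2 : (∑' γ, ‖tpl w Lam y γ‖) * (∑' γ, ‖tpl w Lam y γ‖) ≤ C1 * C1 :=
      mul_le_mul hl1 hl1 hl0 hC10
    calc 2 * Real.pi * u * (nf m * (2 * Lam) * R0 m)
          * ((∑' γ, ‖tpl w Lam y γ‖) * (∑' γ, ‖tpl w Lam y γ‖))
        ≤ 2 * Real.pi * u * (nf m * (2 * Lam) * R0 m) * (C1 * C1) :=
          mul_le_mul_of_nonneg_left h2 (by positivity)
      _ = (4 * Real.pi * nf m * R0 m * (C1 * C1)) * Lam * u := by ring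
      _ ≤ (4 * Real.pi * nf m * R0 m * (C1 * C1) + 4 * Real.pi * nf m * R' * C1) * Lam * u := by
          have : 0 ≤ 4 * Real.pi * nf m * R' * C1 := by positivity
          gcongr
          linarith
  · have hpt : ∀ h, ‖tadj θ (tpl w Lam y) h - tadj (y ^ m) (tpl w Lam y) h‖
        ≤ (2 * Real.pi * u * (nf m * (2 * Lam) * R')) * ‖tpl w Lam y h⁻¹‖ := by
      intro h
      unfold tadj
      rw [← map_sub, Complex.norm_conj, ← mul_sub, norm_mul, mul_comm]
      by_cases h0 : tpl w Lam y h⁻¹ = 0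
      · rw [h0, norm_zero, mul_zero, mul_zero]
      · exact mul_le_mul_of_nonneg_right
          (nilta_om_sub' hu hθ h h⁻¹ (nilta_coc_inv w hR' hL hy0 h h0)) (norm_nonneg _)
    have hsum' : Summable fun h : EBar m ℤ => ‖tpl w Lam y h⁻¹‖ :=
      (Equiv.inv (EBar m ℤ)).summable_iff.2 hsum
    have hsum'' := hsum'.mul_left (2 * Real.pi * u * (nf m * (2 * Lam) * R'))
    have h1 := Summable.tsum_le_tsum hpt
      (Summable.of_nonneg_of_le (fun _ => norm_nonneg _) hpt hsum'') hsum''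
    refine h1.trans ?_
    have e1 : ∑' h : EBar m ℤ, ‖tpl w Lam y h⁻¹‖ = ∑' γ, ‖tpl w Lam y γ‖ :=
      (Equiv.inv (EBar m ℤ)).tsum_eq fun γ => ‖tpl w Lam y γ‖
    rw [tsum_mul_left, e1]
    calc 2 * Real.pi * u * (nf m * (2 * Lam) * R') * (∑' γ, ‖tpl w Lam y γ‖)
        ≤ 2 * Real.pi * u * (nf m * (2 * Lam) * R') * C1 :=
          mul_le_mul_of_nonneg_left hl1 (by positivity)
      _ = (4 * Real.pi * nf m * R' * C1) * Lam * u := by ring
      _ ≤ (4 * Real.pi * nf m * R0 m * (C1 * C1) + 4 * Real.pi * nf m * R' * C1) * Lam * u := by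
          have : 0 ≤ 4 * Real.pi * nf m * R0 m * (C1 * C1) := by positivity
          gcongr
          linarith

/-- (T7) change of scale (paper L8.8, second part) -/
theorem tpl_scale (w : Win m) (Lam : ℝ) (hL : 1 ≤ Lam) : ∃ C : ℝ, 0 ≤ C ∧ ∀ (y y' a : ℝ), 0 < y → y ≤ 1 →
    0 < y' → y' ≤ 1 → 0 ≤ a → a ≤ 1 → |Real.log (y / y')| ≤ a →
    ∑' γ, ‖tpl w Lam y γ - tpl w Lam y' γ‖ ≤ C * a := by
  classical
  obtain ⟨K, hK0, hK⟩ := Jf_lipschitz w
  obtain ⟨C1, hC10, hC1⟩ := tpl_l1 w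
  obtain ⟨CB, hCB⟩ := norm_dB_sub_le m
  obtain ⟨CL, hCL⟩ := norm_dL_sub_le m
  have hR0 : 0 ≤ R0 m := nilta_R0_nonneg
  have hL0 : 0 < Lam := by linarith
  set c : ℝ := max (max CB CL) 0 with hc
  have hc0 : 0 ≤ c := le_max_right _ _
  have hcB : CB ≤ c := (le_max_left _ _).trans (le_max_left _ _)
  have hcL : CL ≤ c := (le_max_right _ _).trans (le_max_left _ _)
  set R : ℝ := 2 * Lam + R0 m with hR
  have hRpos : 0 ≤ R := by positivity
  set Rb : ℝ := R + c * 2 * R with hRb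
  have hRb0 : 0 ≤ Rb := by positivity
  set N : ℕ := m * nf m with hN
  set B1 : ℝ := 3 ^ N * (K * (4 * c * Rb)) with hB1
  set B2 : ℝ := 2 * (N * 3 ^ N) with hB2
  have hB10 : 0 ≤ B1 := by positivity
  have hB20 : 0 ≤ B2 := by positivity
  have hRRb : R ≤ Rb := by
    have : 0 ≤ c * 2 * R := by positivity
    linarith
  clear_value B1 B2 Rb R c N
  refine ⟨B1 * (2 * Rb + 1) ^ (2 * nf m) + B2 * C1, by positivity, ?_⟩
  intro y y' a hy0 hy1 hy'0 hy'1 ha0 ha1 hlog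
  set r : ℝ := y / y' with hr
  have hrpos : 0 < r := div_pos hy0 hy'0
  have hr1 : |r - 1| ≤ 2 * a := nilta_ratio hy0 hy'0 ha1 hlog
  have hr1' : |y' / y - 1| ≤ 2 * a := by
    refine nilta_ratio hy'0 hy0 ha1 ?_
    rw [← inv_div, Real.log_inv, abs_neg]
    exact hlog
  have hr3 : r ≤ 3 := by
    have := (abs_le.1 hr1).2
    linarith
  have hr3' : y' / y ≤ 3 := by
    have := (abs_le.1 hr1').2
    linarith
  have hinv : y' / y = r⁻¹ := by rw [hr, inv_div]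
  have hr13 : 1 / 3 ≤ r := by
    rw [hinv] at hr3'
    rw [div_le_iff₀ (by norm_num : (0 : ℝ) < 3)]
    have := (inv_le_iff_one_le_mul₀ hrpos).1 hr3'
    linarith
  have hr13' : 1 / 3 ≤ y' / y := by
    rw [hinv, one_div]
    exact inv_anti₀ hrpos hr3
  obtain ⟨hfin, hcount⟩ := sc_count (m := m) Rb hRb0 y' hy'0 hy'1
  set F : Finset (EBar m ℤ) := hfin.toFinset with hF
  have hFcard : nu m y' * (F.card : ℝ) ≤ (2 * Rb + 1) ^ (2 * nf m) := by
    rw [Set.ncard_eq_toFinset_card _ hfin] at hcount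
    exact hcount
  have hnu'0 : 0 < nu m y' := pow_pos hy'0 _
  have hnu0 : 0 < nu m y := pow_pos hy0 _
  have hnu : nu m y = r ^ N * nu m y' := by rw [hN]; exact nilta_nu y y' hy'0.ne'
  have hrN : r ^ N ≤ 3 ^ N := pow_le_pow_left₀ hrpos.le hr3 N
  -- the difference of the coefficient functions
  have hJ : ∀ γ : EBar m ℤ, ‖Jf w Lam (sc y γ) - Jf w Lam (sc y' γ)‖
      ≤ if γ ∈ F then K * (4 * c * Rb) * a else 0 := by
    intro γ
    have e1 : sc y γ = EBar.dil r (sc y' γ) := nilta_sc_dil y y' hy'0.ne' γ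
    have e2 : sc y' γ = EBar.dil (y' / y) (sc y γ) := nilta_sc_dil y' y hy0.ne' γ
    by_cases hγ : γ ∈ F
    · rw [if_pos hγ]
      rw [hF, Set.Finite.mem_toFinset] at hγ
      obtain ⟨g1, g2⟩ := hγ
      refine (hK Lam _ _ hL).trans ?_
      have k1 : ‖(sc y γ).lam - (sc y' γ).lam‖ ≤ c * (2 * a) * Rb := by
        rw [e1, EBar.dil_lam]
        refine (hCL r _ hr13 hr3).trans ?_
        refine mul_le_mul (mul_le_mul hcL hr1 (abs_nonneg _) hc0) g1 (norm_nonneg _) (by positivity)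
      have k2 : ‖(sc y γ).bet - (sc y' γ).bet‖ ≤ c * (2 * a) * Rb := by
        rw [e1, EBar.dil_bet]
        refine (hCB r _ hr13 hr3).trans ?_
        refine mul_le_mul (mul_le_mul hcB hr1 (abs_nonneg _) hc0) g2 (norm_nonneg _) (by positivity)
      calc K * (‖(sc y γ).lam - (sc y' γ).lam‖ + ‖(sc y γ).bet - (sc y' γ).bet‖)
          ≤ K * (c * (2 * a) * Rb + c * (2 * a) * Rb) :=
            mul_le_mul_of_nonneg_left (add_le_add k1 k2) hK0
        _ = K * (4 * c * Rb) * a := by ring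
    · rw [if_neg hγ]
      have z1 : Jf w Lam (sc y' γ) = 0 := by
        by_contra hne
        obtain ⟨g1, g2⟩ := Jf_supp w hL0 _ hne
        apply hγ
        rw [hF, Set.Finite.mem_toFinset]
        exact ⟨by linarith, by linarith⟩
      have z2 : Jf w Lam (sc y γ) = 0 := by
        by_contra hne
        obtain ⟨g1, g2⟩ := Jf_supp w hL0 _ hne
        apply hγ
        rw [hF, Set.Finite.mem_toFinset]
        have a2 : (2 : ℝ) * a ≤ 2 := by linarith
        constructor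
        · have k1 : ‖(sc y' γ).lam - (sc y γ).lam‖ ≤ c * 2 * R := by
            rw [e2, EBar.dil_lam]
            refine (hCL _ _ hr13' hr3').trans ?_
            refine mul_le_mul (mul_le_mul hcL (hr1'.trans a2) (abs_nonneg _) hc0) (by linarith)
              (norm_nonneg _) (by positivity)
          calc ‖(sc y' γ).lam‖ = ‖(sc y γ).lam + ((sc y' γ).lam - (sc y γ).lam)‖ := by
                rw [add_sub_cancel]
            _ ≤ ‖(sc y γ).lam‖ + ‖(sc y' γ).lam - (sc y γ).lam‖ := norm_add_le _ _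
            _ ≤ Rb := by linarith
        · have k1 : ‖(sc y' γ).bet - (sc y γ).bet‖ ≤ c * 2 * R := by
            rw [e2, EBar.dil_bet]
            refine (hCB _ _ hr13' hr3').trans ?_
            refine mul_le_mul (mul_le_mul hcB (hr1'.trans a2) (abs_nonneg _) hc0) (by linarith)
              (norm_nonneg _) (by positivity)
          calc ‖(sc y' γ).bet‖ = ‖(sc y γ).bet + ((sc y' γ).bet - (sc y γ).bet)‖ := by
                rw [add_sub_cancel]
            _ ≤ ‖(sc y γ).bet‖ + ‖(sc y' γ).bet - (sc y γ).bet‖ := norm_add_le _ _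
            _ ≤ Rb := by linarith
      rw [z1, z2, sub_zero, norm_zero]
  -- pointwise bound
  have hpt : ∀ γ : EBar m ℤ, ‖tpl w Lam y γ - tpl w Lam y' γ‖
      ≤ (if γ ∈ F then B1 * a * nu m y' else 0) + B2 * a * ‖tpl w Lam y' γ‖ := by
    intro γ
    have e : tpl w Lam y γ - tpl w Lam y' γ
        = (nu m y : ℂ) * (Jf w Lam (sc y γ) - Jf w Lam (sc y' γ))
          + ((r ^ N - 1 : ℝ) : ℂ) * tpl w Lam y' γ := by
      unfold tpl
      rw [hnu]
      push_cast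
      ring
    rw [e]
    refine (norm_add_le _ _).trans (add_le_add ?_ ?_)
    · rw [norm_mul, Complex.norm_real, Real.norm_eq_abs, abs_of_pos hnu0]
      have h1 := hJ γ
      by_cases hγ : γ ∈ F
      · rw [if_pos hγ] at h1 ⊢
        calc nu m y * ‖Jf w Lam (sc y γ) - Jf w Lam (sc y' γ)‖
            ≤ (3 ^ N * nu m y') * (K * (4 * c * Rb) * a) := by
              refine mul_le_mul ?_ h1 (norm_nonneg _) (by positivity)
              rw [hnu]
              exact mul_le_mul_of_nonneg_right hrN hnu'0.le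
          _ = B1 * a * nu m y' := by rw [hB1]; ring
      · rw [if_neg hγ] at h1 ⊢
        have : ‖Jf w Lam (sc y γ) - Jf w Lam (sc y' γ)‖ = 0 := le_antisymm h1 (norm_nonneg _)
        rw [this, mul_zero]
    · rw [norm_mul, Complex.norm_real, Real.norm_eq_abs]
      refine mul_le_mul_of_nonneg_right ?_ (norm_nonneg _)
      refine (nilta_abs_pow_sub_one_le N hrpos.le hr3).trans ?_
      calc (N * 3 ^ N : ℝ) * |r - 1| ≤ (N * 3 ^ N : ℝ) * (2 * a) :=
            mul_le_mul_of_nonneg_left hr1 (by positivity)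
        _ = B2 * a := by rw [hB2]; ring
  have hs1 : Summable fun γ : EBar m ℤ => if γ ∈ F then B1 * a * nu m y' else 0 :=
    summable_of_ne_finset_zero (s := F) fun γ hγ => if_neg hγ
  have hs2 : Summable fun γ : EBar m ℤ => B2 * a * ‖tpl w Lam y' γ‖ :=
    (nilta_summable w hL0 hy'0).mul_left _
  have hs := hs1.add hs2
  have h1 := Summable.tsum_le_tsum hpt
    (Summable.of_nonneg_of_le (fun _ => norm_nonneg _) hpt hs) hs
  refine h1.trans ?_
  rw [hs1.tsum_add hs2, tsum_mul_left]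
  have t1 : ∑' γ : EBar m ℤ, (if γ ∈ F then B1 * a * nu m y' else 0)
      = (F.card : ℝ) * (B1 * a * nu m y') := by
    rw [tsum_eq_sum (s := F) fun γ hγ => if_neg hγ]
    rw [Finset.sum_congr rfl fun γ hγ => if_pos hγ, Finset.sum_const, nsmul_eq_mul]
  rw [t1]
  have t2 := hC1 Lam y' hL0 hy'0 hy'1
  calc (F.card : ℝ) * (B1 * a * nu m y') + B2 * a * ∑' γ, ‖tpl w Lam y' γ‖
      = (B1 * a) * (nu m y' * (F.card : ℝ)) + B2 * a * ∑' γ, ‖tpl w Lam y' γ‖ := by ring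
    _ ≤ (B1 * a) * (2 * Rb + 1) ^ (2 * nf m) + B2 * a * C1 :=
        add_le_add (mul_le_mul_of_nonneg_left hFcard (mul_nonneg hB10 ha0))
          (mul_le_mul_of_nonneg_left t2 (mul_nonneg hB20 ha0))
    _ = (B1 * (2 * Rb + 1) ^ (2 * nf m) + B2 * C1) * a := by ring

end Claimed.Agent.R300.Nil
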