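import Claimed.Agent.R300.NilTpl

/-!
# KK Section 8, EXPORT: main estimate for the templates

Plan: header of `NilTpl.lean`.
-/

set_option autoImplicit false

namespace Claimed.Agent.R300.Nil

open MeasureTheory

variable {m : ℕ}

lemma om_le (θ : ℝ) (g h : EBar m ℤ) : ‖om θ g h‖ ≤ 1 := (norm_om θ g h).le

lemma tpl_eq (w : Win m) (Lam y : ℝ) (γ : EBar m ℤ) :
    tpl w Lam y γ = (cut Lam (sc y γ).lam : ℂ) * kk w y γ := by
  unfold tpl Jf kk; ring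

lemma norm_tpl_le (w : Win m) (Lam y : ℝ) (γ : EBar m ℤ) : ‖tpl w Lam y γ‖ ≤ ‖kk w y γ‖ := by
  rw [tpl_eq, norm_mul, Complex.norm_real, Real.norm_of_nonneg (cut_nonneg _ _)]
  exact mul_le_of_le_one_left (norm_nonneg _) (cut_le_one _ _)

/-- the tail `kk - tpl` -/
noncomputable def TT (w : Win m) (Lam y : ℝ) (γ : EBar m ℤ) : ℂ := kk w y γ - tpl w Lam y γ

lemma TT_eq (w : Win m) (Lam y : ℝ) (γ : EBar m ℤ) :
    TT w Lam y γ = ((1 - cut Lam (sc y γ).lam : ℝ) : ℂ) * kk w y γ := by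
  unfold TT; rw [tpl_eq]; push_cast; ring

lemma norm_TT_eq (w : Win m) (Lam y : ℝ) (γ : EBar m ℤ) :
    ‖TT w Lam y γ‖ = (1 - cut Lam (sc y γ).lam) * ‖kk w y γ‖ := by
  rw [TT_eq, norm_mul, Complex.norm_real,
    Real.norm_of_nonneg (sub_nonneg.mpr (cut_le_one _ _))]

lemma norm_TT_le (w : Win m) {Lam : ℝ} (hL : 0 < Lam) (y : ℝ) (γ : EBar m ℤ) :
    ‖TT w Lam y γ‖ ≤ if Lam < ‖(sc y γ).lam‖ then ‖kk w y γ‖ else 0 := by
  rw [norm_TT_eq]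
  split_ifs with h
  · exact mul_le_of_le_one_left (norm_nonneg _) (by linarith [cut_nonneg Lam (sc y γ).lam])
  · rw [cut_eq_one hL (not_lt.mp h)]; simp

lemma norm_TT_le_kk (w : Win m) (Lam y : ℝ) (γ : EBar m ℤ) : ‖TT w Lam y γ‖ ≤ ‖kk w y γ‖ := by
  rw [norm_TT_eq]
  exact mul_le_of_le_one_left (norm_nonneg _) (by linarith [cut_nonneg Lam (sc y γ).lam])

/-- the defect of the template -/
noncomputable def ef (w : Win m) (Lam y : ℝ) (h : EBar m ℤ) : ℂ :=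
  tconv (om (y ^ m)) (tpl w Lam y) (tpl w Lam y) h - tpl w Lam y h

/-- `e = d - k * T - T * k♭ + T` -/
lemma ef_eq (w : Win m) (Lam y : ℝ) (hk : Summable fun γ => ‖kk w y γ‖) {M : ℝ}
    (hM : ∀ γ, ‖kk w y γ‖ ≤ M) (h : EBar m ℤ) :
    ef w Lam y h = dd w y h - tconv (om (y ^ m)) (kk w y) (TT w Lam y) h
      - tconv (om (y ^ m)) (TT w Lam y) (tpl w Lam y) h + TT w Lam y h := by
  have hf : Summable fun γ => ‖tpl w Lam y γ‖ :=
    Summable.of_nonneg_of_le (fun _ => norm_nonneg _) (norm_tpl_le w Lam y) hk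
  have hMf : ∀ γ, ‖tpl w Lam y γ‖ ≤ M := fun γ => (norm_tpl_le w Lam y γ).trans (hM γ)
  have h1 := tconv_sub_right (ω := om (y ^ m)) (a := kk w y) (b := kk w y) (b' := tpl w Lam y)
    (om_le _) hk hM hMf h
  have h2 := tconv_sub_left (ω := om (y ^ m)) (a := kk w y) (a' := tpl w Lam y) (b := tpl w Lam y)
    (om_le _) hk hf hMf h
  have e1 : TT w Lam y = fun g => kk w y g - tpl w Lam y g := rfl
  rw [e1, h1, h2]
  unfold ef dd
  ring

/-- radius of the support of the defect -/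
noncomputable def R2 (m : ℕ) (Lam : ℝ) : ℝ :=
  max (2 * Lam + 2 * Lam * (1 + m * R0 m)) (R0 m + R0 m + m * R0 m * R0 m)

lemma R0_nonneg (m : ℕ) : 0 ≤ R0 m := (Classical.choose_spec (nil_R0 m)).1

lemma ef_supp (w : Win m) {Lam y : ℝ} (hL : 0 < Lam) (h : EBar m ℤ) (hh : ef w Lam y h ≠ 0) :
    ‖(sc y h).lam‖ ≤ R2 m Lam ∧ ‖(sc y h).bet‖ ≤ R2 m Lam := by
  have hR := R0_nonneg m
  have hsupp : ∀ γ, tpl w Lam y γ ≠ 0 → ‖(sc y γ).lam‖ ≤ 2 * Lam ∧ ‖(sc y γ).bet‖ ≤ R0 m := by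
    intro γ hγ
    refine Jf_supp w hL (sc y γ) fun h0 => hγ ?_
    simp [tpl, h0]
  have hmR : 0 ≤ (m : ℝ) * R0 m := by positivity
  by_cases h1 : tpl w Lam y h = 0
  · have h2 : tconv (om (y ^ m)) (tpl w Lam y) (tpl w Lam y) h ≠ 0 := by
      intro h0; exact hh (by simp [ef, h0, h1])
    have : ∃ g, tpl w Lam y g ≠ 0 ∧ tpl w Lam y (g⁻¹ * h) ≠ 0 := by
      by_contra hcon
      push Not at hcon
      exact h2 (tconv_eq_zero_of h hcon)
    obtain ⟨g, hg, hg'⟩ := this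
    obtain ⟨a1, a2⟩ := hsupp g hg
    obtain ⟨b1, b2⟩ := hsupp _ hg'
    have hmul : sc y h = sc y g * sc y (g⁻¹ * h) := by rw [← map_mul, mul_inv_cancel_left]
    constructor
    · rw [hmul, EBar.mul_lam]
      refine (norm_add_le _ _).trans ((add_le_add a1 ((norm_lact_le _ _).trans ?_)).trans
        (le_max_left _ _))
      exact mul_le_mul b1 (by nlinarith [norm_nonneg (sc y g).bet]) (by positivity) (by positivity)
    · rw [hmul, EBar.mul_bet]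
      refine (norm_circ_le _ _).trans (le_trans ?_ (le_max_right _ _))
      have : (m : ℝ) * ‖(sc y g).bet‖ * ‖(sc y (g⁻¹ * h)).bet‖ ≤ m * R0 m * R0 m := by
        have h3 : (m : ℝ) * ‖(sc y g).bet‖ ≤ m * R0 m := by
          exact mul_le_mul_of_nonneg_left a2 (Nat.cast_nonneg _)
        exact mul_le_mul h3 b2 (norm_nonneg _) hmR
      linarith
  · obtain ⟨a1, a2⟩ := hsupp h h1
    constructor
    · refine a1.trans (le_trans ?_ (le_max_left _ _))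
      have : 0 ≤ 2 * Lam * (1 + m * R0 m) := by positivity
      linarith
    · refine a2.trans (le_trans ?_ (le_max_right _ _))
      have : 0 ≤ (m : ℝ) * R0 m * R0 m := by positivity
      linarith

/-- `kk` is exactly self-adjoint -/
lemma tadj_kk (w : Win m) (y : ℝ) (h : EBar m ℤ) : tadj (y ^ m) (kk w y) h = kk w y h := by
  unfold tadj kk om
  rw [map_inv, JJ_inv, ← coc_sc, map_inv]
  simp only [map_mul, Complex.conj_conj, Complex.conj_ofReal]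
  have := ee_conj_mul_self (EBar.coc (sc y h) (sc y h)⁻¹)
  calc _ = (nu m y : ℂ) * JJ w (sc y h) * ((starRingEnd ℂ) (ee (EBar.coc (sc y h) (sc y h)⁻¹))
        * ee (EBar.coc (sc y h) (sc y h)⁻¹)) := by ring
    _ = _ := by rw [this, mul_one]

lemma tadj_tpl_sub (w : Win m) (Lam y : ℝ) (h : EBar m ℤ) :
    tadj (y ^ m) (tpl w Lam y) h - tpl w Lam y h
      = TT w Lam y h - (starRingEnd ℂ) (TT w Lam y h⁻¹ * om (y ^ m) h h⁻¹) := by
  have := tadj_kk w y h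
  unfold tadj at this ⊢
  unfold TT
  rw [sub_mul, map_sub, this]
  ring

/-- all bounds for the defect, with explicit constants -/
lemma ef_bounds (w : Win m) {Lam y C1 t1 ts M D Ds : ℝ} (hL : 1 ≤ Lam) (hy0 : 0 < y) (hy1 : y ≤ 1)
    (hk : Summable fun γ => ‖kk w y γ‖) (hC1 : ∑' γ, ‖kk w y γ‖ ≤ C1)
    (ht1 : ∑' γ : EBar m ℤ, (if Lam < ‖(sc y γ).lam‖ then ‖kk w y γ‖ else 0) ≤ t1)
    (hts : ∀ γ : EBar m ℤ, Lam < ‖(sc y γ).lam‖ → ‖kk w y γ‖ ≤ ts) (hts0 : 0 ≤ ts)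
    (hM : ∀ γ, ‖kk w y γ‖ ≤ M)
    (hd2s : Summable fun γ => ‖dd w y γ‖ ^ 2) (hD0 : 0 ≤ D)
    (hd2 : ∑' γ, ‖dd w y γ‖ ^ 2 ≤ D ^ 2 * nu m y)
    (hds : ∀ h, ‖dd w y h‖ ≤ Ds) :
    (Summable fun γ => ‖TT w Lam y γ‖) ∧ (∑' γ, ‖TT w Lam y γ‖ ≤ t1) ∧
    (∀ h, ‖ef w Lam y h‖ ≤ Ds + (2 * C1 + 1) * ts) ∧
    (∑' h, ‖ef w Lam y h‖ ≤ (2 * R2 m Lam + 1) ^ nf m * D + (2 * C1 + 1) * t1) ∧
    (∑' h, ‖ef w Lam y h‖ ^ 2 ≤ (Ds + (2 * C1 + 1) * ts) *
      ((2 * R2 m Lam + 1) ^ nf m * D + (2 * C1 + 1) * t1)) := by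
  classical
  have hL0 : 0 < Lam := lt_of_lt_of_le one_pos hL
  have hnu : 0 < nu m y := pow_pos hy0 _
  have hC10 : 0 ≤ C1 := (tsum_nonneg fun _ => norm_nonneg _).trans hC1
  have hind : Summable fun γ : EBar m ℤ => (if Lam < ‖(sc y γ).lam‖ then ‖kk w y γ‖ else 0) := by
    refine Summable.of_nonneg_of_le (fun γ => ?_) (fun γ => ?_) hk
    · split_ifs
      · exact norm_nonneg _
      · exact le_rfl
    · split_ifs
      · exact le_rfl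
      · exact norm_nonneg _
  have hTs : Summable fun γ => ‖TT w Lam y γ‖ :=
    Summable.of_nonneg_of_le (fun _ => norm_nonneg _) (norm_TT_le w hL0 y) hind
  have hT1 : ∑' γ, ‖TT w Lam y γ‖ ≤ t1 :=
    (hTs.tsum_le_tsum (norm_TT_le w hL0 y) hind).trans ht1
  have ht10 : 0 ≤ t1 := (tsum_nonneg fun _ => norm_nonneg _).trans hT1
  have hTsup : ∀ γ, ‖TT w Lam y γ‖ ≤ ts := by
    intro γ
    refine (norm_TT_le w hL0 y γ).trans ?_
    split_ifs with h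
    · exact hts γ h
    · exact hts0
  have hf : Summable fun γ => ‖tpl w Lam y γ‖ :=
    Summable.of_nonneg_of_le (fun _ => norm_nonneg _) (norm_tpl_le w Lam y) hk
  have hf1 : ∑' γ, ‖tpl w Lam y γ‖ ≤ C1 := (hf.tsum_le_tsum (norm_tpl_le w Lam y) hk).trans hC1
  -- pointwise decomposition
  have hpt : ∀ h, ‖ef w Lam y h‖ ≤ ‖dd w y h‖ + ‖tconv (om (y ^ m)) (kk w y) (TT w Lam y) h‖
      + ‖tconv (om (y ^ m)) (TT w Lam y) (tpl w Lam y) h‖ + ‖TT w Lam y h‖ := by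
    intro h
    rw [ef_eq w Lam y hk hM h]
    refine (norm_add_le _ _).trans (add_le_add_left ?_ _)
    refine (norm_sub_le _ _).trans (add_le_add_left ?_ _)
    exact norm_sub_le _ _
  have hsup : ∀ h, ‖ef w Lam y h‖ ≤ Ds + (2 * C1 + 1) * ts := by
    intro h
    have a1 := norm_tconv_le (ω := om (y ^ m)) (om_le _) hk hTsup h
    have a2 := norm_tconv_le' (ω := om (y ^ m)) (om_le _) hTsup hf h
    have a3 : (∑' g, ‖kk w y g‖) * ts ≤ C1 * ts := mul_le_mul_of_nonneg_right hC1 hts0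
    have a4 : ts * ∑' g, ‖tpl w Lam y g‖ ≤ ts * C1 := mul_le_mul_of_nonneg_left hf1 hts0
    have := hpt h
    have := hds h
    have := hTsup h
    nlinarith
  -- the finite support
  have hR2 : 0 ≤ R2 m Lam := by
    have := R0_nonneg m
    refine le_trans ?_ (le_max_right _ _)
    positivity
  obtain ⟨hfin, hcount⟩ := sc_count (m := m) (R2 m Lam) hR2 y hy0 hy1
  set S2 : Finset (EBar m ℤ) := hfin.toFinset with hS2
  have hout : ∀ h, h ∉ S2 → ef w Lam y h = 0 := by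
    intro h hh
    by_contra h0
    exact hh (by rw [hS2, Set.Finite.mem_toFinset]; exact ef_supp w hL0 h h0)
  have hcard : nu m y * (S2.card : ℝ) ≤ (2 * R2 m Lam + 1) ^ (2 * nf m) := by
    rw [hS2, ← Set.ncard_eq_toFinset_card _ hfin]; exact hcount
  -- ℓ¹ bound
  have hsumd : ∑ h ∈ S2, ‖dd w y h‖ ≤ (2 * R2 m Lam + 1) ^ nf m * D := by
    have h1 : (∑ h ∈ S2, ‖dd w y h‖) ^ 2 ≤ S2.card * ∑ h ∈ S2, ‖dd w y h‖ ^ 2 :=
      sq_sum_le_card_mul_sum_sq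
    have h2 : ∑ h ∈ S2, ‖dd w y h‖ ^ 2 ≤ D ^ 2 * nu m y :=
      (hd2s.sum_le_tsum S2 (fun _ _ => sq_nonneg _)).trans hd2
    have h3 : (∑ h ∈ S2, ‖dd w y h‖) ^ 2 ≤ ((2 * R2 m Lam + 1) ^ nf m * D) ^ 2 := by
      calc (∑ h ∈ S2, ‖dd w y h‖) ^ 2 ≤ S2.card * (D ^ 2 * nu m y) :=
            h1.trans (mul_le_mul_of_nonneg_left h2 (Nat.cast_nonneg _))
        _ = (nu m y * S2.card) * D ^ 2 := by ring
        _ ≤ (2 * R2 m Lam + 1) ^ (2 * nf m) * D ^ 2 :=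
            mul_le_mul_of_nonneg_right hcard (sq_nonneg _)
        _ = ((2 * R2 m Lam + 1) ^ nf m * D) ^ 2 := by ring
    exact (pow_le_pow_iff_left₀ (Finset.sum_nonneg fun _ _ => norm_nonneg _) (by positivity)
      two_ne_zero).mp h3
  have hl1fin : ∑ h ∈ S2, ‖ef w Lam y h‖ ≤ (2 * R2 m Lam + 1) ^ nf m * D + (2 * C1 + 1) * t1 := by
    have b1 : ∑ h ∈ S2, ‖tconv (om (y ^ m)) (kk w y) (TT w Lam y) h‖ ≤ C1 * t1 := by
      refine ((summable_norm_tconv (om_le _) hk hTs).sum_le_tsum S2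
        (fun _ _ => norm_nonneg _)).trans ((tsum_norm_tconv_le (om_le _) hk hTs).trans ?_)
      exact mul_le_mul hC1 hT1 (tsum_nonneg fun _ => norm_nonneg _) hC10
    have b2 : ∑ h ∈ S2, ‖tconv (om (y ^ m)) (TT w Lam y) (tpl w Lam y) h‖ ≤ t1 * C1 := by
      refine ((summable_norm_tconv (om_le _) hTs hf).sum_le_tsum S2
        (fun _ _ => norm_nonneg _)).trans ((tsum_norm_tconv_le (om_le _) hTs hf).trans ?_)
      exact mul_le_mul hT1 hf1 (tsum_nonneg fun _ => norm_nonneg _) ht10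
    have b3 : ∑ h ∈ S2, ‖TT w Lam y h‖ ≤ t1 :=
      (hTs.sum_le_tsum S2 (fun _ _ => norm_nonneg _)).trans hT1
    calc ∑ h ∈ S2, ‖ef w Lam y h‖
        ≤ ∑ h ∈ S2, (‖dd w y h‖ + ‖tconv (om (y ^ m)) (kk w y) (TT w Lam y) h‖
          + ‖tconv (om (y ^ m)) (TT w Lam y) (tpl w Lam y) h‖ + ‖TT w Lam y h‖) :=
          Finset.sum_le_sum fun h _ => hpt h
      _ = ∑ h ∈ S2, ‖dd w y h‖ + ∑ h ∈ S2, ‖tconv (om (y ^ m)) (kk w y) (TT w Lam y) h‖
          + ∑ h ∈ S2, ‖tconv (om (y ^ m)) (TT w Lam y) (tpl w Lam y) h‖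
          + ∑ h ∈ S2, ‖TT w Lam y h‖ := by
          simp only [Finset.sum_add_distrib]
      _ ≤ _ := by nlinarith
  have hl1 : ∑' h, ‖ef w Lam y h‖ = ∑ h ∈ S2, ‖ef w Lam y h‖ :=
    tsum_eq_sum fun h hh => by rw [hout h hh, norm_zero]
  have hl2 : ∑' h, ‖ef w Lam y h‖ ^ 2 = ∑ h ∈ S2, ‖ef w Lam y h‖ ^ 2 :=
    tsum_eq_sum fun h hh => by rw [hout h hh, norm_zero]; norm_num
  refine ⟨hTs, hT1, hsup, hl1 ▸ hl1fin, ?_⟩
  rw [hl2]
  have hsup0 : 0 ≤ Ds + (2 * C1 + 1) * ts := (norm_nonneg _).trans (hsup 1)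
  calc ∑ h ∈ S2, ‖ef w Lam y h‖ ^ 2
      ≤ ∑ h ∈ S2, (Ds + (2 * C1 + 1) * ts) * ‖ef w Lam y h‖ := by
        refine Finset.sum_le_sum fun h _ => ?_
        rw [sq]
        exact mul_le_mul_of_nonneg_right (hsup h) (norm_nonneg _)
    _ = (Ds + (2 * C1 + 1) * ts) * ∑ h ∈ S2, ‖ef w Lam y h‖ := by rw [Finset.mul_sum]
    _ ≤ _ := mul_le_mul_of_nonneg_left hl1fin hsup0

lemma tadj_bound (w : Win m) {Lam y t1 : ℝ} (hTs : Summable fun γ => ‖TT w Lam y γ‖)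
    (hT1 : ∑' γ, ‖TT w Lam y γ‖ ≤ t1) :
    ∑' h, ‖tadj (y ^ m) (tpl w Lam y) h - tpl w Lam y h‖ ≤ 2 * t1 := by
  have hinv : Summable fun h : EBar m ℤ => ‖TT w Lam y h⁻¹‖ :=
    (Equiv.inv (EBar m ℤ)).summable_iff.mpr hTs
  have hinv1 : ∑' h : EBar m ℤ, ‖TT w Lam y h⁻¹‖ = ∑' h, ‖TT w Lam y h‖ :=
    (Equiv.inv (EBar m ℤ)).tsum_eq (fun h => ‖TT w Lam y h‖)
  have hpt : ∀ h, ‖tadj (y ^ m) (tpl w Lam y) h - tpl w Lam y h‖
      ≤ ‖TT w Lam y h‖ + ‖TT w Lam y h⁻¹‖ := by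
    intro h
    rw [tadj_tpl_sub]
    refine (norm_sub_le _ _).trans (add_le_add_right ?_ _)
    rw [RCLike.norm_conj, norm_mul, norm_om, mul_one]
  have hs : Summable fun h => ‖tadj (y ^ m) (tpl w Lam y) h - tpl w Lam y h‖ :=
    Summable.of_nonneg_of_le (fun _ => norm_nonneg _) hpt (hTs.add hinv)
  calc _ ≤ ∑' h, (‖TT w Lam y h‖ + ‖TT w Lam y h⁻¹‖) := hs.tsum_le_tsum hpt (hTs.add hinv)
    _ = ∑' h, ‖TT w Lam y h‖ + ∑' h : EBar m ℤ, ‖TT w Lam y h⁻¹‖ := hTs.tsum_add hinv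
    _ ≤ 2 * t1 := by rw [hinv1]; linarith

lemma tpl_l2_bounds (w : Win m) {Lam y t1 M : ℝ} (hk2 : Summable fun γ => ‖kk w y γ‖ ^ 2)
    (hTs : Summable fun γ => ‖TT w Lam y γ‖) (hT1 : ∑' γ, ‖TT w Lam y γ‖ ≤ t1)
    (hM : ∀ γ, ‖kk w y γ‖ ≤ M) (hM0 : 0 ≤ M) :
    ∑' h, ‖tpl w Lam y h‖ ^ 2 ≤ ∑' h, ‖kk w y h‖ ^ 2 ∧
    ∑' h, ‖kk w y h‖ ^ 2 ≤ ∑' h, ‖tpl w Lam y h‖ ^ 2 + 2 * M * t1 := by
  have hle : ∀ γ, ‖tpl w Lam y γ‖ ^ 2 ≤ ‖kk w y γ‖ ^ 2 := fun γ =>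
    pow_le_pow_left₀ (norm_nonneg _) (norm_tpl_le w Lam y γ) 2
  have hf2 : Summable fun γ => ‖tpl w Lam y γ‖ ^ 2 :=
    Summable.of_nonneg_of_le (fun _ => sq_nonneg _) hle hk2
  refine ⟨hf2.tsum_le_tsum hle hk2, ?_⟩
  have hpt : ∀ γ, ‖kk w y γ‖ ^ 2 ≤ ‖tpl w Lam y γ‖ ^ 2 + 2 * M * ‖TT w Lam y γ‖ := by
    intro γ
    have h1 : ‖tpl w Lam y γ‖ = cut Lam (sc y γ).lam * ‖kk w y γ‖ := by
      rw [tpl_eq, norm_mul, Complex.norm_real, Real.norm_of_nonneg (cut_nonneg _ _)]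
    rw [h1, norm_TT_eq]
    have hc0 := cut_nonneg Lam (sc y γ).lam
    have hc1 := cut_le_one Lam (sc y γ).lam
    have hk0 := norm_nonneg (kk w y γ)
    have hkM := hM γ
    set c := cut Lam (sc y γ).lam
    set k := ‖kk w y γ‖
    have e : k ^ 2 - (c * k) ^ 2 = (1 - c) * (1 + c) * k * k := by ring
    have h2 : (1 - c) * (1 + c) * k * k ≤ (1 - c) * 2 * k * M := by
      have : (1 - c) * (1 + c) * k ≤ (1 - c) * 2 * k := by
        refine mul_le_mul_of_nonneg_right ?_ hk0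
        exact mul_le_mul_of_nonneg_left (by linarith) (by linarith)
      exact mul_le_mul this hkM hk0 (by
        have : 0 ≤ 1 - c := by linarith
        positivity)
    nlinarith
  have hs2 : Summable fun γ => ‖tpl w Lam y γ‖ ^ 2 + 2 * M * ‖TT w Lam y γ‖ :=
    hf2.add (hTs.mul_left _)
  calc ∑' h, ‖kk w y h‖ ^ 2 ≤ ∑' γ, (‖tpl w Lam y γ‖ ^ 2 + 2 * M * ‖TT w Lam y γ‖) :=
        hk2.tsum_le_tsum hpt hs2
    _ = ∑' γ, ‖tpl w Lam y γ‖ ^ 2 + 2 * M * ∑' γ, ‖TT w Lam y γ‖ := by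
        rw [hf2.tsum_add (hTs.mul_left _), tsum_mul_left]
    _ ≤ _ := by
        have : 2 * M * ∑' γ, ‖TT w Lam y γ‖ ≤ 2 * M * t1 :=
          mul_le_mul_of_nonneg_left hT1 (by positivity)
        linarith

set_option maxHeartbeats 1000000 in
/-- (T3)-(T6) **main estimate** at the matched parameter `θ = y^m`:
almost idempotent in `ℓ¹` and `ℓ²`, almost self-adjoint, `ℓ²` size `≈ sqrt nu`. -/
theorem tpl_main (w : Win m) (ε : ℝ) (hε : 0 < ε) : ∃ (Lam y0 : ℝ), 1 ≤ Lam ∧ 0 < y0 ∧ y0 ≤ 1 ∧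
    ∀ y : ℝ, 0 < y → y ≤ y0 →
      (∑' h, ‖tconv (om (y ^ m)) (tpl w Lam y) (tpl w Lam y) h - tpl w Lam y h‖ ≤ ε) ∧
      (∑' h, ‖tconv (om (y ^ m)) (tpl w Lam y) (tpl w Lam y) h - tpl w Lam y h‖ ^ 2
          ≤ ε ^ 2 * nu m y) ∧
      (∑' h, ‖tadj (y ^ m) (tpl w Lam y) h - tpl w Lam y h‖ ≤ ε) ∧
      ((1 - ε) * nu m y ≤ ∑' h, ‖tpl w Lam y h‖ ^ 2) ∧
      (∑' h, ‖tpl w Lam y h‖ ^ 2 ≤ (1 + ε) * nu m y) := by
  obtain ⟨C1, hC10, hC1⟩ := kk_l1 w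
  obtain ⟨CT, hCT0, hCT⟩ := kk_tail w
  obtain ⟨CU, hCU0, hCU⟩ := kk_sup_tail w
  obtain ⟨CJ, hCJ0, hCJ⟩ := JJ_bound w
  obtain ⟨C2, y2, hC20, hy20, hy21, hk2⟩ := kk_l2 w
  obtain ⟨C3, y3, hC30, hy30, hy31, hd2⟩ := dd_l2 w
  obtain ⟨C4, y4, hC40, hy40, hy41, hds⟩ := dd_sup w
  set K : ℝ := (2 * C1 + 1) * (CT + CU) + 2 * CT + 2 * CJ * CT + 1 with hK
  have hK0 : 0 < K := by positivity
  set Lam : ℝ := max 1 (2 * K / ε) with hLam
  have hL1 : 1 ≤ Lam := le_max_left _ _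
  have hL0 : 0 < Lam := lt_of_lt_of_le one_pos hL1
  have hdiv : ∀ X : ℝ, 0 ≤ X → X ≤ K → X / Lam ≤ ε / 2 := by
    intro X hX0 hXK
    rw [div_le_iff₀ hL0]
    have h1 : 2 * K / ε ≤ Lam := le_max_right _ _
    have h2 : K ≤ ε / 2 * Lam := by
      rw [div_le_iff₀ hε] at h1
      linarith
    linarith
  have hR2 : 0 ≤ R2 m Lam := by
    have := R0_nonneg m
    refine le_trans ?_ (le_max_right _ _)
    positivity
  set Ky : ℝ := (2 * R2 m Lam + 1) ^ nf m * C3 + C4 + C2 + 1 with hKy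
  have hKy0 : 0 < Ky := by positivity
  refine ⟨Lam, min (min y2 (min y3 y4)) (ε / (2 * Ky)), hL1, ?_, ?_, ?_⟩
  · exact lt_min (lt_min hy20 (lt_min hy30 hy40)) (by positivity)
  · exact (min_le_left _ _).trans ((min_le_left _ _).trans hy21)
  intro y hy0 hy
  have hyy2 : y ≤ y2 := hy.trans ((min_le_left _ _).trans (min_le_left _ _))
  have hyy3 : y ≤ y3 :=
    hy.trans ((min_le_left _ _).trans ((min_le_right _ _).trans (min_le_left _ _)))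
  have hyy4 : y ≤ y4 :=
    hy.trans ((min_le_left _ _).trans ((min_le_right _ _).trans (min_le_right _ _)))
  have hy1 : y ≤ 1 := hyy2.trans hy21
  have hyK : y ≤ ε / (2 * Ky) := hy.trans (min_le_right _ _)
  have hmul : ∀ X : ℝ, 0 ≤ X → X ≤ Ky → X * y ≤ ε / 2 := by
    intro X hX0 hXK
    have h1 : y * (2 * Ky) ≤ ε := by rwa [le_div_iff₀ (by positivity)] at hyK
    nlinarith
  have hnu : 0 < nu m y := pow_pos hy0 _
  obtain ⟨hks, hk1⟩ := hC1 y hy0 hy1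
  obtain ⟨hk2s, hk2b⟩ := hk2 y hy0 hyy2
  obtain ⟨hd2s, hd2b⟩ := hd2 y hy0 hyy3
  have hM : ∀ γ, ‖kk w y γ‖ ≤ CJ * nu m y := by
    intro γ
    unfold kk
    rw [norm_mul, Complex.norm_real, Real.norm_of_nonneg hnu.le, mul_comm]
    exact mul_le_mul_of_nonneg_right (hCJ _) hnu.le
  obtain ⟨hTs, hT1, hsup, hl1, hl2⟩ := ef_bounds w (C1 := C1) (t1 := CT / Lam)
    (ts := CU / Lam * nu m y) (M := CJ * nu m y) (D := C3 * y) (Ds := C4 * y * nu m y)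
    hL1 hy0 hy1 hks hk1 (hCT y Lam hy0 hy1 hL1)
    (fun γ hγ => hCU y Lam γ hy0 hy1 hL1 hγ) (by positivity) hM hd2s (by positivity) hd2b
    (fun h => hds y h hy0 hyy4)
  -- the two brackets
  have hA : (2 * R2 m Lam + 1) ^ nf m * (C3 * y) + (2 * C1 + 1) * (CT / Lam) ≤ ε := by
    have a1 := hmul ((2 * R2 m Lam + 1) ^ nf m * C3) (by positivity) (by rw [hKy]; linarith)
    have a2 := hdiv ((2 * C1 + 1) * CT) (by positivity) (by rw [hK]; nlinarith)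
    have e1 : (2 * R2 m Lam + 1) ^ nf m * (C3 * y) = (2 * R2 m Lam + 1) ^ nf m * C3 * y := by ring
    have e2 : (2 * C1 + 1) * (CT / Lam) = (2 * C1 + 1) * CT / Lam := by ring
    rw [e1, e2]; linarith
  have hB : C4 * y * nu m y + (2 * C1 + 1) * (CU / Lam * nu m y) ≤ ε * nu m y := by
    have a1 := hmul C4 hC40 (by
      rw [hKy]
      have : 0 ≤ (2 * R2 m Lam + 1) ^ nf m * C3 := by positivity
      linarith)
    have a2 := hdiv ((2 * C1 + 1) * CU) (by positivity) (by rw [hK]; nlinarith)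
    have e : C4 * y * nu m y + (2 * C1 + 1) * (CU / Lam * nu m y)
        = (C4 * y + (2 * C1 + 1) * CU / Lam) * nu m y := by ring
    rw [e]
    exact mul_le_mul_of_nonneg_right (by linarith) hnu.le
  have hA0 : 0 ≤ (2 * R2 m Lam + 1) ^ nf m * (C3 * y) + (2 * C1 + 1) * (CT / Lam) := by positivity
  obtain ⟨hup, hlow⟩ := tpl_l2_bounds w hk2s hTs hT1 hM (by positivity)
  have hk2b' := abs_le.mp hk2b
  have hC2y := hmul C2 hC20 (by
    rw [hKy]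
    have : 0 ≤ (2 * R2 m Lam + 1) ^ nf m * C3 := by positivity
    linarith)
  refine ⟨hl1.trans hA, ?_, ?_, ?_, ?_⟩
  · refine hl2.trans ?_
    calc _ ≤ (ε * nu m y) * ε := mul_le_mul hB hA hA0 (by positivity)
      _ = ε ^ 2 * nu m y := by ring
  · refine (tadj_bound w hTs hT1).trans ?_
    have := hdiv (2 * CT) (by positivity) (by
      rw [hK]
      have : 0 ≤ (2 * C1 + 1) * (CT + CU) := by positivity
      have : 0 ≤ 2 * CJ * CT := by positivity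
      linarith)
    have e : 2 * (CT / Lam) = 2 * CT / Lam := by ring
    rw [e]; linarith
  · have a1 := hdiv (2 * CJ * CT) (by positivity) (by
      rw [hK]
      have : 0 ≤ (2 * C1 + 1) * (CT + CU) := by positivity
      linarith)
    have e : 2 * (CJ * nu m y) * (CT / Lam) = (2 * CJ * CT / Lam) * nu m y := by ring
    rw [e] at hlow
    have h1 : (2 * CJ * CT / Lam) * nu m y ≤ ε / 2 * nu m y :=
      mul_le_mul_of_nonneg_right a1 hnu.le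
    have h2 : C2 * y * nu m y ≤ ε / 2 * nu m y := mul_le_mul_of_nonneg_right hC2y hnu.le
    have := hk2b'.1
    linarith
  · have h2 : C2 * y * nu m y ≤ ε / 2 * nu m y := mul_le_mul_of_nonneg_right hC2y hnu.le
    have := hk2b'.2
    linarith

end Claimed.Agent.R300.Nil
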