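/-
Row 300, KK Sections 8-9: auxiliary lemmas for `kk_proj` (`KkProj.lean`, architect helper21).  Proofs: helper193.
No sorry in this file (it uses the statements of `KkDeck.lean`).
 * `KkTriple A B Q`: three commuting operators, `Q` a star projection; estimates for `T = A B Q`.
 * `kkp_X_sq`, `kkp_Y_sq`, `kkp_X_star`, `kkp_Y_star`: frozen calculus + `ℓ¹` defect.
 * `kkp_core`: everything about `kkNear (LX(a) LY(b) Q)` from operator estimates and `ℓ²` data.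
 * `kkp_side`: all coefficient estimates for one template.
-/
import Claimed.Agent.R300.KkDeck
import Claimed.Agent.R300.NilTplMain
import Claimed.Agent.R300.NilTplAux
import Claimed.Agent.R300.SpecHilb
import Claimed.Agent.R300.KkNear

set_option autoImplicit false
set_option linter.unusedSectionVars false

namespace Claimed.Agent.R300

open Nil
open scoped ENNReal ComplexConjugate InnerProductSpace Matrix.Norms.L2Operator

section triple

variable {H : Type*} [NormedAddCommGroup H] [InnerProductSpace ℂ H] [CompleteSpace H]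

/-- three commuting operators, the last one a star projection. -/
structure KkTriple (A B Q : H →L[ℂ] H) : Prop where
  ab : A * B = B * A
  aq : A * Q = Q * A
  bq : B * Q = Q * B
  qq : Q * Q = Q
  qs : star Q = Q

namespace KkTriple

variable {A B Q : H →L[ℂ] H} (h : KkTriple A B Q)
include h

theorem star : KkTriple (star A) (star B) Q where
  ab := by rw [← star_mul, ← star_mul, h.ab]
  aq := by
    have := congrArg Star.star h.aq
    rw [star_mul, star_mul, h.qs] at this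
    exact this.symm
  bq := by
    have := congrArg Star.star h.bq
    rw [star_mul, star_mul, h.qs] at this
    exact this.symm
  qq := h.qq
  qs := h.qs

theorem pq : A * B * Q = Q * (A * B) := by
  rw [mul_assoc, h.bq, ← mul_assoc, h.aq, mul_assoc]

theorem sq_sub : A * B * Q * (A * B * Q) - A * B * Q = (A * B * (A * B) - A * B) * Q := by
  have h1 : A * B * Q * (A * B * Q) = A * B * (A * B) * Q := by
    calc A * B * Q * (A * B * Q) = A * B * (Q * (A * B)) * Q := by noncomm_ring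
      _ = A * B * (A * B * Q) * Q := by rw [← h.pq]
      _ = A * B * (A * B) * (Q * Q) := by noncomm_ring
      _ = A * B * (A * B) * Q := by rw [h.qq]
  rw [h1, sub_mul]

theorem sq_sub' : A * B * Q * (A * B * Q) - A * B * Q
    = (A * A - A) * Q * (B * B) + A * ((B * B - B) * Q) := by
  rw [h.sq_sub]
  have h1 : A * B * (A * B) = A * A * (B * B) := by
    calc A * B * (A * B) = A * (B * A) * B := by noncomm_ring
      _ = A * (A * B) * B := by rw [← h.ab]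
      _ = A * A * (B * B) := by noncomm_ring
  have h2 : Q * (B * B) = B * B * Q := by
    rw [← mul_assoc, ← h.bq, mul_assoc, ← h.bq, mul_assoc]
  rw [h1]
  calc (A * A * (B * B) - A * B) * Q
      = (A * A - A) * (B * B * Q) + A * ((B * B - B) * Q) := by noncomm_ring
    _ = (A * A - A) * Q * (B * B) + A * ((B * B - B) * Q) := by rw [← h2]; noncomm_ring

theorem star_eq : Star.star (A * B * Q) = Star.star A * Star.star B * Q := by
  rw [star_mul, star_mul, h.qs, ← h.star.ab, h.star.pq]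

theorem star_sub : Star.star (A * B * Q) - A * B * Q
    = (Star.star A - A) * Q * Star.star B + A * ((Star.star B - B) * Q) := by
  rw [h.star_eq]
  calc Star.star A * Star.star B * Q - A * B * Q
      = (Star.star A - A) * (Star.star B * Q) + A * ((Star.star B - B) * Q) := by noncomm_ring
    _ = (Star.star A - A) * Q * Star.star B + A * ((Star.star B - B) * Q) := by
        rw [h.star.bq]; noncomm_ring

theorem absorb : A * B * Q * Q = A * B * Q := by rw [mul_assoc, h.qq]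

theorem star_absorb : Star.star (A * B * Q) * Q = Star.star (A * B * Q) := by
  rw [h.star_eq, mul_assoc, h.qq]

theorem q_norm_le : ‖Q‖ ≤ 1 :=
  IsStarProjection.norm_le Q ⟨h.qq, h.qs⟩

/-- all the estimates for `T = A B Q`. -/
theorem estimates {c η : ℝ} (hA : ‖A‖ ≤ c) (hB : ‖B‖ ≤ c) (h1 : ‖(A * A - A) * Q‖ ≤ η)
    (h2 : ‖(B * B - B) * Q‖ ≤ η) (h3 : ‖(Star.star A - A) * Q‖ ≤ η)
    (h4 : ‖(Star.star B - B) * Q‖ ≤ η) :
    ‖A * B * Q‖ ≤ c * c ∧ ‖A * B * Q * (A * B * Q) - A * B * Q‖ ≤ η * (c * c + 2 * c + 1) ∧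
      ‖Star.star (A * B * Q) - A * B * Q‖ ≤ η * (c * c + 2 * c + 1) := by
  have hc : 0 ≤ c := (norm_nonneg _).trans hA
  have hη : 0 ≤ η := (norm_nonneg _).trans h1
  have hQ := h.q_norm_le
  have hBs : ‖Star.star B‖ ≤ c := by rw [norm_star]; exact hB
  refine ⟨?_, ?_, ?_⟩
  · calc ‖A * B * Q‖ ≤ ‖A * B‖ * ‖Q‖ := norm_mul_le _ _
      _ ≤ (‖A‖ * ‖B‖) * ‖Q‖ := mul_le_mul_of_nonneg_right (norm_mul_le _ _) (norm_nonneg _)
      _ ≤ (c * c) * 1 := by gcongr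
      _ = c * c := mul_one _
  · rw [h.sq_sub']
    calc ‖(A * A - A) * Q * (B * B) + A * ((B * B - B) * Q)‖
        ≤ ‖(A * A - A) * Q * (B * B)‖ + ‖A * ((B * B - B) * Q)‖ := norm_add_le _ _
      _ ≤ ‖(A * A - A) * Q‖ * (‖B‖ * ‖B‖) + ‖A‖ * ‖(B * B - B) * Q‖ := by
          refine add_le_add ((norm_mul_le _ _).trans ?_) (norm_mul_le _ _)
          exact mul_le_mul_of_nonneg_left (norm_mul_le _ _) (norm_nonneg _)
      _ ≤ η * (c * c) + c * η := by gcongr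
      _ ≤ η * (c * c + 2 * c + 1) := by nlinarith
  · rw [h.star_sub]
    calc ‖(Star.star A - A) * Q * Star.star B + A * ((Star.star B - B) * Q)‖
        ≤ ‖(Star.star A - A) * Q * Star.star B‖ + ‖A * ((Star.star B - B) * Q)‖ :=
          norm_add_le _ _
      _ ≤ ‖(Star.star A - A) * Q‖ * ‖Star.star B‖ + ‖A‖ * ‖(Star.star B - B) * Q‖ :=
          add_le_add (norm_mul_le _ _) (norm_mul_le _ _)
      _ ≤ η * c + c * η := by gcongr
      _ ≤ η * (c * c + 2 * c + 1) := by nlinarith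

end KkTriple

end triple

section coef

theorem kkp_tconv_support {Γ : Type*} [Group Γ] {ω : Γ → Γ → ℂ} {a b : Γ → ℂ}
    (ha : (Function.support a).Finite) (hb : (Function.support b).Finite) :
    (Function.support (tconv ω a b)).Finite := by
  refine ((ha.prod hb).image fun p : Γ × Γ => p.1 * p.2).subset ?_
  intro h hh
  by_contra hcon
  refine hh (tconv_eq_zero_of h fun g hg => ?_)
  by_contra hb'
  exact hcon ⟨(g, g⁻¹ * h), ⟨hg, hb'⟩, by simp⟩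

variable {m : ℕ}

theorem kkp_tadj_support (θ : ℝ) {a : EBar m ℤ → ℂ} (ha : (Function.support a).Finite) :
    (Function.support (tadj θ a)).Finite := by
  refine (ha.image fun g => g⁻¹).subset ?_
  intro h hh
  refine ⟨h⁻¹, ?_, inv_inv h⟩
  intro h0
  apply hh
  unfold tadj
  rw [h0, zero_mul, map_zero]

theorem kkp_sub_support {Γ : Type*} {a b : Γ → ℂ} (ha : (Function.support a).Finite)
    (hb : (Function.support b).Finite) : (Function.support fun g => a g - b g).Finite := by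
  refine (ha.union hb).subset ?_
  intro g hg
  by_contra hcon
  rw [Set.mem_union, not_or] at hcon
  apply hg
  have h1 : a g = 0 := by simpa using hcon.1
  have h2 : b g = 0 := by simpa using hcon.2
  show a g - b g = 0
  rw [h1, h2, sub_zero]

theorem kkp_conj_support {Γ : Type*} {a : Γ → ℂ} (ha : (Function.support a).Finite) :
    (Function.support fun g => conj (a g)).Finite := by
  refine ha.subset ?_
  intro g hg h0
  apply hg
  show conj (a g) = 0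
  rw [h0, map_zero]

theorem kkp_om_neg (θ : ℝ) (g h : EBar m ℤ) : om (-θ) g h = conj (om θ g h) := by
  unfold om
  rw [neg_mul, ee_neg]

theorem kkp_conj_tconv (θ : ℝ) (f : EBar m ℤ → ℂ) (h : EBar m ℤ) :
    tconv (om (-θ)) (fun g => conj (f g)) (fun g => conj (f g)) h = conj (tconv (om θ) f f h) := by
  rw [conj_tconv]
  congr 1
  funext g g'
  exact kkp_om_neg θ g g'

theorem kkp_conj_tadj (θ : ℝ) (f : EBar m ℤ → ℂ) (h : EBar m ℤ) :
    tadj (-θ) (fun g => conj (f g)) h = conj (tadj θ f h) := by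
  unfold tadj
  rw [kkp_om_neg, ← map_mul]

end coef

section frozen

variable {m : ℕ} (q : ℕ) [NeZero q] {a : EBar m ℤ → ℂ}

theorem kkQ_isStarProjection (lo hi : ℝ) : IsStarProjection (kkQ (m := m) q lo hi) :=
  kkArc_isStarProjection _ _

theorem kkQ_norm_le (lo hi : ℝ) : ‖kkQ (m := m) q lo hi‖ ≤ 1 := kkArc_norm_le _ _

theorem kkp_X_sq (ha : (Function.support a).Finite) (c Cc : ℝ) (hc : ∑' g, ‖a g‖ ≤ c)
    (hCc : ∀ g h, a g ≠ 0 → a h ≠ 0 → |((EBar.coc g h : ℤ) : ℝ)| ≤ Cc) (hCc0 : 0 ≤ Cc)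
    (lo hi : ℝ) (h1 : lo ≤ hi) :
    ‖(kkLX q a * kkLX q a - kkLX q a) * kkQ q lo hi‖
      ≤ 2 * Real.pi * (hi - lo) * Cc * (c * c) + ∑' g, ‖tconv (om lo) a a g - a g‖ := by
  have h0 : 0 ≤ ∑' g, ‖a g‖ := tsum_nonneg fun _ => norm_nonneg _
  have e : (kkLX q a * kkLX q a - kkLX q a) * kkQ q lo hi
      = (kkLX q a * kkLX q a - kkLX q (tconv (om lo) a a)) * kkQ q lo hi
        + (kkLX q (tconv (om lo) a a) - kkLX q a) * kkQ q lo hi := by noncomm_ring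
  rw [e]
  refine (norm_add_le _ _).trans (add_le_add ?_ ?_)
  · refine (kkLX_mul_frozen q ha ha Cc hCc lo hi lo le_rfl h1).trans ?_
    have hpi := Real.pi_pos
    have : 0 ≤ 2 * Real.pi * (hi - lo) * Cc := by
      have : 0 ≤ hi - lo := by linarith
      positivity
    exact mul_le_mul_of_nonneg_left (mul_le_mul hc hc h0 (h0.trans hc)) this
  · rw [kkLX_sub q (kkp_tconv_support ha ha) ha]
    refine (norm_mul_le _ _).trans ?_
    refine (mul_le_of_le_one_right (norm_nonneg _) (kkQ_norm_le q lo hi)).trans ?_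
    exact kkLX_norm_le q (kkp_sub_support (kkp_tconv_support ha ha) ha)

theorem kkp_Y_sq (ha : (Function.support a).Finite) (c Cc : ℝ) (hc : ∑' g, ‖a g‖ ≤ c)
    (hCc : ∀ g h, a g ≠ 0 → a h ≠ 0 → |((EBar.coc g h : ℤ) : ℝ)| ≤ Cc) (hCc0 : 0 ≤ Cc)
    (lo hi : ℝ) (h1 : lo ≤ hi) :
    ‖(kkLY q a * kkLY q a - kkLY q a) * kkQ q lo hi‖
      ≤ 2 * Real.pi * (hi - lo) * Cc * (c * c)
        + ∑' g, ‖tconv (om (lo - 1 / q)) a a g - a g‖ := by
  have h0 : 0 ≤ ∑' g, ‖a g‖ := tsum_nonneg fun _ => norm_nonneg _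
  have e : (kkLY q a * kkLY q a - kkLY q a) * kkQ q lo hi
      = (kkLY q a * kkLY q a - kkLY q (tconv (om (lo - 1 / q)) a a)) * kkQ q lo hi
        + (kkLY q (tconv (om (lo - 1 / q)) a a) - kkLY q a) * kkQ q lo hi := by noncomm_ring
  rw [e]
  refine (norm_add_le _ _).trans (add_le_add ?_ ?_)
  · refine (kkLY_mul_frozen q ha ha Cc hCc lo hi lo le_rfl h1).trans ?_
    have hpi := Real.pi_pos
    have : 0 ≤ 2 * Real.pi * (hi - lo) * Cc := by
      have : 0 ≤ hi - lo := by linarith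
      positivity
    exact mul_le_mul_of_nonneg_left (mul_le_mul hc hc h0 (h0.trans hc)) this
  · rw [kkLY_sub q (kkp_tconv_support ha ha) ha]
    refine (norm_mul_le _ _).trans ?_
    refine (mul_le_of_le_one_right (norm_nonneg _) (kkQ_norm_le q lo hi)).trans ?_
    exact kkLY_norm_le q (kkp_sub_support (kkp_tconv_support ha ha) ha)

theorem kkp_X_star (ha : (Function.support a).Finite) (c Cc : ℝ) (hc : ∑' g, ‖a g‖ ≤ c)
    (hCc : ∀ g, a g ≠ 0 → |((EBar.coc g⁻¹ g : ℤ) : ℝ)| ≤ Cc) (hCc0 : 0 ≤ Cc)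
    (lo hi : ℝ) (h1 : lo ≤ hi) :
    ‖(star (kkLX q a) - kkLX q a) * kkQ q lo hi‖
      ≤ 2 * Real.pi * (hi - lo) * Cc * c + ∑' g, ‖tadj lo a g - a g‖ := by
  have e : (star (kkLX q a) - kkLX q a) * kkQ q lo hi
      = (star (kkLX q a) - kkLX q (tadj lo a)) * kkQ q lo hi
        + (kkLX q (tadj lo a) - kkLX q a) * kkQ q lo hi := by noncomm_ring
  rw [e]
  refine (norm_add_le _ _).trans (add_le_add ?_ ?_)
  · refine (kkLX_star_frozen q ha Cc hCc lo hi lo le_rfl h1).trans ?_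
    have hpi := Real.pi_pos
    have : 0 ≤ 2 * Real.pi * (hi - lo) * Cc := by
      have : 0 ≤ hi - lo := by linarith
      positivity
    exact mul_le_mul_of_nonneg_left hc this
  · rw [kkLX_sub q (kkp_tadj_support lo ha) ha]
    refine (norm_mul_le _ _).trans ?_
    refine (mul_le_of_le_one_right (norm_nonneg _) (kkQ_norm_le q lo hi)).trans ?_
    exact kkLX_norm_le q (kkp_sub_support (kkp_tadj_support lo ha) ha)

theorem kkp_Y_star (ha : (Function.support a).Finite) (c Cc : ℝ) (hc : ∑' g, ‖a g‖ ≤ c)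
    (hCc : ∀ g, a g ≠ 0 → |((EBar.coc g⁻¹ g : ℤ) : ℝ)| ≤ Cc) (hCc0 : 0 ≤ Cc)
    (lo hi : ℝ) (h1 : lo ≤ hi) :
    ‖(star (kkLY q a) - kkLY q a) * kkQ q lo hi‖
      ≤ 2 * Real.pi * (hi - lo) * Cc * c + ∑' g, ‖tadj (lo - 1 / q) a g - a g‖ := by
  have e : (star (kkLY q a) - kkLY q a) * kkQ q lo hi
      = (star (kkLY q a) - kkLY q (tadj (lo - 1 / q) a)) * kkQ q lo hi
        + (kkLY q (tadj (lo - 1 / q) a) - kkLY q a) * kkQ q lo hi := by noncomm_ring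
  rw [e]
  refine (norm_add_le _ _).trans (add_le_add ?_ ?_)
  · refine (kkLY_star_frozen q ha Cc hCc lo hi lo le_rfl h1).trans ?_
    have hpi := Real.pi_pos
    have : 0 ≤ 2 * Real.pi * (hi - lo) * Cc := by
      have : 0 ≤ hi - lo := by linarith
      positivity
    exact mul_le_mul_of_nonneg_left hc this
  · rw [kkLY_sub q (kkp_tadj_support _ ha) ha]
    refine (norm_mul_le _ _).trans ?_
    refine (mul_le_of_le_one_right (norm_nonneg _) (kkQ_norm_le q lo hi)).trans ?_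
    exact kkLY_norm_le q (kkp_sub_support (kkp_tadj_support _ ha) ha)

end frozen

section tplfacts

theorem kkp_summable_of_support {Γ : Type*} {φ : Γ → ℂ} (h : (Function.support φ).Finite) :
    (Summable fun g => ‖φ g‖) ∧ Summable fun g => ‖φ g‖ ^ 2 := by
  constructor
  · refine summable_of_ne_finset_zero (s := h.toFinset) fun g hg => ?_
    rw [Set.Finite.mem_toFinset, Function.mem_support, not_not] at hg
    rw [hg, norm_zero]
  · refine summable_of_ne_finset_zero (s := h.toFinset) fun g hg => ?_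
    rw [Set.Finite.mem_toFinset, Function.mem_support, not_not] at hg
    rw [hg, norm_zero]
    norm_num

theorem kkp_l2_defect {Γ : Type*} [Group Γ] {ω ω' : Γ → Γ → ℂ} (hω : ∀ g h, ‖ω g h‖ ≤ 1)
    (hω' : ∀ g h, ‖ω' g h‖ ≤ 1) {f : Γ → ℂ} (hf : (Function.support f).Finite)
    (hs1 : (Function.support fun h => tconv ω f f h - tconv ω' f f h).Finite)
    (hs2 : (Function.support fun h => tconv ω' f f h - f h).Finite)
    (hs3 : (Function.support fun h => tconv ω f f h - f h).Finite) {c M F E : ℝ}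
    (hc : ∑' g, ‖f g‖ ≤ c) (hM : ∀ g, ‖f g‖ ≤ M) (hM0 : 0 ≤ M)
    (hF : ∑' h, ‖tconv ω f f h - tconv ω' f f h‖ ≤ F)
    (hE : ∑' h, ‖tconv ω' f f h - f h‖ ^ 2 ≤ E) :
    ∑' h, ‖tconv ω f f h - f h‖ ^ 2 ≤ 2 * ((2 * c * M) * F) + 2 * E := by
  have hfs := (kkp_summable_of_support hf).1
  have hsup : ∀ h, ‖tconv ω f f h - tconv ω' f f h‖ ≤ 2 * c * M := by
    intro h
    have a1 := (norm_tconv_le hω hfs hM h).trans (mul_le_mul_of_nonneg_right hc hM0)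
    have a2 := (norm_tconv_le hω' hfs hM h).trans (mul_le_mul_of_nonneg_right hc hM0)
    have := norm_sub_le (tconv ω f f h) (tconv ω' f f h)
    linarith
  have hpt : ∀ h, ‖tconv ω f f h - f h‖ ^ 2
      ≤ 2 * ((2 * c * M) * ‖tconv ω f f h - tconv ω' f f h‖)
        + 2 * ‖tconv ω' f f h - f h‖ ^ 2 := by
    intro h
    set x := tconv ω f f h - tconv ω' f f h with hx
    set y := tconv ω' f f h - f h with hy
    have e : tconv ω f f h - f h = x + y := by rw [hx, hy]; ring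
    rw [e]
    have h1 := norm_add_le x y
    have h2 : ‖x‖ ^ 2 ≤ (2 * c * M) * ‖x‖ := by
      rw [sq]; exact mul_le_mul_of_nonneg_right (hsup h) (norm_nonneg _)
    nlinarith [sq_nonneg (‖x‖ - ‖y‖), norm_nonneg (x + y), norm_nonneg x, norm_nonneg y]
  have s1 := (kkp_summable_of_support hs1).1
  have s2 := (kkp_summable_of_support hs2).2
  have s3 := (kkp_summable_of_support hs3).2
  have s4 := ((s1.mul_left (2 * c * M)).mul_left 2).add (s2.mul_left 2)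
  calc ∑' h, ‖tconv ω f f h - f h‖ ^ 2
      ≤ ∑' h, (2 * ((2 * c * M) * ‖tconv ω f f h - tconv ω' f f h‖)
        + 2 * ‖tconv ω' f f h - f h‖ ^ 2) := s3.tsum_le_tsum hpt s4
    _ = 2 * ((2 * c * M) * ∑' h, ‖tconv ω f f h - tconv ω' f f h‖)
        + 2 * ∑' h, ‖tconv ω' f f h - f h‖ ^ 2 := by
        rw [((s1.mul_left (2 * c * M)).mul_left 2).tsum_add (s2.mul_left 2), tsum_mul_left,
          tsum_mul_left, tsum_mul_left]
    _ ≤ 2 * ((2 * c * M) * F) + 2 * E := by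
        have hc0 : 0 ≤ c := (tsum_nonneg fun _ => norm_nonneg _).trans hc
        have : 0 ≤ 2 * c * M := by positivity
        have := mul_le_mul_of_nonneg_left hF this
        linarith

variable {m : ℕ}

theorem kkp_nu_pos {y : ℝ} (hy : 0 < y) : 0 < nu m y := by
  unfold nu
  positivity

theorem kkp_nu_eq (y : ℝ) : nu m y = (y ^ m) ^ nf m := by
  unfold nu
  rw [pow_mul]

theorem kkp_tpl_sup (w : Win m) {CJ : ℝ} (hCJ : ∀ (Lam : ℝ) (a : EBar m ℝ), ‖Jf w Lam a‖ ≤ CJ)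
    (Lam : ℝ) {y : ℝ} (hy : 0 < y) (γ : EBar m ℤ) : ‖tpl w Lam y γ‖ ≤ nu m y * CJ := by
  unfold tpl
  rw [norm_mul, Complex.norm_real, Real.norm_of_nonneg (kkp_nu_pos hy).le]
  exact mul_le_mul_of_nonneg_left (hCJ _ _) (kkp_nu_pos hy).le

theorem kkp_tpl_coc (w : Win m) {Lam y : ℝ} (hL : 0 < Lam) (hy : 0 < y) (g h : EBar m ℤ)
    (hg : tpl w Lam y g ≠ 0) (hh : tpl w Lam y h ≠ 0) :
    |((EBar.coc g h : ℤ) : ℝ)| ≤ nf m * (2 * Lam) * R0 m / y ^ m := by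
  rw [le_div_iff₀ (pow_pos hy m), mul_comm]
  exact tpl_coc_bound w hL hy g h hg hh

theorem kkp_tpl_coc_inv (w : Win m) {R' : ℝ} (hR' : ∀ x : VV m, ‖x‖ ≤ R0 m → ‖ninv x‖ ≤ R')
    {Lam y : ℝ} (hL : 0 < Lam) (hy : 0 < y) (g : EBar m ℤ) (hg : tpl w Lam y g ≠ 0) :
    |((EBar.coc g⁻¹ g : ℤ) : ℝ)| ≤ nf m * (2 * Lam) * R' / y ^ m := by
  rw [le_div_iff₀ (pow_pos hy m), mul_comm]
  have := nilta_coc_inv w hR' hL hy g⁻¹ (by rwa [inv_inv])
  rwa [inv_inv] at this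

end tplfacts

theorem kkp_specRho_star {G I : Type} [Group G] (g : G) :
    star (specRho g : ScL2 (G × I) →L[ℂ] ScL2 (G × I)) = specRho g⁻¹ := by
  classical
  refine scOp_ext fun b => ?_
  ext a
  obtain ⟨a1, a2⟩ := a
  obtain ⟨b1, b2⟩ := b
  rw [sc_star_delta_apply, specRho_delta, specRho_delta, scDelta_apply, scDelta_apply, inv_inv]
  by_cases h : (b1, b2) = (a1 * g⁻¹, a2)
  · have h' : (a1, a2) = (b1 * g, b2) := by
      simp only [Prod.mk.injEq] at h ⊢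
      exact ⟨by rw [h.1, inv_mul_cancel_right], h.2.symm⟩
    rw [if_pos h, if_pos h', map_one]
  · have h' : (a1, a2) ≠ (b1 * g, b2) := by
      intro h'
      apply h
      simp only [Prod.mk.injEq] at h' ⊢
      exact ⟨by rw [h'.1, mul_inv_cancel_right], h'.2.symm⟩
    rw [if_neg h, if_neg h', map_zero]

theorem kkp_star_rho_comm {G I : Type} [Group G] {T : ScL2 (G × I) →L[ℂ] ScL2 (G × I)}
    (hT : ∀ g : G, Commute T (specRho g)) (g : G) : Commute (star T) (specRho g) := by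
  have := (hT g⁻¹).star_star
  rwa [kkp_specRho_star, inv_inv] at this

section core

variable {m : ℕ} (q : ℕ) [NeZero q] {a b : EBar m ℤ → ℂ}

theorem kkp_triple (a b : EBar m ℤ → ℂ) (lo hi : ℝ) :
    KkTriple (kkLX q a) (kkLY q b) (kkQ q lo hi) where
  ab := (kkLX_kkLY_comm q a b).eq
  aq := (kkLX_Q_comm q a lo hi).eq
  bq := (kkLY_Q_comm q b lo hi).eq
  qq := (kkQ_isStarProjection q lo hi).isIdempotentElem.eq
  qs := (kkQ_isStarProjection q lo hi).isSelfAdjoint.star_eq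

theorem kkp_T_rho_comm (a b : EBar m ℤ → ℂ) (lo hi : ℝ) (g : Deck m ℤ) :
    Commute (kkLX q a * kkLY q b * kkQ q lo hi) (specRho g) :=
  ((kkLX_rho_comm q a g).mul_left (kkLY_rho_comm q b g)).mul_left (kkQ_rho_comm q lo hi g)

/-- nonvanishing of `T δ` and smallness of the defect. -/
theorem kkp_core_vec (ha : (Function.support a).Finite) (hb : (Function.support b).Finite)
    (lo hi : ℝ) (h1 : lo < hi) (h2 : hi ≤ lo + 1) {s₁ s₂ : ℝ} (hs₁ : 0 < s₁) (hs₂ : 0 < s₂)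
    (da : ∀ t ∈ Set.Icc lo hi, ∑' k, ‖tconv (om t) a a k - a k‖ ^ 2 ≤ (s₁ / 32) ^ 2)
    (db : ∀ t ∈ Set.Icc lo hi, ∑' k, ‖tconv (om (t - 1 / q)) b b k - b k‖ ^ 2 ≤ (s₂ / 32) ^ 2)
    (la : 63 / 64 * s₁ ^ 2 ≤ ∑' k, ‖a k‖ ^ 2) (ua : ∑' k, ‖a k‖ ^ 2 ≤ (3 / 2 * s₁) ^ 2)
    (lb : 63 / 64 * s₂ ^ 2 ≤ ∑' k, ‖b k‖ ^ 2) (ub : ∑' k, ‖b k‖ ^ 2 ≤ (3 / 2 * s₂) ^ 2) :
    ∃ x : KkK m q, (kkLX q a * kkLY q b * kkQ q lo hi : KkK m q →L[ℂ] KkK m q) x ≠ 0 ∧
      ‖((kkLX q a * kkLY q b * kkQ q lo hi) * (kkLX q a * kkLY q b * kkQ q lo hi)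
          - kkLX q a * kkLY q b * kkQ q lo hi : KkK m q →L[ℂ] KkK m q) x‖
        ≤ 1 / 4 * ‖(kkLX q a * kkLY q b * kkQ q lo hi : KkK m q →L[ℂ] KkK m q) x‖ := by
  set A := kkLX q a with hA
  set B := kkLY q b with hB
  set Q := kkQ (m := m) q lo hi with hQ
  have tr : KkTriple A B Q := kkp_triple q a b lo hi
  set δ : KkK m q := scDelta ((1 : Deck m ℤ), (0 : Idx m → ZMod q)) with hδ
  have e1 : (A * B * Q) δ = Q (A (B δ)) := by rw [tr.pq]; rfl
  have hcomm : (A * B * (A * B) - A * B) * Q = Q * (A * B * (A * B) - A * B) := by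
    have hp := tr.pq
    calc (A * B * (A * B) - A * B) * Q = A * B * (A * B * Q) - A * B * Q := by noncomm_ring
      _ = A * B * (Q * (A * B)) - Q * (A * B) := by rw [hp]
      _ = (A * B * Q) * (A * B) - Q * (A * B) := by noncomm_ring
      _ = Q * (A * B * (A * B) - A * B) := by rw [hp]; noncomm_ring
  have e2 : ((A * B * Q) * (A * B * Q) - A * B * Q) δ = Q ((A * B * (A * B) - A * B) δ) := by
    rw [tr.sq_sub, hcomm]; rfl
  have n1 := kk_LXLY_delta_norm_sq q ha hb lo hi h1.le h2 (0 : Idx m → ZMod q)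
  have n2 := kk_defect_delta q ha hb lo hi h1.le h2 (s₁ / 32) (s₂ / 32) (3 / 2 * s₁) (3 / 2 * s₂)
    da db ua ub (by positivity) (by positivity) (by positivity) (by positivity)
    (0 : Idx m → ZMod q)
  have hd : 0 < hi - lo := by linarith
  have hlow : (hi - lo) * ((63 / 64 * s₁ ^ 2) * (63 / 64 * s₂ ^ 2)) ≤ ‖(A * B * Q) δ‖ ^ 2 := by
    rw [e1, n1]
    exact mul_le_mul_of_nonneg_left (mul_le_mul la lb (by positivity)
      ((by positivity : (0:ℝ) ≤ 63 / 64 * s₁ ^ 2).trans la)) hd.le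
  have hpos : 0 < ‖(A * B * Q) δ‖ ^ 2 := lt_of_lt_of_le (by positivity) hlow
  refine ⟨δ, ?_, ?_⟩
  · intro h0
    rw [h0, norm_zero] at hpos
    norm_num at hpos
  · rw [e2]
    refine le_of_sq_le_sq ?_ (by positivity)
    refine n2.trans ?_
    have e3 : (hi - lo) * (s₁ / 32 * (3 / 2 * s₂ + s₂ / 32) + 3 / 2 * s₁ * (s₂ / 32)) ^ 2
        = (hi - lo) * ((97 / 1024) ^ 2 * (s₁ ^ 2 * s₂ ^ 2)) := by ring
    rw [e3, mul_pow]
    have : (hi - lo) * ((97 / 1024) ^ 2 * (s₁ ^ 2 * s₂ ^ 2))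
        ≤ (1 / 4) ^ 2 * ((hi - lo) * ((63 / 64 * s₁ ^ 2) * (63 / 64 * s₂ ^ 2))) := by
      have hp : 0 ≤ (hi - lo) * (s₁ ^ 2 * s₂ ^ 2) := by positivity
      nlinarith
    exact this.trans (mul_le_mul_of_nonneg_left hlow (by norm_num))

end core

section core2

variable {m : ℕ} (q : ℕ) [NeZero q] {a b : EBar m ℤ → ℂ}

theorem kkp_card (m q : ℕ) [NeZero q] :
    (Fintype.card (Idx m → ZMod q) : ℝ) = (q : ℝ) ^ nf m := by
  rw [Fintype.card_fun, ZMod.card]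
  unfold nf
  push_cast
  rfl

/-- everything about `kkNear (LX(a) LY(b) Q)` from the operator estimates and the `ℓ²` data. -/
theorem kkp_core (ha : (Function.support a).Finite) (hb : (Function.support b).Finite)
    (lo hi : ℝ) (h1 : lo < hi) (h2 : hi ≤ lo + 1) {c η ε₁ ε s₁ s₂ : ℝ}
    (hA : ‖kkLX q a‖ ≤ c) (hB : ‖kkLY q b‖ ≤ c)
    (e1 : ‖(kkLX q a * kkLX q a - kkLX q a) * kkQ q lo hi‖ ≤ η)
    (e2 : ‖(kkLY q b * kkLY q b - kkLY q b) * kkQ q lo hi‖ ≤ η)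
    (e3 : ‖(star (kkLX q a) - kkLX q a) * kkQ q lo hi‖ ≤ η)
    (e4 : ‖(star (kkLY q b) - kkLY q b) * kkQ q lo hi‖ ≤ η)
    (hη : η * (c * c + 2 * c + 1) ≤ ε₁) (hε₁ : ε₁ ≤ 1) (hε₂ : ε₁ * (c * c + 2) ≤ 3 / 16)
    (hε : 2 * ε₁ * (c * c + 2) ≤ ε) (hs₁ : 0 < s₁) (hs₂ : 0 < s₂)
    (da : ∀ t ∈ Set.Icc lo hi, ∑' k, ‖tconv (om t) a a k - a k‖ ^ 2 ≤ (s₁ / 32) ^ 2)
    (db : ∀ t ∈ Set.Icc lo hi, ∑' k, ‖tconv (om (t - 1 / q)) b b k - b k‖ ^ 2 ≤ (s₂ / 32) ^ 2)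
    (la : 63 / 64 * s₁ ^ 2 ≤ ∑' k, ‖a k‖ ^ 2) (ua : ∑' k, ‖a k‖ ^ 2 ≤ (3 / 2 * s₁) ^ 2)
    (lb : 63 / 64 * s₂ ^ 2 ≤ ∑' k, ‖b k‖ ^ 2) (ub : ∑' k, ‖b k‖ ^ 2 ≤ (3 / 2 * s₂) ^ 2) :
    IsStarProjection (kkNear (kkLX q a * kkLY q b * kkQ q lo hi)) ∧
    (∀ g, Commute (kkNear (kkLX q a * kkLY q b * kkQ q lo hi)) (specRho g)) ∧
    kkNear (kkLX q a * kkLY q b * kkQ q lo hi) * kkQ q lo hi
      = kkNear (kkLX q a * kkLY q b * kkQ q lo hi) ∧
    ‖kkNear (kkLX q a * kkLY q b * kkQ q lo hi) - kkLX q a * kkLY q b * kkQ q lo hi‖ ≤ ε ∧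
    specHS (kkNear (kkLX q a * kkLY q b * kkQ q lo hi))
      ≤ ENNReal.ofReal (11 * (q : ℝ) ^ nf m * (hi - lo) * s₁ ^ 2 * s₂ ^ 2) ∧
    kkNear (kkLX q a * kkLY q b * kkQ q lo hi) ≠ 0 := by
  have tr : KkTriple (kkLX q a) (kkLY q b) (kkQ q lo hi) := kkp_triple q a b lo hi
  obtain ⟨t1, t2, t3⟩ := tr.estimates hA hB e1 e2 e3 e4
  have t2' := t2.trans hη
  have t3' := t3.trans hη
  have hrho := kkp_T_rho_comm q a b lo hi
  obtain ⟨p1, p2⟩ := kkNear_spec _ (c * c) ε₁ t1 t3' t2' hε₁ hε₂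
  refine ⟨p1, fun g => kkNear_commute _ _ (hrho g) (kkp_star_rho_comm hrho g),
    kkNear_absorb _ _ tr.absorb tr.star_absorb, p2.trans hε, ?_, ?_⟩
  · refine (specHS_kkNear_le _ hrho).trans ?_
    rw [specHS_LXLY q ha hb lo hi h1.le h2, kkp_card,
      show (2 : ℝ≥0∞) = ENNReal.ofReal 2 by simp, ← ENNReal.ofReal_mul (by norm_num)]
    refine ENNReal.ofReal_le_ofReal ?_
    have hd : 0 ≤ hi - lo := by linarith
    have hq : 0 ≤ (q : ℝ) ^ nf m := by positivity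
    have h0a : 0 ≤ ∑' k, ‖a k‖ ^ 2 := tsum_nonneg fun _ => sq_nonneg _
    have hprod : (∑' k, ‖a k‖ ^ 2) * (∑' k, ‖b k‖ ^ 2) ≤ (3 / 2 * s₁) ^ 2 * (3 / 2 * s₂) ^ 2 :=
      mul_le_mul ua ub (tsum_nonneg fun _ => sq_nonneg _) (by positivity)
    calc 2 * ((q : ℝ) ^ nf m * (hi - lo) * ((∑' k, ‖a k‖ ^ 2) * ∑' k, ‖b k‖ ^ 2))
        ≤ 2 * ((q : ℝ) ^ nf m * (hi - lo) * ((3 / 2 * s₁) ^ 2 * (3 / 2 * s₂) ^ 2)) := by
          gcongr
      _ = 81 / 8 * ((q : ℝ) ^ nf m * (hi - lo) * (s₁ ^ 2 * s₂ ^ 2)) := by ring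
      _ ≤ 11 * ((q : ℝ) ^ nf m * (hi - lo) * (s₁ ^ 2 * s₂ ^ 2)) := by
          have : 0 ≤ (q : ℝ) ^ nf m * (hi - lo) * (s₁ ^ 2 * s₂ ^ 2) := by positivity
          linarith
      _ = 11 * (q : ℝ) ^ nf m * (hi - lo) * s₁ ^ 2 * s₂ ^ 2 := by ring
  · obtain ⟨x, hx1, hx2⟩ := kkp_core_vec q ha hb lo hi h1 h2 hs₁ hs₂ da db la ua lb ub
    exact kkNear_ne_zero _ (c * c) ε₁ t1 t3' t2' hε₁ hε₂ x hx1 hx2

end core2

section side

variable {m : ℕ}

theorem kkp_conj_sum1 (θ : ℝ) (f : EBar m ℤ → ℂ) :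
    ∑' g, ‖tconv (om (-θ)) (fun g => conj (f g)) (fun g => conj (f g)) g - conj (f g)‖
      = ∑' g, ‖tconv (om θ) f f g - f g‖ :=
  tsum_congr fun g => by rw [kkp_conj_tconv, ← map_sub, RCLike.norm_conj]

theorem kkp_conj_sum2 (θ : ℝ) (f : EBar m ℤ → ℂ) :
    ∑' g, ‖tconv (om (-θ)) (fun g => conj (f g)) (fun g => conj (f g)) g - conj (f g)‖ ^ 2
      = ∑' g, ‖tconv (om θ) f f g - f g‖ ^ 2 :=
  tsum_congr fun g => by rw [kkp_conj_tconv, ← map_sub, RCLike.norm_conj]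

theorem kkp_conj_sum3 (θ : ℝ) (f : EBar m ℤ → ℂ) :
    ∑' g, ‖tadj (-θ) (fun g => conj (f g)) g - conj (f g)‖ = ∑' g, ‖tadj θ f g - f g‖ :=
  tsum_congr fun g => by rw [kkp_conj_tadj, ← map_sub, RCLike.norm_conj]

theorem kkp_conj_l1 {Γ : Type*} (f : Γ → ℂ) : ∑' g, ‖conj (f g)‖ = ∑' g, ‖f g‖ :=
  tsum_congr fun _ => RCLike.norm_conj _

theorem kkp_conj_l2 {Γ : Type*} (f : Γ → ℂ) : ∑' g, ‖conj (f g)‖ ^ 2 = ∑' g, ‖f g‖ ^ 2 :=
  tsum_congr fun g => by rw [RCLike.norm_conj]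

theorem kkp_num {d u Y K X : ℝ} (hY : 0 < Y) (hd : d ≤ u * Y) (hK : 0 ≤ K) (hX : 0 ≤ X) :
    2 * Real.pi * d * (K / Y) * X ≤ 2 * Real.pi * u * K * X := by
  have hpi := Real.pi_pos
  have h1 : d * (K / Y) ≤ u * K := by
    rw [← mul_div_assoc, div_le_iff₀ hY]
    calc d * K ≤ u * Y * K := mul_le_mul_of_nonneg_right hd hK
      _ = u * K * Y := by ring
  calc 2 * Real.pi * d * (K / Y) * X = 2 * Real.pi * (d * (K / Y)) * X := by ring
    _ ≤ 2 * Real.pi * (u * K) * X := by gcongr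
    _ = 2 * Real.pi * u * K * X := by ring

/-- all coefficient estimates for one template. -/
theorem kkp_side (w : Win m) {Lam y u d η ε' C₁ CJ CF R' : ℝ}
    (hL : 1 ≤ Lam) (hy : 0 < y) (hd : d ≤ u * y ^ m)
    (hC₁0 : 0 ≤ C₁) (hl1 : ∑' γ, ‖tpl w Lam y γ‖ ≤ C₁)
    (hCJ0 : 0 ≤ CJ) (hCJ : ∀ (Lam : ℝ) (a : EBar m ℝ), ‖Jf w Lam a‖ ≤ CJ)
    (hCF : ∀ θ : ℝ, |θ - y ^ m| ≤ u * y ^ m →
      ∑' h, ‖tconv (om θ) (tpl w Lam y) (tpl w Lam y) h
        - tconv (om (y ^ m)) (tpl w Lam y) (tpl w Lam y) h‖ ≤ CF * Lam * u)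
    (hR'0 : 0 ≤ R')
    (m1 : ∑' h, ‖tconv (om (y ^ m)) (tpl w Lam y) (tpl w Lam y) h - tpl w Lam y h‖ ≤ ε')
    (m2 : ∑' h, ‖tconv (om (y ^ m)) (tpl w Lam y) (tpl w Lam y) h - tpl w Lam y h‖ ^ 2
      ≤ ε' ^ 2 * nu m y)
    (m3 : ∑' h, ‖tadj (y ^ m) (tpl w Lam y) h - tpl w Lam y h‖ ≤ ε')
    (m4 : (1 - ε') * nu m y ≤ ∑' h, ‖tpl w Lam y h‖ ^ 2)
    (m5 : ∑' h, ‖tpl w Lam y h‖ ^ 2 ≤ (1 + ε') * nu m y)
    (hε'0 : 0 < ε') (hε'1 : ε' ≤ η / 2) (hε'2 : ε' ≤ 1 / 64)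
    (hu1 : 2 * Real.pi * u * (nf m * (2 * Lam) * R0 m) * (C₁ * C₁) ≤ η / 2)
    (hu2 : 2 * Real.pi * u * (nf m * (2 * Lam) * R') * C₁ ≤ η / 2)
    (hu3 : 4 * C₁ * CJ * CF * Lam * u ≤ 1 / 2048) :
    (2 * Real.pi * d * (nf m * (2 * Lam) * R0 m / y ^ m) * (C₁ * C₁)
      + ∑' h, ‖tconv (om (y ^ m)) (tpl w Lam y) (tpl w Lam y) h - tpl w Lam y h‖ ≤ η) ∧
    (2 * Real.pi * d * (nf m * (2 * Lam) * R' / y ^ m) * C₁
      + ∑' h, ‖tadj (y ^ m) (tpl w Lam y) h - tpl w Lam y h‖ ≤ η) ∧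
    (∀ θ : ℝ, |θ - y ^ m| ≤ d →
      ∑' k, ‖tconv (om θ) (tpl w Lam y) (tpl w Lam y) k - tpl w Lam y k‖ ^ 2
        ≤ (Real.sqrt (nu m y) / 32) ^ 2) ∧
    (63 / 64 * Real.sqrt (nu m y) ^ 2 ≤ ∑' h, ‖tpl w Lam y h‖ ^ 2) ∧
    (∑' h, ‖tpl w Lam y h‖ ^ 2 ≤ (3 / 2 * Real.sqrt (nu m y)) ^ 2) := by
  have hL0 : 0 < Lam := by linarith
  have hY : 0 < y ^ m := pow_pos hy m
  have hnu : 0 < nu m y := kkp_nu_pos hy
  have hs : Real.sqrt (nu m y) ^ 2 = nu m y := Real.sq_sqrt hnu.le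
  have hR0 : 0 ≤ R0 m := nilta_R0_nonneg
  have hfin : (Function.support (tpl w Lam y)).Finite := tpl_finite_support w hL0 hy
  refine ⟨?_, ?_, ?_, ?_, ?_⟩
  · have := kkp_num (X := C₁ * C₁) hY hd (K := nf m * (2 * Lam) * R0 m) (by positivity)
      (by positivity)
    linarith
  · have := kkp_num (X := C₁) hY hd (K := nf m * (2 * Lam) * R') (by positivity) hC₁0
    linarith
  · intro θ hθ
    have h := kkp_l2_defect (ω := om θ) (ω' := om (y ^ m)) (f := tpl w Lam y) (om_le θ)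
      (om_le (y ^ m)) hfin
      (kkp_sub_support (kkp_tconv_support hfin hfin) (kkp_tconv_support hfin hfin))
      (kkp_sub_support (kkp_tconv_support hfin hfin) hfin)
      (kkp_sub_support (kkp_tconv_support hfin hfin) hfin) hl1
      (kkp_tpl_sup w hCJ Lam hy) (by positivity) (hCF θ (hθ.trans hd)) m2
    refine h.trans ?_
    rw [div_pow, hs]
    have e : 2 * (2 * C₁ * (nu m y * CJ) * (CF * Lam * u)) + 2 * (ε' ^ 2 * nu m y)
        = nu m y * (4 * C₁ * CJ * CF * Lam * u + 2 * ε' ^ 2) := by ring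
    rw [e]
    have h2 : ε' ^ 2 ≤ (1 / 64) ^ 2 := pow_le_pow_left₀ hε'0.le hε'2 2
    have h3 : 4 * C₁ * CJ * CF * Lam * u + 2 * ε' ^ 2 ≤ 1 / 1024 := by linarith
    calc nu m y * (4 * C₁ * CJ * CF * Lam * u + 2 * ε' ^ 2) ≤ nu m y * (1 / 1024) :=
          mul_le_mul_of_nonneg_left h3 hnu.le
      _ = nu m y / 32 ^ 2 := by ring
  · rw [hs]
    refine le_trans ?_ m4
    exact mul_le_mul_of_nonneg_right (by linarith) hnu.le
  · rw [mul_pow, hs]
    refine m5.trans ?_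
    exact mul_le_mul_of_nonneg_right (by linarith) hnu.le

end side

end Claimed.Agent.R300
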