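/-
Row 300, KK Sections 8-9: THE FROZEN TRANSVERSE PROJECTION on a sharp arc.     Architect: helper21.

Part 1 (abstract): an almost selfadjoint almost idempotent `T` has a star projection `kkNear T` nearby
(`S = (T + T*)/2`, `‖S² - S‖ ≤ ε (C + 2) ≤ 3/16`, so the spectrum of `S` avoids `(1/4, 3/4)`; `kkNear T = specProj (1/4) (3/4) S`).
  * `specBand (1/4) (3/4) x = x g(x)` with `g` continuous, `0 ≤ g ≤ 4/3`: `kkNear T = g(S) S`.  This gives the absorption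
    `kkNear T * Q = kkNear T`, and `specHS (kkNear T) ≤ (16/9) specHS S`, `‖S δ‖² ≤ (‖T δ‖² + ‖T* δ‖²)/2`, `specHS_star`.
  * nonvanishing: if `kkNear T = 0` then `‖T‖ ≤ 3/8`, so `‖(T² - T) x‖ ≥ (5/8) ‖T x‖`.

Part 2 (deck group): `T = P Q`, `P = LX(a) LY(b)`, `a = tpl w Lam y₁`, `b = conj (tpl w Lam y₂)`, `y₁^m = lo`,
`y₂^m = 1/q - lo`, `Q = kkQ q lo hi`, `hi - lo ≤ u min(y₁^m, y₂^m)`.
  * `LX`, `LY`, `Q` commute.  `(LX(a)² - LX(a)) Q`: `kkLX_mul_frozen` at `t₀ = lo` (`Cc = nf (2 Lam) R0 / y₁^m`, `tpl_coc_bound`)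
    plus `‖LX(a *_{lo} a - a)‖ ≤ ‖·‖₁ ≤ ε'` (`tpl_main`, `kkLX_norm_le`, `kkLX_sub`).  Same for `LY(b)` with the multiplier
    `om (lo - 1/q) = om (-(y₂^m))` and `conj_tconv`.  Adjoints: `kkLX_star_frozen`, `tpl_main` (third item);
    `y^m |coc g⁻¹ g| ≤ C(Lam)` on the support (`pr_dL_dB`, `dB_ninv`, `nil_ninv_bound`).
  * `‖a‖₁, ‖b‖₁ ≤ C₁` (`tpl_l1`, independent of `Lam`): choose `ε'`, then `(Lam, y0)` by `tpl_main`, then `u`.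
  * trace: `specHS_LXLY`, `tpl_main` (fifth item), `nu m y₁ = lo ^ nf`.
  * nonvanishing: `kk_defect_delta` and `kk_LXLY_delta_norm_sq`; for `t` in the arc
    `‖a *_t a - a‖₂ ≤ ‖a *_t a - a *_{lo} a‖₂ + ε' sqrt(nu)`, `‖f‖₂² ≤ ‖f‖_∞ ‖f‖₁`, `‖a *_t a - a *_{lo} a‖₁ ≤ C Lam u` (`tpl_frozen`),
    `‖·‖_∞ ≤ 2 ‖a‖_∞ ‖a‖₁ ≤ C nu` (`norm_tconv_le`, `Jf_bound`);  `(1 - ε') nu ≤ ‖a‖₂²`.
-/
import Claimed.Agent.R300.KkDeck
import Claimed.Agent.R300.NilTplMain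
import Claimed.Agent.R300.NilTplAux
import Claimed.Agent.R300.SpecHilb
import Claimed.Agent.R300.KkNear
import Claimed.Agent.R300.KkProjA

set_option autoImplicit false

namespace Claimed.Agent.R300

open Nil
open scoped ENNReal ComplexConjugate InnerProductSpace Matrix.Norms.L2Operator

-- Part 1 (almost projections: `kkRe`, `kkNear`, ...) is in `KkNear.lean`.

/-! ## Part 2: the deck group -/

section deck

variable {m : ℕ} (q : ℕ) [NeZero q]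

/-- the complex conjugate template (negative central parameter). -/
noncomputable def kkTplc (w : Win m) (Lam y : ℝ) (g : EBar m ℤ) : ℂ := conj (tpl w Lam y g)

/-- `P = LX(tpl y₁) LY(conj tpl y₂)`. -/
noncomputable def kkP (w : Win m) (Lam y₁ y₂ : ℝ) : KkK m q →L[ℂ] KkK m q :=
  kkLX q (tpl w Lam y₁) * kkLY q (kkTplc w Lam y₂)

/-- the frozen projection on the arc `[y₁^m, hi]`. -/
noncomputable def kkPP (w : Win m) (Lam y₁ y₂ hi : ℝ) : KkK m q →L[ℂ] KkK m q :=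
  kkNear (kkP q w Lam y₁ y₂ * kkQ q (y₁ ^ m) hi)

end deck

/-- **The frozen projection.** -/
theorem kk_proj {m : ℕ} (w : Win m) (ε : ℝ) (hε : 0 < ε) :
    ∃ Lam y0 u C : ℝ, 1 ≤ Lam ∧ 0 < y0 ∧ y0 ≤ 1 ∧ 0 < u ∧ 0 ≤ C ∧
    ∀ (q : ℕ) [NeZero q] (y₁ y₂ hi : ℝ), 0 < y₁ → y₁ ≤ y0 → 0 < y₂ → y₂ ≤ y0 →
      y₁ ^ m + y₂ ^ m = 1 / (q : ℝ) → y₁ ^ m < hi → hi ≤ 1 / (q : ℝ) →
      hi - y₁ ^ m ≤ u * y₁ ^ m → hi - y₁ ^ m ≤ u * y₂ ^ m →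
      IsStarProjection (kkPP q w Lam y₁ y₂ hi) ∧
      (∀ g, Commute (kkPP q w Lam y₁ y₂ hi) (specRho g)) ∧
      kkPP q w Lam y₁ y₂ hi * kkQ q (y₁ ^ m) hi = kkPP q w Lam y₁ y₂ hi ∧
      ‖kkPP q w Lam y₁ y₂ hi - kkP q w Lam y₁ y₂ * kkQ q (y₁ ^ m) hi‖ ≤ ε ∧
      specHS (kkPP q w Lam y₁ y₂ hi)
        ≤ ENNReal.ofReal (C * (q : ℝ) ^ nf m * (hi - y₁ ^ m) * (y₁ ^ m) ^ nf m * (y₂ ^ m) ^ nf m) ∧
      kkPP q w Lam y₁ y₂ hi ≠ 0 := by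
  obtain ⟨C₁, hC₁0, hC₁⟩ := tpl_l1 w
  obtain ⟨CJ, hCJ0, hCJ⟩ := Jf_bound w
  obtain ⟨CF, hCF0, hCF⟩ := tpl_frozen w
  obtain ⟨R', hR'0, hR'⟩ := nil_ninv_bound m (R0 m)
  have hR0 : 0 ≤ R0 m := nilta_R0_nonneg
  have hpi := Real.pi_pos
  -- the constants
  set K : ℝ := C₁ * C₁ + 2 * C₁ + 1 with hK
  have hK0 : 0 < K := by positivity
  set C0 : ℝ := C₁ * C₁ + 2 with hC0
  have hC00 : 0 < C0 := by positivity
  set ε₁ : ℝ := min 1 (min ε (3 / 8) / (2 * C0)) with hε₁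
  have hmin0 : 0 < min ε (3 / 8) := lt_min hε (by norm_num)
  have hε₁0 : 0 < ε₁ := lt_min one_pos (by positivity)
  have hε₁1 : ε₁ ≤ 1 := min_le_left _ _
  have hε₁2 : 2 * ε₁ * C0 ≤ min ε (3 / 8) := by
    have : ε₁ ≤ min ε (3 / 8) / (2 * C0) := min_le_right _ _
    rw [le_div_iff₀ (by positivity)] at this
    linarith
  set η : ℝ := ε₁ / K with hη
  have hη0 : 0 < η := by positivity
  have hηK : η * K ≤ ε₁ := by rw [hη, div_mul_cancel₀ _ hK0.ne']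
  set ε' : ℝ := min (η / 2) (1 / 64) with hε'
  have hε'0 : 0 < ε' := lt_min (by positivity) (by norm_num)
  have hε'1 : ε' ≤ η / 2 := min_le_left _ _
  have hε'2 : ε' ≤ 1 / 64 := min_le_right _ _
  obtain ⟨Lam, y0, hL, hy0, hy01, hmain⟩ := tpl_main w ε' hε'0
  have hL0 : 0 < Lam := by linarith
  set W1 : ℝ := 2 * Real.pi * (nf m * (2 * Lam) * R0 m) * (C₁ * C₁) with hW1
  set W2 : ℝ := 2 * Real.pi * (nf m * (2 * Lam) * R') * C₁ with hW2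
  set W3 : ℝ := 4 * C₁ * CJ * CF * Lam with hW3
  have hW10 : 0 ≤ W1 := by positivity
  have hW20 : 0 ≤ W2 := by positivity
  have hW30 : 0 ≤ W3 := by positivity
  set W : ℝ := W1 + W2 + W3 + 1 with hW
  have hW0 : 0 < W := by positivity
  set u : ℝ := min (η / 2) (1 / 2048) / W with hu
  have hu0 : 0 < u := div_pos (lt_min (by positivity) (by norm_num)) hW0
  have huW : u * W = min (η / 2) (1 / 2048) := by rw [hu, div_mul_cancel₀ _ hW0.ne']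
  have hu1 : 2 * Real.pi * u * (nf m * (2 * Lam) * R0 m) * (C₁ * C₁) ≤ η / 2 := by
    have e : 2 * Real.pi * u * (nf m * (2 * Lam) * R0 m) * (C₁ * C₁) = u * W1 := by
      rw [hW1]; ring
    rw [e]
    calc u * W1 ≤ u * W := mul_le_mul_of_nonneg_left (by rw [hW]; linarith) hu0.le
      _ ≤ η / 2 := by rw [huW]; exact min_le_left _ _
  have hu2 : 2 * Real.pi * u * (nf m * (2 * Lam) * R') * C₁ ≤ η / 2 := by
    have e : 2 * Real.pi * u * (nf m * (2 * Lam) * R') * C₁ = u * W2 := by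
      rw [hW2]; ring
    rw [e]
    calc u * W2 ≤ u * W := mul_le_mul_of_nonneg_left (by rw [hW]; linarith) hu0.le
      _ ≤ η / 2 := by rw [huW]; exact min_le_left _ _
  have hu3 : 4 * C₁ * CJ * CF * Lam * u ≤ 1 / 2048 := by
    have e : 4 * C₁ * CJ * CF * Lam * u = u * W3 := by
      rw [hW3]; ring
    rw [e]
    calc u * W3 ≤ u * W := mul_le_mul_of_nonneg_left (by rw [hW]; linarith) hu0.le
      _ ≤ 1 / 2048 := by rw [huW]; exact min_le_right _ _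
  refine ⟨Lam, y0, u, 11, hL, hy0, hy01, hu0, by norm_num, ?_⟩
  intro q _ y₁ y₂ hi hy₁ hy₁0 hy₂ hy₂0 hsum hlo hhi hd1 hd2
  have hy₁1 : y₁ ≤ 1 := hy₁0.trans hy01
  have hy₂1 : y₂ ≤ 1 := hy₂0.trans hy01
  obtain ⟨a1, a2, a3, a4, a5⟩ := hmain y₁ hy₁ hy₁0
  obtain ⟨b1, b2, b3, b4, b5⟩ := hmain y₂ hy₂ hy₂0
  have la1 := hC₁ Lam y₁ hL0 hy₁ hy₁1
  have lb1 := hC₁ Lam y₂ hL0 hy₂ hy₂1
  obtain ⟨sa1, sa2, sa3, sa4, sa5⟩ := kkp_side w (d := hi - y₁ ^ m) hL hy₁ hd1 hC₁0 la1 hCJ0 hCJ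
    (fun θ hθ => (hCF Lam y₁ θ u hL hy₁ hy₁1 hθ).1) hR'0 a1 a2 a3 a4 a5 hε'0 hε'1 hε'2 hu1 hu2 hu3
  obtain ⟨sb1, sb2, sb3, sb4, sb5⟩ := kkp_side w (d := hi - y₁ ^ m) hL hy₂ hd2 hC₁0 lb1 hCJ0 hCJ
    (fun θ hθ => (hCF Lam y₂ θ u hL hy₂ hy₂1 hθ).1) hR'0 b1 b2 b3 b4 b5 hε'0 hε'1 hε'2 hu1 hu2 hu3
  have ha : (Function.support (tpl w Lam y₁)).Finite := tpl_finite_support w hL0 hy₁
  have hf2 : (Function.support (tpl w Lam y₂)).Finite := tpl_finite_support w hL0 hy₂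
  have hb : (Function.support fun g => conj (tpl w Lam y₂ g)).Finite := kkp_conj_support hf2
  have hY1 : 0 < y₁ ^ m := pow_pos hy₁ m
  have hY2 : 0 < y₂ ^ m := pow_pos hy₂ m
  have hq1 : (1 : ℝ) / q ≤ 1 := by
    have : (1 : ℝ) ≤ q := by exact_mod_cast NeZero.one_le
    rw [div_le_one (by linarith)]
    exact this
  have hlo' : y₁ ^ m - 1 / (q : ℝ) = -(y₂ ^ m) := by linarith
  have lb1' : ∑' g, ‖conj (tpl w Lam y₂ g)‖ ≤ C₁ := by rw [kkp_conj_l1]; exact lb1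
  have hne : ∀ g, conj (tpl w Lam y₂ g) ≠ 0 → tpl w Lam y₂ g ≠ 0 := fun g hg h0 =>
    hg (by rw [h0, map_zero])
  -- operator estimates
  have hA : ‖kkLX q (tpl w Lam y₁)‖ ≤ C₁ := (kkLX_norm_le q ha).trans la1
  have hB : ‖kkLY q (fun g => conj (tpl w Lam y₂ g))‖ ≤ C₁ := (kkLY_norm_le q hb).trans lb1'
  have e1 := (kkp_X_sq q ha C₁ _ la1 (kkp_tpl_coc w hL0 hy₁) (by positivity) (y₁ ^ m) hi
    hlo.le).trans sa1
  have e3 := (kkp_X_star q ha C₁ _ la1 (kkp_tpl_coc_inv w hR' hL0 hy₁) (by positivity) (y₁ ^ m) hi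
    hlo.le).trans sa2
  have e2 := kkp_Y_sq q hb C₁ _ lb1'
    (fun g h hg hh => kkp_tpl_coc w hL0 hy₂ g h (hne g hg) (hne h hh)) (by positivity) (y₁ ^ m) hi
    hlo.le
  rw [hlo', kkp_conj_sum1] at e2
  have e4 := kkp_Y_star q hb C₁ _ lb1'
    (fun g hg => kkp_tpl_coc_inv w hR' hL0 hy₂ g (hne g hg)) (by positivity) (y₁ ^ m) hi hlo.le
  rw [hlo', kkp_conj_sum3] at e4
  have hnu1 : 0 < nu m y₁ := kkp_nu_pos hy₁
  have hnu2 : 0 < nu m y₂ := kkp_nu_pos hy₂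
  have da : ∀ t ∈ Set.Icc (y₁ ^ m) hi,
      ∑' k, ‖tconv (om t) (tpl w Lam y₁) (tpl w Lam y₁) k - tpl w Lam y₁ k‖ ^ 2
        ≤ (Real.sqrt (nu m y₁) / 32) ^ 2 := by
    intro t ht
    refine sa3 t ?_
    rw [abs_le]
    constructor <;> linarith [ht.1, ht.2]
  have db : ∀ t ∈ Set.Icc (y₁ ^ m) hi,
      ∑' k, ‖tconv (om (t - 1 / q)) (fun g => conj (tpl w Lam y₂ g))
        (fun g => conj (tpl w Lam y₂ g)) k - conj (tpl w Lam y₂ k)‖ ^ 2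
        ≤ (Real.sqrt (nu m y₂) / 32) ^ 2 := by
    intro t ht
    have e : t - 1 / (q : ℝ) = -(1 / (q : ℝ) - t) := by ring
    rw [e, kkp_conj_sum2]
    refine sb3 _ ?_
    rw [abs_le]
    constructor <;> linarith [ht.1, ht.2]
  have core := kkp_core q ha hb (y₁ ^ m) hi hlo (by linarith) hA hB e1 (e2.trans sb1) e3
    (e4.trans sb2) hηK hε₁1
    (by have := hε₁2.trans (min_le_right _ _); linarith)
    (hε₁2.trans (min_le_left _ _)) (Real.sqrt_pos.2 hnu1) (Real.sqrt_pos.2 hnu2) da db sa4 sa5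
    (by rw [kkp_conj_l2]; exact sb4) (by rw [kkp_conj_l2]; exact sb5)
  rw [Real.sq_sqrt hnu1.le, Real.sq_sqrt hnu2.le, kkp_nu_eq, kkp_nu_eq] at core
  exact core

end Claimed.Agent.R300
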