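/-
Row 300, KK Section 9.c-9.f: the FACTOR LAWS (uniform laws on coordinate boxes).     Architect: helper21.

* `kkMaskLaw`: `n` uniform in `[-K, K]`, voltage `z₀^n`, scalar `(2K+1) f̂(n)`;  mean `= ∑_{|n| ≤ K} f̂(n) Z^n`.
* `kkXLaw`  : `x` uniform in a box containing the support of `tpl w Lam y`, voltage `σ_X x`, scalar `#box · tpl(x)`;  mean `= LX(tpl)`.
* `kkYLaw`  : the same for the second factor with the matrix `Rq q x` and the conjugate template;  mean `= LY(conj tpl)`.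
* `kkLamLaw`: `x` uniform in the box of the congruence subgroup `Λ_q` (step `q`), voltage `σ_Y x`, matrix `1`,
              scalar `#box · q^(2 nf) · conj tpl(x)`.
* `kkCqLaw` : uniform representative `v` of `Ē / Λ_q`, voltage `σ_Y v`, matrix `Rq q v`, scalar `1`.

Box radii: `⌈ρ / (s y^wt)⌉`, `s` = step; `2 r + 1 ≤ (2 ρ + 3) / (s y^wt)` as soon as `s y ≤ 1`, and `∏ y^wtL ∏ y^wtB = nu m y` (`nu_eq`),
so `#box · s^(2 nf) · nu m y ≤ (4 Lam + 3)^nf (2 R0 + 5)^nf`; with `Jf_bound` this bounds the scalars.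
-/
import Claimed.Agent.R300.KkPre
import Claimed.Agent.R300.KkProj

set_option autoImplicit false
set_option linter.unusedSectionVars false

namespace Claimed.Agent.R300

open Nil
open scoped ENNReal ComplexConjugate InnerProductSpace Matrix.Norms.L2Operator

variable {m : ℕ}

/-- index type of a coordinate box. -/
abbrev KkBoxI (m : ℕ) (rL rB : Idx m → ℕ) : Type :=
  (∀ p : Idx m, Fin (2 * rL p + 1)) × (∀ p : Idx m, Fin (2 * rB p + 1))

/-- the point of the box with step `st`. -/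
def kkBoxPt (st : ℤ) (rL rB : Idx m → ℕ) (a : KkBoxI m rL rB) : EBar m ℤ :=
  ⟨fun p => st * (((a.1 p : ℕ) : ℤ) - rL p), fun p => st * (((a.2 p : ℕ) : ℤ) - rB p)⟩

/-- radii of the `lam` coordinates. -/
noncomputable def kkRadL (Lam s y : ℝ) (p : Idx m) : ℕ := ⌈2 * Lam / (s * y ^ wtL p)⌉₊

/-- radii of the `bet` coordinates. -/
noncomputable def kkRadB (s y : ℝ) (p : Idx m) : ℕ := ⌈(R0 m + 1) / (s * y ^ wtB p)⌉₊

theorem kkBoxPt_injective (st : ℤ) (hst : st ≠ 0) (rL rB : Idx m → ℕ) :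
    Function.Injective (kkBoxPt st rL rB) := by
  intro a b h
  have key : ∀ (r : ℕ) (u v : Fin (2 * r + 1)),
      st * (((u : ℕ) : ℤ) - r) = st * (((v : ℕ) : ℤ) - r) → u = v := by
    intro r u v huv
    have := mul_left_cancel₀ hst huv
    apply Fin.ext
    omega
  refine Prod.ext ?_ ?_
  · funext p
    exact key _ _ _ (congrFun (congrArg EBar.lam h) p)
  · funext p
    exact key _ _ _ (congrFun (congrArg EBar.bet h) p)

theorem kkb_coord (st : ℤ) (hst : st ≠ 0) (r : ℕ) (t : ℤ) :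
    (∃ u : Fin (2 * r + 1), t = st * (((u : ℕ) : ℤ) - r)) ↔ st ∣ t ∧ |t| ≤ |st| * r := by
  have hst' : 0 < |st| := abs_pos.2 hst
  constructor
  · rintro ⟨u, rfl⟩
    refine ⟨Dvd.intro _ rfl, ?_⟩
    rw [abs_mul]
    apply mul_le_mul_of_nonneg_left _ hst'.le
    have := u.2
    rw [abs_le]
    constructor <;> omega
  · rintro ⟨⟨k, rfl⟩, h⟩
    rw [abs_mul] at h
    have hk : |k| ≤ r := le_of_mul_le_mul_left h hst'
    rw [abs_le] at hk
    refine ⟨⟨(k + r).toNat, by omega⟩, ?_⟩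
    congr 1
    simp only
    omega

theorem mem_range_kkBoxPt (st : ℤ) (hst : st ≠ 0) (rL rB : Idx m → ℕ) (g : EBar m ℤ) :
    g ∈ Set.range (kkBoxPt st rL rB) ↔
      (∀ p, st ∣ g.lam p ∧ |g.lam p| ≤ |st| * rL p) ∧ (∀ p, st ∣ g.bet p ∧ |g.bet p| ≤ |st| * rB p) := by
  constructor
  · rintro ⟨a, rfl⟩
    exact ⟨fun p => (kkb_coord st hst (rL p) _).1 ⟨a.1 p, rfl⟩,
      fun p => (kkb_coord st hst (rB p) _).1 ⟨a.2 p, rfl⟩⟩
  · rintro ⟨h1, h2⟩
    choose u hu using fun p => (kkb_coord st hst (rL p) _).2 (h1 p)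
    choose v hv using fun p => (kkb_coord st hst (rB p) _).2 (h2 p)
    refine ⟨(u, v), ?_⟩
    ext1
    · funext p; exact (hu p).symm
    · funext p; exact (hv p).symm

theorem kkb_R0_nonneg (m : ℕ) : 0 ≤ R0 m := (Classical.choose_spec (nil_R0 m)).1

/-- one factor of the cardinality bound -/
theorem kkb_factor (ρ s y : ℝ) (hρ : 0 ≤ ρ) (hs : 1 ≤ s) (hy : 0 < y) (hsy : s * y ≤ 1) (w : ℕ)
    (hw : 0 < w) : ((2 * ⌈ρ / (s * y ^ w)⌉₊ + 1 : ℕ) : ℝ) * (s * y ^ w) ≤ 2 * ρ + 3 := by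
  have hs0 : 0 < s := by linarith
  have hy1 : y ≤ 1 := by nlinarith
  have hyw : y ^ w ≤ y := by
    calc y ^ w ≤ y ^ 1 := pow_le_pow_of_le_one hy.le hy1 hw
      _ = y := pow_one y
  have hd : 0 < s * y ^ w := by positivity
  have hd1 : s * y ^ w ≤ 1 := (mul_le_mul_of_nonneg_left hyw hs0.le).trans hsy
  have hc : (⌈ρ / (s * y ^ w)⌉₊ : ℝ) < ρ / (s * y ^ w) + 1 := Nat.ceil_lt_add_one (by positivity)
  have hc' : (⌈ρ / (s * y ^ w)⌉₊ : ℝ) * (s * y ^ w) ≤ ρ + s * y ^ w := by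
    have := mul_le_mul_of_nonneg_right hc.le hd.le
    rwa [add_mul, div_mul_cancel₀ _ hd.ne', one_mul] at this
  push_cast
  nlinarith

theorem kkb_card (rL rB : Idx m → ℕ) :
    Fintype.card (KkBoxI m rL rB) = (∏ p, (2 * rL p + 1)) * ∏ p, (2 * rB p + 1) := by
  simp only [Fintype.card_prod, Fintype.card_pi, Fintype.card_fin]

/-- number of points of the box, normalised. -/
theorem kkBox_card_le (Lam s y : ℝ) (hL : 0 < Lam) (hs : 1 ≤ s) (hy : 0 < y) (hsy : s * y ≤ 1) :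
    (Fintype.card (KkBoxI m (kkRadL Lam s y) (kkRadB s y)) : ℝ) * s ^ (2 * nf m) * nu m y
      ≤ (4 * Lam + 3) ^ nf m * (2 * R0 m + 5) ^ nf m := by
  have hs0 : 0 < s := by linarith
  rw [kkb_card, nu_eq]
  push_cast
  have e : s ^ (2 * nf m) = (∏ _p : Idx m, s) * ∏ _p : Idx m, s := by
    simp only [Finset.prod_const, Finset.card_univ, nf]
    rw [← pow_add, two_mul]
  rw [e]
  have e2 : ((∏ p : Idx m, (2 * (kkRadL Lam s y p : ℝ) + 1)) * ∏ p : Idx m, (2 * (kkRadB s y p : ℝ) + 1))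
        * ((∏ _p : Idx m, s) * ∏ _p : Idx m, s)
        * ((∏ p : Idx m, y ^ wtL p) * ∏ p : Idx m, y ^ wtB p)
      = (∏ p : Idx m, (2 * (kkRadL Lam s y p : ℝ) + 1) * (s * y ^ wtL p))
        * ∏ p : Idx m, (2 * (kkRadB s y p : ℝ) + 1) * (s * y ^ wtB p) := by
    simp only [Finset.prod_mul_distrib]
    ring
  rw [e2]
  have h1 : ∏ p : Idx m, (2 * (kkRadL Lam s y p : ℝ) + 1) * (s * y ^ wtL p) ≤ (4 * Lam + 3) ^ nf m := by
    have := Finset.prod_le_prod (s := (Finset.univ : Finset (Idx m)))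
      (f := fun p => (2 * (kkRadL Lam s y p : ℝ) + 1) * (s * y ^ wtL p))
      (g := fun _ => 4 * Lam + 3) (fun p _ => by positivity) (fun p _ => by
        have := kkb_factor (2 * Lam) s y (by positivity) hs hy hsy (wtL p) (wtL_pos p)
        push_cast at this
        unfold kkRadL
        linarith)
    simpa [nf] using this
  have h2 : ∏ p : Idx m, (2 * (kkRadB s y p : ℝ) + 1) * (s * y ^ wtB p) ≤ (2 * R0 m + 5) ^ nf m := by
    have := Finset.prod_le_prod (s := (Finset.univ : Finset (Idx m)))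
      (f := fun p => (2 * (kkRadB s y p : ℝ) + 1) * (s * y ^ wtB p))
      (g := fun _ => 2 * R0 m + 5) (fun p _ => by positivity) (fun p _ => by
        have := kkb_factor (R0 m + 1) s y (by have := kkb_R0_nonneg m; positivity) hs hy hsy
          (wtB p) (wtB_pos p)
        push_cast at this
        unfold kkRadB
        linarith)
    simpa [nf] using this
  exact mul_le_mul h1 h2 (Finset.prod_nonneg fun p _ => by positivity) (by positivity)

section laws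

variable (q : ℕ) [NeZero q]

/-- central powers with the Fourier coefficients of a mask. -/
noncomputable def kkMaskLaw (f : C(UnitAddCircle, ℂ)) (K : ℕ) :
    KkPre (Deck m ℤ) (Idx m → ZMod q) :=
  KkPre.unif (Fin (2 * K + 1)) (fun n => (Deck.z0 : Deck m ℤ) ^ (((n : ℕ) : ℤ) - K))
    (fun n => (2 * K + 1 : ℂ) * fourierCoeff f (((n : ℕ) : ℤ) - K)) (fun _ => 1)

/-- first factor. -/
noncomputable def kkXLaw (w : Win m) (Lam y : ℝ) : KkPre (Deck m ℤ) (Idx m → ZMod q) :=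
  KkPre.unif (KkBoxI m (kkRadL Lam 1 y) (kkRadB 1 y)) (fun a => Deck.sigX (kkBoxPt 1 _ _ a))
    (fun a => (Fintype.card (KkBoxI m (kkRadL Lam 1 y) (kkRadB 1 y)) : ℂ) * tpl w Lam y (kkBoxPt 1 _ _ a))
    (fun _ => 1)

/-- second factor, ordinary. -/
noncomputable def kkYLaw (w : Win m) (Lam y : ℝ) : KkPre (Deck m ℤ) (Idx m → ZMod q) :=
  KkPre.unif (KkBoxI m (kkRadL Lam 1 y) (kkRadB 1 y)) (fun a => Deck.sigY (kkBoxPt 1 _ _ a))
    (fun a => (Fintype.card (KkBoxI m (kkRadL Lam 1 y) (kkRadB 1 y)) : ℂ) * kkTplc w Lam y (kkBoxPt 1 _ _ a))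
    (fun a => Rq q (kkBoxPt 1 _ _ a))

/-- second factor, congruence subgroup. -/
noncomputable def kkLamLaw (w : Win m) (Lam y : ℝ) : KkPre (Deck m ℤ) (Idx m → ZMod q) :=
  KkPre.unif (KkBoxI m (kkRadL Lam q y) (kkRadB q y)) (fun a => Deck.sigY (kkBoxPt q _ _ a))
    (fun a => (Fintype.card (KkBoxI m (kkRadL Lam q y) (kkRadB q y)) : ℂ) * (q : ℂ) ^ (2 * nf m)
      * kkTplc w Lam y (kkBoxPt q _ _ a))
    (fun _ => 1)

/-- the representative with coordinates in `[0, q)`. -/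
def kkRep (a : (Idx m → ZMod q) × (Idx m → ZMod q)) : EBar m ℤ :=
  ⟨fun p => ((a.1 p).val : ℤ), fun p => ((a.2 p).val : ℤ)⟩

/-- second factor, representatives. -/
noncomputable def kkCqLaw : KkPre (Deck m ℤ) (Idx m → ZMod q) :=
  KkPre.unif ((Idx m → ZMod q) × (Idx m → ZMod q)) (fun a => Deck.sigY (kkRep q a)) (fun _ => 1)
    (fun a => Rq q (kkRep q a))

/-! ### means -/

theorem kkb_mean (U : EBar m ℤ → KkK m q →L[ℂ] KkK m q) (st : ℤ) (hst : st ≠ 0) (rL rB : Idx m → ℕ)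
    (f : EBar m ℤ → ℂ) (hf : ∀ g, f g ≠ 0 → g ∈ Set.range (kkBoxPt st rL rB)) :
    ∑ a, f (kkBoxPt st rL rB a) • U (kkBoxPt st rL rB a) = kkL U f := by
  classical
  rw [kkL_eq_sum U f (Finset.univ.image (kkBoxPt st rL rB)) (fun g hg => by
    obtain ⟨a, rfl⟩ := hf g hg
    simp), Finset.sum_image fun x _ y _ hxy => kkBoxPt_injective st hst rL rB hxy]

theorem kkb_supp (w : Win m) {Lam y : ℝ} (hL : 0 < Lam) (hy : 0 < y) (st : ℤ) (s : ℝ)
    (hs : (st : ℝ) = s) (hs0 : 0 < s) (g : EBar m ℤ) (h : tpl w Lam y g ≠ 0)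
    (hd1 : ∀ p, st ∣ g.lam p) (hd2 : ∀ p, st ∣ g.bet p) :
    g ∈ Set.range (kkBoxPt st (kkRadL Lam s y) (kkRadB s y)) := by
  have hstpos : 0 < st := by
    have : (0 : ℝ) < (st : ℝ) := by rw [hs]; exact hs0
    exact_mod_cast this
  obtain ⟨h1, h2⟩ := tpl_supp w hL g h
  have key : ∀ (t : ℤ) (ρ : ℝ) (k : ℕ), y ^ k * |(t : ℝ)| ≤ ρ →
      |t| ≤ |st| * (⌈ρ / (s * y ^ k)⌉₊ : ℕ) := by
    intro t ρ k ht
    have hyk : 0 < y ^ k := by positivity
    have h3 : |(t : ℝ)| ≤ s * (ρ / (s * y ^ k)) := by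
      have e : s * (ρ / (s * y ^ k)) = ρ / y ^ k := by field_simp
      rw [e, le_div_iff₀ hyk, mul_comm]
      exact ht
    have h4 : |(t : ℝ)| ≤ s * (⌈ρ / (s * y ^ k)⌉₊ : ℝ) :=
      h3.trans (mul_le_mul_of_nonneg_left (Nat.le_ceil _) hs0.le)
    rw [abs_of_pos hstpos]
    have h5 : ((|t| : ℤ) : ℝ) ≤ ((st * (⌈ρ / (s * y ^ k)⌉₊ : ℕ) : ℤ) : ℝ) := by
      push_cast
      rw [hs]
      exact h4
    exact_mod_cast h5
  rw [mem_range_kkBoxPt st hstpos.ne']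
  refine ⟨fun p => ⟨hd1 p, key _ _ _ (h1 p)⟩, fun p => ⟨hd2 p, key _ _ _ ((h2 p).trans (by linarith))⟩⟩

theorem kkMaskLaw_meanOp (f : C(UnitAddCircle, ℂ)) (K : ℕ) :
    (kkMaskLaw (m := m) q f K).meanOp
      = ∑ n ∈ Finset.Icc (-(K : ℤ)) K, fourierCoeff f n • smpLam ((Deck.z0 : Deck m ℤ) ^ n) := by
  unfold kkMaskLaw
  rw [KkPre.meanOp_unif, Finset.smul_sum]
  have hK : ((2 * K + 1 : ℕ) : ℂ) ≠ 0 := by exact_mod_cast Nat.succ_ne_zero (2 * K)
  refine Finset.sum_bij (fun (n : Fin (2 * K + 1)) _ => ((n : ℕ) : ℤ) - K) ?_ ?_ ?_ ?_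
  · intro n _
    have := n.2
    rw [Finset.mem_Icc]
    constructor <;> omega
  · intro n _ n' _ h
    apply Fin.ext
    omega
  · intro t ht
    rw [Finset.mem_Icc] at ht
    exact ⟨⟨(t + K).toNat, by omega⟩, Finset.mem_univ _, by simp only; omega⟩
  · intro n _
    rw [smul_smul, kkWL_one, Fintype.card_fin]
    congr 1
    push_cast at hK ⊢
    field_simp

theorem kkXLaw_meanOp (w : Win m) {Lam y : ℝ} (hL : 0 < Lam) (hy : 0 < y) :
    (kkXLaw q w Lam y).meanOp = kkLX q (tpl w Lam y) := by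
  unfold kkXLaw
  rw [KkPre.meanOp_unif, Finset.smul_sum]
  have hc : (Fintype.card (KkBoxI m (kkRadL Lam 1 y) (kkRadB 1 y)) : ℂ) ≠ 0 := by
    exact_mod_cast Fintype.card_ne_zero
  have h := kkb_mean q (kkX q) 1 one_ne_zero (kkRadL Lam 1 y) (kkRadB 1 y) (tpl w Lam y)
    (fun g hg => kkb_supp w hL hy 1 1 (by simp) one_pos g hg (fun p => one_dvd _) fun p => one_dvd _)
  refine Eq.trans ?_ h
  refine Finset.sum_congr rfl fun a _ => ?_
  rw [smul_smul, kkWL_one, inv_mul_cancel_left₀ hc]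
  rfl

theorem kkYLaw_meanOp (w : Win m) {Lam y : ℝ} (hL : 0 < Lam) (hy : 0 < y) :
    (kkYLaw q w Lam y).meanOp = kkLY q (kkTplc w Lam y) := by
  unfold kkYLaw
  rw [KkPre.meanOp_unif, Finset.smul_sum]
  have hc : (Fintype.card (KkBoxI m (kkRadL Lam 1 y) (kkRadB 1 y)) : ℂ) ≠ 0 := by
    exact_mod_cast Fintype.card_ne_zero
  have h := kkb_mean q (kkY q) 1 one_ne_zero (kkRadL Lam 1 y) (kkRadB 1 y) (kkTplc w Lam y)
    (fun g hg => kkb_supp w hL hy 1 1 (by simp) one_pos g (fun h0 => hg (by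
      unfold kkTplc; rw [h0, map_zero])) (fun p => one_dvd _) fun p => one_dvd _)
  refine Eq.trans ?_ h
  refine Finset.sum_congr rfl fun a _ => ?_
  rw [smul_smul, inv_mul_cancel_left₀ hc]
  rfl

theorem kkLamLaw_meanOp (w : Win m) {Lam y : ℝ} (hL : 0 < Lam) (hy : 0 < y) :
    (kkLamLaw q w Lam y).meanOp = ((q : ℂ) ^ (2 * nf m)) •
      kkLY q (fun g => open Classical in if g ∈ Lamq (m := m) q then kkTplc w Lam y g else 0) := by
  classical
  unfold kkLamLaw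
  rw [KkPre.meanOp_unif, Finset.smul_sum]
  have hc : (Fintype.card (KkBoxI m (kkRadL Lam q y) (kkRadB q y)) : ℂ) ≠ 0 := by
    exact_mod_cast Fintype.card_ne_zero
  have hq0 : (0 : ℝ) < (q : ℝ) := by exact_mod_cast Nat.pos_of_ne_zero (NeZero.ne q)
  have hqz : (q : ℤ) ≠ 0 := by exact_mod_cast NeZero.ne q
  have h := kkb_mean q (kkY q) (q : ℤ) hqz (kkRadL Lam q y) (kkRadB q y)
    (fun g => if g ∈ Lamq (m := m) q then kkTplc w Lam y g else 0)
    (fun g hg => by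
      by_cases hmem : g ∈ Lamq (m := m) q
      · simp only [if_pos hmem] at hg
        obtain ⟨h1, h2⟩ := (mem_Lamq_iff q g).1 hmem
        exact kkb_supp w hL hy (q : ℤ) q (by simp) hq0 g (fun h0 => hg (by
          unfold kkTplc; rw [h0, map_zero])) h1 h2
      · simp only [if_neg hmem] at hg
        exact absurd rfl hg)
  unfold kkLY
  unfold kkL at h
  rw [← h, Finset.smul_sum]
  refine Finset.sum_congr rfl fun a _ => ?_
  have hmem : kkBoxPt (q : ℤ) (kkRadL Lam q y) (kkRadB q y) a ∈ Lamq (m := m) q := by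
    rw [mem_Lamq_iff]
    exact ⟨fun p => Dvd.intro _ rfl, fun p => Dvd.intro _ rfl⟩
  have e : kkY q (kkBoxPt (q : ℤ) (kkRadL Lam q y) (kkRadB q y) a)
      = kkWL 1 (Deck.sigY (kkBoxPt (q : ℤ) (kkRadL Lam q y) (kkRadB q y) a)) := by
    unfold kkY
    rw [Rq_of_mem q _ hmem]
  rw [if_pos hmem, smul_smul, smul_smul, mul_assoc, inv_mul_cancel_left₀ hc, e]

theorem kkCqLaw_meanOp :
    (kkCqLaw (m := m) q).meanOp = ((q : ℂ) ^ (2 * nf m))⁻¹ •
      ∑ a : (Idx m → ZMod q) × (Idx m → ZMod q), kkY q (kkRep q a) := by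
  unfold kkCqLaw
  rw [KkPre.meanOp_unif]
  congr 1
  · congr 1
    simp only [Fintype.card_prod, Fintype.card_pi, ZMod.card, Finset.prod_const, Finset.card_univ, nf]
    push_cast
    rw [← pow_add, two_mul]
  · refine Finset.sum_congr rfl fun a _ => ?_
    rw [one_smul]
    rfl

theorem kkRep_isRep (a : (Idx m → ZMod q) × (Idx m → ZMod q)) : IsRep q (kkRep q a) := by
  have hq : 0 < q := Nat.pos_of_ne_zero (NeZero.ne q)
  refine ⟨fun p => ⟨Int.natCast_nonneg _, ?_⟩, fun p => ⟨Int.natCast_nonneg _, ?_⟩⟩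
  · have := ZMod.val_lt (a.1 p)
    simp only [kkRep]
    exact_mod_cast this
  · have := ZMod.val_lt (a.2 p)
    simp only [kkRep]
    exact_mod_cast this

theorem kkRep_bijOn : Set.BijOn (kkRep (m := m) q) Set.univ {v | IsRep q v} := by
  refine ⟨fun a _ => kkRep_isRep q a, ?_, ?_⟩
  · intro a _ b _ h
    refine Prod.ext ?_ ?_
    · funext p
      have := congrFun (congrArg EBar.lam h) p
      simp only [kkRep] at this
      exact ZMod.val_injective q (by exact_mod_cast this)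
    · funext p
      have := congrFun (congrArg EBar.bet h) p
      simp only [kkRep] at this
      exact ZMod.val_injective q (by exact_mod_cast this)
  · intro v hv
    refine ⟨(fun p => (v.lam p : ZMod q), fun p => (v.bet p : ZMod q)), Set.mem_univ _, ?_⟩
    ext1
    · funext p
      simp only [kkRep]
      rw [ZMod.val_intCast, Int.emod_eq_of_lt (hv.1 p).1 (hv.1 p).2]
    · funext p
      simp only [kkRep]
      rw [ZMod.val_intCast, Int.emod_eq_of_lt (hv.2 p).1 (hv.2 p).2]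

/-! ### scalars -/

theorem kkMaskLaw_c_le (f : C(UnitAddCircle, ℂ)) (K : ℕ) (B : ℝ) (hB : ∀ n, ‖fourierCoeff f n‖ ≤ B)
    (a : (kkMaskLaw (m := m) q f K).Ω) : ‖(kkMaskLaw (m := m) q f K).c a‖ ≤ (2 * K + 1) * B := by
  have key : ∀ a : Fin (2 * K + 1),
      ‖(2 * K + 1 : ℂ) * fourierCoeff f (((a : ℕ) : ℤ) - K)‖ ≤ (2 * K + 1) * B := by
    intro a
    rw [norm_mul]
    have e : ‖(2 * K + 1 : ℂ)‖ = 2 * K + 1 := by
      have : (2 * K + 1 : ℂ) = ((2 * K + 1 : ℕ) : ℂ) := by push_cast; rfl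
      rw [this, Complex.norm_natCast]
      push_cast
      rfl
    rw [e]
    exact mul_le_mul_of_nonneg_left (hB _) (by positivity)
  exact key a

theorem kkb_tpl_norm (w : Win m) (C : ℝ) (hC : ∀ (Lam : ℝ) (a : EBar m ℝ), ‖Jf w Lam a‖ ≤ C)
    (Lam y : ℝ) (hy : 0 < y) (g : EBar m ℤ) : ‖tpl w Lam y g‖ ≤ nu m y * C := by
  unfold tpl
  have hnu : 0 ≤ nu m y := by unfold nu; positivity
  rw [norm_mul, Complex.norm_real, Real.norm_of_nonneg hnu]
  exact mul_le_mul_of_nonneg_left (hC _ _) hnu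

theorem kkb_scalar (w : Win m) (C : ℝ) (hC0 : 0 ≤ C)
    (hC : ∀ (Lam : ℝ) (a : EBar m ℝ), ‖Jf w Lam a‖ ≤ C) (Lam s y : ℝ) (hL : 0 < Lam) (hs : 1 ≤ s)
    (hy : 0 < y) (hsy : s * y ≤ 1) (g : EBar m ℤ) :
    (Fintype.card (KkBoxI m (kkRadL Lam s y) (kkRadB s y)) : ℝ) * s ^ (2 * nf m) * ‖tpl w Lam y g‖
      ≤ (4 * Lam + 3) ^ nf m * (2 * R0 m + 5) ^ nf m * C := by
  have h1 := kkBox_card_le (m := m) Lam s y hL hs hy hsy
  have h2 := kkb_tpl_norm w C hC Lam y hy g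
  have hs0 : 0 ≤ s := by linarith
  calc (Fintype.card (KkBoxI m (kkRadL Lam s y) (kkRadB s y)) : ℝ) * s ^ (2 * nf m) * ‖tpl w Lam y g‖
      ≤ (Fintype.card (KkBoxI m (kkRadL Lam s y) (kkRadB s y)) : ℝ) * s ^ (2 * nf m)
          * (nu m y * C) := mul_le_mul_of_nonneg_left h2 (by positivity)
    _ = (Fintype.card (KkBoxI m (kkRadL Lam s y) (kkRadB s y)) : ℝ) * s ^ (2 * nf m) * nu m y * C := by
        ring
    _ ≤ _ := mul_le_mul_of_nonneg_right h1 hC0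

theorem kkXLaw_c_le (w : Win m) (Lam : ℝ) (hL : 0 < Lam) : ∃ C : ℝ, 0 ≤ C ∧ ∀ (q : ℕ) [NeZero q] (y : ℝ),
    0 < y → y ≤ 1 → (∀ a, ‖(kkXLaw q w Lam y).c a‖ ≤ C) ∧ (∀ a, ‖(kkYLaw q w Lam y).c a‖ ≤ C) := by
  obtain ⟨C, hC0, hC⟩ := Jf_bound w
  have hR := kkb_R0_nonneg m
  refine ⟨(4 * Lam + 3) ^ nf m * (2 * R0 m + 5) ^ nf m * C, by positivity, ?_⟩
  intro q _ y hy hy1
  constructor
  · intro a
    have h := kkb_scalar w C hC0 hC Lam 1 y hL le_rfl hy (by linarith)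
      (kkBoxPt 1 (kkRadL Lam 1 y) (kkRadB 1 y) a)
    rw [one_pow, mul_one] at h
    change ‖(Fintype.card (KkBoxI m (kkRadL Lam 1 y) (kkRadB 1 y)) : ℂ)
      * tpl w Lam y (kkBoxPt 1 (kkRadL Lam 1 y) (kkRadB 1 y) a)‖ ≤ _
    rw [norm_mul, Complex.norm_natCast]
    exact h
  · intro a
    have h := kkb_scalar w C hC0 hC Lam 1 y hL le_rfl hy (by linarith)
      (kkBoxPt 1 (kkRadL Lam 1 y) (kkRadB 1 y) a)
    rw [one_pow, mul_one] at h
    change ‖(Fintype.card (KkBoxI m (kkRadL Lam 1 y) (kkRadB 1 y)) : ℂ)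
      * kkTplc w Lam y (kkBoxPt 1 (kkRadL Lam 1 y) (kkRadB 1 y) a)‖ ≤ _
    unfold kkTplc
    rw [norm_mul, Complex.norm_natCast, RCLike.norm_conj]
    exact h

theorem kkLamLaw_c_le (w : Win m) (Lam : ℝ) (hL : 0 < Lam) : ∃ C : ℝ, 0 ≤ C ∧ ∀ (q : ℕ) [NeZero q] (y : ℝ),
    0 < y → (q : ℝ) * y ≤ 1 → ∀ a, ‖(kkLamLaw q w Lam y).c a‖ ≤ C := by
  obtain ⟨C, hC0, hC⟩ := Jf_bound w
  have hR := kkb_R0_nonneg m
  refine ⟨(4 * Lam + 3) ^ nf m * (2 * R0 m + 5) ^ nf m * C, by positivity, ?_⟩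
  intro q _ y hy hqy a
  have hq1 : (1 : ℝ) ≤ (q : ℝ) := by exact_mod_cast Nat.pos_of_ne_zero (NeZero.ne q)
  have h := kkb_scalar w C hC0 hC Lam q y hL hq1 hy hqy
    (kkBoxPt (q : ℤ) (kkRadL Lam q y) (kkRadB q y) a)
  change ‖(Fintype.card (KkBoxI m (kkRadL Lam q y) (kkRadB q y)) : ℂ) * (q : ℂ) ^ (2 * nf m)
    * kkTplc w Lam y (kkBoxPt (q : ℤ) (kkRadL Lam q y) (kkRadB q y) a)‖ ≤ _
  unfold kkTplc
  rw [norm_mul, norm_mul, Complex.norm_natCast, RCLike.norm_conj, norm_pow, Complex.norm_natCast]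
  exact h

/-! ### voltages -/

theorem kkMaskLaw_z (f : C(UnitAddCircle, ℂ)) (K : ℕ) (a : (kkMaskLaw (m := m) q f K).Ω) :
    ((kkMaskLaw (m := m) q f K).z a).gX = 1 ∧ ((kkMaskLaw (m := m) q f K).z a).gY = 1 ∧
      |(((kkMaskLaw (m := m) q f K).z a).z : ℝ)| ≤ K := by
  have key : ∀ a : Fin (2 * K + 1), ((Deck.z0 : Deck m ℤ) ^ (((a : ℕ) : ℤ) - K)).gX = 1 ∧
      ((Deck.z0 : Deck m ℤ) ^ (((a : ℕ) : ℤ) - K)).gY = 1 ∧
      |((((Deck.z0 : Deck m ℤ) ^ (((a : ℕ) : ℤ) - K)).z : ℤ) : ℝ)| ≤ K := by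
    intro a
    rw [Deck.z0_zpow]
    refine ⟨rfl, rfl, ?_⟩
    rw [Deck.cen_z]
    have h := a.2
    have h2 : |(((a : ℕ) : ℤ) - K)| ≤ (K : ℤ) := by
      rw [abs_le]
      constructor <;> omega
    exact_mod_cast h2
  exact key a

theorem kkb_coord_bound (ρ ρ' s y : ℝ) (st : ℕ) (hst : (st : ℝ) = s) (hρ : 0 ≤ ρ) (hρ' : ρ ≤ ρ')
    (hs : 1 ≤ s) (hy : 0 < y) (hy1 : y ≤ 1) (k : ℕ) (hk : k ≤ m)
    (u : Fin (2 * ⌈ρ / (s * y ^ k)⌉₊ + 1)) :
    |(((st : ℤ) * (((u : ℕ) : ℤ) - (⌈ρ / (s * y ^ k)⌉₊ : ℕ)) : ℤ) : ℝ)| ≤ ρ' / y ^ m + s := by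
  have hs0 : 0 < s := by linarith
  have hyk : 0 < y ^ k := by positivity
  have hym : 0 < y ^ m := by positivity
  have hd : 0 < s * y ^ k := by positivity
  have h1 : |((((u : ℕ) : ℤ) - (⌈ρ / (s * y ^ k)⌉₊ : ℕ) : ℤ) : ℝ)| ≤ (⌈ρ / (s * y ^ k)⌉₊ : ℝ) := by
    have h := u.2
    have h2 : |(((u : ℕ) : ℤ) - (⌈ρ / (s * y ^ k)⌉₊ : ℕ))| ≤ ((⌈ρ / (s * y ^ k)⌉₊ : ℕ) : ℤ) := by
      rw [abs_le]
      constructor <;> omega
    exact_mod_cast h2
  have hc : (⌈ρ / (s * y ^ k)⌉₊ : ℝ) ≤ ρ / (s * y ^ k) + 1 := (Nat.ceil_lt_add_one (by positivity)).le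
  have h3 : s * (ρ / (s * y ^ k) + 1) = ρ / y ^ k + s := by field_simp
  have h4 : ρ / y ^ k ≤ ρ' / y ^ m := by
    have : y ^ m ≤ y ^ k := pow_le_pow_of_le_one hy.le hy1 hk
    calc ρ / y ^ k ≤ ρ / y ^ m := div_le_div_of_nonneg_left hρ hym this
      _ ≤ ρ' / y ^ m := div_le_div_of_nonneg_right hρ' hym.le
  rw [Int.cast_mul, abs_mul]
  have e : |(((st : ℤ)) : ℝ)| = s := by
    rw [Int.cast_natCast, hst, abs_of_pos hs0]
  rw [e]
  calc s * |((((u : ℕ) : ℤ) - (⌈ρ / (s * y ^ k)⌉₊ : ℕ) : ℤ) : ℝ)|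
      ≤ s * (ρ / (s * y ^ k) + 1) := mul_le_mul_of_nonneg_left (h1.trans hc) hs0.le
    _ = ρ / y ^ k + s := h3
    _ ≤ _ := by linarith

/-- all coordinates of a box point. -/
theorem kkBoxPt_cbound (Lam s y : ℝ) (st : ℕ) (hst : (st : ℝ) = s) (hL : 0 < Lam) (hs : 1 ≤ s) (hy : 0 < y)
    (hy1 : y ≤ 1) (a : KkBoxI m (kkRadL Lam s y) (kkRadB s y)) :
    (kkBoxPt (st : ℤ) _ _ a).CBound ((2 * Lam + R0 m + 1) / y ^ m + s) := by
  have hR := kkb_R0_nonneg m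
  constructor
  · intro p
    exact kkb_coord_bound (m := m) (2 * Lam) (2 * Lam + R0 m + 1) s y st hst (by positivity)
      (by linarith) hs hy hy1 (wtL p) (wtL_lt p).le (a.1 p)
  · intro p
    exact kkb_coord_bound (m := m) (R0 m + 1) (2 * Lam + R0 m + 1) s y st hst (by positivity)
      (by linarith) hs hy hy1 (wtB p) (wtB_lt p).le (a.2 p)

theorem kkRep_cbound (a : (Idx m → ZMod q) × (Idx m → ZMod q)) : (kkRep q a).CBound q := by
  have key : ∀ t : ZMod q, |(((t.val : ℕ) : ℤ) : ℝ)| ≤ q := by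
    intro t
    have := (ZMod.val_lt t).le
    rw [Int.cast_natCast, abs_of_nonneg (by positivity)]
    exact_mod_cast this
  exact ⟨fun p => key _, fun p => key _⟩

theorem deck_sigX_cbound (g : EBar m ℤ) (M : ℝ) (hM : 0 ≤ M) (h : g.CBound M) :
    (Deck.sigX g).CBound M := by
  refine ⟨h, ⟨fun p => ?_, fun p => ?_⟩, ?_⟩ <;> simpa using hM

theorem deck_sigY_cbound (g : EBar m ℤ) (M : ℝ) (hM : 0 ≤ M) (h : g.CBound M) :
    (Deck.sigY g).CBound M := by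
  refine ⟨⟨fun p => ?_, fun p => ?_⟩, h, ?_⟩ <;> simpa using hM

/-! ### anti-concentration -/

theorem kkb_wide_num (s y κ : ℝ) (hs : 0 < s) (hy : 0 < y) (hy1 : y ≤ 1) (hκ : s * y ≤ κ)
    (p : Idx m) : 1 ≤ κ * (2 * (kkRadB s y p : ℝ) + 1) := by
  have hR := kkb_R0_nonneg m
  have hyw : y ^ wtB p ≤ y := by
    calc y ^ wtB p ≤ y ^ 1 := pow_le_pow_of_le_one hy.le hy1 (wtB_pos p)
      _ = y := pow_one y
  have hd : 0 < s * y ^ wtB p := by positivity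
  have hsy : 0 < s * y := by positivity
  have h1 : 1 / (s * y) ≤ (kkRadB s y p : ℝ) := by
    unfold kkRadB
    refine le_trans ?_ (Nat.le_ceil _)
    calc 1 / (s * y) ≤ 1 / (s * y ^ wtB p) :=
          one_div_le_one_div_of_le hd (mul_le_mul_of_nonneg_left hyw hs.le)
      _ ≤ (R0 m + 1) / (s * y ^ wtB p) := div_le_div_of_nonneg_right (by linarith) hd.le
  have h2 : (0 : ℝ) ≤ 2 * (kkRadB s y p : ℝ) + 1 := by positivity
  calc (1 : ℝ) = (s * y) * (1 / (s * y)) := by field_simp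
    _ ≤ (s * y) * (2 * (kkRadB s y p : ℝ) + 1) := by
        apply mul_le_mul_of_nonneg_left _ hsy.le
        have : (0 : ℝ) ≤ (kkRadB s y p : ℝ) := by positivity
        linarith
    _ ≤ κ * (2 * (kkRadB s y p : ℝ) + 1) := mul_le_mul_of_nonneg_right hκ h2

theorem kkXLaw_wide (w : Win m) (Lam y κ : ℝ) (hy : 0 < y) (hy1 : y ≤ 1) (hκ : y ≤ κ) :
    (kkXLaw q w Lam y).Wide (fun z => z.gX.bet) κ := by
  exact kkWide_box (∀ p : Idx m, Fin (2 * kkRadL Lam 1 y p + 1)) 1 one_ne_zero (kkRadB 1 y) κ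
    (fun p => kkb_wide_num 1 y κ one_pos hy hy1 (by linarith) p)

theorem kkLamLaw_wide (w : Win m) (Lam y κ : ℝ) (hy : 0 < y) (hy1 : y ≤ 1) (hκ : (q : ℝ) * y ≤ κ) :
    (kkLamLaw q w Lam y).Wide (fun z => z.gY.bet) κ := by
  have hq0 : (0 : ℝ) < (q : ℝ) := by exact_mod_cast Nat.pos_of_ne_zero (NeZero.ne q)
  have hqz : (q : ℤ) ≠ 0 := by exact_mod_cast NeZero.ne q
  exact kkWide_box (∀ p : Idx m, Fin (2 * kkRadL Lam q y p + 1)) (q : ℤ) hqz (kkRadB q y) κ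
    (fun p => kkb_wide_num q y κ hq0 hy hy1 hκ p)

end laws

end Claimed.Agent.R300
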