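import Mathlib

/-!
# KK Section 8, L8.10 (first part): the smooth layer window

`hwin v = sin(π/2 θ(v+1)) cos(π/2 θ(v))`, `θ = smoothTransition ((x - 1/10)/(4/5))`:
smooth, `0 ≤ hwin ≤ 1`, support `(-9/10, 9/10)`, `∑_i hwin (v - i)² = 1`.
So `hwin²` is a smooth partition of unity as well.
-/

set_option autoImplicit false

namespace Claimed.Agent.R300.Nil

open Real

/-- smooth step: `0` for `x ≤ 1/10`, `1` for `x ≥ 9/10` -/
noncomputable def thw (x : ℝ) : ℝ := Real.smoothTransition ((x - 1 / 10) / (4 / 5))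

/-- the layer window -/
noncomputable def hwin (v : ℝ) : ℝ := Real.sin (π / 2 * thw (v + 1)) * Real.cos (π / 2 * thw v)

lemma thw_nonneg (x : ℝ) : 0 ≤ thw x := Real.smoothTransition.nonneg _

lemma thw_le_one (x : ℝ) : thw x ≤ 1 := Real.smoothTransition.le_one _

lemma thw_eq_zero {x : ℝ} (h : x ≤ 1 / 10) : thw x = 0 :=
  Real.smoothTransition.zero_of_nonpos (div_nonpos_of_nonpos_of_nonneg (by linarith) (by norm_num))

lemma thw_eq_one {x : ℝ} (h : 9 / 10 ≤ x) : thw x = 1 :=
  Real.smoothTransition.one_of_one_le (by rw [le_div_iff₀ (by norm_num)]; linarith)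

lemma thw_pos {x : ℝ} (h : 1 / 10 < x) : 0 < thw x :=
  Real.smoothTransition.pos_of_pos (div_pos (by linarith) (by norm_num))

lemma thw_lt_one {x : ℝ} (h : x < 9 / 10) : thw x < 1 :=
  Real.smoothTransition.lt_one_of_lt_one (by rw [div_lt_iff₀ (by norm_num)]; linarith)

lemma thw_contDiff {n : ℕ∞} : ContDiff ℝ n thw :=
  Real.smoothTransition.contDiff.comp (by fun_prop)

theorem hwin_contDiff {n : ℕ∞} : ContDiff ℝ n hwin := by
  unfold hwin
  have h1 : ContDiff ℝ n fun v : ℝ => thw (v + 1) := thw_contDiff.comp (by fun_prop)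
  exact (Real.contDiff_sin.comp (contDiff_const.mul h1)).mul
    (Real.contDiff_cos.comp (contDiff_const.mul thw_contDiff))

lemma hwin_arg_mem (x : ℝ) : 0 ≤ π / 2 * thw x ∧ π / 2 * thw x ≤ π / 2 := by
  have := thw_nonneg x
  have := thw_le_one x
  have hp := Real.pi_pos
  constructor
  · positivity
  · nlinarith

theorem hwin_nonneg (v : ℝ) : 0 ≤ hwin v := by
  have h1 := hwin_arg_mem (v + 1)
  have h2 := hwin_arg_mem v
  have hp := Real.pi_pos
  exact mul_nonneg (Real.sin_nonneg_of_nonneg_of_le_pi h1.1 (by linarith))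
    (Real.cos_nonneg_of_neg_pi_div_two_le_of_le (by linarith) h2.2)

theorem hwin_le_one (v : ℝ) : hwin v ≤ 1 := by
  have h1 := hwin_arg_mem (v + 1)
  have h2 := hwin_arg_mem v
  have hp := Real.pi_pos
  have a := Real.sin_le_one (π / 2 * thw (v + 1))
  have b := Real.cos_le_one (π / 2 * thw v)
  have a0 := Real.sin_nonneg_of_nonneg_of_le_pi h1.1 (by linarith)
  have b0 := Real.cos_nonneg_of_neg_pi_div_two_le_of_le (by linarith : -(π / 2) ≤ _) h2.2
  unfold hwin
  nlinarith

/-- on the right half line -/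
lemma hwin_of_nonneg {v : ℝ} (h : 0 ≤ v) : hwin v = Real.cos (π / 2 * thw v) := by
  unfold hwin
  rw [thw_eq_one (by linarith : 9 / 10 ≤ v + 1), mul_one, Real.sin_pi_div_two, one_mul]

/-- on the left half line -/
lemma hwin_of_nonpos {v : ℝ} (h : v ≤ 0) : hwin v = Real.sin (π / 2 * thw (v + 1)) := by
  unfold hwin
  rw [thw_eq_zero (by linarith : v ≤ 1 / 10), mul_zero, Real.cos_zero, mul_one]

theorem hwin_eq_zero {v : ℝ} (h : 9 / 10 ≤ |v|) : hwin v = 0 := by
  rcases le_abs.mp h with h | h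
  · rw [hwin_of_nonneg (by linarith), thw_eq_one h, mul_one, Real.cos_pi_div_two]
  · rw [hwin_of_nonpos (by linarith), thw_eq_zero (by linarith), mul_zero, Real.sin_zero]

theorem hwin_pos {v : ℝ} (h : |v| < 9 / 10) : 0 < hwin v := by
  have hp := Real.pi_pos
  obtain ⟨h1, h2⟩ := abs_lt.mp h
  have a : 0 < Real.sin (π / 2 * thw (v + 1)) := by
    have := thw_pos (by linarith : 1 / 10 < v + 1)
    have := (hwin_arg_mem (v + 1)).2
    exact Real.sin_pos_of_pos_of_lt_pi (by positivity) (by linarith)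
  have b : 0 < Real.cos (π / 2 * thw v) := by
    have := thw_lt_one h2
    have := (hwin_arg_mem v).1
    exact Real.cos_pos_of_mem_Ioo ⟨by linarith, by nlinarith⟩
  exact mul_pos a b

theorem hwin_ne_zero_iff {v : ℝ} : hwin v ≠ 0 ↔ |v| < 9 / 10 :=
  ⟨fun h => by
    by_contra h'
    exact h (hwin_eq_zero (not_lt.mp h')), fun h => (hwin_pos h).ne'⟩

theorem hwin_sq_add {v : ℝ} (h0 : 0 ≤ v) (h1 : v ≤ 1) : hwin v ^ 2 + hwin (v - 1) ^ 2 = 1 := by
  rw [hwin_of_nonneg h0, hwin_of_nonpos (by linarith), sub_add_cancel]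
  exact Real.cos_sq_add_sin_sq _

/-- the two active layers -/
theorem hwin_two (v : ℝ) :
    (∀ i : ℤ, i ≠ ⌊v⌋ → i ≠ ⌊v⌋ + 1 → hwin (v - i) = 0) ∧
      hwin (v - ⌊v⌋) ^ 2 + hwin (v - ((⌊v⌋ + 1 : ℤ) : ℝ)) ^ 2 = 1 := by
  have hf0 := Int.floor_le v
  have hf1 := Int.lt_floor_add_one v
  constructor
  · intro i h1 h2
    apply hwin_eq_zero
    rcases lt_or_gt_of_ne h1 with h | h
    · have : (i : ℝ) + 1 ≤ ⌊v⌋ := by exact_mod_cast h
      rw [le_abs]; left; linarith
    · have h3 : ⌊v⌋ + 1 < i := lt_of_le_of_ne h (Ne.symm h2)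
      have : ((⌊v⌋ : ℝ) + 1) + 1 ≤ i := by exact_mod_cast h3
      rw [le_abs]; right; linarith
  · have := hwin_sq_add (v := v - ⌊v⌋) (by linarith) (by linarith)
    push_cast
    rw [← sub_sub]
    exact this

theorem hwin_finsum (v : ℝ) : ∑ᶠ i : ℤ, hwin (v - i) ^ 2 = 1 := by
  obtain ⟨h1, h2⟩ := hwin_two v
  have hs : (Function.support fun i : ℤ => hwin (v - i) ^ 2) ⊆
      (({⌊v⌋, ⌊v⌋ + 1} : Finset ℤ) : Set ℤ) := by
    intro i hi
    by_contra hc
    simp only [Finset.coe_insert, Finset.coe_singleton, Set.mem_insert_iff,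
      Set.mem_singleton_iff, not_or] at hc
    exact hi (by simp [h1 i hc.1 hc.2])
  rw [finsum_eq_sum_of_support_subset _ hs, Finset.sum_pair (by omega)]
  exact h2

/-- uniform bounds of the first two derivatives -/
theorem hwin_hasCompactSupport : HasCompactSupport hwin := by
  refine HasCompactSupport.of_support_subset_isCompact (isCompact_Icc (a := (-1 : ℝ)) (b := 1)) ?_
  intro v hv
  have := abs_lt.mp (hwin_ne_zero_iff.mp hv)
  exact ⟨by linarith [this.1], by linarith [this.2]⟩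

theorem hwin_deriv_bound : ∃ A : ℝ, 1 ≤ A ∧ ∀ v, |deriv hwin v| ≤ A ∧ |deriv (deriv hwin) v| ≤ A := by
  have h2 : ContDiff ℝ 2 hwin := hwin_contDiff (n := 2)
  have h1 : ContDiff ℝ 1 (deriv hwin) := by
    have : ContDiff ℝ (1 + 1) hwin := by
      simpa [one_add_one_eq_two] using h2
    exact (contDiff_succ_iff_deriv.mp this).2.2
  have h0 : Continuous (deriv (deriv hwin)) := by
    have : ContDiff ℝ (0 + 1) (deriv hwin) := by simpa using h1
    exact (contDiff_succ_iff_deriv.mp this).2.2.continuous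
  obtain ⟨C1, hC1⟩ := h1.continuous.bounded_above_of_compact_support hwin_hasCompactSupport.deriv
  obtain ⟨C2, hC2⟩ := h0.bounded_above_of_compact_support hwin_hasCompactSupport.deriv.deriv
  refine ⟨max 1 (max C1 C2), le_max_left _ _, fun v => ⟨?_, ?_⟩⟩
  · exact (hC1 v).trans ((le_max_left _ _).trans (le_max_right _ _))
  · exact (hC2 v).trans ((le_max_right _ _).trans (le_max_right _ _))

end Claimed.Agent.R300.Nil
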