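import Claimed.Agent.R300.NilMaskB
import Claimed.Agent.R300.NilWinH

/-!
# KK Section 9.a: sums of Fourier coefficients, truncation, the concrete masks

* `four_tail`, `four_summable`, `four_tsum_le`: from `a n ≤ A1`, `n² a n ≤ B`.
* `kkHom_trunc`: `‖f(u) - ∑_{|n| ≤ K} fhat(n) u^n‖ ≤ 4 B / K`.
* `C2B f A`: `f` is `C²` with `|f|, |f'|, |f''| ≤ A`  (closed under products and affine substitutions).
* `mask_exists`, `masks_exist`.
-/

set_option autoImplicit false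

namespace Claimed.Agent.R300.Nil

open Real MeasureTheory

/-! ## sums -/

section sums

variable {a : ℤ → ℝ} {A1 B : ℝ}

theorem four_tail (hB : 0 ≤ B) (h2 : ∀ n : ℤ, (n : ℝ) ^ 2 * a n ≤ B) (K : ℕ)
    (s : Finset ℤ) (hs : ∀ n ∈ s, (K : ℤ) < |n|) : ∑ n ∈ s, a n ≤ 4 * B / (K + 1) := by
  classical
  -- a bound for all the elements
  obtain ⟨N, hN⟩ : ∃ N : ℕ, ∀ n ∈ s, n.natAbs < N := by
    refine ⟨s.sup Int.natAbs + 1, fun n hn => ?_⟩
    exact Nat.lt_succ_of_le (Finset.le_sup (f := Int.natAbs) hn)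
  set g : ℤ → ℝ := fun n => B * ((n.natAbs : ℝ) ^ 2)⁻¹ with hg
  have hg0 : ∀ n, 0 ≤ g n := fun n => by positivity
  have hag : ∀ n ∈ s, a n ≤ g n := by
    intro n hn
    have hn0 : (0 : ℝ) < (n.natAbs : ℝ) ^ 2 := by
      have : 0 < n.natAbs := by
        have := hs n hn
        rw [Int.abs_eq_natAbs] at this
        omega
      positivity
    have e : ((n.natAbs : ℝ)) ^ 2 = (n : ℝ) ^ 2 := by
      rw [Nat.cast_natAbs, Int.cast_abs, sq_abs]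
    simp only [hg]
    rw [← div_eq_mul_inv, le_div_iff₀ hn0, e, mul_comm]
    exact h2 n
  set I := Finset.Ioo K N with hI
  set P : Finset ℤ := I.image (fun i : ℕ => (i : ℤ)) with hP
  set M : Finset ℤ := I.image (fun i : ℕ => -(i : ℤ)) with hM
  have hsub : s ⊆ P ∪ M := by
    intro n hn
    have h1 := hs n hn
    rw [Int.abs_eq_natAbs] at h1
    have h3 := hN n hn
    rw [Finset.mem_union]
    rcases le_total 0 n with h | h
    · left
      rw [hP, Finset.mem_image]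
      refine ⟨n.natAbs, ?_, by rw [Int.natCast_natAbs, abs_of_nonneg h]⟩
      rw [hI, Finset.mem_Ioo]
      refine ⟨?_, h3⟩
      omega
    · right
      rw [hM, Finset.mem_image]
      refine ⟨n.natAbs, ?_, by rw [Int.natCast_natAbs, abs_of_nonpos h, neg_neg]⟩
      rw [hI, Finset.mem_Ioo]
      refine ⟨?_, h3⟩
      omega
  have hPs : ∑ n ∈ P, g n = B * ∑ i ∈ I, ((i : ℝ) ^ 2)⁻¹ := by
    rw [hP, Finset.sum_image (fun x _ y _ h => by exact_mod_cast h), Finset.mul_sum]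
    refine Finset.sum_congr rfl fun i _ => ?_
    simp [hg]
  have hMs : ∑ n ∈ M, g n = B * ∑ i ∈ I, ((i : ℝ) ^ 2)⁻¹ := by
    rw [hM, Finset.sum_image (fun x _ y _ h => by
      have := neg_injective h
      exact_mod_cast this), Finset.mul_sum]
    refine Finset.sum_congr rfl fun i _ => ?_
    simp [hg]
  have hq : ∑ i ∈ I, ((i : ℝ) ^ 2)⁻¹ ≤ 2 / ((K : ℝ) + 1) := sum_Ioo_inv_sq_le K N
  calc ∑ n ∈ s, a n ≤ ∑ n ∈ s, g n := Finset.sum_le_sum hag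
    _ ≤ ∑ n ∈ P ∪ M, g n := Finset.sum_le_sum_of_subset_of_nonneg hsub fun n _ _ => hg0 n
    _ ≤ ∑ n ∈ P, g n + ∑ n ∈ M, g n := by
        rw [← Finset.sum_union_inter]
        exact le_add_of_nonneg_right (Finset.sum_nonneg fun n _ => hg0 n)
    _ = 2 * (B * ∑ i ∈ I, ((i : ℝ) ^ 2)⁻¹) := by rw [hPs, hMs]; ring
    _ ≤ 2 * (B * (2 / ((K : ℝ) + 1))) := by gcongr
    _ = _ := by ring

theorem four_sum_le (ha0 : ∀ n, 0 ≤ a n) (hB : 0 ≤ B) (h1 : ∀ n, a n ≤ A1)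
    (h2 : ∀ n : ℤ, (n : ℝ) ^ 2 * a n ≤ B) (K : ℕ) (u : Finset ℤ) :
    ∑ n ∈ u, a n ≤ (2 * K + 1) * A1 + 4 * B / (K + 1) := by
  classical
  have hA1 : 0 ≤ A1 := (ha0 0).trans (h1 0)
  rw [← Finset.sum_filter_add_sum_filter_not u (fun n : ℤ => |n| ≤ (K : ℤ))]
  refine add_le_add ?_ (four_tail hB h2 K _ fun n hn => ?_)
  · calc ∑ n ∈ u.filter (fun n : ℤ => |n| ≤ (K : ℤ)), a n
        ≤ ∑ n ∈ Finset.Icc (-(K : ℤ)) K, a n := by
          refine Finset.sum_le_sum_of_subset_of_nonneg ?_ fun n _ _ => ha0 n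
          intro n hn
          rw [Finset.mem_filter] at hn
          rw [Finset.mem_Icc]
          exact abs_le.mp hn.2
      _ ≤ ∑ _n ∈ Finset.Icc (-(K : ℤ)) K, A1 := Finset.sum_le_sum fun n _ => h1 n
      _ = (2 * K + 1) * A1 := by
          rw [Finset.sum_const, Int.card_Icc, nsmul_eq_mul]
          congr 1
          have : ((K : ℤ) + 1 - -(K : ℤ)).toNat = 2 * K + 1 := by omega
          rw [this]; push_cast; ring
  · rw [Finset.mem_filter] at hn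
    exact not_le.mp hn.2

theorem four_summable (ha0 : ∀ n, 0 ≤ a n) (hB : 0 ≤ B) (h1 : ∀ n, a n ≤ A1)
    (h2 : ∀ n : ℤ, (n : ℝ) ^ 2 * a n ≤ B) : Summable a :=
  summable_of_sum_le ha0 (four_sum_le ha0 hB h1 h2 0)

theorem four_tsum_le (ha0 : ∀ n, 0 ≤ a n) (hB : 0 ≤ B) (h1 : ∀ n, a n ≤ A1)
    (h2 : ∀ n : ℤ, (n : ℝ) ^ 2 * a n ≤ B) (K : ℕ) :
    ∑' n, a n ≤ (2 * K + 1) * A1 + 4 * B / (K + 1) :=
  Real.tsum_le_of_sum_le ha0 (four_sum_le ha0 hB h1 h2 K)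

end sums

/-- **Truncation of a mask.** -/
theorem kkHom_trunc {𝒜 : Type*} [CStarAlgebra 𝒜] (u : unitary 𝒜) (f : C(UnitAddCircle, ℂ))
    {A1 B : ℝ} (hB : 0 ≤ B) (h1 : ∀ n, ‖fourierCoeff f n‖ ≤ A1)
    (h2 : ∀ n : ℤ, (n : ℝ) ^ 2 * ‖fourierCoeff f n‖ ≤ B) (K : ℕ) :
    ‖kkHom u f - ∑ n ∈ Finset.Icc (-(K : ℤ)) K, fourierCoeff f n • ((u ^ n : unitary 𝒜) : 𝒜)‖
      ≤ 4 * B / (K + 1) := by
  classical
  have hsum : Summable (fourierCoeff f) :=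
    (four_summable (fun n => norm_nonneg _) hB h1 h2).of_norm
  have hS := kkHom_hasSum u f hsum
  set g : ℤ → 𝒜 := fun n => fourierCoeff f n • ((u ^ n : unitary 𝒜) : 𝒜) with hg
  set s := Finset.Icc (-(K : ℤ)) K with hs
  have ht : Filter.Tendsto (fun t : Finset ℤ => ‖∑ n ∈ t, g n - ∑ n ∈ s, g n‖) Filter.atTop
      (nhds ‖kkHom u f - ∑ n ∈ s, g n‖) := (hS.sub_const _).norm
  refine le_of_tendsto ht ((Filter.eventually_ge_atTop s).mono fun t hts => ?_)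
  have e : ∑ n ∈ t, g n - ∑ n ∈ s, g n = ∑ n ∈ t \ s, g n := by
    rw [← Finset.sum_sdiff hts]; abel
  rw [e]
  have hgn : ∀ n, ‖g n‖ ≤ ‖fourierCoeff f n‖ := by
    intro n
    simp only [hg]
    rw [norm_smul]
    have : ‖((u ^ n : unitary 𝒜) : 𝒜)‖ ≤ 1 := by
      rcases subsingleton_or_nontrivial 𝒜 with h | h
      · rw [Subsingleton.elim ((u ^ n : unitary 𝒜) : 𝒜) 0, norm_zero]; exact zero_le_one
      · exact (CStarRing.norm_coe_unitary _).le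
    calc _ ≤ ‖fourierCoeff f n‖ * 1 := mul_le_mul_of_nonneg_left this (norm_nonneg _)
      _ = _ := mul_one _
  calc ‖∑ n ∈ t \ s, g n‖ ≤ ∑ n ∈ t \ s, ‖g n‖ := norm_sum_le _ _
    _ ≤ ∑ n ∈ t \ s, ‖fourierCoeff f n‖ := Finset.sum_le_sum fun n _ => hgn n
    _ ≤ _ := four_tail hB h2 K _ fun n hn => by
        rw [Finset.mem_sdiff, hs, Finset.mem_Icc] at hn
        by_contra hc
        exact hn.2 (abs_le.mp (not_lt.mp hc))

/-! ## `C²` functions with bounds -/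

/-- `f` is `C²` with `|f|, |f'|, |f''| ≤ A`. -/
def C2B (f : ℝ → ℝ) (A : ℝ) : Prop :=
  ∃ f1 f2 : ℝ → ℝ, (∀ x, HasDerivAt f (f1 x) x) ∧ (∀ x, HasDerivAt f1 (f2 x) x) ∧ Continuous f2 ∧
    ∀ x, |f x| ≤ A ∧ |f1 x| ≤ A ∧ |f2 x| ≤ A

theorem C2B.continuous {f : ℝ → ℝ} {A : ℝ} (h : C2B f A) : Continuous f := by
  obtain ⟨f1, f2, h1, -, -, -⟩ := h
  exact continuous_iff_continuousAt.mpr fun x => (h1 x).continuousAt

theorem C2B.abs_le {f : ℝ → ℝ} {A : ℝ} (h : C2B f A) (x : ℝ) : |f x| ≤ A := by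
  obtain ⟨f1, f2, -, -, -, hb⟩ := h
  exact (hb x).1

theorem C2B.nonneg {f : ℝ → ℝ} {A : ℝ} (h : C2B f A) : 0 ≤ A := (abs_nonneg _).trans (h.abs_le 0)

theorem C2B.lipschitz {f : ℝ → ℝ} {A : ℝ} (h : C2B f A) (x y : ℝ) : |f x - f y| ≤ A * |x - y| := by
  obtain ⟨f1, f2, h1, -, -, hb⟩ := h
  have := Convex.norm_image_sub_le_of_norm_hasDerivWithin_le (f := f) (f' := f1) (s := Set.univ)
    (C := A) (fun x _ => (h1 x).hasDerivWithinAt) (fun x _ => (hb x).2.1) convex_univ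
    (Set.mem_univ y) (Set.mem_univ x)
  simpa using this

theorem C2B.mul {f g : ℝ → ℝ} {A B : ℝ} (hf : C2B f A) (hg : C2B g B) :
    C2B (fun x => f x * g x) (4 * (A * B)) := by
  have hA := hf.nonneg
  have hB := hg.nonneg
  obtain ⟨f1, f2, hf1, hf2, hfc, hfb⟩ := hf
  obtain ⟨g1, g2, hg1, hg2, hgc, hgb⟩ := hg
  have cf : Continuous f := continuous_iff_continuousAt.mpr fun x => (hf1 x).continuousAt
  have cg : Continuous g := continuous_iff_continuousAt.mpr fun x => (hg1 x).continuousAt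
  have cf1 : Continuous f1 := continuous_iff_continuousAt.mpr fun x => (hf2 x).continuousAt
  have cg1 : Continuous g1 := continuous_iff_continuousAt.mpr fun x => (hg2 x).continuousAt
  refine ⟨fun x => f1 x * g x + f x * g1 x,
    fun x => (f2 x * g x + f1 x * g1 x) + (f1 x * g1 x + f x * g2 x),
    fun x => (hf1 x).mul (hg1 x), fun x => ((hf2 x).mul (hg1 x)).add ((hf1 x).mul (hg2 x)),
    by fun_prop, fun x => ?_⟩
  obtain ⟨a0, a1, a2⟩ := hfb x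
  obtain ⟨b0, b1, b2⟩ := hgb x
  have m : ∀ {p q : ℝ}, |p| ≤ A → |q| ≤ B → |p * q| ≤ A * B := fun hp hq => by
    rw [abs_mul]; exact mul_le_mul hp hq (abs_nonneg _) hA
  have hAB : 0 ≤ A * B := mul_nonneg hA hB
  refine ⟨(m a0 b0).trans (by linarith), ?_, ?_⟩
  · exact (abs_add_le _ _).trans (by linarith [m a1 b0, m a0 b1])
  · refine (abs_add_le _ _).trans ?_
    have := abs_add_le (f2 x * g x) (f1 x * g1 x)
    have := abs_add_le (f1 x * g1 x) (f x * g2 x)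
    linarith [m a2 b0, m a1 b1, m a0 b2]

theorem C2B.comp_aff {f : ℝ → ℝ} {A : ℝ} (hf : C2B f A) (c : ℝ) {s : ℝ} (hs : 0 < s)
    (hs1 : s ≤ 1) : C2B (fun x => f ((x - c) / s)) (A / s ^ 2) := by
  have hA := hf.nonneg
  obtain ⟨f1, f2, hf1, hf2, hfc, hfb⟩ := hf
  have hl : ∀ x : ℝ, HasDerivAt (fun x : ℝ => (x - c) / s) (1 / s) x := fun x =>
    ((hasDerivAt_id x).sub_const c).div_const s
  refine ⟨fun x => f1 ((x - c) / s) * (1 / s), fun x => f2 ((x - c) / s) * (1 / s) * (1 / s),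
    fun x => (hf1 _).comp x (hl x), fun x => ((hf2 _).comp x (hl x)).mul_const _,
    by fun_prop, fun x => ?_⟩
  obtain ⟨a0, a1, a2⟩ := hfb ((x - c) / s)
  have hs2 : s ^ 2 ≤ 1 := by nlinarith
  have hs2' : s ^ 2 ≤ s := by nlinarith
  have hs20 : 0 < s ^ 2 := by positivity
  refine ⟨a0.trans ?_, ?_, ?_⟩
  · rw [le_div_iff₀ hs20]; nlinarith
  · rw [abs_mul, abs_of_pos (by positivity : 0 < 1 / s), mul_one_div]
    calc |f1 ((x - c) / s)| / s ≤ A / s := div_le_div_of_nonneg_right a1 hs.le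
      _ ≤ A / s ^ 2 := div_le_div_of_nonneg_left hA hs20 hs2'
  · rw [abs_mul, abs_mul, abs_of_pos (by positivity : 0 < 1 / s)]
    calc |f2 ((x - c) / s)| * (1 / s) * (1 / s) = |f2 ((x - c) / s)| / s ^ 2 := by
          field_simp
      _ ≤ _ := div_le_div_of_nonneg_right a2 hs20.le

theorem hwin_c2b : ∃ A : ℝ, 1 ≤ A ∧ C2B hwin A := by
  obtain ⟨A, hA1, hA⟩ := hwin_deriv_bound
  have h2 : ContDiff ℝ 2 hwin := hwin_contDiff (n := 2)
  have h1 : ContDiff ℝ 1 (deriv hwin) := by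
    have : ContDiff ℝ (1 + 1) hwin := by
      simpa [one_add_one_eq_two] using h2
    exact (contDiff_succ_iff_deriv.mp this).2.2
  have h0 : Continuous (deriv (deriv hwin)) := by
    have : ContDiff ℝ (0 + 1) (deriv hwin) := by simpa using h1
    exact (contDiff_succ_iff_deriv.mp this).2.2.continuous
  refine ⟨A, hA1, deriv hwin, deriv (deriv hwin), fun x => ?_, fun x => ?_, h0, fun x => ?_⟩
  · exact ((h2.differentiable (by norm_num)) x).hasDerivAt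
  · exact ((h1.differentiable (by norm_num)) x).hasDerivAt
  · refine ⟨?_, (hA x).1, (hA x).2⟩
    rw [abs_of_nonneg (hwin_nonneg x)]
    exact (hwin_le_one x).trans hA1

/-! ## existence of masks -/

/-- **Mask lemma.** -/
theorem mask_exists {κ : ℝ} (hκ : 0 < κ) (A : ℝ) : ∃ C : ℝ, 0 ≤ C ∧
    ∀ (δ c : ℝ) (Φ : ℝ → ℝ), 0 < δ → δ ≤ 1 → C2B Φ A → (∀ b, 1 < |b - c| → Φ b = 0) →
    ∃ f : C(UnitAddCircle, ℝ), (∀ b, f ((tch δ κ b : ℝ) : UnitAddCircle) = Φ b) ∧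
      (∀ x ∈ Set.Icc δ 1, f ((x : ℝ) : UnitAddCircle) = 0) ∧
      (∀ n, ‖fourierCoeff (kkC f) n‖ ≤ C * (δ * (2 : ℝ) ^ (-(κ * |c|)))) ∧
      (∀ n : ℤ, (n : ℝ) ^ 2 * ‖fourierCoeff (kkC f) n‖ ≤ C / (δ * (2 : ℝ) ^ (-(κ * |c|)))) := by
  have hl := log_two_pos'
  set C1 : ℝ := 4 * (κ * Real.log 2 * (2 : ℝ) ^ (2 * κ) * |A|) with hC1
  set C2 : ℝ := 4 * (|A| * (4 / (κ * Real.log 2) + 1) * (2 : ℝ) ^ (2 * κ)) with hC2
  have hC10 : 0 ≤ C1 := by positivity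
  have hC20 : 0 ≤ C2 := by positivity
  refine ⟨max C1 C2, le_max_of_le_left hC10, fun δ c Φ hδ hδ1 hΦ hs => ?_⟩
  have hA0 := hΦ.nonneg
  have hAA : |A| = A := abs_of_nonneg hA0
  have hw : 0 < δ * (2 : ℝ) ^ (-(κ * |c|)) := mul_pos hδ (two_rpow_pos _)
  have hΦc := hΦ.continuous
  obtain ⟨Φ1, Φ2, h1, h2, hc2, hb⟩ := hΦ
  have ha : Φ (c - 2) = 0 := hs _ (by rw [show c - 2 - c = -2 by ring]; norm_num)
  have hb' : Φ (c + 2) = 0 := hs _ (by rw [show c + 2 - c = 2 by ring]; norm_num)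
  -- the derivative vanishes where `Φ` vanishes locally
  have hz : ∀ x, 1 < |x - c| → Φ1 x = 0 := by
    intro x hx
    have hopen : IsOpen {y : ℝ | 1 < |y - c|} :=
      isOpen_lt continuous_const (by fun_prop)
    have hev : Φ =ᶠ[nhds x] fun _ => (0 : ℝ) :=
      Filter.eventually_of_mem (hopen.mem_nhds hx) fun y hy => hs y hy
    exact (h1 x).unique ((hasDerivAt_const x (0 : ℝ)).congr_of_eventuallyEq hev)
  have ha1 : Φ1 (c - 2) = 0 := hz _ (by rw [show c - 2 - c = -2 by ring]; norm_num)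
  have hb1 : Φ1 (c + 2) = 0 := hz _ (by rw [show c + 2 - c = 2 by ring]; norm_num)
  refine ⟨mskC hδ hδ1 hκ hΦc hs, fun b => ?_, fun x hx => ?_, fun n => ?_, fun n => ?_⟩
  · rw [mskC_coe hδ hδ1 hκ hΦc hs ⟨(tch_pos hδ b).le, (tch_lt hδ b).le.trans hδ1⟩,
      msk0_tch hδ hκ hs]
  · rw [mskC_coe hδ hδ1 hκ hΦc hs ⟨hδ.le.trans hx.1, hx.2⟩,
      msk0_of_ge hδ hκ hb' ((tch_lt hδ _).le.trans hx.1)]
  · rw [fourierCoeff_mskC]
    refine (norm_oscI_le hδ hκ n fun b => (hb b).1).trans ?_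
    rw [← hAA, ← hC1]
    exact mul_le_mul_of_nonneg_right (le_max_left _ _) hw.le
  · rw [fourierCoeff_mskC]
    refine (sq_mul_norm_oscI_le hδ hκ n h1 h2 hc2 ha hb' ha1 hb1 (fun b => (hb b).2.1)
      fun b => (hb b).2.2).trans ?_
    rw [← hAA, ← hC2]
    exact div_le_div_of_nonneg_right (le_max_right _ _) hw.le

/-- the profile of the mask of the block `(i,k)` and the template `β` (mesh `s`) -/
noncomputable def mprof (s : ℝ) (i k β : ℤ) (b : ℝ) : ℝ :=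
  hwin (b - i) * hwin (b - k) * hwin ((b - β * s) / s) ^ 2

theorem mprof_c2b {s : ℝ} (hs : 0 < s) (hs1 : s ≤ 1) : ∃ A : ℝ, 0 ≤ A ∧ ∀ i k β : ℤ,
    C2B (mprof s i k β) A := by
  obtain ⟨A, hA1, hA⟩ := hwin_c2b
  refine ⟨4 * (4 * (A / 1 ^ 2 * (A / 1 ^ 2)) * (4 * (A / s ^ 2 * (A / s ^ 2)))), by positivity,
    fun i k β => ?_⟩
  have h1 := hA.comp_aff (i : ℝ) one_pos le_rfl
  have h2 := hA.comp_aff (k : ℝ) one_pos le_rfl
  have h3 := hA.comp_aff ((β : ℝ) * s) hs hs1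
  have := (h1.mul h2).mul (h3.mul h3)
  have e : mprof s i k β = fun x => hwin ((x - i) / 1) * hwin ((x - k) / 1)
      * (hwin ((x - β * s) / s) * hwin ((x - β * s) / s)) := by
    funext x
    simp only [mprof, div_one, sq]
  rw [e]
  exact this

theorem mprof_supp (s : ℝ) (i k β : ℤ) (b : ℝ) (h : 1 < |b - i|) : mprof s i k β b = 0 := by
  unfold mprof
  rw [hwin_eq_zero (by linarith : 9 / 10 ≤ |b - i|)]
  ring

/-- **The masks of all blocks.** -/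
theorem masks_exist {κ s : ℝ} (hκ : 0 < κ) (hs : 0 < s) (hs1 : s ≤ 1) : ∃ C : ℝ, 0 ≤ C ∧
    ∀ δ : ℝ, 0 < δ → δ ≤ 1 → ∃ f : ℤ → ℤ → ℤ → C(UnitAddCircle, ℝ),
      (∀ i k β b, f i k β ((tch δ κ b : ℝ) : UnitAddCircle) = mprof s i k β b) ∧
      (∀ i k β, ∀ x ∈ Set.Icc δ 1, f i k β ((x : ℝ) : UnitAddCircle) = 0) ∧
      (∀ i k β n, ‖fourierCoeff (kkC (f i k β)) n‖ ≤ C * (δ * (2 : ℝ) ^ (-(κ * |(i : ℝ)|)))) ∧
      (∀ i k β, ∀ n : ℤ, (n : ℝ) ^ 2 * ‖fourierCoeff (kkC (f i k β)) n‖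
          ≤ C / (δ * (2 : ℝ) ^ (-(κ * |(i : ℝ)|)))) := by
  obtain ⟨A, -, hA⟩ := mprof_c2b hs hs1
  obtain ⟨C, hC0, hC⟩ := mask_exists hκ A
  refine ⟨C, hC0, fun δ hδ hδ1 => ?_⟩
  choose f hf using fun i k β : ℤ => hC δ (i : ℝ) (mprof s i k β) hδ hδ1 (hA i k β)
    (mprof_supp s i k β)
  exact ⟨f, fun i k β => (hf i k β).1, fun i k β => (hf i k β).2.1,
    fun i k β => (hf i k β).2.2.1, fun i k β => (hf i k β).2.2.2⟩

end Claimed.Agent.R300.Nil
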