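/-
Row 300, KK Section 9.a-9.f: THE BLOCK LAWS, THE ARCS AND THE FROZEN DATA (definitions).     Architect: helper21.

Chart, window and masks are helper36's: `tch δ κ b` (NilChart), `hwin` (NilWinH), `mprof`, `masks_exist`, `kkHom_trunc` (NilMaskC).

One index `β : ℤ` (mesh `s = 1/ns` in the chart variable):
* node `t β = tch δ κ (β s)`, `δ = 1/q`;  first scale `y1 β = (t β)^(1/m)`;  frozen second scale `y2 β = (δ - t β)^(1/m)`;
* second scale of the LAWS: `yY β = (bs β)^(1/m)`, `bs β = δ - t β` if `β s ≥ -Bu`, `bs β = δ` otherwise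
  (so that only `O(ns (Bu + I))` ordinary lists are used in the blocks `i < I`);
* mask of the block `(i, k)` and the index `β`: `f i k β`, with `f i k β (t(b)) = hwin (b - i) hwin (b - k) hwin ((b - β s)/s)²`;
* block law: `β` uniform in `{ns (i - 2), …, ns (i + 2)}`; central power with the Fourier coefficients of the mask (`|n| ≤ K i`);
  `x` uniform in the box of `tpl (y1 β)`; second factor: entry of the ordinary empirical list of `yY β` (`i < I`), or
  (`i ≥ I`) a uniform point of the `Λ_q`-box of `yY β` times an entry of the empirical list of representatives;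
* arcs: `some α = [t α, t (α + 1)]`, `none = [δ, 1]`;  frozen scalars `hh (some α) i = hwin (α s - i)`;
  frozen projection `pp (some α) = kkPP q w Lam (y1 α) (y2 α) (t (α + 1))`, `pp none = 0`.
-/
import Claimed.Agent.R300.KkBox
import Claimed.Agent.R300.NilMaskC

set_option autoImplicit false

namespace Claimed.Agent.R300

open Nil
open scoped ENNReal ComplexConjugate InnerProductSpace Matrix.Norms.L2Operator

/-- All choices entering the block laws (for one value of `ℓ`). -/
structure KkCfg (m q : ℕ) [NeZero q] where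
  κ : ℕ
  ns : ℕ
  Bu : ℕ
  I : ℤ
  w : Win m
  Lam : ℝ
  f : ℤ → ℤ → ℤ → C(UnitAddCircle, ℝ)
  K : ℤ → ℕ
  M : ℕ
  hM : 0 < M
  ωY : ∀ y : ℝ, Fin M → (kkYLaw q w Lam y).Ω
  ωC : Fin M → (kkCqLaw (m := m) q).Ω

namespace KkCfg

variable {m q : ℕ} [NeZero q] (c : KkCfg m q)

/-- length of the window. -/
noncomputable def δ (_ : KkCfg m q) : ℝ := 1 / (q : ℝ)

/-- mesh. -/
noncomputable def s : ℝ := 1 / (c.ns : ℝ)

/-- nodes. -/
noncomputable def t (β : ℤ) : ℝ := tch c.δ c.κ (β * c.s)

/-- first scale. -/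
noncomputable def y1 (β : ℤ) : ℝ := (c.t β) ^ ((m : ℝ)⁻¹)

/-- frozen second scale. -/
noncomputable def y2 (β : ℤ) : ℝ := (c.δ - c.t β) ^ ((m : ℝ)⁻¹)

/-- second magnitude of the laws. -/
noncomputable def bs (β : ℤ) : ℝ := if (β : ℝ) * c.s < -(c.Bu : ℝ) then c.δ else c.δ - c.t β

/-- second scale of the laws. -/
noncomputable def yY (β : ℤ) : ℝ := (c.bs β) ^ ((m : ℝ)⁻¹)

/-- the second factor of the block laws. -/
noncomputable def sec (i β : ℤ) : KkPre (Deck m ℤ) (Idx m → ZMod q) :=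
  if i < c.I then (kkYLaw q c.w c.Lam (c.yY β)).sub c.hM (c.ωY (c.yY β))
  else (kkLamLaw q c.w c.Lam (c.yY β)).mul ((kkCqLaw q).sub c.hM c.ωC)

/-- the law of the block `(i, k)` conditioned on `β`. -/
noncomputable def term (i k β : ℤ) : KkPre (Deck m ℤ) (Idx m → ZMod q) :=
  (kkMaskLaw q (kkC (c.f i k β)) (c.K i)).mul ((kkXLaw q c.w c.Lam (c.y1 β)).mul (c.sec i β))

/-- the index `β` of the `r`-th template of the layer `i`. -/
def idx (i : ℤ) (r : Fin (4 * c.ns + 1)) : ℤ := c.ns * (i - 2) + ((r : ℕ) : ℤ)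

/-- the pre-law of the block `(i, k)`. -/
noncomputable def blk (i k : ℤ) : KkPre (Deck m ℤ) (Idx m → ZMod q) :=
  KkPre.mix fun r : Fin (4 * c.ns + 1) => (c.term i k (c.idx i r)).scale (4 * c.ns + 1 : ℂ)

/-- the arcs and the frozen data. -/
noncomputable def arcs : KkArcData (Deck m ℤ) (Idx m → ZMod q) (Option ℤ) where
  lo := fun α => α.elim c.δ fun a => c.y1 a ^ m
  hi := fun α => α.elim 1 fun a => c.t (a + 1)
  hh := fun α i => α.elim (if i = 0 then 1 else 0) fun a => hwin (a * c.s - i)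
  pp := fun α => α.elim 0 fun a => kkPP q c.w c.Lam (c.y1 a) (c.y2 a) (c.t (a + 1))

/-- the matrices of the ordinary lists. -/
noncomputable def matY (x : ℤ × Fin c.M) : Matrix (Idx m → ZMod q) (Idx m → ZMod q) ℂ :=
  (kkYLaw q c.w c.Lam (c.yY x.1)).R (c.ωY (c.yY x.1) x.2)

/-- the matrices of the list of representatives. -/
noncomputable def matC (j : Fin c.M) : Matrix (Idx m → ZMod q) (Idx m → ZMod q) ℂ :=
  (kkCqLaw (m := m) q).R (c.ωC j)

/-- the matrices of the lists. -/
noncomputable def mats : Finset (Matrix (Idx m → ZMod q) (Idx m → ZMod q) ℂ) :=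
  letI : DecidableEq (Matrix (Idx m → ZMod q) (Idx m → ZMod q) ℂ) := Classical.decEq _
  (((Finset.Icc (-(c.ns * c.Bu : ℤ) - 1) (c.ns * (c.I + 2))) ×ˢ (Finset.univ : Finset (Fin c.M))).disjSum
      (Finset.univ : Finset (Fin c.M))).image (Sum.elim c.matY c.matC)

/-- the alphabet of matrix weights. -/
noncomputable def alphabet (C : ℝ) : Finset (Matrix (Idx m → ZMod q) (Idx m → ZMod q) ℂ) :=
  letI : DecidableEq (Matrix (Idx m → ZMod q) (Idx m → ZMod q) ℂ) := Classical.decEq _
  ((Finset.univ : Finset (Fin 4)) ×ˢ c.mats).image fun x => ((C : ℂ) * kkDir x.1) • x.2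

end KkCfg

end Claimed.Agent.R300
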