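/-
Row 300, KK Section 9: the arcs of a configuration `c : KkCfg m q` (chart facts, `Good`, weighted trace).   Architect: helper21.
Everything about the chart is in NilChart.lean (`tch_pos`, `tch_lt`, `tch_strictMono`, `tch_hasSum`, `tch_sub_le`, `tch_sub_le'`,
`tch_le_mul`, `tch_compl_le_mul`), about the window in NilWinH.lean (`hwin_nonneg`, `hwin_two`).
-/
import Claimed.Agent.R300.KkCfg

set_option autoImplicit false

namespace Claimed.Agent.R300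

open Nil
open scoped ENNReal ComplexConjugate InnerProductSpace Matrix.Norms.L2Operator

namespace KkCfg

variable {m q : ℕ} [NeZero q] (c : KkCfg m q)

theorem δ_pos : 0 < c.δ := by
  have hq : (0 : ℝ) < q := Nat.cast_pos.2 (NeZero.pos q)
  unfold δ
  positivity

theorem δ_le_one : c.δ ≤ 1 := by
  have hq : (1 : ℝ) ≤ q := Nat.one_le_cast.2 (NeZero.pos q)
  unfold δ
  rw [div_le_one (by linarith)]
  exact hq

theorem s_pos (hns : 0 < c.ns) : 0 < c.s := by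
  have h : (0 : ℝ) < c.ns := Nat.cast_pos.2 hns
  unfold s
  positivity

theorem t_pos (β : ℤ) : 0 < c.t β := tch_pos c.δ_pos _

theorem t_lt (β : ℤ) : c.t β < c.δ := tch_lt c.δ_pos _

theorem t_lt_succ (hκ : 0 < c.κ) (hns : 0 < c.ns) (β : ℤ) : c.t β < c.t (β + 1) := by
  unfold t
  apply tch_strictMono c.δ_pos (Nat.cast_pos.2 hκ)
  have := c.s_pos hns
  push_cast
  nlinarith

theorem y1_pos (β : ℤ) : 0 < c.y1 β := by
  exact Real.rpow_pos_of_pos (c.t_pos β) _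

theorem y2_pos (β : ℤ) : 0 < c.y2 β := by
  exact Real.rpow_pos_of_pos (sub_pos.2 (c.t_lt β)) _

theorem y1_pow (hm : 0 < m) (β : ℤ) : c.y1 β ^ m = c.t β := by
  exact Real.rpow_inv_natCast_pow (c.t_pos β).le hm.ne'

theorem y2_pow (hm : 0 < m) (β : ℤ) : c.y2 β ^ m = c.δ - c.t β := by
  exact Real.rpow_inv_natCast_pow (sub_pos.2 (c.t_lt β)).le hm.ne'

theorem bs_pos (β : ℤ) : 0 < c.bs β := by
  unfold bs
  split_ifs
  · exact c.δ_pos
  · exact sub_pos.2 (c.t_lt β)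

theorem bs_le (β : ℤ) : c.bs β ≤ c.δ := by
  unfold bs
  split_ifs
  · exact le_rfl
  · linarith [c.t_pos β]

theorem yY_pos (β : ℤ) : 0 < c.yY β := by
  exact Real.rpow_pos_of_pos (c.bs_pos β) _

theorem yY_pow (hm : 0 < m) (β : ℤ) : c.yY β ^ m = c.bs β := by
  exact Real.rpow_inv_natCast_pow (c.bs_pos β).le hm.ne'

/-- a scale `x^(1/m)` is small as soon as `x` is. -/
theorem kk_root_le {m : ℕ} (hm : 0 < m) {x y : ℝ} (hx : 0 ≤ x) (hy : 0 ≤ y) (h : x ≤ y ^ m) :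
    x ^ ((m : ℝ)⁻¹) ≤ y := by
  calc x ^ ((m : ℝ)⁻¹) ≤ (y ^ m) ^ ((m : ℝ)⁻¹) := Real.rpow_le_rpow hx h (by positivity)
    _ = y := Real.pow_rpow_inv_natCast hy hm.ne'

/-- ratio of scales. -/
theorem kk_log_root {m : ℕ} (hm : 0 < m) {x x' r : ℝ} (hx : 0 < x) (hx' : 0 < x') (hr : 1 ≤ r)
    (h1 : x ≤ r * x') (h2 : x' ≤ r * x) :
    |Real.log (x ^ ((m : ℝ)⁻¹) / x' ^ ((m : ℝ)⁻¹))| ≤ Real.log r := by
  have hm1 : (1 : ℝ) ≤ m := Nat.one_le_cast.2 hm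
  have hr0 : 0 < r := by linarith
  have hlr : 0 ≤ Real.log r := Real.log_nonneg hr
  have e : Real.log (x ^ ((m : ℝ)⁻¹) / x' ^ ((m : ℝ)⁻¹)) = (m : ℝ)⁻¹ * (Real.log x - Real.log x') := by
    rw [Real.log_div (Real.rpow_pos_of_pos hx _).ne' (Real.rpow_pos_of_pos hx' _).ne',
      Real.log_rpow hx, Real.log_rpow hx']
    ring
  have h3 : Real.log x ≤ Real.log r + Real.log x' := by
    rw [← Real.log_mul hr0.ne' hx'.ne']
    exact Real.log_le_log hx h1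
  have h4 : Real.log x' ≤ Real.log r + Real.log x := by
    rw [← Real.log_mul hr0.ne' hx.ne']
    exact Real.log_le_log hx' h2
  have h5 : |Real.log x - Real.log x'| ≤ Real.log r := by
    rw [abs_le]
    constructor <;> linarith
  have hinv0 : 0 ≤ (m : ℝ)⁻¹ := by positivity
  have hinv1 : (m : ℝ)⁻¹ ≤ 1 := inv_le_one_of_one_le₀ hm1
  rw [e, abs_mul, abs_of_nonneg hinv0]
  calc (m : ℝ)⁻¹ * |Real.log x - Real.log x'| ≤ 1 * Real.log r :=
        mul_le_mul hinv1 h5 (abs_nonneg _) zero_le_one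
    _ = Real.log r := one_mul _

/-- the conclusions of `kk_proj` on all arcs. -/
def ProjOk (ε Cp : ℝ) : Prop := ∀ a : ℤ,
  IsStarProjection (kkPP q c.w c.Lam (c.y1 a) (c.y2 a) (c.t (a + 1))) ∧
  (∀ g, Commute (kkPP q c.w c.Lam (c.y1 a) (c.y2 a) (c.t (a + 1))) (specRho g)) ∧
  kkPP q c.w c.Lam (c.y1 a) (c.y2 a) (c.t (a + 1)) * kkQ q (c.y1 a ^ m) (c.t (a + 1))
    = kkPP q c.w c.Lam (c.y1 a) (c.y2 a) (c.t (a + 1)) ∧
  ‖kkPP q c.w c.Lam (c.y1 a) (c.y2 a) (c.t (a + 1))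
      - kkP q c.w c.Lam (c.y1 a) (c.y2 a) * kkQ q (c.y1 a ^ m) (c.t (a + 1))‖ ≤ ε ∧
  specHS (kkPP q c.w c.Lam (c.y1 a) (c.y2 a) (c.t (a + 1)))
    ≤ ENNReal.ofReal (Cp * (q : ℝ) ^ nf m * (c.t (a + 1) - c.y1 a ^ m) * (c.y1 a ^ m) ^ nf m
        * (c.y2 a ^ m) ^ nf m) ∧
  kkPP q c.w c.Lam (c.y1 a) (c.y2 a) (c.t (a + 1)) ≠ 0

/-- the hypotheses of `kk_proj` hold on all arcs: `δ ≤ y0^m` and `2^(κ s) - 1 ≤ u`. -/
theorem projOk_of (hm : 0 < m) (hκ : 0 < c.κ) (hns : 0 < c.ns) (ε y0 u Cp : ℝ) (hy0 : 0 < y0)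
    (hδ : c.δ ≤ y0 ^ m) (hu : (2 : ℝ) ^ ((c.κ : ℝ) * c.s) - 1 ≤ u)
    (H : ∀ (y₁ y₂ hi : ℝ), 0 < y₁ → y₁ ≤ y0 → 0 < y₂ → y₂ ≤ y0 →
      y₁ ^ m + y₂ ^ m = 1 / (q : ℝ) → y₁ ^ m < hi → hi ≤ 1 / (q : ℝ) →
      hi - y₁ ^ m ≤ u * y₁ ^ m → hi - y₁ ^ m ≤ u * y₂ ^ m →
      IsStarProjection (kkPP q c.w c.Lam y₁ y₂ hi) ∧
      (∀ g, Commute (kkPP q c.w c.Lam y₁ y₂ hi) (specRho g)) ∧
      kkPP q c.w c.Lam y₁ y₂ hi * kkQ q (y₁ ^ m) hi = kkPP q c.w c.Lam y₁ y₂ hi ∧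
      ‖kkPP q c.w c.Lam y₁ y₂ hi - kkP q c.w c.Lam y₁ y₂ * kkQ q (y₁ ^ m) hi‖ ≤ ε ∧
      specHS (kkPP q c.w c.Lam y₁ y₂ hi)
        ≤ ENNReal.ofReal (Cp * (q : ℝ) ^ nf m * (hi - y₁ ^ m) * (y₁ ^ m) ^ nf m * (y₂ ^ m) ^ nf m) ∧
      kkPP q c.w c.Lam y₁ y₂ hi ≠ 0) : c.ProjOk ε Cp := by
  intro a
  have hκ' : (0 : ℝ) < c.κ := Nat.cast_pos.2 hκ
  have hs := c.s_pos hns
  have hle : (a : ℝ) * c.s ≤ ((a + 1 : ℤ) : ℝ) * c.s := by
    push_cast
    nlinarith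
  have hdiff : (c.κ : ℝ) * (((a + 1 : ℤ) : ℝ) * c.s - (a : ℝ) * c.s) = (c.κ : ℝ) * c.s := by
    push_cast
    ring
  have hu0 : 0 ≤ (2 : ℝ) ^ ((c.κ : ℝ) * c.s) - 1 := by
    have := Real.one_le_rpow (x := 2) (z := (c.κ : ℝ) * c.s) (by norm_num) (by positivity)
    linarith
  have h1 : c.t (a + 1) - c.t a ≤ u * c.t a := by
    have := tch_sub_le c.δ_pos hκ' hle
    rw [hdiff] at this
    exact this.trans (mul_le_mul_of_nonneg_right hu (c.t_pos a).le)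
  have h2 : c.t (a + 1) - c.t a ≤ u * (c.δ - c.t a) := by
    have := tch_sub_le' c.δ_pos hκ' hle
    rw [hdiff] at this
    refine this.trans ?_
    have h3 : c.δ - c.t (a + 1) ≤ c.δ - c.t a := by linarith [c.t_lt_succ hκ hns a]
    have h4 : 0 ≤ c.δ - c.t a := by linarith [c.t_lt a]
    calc ((2 : ℝ) ^ ((c.κ : ℝ) * c.s) - 1) * (c.δ - c.t (a + 1))
        ≤ ((2 : ℝ) ^ ((c.κ : ℝ) * c.s) - 1) * (c.δ - c.t a) := mul_le_mul_of_nonneg_left h3 hu0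
      _ ≤ u * (c.δ - c.t a) := mul_le_mul_of_nonneg_right hu h4
  refine H (c.y1 a) (c.y2 a) (c.t (a + 1)) (c.y1_pos a) ?_ (c.y2_pos a) ?_ ?_ ?_ ?_ ?_ ?_
  · exact kk_root_le hm (c.t_pos a).le hy0.le ((c.t_lt a).le.trans hδ)
  · exact kk_root_le hm (sub_pos.2 (c.t_lt a)).le hy0.le (by linarith [c.t_pos a])
  · rw [c.y1_pow hm, c.y2_pow hm]
    unfold δ
    ring
  · rw [c.y1_pow hm]
    exact c.t_lt_succ hκ hns a
  · exact (c.t_lt (a + 1)).le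
  · rw [c.y1_pow hm]
    exact h1
  · rw [c.y1_pow hm, c.y2_pow hm]
    exact h2

/-- the arcs are good. -/
theorem arcs_good (hm : 0 < m) (hκ : 0 < c.κ) (hns : 0 < c.ns) (ε Cp : ℝ) (h : c.ProjOk ε Cp) :
    c.arcs.Good Deck.z0 := by
  have hκ' : (0 : ℝ) < c.κ := Nat.cast_pos.2 hκ
  have hs := c.s_pos hns
  have hmono : ∀ a b : ℤ, a ≤ b → c.t a ≤ c.t b := by
    intro a b hab
    apply (tch_strictMono c.δ_pos hκ').monotone
    have : (a : ℝ) ≤ b := by exact_mod_cast hab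
    nlinarith
  refine ⟨?_, ?_, ?_, ?_, ?_, ?_, ?_, ?_, ?_⟩
  · rintro (_ | a)
    · exact c.δ_le_one
    · change c.y1 a ^ m ≤ c.t (a + 1)
      rw [c.y1_pow hm]
      exact (c.t_lt_succ hκ hns a).le
  · rintro (_ | a)
    · exact ⟨c.δ_pos.le, le_rfl⟩
    · refine ⟨?_, ?_⟩
      · change 0 ≤ c.y1 a ^ m
        exact pow_nonneg (c.y1_pos a).le m
      · change c.t (a + 1) ≤ 1
        exact (c.t_lt (a + 1)).le.trans c.δ_le_one
  · rintro (_ | a) (_ | b) hab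
    · exact absurd rfl hab
    · right
      exact (c.t_lt (b + 1)).le
    · left
      exact (c.t_lt (a + 1)).le
    · have hab' : a ≠ b := fun e => hab (by rw [e])
      rcases lt_or_gt_of_ne hab' with hlt | hlt
      · left
        change c.t (a + 1) ≤ c.y1 b ^ m
        rw [c.y1_pow hm]
        exact hmono _ _ hlt
      · right
        change c.t (b + 1) ≤ c.y1 a ^ m
        rw [c.y1_pow hm]
        exact hmono _ _ hlt
  · have h1 : HasSum (fun α : Option ℤ => α.elim (0 : ℝ) fun a => c.t (a + 1) - c.t a) c.δ := by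
      have hinj : Function.Injective (some : ℤ → Option ℤ) := Option.some_injective _
      refine (hinj.hasSum_iff ?_).1 ?_
      · rintro (_ | a) hx
        · rfl
        · exact absurd ⟨a, rfl⟩ hx
      · have h0 := tch_hasSum (κ := (c.κ : ℝ)) c.δ_pos hκ' hs
        have e : ((fun α : Option ℤ => α.elim (0 : ℝ) fun a => c.t (a + 1) - c.t a) ∘ some)
            = fun α : ℤ => tch c.δ c.κ (((α : ℝ) + 1) * c.s) - tch c.δ c.κ ((α : ℝ) * c.s) := by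
          funext a
          simp only [Function.comp_apply, Option.elim_some, t, Int.cast_add, Int.cast_one]
        rw [e]
        exact h0
    have h2 : HasSum (fun α : Option ℤ => if α = none then 1 - c.δ else 0) (1 - c.δ) :=
      hasSum_ite_eq none (1 - c.δ)
    have h3 := h1.add h2
    have e1 : c.δ + (1 - c.δ) = 1 := by ring
    rw [e1] at h3
    refine h3.congr_fun ?_
    rintro (_ | a)
    · change (1 : ℝ) - c.δ = 0 + (if (none : Option ℤ) = none then 1 - c.δ else 0)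
      simp
    · change c.t (a + 1) - c.y1 a ^ m = (c.t (a + 1) - c.t a) + (if (some a : Option ℤ) = none then 1 - c.δ else 0)
      rw [c.y1_pow hm]
      simp
  · rintro (_ | a) i
    · change (0 : ℝ) ≤ if i = 0 then 1 else 0
      split_ifs <;> norm_num
    · exact hwin_nonneg _
  · rintro (_ | a)
    · refine ⟨0, ?_, ?_⟩
      · intro i hi _
        change (if i = 0 then (1 : ℝ) else 0) = 0
        rw [if_neg hi]
      · change (if (0 : ℤ) = 0 then (1 : ℝ) else 0) ^ 2 + (if (0 + 1 : ℤ) = 0 then (1 : ℝ) else 0) ^ 2 = 1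
        norm_num
    · exact ⟨⌊(a : ℝ) * c.s⌋, hwin_two _⟩
  · rintro (_ | a)
    · exact IsStarProjection.zero _
    · exact (h a).1
  · rintro (_ | a) g
    · exact Commute.zero_left _
    · exact (h a).2.1 g
  · rintro (_ | a)
    · exact zero_mul _
    · exact (h a).2.2.1

/-- weighted trace. -/
theorem arcs_trace (hm : 0 < m) (hκ : 0 < c.κ) (hns : 0 < c.ns) (ε Cp : ℝ) (h : c.ProjOk ε Cp)
    (wt : ℤ → ℝ) (hwt : ∀ i, 0 ≤ wt i) (μ₀ : ℝ)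
    (hnum : ∀ a i : ℤ, hwin (a * c.s - i) ≠ 0 →
      wt i * (Cp * (q : ℝ) ^ nf m * (c.t a) ^ nf m * (c.δ - c.t a) ^ nf m) ≤ μ₀) :
    ∀ α i, c.arcs.hh α i ≠ 0 →
      ENNReal.ofReal (wt i) * specHS (c.arcs.pp α) ≤ ENNReal.ofReal (μ₀ * (c.arcs.hi α - c.arcs.lo α)) := by
  rintro (_ | a) i hi
  · change ENNReal.ofReal (wt i) * specHS (0 : ScL2 (Deck m ℤ × (Idx m → ZMod q)) →L[ℂ] _) ≤ _
    have : specHS (0 : ScL2 (Deck m ℤ × (Idx m → ZMod q)) →L[ℂ] ScL2 (Deck m ℤ × (Idx m → ZMod q))) = 0 := by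
      simp [specHS]
    rw [this, mul_zero]
    exact zero_le
  · have hi' : hwin (a * c.s - i) ≠ 0 := hi
    have h5 := (h a).2.2.2.2.1
    rw [c.y1_pow hm, c.y2_pow hm] at h5
    change ENNReal.ofReal (wt i) * specHS (kkPP q c.w c.Lam (c.y1 a) (c.y2 a) (c.t (a + 1)))
      ≤ ENNReal.ofReal (μ₀ * (c.t (a + 1) - c.y1 a ^ m))
    rw [c.y1_pow hm]
    refine (mul_le_mul_right h5 _).trans ?_
    rw [← ENNReal.ofReal_mul (hwt i)]
    apply ENNReal.ofReal_le_ofReal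
    have h6 : 0 ≤ c.t (a + 1) - c.t a := by linarith [c.t_lt_succ hκ hns a]
    calc wt i * (Cp * (q : ℝ) ^ nf m * (c.t (a + 1) - c.t a) * (c.t a) ^ nf m * (c.δ - c.t a) ^ nf m)
        = (wt i * (Cp * (q : ℝ) ^ nf m * (c.t a) ^ nf m * (c.δ - c.t a) ^ nf m)) * (c.t (a + 1) - c.t a) := by
          ring
      _ ≤ μ₀ * (c.t (a + 1) - c.t a) := mul_le_mul_of_nonneg_right (hnum a i hi') h6

theorem arcs_ne_zero (ε Cp : ℝ) (h : c.ProjOk ε Cp) : ∃ α, c.arcs.pp α ≠ 0 :=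
  ⟨some 0, (h 0).2.2.2.2.2⟩

end KkCfg

end Claimed.Agent.R300
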