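/-
Row 300, KK Section 9.e-9.f: bookkeeping for the block pre-laws `c.blk i k` of a configuration: scalars, matrices (finite
alphabet), voltages (coordinate bounds), anti-concentration.     Architect: helper21.
All proofs unfold `blk = mix (scale (mask.mul (X.mul sec)))`, `sec = Y.sub ωY` or `Lam.mul (Cq.sub ωC)`, and use KkPre / KkBox.
-/
import Claimed.Agent.R300.KkCfgArc

set_option autoImplicit false

namespace Claimed.Agent.R300

open Nil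
open scoped ENNReal ComplexConjugate InnerProductSpace Matrix.Norms.L2Operator

namespace KkCfg

variable {m q : ℕ} [NeZero q] (c : KkCfg m q)

theorem idx_mul_s (hns : 0 < c.ns) (i : ℤ) (r : Fin (4 * c.ns + 1)) :
    ((c.idx i r : ℤ) : ℝ) * c.s - i = ((r : ℕ) : ℝ) / c.ns - 2 := by
  have h : (c.ns : ℝ) ≠ 0 := by exact_mod_cast hns.ne'
  unfold idx s
  push_cast
  field_simp
  ring

/-- position of the templates of the layer `i`. -/
theorem idx_mem (hns : 0 < c.ns) (i : ℤ) (r : Fin (4 * c.ns + 1)) :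
    |((c.idx i r : ℤ) : ℝ) * c.s - i| ≤ 2 := by
  have h : (0 : ℝ) < c.ns := by exact_mod_cast hns
  rw [idx_mul_s c hns, abs_le]
  have h1 : (0 : ℝ) ≤ ((r : ℕ) : ℝ) / c.ns := by positivity
  have h2 : ((r : ℕ) : ℝ) / c.ns ≤ 4 := by
    rw [div_le_iff₀ h]
    have := r.2
    have h3 : (r : ℕ) ≤ 4 * c.ns := by omega
    exact_mod_cast h3
  constructor <;> linarith

/-- every index within distance `2` of the layer is one of its templates. -/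
theorem exists_idx (hns : 0 < c.ns) (i β : ℤ) (h : |(β : ℝ) * c.s - i| ≤ 2) : ∃ r, c.idx i r = β := by
  have h0 : (0 : ℝ) < c.ns := by exact_mod_cast hns
  rw [abs_le] at h
  unfold s at h
  have e : (β : ℝ) * (1 / (c.ns : ℝ)) = β / c.ns := by ring
  rw [e] at h
  have h1 : ((c.ns : ℤ) * (i - 2) : ℤ) ≤ β := by
    have : ((i : ℝ) - 2) ≤ β / c.ns := by linarith [h.1]
    rw [le_div_iff₀ h0] at this
    have h2 : (((c.ns : ℤ) * (i - 2) : ℤ) : ℝ) ≤ (β : ℝ) := by push_cast; linarith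
    exact_mod_cast h2
  have h2 : β ≤ ((c.ns : ℤ) * (i + 2) : ℤ) := by
    have : (β : ℝ) / c.ns ≤ (i : ℝ) + 2 := by linarith [h.2]
    rw [div_le_iff₀ h0] at this
    have h2 : (β : ℝ) ≤ (((c.ns : ℤ) * (i + 2) : ℤ) : ℝ) := by push_cast; linarith
    exact_mod_cast h2
  refine ⟨⟨(β - (c.ns : ℤ) * (i - 2)).toNat, ?_⟩, ?_⟩
  · have : β - (c.ns : ℤ) * (i - 2) ≤ 4 * c.ns := by linarith
    omega
  · unfold idx
    show (c.ns : ℤ) * (i - 2) + (((β - (c.ns : ℤ) * (i - 2)).toNat : ℕ) : ℤ) = β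
    rw [Int.toNat_of_nonneg (by linarith)]
    ring

theorem idx_injective (i : ℤ) : Function.Injective (c.idx i) := by
  intro r r' h
  unfold idx at h
  ext
  omega

/-! ### scalars -/

theorem sec_of_lt {i : ℤ} (h : i < c.I) (β : ℤ) :
    c.sec i β = (kkYLaw q c.w c.Lam (c.yY β)).sub c.hM (c.ωY (c.yY β)) := if_pos h

theorem sec_of_le {i : ℤ} (h : c.I ≤ i) (β : ℤ) :
    c.sec i β = (kkLamLaw q c.w c.Lam (c.yY β)).mul ((kkCqLaw q).sub c.hM c.ωC) :=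
  if_neg (not_lt.2 h)

theorem sec_c_le (BS : ℝ) (i β : ℤ)
    (hY : i < c.I → ∀ a, ‖(kkYLaw q c.w c.Lam (c.yY β)).c a‖ ≤ BS)
    (hL : c.I ≤ i → ∀ a, ‖(kkLamLaw q c.w c.Lam (c.yY β)).c a‖ ≤ BS) (a : (c.sec i β).Ω) :
    ‖(c.sec i β).c a‖ ≤ BS := by
  rcases lt_or_ge i c.I with h | h
  · revert a
    rw [sec_of_lt c h]
    intro a
    exact hY h _
  · revert a
    rw [sec_of_le c h]
    intro a
    show ‖(kkLamLaw q c.w c.Lam (c.yY β)).c a.1 * 1‖ ≤ BS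
    rw [mul_one]
    exact hL h _

theorem sec_R_norm_le (i β : ℤ) (a : (c.sec i β).Ω) : ‖(c.sec i β).R a‖ ≤ 1 := by
  rcases lt_or_ge i c.I with h | h
  · revert a
    rw [sec_of_lt c h]
    intro a
    exact kk_Rq_norm_le q _
  · revert a
    rw [sec_of_le c h]
    intro a
    show ‖(1 : Matrix (Idx m → ZMod q) (Idx m → ZMod q) ℂ) * Rq q _‖ ≤ 1
    rw [one_mul]
    exact kk_Rq_norm_le q _

theorem blk_c_le (Bm BX BS : ℝ) (hBm : 0 ≤ Bm) (hBX : 0 ≤ BX) (i k : ℤ)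
    (hm : ∀ r a, ‖(kkMaskLaw (m := m) q (kkC (c.f i k (c.idx i r))) (c.K i)).c a‖ ≤ Bm)
    (hX : ∀ r a, ‖(kkXLaw q c.w c.Lam (c.y1 (c.idx i r))).c a‖ ≤ BX)
    (hS : ∀ r a, ‖(c.sec i (c.idx i r)).c a‖ ≤ BS) (a : (c.blk i k).Ω) :
    ‖(c.blk i k).c a‖ ≤ (4 * c.ns + 1) * (Bm * (BX * BS)) := by
  obtain ⟨r, a1, a2, a3⟩ := a
  show ‖(4 * c.ns + 1 : ℂ) * ((kkMaskLaw (m := m) q (kkC (c.f i k (c.idx i r))) (c.K i)).c a1 *
    ((kkXLaw q c.w c.Lam (c.y1 (c.idx i r))).c a2 * (c.sec i (c.idx i r)).c a3))‖ ≤ _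
  rw [norm_mul, norm_mul, norm_mul]
  have h1 : ‖(4 * c.ns + 1 : ℂ)‖ = 4 * c.ns + 1 := by
    have : (4 * c.ns + 1 : ℂ) = ((4 * c.ns + 1 : ℕ) : ℂ) := by push_cast; rfl
    rw [this, Complex.norm_natCast]
    push_cast; rfl
  rw [h1]
  refine mul_le_mul_of_nonneg_left ?_ (by positivity)
  refine mul_le_mul (hm r a1) ?_ (by positivity) hBm
  exact mul_le_mul (hX r a2) (hS r a3) (norm_nonneg _) hBX

theorem kk_re_im_le (z : ℂ) : |z.re| + |z.im| ≤ 2 * ‖z‖ := by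
  have h1 := Complex.abs_re_le_norm z
  have h2 := Complex.abs_im_le_norm z
  linarith

/-! ### matrices -/

theorem bs_of_lt (hns : 0 < c.ns) (β : ℤ) (h : β < -(c.ns * c.Bu : ℤ)) : c.bs β = c.δ := by
  have h0 : (0 : ℝ) < c.ns := by exact_mod_cast hns
  unfold bs
  rw [if_pos]
  unfold s
  rw [mul_one_div, div_lt_iff₀ h0]
  have : (β : ℝ) < ((-(c.ns * c.Bu : ℤ) : ℤ) : ℝ) := by exact_mod_cast h
  push_cast at this
  linarith

theorem yY_clip (hns : 0 < c.ns) (β : ℤ) (h : β < -(c.ns * c.Bu : ℤ) - 1) :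
    c.yY β = c.yY (-(c.ns * c.Bu : ℤ) - 1) := by
  unfold yY
  rw [bs_of_lt c hns β (by linarith), bs_of_lt c hns _ (by linarith)]

theorem mem_mats (R : Matrix (Idx m → ZMod q) (Idx m → ZMod q) ℂ) : R ∈ c.mats ↔
    ∃ x ∈ (((Finset.Icc (-(c.ns * c.Bu : ℤ) - 1) (c.ns * (c.I + 2))) ×ˢ
      (Finset.univ : Finset (Fin c.M))).disjSum (Finset.univ : Finset (Fin c.M))),
      Sum.elim c.matY c.matC x = R := by
  letI : DecidableEq (Matrix (Idx m → ZMod q) (Idx m → ZMod q) ℂ) := Classical.decEq _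
  exact Finset.mem_image

theorem mem_alphabet (C : ℝ) (W : Matrix (Idx m → ZMod q) (Idx m → ZMod q) ℂ) : W ∈ c.alphabet C ↔
    ∃ x ∈ (Finset.univ : Finset (Fin 4)) ×ˢ c.mats, ((C : ℂ) * kkDir x.1) • x.2 = W := by
  letI : DecidableEq (Matrix (Idx m → ZMod q) (Idx m → ZMod q) ℂ) := Classical.decEq _
  exact Finset.mem_image

theorem matY_mem (hns : 0 < c.ns) (hI : 0 ≤ c.I) (β : ℤ) (hβ : β ≤ c.ns * (c.I + 2)) (j : Fin c.M) :
    (kkYLaw q c.w c.Lam (c.yY β)).R (c.ωY (c.yY β) j) ∈ c.mats := by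
  rw [mem_mats]
  rcases lt_or_ge β (-(c.ns * c.Bu : ℤ) - 1) with h | h
  · refine ⟨Sum.inl (-(c.ns * c.Bu : ℤ) - 1, j), ?_, ?_⟩
    · rw [Finset.inl_mem_disjSum, Finset.mem_product, Finset.mem_Icc]
      refine ⟨⟨le_refl _, ?_⟩, Finset.mem_univ _⟩
      have h1 : (0 : ℤ) ≤ c.ns * c.Bu := by positivity
      have h2 : (0 : ℤ) ≤ c.ns * (c.I + 2) := by positivity
      show -(c.ns * c.Bu : ℤ) - 1 ≤ c.ns * (c.I + 2)
      linarith
    · show (kkYLaw q c.w c.Lam (c.yY (-(c.ns * c.Bu : ℤ) - 1))).R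
        (c.ωY (c.yY (-(c.ns * c.Bu : ℤ) - 1)) j) = _
      rw [← yY_clip c hns β h]
  · refine ⟨Sum.inl (β, j), ?_, rfl⟩
    rw [Finset.inl_mem_disjSum, Finset.mem_product, Finset.mem_Icc]
    exact ⟨⟨h, hβ⟩, Finset.mem_univ _⟩

theorem matC_mem (j : Fin c.M) : (kkCqLaw (m := m) q).R (c.ωC j) ∈ c.mats := by
  rw [mem_mats]
  exact ⟨Sum.inr j, by rw [Finset.inr_mem_disjSum]; exact Finset.mem_univ _, rfl⟩

theorem sec_R_mem (hns : 0 < c.ns) (hI : 0 ≤ c.I) (i β : ℤ) (hβ : β ≤ c.ns * (i + 2))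
    (a : (c.sec i β).Ω) : (c.sec i β).R a ∈ c.mats := by
  rcases lt_or_ge i c.I with h | h
  · revert a
    rw [sec_of_lt c h]
    intro a
    refine matY_mem c hns hI β (hβ.trans ?_) a
    have : (0 : ℤ) ≤ c.ns := by positivity
    nlinarith
  · revert a
    rw [sec_of_le c h]
    intro a
    show (1 : Matrix (Idx m → ZMod q) (Idx m → ZMod q) ℂ) * (kkCqLaw (m := m) q).R (c.ωC a.2) ∈ c.mats
    rw [one_mul]
    exact matC_mem c _

theorem blk_R_mem (hns : 0 < c.ns) (hI : 0 ≤ c.I) (i k : ℤ) (a : (c.blk i k).Ω) :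
    (c.blk i k).R a ∈ c.mats := by
  obtain ⟨r, a1, a2, a3⟩ := a
  show (1 : Matrix (Idx m → ZMod q) (Idx m → ZMod q) ℂ) *
    ((1 : Matrix (Idx m → ZMod q) (Idx m → ZMod q) ℂ) * (c.sec i (c.idx i r)).R a3) ∈ c.mats
  rw [one_mul, one_mul]
  refine sec_R_mem c hns hI i _ ?_ a3
  unfold idx
  have := r.2
  have h3 : (((r : ℕ) : ℤ)) ≤ 4 * c.ns := by omega
  linarith

theorem mats_norm_le (R : Matrix (Idx m → ZMod q) (Idx m → ZMod q) ℂ) (h : R ∈ c.mats) : ‖R‖ ≤ 1 := by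
  rw [mem_mats] at h
  obtain ⟨x, -, rfl⟩ := h
  rcases x with x | x
  · exact kk_Rq_norm_le q _
  · exact kk_Rq_norm_le q _

theorem mats_card_le (hI : 0 ≤ c.I) :
    (c.mats.card : ℝ) ≤ ((c.ns : ℝ) * (c.Bu + c.I + 2) + 3) * c.M := by
  letI : DecidableEq (Matrix (Idx m → ZMod q) (Idx m → ZMod q) ℂ) := Classical.decEq _
  have h1 : c.mats.card ≤ (((Finset.Icc (-(c.ns * c.Bu : ℤ) - 1) (c.ns * (c.I + 2))) ×ˢ
      (Finset.univ : Finset (Fin c.M))).disjSum (Finset.univ : Finset (Fin c.M))).card := by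
    unfold mats
    exact Finset.card_image_le
  rw [Finset.card_disjSum, Finset.card_product, Finset.card_univ, Fintype.card_fin,
    Int.card_Icc] at h1
  have h2 : (0 : ℤ) ≤ c.ns * (c.I + 2) + 1 - (-(c.ns * c.Bu : ℤ) - 1) := by
    have h1 : (0 : ℤ) ≤ c.ns * c.Bu := by positivity
    have h2 : (0 : ℤ) ≤ c.ns * (c.I + 2) := by positivity
    linarith
  have h3 : (((c.ns * (c.I + 2) + 1 - (-(c.ns * c.Bu : ℤ) - 1)).toNat : ℕ) : ℝ)
      = (c.ns : ℝ) * (c.Bu + c.I + 2) + 2 := by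
    have : (((c.ns * (c.I + 2) + 1 - (-(c.ns * c.Bu : ℤ) - 1)).toNat : ℕ) : ℤ)
        = c.ns * (c.I + 2) + 1 - (-(c.ns * c.Bu : ℤ) - 1) := Int.toNat_of_nonneg h2
    have h4 := congrArg (fun z : ℤ => (z : ℝ)) this
    simp only [Int.cast_natCast] at h4
    rw [h4]
    push_cast
    ring
  have h5 : (c.mats.card : ℝ) ≤ (((c.ns * (c.I + 2) + 1 - (-(c.ns * c.Bu : ℤ) - 1)).toNat * c.M + c.M : ℕ) : ℝ) := by
    exact_mod_cast h1
  refine h5.trans (le_of_eq ?_)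
  push_cast
  rw [h3]
  ring

theorem alphabet_card_le (C : ℝ) : (c.alphabet C).card ≤ 4 * c.mats.card := by
  letI : DecidableEq (Matrix (Idx m → ZMod q) (Idx m → ZMod q) ℂ) := Classical.decEq _
  unfold alphabet
  refine Finset.card_image_le.trans ?_
  rw [Finset.card_product, Finset.card_univ, Fintype.card_fin]

theorem alphabet_norm_le (C : ℝ) (hC : 0 ≤ C) (W : Matrix (Idx m → ZMod q) (Idx m → ZMod q) ℂ)
    (h : W ∈ c.alphabet C) : ‖W‖ ≤ C := by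
  rw [mem_alphabet] at h
  obtain ⟨x, hx, rfl⟩ := h
  rw [Finset.mem_product] at hx
  rw [norm_smul, norm_mul, kkDir_norm, mul_one, Complex.norm_real, Real.norm_eq_abs,
    abs_of_nonneg hC]
  calc C * ‖x.2‖ ≤ C * 1 := mul_le_mul_of_nonneg_left (mats_norm_le c _ hx.2) hC
    _ = C := mul_one C

theorem toLaw_W_mem (hns : 0 < c.ns) (hI : 0 ≤ c.I) (i k : ℤ) (C : ℝ) (hC : 0 < C)
    (hc : ∀ a, |((c.blk i k).c a).re| + |((c.blk i k).c a).im| ≤ C)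
    (x : ((c.blk i k).toLaw C hC hc).Ω) : ((c.blk i k).toLaw C hC hc).W x ∈ c.alphabet C := by
  rw [mem_alphabet]
  exact ⟨(x.2, (c.blk i k).R x.1),
    Finset.mem_product.2 ⟨Finset.mem_univ _, blk_R_mem c hns hI i k x.1⟩, rfl⟩

/-! ### anti-concentration -/

theorem blk_wide_X (i k : ℤ) (κ' : ℝ) (h : ∀ r, c.y1 (c.idx i r) ≤ κ' ∧ c.y1 (c.idx i r) ≤ 1) :
    (c.blk i k).Wide (fun z => z.gX.bet) κ' := by
  refine KkPre.Wide.mix fun r => KkPre.Wide.scale ?_ _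
  refine KkPre.Wide.mul_right (fun _ _ => rfl) ?_ _
  refine KkPre.Wide.mul_left (fun _ _ => rfl) ?_ _
  exact kkXLaw_wide q c.w c.Lam _ κ' (c.y1_pos _) (h r).2 (h r).1

theorem blk_wide_Y (i k : ℤ) (hi : c.I ≤ i) (κ' : ℝ)
    (h : ∀ r, (q : ℝ) * c.yY (c.idx i r) ≤ κ' ∧ c.yY (c.idx i r) ≤ 1) :
    (c.blk i k).Wide (fun z => z.gY.bet) κ' := by
  refine KkPre.Wide.mix fun r => KkPre.Wide.scale ?_ _
  refine KkPre.Wide.mul_right (fun _ _ => rfl) ?_ _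
  refine KkPre.Wide.mul_right (fun _ _ => rfl) ?_ _
  rw [sec_of_le c hi]
  refine KkPre.Wide.mul_left (fun _ _ => rfl) ?_ _
  exact kkLamLaw_wide q c.w c.Lam _ κ' (c.yY_pos _) (h r).2 (h r).1

end KkCfg

/-! ### voltages -/

theorem kk_deck_cbound_mono {m : ℕ} {g : Deck m ℤ} {M M' : ℝ} (h : g.CBound M) (hM : M ≤ M') :
    g.CBound M' :=
  ⟨h.1.mono hM, h.2.1.mono hM, h.2.2.trans hM⟩

theorem kk_ebar_one_cbound {m : ℕ} {M : ℝ} (hM : 0 ≤ M) : (1 : EBar m ℤ).CBound M :=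
  ⟨fun p => by simpa using hM, fun p => by simpa using hM⟩

/-- the voltages of the second factor. -/
theorem kk_sec_cbound {m q : ℕ} [NeZero q] (c : KkCfg m q) (C1 : ℝ) (hC1 : 1 ≤ C1)
    (hmul : ∀ (g h : Deck m ℤ) (M : ℝ), 1 ≤ M → g.CBound M → h.CBound M → (g * h).CBound (C1 * M ^ 2))
    (i β : ℤ) (Mb : ℝ) (hMb : 1 ≤ Mb) (hL : 0 < c.Lam) (hq : (q : ℝ) ≤ Mb) (hy1 : c.yY β ≤ 1)
    (hy : (2 * c.Lam + R0 m + 1) / c.yY β ^ m ≤ Mb) (a : (c.sec i β).Ω) :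
    ((c.sec i β).z a).CBound (C1 * (2 * Mb) ^ 2) := by
  have hM0 : 1 ≤ 2 * Mb := by linarith
  have hle : 2 * Mb ≤ C1 * (2 * Mb) ^ 2 := by nlinarith
  have hq1 : (1 : ℝ) ≤ q := by exact_mod_cast NeZero.one_le
  rcases lt_or_ge i c.I with h | h
  · revert a
    rw [c.sec_of_lt h]
    intro a
    have h1 := kkBoxPt_cbound c.Lam 1 (c.yY β) 1 (by simp) hL le_rfl (c.yY_pos β) hy1
      (c.ωY (c.yY β) a)
    rw [Nat.cast_one] at h1
    refine kk_deck_cbound_mono (deck_sigY_cbound _ _ (by linarith) (h1.mono ?_)) hle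
    linarith
  · revert a
    rw [c.sec_of_le h]
    intro a
    have h1 := kkBoxPt_cbound c.Lam q (c.yY β) q rfl hL hq1 (c.yY_pos β) hy1 a.1
    have h2 := kkRep_cbound q (c.ωC a.2)
    refine hmul _ _ _ hM0 (deck_sigY_cbound _ _ (by linarith) (h1.mono ?_))
      (deck_sigY_cbound _ _ (by linarith) (h2.mono ?_))
    · linarith
    · linarith

/-- **Coordinate bounds**: polynomial in the bound `Mb` of the factors. -/
theorem kk_blk_cbound (m : ℕ) : ∃ (C : ℝ) (e : ℕ), 1 ≤ C ∧ ∀ (q : ℕ) [NeZero q] (c : KkCfg m q) (i k : ℤ) (Mb : ℝ),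
    1 ≤ Mb → 0 < c.Lam → (c.K i : ℝ) ≤ Mb → (q : ℝ) ≤ Mb →
    (∀ r, c.y1 (c.idx i r) ≤ 1 ∧ c.yY (c.idx i r) ≤ 1 ∧
      (2 * c.Lam + R0 m + 1) / c.y1 (c.idx i r) ^ m ≤ Mb ∧
      (2 * c.Lam + R0 m + 1) / c.yY (c.idx i r) ^ m ≤ Mb) →
    ∀ a, ((c.blk i k).z a).CBound (C * Mb ^ e) ∧ ((c.blk i k).z a)⁻¹.CBound (C * Mb ^ e) := by
  obtain ⟨Cm, hmul0⟩ := nil_cbound_mul m
  obtain ⟨Ci, k0, hinv0⟩ := nil_cbound_inv m
  set C1 : ℝ := max Cm 1 with hC1def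
  set C2 : ℝ := max Ci 1 with hC2def
  have hC1 : 1 ≤ C1 := le_max_right _ _
  have hC2 : 1 ≤ C2 := le_max_right _ _
  have hmul : ∀ (g h : Deck m ℤ) (M : ℝ), 1 ≤ M → g.CBound M → h.CBound M →
      (g * h).CBound (C1 * M ^ 2) := fun g h M hM hg hh =>
    kk_deck_cbound_mono (hmul0 g h M hM hg hh)
      (mul_le_mul_of_nonneg_right (le_max_left _ _) (by positivity))
  have hinv : ∀ (g : Deck m ℤ) (M : ℝ), 1 ≤ M → g.CBound M → g⁻¹.CBound (C2 * M ^ k0) :=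
    fun g M hM hg => kk_deck_cbound_mono (hinv0 g M hM hg)
      (mul_le_mul_of_nonneg_right (le_max_left _ _) (by positivity))
  have hD : (1 : ℝ) ≤ C1 ^ 7 * 2 ^ 8 := by
    have : (1 : ℝ) ≤ C1 ^ 7 := one_le_pow₀ hC1
    nlinarith
  refine ⟨C2 * (C1 ^ 7 * 2 ^ 8) ^ (k0 + 1), 8 * (k0 + 1), ?_, ?_⟩
  · have : (1 : ℝ) ≤ (C1 ^ 7 * 2 ^ 8) ^ (k0 + 1) := one_le_pow₀ hD
    nlinarith
  intro q _ c i k Mb hMb hL hK hq hy a
  obtain ⟨r, a1, a2, a3⟩ := a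
  obtain ⟨hy1, hyY, hb1, hbY⟩ := hy r
  have hM0 : 1 ≤ 2 * Mb := by linarith
  set M1 : ℝ := C1 * (2 * Mb) ^ 2 with hM1
  have hM01 : 2 * Mb ≤ M1 := by rw [hM1]; nlinarith
  have hM1' : 1 ≤ M1 := hM0.trans hM01
  set M2 : ℝ := C1 * M1 ^ 2 with hM2
  have hM12 : M1 ≤ M2 := by rw [hM2]; nlinarith
  have hM2' : 1 ≤ M2 := hM1'.trans hM12
  set M3 : ℝ := C1 * M2 ^ 2 with hM3
  have hM23 : M2 ≤ M3 := by rw [hM3]; nlinarith
  have hM3' : 1 ≤ M3 := hM2'.trans hM23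
  -- the three factors
  have hs : ((c.sec i (c.idx i r)).z a3).CBound M1 :=
    kk_sec_cbound c C1 hC1 hmul i _ Mb hMb hL hq hyY hbY a3
  have hX : ((kkXLaw q c.w c.Lam (c.y1 (c.idx i r))).z a2).CBound M1 := by
    have h1 := kkBoxPt_cbound c.Lam 1 (c.y1 (c.idx i r)) 1 (by simp) hL le_rfl (c.y1_pos _) hy1 a2
    rw [Nat.cast_one] at h1
    refine kk_deck_cbound_mono (deck_sigX_cbound _ _ (by linarith) (h1.mono ?_)) hM01
    linarith
  have hm : ((kkMaskLaw (m := m) q (kkC (c.f i k (c.idx i r))) (c.K i)).z a1).CBound M2 := by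
    obtain ⟨e1, e2, e3⟩ := kkMaskLaw_z q (kkC (c.f i k (c.idx i r))) (c.K i) a1
    refine ⟨?_, ?_, ?_⟩
    · rw [e1]; exact kk_ebar_one_cbound (by linarith)
    · rw [e2]; exact kk_ebar_one_cbound (by linarith)
    · linarith
  have hz : ((c.blk i k).z ⟨r, a1, a2, a3⟩).CBound M3 :=
    hmul _ _ _ hM2' hm (hmul _ _ _ hM1' hX hs)
  have hfin : C2 * (C1 ^ 7 * 2 ^ 8) ^ (k0 + 1) * Mb ^ (8 * (k0 + 1)) = C2 * M3 ^ (k0 + 1) := by
    have : M3 = C1 ^ 7 * 2 ^ 8 * Mb ^ 8 := by rw [hM3, hM2, hM1]; ring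
    rw [this, mul_pow (C1 ^ 7 * 2 ^ 8), ← pow_mul Mb]
    ring
  rw [hfin]
  have hp : M3 ^ k0 ≤ M3 ^ (k0 + 1) := pow_le_pow_right₀ hM3' (Nat.le_succ _)
  have hp1 : M3 ≤ M3 ^ (k0 + 1) := by
    calc M3 = M3 ^ 1 := (pow_one _).symm
      _ ≤ M3 ^ (k0 + 1) := pow_le_pow_right₀ hM3' (by omega)
  have hp0 : 0 ≤ M3 ^ (k0 + 1) := by positivity
  constructor
  · refine kk_deck_cbound_mono hz ?_
    nlinarith
  · refine kk_deck_cbound_mono (hinv _ _ hM3' hz) ?_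
    exact mul_le_mul_of_nonneg_left hp (by linarith)

end Claimed.Agent.R300
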