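/-
Row 300, KK Section 9.b-9.f in LOCAL form: on every arc the mean of the block law is close to `h_i h_k p`.   Architect: helper21.
Proofs: helper36.

`Mean_ik = ∑_r F'_r A_r B_r`, `β = idx i r`, `F'_r` = truncated mask (`kkMaskLaw.meanOp`), `A_r = LX(tpl (y1 β))`, `B_r = (sec i β).meanOp`.
On the arc `some a = [t a, t (a+1)]`, `Q` = its sharp projection (commutes with everything here), `F_β = f i k β (Z)`:
 1. `‖∑ (F'_r - F_r) A_r B_r‖ ≤ (4 ns + 1) ε₁ C₁ CB`.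
 2. `F_β Q = 0` unless `β ∈ {a, a+1}` (a point of the arc is `tch b`, `b ∈ [a s, (a+1) s]`, `tch_surj_Icc`; `hwin_eq_zero`), and also if
    `|β s - i| > 2`;  `‖F_β‖ ≤ 1`;  `‖F_β (A_β B_β - P) Q‖ ≤ ε₂` for the two active indices (`P = kkP (y1 a) (y2 a)`).
 3. `(F_a + F_(a+1)) Q` is within `2 A s` of `hwin (a s - i) hwin (a s - k) Q` (`hwin_sq_add`, Lipschitz, `kkHom_frozen`).
 4. `‖P Q - pp‖ ≤ ε₃`.
On the arc `none = [δ, 1]` all `F_β Q = 0`.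
-/
import Claimed.Agent.R300.KkCfgLaw

set_option autoImplicit false
set_option linter.unusedSectionVars false

namespace Claimed.Agent.R300

open Nil
open scoped ENNReal ComplexConjugate InnerProductSpace Matrix.Norms.L2Operator

namespace KkCfg

variable {m q : ℕ} [NeZero q] (c : KkCfg m q)

theorem kkloc_z0_inv_central (g : Deck m ℤ) : (Deck.z0 : Deck m ℤ)⁻¹ * g = g * (Deck.z0)⁻¹ := by
  have h := deck_z0_central g
  rw [inv_mul_eq_iff_eq_mul, ← mul_assoc, h, mul_assoc, mul_inv_cancel, mul_one]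

theorem kkloc_meanOp_comm (μ : KkPre (Deck m ℤ) (Idx m → ZMod q)) :
    Commute μ.meanOp ((kkU (Idx m → ZMod q) (Deck.z0 : Deck m ℤ) :
        unitary (KkK m q →L[ℂ] KkK m q)) : KkK m q →L[ℂ] KkK m q) ∧
    Commute μ.meanOp (star ((kkU (Idx m → ZMod q) (Deck.z0 : Deck m ℤ) :
        unitary (KkK m q →L[ℂ] KkK m q)) : KkK m q →L[ℂ] KkK m q)) := by
  constructor
  · unfold KkPre.meanOp
    refine Commute.sum_left _ _ _ fun a _ => Commute.smul_left ?_ _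
    exact kkWL_lam_comm _ _ _ deck_z0_central
  · unfold KkPre.meanOp
    refine Commute.sum_left _ _ _ fun a _ => Commute.smul_left ?_ _
    have : star ((kkU (Idx m → ZMod q) (Deck.z0 : Deck m ℤ) :
        unitary (KkK m q →L[ℂ] KkK m q)) : KkK m q →L[ℂ] KkK m q)
        = smpLam (Deck.z0 : Deck m ℤ)⁻¹ := smpLam_star _
    rw [this]
    exact kkWL_lam_comm _ _ _ kkloc_z0_inv_central

/-- mean of a pre-law commutes with the sharp arcs. -/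
theorem kkPre_meanOp_Q_comm (μ : KkPre (Deck m ℤ) (Idx m → ZMod q)) (lo hi : ℝ) :
    Commute μ.meanOp (kkQ q lo hi) :=
  kkArc_commute _ _ (kkloc_meanOp_comm μ).1 (kkloc_meanOp_comm μ).2

theorem kkPre_meanOp_hom_comm (μ : KkPre (Deck m ℤ) (Idx m → ZMod q)) (f : C(UnitAddCircle, ℂ)) :
    Commute μ.meanOp (kkHom (kkU (Idx m → ZMod q) (Deck.z0 : Deck m ℤ)) f) :=
  kkHom_commute _ _ (kkloc_meanOp_comm μ).1 (kkloc_meanOp_comm μ).2

theorem blk_meanOp (hL : 0 < c.Lam) (i k : ℤ) :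
    (c.blk i k).meanOp = ∑ r, (kkMaskLaw q (kkC (c.f i k (c.idx i r))) (c.K i)).meanOp
      * (kkLX q (tpl c.w c.Lam (c.y1 (c.idx i r))) * (c.sec i (c.idx i r)).meanOp) := by
  unfold blk
  rw [KkPre.meanOp_mix, Finset.smul_sum]
  refine Finset.sum_congr rfl fun r _ => ?_
  rw [KkPre.meanOp_scale, smul_smul, Fintype.card_fin]
  have h : ((4 * c.ns + 1 : ℕ) : ℂ)⁻¹ * (4 * c.ns + 1 : ℂ) = 1 := by
    push_cast
    exact inv_mul_cancel₀ (by exact_mod_cast Nat.succ_ne_zero (4 * c.ns))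
  rw [h, one_smul]
  unfold term
  rw [KkPre.meanOp_mul, KkPre.meanOp_mul, kkXLaw_meanOp q c.w hL (c.y1_pos _)]

/-- truncation of the masks. -/
theorem mask_trunc (i k β : ℤ) (A1 B : ℝ) (hB : 0 ≤ B)
    (h1 : ∀ n, ‖fourierCoeff (kkC (c.f i k β)) n‖ ≤ A1)
    (h2 : ∀ n : ℤ, (n : ℝ) ^ 2 * ‖fourierCoeff (kkC (c.f i k β)) n‖ ≤ B) :
    ‖kkHom (kkU (Idx m → ZMod q) (Deck.z0 : Deck m ℤ)) (kkC (c.f i k β))
        - (kkMaskLaw (m := m) q (kkC (c.f i k β)) (c.K i)).meanOp‖ ≤ 4 * B / (c.K i + 1) := by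
  have := kkHom_trunc (kkU (Idx m → ZMod q) (Deck.z0 : Deck m ℤ)) (kkC (c.f i k β)) hB h1 h2 (c.K i)
  rw [kkMaskLaw_meanOp]
  simp only [kkU_zpow] at this
  exact this

/-- second factor, ordinary lists. -/
theorem sec_close_lt (hL : 0 < c.Lam) (i β : ℤ) (hi : i < c.I) (εl : ℝ)
    (h : ‖((kkYLaw q c.w c.Lam (c.yY β)).sub c.hM (c.ωY (c.yY β))).meanOp
      - (kkYLaw q c.w c.Lam (c.yY β)).meanOp‖ ≤ εl) :
    ‖(c.sec i β).meanOp - kkLY q (kkTplc c.w c.Lam (c.yY β))‖ ≤ εl := by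
  unfold sec
  rw [if_pos hi, ← kkYLaw_meanOp q c.w hL (c.yY_pos β)]
  exact h

/-- second factor, congruence form. -/
theorem sec_close_ge (i β : ℤ) (hi : c.I ≤ i) (εl εc CL lo hi' : ℝ)
    (hCL : ‖(kkLamLaw q c.w c.Lam (c.yY β)).meanOp‖ ≤ CL)
    (h : ‖((kkCqLaw (m := m) q).sub c.hM c.ωC).meanOp - (kkCqLaw (m := m) q).meanOp‖ ≤ εl)
    (hc : ‖((kkLamLaw q c.w c.Lam (c.yY β)).meanOp * (kkCqLaw q).meanOp
      - kkLY q (kkTplc c.w c.Lam (c.yY β))) * kkQ q lo hi'‖ ≤ εc) :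
    ‖((c.sec i β).meanOp - kkLY q (kkTplc c.w c.Lam (c.yY β))) * kkQ q lo hi'‖ ≤ CL * εl + εc := by
  unfold sec
  rw [if_neg (not_lt.mpr hi), KkPre.meanOp_mul]
  have hQ : ‖kkQ (m := m) q lo hi'‖ ≤ 1 := kkArc_norm_le _ _
  have hCL0 : 0 ≤ CL := (norm_nonneg _).trans hCL
  have e : ((kkLamLaw q c.w c.Lam (c.yY β)).meanOp * ((kkCqLaw (m := m) q).sub c.hM c.ωC).meanOp
      - kkLY q (kkTplc c.w c.Lam (c.yY β))) * kkQ q lo hi'
      = (kkLamLaw q c.w c.Lam (c.yY β)).meanOp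
          * (((kkCqLaw (m := m) q).sub c.hM c.ωC).meanOp - (kkCqLaw (m := m) q).meanOp) * kkQ q lo hi'
        + ((kkLamLaw q c.w c.Lam (c.yY β)).meanOp * (kkCqLaw q).meanOp
          - kkLY q (kkTplc c.w c.Lam (c.yY β))) * kkQ q lo hi' := by
    rw [← add_mul]; congr 1; rw [mul_sub]; abel
  rw [e]
  refine (norm_add_le _ _).trans (add_le_add ?_ hc)
  calc _ ≤ ‖(kkLamLaw q c.w c.Lam (c.yY β)).meanOp
          * (((kkCqLaw (m := m) q).sub c.hM c.ωC).meanOp - (kkCqLaw (m := m) q).meanOp)‖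
          * ‖kkQ (m := m) q lo hi'‖ := norm_mul_le _ _
    _ ≤ (CL * εl) * 1 := by
        refine mul_le_mul ((norm_mul_le _ _).trans ?_) hQ (norm_nonneg _)
          (mul_nonneg hCL0 ((norm_nonneg _).trans h))
        exact mul_le_mul hCL h (norm_nonneg _) hCL0
    _ = _ := mul_one _

theorem kkloc_tplc_support (w : Win m) {Lam y : ℝ} (hL : 0 < Lam) (hy : 0 < y) :
    (Function.support (kkTplc w Lam y)).Finite := by
  refine (tpl_finite_support w hL hy).subset fun g hg => ?_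
  intro hc
  apply hg
  unfold kkTplc
  rw [hc, map_zero]

theorem kkloc_LX_sub_le (w : Win m) {Lam y y' : ℝ} (hL : 0 < Lam) (hy : 0 < y) (hy' : 0 < y') :
    ‖kkLX q (tpl w Lam y) - kkLX q (tpl w Lam y')‖ ≤ ∑' g, ‖tpl w Lam y g - tpl w Lam y' g‖ := by
  have h1 : (Function.support (tpl w Lam y)).Finite := tpl_finite_support w hL hy
  have h2 : (Function.support (tpl w Lam y')).Finite := tpl_finite_support w hL hy'
  rw [kkLX_sub q h1 h2]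
  refine kkLX_norm_le q ((h1.union h2).subset fun g hg => ?_)
  by_contra hc
  rw [Set.mem_union, not_or] at hc
  simp only [Function.mem_support, not_not] at hc
  exact hg (by simp only [hc.1, hc.2, sub_zero])

theorem kkloc_LY_sub_le (w : Win m) {Lam y y' : ℝ} (hL : 0 < Lam) (hy : 0 < y) (hy' : 0 < y') :
    ‖kkLY q (kkTplc w Lam y) - kkLY q (kkTplc w Lam y')‖
      ≤ ∑' g, ‖tpl w Lam y g - tpl w Lam y' g‖ := by
  have h1 := kkloc_tplc_support w hL hy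
  have h2 := kkloc_tplc_support w hL hy'
  rw [kkLY_sub q h1 h2]
  have e : ∀ g, ‖tpl w Lam y g - tpl w Lam y' g‖ = ‖kkTplc w Lam y g - kkTplc w Lam y' g‖ := by
    intro g
    unfold kkTplc
    rw [← map_sub, RCLike.norm_conj]
  simp only [e]
  refine kkLY_norm_le q ((h1.union h2).subset fun g hg => ?_)
  by_contra hc
  rw [Set.mem_union, not_or] at hc
  simp only [Function.mem_support, not_not] at hc
  exact hg (by simp only [hc.1, hc.2, sub_zero])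

/-- both factors against the frozen `P`. -/
theorem factor_close (hL : 0 < c.Lam) (i a β : ℤ) (εs ε' C₁ CB lo hi : ℝ)
    (hs1 : ∑' g, ‖tpl c.w c.Lam (c.y1 β) g - tpl c.w c.Lam (c.y1 a) g‖ ≤ εs)
    (hs2 : ∑' g, ‖tpl c.w c.Lam (c.yY β) g - tpl c.w c.Lam (c.y2 a) g‖ ≤ εs)
    (hX : ∑' g, ‖tpl c.w c.Lam (c.y1 a) g‖ ≤ C₁) (hSB : ‖(c.sec i β).meanOp‖ ≤ CB)
    (hsec : ‖((c.sec i β).meanOp - kkLY q (kkTplc c.w c.Lam (c.yY β))) * kkQ q lo hi‖ ≤ ε') :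
    ‖(kkLX q (tpl c.w c.Lam (c.y1 β)) * (c.sec i β).meanOp - kkP q c.w c.Lam (c.y1 a) (c.y2 a))
        * kkQ q lo hi‖ ≤ εs * CB + C₁ * ε' + C₁ * εs := by
  have hQ : ‖kkQ (m := m) q lo hi‖ ≤ 1 := kkArc_norm_le _ _
  have hA : ‖kkLX q (tpl c.w c.Lam (c.y1 β)) - kkLX q (tpl c.w c.Lam (c.y1 a))‖ ≤ εs :=
    (kkloc_LX_sub_le c.w hL (c.y1_pos β) (c.y1_pos a)).trans hs1
  have hB : ‖kkLY q (kkTplc c.w c.Lam (c.yY β)) - kkLY q (kkTplc c.w c.Lam (c.y2 a))‖ ≤ εs :=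
    (kkloc_LY_sub_le c.w hL (c.yY_pos β) (c.y2_pos a)).trans hs2
  have hAa : ‖kkLX q (tpl c.w c.Lam (c.y1 a))‖ ≤ C₁ :=
    (kkLX_norm_le q (tpl_finite_support c.w hL (c.y1_pos a))).trans hX
  have hεs : 0 ≤ εs := (norm_nonneg _).trans hA
  have hC₁ : 0 ≤ C₁ := (norm_nonneg _).trans hAa
  have hCB : 0 ≤ CB := (norm_nonneg _).trans hSB
  obtain ⟨Aβ, hAβ⟩ : ∃ X, X = kkLX q (tpl c.w c.Lam (c.y1 β)) := ⟨_, rfl⟩
  obtain ⟨Aa, hAa'⟩ : ∃ X, X = kkLX q (tpl c.w c.Lam (c.y1 a)) := ⟨_, rfl⟩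
  obtain ⟨Bβ, hBβ⟩ : ∃ X, X = kkLY q (kkTplc c.w c.Lam (c.yY β)) := ⟨_, rfl⟩
  obtain ⟨Ba, hBa⟩ : ∃ X, X = kkLY q (kkTplc c.w c.Lam (c.y2 a)) := ⟨_, rfl⟩
  obtain ⟨S, hS⟩ : ∃ X, X = (c.sec i β).meanOp := ⟨_, rfl⟩
  obtain ⟨Q, hQd⟩ : ∃ X, X = kkQ (m := m) q lo hi := ⟨_, rfl⟩
  unfold kkP
  rw [← hAβ, ← hAa', ← hBa, ← hS, ← hQd]
  rw [← hAβ, ← hAa'] at hA
  rw [← hBβ, ← hBa] at hB
  rw [← hAa'] at hAa
  rw [← hS] at hSB
  rw [← hS, ← hBβ, ← hQd] at hsec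
  rw [← hQd] at hQ
  have e : (Aβ * S - Aa * Ba) * Q = (Aβ - Aa) * S * Q + Aa * ((S - Bβ) * Q) + Aa * (Bβ - Ba) * Q := by
    noncomm_ring
  rw [e]
  refine (norm_add₃_le).trans (add_le_add (add_le_add ?_ ?_) ?_)
  · calc ‖(Aβ - Aa) * S * Q‖ ≤ ‖(Aβ - Aa) * S‖ * ‖Q‖ := norm_mul_le _ _
      _ ≤ (εs * CB) * 1 :=
          mul_le_mul ((norm_mul_le _ _).trans (mul_le_mul hA hSB (norm_nonneg _) hεs)) hQ
            (norm_nonneg _) (by positivity)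
      _ = _ := mul_one _
  · exact (norm_mul_le _ _).trans (mul_le_mul hAa hsec (norm_nonneg _) hC₁)
  · calc ‖Aa * (Bβ - Ba) * Q‖ ≤ ‖Aa * (Bβ - Ba)‖ * ‖Q‖ := norm_mul_le _ _
      _ ≤ (C₁ * εs) * 1 :=
          mul_le_mul ((norm_mul_le _ _).trans (mul_le_mul hAa hB (norm_nonneg _) hC₁)) hQ
            (norm_nonneg _) (by positivity)
      _ = _ := mul_one _

/-! ### points of the arcs and values of the masks -/

theorem kkloc_s_le_one (hns : 0 < c.ns) : c.s ≤ 1 := by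
  unfold s
  rw [div_le_one (by exact_mod_cast hns)]
  exact_mod_cast hns

theorem kkloc_arc_pt (hm : 0 < m) (hκ : 0 < c.κ) (a : ℤ) {x : UnitAddCircle}
    (hx : x ∈ kkIcc (c.y1 a ^ m) (c.t (a + 1))) :
    ∃ b : ℝ, (a : ℝ) * c.s ≤ b ∧ b ≤ ((a : ℝ) + 1) * c.s ∧
      x = ((tch c.δ c.κ b : ℝ) : UnitAddCircle) := by
  obtain ⟨r, hr, rfl⟩ := hx
  rw [c.y1_pow hm] at hr
  unfold t at hr
  obtain ⟨b, hb, hbx⟩ := tch_surj_Icc c.δ_pos (by exact_mod_cast hκ : (0 : ℝ) < c.κ) hr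
  refine ⟨b, hb.1, ?_, by rw [hbx]⟩
  have := hb.2
  push_cast at this
  exact this

theorem kkloc_mprof_abs_le (s : ℝ) (i k β : ℤ) (b : ℝ) : |mprof s i k β b| ≤ 1 := by
  unfold mprof
  have h1 := hwin_nonneg (b - i)
  have h2 := hwin_nonneg (b - k)
  have h3 := hwin_nonneg ((b - β * s) / s)
  have g1 := hwin_le_one (b - i)
  have g2 := hwin_le_one (b - k)
  have g3 := hwin_le_one ((b - β * s) / s)
  rw [abs_of_nonneg (by positivity)]
  have a1 : hwin (b - i) * hwin (b - k) ≤ 1 := mul_le_one₀ g1 h2 g2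
  have a2 : hwin ((b - β * s) / s) ^ 2 ≤ 1 := pow_le_one₀ h3 g3
  exact mul_le_one₀ a1 (by positivity) a2

theorem kkloc_mprof_zero (hns : 0 < c.ns) {a β i : ℤ} (k : ℤ) {b : ℝ} (hb1 : (a : ℝ) * c.s ≤ b)
    (hb2 : b ≤ ((a : ℝ) + 1) * c.s) (hna : ¬ ((β = a ∨ β = a + 1) ∧ |(β : ℝ) * c.s - i| ≤ 2)) :
    mprof c.s i k β b = 0 := by
  have hs := c.s_pos hns
  have hs1 := c.kkloc_s_le_one hns
  have hu : (b - β * c.s) / c.s = b / c.s - β := by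
    field_simp
  have hu1 : (a : ℝ) ≤ b / c.s := by rwa [le_div_iff₀ hs]
  have hu2 : b / c.s ≤ (a : ℝ) + 1 := by rwa [div_le_iff₀ hs]
  unfold mprof
  by_cases hβ : β = a ∨ β = a + 1
  · have h2 : ¬ |(β : ℝ) * c.s - i| ≤ 2 := fun h => hna ⟨hβ, h⟩
    rw [not_le] at h2
    have h3 : |b - β * c.s| ≤ 1 := by
      rw [abs_le]
      rcases hβ with rfl | rfl
      · constructor <;> nlinarith
      · push_cast
        constructor <;> nlinarith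
    have h4 : 9 / 10 ≤ |b - i| := by
      have : |(β : ℝ) * c.s - i| ≤ |b - i| + |b - β * c.s| := by
        have e : (β : ℝ) * c.s - i = (b - i) - (b - β * c.s) := by ring
        rw [e]
        exact abs_sub _ _
      linarith
    rw [hwin_eq_zero h4]
    ring
  · rw [not_or] at hβ
    have h4 : 9 / 10 ≤ |(b - β * c.s) / c.s| := by
      rw [hu]
      rcases lt_or_gt_of_ne hβ.1 with h | h
      · have : (β : ℝ) + 1 ≤ a := by exact_mod_cast h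
        rw [le_abs]; left; linarith
      · have h5 : a + 1 < β := lt_of_le_of_ne h (Ne.symm hβ.2)
        have : (a : ℝ) + 1 + 1 ≤ β := by exact_mod_cast h5
        rw [le_abs]; right; linarith
    rw [hwin_eq_zero h4]
    ring

theorem kkloc_mprof_add (hns : 0 < c.ns) {a : ℤ} (i k : ℤ) {b : ℝ} (hb1 : (a : ℝ) * c.s ≤ b)
    (hb2 : b ≤ ((a : ℝ) + 1) * c.s) :
    mprof c.s i k a b + mprof c.s i k (a + 1) b = hwin (b - i) * hwin (b - k) := by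
  have hs := c.s_pos hns
  have hu1 : 0 ≤ (b - a * c.s) / c.s := div_nonneg (by linarith) hs.le
  have hu2 : (b - a * c.s) / c.s ≤ 1 := by
    rw [div_le_one hs]; linarith
  have e : (b - ((a + 1 : ℤ) : ℝ) * c.s) / c.s = (b - a * c.s) / c.s - 1 := by
    push_cast
    field_simp
    ring
  unfold mprof
  rw [e, ← mul_add, hwin_sq_add hu1 hu2, mul_one]

theorem kkloc_hh_close {A : ℝ} (hlip : ∀ x y, |hwin x - hwin y| ≤ A * |x - y|) {s b b0 : ℝ}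
    (hA : 0 ≤ A) (hb : |b - b0| ≤ s) (i k : ℤ) :
    |hwin (b - i) * hwin (b - k) - hwin (b0 - i) * hwin (b0 - k)| ≤ 2 * A * s := by
  have e : hwin (b - i) * hwin (b - k) - hwin (b0 - i) * hwin (b0 - k)
      = (hwin (b - i) - hwin (b0 - i)) * hwin (b - k)
        + hwin (b0 - i) * (hwin (b - k) - hwin (b0 - k)) := by ring
  have l1 : |hwin (b - i) - hwin (b0 - i)| ≤ A * s := by
    refine (hlip _ _).trans (mul_le_mul_of_nonneg_left ?_ hA)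
    rwa [show b - i - (b0 - i) = b - b0 by ring]
  have l2 : |hwin (b - k) - hwin (b0 - k)| ≤ A * s := by
    refine (hlip _ _).trans (mul_le_mul_of_nonneg_left ?_ hA)
    rwa [show b - k - (b0 - k) = b - b0 by ring]
  have hAs : 0 ≤ A * s := (abs_nonneg _).trans l1
  rw [e]
  refine (abs_add_le _ _).trans ?_
  rw [abs_mul, abs_mul, abs_of_nonneg (hwin_nonneg (b - k)), abs_of_nonneg (hwin_nonneg (b0 - i))]
  have m1 : |hwin (b - i) - hwin (b0 - i)| * hwin (b - k) ≤ A * s * 1 :=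
    mul_le_mul l1 (hwin_le_one _) (hwin_nonneg _) hAs
  have m2 : hwin (b0 - i) * |hwin (b - k) - hwin (b0 - k)| ≤ 1 * (A * s) :=
    mul_le_mul (hwin_le_one _) l2 (abs_nonneg _) zero_le_one
  linarith

/-! ### the operator part -/

/-- `X_β = LX(tpl (y1 β)) (sec i β).meanOp` commutes with the arcs. -/
theorem kkloc_X_comm (i β : ℤ) (lo hi : ℝ) :
    Commute (kkLX q (tpl c.w c.Lam (c.y1 β)) * (c.sec i β).meanOp) (kkQ q lo hi) :=
  (kkLX_Q_comm q _ lo hi).mul_left (kkPre_meanOp_Q_comm _ lo hi)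

theorem kkloc_P_comm (a : ℤ) (lo hi : ℝ) :
    Commute (kkP q c.w c.Lam (c.y1 a) (c.y2 a)) (kkQ q lo hi) :=
  (kkLX_Q_comm q _ lo hi).mul_left (kkLY_Q_comm q _ lo hi)

/-- step 1: truncation. -/
theorem kkloc_step1 (hL : 0 < c.Lam) (i k : ℤ) (lo hi C₁ CB ε₁ : ℝ)
    (htr : ∀ β, ‖kkHom (kkU (Idx m → ZMod q) (Deck.z0 : Deck m ℤ)) (kkC (c.f i k β))
        - (kkMaskLaw (m := m) q (kkC (c.f i k β)) (c.K i)).meanOp‖ ≤ ε₁)
    (hXB : ∀ β, ‖kkLX q (tpl c.w c.Lam (c.y1 β))‖ ≤ C₁)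
    (hSB : ∀ r, ‖(c.sec i (c.idx i r)).meanOp‖ ≤ CB) :
    ‖(c.blk i k).meanOp * kkQ q lo hi
        - ∑ r, kkHom (kkU (Idx m → ZMod q) (Deck.z0 : Deck m ℤ)) (kkC (c.f i k (c.idx i r)))
          * (kkLX q (tpl c.w c.Lam (c.y1 (c.idx i r))) * (c.sec i (c.idx i r)).meanOp) * kkQ q lo hi‖
      ≤ (4 * c.ns + 1) * ε₁ * C₁ * CB := by
  have hQ : ‖kkQ (m := m) q lo hi‖ ≤ 1 := kkArc_norm_le _ _
  have hε₁ : 0 ≤ ε₁ := (norm_nonneg _).trans (htr 0)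
  have hC₁ : 0 ≤ C₁ := (norm_nonneg _).trans (hXB 0)
  have hCB : 0 ≤ CB := (norm_nonneg _).trans (hSB 0)
  rw [c.blk_meanOp hL, Finset.sum_mul, ← Finset.sum_sub_distrib]
  refine (norm_sum_le _ _).trans ?_
  have hterm : ∀ r : Fin (4 * c.ns + 1),
      ‖(kkMaskLaw q (kkC (c.f i k (c.idx i r))) (c.K i)).meanOp
          * (kkLX q (tpl c.w c.Lam (c.y1 (c.idx i r))) * (c.sec i (c.idx i r)).meanOp) * kkQ q lo hi
        - kkHom (kkU (Idx m → ZMod q) (Deck.z0 : Deck m ℤ)) (kkC (c.f i k (c.idx i r)))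
          * (kkLX q (tpl c.w c.Lam (c.y1 (c.idx i r))) * (c.sec i (c.idx i r)).meanOp) * kkQ q lo hi‖
        ≤ ε₁ * C₁ * CB := by
    intro r
    rw [← sub_mul, ← sub_mul]
    calc _ ≤ ‖((kkMaskLaw q (kkC (c.f i k (c.idx i r))) (c.K i)).meanOp
            - kkHom (kkU (Idx m → ZMod q) (Deck.z0 : Deck m ℤ)) (kkC (c.f i k (c.idx i r))))
            * (kkLX q (tpl c.w c.Lam (c.y1 (c.idx i r))) * (c.sec i (c.idx i r)).meanOp)‖
            * ‖kkQ (m := m) q lo hi‖ := norm_mul_le _ _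
      _ ≤ (ε₁ * (C₁ * CB)) * 1 := by
          refine mul_le_mul ((norm_mul_le _ _).trans ?_) hQ (norm_nonneg _) (by positivity)
          refine mul_le_mul ?_ ((norm_mul_le _ _).trans
            (mul_le_mul (hXB _) (hSB r) (norm_nonneg _) hC₁)) (norm_nonneg _) hε₁
          rw [norm_sub_rev]
          exact htr _
      _ = _ := by ring
  calc _ ≤ ∑ _r : Fin (4 * c.ns + 1), ε₁ * C₁ * CB := Finset.sum_le_sum fun r _ => hterm r
    _ = _ := by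
        rw [Finset.sum_const, Finset.card_univ, Fintype.card_fin, nsmul_eq_mul]
        push_cast
        ring

/-- a term whose mask vanishes on the arc. -/
theorem kkloc_G_zero (i k β : ℤ) (lo hi : ℝ)
    (h : kkHom (kkU (Idx m → ZMod q) (Deck.z0 : Deck m ℤ)) (kkC (c.f i k β)) * kkQ q lo hi = 0) :
    kkHom (kkU (Idx m → ZMod q) (Deck.z0 : Deck m ℤ)) (kkC (c.f i k β))
      * (kkLX q (tpl c.w c.Lam (c.y1 β)) * (c.sec i β).meanOp) * kkQ q lo hi = 0 := by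
  rw [mul_assoc, (c.kkloc_X_comm i β lo hi).eq, ← mul_assoc, h, zero_mul]

/-- the mask vanishes on the arc. -/
theorem kkloc_FQ_zero (f : C(UnitAddCircle, ℝ)) (lo hi : ℝ) (h : ∀ x ∈ kkIcc lo hi, f x = 0) :
    kkHom (kkU (Idx m → ZMod q) (Deck.z0 : Deck m ℤ)) (kkC f) * kkQ q lo hi = 0 := by
  have := kkHom_mul_arc_congr (kkU (Idx m → ZMod q) (Deck.z0 : Deck m ℤ)) (kkIcc lo hi) (kkC f) 0
    (fun x hx => by simp [kkC, h x hx])
  rw [map_zero, zero_mul] at this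
  exact this

/-- the final estimate, abstractly. -/
theorem kkloc_final {𝒜 : Type*} [NormedRing 𝒜] [NormedAlgebra ℂ 𝒜]
    (M S Ea Eb Fa Fb Q P pp : 𝒜) (h : ℂ) (e1 e2 e3 e4 CP : ℝ)
    (hS : S = (Ea + Fa * Q * P) + (Eb + Fb * Q * P)) (h1 : ‖M - S‖ ≤ e1) (ha : ‖Ea‖ ≤ e2)
    (hb : ‖Eb‖ ≤ e2) (h3 : ‖(Fa + Fb) * Q - h • Q‖ ≤ e3) (hP : ‖P‖ ≤ CP) (hQP : Q * P = P * Q)
    (h4 : ‖pp - P * Q‖ ≤ e4) (hh : ‖h‖ ≤ 1) : ‖M - h • pp‖ ≤ e1 + 2 * e2 + e3 * CP + e4 := by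
  have e : M - h • pp = (M - S) + Ea + Eb + ((Fa + Fb) * Q - h • Q) * P + h • (P * Q - pp) := by
    rw [hS, sub_mul, smul_mul_assoc, hQP, smul_sub, add_mul, add_mul]
    abel
  have he3 : 0 ≤ e3 := (norm_nonneg _).trans h3
  have t1 : ‖((Fa + Fb) * Q - h • Q) * P‖ ≤ e3 * CP :=
    (norm_mul_le _ _).trans (mul_le_mul h3 hP (norm_nonneg _) he3)
  have t2 : ‖h • (P * Q - pp)‖ ≤ e4 := by
    rw [norm_smul, norm_sub_rev]
    calc ‖h‖ * ‖pp - P * Q‖ ≤ 1 * e4 := mul_le_mul hh h4 (norm_nonneg _) zero_le_one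
      _ = e4 := one_mul _
  rw [e]
  have n1 := norm_add_le ((M - S) + Ea + Eb + ((Fa + Fb) * Q - h • Q) * P) (h • (P * Q - pp))
  have n2 := norm_add_le ((M - S) + Ea + Eb) (((Fa + Fb) * Q - h • Q) * P)
  have n3 := norm_add_le ((M - S) + Ea) Eb
  have n4 := norm_add_le (M - S) Ea
  linarith

/-- reindexing of the sum over the templates. -/
theorem kkloc_reindex {𝒜 : Type*} [AddCommMonoid 𝒜] (hns : 0 < c.ns) (i a : ℤ) (G : ℤ → 𝒜)
    (hG : ∀ β, ¬ ((β = a ∨ β = a + 1) ∧ |(β : ℝ) * c.s - i| ≤ 2) → G β = 0) :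
    ∑ r, G (c.idx i r) = G a + G (a + 1) := by
  classical
  have h1 : ∑ r, G (c.idx i r) = ∑ β ∈ Finset.univ.image (c.idx i), G β :=
    (Finset.sum_image fun x _ y _ h => c.idx_injective i h).symm
  have h2 : ∑ β ∈ Finset.univ.image (c.idx i), G β
      = ∑ β ∈ Finset.univ.image (c.idx i) ∪ {a, a + 1}, G β := by
    refine Finset.sum_subset Finset.subset_union_left fun β _ hβ => hG β fun hc => hβ ?_
    obtain ⟨r, hr⟩ := c.exists_idx hns i β hc.2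
    exact Finset.mem_image.mpr ⟨r, Finset.mem_univ r, hr⟩
  have h3 : ∑ β ∈ ({a, a + 1} : Finset ℤ), G β
      = ∑ β ∈ Finset.univ.image (c.idx i) ∪ {a, a + 1}, G β := by
    refine Finset.sum_subset Finset.subset_union_right fun β _ hβ => hG β fun hc => hβ ?_
    simpa using hc.1
  rw [h1, h2, ← h3, Finset.sum_pair (by omega)]

/-- **Local identification of the block means.** -/
theorem blk_local (hm : 0 < m) (hκ : 0 < c.κ) (hns : 0 < c.ns) (hL : 0 < c.Lam)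
    (C₁ CB CP ε₁ ε₂ ε₃ A Cp : ℝ) (hε₂ : 0 ≤ ε₂) (hA : 0 ≤ A)
    (hval : ∀ i k β b, c.f i k β ((tch c.δ c.κ b : ℝ) : UnitAddCircle) = mprof c.s i k β b)
    (hzero : ∀ i k β, ∀ x ∈ Set.Icc c.δ 1, c.f i k β ((x : ℝ) : UnitAddCircle) = 0)
    (htr : ∀ i k β, ‖kkHom (kkU (Idx m → ZMod q) (Deck.z0 : Deck m ℤ)) (kkC (c.f i k β))
        - (kkMaskLaw (m := m) q (kkC (c.f i k β)) (c.K i)).meanOp‖ ≤ ε₁)
    (hXB : ∀ β, ‖kkLX q (tpl c.w c.Lam (c.y1 β))‖ ≤ C₁)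
    (hSB : ∀ i r, ‖(c.sec i (c.idx i r)).meanOp‖ ≤ CB)
    (hPB : ∀ a, ‖kkP q c.w c.Lam (c.y1 a) (c.y2 a)‖ ≤ CP)
    (hfac : ∀ i a β : ℤ, (β = a ∨ β = a + 1) → |(β : ℝ) * c.s - i| ≤ 2 →
      ‖(kkLX q (tpl c.w c.Lam (c.y1 β)) * (c.sec i β).meanOp - kkP q c.w c.Lam (c.y1 a) (c.y2 a))
        * kkQ q (c.y1 a ^ m) (c.t (a + 1))‖ ≤ ε₂)
    (hproj : c.ProjOk ε₃ Cp) (hlip : ∀ x y, |hwin x - hwin y| ≤ A * |x - y|) (α : Option ℤ) (i k : ℤ) :
    ‖(c.blk i k).meanOp * c.arcs.Q Deck.z0 _ α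
        - ((c.arcs.hh α i * c.arcs.hh α k : ℝ) : ℂ) • c.arcs.pp α‖
      ≤ (4 * c.ns + 1) * ε₁ * C₁ * CB + 2 * ε₂ + 2 * A * c.s * CP + ε₃ := by
  have hs := c.s_pos hns
  have hCP : 0 ≤ CP := (norm_nonneg _).trans (hPB 0)
  have hε₃ : 0 ≤ ε₃ := (norm_nonneg _).trans (hproj 0).2.2.2.1
  cases α with
  | none =>
    change ‖(c.blk i k).meanOp * kkQ q c.δ 1
      - (_ : ℂ) • (0 : KkK m q →L[ℂ] KkK m q)‖ ≤ _
    rw [smul_zero, sub_zero]
    have h1 := c.kkloc_step1 hL i k c.δ 1 C₁ CB ε₁ (htr i k) hXB (hSB i)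
    rw [Finset.sum_eq_zero fun r _ => c.kkloc_G_zero i k _ _ _ (kkloc_FQ_zero _ _ _ (fun x hx => by
      obtain ⟨r, hr, rfl⟩ := hx
      exact hzero _ _ _ r hr)), sub_zero] at h1
    have : 0 ≤ 2 * ε₂ + 2 * A * c.s * CP + ε₃ := by positivity
    linarith
  | some a =>
    change ‖(c.blk i k).meanOp * kkQ q (c.y1 a ^ m) (c.t (a + 1))
      - ((hwin (a * c.s - i) * hwin (a * c.s - k) : ℝ) : ℂ)
        • kkPP q c.w c.Lam (c.y1 a) (c.y2 a) (c.t (a + 1))‖ ≤ _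
    have h1 := c.kkloc_step1 hL i k (c.y1 a ^ m) (c.t (a + 1)) C₁ CB ε₁ (htr i k) hXB (hSB i)
    -- inactive masks
    have hFz : ∀ β : ℤ, ¬ ((β = a ∨ β = a + 1) ∧ |(β : ℝ) * c.s - i| ≤ 2) →
        kkHom (kkU (Idx m → ZMod q) (Deck.z0 : Deck m ℤ)) (kkC (c.f i k β))
          * kkQ q (c.y1 a ^ m) (c.t (a + 1)) = 0 := fun β hβ =>
      kkloc_FQ_zero _ _ _ (fun x hx => by
        obtain ⟨b, hb1, hb2, rfl⟩ := c.kkloc_arc_pt hm hκ a hx
        rw [hval]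
        exact c.kkloc_mprof_zero hns k hb1 hb2 hβ)
    rw [c.kkloc_reindex hns i a (fun β =>
      kkHom (kkU (Idx m → ZMod q) (Deck.z0 : Deck m ℤ)) (kkC (c.f i k β))
        * (kkLX q (tpl c.w c.Lam (c.y1 β)) * (c.sec i β).meanOp)
        * kkQ q (c.y1 a ^ m) (c.t (a + 1)))
      (fun β hβ => c.kkloc_G_zero i k β _ _ (hFz β hβ))] at h1
    -- masks are bounded by one on the arc
    have hF1 : ∀ β : ℤ, ‖kkHom (kkU (Idx m → ZMod q) (Deck.z0 : Deck m ℤ)) (kkC (c.f i k β))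
          * kkQ q (c.y1 a ^ m) (c.t (a + 1))‖ ≤ 1 := fun β =>
      kkHom_mul_arc_norm_le _ _ (kkIcc_isClosed _ _) _ 1 zero_le_one (fun x hx => by
        obtain ⟨b, hb1, hb2, rfl⟩ := c.kkloc_arc_pt hm hκ a hx
        simp only [kkC, ContinuousMap.coe_mk, hval, Complex.norm_real, Real.norm_eq_abs]
        exact kkloc_mprof_abs_le _ _ _ _ _)
    -- the two error terms
    have hE : ∀ β : ℤ, (β = a ∨ β = a + 1) →
        ‖kkHom (kkU (Idx m → ZMod q) (Deck.z0 : Deck m ℤ)) (kkC (c.f i k β))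
          * kkQ q (c.y1 a ^ m) (c.t (a + 1))
          * ((kkLX q (tpl c.w c.Lam (c.y1 β)) * (c.sec i β).meanOp
              - kkP q c.w c.Lam (c.y1 a) (c.y2 a)) * kkQ q (c.y1 a ^ m) (c.t (a + 1)))‖ ≤ ε₂ := by
      intro β hβ
      by_cases h2 : |(β : ℝ) * c.s - i| ≤ 2
      · calc _ ≤ ‖kkHom (kkU (Idx m → ZMod q) (Deck.z0 : Deck m ℤ)) (kkC (c.f i k β))
              * kkQ q (c.y1 a ^ m) (c.t (a + 1))‖
              * ‖(kkLX q (tpl c.w c.Lam (c.y1 β)) * (c.sec i β).meanOp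
              - kkP q c.w c.Lam (c.y1 a) (c.y2 a)) * kkQ q (c.y1 a ^ m) (c.t (a + 1))‖ :=
              norm_mul_le _ _
          _ ≤ 1 * ε₂ := mul_le_mul (hF1 β) (hfac i a β hβ h2) (norm_nonneg _) zero_le_one
          _ = ε₂ := one_mul _
      · rw [hFz β fun hc => h2 hc.2, zero_mul, norm_zero]
        exact hε₂
    -- decomposition of the terms
    have hQQ : kkQ (m := m) q (c.y1 a ^ m) (c.t (a + 1)) * kkQ q (c.y1 a ^ m) (c.t (a + 1))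
        = kkQ q (c.y1 a ^ m) (c.t (a + 1)) := (kkArc_isStarProjection _ _).isIdempotentElem
    have hPQ := (c.kkloc_P_comm a (c.y1 a ^ m) (c.t (a + 1))).eq
    have hG : ∀ β : ℤ, kkHom (kkU (Idx m → ZMod q) (Deck.z0 : Deck m ℤ)) (kkC (c.f i k β))
          * (kkLX q (tpl c.w c.Lam (c.y1 β)) * (c.sec i β).meanOp)
          * kkQ q (c.y1 a ^ m) (c.t (a + 1))
        = kkHom (kkU (Idx m → ZMod q) (Deck.z0 : Deck m ℤ)) (kkC (c.f i k β))
          * kkQ q (c.y1 a ^ m) (c.t (a + 1))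
          * ((kkLX q (tpl c.w c.Lam (c.y1 β)) * (c.sec i β).meanOp
              - kkP q c.w c.Lam (c.y1 a) (c.y2 a)) * kkQ q (c.y1 a ^ m) (c.t (a + 1)))
          + kkHom (kkU (Idx m → ZMod q) (Deck.z0 : Deck m ℤ)) (kkC (c.f i k β))
          * kkQ q (c.y1 a ^ m) (c.t (a + 1)) * kkP q c.w c.Lam (c.y1 a) (c.y2 a) := by
      intro β
      have hXQ := (c.kkloc_X_comm i β (c.y1 a ^ m) (c.t (a + 1))).eq
      obtain ⟨F, hF⟩ : ∃ F, F = kkHom (kkU (Idx m → ZMod q) (Deck.z0 : Deck m ℤ))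
        (kkC (c.f i k β)) := ⟨_, rfl⟩
      obtain ⟨X, hX⟩ : ∃ X, X = kkLX q (tpl c.w c.Lam (c.y1 β)) * (c.sec i β).meanOp := ⟨_, rfl⟩
      obtain ⟨P, hP⟩ : ∃ P, P = kkP q c.w c.Lam (c.y1 a) (c.y2 a) := ⟨_, rfl⟩
      obtain ⟨Q, hQ⟩ : ∃ Q, Q = kkQ (m := m) q (c.y1 a ^ m) (c.t (a + 1)) := ⟨_, rfl⟩
      rw [← hF, ← hX, ← hP, ← hQ]
      rw [← hX, ← hQ] at hXQ
      rw [← hP, ← hQ] at hPQ
      rw [← hQ] at hQQ
      calc F * X * Q = F * (X * (Q * Q)) := by rw [hQQ, mul_assoc]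
        _ = F * ((X * Q) * Q) := by rw [mul_assoc]
        _ = F * ((Q * X) * Q) := by rw [hXQ]
        _ = F * Q * ((X - P) * Q) + F * (Q * (P * Q)) := by noncomm_ring
        _ = F * Q * ((X - P) * Q) + F * (Q * (Q * P)) := by rw [hPQ]
        _ = F * Q * ((X - P) * Q) + F * ((Q * Q) * P) := by rw [← mul_assoc Q Q P]
        _ = _ := by rw [hQQ, ← mul_assoc F Q P]
    -- the frozen scalar
    have hfro : ‖(kkHom (kkU (Idx m → ZMod q) (Deck.z0 : Deck m ℤ)) (kkC (c.f i k a))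
          + kkHom (kkU (Idx m → ZMod q) (Deck.z0 : Deck m ℤ)) (kkC (c.f i k (a + 1))))
          * kkQ q (c.y1 a ^ m) (c.t (a + 1))
        - ((hwin (a * c.s - i) * hwin (a * c.s - k) : ℝ) : ℂ) • kkQ q (c.y1 a ^ m) (c.t (a + 1))‖
        ≤ 2 * A * c.s := by
      rw [← map_add]
      refine kkHom_frozen _ _ (kkIcc_isClosed _ _) _ _ _ (by positivity) (fun x hx => ?_)
      obtain ⟨b, hb1, hb2, rfl⟩ := c.kkloc_arc_pt hm hκ a hx
      simp only [kkC, ContinuousMap.add_apply, ContinuousMap.coe_mk, hval]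
      rw [← Complex.ofReal_add, ← Complex.ofReal_sub, Complex.norm_real, Real.norm_eq_abs,
        c.kkloc_mprof_add hns i k hb1 hb2]
      refine kkloc_hh_close hlip hA ?_ i k
      rw [abs_le]
      constructor <;> nlinarith
    have hhh : ‖((hwin (a * c.s - i) * hwin (a * c.s - k) : ℝ) : ℂ)‖ ≤ 1 := by
      rw [Complex.norm_real, Real.norm_eq_abs,
        abs_of_nonneg (mul_nonneg (hwin_nonneg _) (hwin_nonneg _))]
      exact mul_le_one₀ (hwin_le_one _) (hwin_nonneg _) (hwin_le_one _)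
    have := kkloc_final _ _ _ _ _ _ _ _ _ _ _ _ _ _ _
      (by rw [hG a, hG (a + 1)]) h1 (hE a (Or.inl rfl)) (hE (a + 1) (Or.inr rfl)) hfro (hPB a)
      hPQ.symm (hproj a).2.2.2.1 hhh
    linarith

end KkCfg

end Claimed.Agent.R300
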