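/-
Row 300, KK Sections 8-10, subtask KKM-COMB (helper145), LEAF FILE COMB-1: restrictions `scRestr`, the abstract
assembly of a band operator from its side-layer blocks, restrictions to sets of vertices versus arc projections
and `kkTens`.  Replace the sorries IN PLACE (statements are consumed verbatim by KkComb.lean).
-/
import Claimed.Agent.R300.KkModel
import Claimed.Agent.R300.KkOps

set_option autoImplicit false
set_option linter.unusedSectionVars false

namespace Claimed.Agent.R300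

open Nil HeisLaw
open scoped ENNReal ComplexConjugate InnerProductSpace Matrix.Norms.L2Operator

/-! ### COMB-A: restrictions, abstract assembly (leaf) -/

section asm

variable {X : Type}

theorem kkc_restr_star (B : Set X) : star (scRestr B) = scRestr B := by
  have h : IsSelfAdjoint (scRestr B) := by
    rw [ContinuousLinearMap.isSelfAdjoint_iff_isSymmetric]
    intro ξ η
    show ⟪scRestr B ξ, η⟫_ℂ = ⟪ξ, scRestr B η⟫_ℂ
    rw [lp.inner_eq_tsum, lp.inner_eq_tsum]
    refine tsum_congr fun a => ?_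
    by_cases ha : a ∈ B <;> simp [scRestr_apply, ha]
  exact h.star_eq

theorem kkc_restr_norm_le (B : Set X) : ‖scRestr B‖ ≤ 1 := by
  refine ContinuousLinearMap.opNorm_le_bound _ zero_le_one fun ξ => ?_
  rw [one_mul]
  have h := scRestr_norm_sq_add B ξ
  refine le_of_sq_le_sq ?_ (norm_nonneg _)
  nlinarith [sq_nonneg ‖scRestr Bᶜ ξ‖]

theorem kkc_restr_mul (B C : Set X) : scRestr B * scRestr C = scRestr (B ∩ C) := by
  ext ξ a
  by_cases hB : a ∈ B <;> by_cases hC : a ∈ C <;> simp [scRestr_apply, hB, hC]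

theorem kkc_restr_commute (B C : Set X) : Commute (scRestr B) (scRestr C) := by
  show scRestr B * scRestr C = scRestr C * scRestr B
  rw [kkc_restr_mul, kkc_restr_mul, Set.inter_comm]

/-- a layer is the union of its two sides -/
theorem kkc_restr_layer (lay : X → ℤ) (side : X → Prop) (i : ℤ) :
    scRestr {x | lay x = i} = scRestr {x | lay x = i ∧ (side x ↔ True)} +
      scRestr {x | lay x = i ∧ (side x ↔ False)} := by
  ext ξ a
  by_cases h1 : lay a = i <;> by_cases h2 : side a <;> simp [scRestr_apply, h1, h2]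

/-- side-layer blocks control the norm of a band operator
(`smp_norm_le_of_band`; `scRestr {lay = i} = P_{A,i} + P_{B,i}`). -/
theorem kkc_asm (D : ScL2 X →L[ℂ] ScL2 X) (lay : X → ℤ) (side : X → Prop) (c : ℝ) (hc : 0 ≤ c)
    (hss : ∀ (s : Prop) (i k : ℤ), scRestr {x | lay x = i ∧ (side x ↔ s)} * D *
      scRestr {x | lay x = k ∧ (side x ↔ s)} = 0)
    (hAB0 : ∀ i k : ℤ, 1 < |i - k| → scRestr {x | lay x = i ∧ (side x ↔ True)} * D *
      scRestr {x | lay x = k ∧ (side x ↔ False)} = 0)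
    (hBA0 : ∀ i k : ℤ, 1 < |i - k| → scRestr {x | lay x = k ∧ (side x ↔ False)} * D *
      scRestr {x | lay x = i ∧ (side x ↔ True)} = 0)
    (hAB : ∀ i k : ℤ, |i - k| ≤ 1 → ‖scRestr {x | lay x = i ∧ (side x ↔ True)} * D *
      scRestr {x | lay x = k ∧ (side x ↔ False)}‖ ≤ c)
    (hBA : ∀ i k : ℤ, |i - k| ≤ 1 → ‖scRestr {x | lay x = k ∧ (side x ↔ False)} * D *
      scRestr {x | lay x = i ∧ (side x ↔ True)}‖ ≤ c) :
    ‖D‖ ≤ 6 * c := by
  -- decomposition of a block
  have hdec : ∀ i k : ℤ, scRestr {x | lay x = i} * D * scRestr {x | lay x = k} =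
      scRestr {x | lay x = i ∧ (side x ↔ True)} * D * scRestr {x | lay x = k ∧ (side x ↔ False)} +
      scRestr {x | lay x = i ∧ (side x ↔ False)} * D * scRestr {x | lay x = k ∧ (side x ↔ True)} := by
    intro i k
    rw [kkc_restr_layer lay side i, kkc_restr_layer lay side k]
    simp only [add_mul, mul_add]
    rw [hss True i k, hss False i k]
    abel
  have hfar : ∀ i k : ℤ, 1 < |i - k| → scRestr {x | lay x = i} * D * scRestr {x | lay x = k} = 0 := by
    intro i k hik
    rw [hdec, hAB0 i k hik, hBA0 k i (by rwa [abs_sub_comm]), add_zero]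
  have hblock : ∀ i k : ℤ, ‖scRestr {x | lay x = i} ∘L D ∘L scRestr {y | lay y = k}‖ ≤ 2 * c := by
    intro i k
    have e : scRestr {x | lay x = i} ∘L D ∘L scRestr {y | lay y = k} =
        scRestr {x | lay x = i} * D * scRestr {x | lay x = k} := (mul_assoc _ _ _).symm
    rw [e]
    by_cases hik : |i - k| ≤ 1
    · rw [hdec]
      refine (norm_add_le _ _).trans ?_
      have h1 := hAB i k hik
      have h2 := hBA k i (by rwa [abs_sub_comm])
      linarith
    · rw [hfar i k (not_le.1 hik), norm_zero]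
      positivity
  have hband : ∀ x y, 1 < |lay x - lay y| → D (scDelta y) x = 0 := by
    intro x y hxy
    have h1 := hfar (lay x) (lay y) hxy
    have h2 : (scRestr {z | lay z = lay x} * D * scRestr {z | lay z = lay y}) (scDelta y) x =
        D (scDelta y) x := by
      show scRestr {z | lay z = lay x} (D (scRestr {z | lay z = lay y} (scDelta y))) x = _
      rw [smp_restr_delta_mem (B := {z | lay z = lay y}) (y := y) rfl,
        scRestr_apply_mem (B := {z | lay z = lay x}) _ (a := x) rfl]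
    rw [← h2, h1]
    rfl
  have h := smp_norm_le_of_band D lay hband (2 * c) (by positivity) hblock
  linarith

end asm

/-! ### COMB-C: restrictions to sets of vertices, arcs and `kkTens` (leaf) -/

section arc

variable {F : Type} [Group F] {V J : Type}

/-- restrictions to sets of vertices commute with the arc projections
(they commute with `smpLam z₀` and its adjoint; `kkArc_commute`) -/
theorem kkc_restr_arc (z₀ : F) (S : Set UnitAddCircle) (B : Set V) :
    Commute (scRestr {x : F × (V × J) | x.2.1 ∈ B}) (kkArc (kkU (V × J) z₀) S) := by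
  have hcomm : ∀ g : F, Commute (scRestr {x : F × (V × J) | x.2.1 ∈ B})
      (smpLam g : ScL2 (F × (V × J)) →L[ℂ] ScL2 (F × (V × J))) := by
    intro g
    ext ξ x
    show scRestr {x : F × (V × J) | x.2.1 ∈ B} (smpLam g ξ) x =
      smpLam g (scRestr {x : F × (V × J) | x.2.1 ∈ B} ξ) x
    rw [smpConv_lam_apply]
    by_cases hx : x.2.1 ∈ B
    · rw [scRestr_apply_mem (B := {x : F × (V × J) | x.2.1 ∈ B}) _ (a := x) hx,
        scRestr_apply_mem (B := {x : F × (V × J) | x.2.1 ∈ B}) _ (a := (g⁻¹ * x.1, x.2)) hx,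
        smpConv_lam_apply]
    · rw [scRestr_apply_not_mem (B := {x : F × (V × J) | x.2.1 ∈ B}) _ (a := x) hx,
        scRestr_apply_not_mem (B := {x : F × (V × J) | x.2.1 ∈ B}) _ (a := (g⁻¹ * x.1, x.2)) hx]
  refine kkArc_commute _ S (hcomm z₀) ?_
  have e : star ((kkU (V × J) z₀ : unitary _) : ScL2 (F × (V × J)) →L[ℂ] ScL2 (F × (V × J))) =
      smpLam z₀⁻¹ := smpLam_star z₀
  rw [e]
  exact hcomm z₀⁻¹

open Classical in
/-- the part of a matrix with rows in `B₁` and columns in `B₂` -/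
noncomputable def kkcCut (B₁ B₂ : Set V) (M : V → V → ℂ) : V → V → ℂ :=
  fun v v' => if v ∈ B₁ ∧ v' ∈ B₂ then M v v' else 0

/-- compression of `M ⊗ B` to sets of vertices -/
theorem kkc_restr_tens (M : V → V → ℂ) (S : Finset V) (hM : KkSupp M S)
    (B : ScL2 (F × J) →L[ℂ] ScL2 (F × J)) (B₁ B₂ : Set V) :
    scRestr {x : F × (V × J) | x.2.1 ∈ B₁} * kkTens M B * scRestr {x : F × (V × J) | x.2.1 ∈ B₂}
      = kkTens (kkcCut B₁ B₂ M) B := by
  classical
  have h1 := (kkTens_hasKer M S hM B).restr {x : F × (V × J) | x.2.1 ∈ B₁}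
    {x : F × (V × J) | x.2.1 ∈ B₂}
  have h2 : SmpHasKer (scRestr {x : F × (V × J) | x.2.1 ∈ B₁} ∘L kkTens M B ∘L
      scRestr {x : F × (V × J) | x.2.1 ∈ B₂}) (kkTensK (kkcCut B₁ B₂ M) B) := by
    intro x y
    rw [h1 x y]
    have e1 : kkTensK (kkcCut B₁ B₂ M) B x y =
        (if x.2.1 ∈ B₁ ∧ y.2.1 ∈ B₂ then M x.2.1 y.2.1 else 0) * B (scDelta (y.1, y.2.2)) (x.1, x.2.2) := by
      unfold kkTensK kkcCut
      congr
    have e2 : kkTensK M B x y = M x.2.1 y.2.1 * B (scDelta (y.1, y.2.2)) (x.1, x.2.2) := rfl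
    rw [e1]
    show (if x ∈ {x : F × (V × J) | x.2.1 ∈ B₁} ∧ y ∈ {x : F × (V × J) | x.2.1 ∈ B₂} then
      kkTensK M B x y else 0) = _
    by_cases h : x.2.1 ∈ B₁ ∧ y.2.1 ∈ B₂
    · rw [if_pos h, if_pos (show x ∈ {x : F × (V × J) | x.2.1 ∈ B₁} ∧
        y ∈ {x : F × (V × J) | x.2.1 ∈ B₂} from h), e2]
    · rw [if_neg h, if_neg (show ¬ (x ∈ {x : F × (V × J) | x.2.1 ∈ B₁} ∧
        y ∈ {x : F × (V × J) | x.2.1 ∈ B₂}) from h), zero_mul]
  have h3 := h2.eq_smpKer
  rw [mul_assoc]
  exact h3.symm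

theorem kkc_tens_zero (B : ScL2 (F × J) →L[ℂ] ScL2 (F × J)) :
    kkTens (fun _ _ : V => (0 : ℂ)) B = 0 := by
  have h : SmpHasKer (0 : ScL2 (F × (V × J)) →L[ℂ] ScL2 (F × (V × J)))
      (kkTensK (fun _ _ : V => (0 : ℂ)) B) := by
    intro x y
    unfold kkTensK
    rw [zero_mul]
    rfl
  exact h.eq_smpKer

end arc

end Claimed.Agent.R300
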