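import Claimed.Agent.R300.NilMagnus
import Claimed.Agent.R300.NilPivot

/-!
# KK Section 8, Lemma 8.2 (word detector), final form for the girth step 9.g

Edge matrices `Al d * (1 + x d) * Br d` on positive darts, inverse on negative darts; `x` = free integer
variables.  If `m > nilL C` there is a NONZERO integer polynomial of total degree `≤ m - 1` in the variables
`(d, p)` that vanishes whenever the holonomy of `W` is trivial.  (Then Schwartz-Zippel: `smp_poly_atom`.)

PLAN.  `piv` from `nil_pivot`, `z` from `nil_magnus` for `W.filter piv`; target `t d = if piv d then z d else 0`;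
`cprod (W.map t) = cprod ((W.filter piv).map z) ≠ 0`; integer point `x d = ninv (Al d) ∘ t d ∘ ninv (Br d)`;
generic holonomy over `MvPolynomial (D × Idx m) ℤ` is `Gr`; `P` = a coordinate that does not vanish at this point;
`cmap_cprod`, `cmap_circ`, `cmap_ninv` for the evaluation homomorphism.
-/

set_option autoImplicit false

namespace Claimed.Agent.R300.Nil

open HeisLaw

universe u v

variable {m : ℕ}

/-- voltage in `U_m(A)` of a dart, given the free variables `x` on positive darts -/
def volt {V : Type u} {D : Type v} {A : Type*} [CommRing A] (G : HlGraph V D) (pos : D → Bool)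
    (Al Br x : D → Idx m → A) (d : D) : Idx m → A :=
  if pos d then circ (circ (Al d) (x d)) (Br d)
  else ninv (circ (circ (Al (G.inv d)) (x (G.inv d))) (Br (G.inv d)))

section Helpers

variable {A : Type*} [CommRing A]

theorem nd_cancel_left (x y : Idx m → A) : circ x (circ (ninv x) y) = y := by
  rw [← circ_assoc, circ_ninv, zero_circ]

theorem nd_cancel_right (x y : Idx m → A) : circ (circ y (ninv x)) x = y := by
  rw [circ_assoc, ninv_circ, circ_zero]

/-- all coordinates in a subalgebra -/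
def NdIn (S : Subalgebra ℤ A) (x : Idx m → A) : Prop := ∀ p, x p ∈ S

theorem NdIn.lift {S : Subalgebra ℤ A} {x : Idx m → A} (h : NdIn S x) :
    ∃ x' : Idx m → S, x = cmap (S.val : S →+* A) x' :=
  ⟨fun p => ⟨x p, h p⟩, rfl⟩

theorem ndIn_cmap (S : Subalgebra ℤ A) (x' : Idx m → S) : NdIn S (cmap (S.val : S →+* A) x') :=
  fun p => (x' p).2

theorem NdIn.circ {S : Subalgebra ℤ A} {x y : Idx m → A} (hx : NdIn S x) (hy : NdIn S y) :
    NdIn S (circ x y) := by
  obtain ⟨x', rfl⟩ := hx.lift
  obtain ⟨y', rfl⟩ := hy.lift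
  rw [← cmap_circ]
  exact ndIn_cmap S _

theorem NdIn.ninv {S : Subalgebra ℤ A} {x : Idx m → A} (hx : NdIn S x) : NdIn S (ninv x) := by
  obtain ⟨x', rfl⟩ := hx.lift
  rw [← cmap_ninv]
  exact ndIn_cmap S _

theorem NdIn.cprod {S : Subalgebra ℤ A} {l : List (Idx m → A)} (hl : ∀ x ∈ l, NdIn S x) :
    NdIn S (cprod l) := by
  induction l with
  | nil => intro p; exact S.zero_mem
  | cons x l ih =>
    exact NdIn.circ (hl x (by simp)) (ih fun y hy => hl y (by simp [hy]))

end Helpers

theorem cmap_volt {V : Type u} {D : Type v} {A B : Type*} [CommRing A] [CommRing B] (f : A →+* B)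
    (G : HlGraph V D) (pos : D → Bool) (Al Br x : D → Idx m → A) (d : D) :
    cmap f (volt G pos Al Br x d)
      = volt G pos (fun d => cmap f (Al d)) (fun d => cmap f (Br d)) (fun d => cmap f (x d)) d := by
  unfold volt
  split_ifs
  · simp only [cmap_circ]
  · simp only [cmap_ninv, cmap_circ]

theorem nd_filter {D : Type v} (piv : D → Bool) (z : D → Idx m → ℤ) (W : List D) :
    cprod (W.map fun d => if piv d then z d else 0) = cprod ((W.filter piv).map z) := by
  induction W with
  | nil => rfl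
  | cons d W ih =>
    rw [List.map_cons, cprod_cons, ih]
    by_cases h : piv d = true
    · rw [if_pos h, List.filter_cons_of_pos h, List.map_cons, cprod_cons]
    · rw [if_neg h, List.filter_cons_of_neg h, zero_circ]

theorem nil_detector {V : Type u} {D : Type v} (G : HlGraph V D) (pos : D → Bool)
    (hpos : ∀ d, pos (G.inv d) = !pos d) (g C : ℕ) (a : V) (W : List D)
    (hW : G.IsWalk a W a) (hne : W ≠ []) (hcr : G.CycRed W)
    (hgirth : ∀ (x : V) (c : List D), c ≠ [] → G.IsWalk x c x → G.CycRed c →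
      (∀ d ∈ c, d ∈ W ∨ G.inv d ∈ W) → g < c.length)
    (hlen : W.length ≤ C * g) (hm : nilL C < m) (Al Br : D → Idx m → ℤ) :
    ∃ P : MvPolynomial (D × Idx m) ℤ, P ≠ 0 ∧ P.totalDegree ≤ m - 1 ∧
      (∀ v ∈ P.vars, pos v.1 = true ∧ (v.1 ∈ W ∨ G.inv v.1 ∈ W)) ∧
      ∀ x : D → Idx m → ℤ, cprod (W.map (volt G pos Al Br x)) = 0 →
        MvPolynomial.eval (fun v : D × Idx m => x v.1 v.2) P = 0 := by
  classical
  obtain ⟨piv, hpi, hpne, hpch, hplen⟩ := nil_pivot G g C a W hW hne hcr hgirth hlen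
  obtain ⟨z, hz, hz0⟩ := nil_magnus G.inv G.inv_inv G.inv_ne (W.filter piv) hpne hpch
    (lt_of_le_of_lt hplen hm)
  -- the target voltages
  obtain ⟨t, ht⟩ : ∃ t : D → Idx m → ℤ, t = fun d => if piv d then z d else 0 := ⟨_, rfl⟩
  have htinv : ∀ d, t (G.inv d) = ninv (t d) := by
    intro d
    rw [ht]
    simp only [hpi]
    split_ifs
    · exact hz d
    · exact ninv_zero.symm
  obtain ⟨x₀, hx₀⟩ : ∃ x₀ : D → Idx m → ℤ,
      x₀ = fun d => circ (circ (ninv (Al d)) (t d)) (ninv (Br d)) := ⟨_, rfl⟩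
  have hcore : ∀ d, circ (circ (Al d) (x₀ d)) (Br d) = t d := by
    intro d
    rw [hx₀]
    simp only
    rw [circ_assoc (ninv (Al d)), nd_cancel_left, nd_cancel_right]
  have hvolt : ∀ d, volt G pos Al Br x₀ d = t d := by
    intro d
    unfold volt
    split_ifs
    · exact hcore d
    · rw [hcore, htinv, ninv_ninv]
  have hne0 : cprod (W.map (volt G pos Al Br x₀)) ≠ 0 := by
    have e : volt G pos Al Br x₀ = t := funext hvolt
    rw [e, ht, nd_filter]
    exact hz0
  -- the generic holonomy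
  obtain ⟨AlP, hAlP⟩ : ∃ AlP : D → Idx m → MvPolynomial (D × Idx m) ℤ,
      AlP = fun d => cmap (MvPolynomial.C : ℤ →+* MvPolynomial (D × Idx m) ℤ) (Al d) := ⟨_, rfl⟩
  obtain ⟨BrP, hBrP⟩ : ∃ BrP : D → Idx m → MvPolynomial (D × Idx m) ℤ,
      BrP = fun d => cmap (MvPolynomial.C : ℤ →+* MvPolynomial (D × Idx m) ℤ) (Br d) := ⟨_, rfl⟩
  obtain ⟨Xg, hXg⟩ : ∃ Xg : D → Idx m → MvPolynomial (D × Idx m) ℤ,
      Xg = fun d p => MvPolynomial.X (d, p) := ⟨_, rfl⟩
  obtain ⟨H, hH⟩ : ∃ H : Idx m → MvPolynomial (D × Idx m) ℤ,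
      H = cprod (W.map (volt G pos AlP BrP Xg)) := ⟨_, rfl⟩
  have hev : ∀ x : D → Idx m → ℤ,
      cmap (MvPolynomial.eval (fun v : D × Idx m => x v.1 v.2)) H
        = cprod (W.map (volt G pos Al Br x)) := by
    intro x
    rw [hH, cmap_cprod, List.map_map]
    congr 1
    refine List.map_congr_left fun d _ => ?_
    rw [Function.comp_apply, cmap_volt]
    congr 1
    · funext d p
      rw [hAlP]
      simp
    · funext d p
      rw [hBrP]
      simp
    · funext d p
      rw [hXg]
      simp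
  have hGrX : ∀ d, Gr (Xg d) := by
    intro d p
    rw [hXg]
    simp only [MvPolynomial.totalDegree_X]
    exact wtB_pos p
  have hGrA : ∀ d, Gr (AlP d) := by
    intro d; rw [hAlP]; exact Gr.const _
  have hGrB : ∀ d, Gr (BrP d) := by
    intro d; rw [hBrP]; exact Gr.const _
  have hGr : Gr H := by
    rw [hH]
    refine Gr.cprod fun y hy => ?_
    obtain ⟨d, _, rfl⟩ := List.mem_map.1 hy
    unfold volt
    split_ifs
    · exact ((hGrA d).circ (hGrX d)).circ (hGrB d)
    · exact (((hGrA _).circ (hGrX _)).circ (hGrB _)).ninv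
  -- the variables
  obtain ⟨S, hS⟩ : ∃ S : Set (D × Idx m),
      S = {v | pos v.1 = true ∧ (v.1 ∈ W ∨ G.inv v.1 ∈ W)} := ⟨_, rfl⟩
  have hInC : ∀ y : Idx m → ℤ, NdIn (MvPolynomial.supported ℤ S)
      (cmap (MvPolynomial.C : ℤ →+* MvPolynomial (D × Idx m) ℤ) y) := by
    intro y p
    exact (MvPolynomial.supported ℤ S).algebraMap_mem (y p)
  have hInX : ∀ d, pos d = true → (d ∈ W ∨ G.inv d ∈ W) →
      NdIn (MvPolynomial.supported ℤ S) (Xg d) := by
    intro d h1 h2 p
    rw [hXg]
    apply MvPolynomial.X_mem_supported.2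
    rw [hS]
    exact ⟨h1, h2⟩
  have hIn : NdIn (MvPolynomial.supported ℤ S) H := by
    rw [hH]
    refine NdIn.cprod fun y hy => ?_
    obtain ⟨d, hd, rfl⟩ := List.mem_map.1 hy
    unfold volt
    split_ifs with hp
    · rw [hAlP, hBrP]
      exact ((hInC _).circ (hInX d hp (Or.inl hd))).circ (hInC _)
    · rw [hAlP, hBrP]
      have hp' : pos (G.inv d) = true := by
        rw [hpos]
        simpa using hp
      exact (((hInC _).circ (hInX _ hp' (Or.inr (by rw [G.inv_inv]; exact hd)))).circ (hInC _)).ninv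
  -- the coordinate
  rw [← hev x₀] at hne0
  obtain ⟨p, hp⟩ := Function.ne_iff.1 hne0
  refine ⟨H p, ?_, ?_, ?_, ?_⟩
  · intro h0
    apply hp
    rw [cmap_apply, h0, map_zero]
    rfl
  · have := wtB_lt p
    exact (hGr p).trans (by omega)
  · intro v hv
    have h1 := MvPolynomial.mem_supported.1 (hIn p)
    have h2 : v ∈ S := h1 (by exact_mod_cast hv)
    rw [hS] at h2
    exact h2
  · intro x hx
    have := congrFun (hev x) p
    rw [hx, cmap_apply] at this
    exact this

end Claimed.Agent.R300.Nil
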