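/-
Row 300, KK steps 9.g-9.i (`kk_realize` of `KkModel.lean`).  Sub-captain: helper121.
File `KkRzFin`: numbers, finite pieces of the tower graph (layers, blocks, neighbourhoods of a layer).
-/
import Claimed.Agent.R300.KkModel
import Claimed.Agent.R300.SmpBlock
import Claimed.Agent.R300.SmpCount
import Claimed.Agent.R300.NilDetect

set_option autoImplicit false

namespace Claimed.Agent.R300

open Nil HeisLaw
open scoped ENNReal ComplexConjugate InnerProductSpace Matrix.Norms.L2Operator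

/-! ## Numbers -/

theorem kkDik_le (ℓ : ℕ) (i k : ℤ) (h : |i - k| ≤ 1) : kkDik ℓ i k ≤ 2 * kkD ℓ := by
  unfold kkDik
  have he : i.natAbs + 1 - k.natAbs ≤ 2 := by
    have := abs_le.1 h
    omega
  have h2 : 2 ^ (i.natAbs + 1 - k.natAbs) ≤ 2 ^ 2 := Nat.pow_le_pow_right (by norm_num) he
  have h3 : kkD ℓ * 2 ^ (i.natAbs + 1 - k.natAbs) ≤ kkD ℓ * 2 ^ 2 := Nat.mul_le_mul_left _ h2
  omega

theorem kkD_le_kkDik (ℓ : ℕ) (hℓ : 1 ≤ ℓ) (i k : ℤ) (h : |i - k| ≤ 1) : kkD ℓ ≤ 2 * kkDik ℓ i k := by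
  unfold kkDik
  have hev : 2 ∣ kkD ℓ := by
    unfold kkD kkd
    obtain ⟨n, rfl⟩ : ∃ n, ℓ = n + 1 := ⟨ℓ - 1, by omega⟩
    exact Dvd.dvd.pow (Dvd.intro_left (2 ^ (4 * n + 3)) (by rw [← pow_succ]; congr 1)) (by norm_num)
  have h1 : 2 ∣ kkD ℓ * 2 ^ (i.natAbs + 1 - k.natAbs) := Dvd.dvd.mul_right hev _
  rw [Nat.mul_div_cancel' h1]
  exact Nat.le_mul_of_pos_right _ (by positivity)

theorem kkd_le_kkD (ℓ : ℕ) : kkd ℓ ≤ kkD ℓ := by
  unfold kkD
  have : 0 < kkd ℓ := by unfold kkd; positivity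
  nlinarith

/-- radius of the girth event of the layer `i`. -/
def kkRad (ℓ Cstar : ℕ) (i : ℤ) : ℕ := Cstar * kkH ℓ i / (4 * ℓ)

namespace KkGraph

variable {ℓ : ℕ} (Y : KkGraph ℓ)

/-! ## Finite pieces -/

theorem finite_A (i : ℤ) : {v | Y.lay v = i ∧ Y.sideA v}.Finite := by
  have hne : Nat.card {v // Y.lay v = i ∧ Y.sideA v} ≠ 0 := by
    rw [Y.cardA i]
    unfold kkd
    positivity
  exact Set.finite_coe_iff.1 (Nat.finite_of_card_ne_zero hne)

theorem finite_B (i : ℤ) : {v | Y.lay v = i ∧ ¬ Y.sideA v}.Finite := by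
  have hne : Nat.card {v // Y.lay v = i ∧ ¬ Y.sideA v} ≠ 0 := by
    rw [Y.cardB i]
    positivity
  exact Set.finite_coe_iff.1 (Nat.finite_of_card_ne_zero hne)

/-- the layer `A_i`. -/
noncomputable def fA (i : ℤ) : Finset Y.V0 := (Y.finite_A i).toFinset

/-- the layer `B_i`. -/
noncomputable def fB (i : ℤ) : Finset Y.V0 := (Y.finite_B i).toFinset

theorem mem_fA {i : ℤ} {v : Y.V0} : v ∈ Y.fA i ↔ Y.lay v = i ∧ Y.sideA v := by
  simp [fA]

theorem mem_fB {i : ℤ} {v : Y.V0} : v ∈ Y.fB i ↔ Y.lay v = i ∧ ¬ Y.sideA v := by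
  simp [fB]

theorem card_fA (i : ℤ) : (Y.fA i).card = kkd ℓ * 2 ^ kkH ℓ i := by
  unfold fA
  rw [← Set.ncard_eq_toFinset_card _ (Y.finite_A i), ← Nat.card_coe_set_eq]
  exact Y.cardA i

theorem card_fB (i : ℤ) : (Y.fB i).card = 2 ^ kkH ℓ i := by
  unfold fB
  rw [← Set.ncard_eq_toFinset_card _ (Y.finite_B i), ← Nat.card_coe_set_eq]
  exact Y.cardB i

/-- edges whose source layer lies in a bounded interval. -/
theorem finite_E (i : ℤ) (r : ℕ) : {e | |Y.lay (Y.src e) - i| ≤ r}.Finite := by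
  have h1 : ∀ a, Y.sideA a → ∀ k, |Y.lay a - k| ≤ 1 →
      {e | Y.src e = a ∧ Y.lay (Y.tgt e) = k}.Finite := by
    intro a ha k hk
    have hne : Nat.card {e // Y.src e = a ∧ Y.lay (Y.tgt e) = k} ≠ 0 := by
      rw [Y.degA a ha k hk]
      unfold kkd
      positivity
    exact Set.finite_coe_iff.1 (Nat.finite_of_card_ne_zero hne)
  have h2 : ∀ a, Y.sideA a → {e | Y.src e = a}.Finite := by
    intro a ha
    have hsub : {e | Y.src e = a} ⊆ ⋃ k ∈ Set.Icc (Y.lay a - 1) (Y.lay a + 1),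
        {e | Y.src e = a ∧ Y.lay (Y.tgt e) = k} := by
      intro e he
      have he' : Y.src e = a := he
      have hb := abs_le.1 (Y.band e)
      rw [he'] at hb
      simp only [Set.mem_iUnion]
      exact ⟨Y.lay (Y.tgt e), ⟨by linarith [hb.2], by linarith [hb.1]⟩, he', rfl⟩
    refine Set.Finite.subset (Set.Finite.biUnion (Set.finite_Icc _ _) fun k hk => h1 a ha k ?_) hsub
    rw [abs_le]
    exact ⟨by linarith [hk.2], by linarith [hk.1]⟩
  have h3 : {e | |Y.lay (Y.src e) - i| ≤ r} ⊆ ⋃ j ∈ Set.Icc (i - r) (i + r),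
      ⋃ a ∈ {v | Y.lay v = j ∧ Y.sideA v}, {e | Y.src e = a} := by
    intro e he
    have he' := abs_le.1 (show |Y.lay (Y.src e) - i| ≤ r from he)
    simp only [Set.mem_iUnion]
    exact ⟨Y.lay (Y.src e), ⟨by linarith [he'.1], by linarith [he'.2]⟩, Y.src e,
      ⟨rfl, Y.src_A e⟩, rfl⟩
  exact Set.Finite.subset (Set.Finite.biUnion (Set.finite_Icc _ _) fun j _ =>
    Set.Finite.biUnion (Y.finite_A j) fun a ha => h2 a ha.2) h3

/-- kept edges whose source layer is within `r` of `i`. -/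
noncomputable def nearE (i : ℤ) (r : ℕ) : Finset Y.E0 :=
  ((Y.finite_E i r).subset (t := {e | Y.keepE e ∧ |Y.lay (Y.src e) - i| ≤ r}) fun _ h => h.2).toFinset

theorem mem_nearE {i : ℤ} {r : ℕ} {e : Y.E0} :
    e ∈ Y.nearE i r ↔ Y.keepE e ∧ |Y.lay (Y.src e) - i| ≤ r := by
  simp [nearE]

/-- kept edges of the block `(i, k)`. -/
noncomputable def blkE (i k : ℤ) : Finset Y.E0 :=
  ((Y.finite_E i 0).subset (t := {e | Y.keepE e ∧ Y.lay (Y.src e) = i ∧ Y.lay (Y.tgt e) = k})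
    fun e h => by
      have h1 : Y.lay (Y.src e) = i := h.2.1
      simp [h1]).toFinset

theorem mem_blkE {i k : ℤ} {e : Y.E0} :
    e ∈ Y.blkE i k ↔ Y.keepE e ∧ Y.lay (Y.src e) = i ∧ Y.lay (Y.tgt e) = k := by
  simp [blkE]

/-- vertices of the block `(i, k)`. -/
noncomputable def blkV [DecidableEq Y.V0] (i k : ℤ) : Finset Y.V0 := Y.fA i ∪ Y.fB k

theorem card_blkV_le [DecidableEq Y.V0] (i k : ℤ) :
    (Y.blkV i k).card ≤ kkd ℓ * 2 ^ kkH ℓ i + 2 ^ kkH ℓ k := by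
  unfold blkV
  refine (Finset.card_union_le _ _).trans ?_
  rw [card_fA, card_fB]

theorem src_mem_blkV [DecidableEq Y.V0] {i k : ℤ} (e : Y.blkE i k) : Y.src e ∈ Y.blkV i k :=
  Finset.mem_union_left _ (Y.mem_fA.2 ⟨(Y.mem_blkE.1 e.2).2.1, Y.src_A e⟩)

theorem tgt_mem_blkV [DecidableEq Y.V0] {i k : ℤ} (e : Y.blkE i k) : Y.tgt e ∈ Y.blkV i k :=
  Finset.mem_union_right _ (Y.mem_fB.2 ⟨(Y.mem_blkE.1 e.2).2.2, Y.tgt_B e⟩)

/-- source map of the finite block graph. -/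
noncomputable def bsrc [DecidableEq Y.V0] (i k : ℤ) (e : Y.blkE i k) : Y.blkV i k :=
  ⟨Y.src e, Y.src_mem_blkV e⟩

/-- target map of the finite block graph. -/
noncomputable def btgt [DecidableEq Y.V0] (i k : ℤ) (e : Y.blkE i k) : Y.blkV i k :=
  ⟨Y.tgt e, Y.tgt_mem_blkV e⟩

/-- the dart graph on a finite set of edges (vertices: all of `V0`). -/
def sub (S : Finset Y.E0) : HlGraph Y.V0 (S × Bool) :=
  smpGraph (fun e : S => Y.src e) (fun e : S => Y.tgt e)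

end KkGraph

end Claimed.Agent.R300
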