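/-
Row 300, KK steps 9.g-9.i (`kk_realize` of `KkModel.lean`).  Sub-captain: helper121.
File `KkRzBNum`: numerics of step 9.h.
-/
import Claimed.Agent.R300.KkRzFin

set_option autoImplicit false

namespace Claimed.Agent.R300

open Nil HeisLaw
open scoped ENNReal ComplexConjugate InnerProductSpace Matrix.Norms.L2Operator

theorem kkrz_kkD_pos (ℓ : ℕ) : 0 < kkD ℓ := by
  unfold kkD kkd
  positivity

theorem kkrz_kkd_pos (ℓ : ℕ) : 0 < kkd ℓ := by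
  unfold kkd
  positivity

theorem kkrz_kkDik_pos {ℓ : ℕ} (hℓ : 1 ≤ ℓ) (i k : ℤ) (hik : |i - k| ≤ 1) : 0 < kkDik ℓ i k := by
  have h1 := kkD_le_kkDik ℓ hℓ i k hik
  have h2 := kkrz_kkD_pos ℓ
  omega

theorem kkrz_nrm_sq (ℓ : ℕ) (i k : ℤ) : kkNrm ℓ i k ^ 2 = (kkd ℓ : ℝ) * kkDik ℓ i k := by
  unfold kkNrm
  exact Real.sq_sqrt (by positivity)

/-- `1 ≤ √(d D_ik)`. -/
theorem kkNrm_one_le {ℓ : ℕ} (hℓ : 1 ≤ ℓ) (i k : ℤ) (hik : |i - k| ≤ 1) : 1 ≤ kkNrm ℓ i k := by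
  unfold kkNrm
  rw [Real.one_le_sqrt]
  have h1 : (1 : ℝ) ≤ kkd ℓ := by exact_mod_cast kkrz_kkd_pos ℓ
  have h2 : (1 : ℝ) ≤ kkDik ℓ i k := by exact_mod_cast kkrz_kkDik_pos hℓ i k hik
  nlinarith

/-- half length of the walks of the moment method in the block `(i, ·)`. -/
def kkrzL (ℓ C2 : ℕ) (i : ℤ) : ℕ := C2 * kkH ℓ i / (4 * ℓ) + 1

/-- `l ≤ 200 C₂ g`. -/
theorem kkrz_num_len (C2 : ℕ) (hC2 : 1 ≤ C2) (ℓ : ℕ) (hℓ : 1 ≤ ℓ) (i : ℤ) :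
    kkrzL ℓ C2 i ≤ 200 * C2 * ((kkH ℓ i - 1) / (400 * ℓ)) := by
  unfold kkrzL
  set H := kkH ℓ i with hH
  set g := (H - 1) / (400 * ℓ) with hg
  have hpos : 0 < 400 * ℓ := by omega
  have hH1 : 20010 * ℓ + 1 ≤ H := by
    rw [hH]; unfold kkH; omega
  have hg50 : 50 ≤ g := by
    rw [hg, Nat.le_div_iff_mul_le hpos]
    omega
  have hlt : H - 1 < 400 * ℓ * (g + 1) := by
    have := Nat.lt_mul_div_succ (H - 1) hpos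
    simpa [hg] using this
  have hHle : H ≤ 400 * ℓ * (g + 1) := by omega
  have h1 : C2 * H / (4 * ℓ) ≤ 100 * C2 * (g + 1) := by
    apply Nat.div_le_of_le_mul
    calc C2 * H ≤ C2 * (400 * ℓ * (g + 1)) := Nat.mul_le_mul_left _ hHle
      _ = 4 * ℓ * (100 * C2 * (g + 1)) := by ring
  have h2 : 100 * C2 * (g + 1) + 1 ≤ 200 * C2 * g := by
    have : C2 * 50 ≤ C2 * g := Nat.mul_le_mul_left _ hg50
    have e1 : 100 * C2 * (g + 1) = 100 * (C2 * g) + 100 * C2 := by ring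
    have e2 : 200 * C2 * g = 200 * (C2 * g) := by ring
    omega
  omega

theorem kkrz_H0_le (ℓ : ℕ) (i : ℤ) : kkH ℓ 0 ≤ kkH ℓ i := by
  unfold kkH
  simp

theorem kkrz_Hk_le (ℓ : ℕ) (i k : ℤ) (hik : |i - k| ≤ 1) : kkH ℓ k ≤ kkH ℓ i + 1 := by
  unfold kkH
  have := abs_le.1 hik
  omega

theorem kkrz_H_ge (ℓ : ℕ) (i : ℤ) : 20010 * ℓ + 1 ≤ kkH ℓ i := by
  unfold kkH
  omega

/-- the Foelner error is below half of the threshold. -/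
theorem kkrz_num_box (CN : ℕ) (Cc Cw ε : ℝ) (hCc : 0 ≤ Cc) (hCw : 0 ≤ Cw) (hε : 0 < ε) :
    ∃ ℓ₀ : ℕ, ∀ ℓ ≥ ℓ₀, ∀ (i k : ℤ), |i - k| ≤ 1 → ∀ cJ : ℝ, 0 ≤ cJ → cJ ≤ 2 ^ (CN * kkH ℓ 0) →
      Cc * ((((2 ^ kkH ℓ i : ℕ) : ℝ)) ^ (CN + 9))⁻¹ * (2 * ((2 * kkD ℓ : ℕ) : ℝ) * Cw * cJ)
        ≤ kkNrm ℓ i k * ε / 2 := by
  obtain ⟨n, hn⟩ := pow_unbounded_of_one_lt (8 * Cc * Cw / ε) (one_lt_two : (1 : ℝ) < 2)
  refine ⟨n + 1, fun ℓ hℓ i k hik cJ hcJ0 hcJ => ?_⟩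
  have hℓ1 : 1 ≤ ℓ := by omega
  have hnrm := kkNrm_one_le hℓ1 i k hik
  set H := kkH ℓ i with hH
  have hH0 : kkH ℓ 0 ≤ H := kkrz_H0_le ℓ i
  have hHge : 20010 * ℓ + 1 ≤ H := kkrz_H_ge ℓ i
  have h2ℓ : 8 * Cc * Cw / ε ≤ 2 ^ ℓ :=
    hn.le.trans (pow_le_pow_right₀ (by norm_num) (by omega))
  have h2ℓ' : 8 * Cc * Cw ≤ 2 ^ ℓ * ε := by
    rwa [div_le_iff₀ hε] at h2ℓ
  -- the powers of two
  have e1 : (((2 ^ H : ℕ) : ℝ)) ^ (CN + 9) = 2 ^ (H * (CN + 9)) := by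
    push_cast
    rw [← pow_mul]
  have e2 : ((2 * kkD ℓ : ℕ) : ℝ) = 2 ^ (8 * ℓ + 1) := by
    unfold kkD kkd
    push_cast
    rw [← pow_mul, pow_succ]
    ring_nf
  rw [e1, e2]
  have hcJ' : cJ ≤ 2 ^ (CN * H) :=
    hcJ.trans (pow_le_pow_right₀ (by norm_num) (Nat.mul_le_mul_left _ hH0))
  have hexp : H * (CN + 9) = CN * H + (8 * ℓ + 1) + 1 + ℓ + (9 * H - (8 * ℓ + 1) - 1 - ℓ) := by
    have : H * (CN + 9) = CN * H + 9 * H := by ring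
    omega
  have hbig : (2 : ℝ) ^ (CN * H) * 2 ^ (8 * ℓ + 1) * 2 * 2 ^ ℓ ≤ 2 ^ (H * (CN + 9)) := by
    rw [hexp]
    generalize 9 * H - (8 * ℓ + 1) - 1 - ℓ = R
    generalize 8 * ℓ + 1 = a
    have : (1 : ℝ) ≤ 2 ^ R := one_le_pow₀ (by norm_num)
    have hp : (0 : ℝ) ≤ 2 ^ (CN * H) * 2 ^ a * 2 * 2 ^ ℓ := by positivity
    rw [pow_add, pow_add, pow_add, pow_add, pow_one]
    exact le_mul_of_one_le_right hp this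
  have hP : (0 : ℝ) < 2 ^ (H * (CN + 9)) := by positivity
  have step1 : Cc * ((2 : ℝ) ^ (H * (CN + 9)))⁻¹ * (2 * 2 ^ (8 * ℓ + 1) * Cw * cJ)
      ≤ Cc * Cw * ((2 : ℝ) ^ ℓ)⁻¹ := by
    have hA : 2 * (2 : ℝ) ^ (8 * ℓ + 1) * cJ * 2 ^ ℓ ≤ 2 ^ (H * (CN + 9)) := by
      refine le_trans ?_ hbig
      have : 2 * (2 : ℝ) ^ (8 * ℓ + 1) * cJ * 2 ^ ℓ = cJ * (2 ^ (8 * ℓ + 1) * 2 * 2 ^ ℓ) := by ring
      rw [this]
      have : (2 : ℝ) ^ (CN * H) * 2 ^ (8 * ℓ + 1) * 2 * 2 ^ ℓ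
          = 2 ^ (CN * H) * (2 ^ (8 * ℓ + 1) * 2 * 2 ^ ℓ) := by ring
      rw [this]
      exact mul_le_mul_of_nonneg_right hcJ' (by positivity)
    have hB : ((2 : ℝ) ^ (H * (CN + 9)))⁻¹ * (2 * 2 ^ (8 * ℓ + 1) * cJ) ≤ ((2 : ℝ) ^ ℓ)⁻¹ := by
      rw [inv_mul_le_iff₀ hP, ← div_eq_mul_inv, le_div_iff₀ (by positivity)]
      exact hA
    calc Cc * ((2 : ℝ) ^ (H * (CN + 9)))⁻¹ * (2 * 2 ^ (8 * ℓ + 1) * Cw * cJ)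
        = Cc * Cw * (((2 : ℝ) ^ (H * (CN + 9)))⁻¹ * (2 * 2 ^ (8 * ℓ + 1) * cJ)) := by ring
      _ ≤ Cc * Cw * ((2 : ℝ) ^ ℓ)⁻¹ := mul_le_mul_of_nonneg_left hB (by positivity)
  have step2 : Cc * Cw * ((2 : ℝ) ^ ℓ)⁻¹ ≤ ε / 2 := by
    rw [← div_eq_mul_inv, div_le_iff₀ (by positivity)]
    nlinarith
  have step3 : ε / 2 ≤ kkNrm ℓ i k * ε / 2 := by nlinarith
  exact step1.trans (step2.trans step3)

/-- the moment bound is at most `2^(-4 H_i)`. -/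
theorem kkrz_num_tail (CN c K : ℕ) (Cw ε : ℝ) (hCw : 0 ≤ Cw) (hε : 0 < ε) :
    ∃ ℓ₀ : ℕ, ∀ ℓ ≥ ℓ₀, ∀ (i k : ℤ), |i - k| ≤ 1 → ∀ cV cJ cB : ℝ, 0 ≤ cV → 0 ≤ cJ → 0 ≤ cB →
      cV ≤ ((kkd ℓ * 2 ^ kkH ℓ i + 2 ^ kkH ℓ k : ℕ) : ℝ) → cJ ≤ 2 ^ (CN * kkH ℓ 0) →
      cB ≤ (((2 ^ kkH ℓ i : ℕ) : ℝ)) ^ c →
      (cV * (cJ * cB) * (((K * (2 * kkD ℓ)) ^ kkrzL ℓ (2 * (CN + c + 7)) i : ℕ) : ℝ))
          * (2 * Cw / (kkNrm ℓ i k * ε / 2)) ^ (2 * kkrzL ℓ (2 * (CN + c + 7)) i)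
        ≤ ((2 : ℝ) ^ (4 * kkH ℓ i))⁻¹ := by
  obtain ⟨n, hn⟩ := pow_unbounded_of_one_lt (64 * K * Cw ^ 2 / ε ^ 2) (one_lt_two : (1 : ℝ) < 2)
  refine ⟨n + 1, fun ℓ hℓ i k hik cV cJ cB hcV0 hcJ0 hcB0 hcV hcJ hcB => ?_⟩
  have hℓ1 : 1 ≤ ℓ := by omega
  have hnrm := kkNrm_one_le hℓ1 i k hik
  have hnpos : 0 < kkNrm ℓ i k := by linarith
  set H := kkH ℓ i with hH
  set L := kkrzL ℓ (2 * (CN + c + 7)) i with hL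
  have hH0 : kkH ℓ 0 ≤ H := kkrz_H0_le ℓ i
  have hHk : kkH ℓ k ≤ H + 1 := kkrz_Hk_le ℓ i k hik
  have hHge : 20010 * ℓ + 1 ≤ H := kkrz_H_ge ℓ i
  have hX : 64 * K * Cw ^ 2 / ε ^ 2 ≤ 2 ^ ℓ :=
    hn.le.trans (pow_le_pow_right₀ (by norm_num) (by omega))
  -- the length
  have hLbig : 2 * (CN + c + 7) * H < 4 * ℓ * L := by
    rw [hL]
    unfold kkrzL
    exact Nat.lt_mul_div_succ _ (by omega)
  have hexp : (2 + CN + c) * H + 4 * H ≤ 3 * ℓ * L := by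
    have e1 : 2 * (CN + c + 7) * H = 2 * (CN * H) + 2 * (c * H) + 14 * H := by ring
    have e2 : (2 + CN + c) * H + 4 * H = CN * H + c * H + 6 * H := by ring
    have e3 : 4 * ℓ * L = 4 * (ℓ * L) := by ring
    have e4 : 3 * ℓ * L = 3 * (ℓ * L) := by ring
    omega
  -- the prefactor
  have hcV' : cV ≤ 2 ^ (2 * H) := by
    refine hcV.trans ?_
    have : kkd ℓ * 2 ^ H + 2 ^ kkH ℓ k ≤ 2 ^ (2 * H) := by
      unfold kkd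
      have a1 : 2 ^ (4 * ℓ) * 2 ^ H = 2 ^ (4 * ℓ + H) := by rw [pow_add]
      have a2 : 2 ^ (4 * ℓ + H) ≤ 2 ^ (2 * H - 1) := Nat.pow_le_pow_right (by norm_num) (by omega)
      have a3 : 2 ^ kkH ℓ k ≤ 2 ^ (2 * H - 1) := Nat.pow_le_pow_right (by norm_num) (by omega)
      have a4 : 2 ^ (2 * H) = 2 * 2 ^ (2 * H - 1) := by
        rw [← pow_succ']
        congr 1
        omega
      omega
    exact_mod_cast this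
  have hcJ' : cJ ≤ 2 ^ (CN * H) :=
    hcJ.trans (pow_le_pow_right₀ (by norm_num) (Nat.mul_le_mul_left _ hH0))
  have hcB' : cB ≤ 2 ^ (c * H) := by
    refine hcB.trans (le_of_eq ?_)
    push_cast
    rw [← pow_mul, mul_comm]
  have hpre : cV * (cJ * cB) ≤ 2 ^ ((2 + CN + c) * H) := by
    have e : (2 : ℝ) ^ ((2 + CN + c) * H) = 2 ^ (2 * H) * (2 ^ (CN * H) * 2 ^ (c * H)) := by
      rw [← pow_add, ← pow_add]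
      congr 1
      ring
    rw [e]
    exact mul_le_mul hcV' (mul_le_mul hcJ' hcB' hcB0 (by positivity)) (by positivity)
      (by positivity)
  -- the main factor
  have hd : (kkd ℓ : ℝ) = 2 ^ (4 * ℓ) := by
    unfold kkd
    push_cast
    rfl
  have hDpos : (0 : ℝ) < kkD ℓ := by exact_mod_cast kkrz_kkD_pos ℓ
  have hDik : (kkD ℓ : ℝ) ≤ 2 * kkDik ℓ i k := by exact_mod_cast kkD_le_kkDik ℓ hℓ1 i k hik
  have hDikpos : (0 : ℝ) < kkDik ℓ i k := by exact_mod_cast kkrz_kkDik_pos hℓ1 i k hik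
  have hmain : (((K * (2 * kkD ℓ)) ^ L : ℕ) : ℝ) * (2 * Cw / (kkNrm ℓ i k * ε / 2)) ^ (2 * L)
      ≤ ((1 / 2 : ℝ) ^ (3 * ℓ)) ^ L := by
    push_cast
    rw [pow_mul, ← mul_pow]
    apply pow_le_pow_left₀ (by positivity)
    have e : (2 * Cw / (kkNrm ℓ i k * ε / 2)) ^ 2 = 16 * Cw ^ 2 / (kkNrm ℓ i k ^ 2 * ε ^ 2) := by
      field_simp
      ring
    rw [e, kkrz_nrm_sq, hd]
    have h4 : (0 : ℝ) < 2 ^ (4 * ℓ) := by positivity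
    have hε2 : 0 < ε ^ 2 := by positivity
    have e3 : (1 / 2 : ℝ) ^ (3 * ℓ) = 2 ^ ℓ / 2 ^ (4 * ℓ) := by
      rw [eq_div_iff h4.ne', one_div, inv_pow]
      have : (2 : ℝ) ^ (4 * ℓ) = 2 ^ (3 * ℓ) * 2 ^ ℓ := by
        rw [← pow_add]; congr 1; omega
      rw [this]
      field_simp
    rw [e3]
    have hX' : 64 * K * Cw ^ 2 ≤ 2 ^ ℓ * ε ^ 2 := by
      rwa [div_le_iff₀ hε2] at hX
    rw [mul_div_assoc', div_le_div_iff₀ (by positivity) h4]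
    -- K * (2 D) * (16 Cw^2) * 2^(4ℓ) ≤ 2^ℓ * (2^(4ℓ) * Dik * ε^2)
    have hKC : (0 : ℝ) ≤ K * Cw ^ 2 := by positivity
    calc (K : ℝ) * (2 * kkD ℓ) * (16 * Cw ^ 2) * 2 ^ (4 * ℓ)
        = (32 * (K * Cw ^ 2) * 2 ^ (4 * ℓ)) * kkD ℓ := by ring
      _ ≤ (32 * (K * Cw ^ 2) * 2 ^ (4 * ℓ)) * (2 * kkDik ℓ i k) :=
          mul_le_mul_of_nonneg_left hDik (by positivity)
      _ = (64 * K * Cw ^ 2) * (2 ^ (4 * ℓ) * kkDik ℓ i k) := by ring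
      _ ≤ (2 ^ ℓ * ε ^ 2) * (2 ^ (4 * ℓ) * kkDik ℓ i k) :=
          mul_le_mul_of_nonneg_right hX' (by positivity)
      _ = 2 ^ ℓ * (2 ^ (4 * ℓ) * kkDik ℓ i k * ε ^ 2) := by ring
  have hfac0 : (0 : ℝ) ≤ (((K * (2 * kkD ℓ)) ^ L : ℕ) : ℝ)
      * (2 * Cw / (kkNrm ℓ i k * ε / 2)) ^ (2 * L) := by positivity
  calc (cV * (cJ * cB) * (((K * (2 * kkD ℓ)) ^ L : ℕ) : ℝ))
        * (2 * Cw / (kkNrm ℓ i k * ε / 2)) ^ (2 * L)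
      = (cV * (cJ * cB)) * ((((K * (2 * kkD ℓ)) ^ L : ℕ) : ℝ)
        * (2 * Cw / (kkNrm ℓ i k * ε / 2)) ^ (2 * L)) := by ring
    _ ≤ 2 ^ ((2 + CN + c) * H) * ((1 / 2 : ℝ) ^ (3 * ℓ)) ^ L :=
        mul_le_mul hpre hmain hfac0 (by positivity)
    _ ≤ ((2 : ℝ) ^ (4 * H))⁻¹ := by
        rw [← pow_mul, one_div, inv_pow, ← div_eq_mul_inv,
          div_le_iff₀ (by positivity), inv_mul_eq_div, le_div_iff₀ (by positivity), ← pow_add]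
        exact pow_le_pow_right₀ (by norm_num) hexp

end Claimed.Agent.R300
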