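/-
Row 300, KK steps 9.g-9.i (`kk_realize` of `KkModel.lean`).  Sub-captain: helper121.
File `KkRzDeg`: degree bounds.
-/
import Claimed.Agent.R300.KkRzFin

set_option autoImplicit false

namespace Claimed.Agent.R300

open Nil HeisLaw
open scoped ENNReal ComplexConjugate InnerProductSpace Matrix.Norms.L2Operator

/-- a finset inside a finite set has at most `Nat.card` elements. -/
theorem kkrz_card_le {α : Type*} (P : α → Prop) (hfin : {e | P e}.Finite) (T : Finset α)
    (hT : ∀ e ∈ T, P e) : T.card ≤ Nat.card {e // P e} := by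
  have h1 : Nat.card {e // P e} = Set.ncard {e | P e} := Nat.card_coe_set_eq _
  rw [h1, ← Set.ncard_coe_finset T]
  exact Set.ncard_le_ncard (fun e he => hT e he) hfin

namespace KkGraph

variable {ℓ : ℕ} (Y : KkGraph ℓ)

/-- edges from `x` to the layer `k`. -/
theorem kkrz_A_one (x : Y.V0) (hx : Y.sideA x) (k : ℤ) (hk : |Y.lay x - k| ≤ 1) (T : Finset Y.E0)
    (hT : ∀ e ∈ T, Y.src e = x ∧ Y.lay (Y.tgt e) = k) : T.card ≤ kkd ℓ := by
  rw [← Y.degA x hx k hk]
  refine kkrz_card_le _ ((Y.finite_E (Y.lay x) 0).subset ?_) T hT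
  rintro e ⟨h1, -⟩
  simp [h1]

/-- edges from the layer `i` to `x`. -/
theorem kkrz_B_one (x : Y.V0) (hx : ¬ Y.sideA x) (i : ℤ) (hi : |i - Y.lay x| ≤ 1) (T : Finset Y.E0)
    (hT : ∀ e ∈ T, Y.tgt e = x ∧ Y.lay (Y.src e) = i) : T.card ≤ 2 * kkD ℓ := by
  refine le_trans ?_ (kkDik_le ℓ i (Y.lay x) hi)
  rw [← Y.degB x hx i hi]
  refine kkrz_card_le _ ((Y.finite_E i 0).subset ?_) T hT
  rintro e ⟨-, h1⟩
  simp [h1]

/-- splitting a set of edges according to a layer in `[l - 1, l + 1]`. -/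
theorem kkrz_three (T : Finset Y.E0) (f : Y.E0 → ℤ) (l : ℤ) (hf : ∀ e ∈ T, |l - f e| ≤ 1) (c : ℕ)
    (hc : ∀ k, |l - k| ≤ 1 → ∀ T' : Finset Y.E0, T' ⊆ T → (∀ e ∈ T', f e = k) → T'.card ≤ c) :
    T.card ≤ 3 * c := by
  classical
  have h1 := Finset.card_eq_sum_card_fiberwise (s := T) (t := Finset.Icc (l - 1) (l + 1)) (f := f)
    (by
      intro e he
      have := abs_le.1 (hf e he)
      rw [Finset.mem_coe, Finset.mem_Icc]
      constructor <;> linarith [this.1, this.2])
  rw [h1]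
  calc ∑ k ∈ Finset.Icc (l - 1) (l + 1), (T.filter fun e => f e = k).card
      ≤ ∑ k ∈ Finset.Icc (l - 1) (l + 1), c := by
        apply Finset.sum_le_sum
        intro k hk
        rw [Finset.mem_Icc] at hk
        refine hc k ?_ _ (Finset.filter_subset _ _) fun e he => (Finset.mem_filter.1 he).2
        rw [abs_le]
        constructor <;> linarith [hk.1, hk.2]
    _ = 3 * c := by
        rw [Finset.sum_const, Int.card_Icc, smul_eq_mul]
        congr 1
        have : l + 1 + 1 - (l - 1) = 3 := by ring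
        rw [this]
        rfl

theorem kkrz_A (x : Y.V0) (hx : Y.sideA x) (T : Finset Y.E0) (hT : ∀ e ∈ T, Y.src e = x) :
    T.card ≤ 3 * kkd ℓ := by
  refine Y.kkrz_three T (fun e => Y.lay (Y.tgt e)) (Y.lay x) ?_ _ ?_
  · intro e he
    have := Y.band e
    rwa [hT e he] at this
  · intro k hk T' hsub hT'
    exact Y.kkrz_A_one x hx k hk T' fun e he => ⟨hT e (hsub he), hT' e he⟩

theorem kkrz_B (x : Y.V0) (hx : ¬ Y.sideA x) (T : Finset Y.E0) (hT : ∀ e ∈ T, Y.tgt e = x) :
    T.card ≤ 3 * (2 * kkD ℓ) := by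
  refine Y.kkrz_three T (fun e => Y.lay (Y.src e)) (Y.lay x) ?_ _ ?_
  · intro e he
    have := Y.band e
    rw [hT e he] at this
    rwa [abs_sub_comm]
  · intro k hk T' hsub hT'
    exact Y.kkrz_B_one x hx k (by rwa [abs_sub_comm]) T' fun e he => ⟨hT e (hsub he), hT' e he⟩

/-- the darts at a vertex all have the same orientation: passage to the underlying edges. -/
theorem kkrz_darts (x : Y.V0) (T : Finset (Y.E0 × Bool)) (hT : ∀ d ∈ T, Y.darts.src d = x) :
    ∃ T' : Finset Y.E0, T'.card = T.card ∧ (∀ e ∈ T', ∃ d ∈ T, d.1 = e) ∧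
      ((Y.sideA x ∧ ∀ e ∈ T', Y.src e = x) ∨ (¬ Y.sideA x ∧ ∀ e ∈ T', Y.tgt e = x)) := by
  classical
  have hsrc : ∀ d ∈ T, (if d.2 then Y.tgt d.1 else Y.src d.1) = x := hT
  by_cases hx : Y.sideA x
  · have hfalse : ∀ d ∈ T, d.2 = false ∧ Y.src d.1 = x := by
      intro d hd
      have h := hsrc d hd
      cases h2 : d.2
      · rw [h2] at h
        exact ⟨rfl, by simpa using h⟩
      · rw [h2] at h
        simp only [if_true] at h
        exact absurd (h ▸ hx) (Y.tgt_B d.1)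
    refine ⟨T.image Prod.fst, ?_, ?_, Or.inl ⟨hx, ?_⟩⟩
    · apply Finset.card_image_of_injOn
      intro d hd d' hd' h
      exact Prod.ext h ((hfalse d hd).1.trans (hfalse d' hd').1.symm)
    · intro e he
      obtain ⟨d, hd, rfl⟩ := Finset.mem_image.1 he
      exact ⟨d, hd, rfl⟩
    · intro e he
      obtain ⟨d, hd, rfl⟩ := Finset.mem_image.1 he
      exact (hfalse d hd).2
  · have htrue : ∀ d ∈ T, d.2 = true ∧ Y.tgt d.1 = x := by
      intro d hd
      have h := hsrc d hd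
      cases h2 : d.2
      · rw [h2] at h
        simp only [Bool.false_eq_true, if_false] at h
        exact absurd (h ▸ Y.src_A d.1) hx
      · rw [h2] at h
        exact ⟨rfl, by simpa using h⟩
    refine ⟨T.image Prod.fst, ?_, ?_, Or.inr ⟨hx, ?_⟩⟩
    · apply Finset.card_image_of_injOn
      intro d hd d' hd' h
      exact Prod.ext h ((htrue d hd).1.trans (htrue d' hd').1.symm)
    · intro e he
      obtain ⟨d, hd, rfl⟩ := Finset.mem_image.1 he
      exact ⟨d, hd, rfl⟩
    · intro e he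
      obtain ⟨d, hd, rfl⟩ := Finset.mem_image.1 he
      exact (htrue d hd).2

/-! ## Degrees -/

/-- every vertex of `Y⁰` has at most `6 D` darts. -/
theorem deg_le (x : Y.V0) (T : Finset (Y.E0 × Bool)) (hT : ∀ d ∈ T, Y.darts.src d = x) :
    T.card ≤ 6 * kkD ℓ := by
  obtain ⟨T', hc, -, h | h⟩ := Y.kkrz_darts x T hT
  · have h1 := Y.kkrz_A x h.1 T' h.2
    have h2 := kkd_le_kkD ℓ
    omega
  · have h1 := Y.kkrz_B x h.1 T' h.2
    omega

theorem sub_deg_le (S : Finset Y.E0) (x : Y.V0) (T : Finset (S × Bool))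
    (hT : ∀ d ∈ T, (Y.sub S).src d = x) : T.card ≤ 6 * kkD ℓ := by
  classical
  have hinj : Set.InjOn (fun d : S × Bool => ((d.1 : Y.E0), d.2)) T := by
    intro d _ d' _ h
    have h1 := congrArg Prod.fst h
    have h2 := congrArg Prod.snd h
    exact Prod.ext (Subtype.ext h1) h2
  rw [← Finset.card_image_of_injOn hinj]
  apply Y.deg_le x
  intro d hd
  obtain ⟨d', hd', rfl⟩ := Finset.mem_image.1 hd
  exact hT d' hd'

/-- in one block every vertex has at most `2 D` darts. -/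
theorem blk_deg_le [DecidableEq Y.V0] (i k : ℤ) (hik : |i - k| ≤ 1) (x : Y.blkV i k)
    (T : Finset (Y.blkE i k × Bool))
    (hT : ∀ d ∈ T, (smpGraph (Y.bsrc i k) (Y.btgt i k)).src d = x) : T.card ≤ 2 * kkD ℓ := by
  classical
  have hinj : Set.InjOn (fun d : Y.blkE i k × Bool => ((d.1 : Y.E0), d.2)) T := by
    intro d _ d' _ h
    have h1 := congrArg Prod.fst h
    have h2 := congrArg Prod.snd h
    exact Prod.ext (Subtype.ext h1) h2
  rw [← Finset.card_image_of_injOn hinj]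
  set U := T.image (fun d : Y.blkE i k × Bool => ((d.1 : Y.E0), d.2)) with hU
  have hUsrc : ∀ d ∈ U, Y.darts.src d = x.1 := by
    intro d hd
    obtain ⟨d', hd', rfl⟩ := Finset.mem_image.1 hd
    have h := congrArg Subtype.val (hT d' hd')
    rw [← h]
    show (if d'.2 then Y.tgt d'.1 else Y.src d'.1) =
      ((if d'.2 then Y.btgt i k d'.1 else Y.bsrc i k d'.1 : Y.blkV i k) : Y.V0)
    cases d'.2 <;> rfl
  have hUblk : ∀ d ∈ U, Y.lay (Y.src d.1) = i ∧ Y.lay (Y.tgt d.1) = k := by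
    intro d hd
    obtain ⟨d', hd', rfl⟩ := Finset.mem_image.1 hd
    exact (Y.mem_blkE.1 d'.1.2).2
  obtain ⟨T', hc, hex, h | h⟩ := Y.kkrz_darts x.1 U hUsrc
  · rw [← hc]
    rcases T'.eq_empty_or_nonempty with h0 | ⟨e0, he0⟩
    · simp [h0]
    · have hlay : Y.lay x.1 = i := by
        obtain ⟨d, hd, hde⟩ := hex e0 he0
        rw [← h.2 e0 he0, ← hde]
        exact (hUblk d hd).1
      have h1 := Y.kkrz_A_one x.1 h.1 k (by rw [hlay]; exact hik) T' fun e he => by
        obtain ⟨d, hd, hde⟩ := hex e he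
        exact ⟨h.2 e he, by rw [← hde]; exact (hUblk d hd).2⟩
      have h2 := kkd_le_kkD ℓ
      omega
  · rw [← hc]
    rcases T'.eq_empty_or_nonempty with h0 | ⟨e0, he0⟩
    · simp [h0]
    · have hlay : Y.lay x.1 = k := by
        obtain ⟨d, hd, hde⟩ := hex e0 he0
        rw [← h.2 e0 he0, ← hde]
        exact (hUblk d hd).2
      exact Y.kkrz_B_one x.1 h.1 i (by rw [hlay]; exact hik) T' fun e he => by
        obtain ⟨d, hd, hde⟩ := hex e he
        exact ⟨h.2 e he, by rw [← hde]; exact (hUblk d hd).1⟩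

end KkGraph

end Claimed.Agent.R300
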