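/-
Row 300, KK steps 9.g-9.i (`kk_realize` of `KkModel.lean`).  Sub-captain: helper121.
File `KkRzCoefBd`: Schur bound for the coefficients of `T_P`; `T_P` has the expected matrix.
(Also for the owner of KKM-COMB.)     Proofs: helper124 (auxiliary names: prefix `kkrzCb_`).
-/
import Claimed.Agent.R300.KkRzDeg
import Claimed.Agent.R300.KkRzBNum

set_option autoImplicit false

namespace Claimed.Agent.R300

open Nil HeisLaw
open scoped ENNReal ComplexConjugate InnerProductSpace Matrix.Norms.L2Operator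

variable {ℓ : ℕ} (Y : KkGraph ℓ) {F J : Type} [Group F]

/-- the edges at a vertex lie in a finite set. -/
theorem kkrzCb_edges_at (x : Y.V0) :
    ∃ T : Finset Y.E0, ∀ e, Y.src e = x ∨ Y.tgt e = x → e ∈ T := by
  refine ⟨(Y.finite_E (Y.lay x) 1).toFinset, fun e he => ?_⟩
  rw [Set.Finite.mem_toFinset]
  show |Y.lay (Y.src e) - Y.lay x| ≤ ((1 : ℕ) : ℤ)
  rcases he with rfl | rfl
  · simp
  · simpa using Y.band e

open Classical in
/-- the degree bound, as a weighted sum over a finite set of edges. -/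
theorem kkrzCb_deg_sum (x : Y.V0) (T : Finset Y.E0) (c : ℝ) (hc : 0 ≤ c) :
    ∑ e ∈ T, ((if Y.src e = x then c else 0) + (if Y.tgt e = x then c else 0))
      ≤ 6 * kkD ℓ * c := by
  have h1 : ∑ e ∈ T, ((if Y.src e = x then c else 0) + (if Y.tgt e = x then c else 0))
      = ∑ d ∈ T ×ˢ (Finset.univ : Finset Bool), if Y.darts.src d = x then c else 0 := by
    rw [Finset.sum_product]
    refine Finset.sum_congr rfl fun e _ => ?_
    rw [Fintype.sum_bool, add_comm]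
    rfl
  rw [h1, ← Finset.sum_filter, Finset.sum_const, nsmul_eq_mul]
  refine mul_le_mul_of_nonneg_right ?_ hc
  have := Y.deg_le x ((T ×ˢ (Finset.univ : Finset Bool)).filter fun d => Y.darts.src d = x)
    fun d hd => (Finset.mem_filter.1 hd).2
  exact_mod_cast this

omit [Group F] in
/-- the sum of an indicator of one fibre. -/
theorem kkrzCb_hasSum_ind {V : Type} [Fintype J] (P : Prop) [Decidable P] (v0 : V) (g0 : F)
    (M : ℝ) [∀ p : (V × J) × F, Decidable (P ∧ v0 = p.1.1 ∧ g0 = p.2)] :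
    HasSum (fun p : (V × J) × F => if P ∧ v0 = p.1.1 ∧ g0 = p.2 then M else 0)
      (if P then Fintype.card J * M else 0) := by
  by_cases hP : P
  · rw [if_pos hP]
    have hinj : Function.Injective (fun j : J => (((v0, j), g0) : (V × J) × F)) := fun a b h =>
      (Prod.mk.inj (Prod.mk.inj h).1).2
    have h0 : ∀ p ∉ Set.range (fun j : J => (((v0, j), g0) : (V × J) × F)),
        (if P ∧ v0 = p.1.1 ∧ g0 = p.2 then M else 0) = 0 := by
      rintro ⟨⟨v, j⟩, g⟩ hp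
      refine if_neg ?_
      rintro ⟨-, h1, h2⟩
      exact hp ⟨j, by simp only at h1 h2; rw [h1, h2]⟩
    refine (hinj.hasSum_iff h0).1 ?_
    have h2 : ((fun p : (V × J) × F => if P ∧ v0 = p.1.1 ∧ g0 = p.2 then M else 0)
        ∘ fun j : J => (((v0, j), g0) : (V × J) × F)) = fun _ => M := by
      funext j
      exact if_pos ⟨hP, rfl, rfl⟩
    rw [h2]
    have := hasSum_fintype (fun _ : J => M)
    rwa [Finset.sum_const, Finset.card_univ, nsmul_eq_mul] at this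
  · rw [if_neg hP]
    have : (fun p : (V × J) × F => if P ∧ v0 = p.1.1 ∧ g0 = p.2 then M else 0) = fun _ => 0 := by
      funext p
      exact if_neg fun h => hP h.1
    rw [this]
    exact hasSum_zero

open Classical in
/-- entrywise bound for the coefficients of `T_P`. -/
theorem kkrzCb_norm_le [Fintype J] [DecidableEq J] (hℓ : 1 ≤ ℓ) (z : Y.E0 → F)
    (W : Y.E0 → Matrix J J ℂ) (M : ℝ) (hM0 : 0 ≤ M) (hM : ∀ e, ‖W e‖ ≤ M) (a b : Y.V0 × J) (g : F)
    (T : Finset Y.E0)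
    (hT : ∀ e, (Y.src e = a.1 ∧ Y.tgt e = b.1) ∨ (Y.tgt e = a.1 ∧ Y.src e = b.1) → e ∈ T) :
    ‖Y.coef z W a b g‖ ≤ ∑ e ∈ T, ((if Y.src e = a.1 ∧ Y.tgt e = b.1 ∧ z e = g then M else 0)
      + (if Y.tgt e = a.1 ∧ Y.src e = b.1 ∧ (z e)⁻¹ = g then M else 0)) := by
  have hn : ∀ e : Y.E0, ‖(((kkNrm ℓ (Y.lay (Y.src e)) (Y.lay (Y.tgt e)))⁻¹ : ℝ) : ℂ)‖ ≤ 1 := by
    intro e
    have h1 := kkNrm_one_le hℓ _ _ (Y.band e)
    rw [Complex.norm_real, Real.norm_eq_abs, abs_of_nonneg (by positivity)]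
    exact inv_le_one_of_one_le₀ h1
  unfold KkGraph.coef
  rw [tsum_eq_sum (s := T)]
  · refine (norm_sum_le _ _).trans (Finset.sum_le_sum fun e _ => ?_)
    refine (norm_add_le _ _).trans (add_le_add ?_ ?_)
    · by_cases h : Y.src e = a.1 ∧ Y.tgt e = b.1 ∧ Y.keepE e ∧ z e = g
      · rw [if_pos h, if_pos ⟨h.1, h.2.1, h.2.2.2⟩, norm_mul]
        calc _ ≤ 1 * M := mul_le_mul (hn e) ((smpb_entry_le _ _ _).trans (hM e)) (norm_nonneg _)
              zero_le_one
          _ = M := one_mul M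
      · rw [if_neg h, norm_zero]
        split_ifs
        · exact hM0
        · exact le_rfl
    · by_cases h : Y.tgt e = a.1 ∧ Y.src e = b.1 ∧ Y.keepE e ∧ (z e)⁻¹ = g
      · rw [if_pos h, if_pos ⟨h.1, h.2.1, h.2.2.2⟩, norm_mul, RCLike.norm_conj]
        calc _ ≤ 1 * M := mul_le_mul (hn e) ((smpb_entry_le _ _ _).trans (hM e)) (norm_nonneg _)
              zero_le_one
          _ = M := one_mul M
      · rw [if_neg h, norm_zero]
        split_ifs
        · exact hM0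
        · exact le_rfl
  · intro e he
    rw [if_neg fun h => he (hT e (Or.inl ⟨h.1, h.2.1⟩)),
      if_neg fun h => he (hT e (Or.inr ⟨h.1, h.2.1⟩)), add_zero]

/-- Schur bound for the coefficients of `T_P` (degree `≤ 6 D`, normalisers `≥ 1`, entries `≤ M`). -/
theorem kkrz_coef_bd [Fintype J] [DecidableEq J] (hℓ : 1 ≤ ℓ) (z : Y.E0 → F) (W : Y.E0 → Matrix J J ℂ) (M : ℝ)
    (hM0 : 0 ≤ M) (hM : ∀ e, ‖W e‖ ≤ M) : SmpCoefBd (Y.coef z W) (6 * kkD ℓ * M * Fintype.card J) := by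
  classical
  have hR : ∀ x : Y.V0, ∀ T : Finset Y.E0,
      ∑ e ∈ T, ((if Y.src e = x then Fintype.card J * M else 0)
        + (if Y.tgt e = x then Fintype.card J * M else 0)) ≤ 6 * kkD ℓ * M * Fintype.card J := by
    intro x T
    refine (kkrzCb_deg_sum Y x T (Fintype.card J * M) (by positivity)).trans (le_of_eq ?_)
    ring
  constructor
  · intro u
    obtain ⟨T, hT⟩ := kkrzCb_edges_at Y u.1
    have hs : HasSum (fun p : (Y.V0 × J) × F =>
        ∑ e ∈ T, ((if Y.src e = u.1 ∧ Y.tgt e = p.1.1 ∧ z e = p.2 then M else 0)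
          + (if Y.tgt e = u.1 ∧ Y.src e = p.1.1 ∧ (z e)⁻¹ = p.2 then M else 0)))
        (∑ e ∈ T, ((if Y.src e = u.1 then Fintype.card J * M else 0)
          + (if Y.tgt e = u.1 then Fintype.card J * M else 0))) :=
      hasSum_sum fun e _ => (kkrzCb_hasSum_ind (Y.src e = u.1) (Y.tgt e) (z e) M).add
        (kkrzCb_hasSum_ind (Y.tgt e = u.1) (Y.src e) (z e)⁻¹ M)
    have hle : ∀ p : (Y.V0 × J) × F, ‖Y.coef z W u p.1 p.2‖ ≤
        ∑ e ∈ T, ((if Y.src e = u.1 ∧ Y.tgt e = p.1.1 ∧ z e = p.2 then M else 0)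
          + (if Y.tgt e = u.1 ∧ Y.src e = p.1.1 ∧ (z e)⁻¹ = p.2 then M else 0)) := fun p =>
      kkrzCb_norm_le Y hℓ z W M hM0 hM u p.1 p.2 T fun e he =>
        hT e (he.elim (fun h => Or.inl h.1) fun h => Or.inr h.1)
    have hsum : Summable (fun p : (Y.V0 × J) × F => ‖Y.coef z W u p.1 p.2‖) :=
      Summable.of_nonneg_of_le (fun _ => norm_nonneg _) hle hs.summable
    refine ⟨hsum, ?_⟩
    calc ∑' p : (Y.V0 × J) × F, ‖Y.coef z W u p.1 p.2‖ ≤ _ := hsum.tsum_le_tsum hle hs.summable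
      _ = _ := hs.tsum_eq
      _ ≤ _ := hR u.1 T
  · intro v
    obtain ⟨T, hT⟩ := kkrzCb_edges_at Y v.1
    have hs : HasSum (fun p : (Y.V0 × J) × F =>
        ∑ e ∈ T, ((if Y.tgt e = v.1 ∧ Y.src e = p.1.1 ∧ z e = p.2 then M else 0)
          + (if Y.src e = v.1 ∧ Y.tgt e = p.1.1 ∧ (z e)⁻¹ = p.2 then M else 0)))
        (∑ e ∈ T, ((if Y.tgt e = v.1 then Fintype.card J * M else 0)
          + (if Y.src e = v.1 then Fintype.card J * M else 0))) :=
      hasSum_sum fun e _ => (kkrzCb_hasSum_ind (Y.tgt e = v.1) (Y.src e) (z e) M).add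
        (kkrzCb_hasSum_ind (Y.src e = v.1) (Y.tgt e) (z e)⁻¹ M)
    have hle : ∀ p : (Y.V0 × J) × F, ‖Y.coef z W p.1 v p.2‖ ≤
        ∑ e ∈ T, ((if Y.tgt e = v.1 ∧ Y.src e = p.1.1 ∧ z e = p.2 then M else 0)
          + (if Y.src e = v.1 ∧ Y.tgt e = p.1.1 ∧ (z e)⁻¹ = p.2 then M else 0)) := fun p => by
      refine (kkrzCb_norm_le Y hℓ z W M hM0 hM p.1 v p.2 T fun e he =>
        hT e (he.elim (fun h => Or.inr h.2) fun h => Or.inl h.2)).trans (le_of_eq ?_)
      refine Finset.sum_congr rfl fun e _ => ?_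
      congr 1
      · exact if_congr (by tauto) rfl rfl
      · exact if_congr (by tauto) rfl rfl
    have hsum : Summable (fun p : (Y.V0 × J) × F => ‖Y.coef z W p.1 v p.2‖) :=
      Summable.of_nonneg_of_le (fun _ => norm_nonneg _) hle hs.summable
    refine ⟨hsum, ?_⟩
    calc ∑' p : (Y.V0 × J) × F, ‖Y.coef z W p.1 v p.2‖ ≤ _ := hsum.tsum_le_tsum hle hs.summable
      _ = _ := hs.tsum_eq
      _ = ∑ e ∈ T, ((if Y.src e = v.1 then Fintype.card J * M else 0)
          + (if Y.tgt e = v.1 then Fintype.card J * M else 0)) :=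
          Finset.sum_congr rfl fun e _ => add_comm _ _
      _ ≤ _ := hR v.1 T

/-- the matrix of `T_P`. -/
theorem kkrz_TP_hasKer [Fintype J] [DecidableEq J] (hℓ : 1 ≤ ℓ) (z : Y.E0 → F) (W : Y.E0 → Matrix J J ℂ) (M : ℝ)
    (hM0 : 0 ≤ M) (hM : ∀ e, ‖W e‖ ≤ M) : SmpHasKer (Y.TP z W) (smpLConvK (Y.coef z W)) :=
  (kkrz_coef_bd Y hℓ z W M hM0 hM).lhasKer

end Claimed.Agent.R300
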