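/-
Row 300, KK Sections 8-10, subtask KKM-COMB (helper145), LEAF FILE COMB-2: the operator `T_P` of a `KkGraph`
(summability of the coefficients, selfadjointness, vanishing blocks, commutation with arcs) and the matrices
`U⁰_ik`, `modelM` (supports, biregular Schur test, parts).  Replace the sorries IN PLACE (statements are consumed
verbatim by KkComb.lean).
-/
import Claimed.Agent.R300.KkCombA
import Claimed.Agent.R300.KkRzCoefBd
import Claimed.Agent.R300.KkMatG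

set_option autoImplicit false
set_option linter.unusedSectionVars false

namespace Claimed.Agent.R300

open Nil HeisLaw
open scoped ENNReal ComplexConjugate InnerProductSpace Matrix.Norms.L2Operator

/-! ### COMB-B: the operator `T_P` (leaf) -/

/-- a tower graph only exists for `ℓ ≥ 1` (for `ℓ = 0` the degrees `D_{0,1} = 0` and `d = 1` clash) -/
theorem kkc_l_pos {ℓ : ℕ} (Y : KkGraph ℓ) : 1 ≤ ℓ := by
  by_contra hℓ
  obtain rfl : ℓ = 0 := by omega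
  obtain ⟨a, ha⟩ := Finset.card_pos.1 (Y.card_fA_pos 0)
  obtain ⟨ha1, ha2⟩ := Y.mem_fA.1 ha
  have h1 := Y.degA a ha2 1 (by rw [ha1]; norm_num)
  have hne : Nat.card {e // Y.src e = a ∧ Y.lay (Y.tgt e) = 1} ≠ 0 := by
    rw [h1]; unfold kkd; positivity
  obtain ⟨⟨e, he1, he2⟩⟩ := (Nat.card_ne_zero.1 hne).1
  have h2 := Y.degB (Y.tgt e) (Y.tgt_B e) 0 (by rw [he2]; norm_num)
  have h3 : kkDik 0 0 (Y.lay (Y.tgt e)) = 0 := by
    rw [he2]
    unfold kkDik kkD kkd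
    norm_num
  rw [h3] at h2
  have hfin : {e' | Y.tgt e' = Y.tgt e ∧ Y.lay (Y.src e') = 0}.Finite :=
    (Y.finite_E 0 0).subset fun e' h => by
      have h' : Y.lay (Y.src e') = 0 := h.2
      simp [h']
  have hfin' : Finite {e' // Y.tgt e' = Y.tgt e ∧ Y.lay (Y.src e') = 0} := hfin.to_subtype
  exact (Nat.card_ne_zero.2 ⟨⟨⟨e, rfl, by rw [he1, ha1]⟩⟩, hfin'⟩) h2

section TP

variable {ℓ : ℕ} (Y : KkGraph ℓ) {F : Type} [Group F] {J : Type} [Fintype J] [DecidableEq J]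
  (z : Y.E0 → F) (W : Y.E0 → Matrix J J ℂ)

/-- finite degrees (`degA`, `degB`, `band`): the coefficients of `T_P` are summable -/
theorem kkc_coef_bd (Cw : ℝ) (hW : ∀ e, ‖W e‖ ≤ Cw) : ∃ R, SmpCoefBd (Y.coef z W) R :=
  ⟨_, kkrz_coef_bd Y (kkc_l_pos Y) z W (max Cw 0) (le_max_right _ _)
    fun e => (hW e).trans (le_max_left _ _)⟩

/-- no edge between `a` and `b`: the coefficient vanishes -/
theorem kkc_coef_eq_zero (a b : Y.V0 × J) (g : F)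
    (h1 : ∀ e, ¬ (Y.src e = a.1 ∧ Y.tgt e = b.1)) (h2 : ∀ e, ¬ (Y.tgt e = a.1 ∧ Y.src e = b.1)) :
    Y.coef z W a b g = 0 := by
  unfold KkGraph.coef
  have : ∀ e : Y.E0,
      ((open Classical in if Y.src e = a.1 ∧ Y.tgt e = b.1 ∧ Y.keepE e ∧ z e = g then
        (((kkNrm ℓ (Y.lay (Y.src e)) (Y.lay (Y.tgt e)))⁻¹ : ℝ) : ℂ) * W e a.2 b.2 else 0)
      + (open Classical in if Y.tgt e = a.1 ∧ Y.src e = b.1 ∧ Y.keepE e ∧ (z e)⁻¹ = g then
        (((kkNrm ℓ (Y.lay (Y.src e)) (Y.lay (Y.tgt e)))⁻¹ : ℝ) : ℂ) * conj (W e b.2 a.2) else 0))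
      = 0 := by
    intro e
    rw [if_neg fun h => h1 e ⟨h.1, h.2.1⟩, if_neg fun h => h2 e ⟨h.1, h.2.1⟩, add_zero]
  simp only [this, tsum_zero]

theorem kkc_coef_conj (a b : Y.V0 × J) (g : F) :
    conj (Y.coef z W b a g⁻¹) = Y.coef z W a b g := by
  unfold KkGraph.coef
  rw [Complex.conj_tsum]
  refine tsum_congr fun e => ?_
  rw [map_add, add_comm]
  congr 1
  · by_cases h : Y.src e = a.1 ∧ Y.tgt e = b.1 ∧ Y.keepE e ∧ z e = g
    · rw [if_pos h, if_pos ⟨h.2.1, h.1, h.2.2.1, by rw [h.2.2.2]⟩, map_mul, Complex.conj_ofReal,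
        Complex.conj_conj]
    · rw [if_neg h, if_neg fun h' => h ⟨h'.2.1, h'.1, h'.2.2.1, inv_injective h'.2.2.2⟩, map_zero]
  · by_cases h : Y.tgt e = a.1 ∧ Y.src e = b.1 ∧ Y.keepE e ∧ (z e)⁻¹ = g
    · rw [if_pos h, if_pos ⟨h.2.1, h.1, h.2.2.1, by rw [← h.2.2.2, inv_inv]⟩, map_mul,
        Complex.conj_ofReal]
    · rw [if_neg h, if_neg fun h' => h ⟨h'.2.1, h'.1, h'.2.2.1, by rw [h'.2.2.2, inv_inv]⟩,
        map_zero]

/-- `conj (coef b a g⁻¹) = coef a b g`, `smpLConv_star` -/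
theorem kkc_TP_star (Cw : ℝ) (hW : ∀ e, ‖W e‖ ≤ Cw) : star (Y.TP z W) = Y.TP z W := by
  obtain ⟨R, hR⟩ := kkc_coef_bd Y z W Cw hW
  unfold KkGraph.TP
  rw [smpLConv_star hR]
  congr 1
  funext a b g
  exact kkc_coef_conj Y z W a b g

/-- a compression of `T_P` whose matrix vanishes is zero -/
theorem kkc_TP_block_zero (Cw : ℝ) (hW : ∀ e, ‖W e‖ ≤ Cw) (A B : Set (F × (Y.V0 × J)))
    (h : ∀ x y, x ∈ A → y ∈ B → ∀ g, Y.coef z W x.2 y.2 g = 0) :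
    scRestr A * Y.TP z W * scRestr B = 0 := by
  obtain ⟨R, hR⟩ := kkc_coef_bd Y z W Cw hW
  have h1 := (hR.lhasKer).restr A B
  have h0 : SmpHasKer (0 : ScL2 (F × (Y.V0 × J)) →L[ℂ] ScL2 (F × (Y.V0 × J)))
      (fun x y => open Classical in if x ∈ A ∧ y ∈ B then smpLConvK (Y.coef z W) x y else 0) := by
    intro x y
    show (0 : ℂ) = open Classical in if x ∈ A ∧ y ∈ B then smpLConvK (Y.coef z W) x y else 0
    split_ifs with hc
    · rw [smpLConvK, h x y hc.1 hc.2]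
    · rfl
  rw [mul_assoc]
  exact h1.unique h0

/-- blocks of `T_P` between equal sides vanish (`SmpCoefBd.lhasKer`, `SmpHasKer.restr`, `src_A`, `tgt_B`) -/
theorem kkc_TP_same (Cw : ℝ) (hW : ∀ e, ‖W e‖ ≤ Cw) (s : Prop) (i k : ℤ) :
    Y.sideOp F J s i * Y.TP z W * Y.sideOp F J s k = 0 := by
  unfold KkGraph.sideOp
  refine kkc_TP_block_zero Y z W Cw hW _ _ fun x y hx hy g => ?_
  have hx2 : Y.sideA x.2.1 ↔ s := hx.2
  have hy2 : Y.sideA y.2.1 ↔ s := hy.2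
  refine kkc_coef_eq_zero Y z W _ _ g (fun e he => ?_) (fun e he => ?_)
  · have h1 := Y.src_A e
    have h2 := Y.tgt_B e
    rw [he.1] at h1
    rw [he.2] at h2
    exact h2 (hy2.2 (hx2.1 h1))
  · have h1 := Y.src_A e
    have h2 := Y.tgt_B e
    rw [he.2] at h1
    rw [he.1] at h2
    exact h2 (hx2.2 (hy2.1 h1))

/-- blocks of `T_P` between distant layers vanish (`band`) -/
theorem kkc_TP_far (Cw : ℝ) (hW : ∀ e, ‖W e‖ ≤ Cw) (i k : ℤ) (hik : 1 < |i - k|) :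
    Y.sideOp F J True i * Y.TP z W * Y.sideOp F J False k = 0 := by
  unfold KkGraph.sideOp
  refine kkc_TP_block_zero Y z W Cw hW _ _ fun x y hx hy g => ?_
  have hx1 : Y.lay x.2.1 = i := hx.1
  have hy1 : Y.lay y.2.1 = k := hy.1
  have hx2 : Y.sideA x.2.1 ↔ True := hx.2
  refine kkc_coef_eq_zero Y z W _ _ g (fun e he => ?_) (fun e he => ?_)
  · have h1 := Y.band e
    rw [he.1, he.2, hx1, hy1] at h1
    linarith
  · have h2 := Y.tgt_B e
    rw [he.1] at h2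
    exact h2 (hx2.2 trivial)

/-- `T_P` commutes with the arc projections of a central element
(`smpLConv_lam_comm`, `kkArc_commute`, `smpLam_star`) -/
theorem kkc_TP_arc (Cw : ℝ) (hW : ∀ e, ‖W e‖ ≤ Cw) (z₀ : F) (hz : ∀ g, z₀ * g = g * z₀)
    (S : Set UnitAddCircle) : Commute (Y.TP z W) (kkArc (kkU (Y.V0 × J) z₀) S) := by
  obtain ⟨R, hR⟩ := kkc_coef_bd Y z W Cw hW
  apply kkArc_commute
  · exact smpLConv_lam_comm hR z₀ hz
  · show Commute (Y.TP z W) (star (smpLam z₀))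
    rw [smpLam_star]
    refine smpLConv_lam_comm hR z₀⁻¹ fun g => ?_
    have := hz g
    rw [inv_mul_eq_iff_eq_mul, ← mul_assoc, this, mul_assoc, mul_inv_cancel, mul_one]

end TP

/-! ### COMB-D: the matrices `U⁰_ik`, `modelM` (leaf) -/

/-- the `ℓ²` operator norm of a finite matrix from a quadratic bound -/
theorem kkc_matrix_norm_le {m n : Type} [Fintype m] [Fintype n] [DecidableEq n] (M : Matrix m n ℂ)
    (c : ℝ) (hc : 0 ≤ c)
    (h : ∀ y : n → ℂ, ∑ a, ‖∑ b, M a b * y b‖ ^ 2 ≤ c ^ 2 * ∑ b, ‖y b‖ ^ 2) : ‖M‖ ≤ c := by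
  rw [Matrix.l2_opNorm_def]
  refine ContinuousLinearMap.opNorm_le_bound _ hc fun x => ?_
  have h1 := h x.ofLp
  have h2 : ‖x‖ ^ 2 = ∑ b, ‖x.ofLp b‖ ^ 2 := EuclideanSpace.norm_sq_eq x
  have h3 : ‖((Matrix.toEuclideanLin (𝕜 := ℂ) (m := m) (n := n)).trans
      LinearMap.toContinuousLinearMap M) x‖ ^ 2 = ∑ a, ‖∑ b, M a b * x.ofLp b‖ ^ 2 := by
    rw [EuclideanSpace.norm_sq_eq]
    rfl
  rw [← h2, ← h3, ← mul_pow] at h1
  exact le_of_sq_le_sq h1 (by positivity)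

/-- biregular Schur test -/
theorem kkc_schur {X : Type} (A B : Finset X) (u : X → X → ℝ) (r c : ℝ) (hu : ∀ a b, 0 ≤ u a b)
    (hrow : ∀ a ∈ A, ∑ b ∈ B, u a b = r) (hcol : ∀ b ∈ B, ∑ a ∈ A, u a b = c) (y : X → ℂ) :
    ∑ a ∈ A, ‖∑ b ∈ B, (u a b : ℂ) * y b‖ ^ 2 ≤ r * c * ∑ b ∈ B, ‖y b‖ ^ 2 := by
  have h1 : ∀ a ∈ A, ‖∑ b ∈ B, (u a b : ℂ) * y b‖ ^ 2 ≤ r * ∑ b ∈ B, u a b * ‖y b‖ ^ 2 := by
    intro a ha
    have a1 : ‖∑ b ∈ B, (u a b : ℂ) * y b‖ ≤ ∑ b ∈ B, u a b * ‖y b‖ := by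
      refine (norm_sum_le _ _).trans (le_of_eq ?_)
      refine Finset.sum_congr rfl fun b _ => ?_
      rw [norm_mul, Complex.norm_real, Real.norm_eq_abs, abs_of_nonneg (hu a b)]
    have a2 : ∀ b ∈ B, u a b * ‖y b‖ = Real.sqrt (u a b) * (Real.sqrt (u a b) * ‖y b‖) := by
      intro b _
      rw [← mul_assoc, Real.mul_self_sqrt (hu a b)]
    have a3 := Finset.sum_mul_sq_le_sq_mul_sq B (fun b => Real.sqrt (u a b))
      (fun b => Real.sqrt (u a b) * ‖y b‖)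
    have a4 : ∀ b ∈ B, Real.sqrt (u a b) ^ 2 = u a b := fun b _ => Real.sq_sqrt (hu a b)
    have a5 : ∀ b ∈ B, (Real.sqrt (u a b) * ‖y b‖) ^ 2 = u a b * ‖y b‖ ^ 2 := fun b _ => by
      rw [mul_pow, Real.sq_sqrt (hu a b)]
    rw [← Finset.sum_congr rfl a2, Finset.sum_congr rfl a4, Finset.sum_congr rfl a5, hrow a ha] at a3
    exact (pow_le_pow_left₀ (norm_nonneg _) a1 2).trans a3
  refine (Finset.sum_le_sum h1).trans (le_of_eq ?_)
  rw [← Finset.mul_sum, Finset.sum_comm, mul_assoc]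
  congr 1
  rw [Finset.mul_sum]
  refine Finset.sum_congr rfl fun b hb => ?_
  rw [← Finset.sum_mul, hcol b hb]

section mat

variable {ℓ : ℕ} (Y : KkGraph ℓ)

/-- layers are finite (`cardA`, `cardB` are positive) -/
theorem kkc_layer_finite (i : ℤ) : {v : Y.V0 | Y.lay v = i}.Finite := by
  refine ((Y.finite_A i).union (Y.finite_B i)).subset fun v hv => ?_
  by_cases h : Y.sideA v
  · exact Or.inl ⟨hv, h⟩
  · exact Or.inr ⟨hv, h⟩

open Classical in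
/-- vertices in the layers `i` and `k` -/
noncomputable def kkcL (i k : ℤ) : Finset Y.V0 :=
  (kkc_layer_finite Y i).toFinset ∪ (kkc_layer_finite Y k).toFinset

theorem kkc_mem_L {i k : ℤ} {v : Y.V0} : v ∈ kkcL Y i k ↔ Y.lay v = i ∨ Y.lay v = k := by
  unfold kkcL
  simp

/-- `U⁰_ik v v' ≠ 0` only for `v ∈ A_i`, `v' ∈ B_k`, `|i - k| ≤ 1` -/
theorem kkc_U0_ne_zero {i k : ℤ} {v v' : Y.V0} (h : Y.U0 i k v v' ≠ 0) :
    Y.lay v = i ∧ Y.sideA v ∧ Y.lay v' = k ∧ ¬ Y.sideA v' ∧ |i - k| ≤ 1 := by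
  by_cases hl : Y.lay v = i ∧ Y.lay v' = k
  · rw [Y.U0_of_mem hl.1 hl.2] at h
    have h1 : Y.sideA v ∧ ¬ Y.sideA v' ∧ |Y.lay v - Y.lay v'| ≤ 1 := by
      by_contra hc
      exact h (by rw [Y.uu_eq_zero hc]; rfl)
    rw [hl.1, hl.2] at h1
    exact ⟨hl.1, h1.1, hl.2, h1.2.1, h1.2.2⟩
  · exact absurd (Y.U0_of_not hl) h

theorem kkc_U0_supp (i k : ℤ) : KkSupp (Y.U0 i k) (kkcL Y i k) := by
  intro v v' hv
  by_contra h
  obtain ⟨h1, -, h2, -, -⟩ := kkc_U0_ne_zero Y h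
  exact hv ⟨(kkc_mem_L Y).2 (Or.inl h1), (kkc_mem_L Y).2 (Or.inr h2)⟩

open Classical in
/-- biregular Schur test: rows sum to `d / √(d D_ik)`, columns to `D_ik / √(d D_ik)` -/
theorem kkc_U0_norm_le (i k : ℤ) (hik : |i - k| ≤ 1) :
    ‖(Matrix.of fun a b : kkcL Y i k => Y.U0 i k a b : Matrix (kkcL Y i k) (kkcL Y i k) ℂ)‖ ≤ 1 := by
  have hℓ : 0 < ℓ := kkc_l_pos Y
  refine kkc_matrix_norm_le _ 1 zero_le_one fun y => ?_
  set y' : Y.V0 → ℂ := fun v => if h : v ∈ kkcL Y i k then y ⟨v, h⟩ else 0 with hy'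
  have hy0 : ∀ b : kkcL Y i k, y b = y' b := by
    intro b
    simp only [hy']
    rw [dif_pos b.2]
  have hBsub : Y.fB k ⊆ kkcL Y i k := fun b hb =>
    (kkc_mem_L Y).2 (Or.inr (Y.mem_fB.1 hb).1)
  have hAsub : Y.fA i ⊆ kkcL Y i k := fun a ha =>
    (kkc_mem_L Y).2 (Or.inl (Y.mem_fA.1 ha).1)
  -- inner sums
  have e1 : ∀ a : Y.V0, ∑ b : kkcL Y i k, Y.U0 i k a b * y b = ∑ b ∈ Y.fB k, Y.U0 i k a b * y' b := by
    intro a
    rw [Finset.sum_congr rfl fun b _ => by rw [hy0 b],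
      Finset.sum_coe_sort (kkcL Y i k) (fun b => Y.U0 i k a b * y' b)]
    refine (Finset.sum_subset hBsub fun b _ hb => ?_).symm
    have : Y.U0 i k a b = 0 := by
      by_contra h
      obtain ⟨-, -, h2, h3, -⟩ := kkc_U0_ne_zero Y h
      exact hb (Y.mem_fB.2 ⟨h2, h3⟩)
    rw [this, zero_mul]
  have e2 : ∑ a : kkcL Y i k, ‖∑ b : kkcL Y i k, Y.U0 i k a b * y b‖ ^ 2
      = ∑ a ∈ Y.fA i, ‖∑ b ∈ Y.fB k, (Y.uu a b : ℂ) * y' b‖ ^ 2 := by
    rw [Finset.sum_congr rfl fun a _ => by rw [e1 a],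
      Finset.sum_coe_sort (kkcL Y i k) (fun a => ‖∑ b ∈ Y.fB k, Y.U0 i k a b * y' b‖ ^ 2)]
    rw [← Finset.sum_subset hAsub fun a _ ha => ?_]
    · refine Finset.sum_congr rfl fun a ha => ?_
      congr 2
      refine Finset.sum_congr rfl fun b hb => ?_
      rw [Y.U0_of_mem (Y.mem_fA.1 ha).1 (Y.mem_fB.1 hb).1]
    · have : ∑ b ∈ Y.fB k, Y.U0 i k a b * y' b = 0 := by
        refine Finset.sum_eq_zero fun b _ => ?_
        have : Y.U0 i k a b = 0 := by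
          by_contra h
          obtain ⟨h1, h2, -, -, -⟩ := kkc_U0_ne_zero Y h
          exact ha (Y.mem_fA.2 ⟨h1, h2⟩)
        rw [this, zero_mul]
      rw [this]
      simp
  have e3 : ∑ b ∈ Y.fB k, ‖y' b‖ ^ 2 ≤ ∑ b : kkcL Y i k, ‖y b‖ ^ 2 := by
    have e4 : ∑ b : kkcL Y i k, ‖y b‖ ^ 2 = ∑ b ∈ kkcL Y i k, ‖y' b‖ ^ 2 := by
      rw [Finset.sum_congr rfl fun b _ => by rw [hy0 b],
        Finset.sum_coe_sort (kkcL Y i k) (fun b => ‖y' b‖ ^ 2)]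
    rw [e4]
    exact Finset.sum_le_sum_of_subset_of_nonneg hBsub fun _ _ _ => sq_nonneg _
  have h4 := kkc_schur (Y.fA i) (Y.fB k) Y.uu _ _ Y.uu_nonneg
    (fun a ha => Y.sum_uu_row hℓ hik ha) (fun b hb => Y.sum_uu_col hℓ hik hb) y'
  have hA := Real.sqrt_pos.2 (kkmNA_pos ℓ i)
  have hB := Real.sqrt_pos.2 (kkmNB_pos ℓ k)
  have h5 : Real.sqrt (kkmNB ℓ k) / Real.sqrt (kkmNA ℓ i)
      * (Real.sqrt (kkmNA ℓ i) / Real.sqrt (kkmNB ℓ k)) = 1 := by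
    field_simp
  rw [h5, one_mul] at h4
  show ∑ a : kkcL Y i k, ‖∑ b : kkcL Y i k, Y.U0 i k a b * y b‖ ^ 2 ≤ _
  rw [e2, one_pow, one_mul]
  exact h4.trans e3

theorem kkc_modelM_supp (h : ℤ → ℝ) (j : ℤ) (hj : ∀ i, i ≠ j → i ≠ j + 1 → h i = 0) :
    KkSupp (Y.modelM h) (kkcL Y j (j + 1)) := by
  intro v v' hv
  have h0 : h (Y.lay v) = 0 ∨ h (Y.lay v') = 0 := by
    by_contra hc
    push Not at hc
    refine hv ⟨(kkc_mem_L Y).2 ?_, (kkc_mem_L Y).2 ?_⟩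
    · by_contra h1
      push Not at h1
      exact hc.1 (hj _ h1.1 h1.2)
    · by_contra h1
      push Not at h1
      exact hc.2 (hj _ h1.1 h1.2)
  unfold KkGraph.modelM
  rcases h0 with h0 | h0 <;> simp [h0]

theorem kkc_modelM_symm (h : ℤ → ℝ) (v v' : Y.V0) : conj (Y.modelM h v' v) = Y.modelM h v v' := by
  rw [Y.modelM_eq, Y.modelM_eq, Complex.conj_ofReal, Y.mm_symm]

/-- the `A_i - B_k` part of `modelM` -/
theorem kkc_modelM_AB (h : ℤ → ℝ) (i k : ℤ) :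
    kkcCut {v | Y.lay v = i ∧ (Y.sideA v ↔ True)} {v | Y.lay v = k ∧ (Y.sideA v ↔ False)}
        (Y.modelM h)
      = fun v v' => ((h i * h k : ℝ) : ℂ) * Y.U0 i k v v' := by
  funext v v'
  unfold kkcCut
  split_ifs with hc
  · obtain ⟨⟨h1, h2⟩, h3, h4⟩ := hc
    have h1' : Y.lay v = i := h1
    have h3' : Y.lay v' = k := h3
    have h4' : ¬ Y.sideA v' := fun hs => h4.1 hs
    have h5 : Y.U0 k i v' v = 0 := by
      by_contra hne
      exact h4' (kkc_U0_ne_zero Y hne).2.1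
    unfold KkGraph.modelM
    rw [h1', h3', h5, add_zero]
  · have h5 : Y.U0 i k v v' = 0 := by
      by_contra hne
      obtain ⟨h1, h2, h3, h4, -⟩ := kkc_U0_ne_zero Y hne
      exact hc ⟨⟨h1, iff_true_intro h2⟩, h3, iff_false_intro h4⟩
    rw [h5, mul_zero]

/-- the parts of `modelM` between equal sides vanish -/
theorem kkc_modelM_same (h : ℤ → ℝ) (s : Prop) (i k : ℤ) :
    kkcCut {v | Y.lay v = i ∧ (Y.sideA v ↔ s)} {v | Y.lay v = k ∧ (Y.sideA v ↔ s)} (Y.modelM h)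
      = fun _ _ => 0 := by
  funext v v'
  unfold kkcCut
  split_ifs with hc
  · obtain ⟨⟨-, h2⟩, -, h4⟩ := hc
    have h5 : Y.U0 (Y.lay v) (Y.lay v') v v' = 0 := by
      by_contra hne
      obtain ⟨-, a1, -, a2, -⟩ := kkc_U0_ne_zero Y hne
      exact a2 (h4.2 (h2.1 a1))
    have h6 : Y.U0 (Y.lay v') (Y.lay v) v' v = 0 := by
      by_contra hne
      obtain ⟨-, a1, -, a2, -⟩ := kkc_U0_ne_zero Y hne
      exact a2 (h2.2 (h4.1 a1))
    unfold KkGraph.modelM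
    rw [h5, h6, add_zero, mul_zero]
  · rfl

theorem kkc_U0_far (i k : ℤ) (hik : 1 < |i - k|) : Y.U0 i k = fun _ _ => 0 := by
  funext v v'
  by_contra h
  have := (kkc_U0_ne_zero Y h).2.2.2.2
  linarith

end mat

end Claimed.Agent.R300
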