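/-
Row 300, shared sampling machine (SMP): the empirical lists  (KK Lemma 9.4).   Sub-captain: helper21.
Proofs: helper217.
Proof: `smp_block_tail` for the multigraph with two vertices (`V = Bool`) and `Ms` parallel edges
(`E = Fin Ms`, degree `Ms`, threshold `Ms * τ`); a closed walk there is determined by its sequence of edges, so
`smp_dipole_count` bounds the walks; the operator of `smp_block_tail` is the selfadjoint dilation
`[[0, X], [X*, 0]]` of `X = ∑ j (W_j ⊗ ρ(z_j) - mean)`, whose norm is at least `‖X‖` (`smp_subker`).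
-/
import Claimed.Agent.R300.SmpBlock

set_option autoImplicit false

namespace Claimed.Agent.R300

open HeisLaw Finset Matrix
open scoped Matrix.Norms.L2Operator ComplexConjugate

/-! ### Sub-kernels -/

section subker
variable {X X' Y Y' : Type}

theorem smp_adjoint_pull_delta (f : X' → X) (hf : Function.Injective f) (x : X') :
    ContinuousLinearMap.adjoint (scPull f hf) (scDelta x) = scDelta (f x) := by
  classical
  ext z
  rw [sc_adjoint_delta_apply, scPull_apply, scDelta_apply, scDelta_apply]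
  by_cases h : f x = z
  · simp [h]
  · simp [h, Ne.symm h]

theorem smp_pull_opNorm_le (f : X' → X) (hf : Function.Injective f) : ‖scPull f hf‖ ≤ 1 :=
  ContinuousLinearMap.opNorm_le_bound _ zero_le_one (fun ξ => by
    rw [one_mul]; exact scPull_norm_le f hf ξ)

/-- restriction of a kernel along injective maps does not increase the norm. -/
theorem smp_subker {T : ScL2 Y →L[ℂ] ScL2 X} {k : X → Y → ℂ} (hT : SmpHasKer T k)
    (φ : X' → X) (hφ : Function.Injective φ) (ψ : Y' → Y) (hψ : Function.Injective ψ) :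
    SmpHasKer (scPull φ hφ ∘L T ∘L ContinuousLinearMap.adjoint (scPull ψ hψ))
      (fun x y => k (φ x) (ψ y)) ∧
    ‖scPull φ hφ ∘L T ∘L ContinuousLinearMap.adjoint (scPull ψ hψ)‖ ≤ ‖T‖ := by
  constructor
  · intro x y
    simp only [ContinuousLinearMap.comp_apply, smp_adjoint_pull_delta, scPull_apply]
    exact hT _ _
  · have h1 := smp_pull_opNorm_le φ hφ
    have h2 : ‖ContinuousLinearMap.adjoint (scPull ψ hψ)‖ ≤ 1 := by
      rw [LinearIsometryEquiv.norm_map]; exact smp_pull_opNorm_le ψ hψ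
    calc ‖scPull φ hφ ∘L T ∘L ContinuousLinearMap.adjoint (scPull ψ hψ)‖
        ≤ ‖scPull φ hφ‖ * (‖T‖ * ‖ContinuousLinearMap.adjoint (scPull ψ hψ)‖) :=
          (ContinuousLinearMap.opNorm_comp_le _ _).trans
            (mul_le_mul_of_nonneg_left (ContinuousLinearMap.opNorm_comp_le _ _) (norm_nonneg _))
      _ ≤ 1 * (‖T‖ * 1) := by gcongr
      _ = ‖T‖ := by ring

end subker

/-! ### The dipole graph -/

section dipole
variable {E : Type} [Fintype E] [DecidableEq E]

/-- the graph with two vertices and parallel edges `E` from `false` to `true`. -/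
abbrev smpDip (E : Type) : HlGraph Bool (E × Bool) :=
  smpGraph (fun _ : E => false) (fun _ : E => true)

omit [Fintype E] [DecidableEq E] in
lemma smpDip_src (d : E × Bool) : (smpDip E).src d = d.2 := by
  obtain ⟨e, β⟩ := d
  cases β <;> rfl

omit [Fintype E] [DecidableEq E] in
lemma smpDip_tgt (d : E × Bool) : (smpDip E).tgt d = !d.2 := by
  obtain ⟨e, β⟩ := d
  cases β <;> rfl

omit [DecidableEq E] in
lemma smpDip_degree (x : Bool) (T : Finset (E × Bool)) (hT : ∀ d ∈ T, (smpDip E).src d = x) :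
    T.card ≤ Fintype.card E := by
  rw [← Finset.card_univ]
  apply Finset.card_le_card_of_injOn Prod.fst (fun _ _ => Finset.mem_coe.mpr (Finset.mem_univ _))
  intro d hd d' hd' h
  have h1 := hT d hd
  have h2 := hT d' hd'
  rw [smpDip_src] at h1 h2
  exact Prod.ext h (h1.trans h2.symm)

omit [Fintype E] in
lemma smpDip_count (w : List (E × Bool)) (e : E) :
    (w.map Prod.fst).count e = smpMult (smpDip E) w (e, false) := by
  unfold smpMult
  induction w with
  | nil => simp
  | cons d w ih =>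
    obtain ⟨e', β⟩ := d
    simp only [List.map_cons, List.count_cons, ih]
    have hinv : (smpDip E).inv (e, false) = (e, true) := rfl
    rw [hinv]
    cases β <;> by_cases h : e' = e <;> simp [h] <;> omega

omit [Fintype E] [DecidableEq E] in
/-- a walk in the dipole graph is determined by its starting point and its sequence of edges. -/
lemma smpDip_walk_inj : ∀ (w w' : List (E × Bool)) (v x x' : Bool), (smpDip E).IsWalk v w x →
    (smpDip E).IsWalk v w' x' → w.map Prod.fst = w'.map Prod.fst → w = w' := by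
  intro w
  induction w with
  | nil =>
    intro w' v x x' _ _ h
    cases w' with
    | nil => rfl
    | cons d w' => simp at h
  | cons d w ih =>
    intro w' v x x' h1 h2 h
    cases w' with
    | nil => simp at h
    | cons d' w' =>
      rw [HlGraph.isWalk_cons] at h1 h2
      simp only [List.map_cons, List.cons.injEq] at h
      have hd : d = d' := by
        have a1 := h1.1
        have a2 := h2.1
        rw [smpDip_src] at a1 a2
        exact Prod.ext h.1 (a1.trans a2.symm)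
      subst hd
      rw [ih w' _ x x' h1.2 h2.2 h.2]

lemma smpDip_walk_count (k : ℕ) (v : Bool) (S : Finset (List (E × Bool)))
    (hS : ∀ w ∈ S, w.length = 2 * k ∧ (smpDip E).IsWalk v w v ∧ smpNoSingle (smpDip E) w) :
    S.card ≤ (k + 1) * (k ^ 2 * Fintype.card E) ^ k := by
  have hinj : Set.InjOn (List.map Prod.fst) (S : Set (List (E × Bool))) := by
    intro w hw w' hw' h
    exact smpDip_walk_inj w w' v v v (hS w hw).2.1 (hS w' hw').2.1 h
  rw [← Finset.card_image_of_injOn hinj]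
  apply smp_dipole_count
  intro u hu
  obtain ⟨w, hw, rfl⟩ := Finset.mem_image.mp hu
  refine ⟨by rw [List.length_map]; exact (hS w hw).1, fun e => ?_⟩
  rw [smpDip_count]
  exact (hS w hw).2.2 _

end dipole


variable {G : Type} [Group G] [DecidableEq G] {ι : Type} [Fintype ι] [DecidableEq ι]

/-- the centred coefficients of the dipole block. -/
lemma smp_emp_coef {Ω₀ : Type} [Fintype Ω₀] (p : Ω₀ → ℝ) (hp1 : ∑ a, p a = 1)
    (W : Ω₀ → Matrix ι ι ℂ) (z : Ω₀ → G) (Ms : ℕ) (ω : Fin Ms → Ω₀) (a b : Bool × ι) (g : G) :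
    (smpCoef (fun _ : Fin Ms => false) (fun _ : Fin Ms => true) (fun e => W (ω e)) (fun e => z (ω e))
      - smpE (fun _ : Fin Ms => p) (fun ω' => smpCoef (fun _ : Fin Ms => false) (fun _ : Fin Ms => true)
          (fun e => W (ω' e)) (fun e => z (ω' e)))) a b g =
    ∑ e : Fin Ms, ((if false = a.1 ∧ true = b.1 then
        ((if z (ω e) = g then W (ω e) a.2 b.2 else 0)
          - ∑ x, (p x : ℂ) * (if z x = g then W x a.2 b.2 else 0)) else 0)
      + (if true = a.1 ∧ false = b.1 then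
        ((if (z (ω e))⁻¹ = g then star (W (ω e) b.2 a.2) else 0)
          - ∑ x, (p x : ℂ) * (if (z x)⁻¹ = g then star (W x b.2 a.2) else 0)) else 0)) := by
  rw [Pi.sub_apply, Pi.sub_apply, Pi.sub_apply,
    smpE_smpCoef (fun _ : Fin Ms => false) (fun _ : Fin Ms => true) (fun _ : Fin Ms => p)
      (fun _ => hp1) (fun _ => W) (fun _ => z) a b g]
  unfold smpCoef
  rw [← Finset.sum_sub_distrib]
  refine Finset.sum_congr rfl fun e _ => ?_
  obtain ⟨a1, a2⟩ := a
  obtain ⟨b1, b2⟩ := b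
  cases a1 <;> cases b1 <;> simp

/-- **Empirical lists** (KK 9.4), tail form: `Ms` independent samples of one law. -/
theorem smp_empirical_tail {Ω₀ : Type} [Fintype Ω₀] (p : Ω₀ → ℝ) (hp0 : ∀ a, 0 ≤ p a)
    (hp1 : ∑ a, p a = 1) (W : Ω₀ → Matrix ι ι ℂ) (z : Ω₀ → G) (B₀ : ℝ) (hB : ∀ a, ‖W a‖ ≤ B₀)
    (Bx : Finset G) (hBx : Bx.Nonempty) (κ : ℝ) (hκ0 : 0 ≤ κ)
    (hκ : ∀ a, ((Bx.filter fun f => f * z a ∉ Bx).card : ℝ) ≤ κ * Bx.card ∧
      ((Bx.filter fun f => f * (z a)⁻¹ ∉ Bx).card : ℝ) ≤ κ * Bx.card)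
    (Ms k : ℕ) (hMs : 0 < Ms) (τ : ℝ) (hτ : 0 < τ) :
    smpP (fun _ : Fin Ms => p) (fun ω => τ + κ * (2 * B₀ * Fintype.card ι) ≤
        ‖smpConv (fun (u v : ι) (g : G) =>
          (Ms : ℂ)⁻¹ * ∑ j, (if z (ω j) = g then W (ω j) u v else 0)
            - ∑ a, (p a : ℂ) * (if z a = g then W a u v else 0))‖)
      ≤ (2 * (Fintype.card ι * Bx.card) * ((k + 1) * (k ^ 2 * Ms) ^ k))
          * (2 * B₀ / (Ms * τ)) ^ (2 * k) := by
  classical
  have hne : Nonempty Ω₀ := by
    by_contra h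
    rw [not_nonempty_iff] at h
    simp at hp1
  obtain ⟨a₀⟩ := hne
  have hB0 : 0 ≤ B₀ := (norm_nonneg _).trans (hB a₀)
  have hMs' : (0 : ℝ) < Ms := by exact_mod_cast hMs
  have hMsC : (Ms : ℂ) ≠ 0 := by exact_mod_cast hMs.ne'
  have hblock := smp_block_tail (G := G) (ι := ι) (fun _ : Fin Ms => false) (fun _ : Fin Ms => true)
    (fun _ => p) (fun _ => hp0) (fun _ => hp1) (fun _ => W) (fun _ => z) B₀ hB0 (fun _ => hB) Ms
    (fun x T hT => by simpa using smpDip_degree x T hT) Bx hBx κ hκ0 (fun _ => hκ) k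
    ((k + 1) * (k ^ 2 * Ms) ^ k)
    (fun v S hS => by simpa using smpDip_walk_count k v S hS) (Ms * τ) (by positivity)
  refine le_trans (smpP_mono _ (fun _ => hp0) ?_) (le_of_le_of_eq hblock ?_)
  · intro ω hω
    set C := smpCoef (fun _ : Fin Ms => false) (fun _ : Fin Ms => true) (fun e => W (ω e))
        (fun e => z (ω e))
      - smpE (fun _ : Fin Ms => p) (fun ω' => smpCoef (fun _ : Fin Ms => false)
          (fun _ : Fin Ms => true) (fun e => W (ω' e)) (fun e => z (ω' e))) with hC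
    set c : ι → ι → G → ℂ := fun (u v : ι) (g : G) =>
          (Ms : ℂ)⁻¹ * ∑ j, (if z (ω j) = g then W (ω j) u v else 0)
            - ∑ a, (p a : ℂ) * (if z a = g then W a u v else 0) with hc
    have hCform := smp_emp_coef p hp1 W z Ms ω
    rw [← hC] at hCform
    -- the big operator has its kernel
    set Sg : Finset G := Finset.univ.image z ∪ Finset.univ.image (fun a => (z a)⁻¹) with hSg
    have hsupp : ∀ a b g, g ∉ Sg → C a b g = 0 := by
      intro a b g hg
      have h1 : ∀ x, z x ≠ g := fun x h => hg (by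
        rw [hSg, Finset.mem_union]; exact Or.inl (Finset.mem_image.mpr ⟨x, Finset.mem_univ _, h⟩))
      have h2 : ∀ x, (z x)⁻¹ ≠ g := fun x h => hg (by
        rw [hSg, Finset.mem_union]; exact Or.inr (Finset.mem_image.mpr ⟨x, Finset.mem_univ _, h⟩))
      rw [hCform]
      simp [h1, h2]
    have hbd : SmpCoefBd C (∑ a, ∑ b, ∑ g ∈ Sg, ‖C a b g‖) := by
      refine smpCoefBd_of_finite C Sg hsupp _ (fun a => ?_) (fun b => ?_)
      · exact Finset.single_le_sum (f := fun a => ∑ b, ∑ g ∈ Sg, ‖C a b g‖)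
          (fun a _ => Finset.sum_nonneg fun b _ => Finset.sum_nonneg fun g _ => norm_nonneg _)
          (Finset.mem_univ a)
      · have hcomm : ∑ a, ∑ b, ∑ g ∈ Sg, ‖C a b g‖ = ∑ b, ∑ a, ∑ g ∈ Sg, ‖C a b g‖ := Finset.sum_comm
        rw [hcomm]
        exact Finset.single_le_sum (f := fun b => ∑ a, ∑ g ∈ Sg, ‖C a b g‖)
          (fun a _ => Finset.sum_nonneg fun b _ => Finset.sum_nonneg fun g _ => norm_nonneg _)
          (Finset.mem_univ b)
    have hD : SmpHasKer (smpConv C) (smpConvK C) := hbd.schur.hasKer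
    have hφ : Function.Injective (fun x : G × ι => ((x.1, (false, x.2)) : G × (Bool × ι))) := by
      rintro ⟨f, u⟩ ⟨f', u'⟩ h
      simp only [Prod.mk.injEq, true_and] at h
      exact Prod.ext h.1 h.2
    have hψ : Function.Injective (fun x : G × ι => ((x.1, (true, x.2)) : G × (Bool × ι))) := by
      rintro ⟨f, u⟩ ⟨f', u'⟩ h
      simp only [Prod.mk.injEq, true_and] at h
      exact Prod.ext h.1 h.2
    obtain ⟨hS1, hS2⟩ := smp_subker hD _ hφ _ hψ
    set S := scPull _ hφ ∘L smpConv C ∘L ContinuousLinearMap.adjoint (scPull _ hψ) with hS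
    have hker : SmpHasKer ((Ms : ℂ)⁻¹ • S) (smpConvK c) := by
      have := hS1.smul (Ms : ℂ)⁻¹
      intro x y
      rw [this x y]
      simp only [smpConvK, hCform, hc]
      simp only [and_self, if_true, Bool.true_eq_false, Bool.false_eq_true, if_false, add_zero,
        Finset.sum_sub_distrib, Finset.sum_const, Finset.card_univ, Fintype.card_fin, nsmul_eq_mul]
      field_simp
    have heq : smpConv c = (Ms : ℂ)⁻¹ • S := hker.eq_smpKer
    have hnorm : ‖smpConv c‖ ≤ (Ms : ℝ)⁻¹ * ‖smpConv C‖ := by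
      rw [heq, norm_smul, norm_inv, Complex.norm_natCast]
      exact mul_le_mul_of_nonneg_left hS2 (by positivity)
    have h3 : (Ms : ℝ) * ‖smpConv c‖ ≤ ‖smpConv C‖ := by
      have := mul_le_mul_of_nonneg_left hnorm hMs'.le
      rwa [← mul_assoc, mul_inv_cancel₀ hMs'.ne', one_mul] at this
    have h4 := mul_le_mul_of_nonneg_left hω hMs'.le
    calc (Ms : ℝ) * τ + κ * (2 * Ms * B₀ * Fintype.card ι)
        = Ms * (τ + κ * (2 * B₀ * Fintype.card ι)) := by ring
      _ ≤ Ms * ‖smpConv c‖ := h4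
      _ ≤ _ := h3
  · simp only [Fintype.card_bool]
    push_cast
    ring

/-- Existence form of the empirical lists. -/
theorem smp_empirical_exists {Ω₀ : Type} [Fintype Ω₀] (p : Ω₀ → ℝ) (hp0 : ∀ a, 0 ≤ p a)
    (hp1 : ∑ a, p a = 1) (W : Ω₀ → Matrix ι ι ℂ) (z : Ω₀ → G) (B₀ : ℝ) (hB : ∀ a, ‖W a‖ ≤ B₀)
    (Bx : Finset G) (hBx : Bx.Nonempty) (κ : ℝ) (hκ0 : 0 ≤ κ)
    (hκ : ∀ a, ((Bx.filter fun f => f * z a ∉ Bx).card : ℝ) ≤ κ * Bx.card ∧
      ((Bx.filter fun f => f * (z a)⁻¹ ∉ Bx).card : ℝ) ≤ κ * Bx.card)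
    (Ms k : ℕ) (hMs : 0 < Ms) (τ : ℝ) (hτ : 0 < τ)
    (hlt : (2 * (Fintype.card ι * Bx.card) * ((k + 1) * (k ^ 2 * Ms) ^ k) : ℝ)
          * (2 * B₀ / (Ms * τ)) ^ (2 * k) < 1) :
    ∃ ω : Fin Ms → Ω₀, (∀ j, 0 < p (ω j)) ∧
        ‖smpConv (fun (u v : ι) (g : G) =>
          (Ms : ℂ)⁻¹ * ∑ j, (if z (ω j) = g then W (ω j) u v else 0)
            - ∑ a, (p a : ℂ) * (if z a = g then W a u v else 0))‖
          < τ + κ * (2 * B₀ * Fintype.card ι) := by
  have h := smp_empirical_tail p hp0 hp1 W z B₀ hB Bx hBx κ hκ0 hκ Ms k hMs τ hτ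
  obtain ⟨ω, h1, h2⟩ := smp_exists_pos_of_lt_one (fun _ : Fin Ms => p) (fun _ => hp0) (fun _ => hp1) _
    (lt_of_le_of_lt h hlt)
  exact ⟨ω, h1, not_le.mp h2⟩

end Claimed.Agent.R300
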