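/-
Row 300, KK Lemma 9.4 (empirical lists) for pre-laws on the deck group.     Architect: helper21.

PROOF.  `smp_empirical_exists` (SmpEmp.lean) with `W a := c a • R a` (`‖W a‖ ≤ B₀`), the Foelner box `Bx` of `nil_box m a B`
at `x = q = d ^ Astar = 2 ^ (4 ℓ Astar)` with `B = a + 1`, `Ms = 2 ^ (ℓ / 8)`, `τ = ε / 2`, and a CONSTANT exponent `k`
(`k = 64 Astar (c + a) + 64`, `c` the exponent of `nil_box`):
  `2 N |Bx| (k+1) (k² Ms)^k (2 B₀ / (Ms τ))^(2k) = 2 N |Bx| (k+1) (4 B₀² k² / (Ms τ²))^k`, `N |Bx| ≤ q^(a+c)`,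
  `4 B₀² k² / (Ms τ²) ≤ 2^(-ℓ/16)` for large `ℓ`, so the product is `≤ 2 (k+1) 2^(4 ℓ Astar (a+c) - ℓ k / 16) < 1`;
  `κ (2 B₀ N) ≤ Cc q^(-a-1) 2 B₀ q^a ≤ ε / 2` for large `ℓ`.
Transfer from right to left convolutions: `smpLConv_norm`, `smpLConv_sub` (KkLConv.lean), `kkWL` is a `smpLConv`.
-/
import Claimed.Agent.R300.KkPre
import Claimed.Agent.R300.SmpEmp

set_option autoImplicit false
set_option linter.unusedSectionVars false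

namespace Claimed.Agent.R300

open Nil
open scoped ENNReal ComplexConjugate InnerProductSpace Matrix.Norms.L2Operator

/-- length of the empirical lists, `M = 2^(ℓ/8) ≤ d^(1/32)`. -/
def kkMs (ℓ : ℕ) : ℕ := 2 ^ (ℓ / 8)

theorem kkMs_pos (ℓ : ℕ) : 0 < kkMs ℓ := by unfold kkMs; positivity

theorem kkMs_pow_le (ℓ : ℕ) : kkMs ℓ ^ 32 ≤ kkd ℓ := by
  unfold kkMs kkd
  rw [← pow_mul]
  exact Nat.pow_le_pow_right (by norm_num) (by omega)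

section transfer

variable {F : Type} [Group F] [DecidableEq F] {J : Type} [Fintype J] [DecidableEq J]

/-- coefficients of `empirical mean - mean` -/
noncomputable def kkeCoef (μ : KkPre F J) {M : ℕ} (ω : Fin M → μ.Ω) : J → J → F → ℂ :=
  fun u v g => (M : ℂ)⁻¹ * ∑ j, (if μ.z (ω j) = g then (μ.c (ω j) • μ.R (ω j)) u v else 0)
    - ∑ a, (μ.p a : ℂ) * (if μ.z a = g then (μ.c a • μ.R a) u v else 0)

theorem kke_hasKer (μ : KkPre F J) :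
    SmpHasKer μ.meanOp (fun x y => ∑ a, (μ.p a : ℂ) *
      (if μ.z a = x.1 * y.1⁻¹ then (μ.c a • μ.R a) x.2 y.2 else 0)) := by
  intro x y
  unfold KkPre.meanOp
  rw [SmpHasKer.sum Finset.univ
    (fun a _ => (kkWL_hasKer (μ.R a) (μ.z a)).smul ((μ.p a : ℂ) * μ.c a)) x y]
  refine Finset.sum_congr rfl fun a _ => ?_
  by_cases h : x.1 = μ.z a * y.1
  · rw [if_pos h, if_pos (by rw [h, mul_inv_cancel_right])]
    simp only [Matrix.smul_apply, smul_eq_mul]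
    ring
  · rw [if_neg h, if_neg (fun hh => h (by rw [hh, inv_mul_cancel_right]))]
    simp

theorem kke_op_eq (μ : KkPre F J) {M : ℕ} (hM : 0 < M) (ω : Fin M → μ.Ω) :
    smpLConv (kkeCoef μ ω) = (μ.sub hM ω).meanOp - μ.meanOp := by
  refine SmpHasKer.eq_smpKer ?_
  intro x y
  rw [((kke_hasKer (μ.sub hM ω)).sub (kke_hasKer μ)) x y]
  simp only [smpLConvK, kkeCoef]
  congr 1
  rw [Finset.mul_sum]
  refine Finset.sum_congr rfl fun j _ => ?_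
  simp only [KkPre.sub, KkPre.unif, Fintype.card_fin]
  push_cast
  rfl

theorem kke_norm_eq (μ : KkPre F J) {M : ℕ} (hM : 0 < M) (ω : Fin M → μ.Ω) :
    ‖(μ.sub hM ω).meanOp - μ.meanOp‖ = ‖smpConv (kkeCoef μ ω)‖ := by
  obtain ⟨R, hR⟩ := smpCoefBd_exists_of_finite (kkeCoef μ ω)
    (Finset.univ.image μ.z) (fun u v g hg => by
      have h1 : ∀ a, μ.z a ≠ g := fun a h => hg (Finset.mem_image.2 ⟨a, Finset.mem_univ _, h⟩)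
      simp only [kkeCoef, h1, if_false, Finset.sum_const_zero, mul_zero, sub_zero])
  rw [← kke_op_eq μ hM ω, smpLConv_norm hR]

end transfer

theorem kke_num_lt (k Ms E ℓ : ℕ) (hMs : 0 < Ms) (NB B₁ τ D : ℝ) (hD : D = 4 * B₁ ^ 2 * k ^ 2 / τ ^ 2)
    (hτ : 0 < τ) (hNB : NB ≤ 2 ^ (E * ℓ))
    (hMsk : (2 : ℝ) ^ (E * ℓ + ℓ) ≤ (Ms : ℝ) ^ k * 2 ^ k) (hK : 2 * ((k : ℝ) + 1) * (2 * D) ^ k < 2 ^ ℓ) :
    (2 * NB * (((k : ℝ) + 1) * ((k : ℝ) ^ 2 * Ms) ^ k)) * (2 * B₁ / (Ms * τ)) ^ (2 * k) < 1 := by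
  have hMs' : (0 : ℝ) < Ms := by exact_mod_cast hMs
  have hD0 : 0 ≤ D := by rw [hD]; positivity
  have e : ((k : ℝ) ^ 2 * Ms) ^ k * (2 * B₁ / (Ms * τ)) ^ (2 * k) = D ^ k / (Ms : ℝ) ^ k := by
    rw [pow_mul, ← mul_pow, hD, ← div_pow]
    congr 1
    field_simp
    ring
  have e2 : (2 * NB * (((k : ℝ) + 1) * ((k : ℝ) ^ 2 * Ms) ^ k)) * (2 * B₁ / (Ms * τ)) ^ (2 * k)
      = 2 * NB * ((k : ℝ) + 1) * D ^ k / (Ms : ℝ) ^ k := by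
    calc _ = 2 * NB * ((k : ℝ) + 1) * (((k : ℝ) ^ 2 * Ms) ^ k * (2 * B₁ / (Ms * τ)) ^ (2 * k)) := by
          ring
      _ = _ := by rw [e]; ring
  rw [e2, div_lt_one (by positivity)]
  have h2k : (0 : ℝ) < 2 ^ k := by positivity
  have hDk : 0 ≤ D ^ k := by positivity
  have hk1 : (0 : ℝ) < (k : ℝ) + 1 := by positivity
  have h1 : 2 * NB * ((k : ℝ) + 1) * D ^ k * 2 ^ k < (Ms : ℝ) ^ k * 2 ^ k := by
    calc 2 * NB * ((k : ℝ) + 1) * D ^ k * 2 ^ k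
        ≤ 2 * 2 ^ (E * ℓ) * ((k : ℝ) + 1) * D ^ k * 2 ^ k := by gcongr
      _ = 2 ^ (E * ℓ) * (2 * ((k : ℝ) + 1) * (2 * D) ^ k) := by rw [mul_pow]; ring
      _ < 2 ^ (E * ℓ) * 2 ^ ℓ := by
          apply mul_lt_mul_of_pos_left hK (by positivity)
      _ = 2 ^ (E * ℓ + ℓ) := by rw [pow_add]
      _ ≤ _ := hMsk
  exact lt_of_mul_lt_mul_right h1 h2k.le

theorem kke_num_exp (E ℓ : ℕ) : E * ℓ + ℓ ≤ (ℓ / 8) * (8 * (E + 1)) + 8 * (E + 1) := by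
  have h : ℓ ≤ 8 * (ℓ / 8) + 8 := by omega
  calc E * ℓ + ℓ = (E + 1) * ℓ := by ring
    _ ≤ (E + 1) * (8 * (ℓ / 8) + 8) := Nat.mul_le_mul_left _ h
    _ = _ := by ring

/-- **Empirical lists** (KK Lemma 9.4). -/
theorem kk_empirical (m a Astar : ℕ) (B₀ ε : ℝ) (hε : 0 < ε) :
    ∃ ℓ₀ : ℕ, ∀ ℓ ≥ ℓ₀, ∀ (J : Type) [Fintype J] [DecidableEq J],
      (Fintype.card J : ℝ) ≤ ((kkd ℓ ^ Astar : ℕ) : ℝ) ^ a →
      ∀ μ : KkPre (Deck m ℤ) J, (∀ x, ‖μ.c x‖ ≤ B₀) → (∀ x, ‖μ.R x‖ ≤ 1) →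
      (∀ x, (μ.z x).CBound (((kkd ℓ ^ Astar : ℕ) : ℝ) ^ a) ∧
        (μ.z x)⁻¹.CBound (((kkd ℓ ^ Astar : ℕ) : ℝ) ^ a)) →
      ∃ ω : Fin (kkMs ℓ) → μ.Ω, ‖(μ.sub (kkMs_pos ℓ) ω).meanOp - μ.meanOp‖ ≤ ε := by
  obtain ⟨c, Cc, hbox⟩ := nil_box m a (a + 1)
  obtain ⟨A', hA'⟩ : ∃ A' : ℕ, A' = Astar + 1 := ⟨_, rfl⟩
  obtain ⟨E, hE⟩ : ∃ E : ℕ, E = 4 * A' * (a + c) := ⟨_, rfl⟩
  obtain ⟨k, hk⟩ : ∃ k : ℕ, k = 8 * (E + 1) := ⟨_, rfl⟩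
  obtain ⟨B₁, hB₁⟩ : ∃ B₁ : ℝ, B₁ = |B₀| + 1 := ⟨_, rfl⟩
  have hB₁pos : 0 < B₁ := by rw [hB₁]; positivity
  obtain ⟨D, hD⟩ : ∃ D : ℝ, D = 4 * B₁ ^ 2 * (k : ℝ) ^ 2 / (ε / 2) ^ 2 := ⟨_, rfl⟩
  obtain ⟨n₁, hn₁⟩ := pow_unbounded_of_one_lt (2 * ((k : ℝ) + 1) * (2 * D) ^ k) one_lt_two
  obtain ⟨n₂, hn₂⟩ := pow_unbounded_of_one_lt (4 * |Cc| * B₁ / ε) one_lt_two
  refine ⟨max (max n₁ n₂) 1, fun ℓ hℓ J _ _ hJ μ hc hR hz => ?_⟩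
  have hℓ1 : n₁ ≤ ℓ := le_trans (le_trans (le_max_left _ _) (le_max_left _ _)) hℓ
  have hℓ2 : n₂ ≤ ℓ := le_trans (le_trans (le_max_right _ _) (le_max_left _ _)) hℓ
  have hℓ3 : 1 ≤ ℓ := le_trans (le_max_right _ _) hℓ
  have hK1 : 2 * ((k : ℝ) + 1) * (2 * D) ^ k < 2 ^ ℓ :=
    hn₁.trans_le (pow_le_pow_right₀ one_le_two hℓ1)
  have hK2 : 4 * |Cc| * B₁ / ε < 2 ^ ℓ := hn₂.trans_le (pow_le_pow_right₀ one_le_two hℓ2)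
  obtain ⟨x, hx⟩ : ∃ x : ℕ, x = 2 ^ (4 * ℓ * A') := ⟨_, rfl⟩
  have hexp : ℓ ≤ 4 * ℓ * A' := by
    rw [hA']
    nlinarith
  have hxℓ : 2 ^ ℓ ≤ x := by rw [hx]; exact Nat.pow_le_pow_right (by norm_num) hexp
  have hx2 : 2 ≤ x := by
    calc 2 = 2 ^ 1 := rfl
      _ ≤ 2 ^ ℓ := Nat.pow_le_pow_right (by norm_num) hℓ3
      _ ≤ x := hxℓ
  have hxR : (2 : ℝ) ^ ℓ ≤ (x : ℝ) := by exact_mod_cast hxℓ
  have hx0 : (0 : ℝ) < (x : ℝ) := lt_of_lt_of_le (by positivity) hxR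
  have hq : kkd ℓ ^ Astar ≤ x := by
    rw [hx, kkd, ← pow_mul]
    apply Nat.pow_le_pow_right (by norm_num)
    rw [hA']
    nlinarith
  have hqx : ((kkd ℓ ^ Astar : ℕ) : ℝ) ^ a ≤ (x : ℝ) ^ a := by
    have : ((kkd ℓ ^ Astar : ℕ) : ℝ) ≤ (x : ℝ) := by exact_mod_cast hq
    exact pow_le_pow_left₀ (by positivity) this a
  obtain ⟨Bx, hBxne, hBxcard, hBxF⟩ := hbox x hx2
  obtain ⟨κ, hκdef⟩ : ∃ κ : ℝ, κ = |Cc| * ((x : ℝ) ^ (a + 1))⁻¹ := ⟨_, rfl⟩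
  have hκ0 : 0 ≤ κ := by rw [hκdef]; positivity
  have hmono : ∀ g : Deck m ℤ, g.CBound (((kkd ℓ ^ Astar : ℕ) : ℝ) ^ a) →
      ((Bx.filter fun f => f * g ∉ Bx).card : ℝ) ≤ κ * Bx.card := by
    intro g hg
    have hg' : g.CBound ((x : ℝ) ^ a) :=
      ⟨hg.1.mono hqx, hg.2.1.mono hqx, hg.2.2.trans hqx⟩
    refine (hBxF g hg').trans ?_
    rw [hκdef]
    have : Cc ≤ |Cc| := le_abs_self Cc
    gcongr
  have hW : ∀ a', ‖μ.c a' • μ.R a'‖ ≤ B₁ := by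
    intro a'
    rw [norm_smul]
    calc ‖μ.c a'‖ * ‖μ.R a'‖ ≤ B₀ * 1 :=
          mul_le_mul (hc a') (hR a') (norm_nonneg _) ((norm_nonneg _).trans (hc a'))
      _ ≤ B₁ := by rw [hB₁, mul_one]; linarith [le_abs_self B₀]
  have hNB : (Fintype.card J : ℝ) * (Bx.card : ℝ) ≤ 2 ^ (E * ℓ) := by
    calc (Fintype.card J : ℝ) * (Bx.card : ℝ) ≤ (x : ℝ) ^ a * (x : ℝ) ^ c :=
          mul_le_mul (hJ.trans hqx) hBxcard (by positivity) (by positivity)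
      _ = 2 ^ (E * ℓ) := by
          rw [← pow_add, hx, hE]
          push_cast
          rw [← pow_mul]
          congr 1
          ring
  have hMsk : (2 : ℝ) ^ (E * ℓ + ℓ) ≤ ((kkMs ℓ : ℕ) : ℝ) ^ k * 2 ^ k := by
    unfold kkMs
    push_cast
    rw [← pow_mul, ← pow_add, hk]
    exact pow_le_pow_right₀ one_le_two (kke_num_exp E ℓ)
  have hlt := kke_num_lt k (kkMs ℓ) E ℓ (kkMs_pos ℓ) ((Fintype.card J : ℝ) * (Bx.card : ℝ)) B₁ (ε / 2)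
    D hD (by positivity) hNB hMsk hK1
  obtain ⟨ω, _, hω⟩ := smp_empirical_exists μ.p μ.p_nonneg μ.p_sum (fun a' => μ.c a' • μ.R a') μ.z B₁
    hW Bx hBxne κ hκ0 (fun a' => ⟨hmono _ (hz a').1, hmono _ (hz a').2⟩) (kkMs ℓ) k (kkMs_pos ℓ)
    (ε / 2) (by positivity) hlt
  refine ⟨ω, ?_⟩
  rw [kke_norm_eq]
  refine le_trans (le_of_lt hω) ?_
  have hfin : κ * (2 * B₁ * (Fintype.card J : ℝ)) ≤ ε / 2 := by
    have h1 : κ * (2 * B₁ * (Fintype.card J : ℝ)) ≤ κ * (2 * B₁ * (x : ℝ) ^ a) := by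
      have := hJ.trans hqx
      gcongr
    have h2 : κ * (2 * B₁ * (x : ℝ) ^ a) = 2 * |Cc| * B₁ / x := by
      rw [hκdef, pow_succ]
      field_simp
    have h3 : 2 * |Cc| * B₁ / x ≤ ε / 2 := by
      rw [div_le_iff₀ hx0]
      have h4 : 4 * |Cc| * B₁ / ε < (x : ℝ) := hK2.trans_le hxR
      rw [div_lt_iff₀ hε] at h4
      linarith
    linarith
  linarith

end Claimed.Agent.R300
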