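import Claimed.Agent.R300.ShellBase

/-!
# Row 300, KK paper: the interface `TOWER → (sampling, geometry, spectral)`

`KkTower l ε` is the export of KK Sections 4-6 (Proposition 6.3 `prune:tower-properties`), in a
model-agnostic form.  PRODUCER: `Tw*` (theorem `tw_main`, see `KkTop`).  CONSUMERS: `KkCore`/`Smp*`
(Theorem 9.2), `GeoKK*` (hypotheses (Y1)-(Y4)), `Spec*` (degrees, weights).

Conventions.  One vertex type `V0` for `Y⁰` with a side (`sideA`) and a layer (`lay`); positive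
edges go from the `A`-side to the `B`-side and are triples `E0 a σ b` (the graph is folded, so a
multi-edge is resolved by its labels).  `Y` is the subgraph induced on `keep`.
-/

set_option autoImplicit false

namespace Claimed.Agent.R300

/-- `d = 2^{4ℓ}` -/
def kkd (l : ℕ) : ℕ := 2 ^ (4 * l)
/-- `D = d²` -/
def kkD (l : ℕ) : ℕ := kkd l ^ 2
/-- `H_i = (2 n₀ + 1) s + 1 + |i|`, `n₀ = 1000`, `s = 10 ℓ` -/
def kkH (l : ℕ) (i : ℤ) : ℕ := 2001 * (10 * l) + 1 + i.natAbs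
/-- the bound `m_ℓ = 27 K² d 2^{r+2}`, `K = 32 s`, `r = 7ℓ`, for the positive alphabet -/
def kkM (l : ℕ) : ℕ := 27 * (320 * l) ^ 2 * kkd l * 2 ^ (7 * l + 2)

/-- The labelled graph (in the sense of `Shell.Path`) induced on `keep` by the positive edges
`E0 a σ b`: the letter `(σ, true)` is read from `a` to `b`, the letter `(σ, false)` from `b` to
`a`. -/
def kkEY {V0 S : Type} (E0 : V0 → S → V0 → Prop) (keep : Set V0) : V0 → S × Bool → V0 → Prop :=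
  fun x lt y => x ∈ keep ∧ y ∈ keep ∧
    ((lt.2 = true ∧ E0 x lt.1 y) ∨ (lt.2 = false ∧ E0 y lt.1 x))

/-- **Export of KK Sections 4-6** (Proposition 6.3), `χ = 1/800`. -/
structure KkTower (l : ℕ) (ε : ℝ) where
  /-- vertices of `Y⁰` -/
  V0 : Type
  /-- positive alphabet -/
  S : Type
  finS : Finite S
  cardS : Nat.card S ≤ kkM l
  /-- the `A`-side -/
  sideA : Set V0
  /-- the layer -/
  lay : V0 → ℤ
  lA : ℤ → Finset V0
  lB : ℤ → Finset V0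
  mem_lA : ∀ i v, v ∈ lA i ↔ v ∈ sideA ∧ lay v = i
  mem_lB : ∀ i v, v ∈ lB i ↔ v ∉ sideA ∧ lay v = i
  cardA : ∀ i, (lA i).card = kkd l * 2 ^ kkH l i
  cardB : ∀ i, (lB i).card = 2 ^ kkH l i
  /-- positive edges of `Y⁰` -/
  E0 : V0 → S → V0 → Prop
  E0_side : ∀ a σ b, E0 a σ b → a ∈ sideA ∧ b ∉ sideA ∧ |lay a - lay b| ≤ 1
  fold_src : ∀ a σ b b', E0 a σ b → E0 a σ b' → b = b'
  fold_tgt : ∀ a a' σ b, E0 a σ b → E0 a' σ b → a = a'
  /-- (1) degrees: `d` on `A_i`, `D_{ik} = D 2^{|i|-|k|}` on `B_k` -/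
  degA : ∀ i k, |i - k| ≤ 1 → ∀ a ∈ lA i, {σ | ∃ b ∈ lB k, E0 a σ b}.ncard = kkd l
  degB : ∀ i k, |i - k| ≤ 1 → ∀ b ∈ lB k,
    {σ | ∃ a ∈ lA i, E0 a σ b}.ncard * 2 ^ k.natAbs = kkD l * 2 ^ i.natAbs
  /-- `D_{ik}` is a function of the label -/
  dfac : S → ℕ
  dfac_spec : ∀ a σ b, E0 a σ b → dfac σ * 2 ^ (lay b).natAbs = kkD l * 2 ^ (lay a).natAbs
  /-- (1) spectral gap of the block `(i,k)`: `‖U⁰_{ik} f‖² ≤ (1-χ)² ‖f‖²` for centred `f` -/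
  gap : ∀ i k, |i - k| ≤ 1 → ∀ f : V0 → ℝ, ∑ b ∈ lB k, f b = 0 →
    (∑ a ∈ lA i, (∑ b ∈ lB k, ({σ | E0 a σ b}.ncard : ℝ) * f b) ^ 2) * 2 ^ k.natAbs ≤
      (1 - 1 / 800) ^ 2 * ((kkd l : ℝ) * kkD l * 2 ^ i.natAbs) * ∑ b ∈ lB k, f b ^ 2
  /-- the surviving vertices: `Y` is induced on `keep` -/
  keep : Set V0
  /-- (2) deleted fractions -/
  delA : ∀ i, (((lA i : Set V0) \ keep).ncard : ℝ) ≤ ε * (lA i).card
  delB : ∀ i, (((lB i : Set V0) \ keep).ncard : ℝ) ≤ ε * (lB i).card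
  /-- (4) a reduced word of length `≥ L_i = 25 H_i / ℓ` is read from at most one vertex of `Y` -/
  uniq : ∀ (v v' x x' : V0) (w : List (S × Bool)), FreeGroup.IsReduced w →
    Shell.Path (kkEY E0 keep) v w x → Shell.Path (kkEY E0 keep) v' w x' →
    25 * kkH l (lay v) ≤ l * w.length → v = v'
  /-- (5) no cyclically reduced closed path of length `≤ g_i = H_i / (400 ℓ)` -/
  girth : ∀ (v : V0) (w : List (S × Bool)), w ≠ [] → FreeGroup.IsCyclicallyReduced w →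
    Shell.Path (kkEY E0 keep) v w v → kkH l (lay v) < 400 * l * w.length

namespace KkTower

variable {l : ℕ} {ε : ℝ} (𝕋 : KkTower l ε)

/-- the labelled graph `Y` -/
def EY : 𝕋.V0 → 𝕋.S × Bool → 𝕋.V0 → Prop := kkEY 𝕋.E0 𝕋.keep

theorem EY_sym : Shell.GSym 𝕋.EY := by
  rintro x ⟨σ, b⟩ y ⟨hx, hy, h⟩
  refine ⟨hy, hx, ?_⟩
  rcases h with ⟨hb, h⟩ | ⟨hb, h⟩
  · right; exact ⟨by simp [Shell.linv, show b = true from hb], h⟩
  · left; exact ⟨by simp [Shell.linv, show b = false from hb], h⟩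

theorem EY_det : Shell.GDet 𝕋.EY := by
  rintro x ⟨σ, b⟩ y z ⟨_, _, h⟩ ⟨_, _, h'⟩
  rcases h with ⟨hb, h⟩ | ⟨hb, h⟩ <;> rcases h' with ⟨hb', h'⟩ | ⟨hb', h'⟩
  · exact 𝕋.fold_src _ _ _ _ h h'
  · simp_all
  · simp_all
  · exact 𝕋.fold_tgt _ _ _ _ h h'

theorem EY_lay {x y : 𝕋.V0} {lt : 𝕋.S × Bool} (h : 𝕋.EY x lt y) : |𝕋.lay x - 𝕋.lay y| ≤ 1 := by
  obtain ⟨_, _, h⟩ := h
  rcases h with ⟨_, h⟩ | ⟨_, h⟩
  · exact (𝕋.E0_side _ _ _ h).2.2
  · rw [abs_sub_comm]; exact (𝕋.E0_side _ _ _ h).2.2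

end KkTower

end Claimed.Agent.R300
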