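import Mathlib

/-!
# KK Section 8, L8.10 (second part): the logistic chart `t(b) = δ 2^(κ b) / (1 + 2^(κ b))`

`sg x = 2^x / (1 + 2^x)`, `tch δ κ b = δ * sg (κ * b)`.   `δ - t(b) = t(-b)`.
-/

set_option autoImplicit false

namespace Claimed.Agent.R300.Nil

open Real Filter Topology

/-- logistic function in base two -/
noncomputable def sg (x : ℝ) : ℝ := (2 : ℝ) ^ x / (1 + (2 : ℝ) ^ x)

lemma two_rpow_pos (x : ℝ) : 0 < (2 : ℝ) ^ x := Real.rpow_pos_of_pos two_pos x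

lemma sg_pos (x : ℝ) : 0 < sg x := div_pos (two_rpow_pos x) (by have := two_rpow_pos x; linarith)

lemma sg_lt_one (x : ℝ) : sg x < 1 := by
  have := two_rpow_pos x
  unfold sg
  rw [div_lt_one (by linarith)]
  linarith

lemma sg_add_neg (x : ℝ) : sg x + sg (-x) = 1 := by
  have h := two_rpow_pos x
  unfold sg
  rw [Real.rpow_neg two_pos.le]
  field_simp
  ring

lemma sg_neg (x : ℝ) : sg (-x) = 1 / (1 + (2 : ℝ) ^ x) := by
  have h := two_rpow_pos x
  unfold sg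
  rw [Real.rpow_neg two_pos.le]
  field_simp
  ring

lemma sg_le_rpow (x : ℝ) : sg x ≤ (2 : ℝ) ^ x := by
  have h := two_rpow_pos x
  unfold sg
  rw [div_le_iff₀ (by linarith)]
  nlinarith

lemma sg_ge_of_nonpos {x : ℝ} (hx : x ≤ 0) : (2 : ℝ) ^ x / 2 ≤ sg x := by
  have h := two_rpow_pos x
  have h1 : (2 : ℝ) ^ x ≤ 1 := Real.rpow_le_one_of_one_le_of_nonpos one_le_two hx
  unfold sg
  exact div_le_div_of_nonneg_left h.le (by linarith) (by linarith)

lemma sg_ge_of_nonneg {x : ℝ} (hx : 0 ≤ x) : 1 / 2 ≤ sg x := by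
  have h1 : 1 ≤ (2 : ℝ) ^ x := Real.one_le_rpow one_le_two hx
  unfold sg
  rw [div_le_div_iff₀ two_pos (by linarith)]
  linarith

lemma sg_strictMono : StrictMono sg := by
  intro x y hxy
  have hx := two_rpow_pos x
  have hy := two_rpow_pos y
  have h : (2 : ℝ) ^ x < (2 : ℝ) ^ y := Real.rpow_lt_rpow_of_exponent_lt one_lt_two hxy
  unfold sg
  rw [div_lt_div_iff₀ (by linarith) (by linarith)]
  nlinarith

/-- ratio bound -/
lemma sg_le_mul {x y : ℝ} (hxy : x ≤ y) : sg y ≤ (2 : ℝ) ^ (y - x) * sg x := by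
  have hx := two_rpow_pos x
  have hy := two_rpow_pos y
  have h : (2 : ℝ) ^ x ≤ (2 : ℝ) ^ y := Real.rpow_le_rpow_of_exponent_le one_le_two hxy
  have e : (2 : ℝ) ^ (y - x) = (2 : ℝ) ^ y / (2 : ℝ) ^ x := Real.rpow_sub two_pos y x
  unfold sg
  rw [e, div_mul_div_comm, div_le_div_iff₀ (by linarith) (by positivity)]
  nlinarith [mul_nonneg hy.le (mul_nonneg hx.le (sub_nonneg.mpr h))]

lemma sg_mul_sg_neg_le (x : ℝ) : sg x * sg (-x) ≤ (2 : ℝ) ^ (-|x|) := by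
  rcases le_total 0 x with h | h
  · rw [abs_of_nonneg h]
    calc sg x * sg (-x) ≤ 1 * (2 : ℝ) ^ (-x) :=
          mul_le_mul (sg_lt_one x).le (sg_le_rpow _) (sg_pos _).le zero_le_one
      _ = _ := one_mul _
  · rw [abs_of_nonpos h, neg_neg]
    calc sg x * sg (-x) ≤ (2 : ℝ) ^ x * 1 :=
          mul_le_mul (sg_le_rpow _) (sg_lt_one _).le (sg_pos _).le (two_rpow_pos x).le
      _ = _ := mul_one _

lemma sg_mul_sg_neg_ge (x : ℝ) : (2 : ℝ) ^ (-|x|) / 4 ≤ sg x * sg (-x) := by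
  rcases le_total 0 x with h | h
  · rw [abs_of_nonneg h]
    have a := sg_ge_of_nonneg h
    have b := sg_ge_of_nonpos (neg_nonpos.mpr h)
    have := two_rpow_pos (-x)
    nlinarith [sg_pos x, sg_pos (-x)]
  · rw [abs_of_nonpos h, neg_neg]
    have a := sg_ge_of_nonneg (neg_nonneg.mpr h)
    have b := sg_ge_of_nonpos h
    have := two_rpow_pos x
    nlinarith [sg_pos x, sg_pos (-x)]

lemma sg_hasDerivAt (x : ℝ) : HasDerivAt sg (Real.log 2 * (sg x * sg (-x))) x := by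
  have h := two_rpow_pos x
  have h1 : HasDerivAt (fun x : ℝ => (2 : ℝ) ^ x) ((2 : ℝ) ^ x * Real.log 2) x := by
    have := (hasDerivAt_id x).const_rpow (a := (2 : ℝ)) two_pos
    simpa [mul_comm] using this
  have h2 := h1.div (h1.const_add 1) (by linarith : 1 + (2 : ℝ) ^ x ≠ 0)
  have e : Real.log 2 * (sg x * sg (-x))
      = ((2 : ℝ) ^ x * Real.log 2 * (1 + (2 : ℝ) ^ x) - (2 : ℝ) ^ x * ((2 : ℝ) ^ x * Real.log 2))
        / (1 + (2 : ℝ) ^ x) ^ 2 := by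
    rw [sg_neg]
    unfold sg
    field_simp
    ring
  rw [e]
  exact h2

lemma sg_continuous : Continuous sg :=
  continuous_iff_continuousAt.mpr fun x => (sg_hasDerivAt x).continuousAt

lemma sg_tendsto_atBot : Tendsto sg atBot (𝓝 0) :=
  squeeze_zero (fun x => (sg_pos x).le) sg_le_rpow
    (tendsto_rpow_atBot_of_base_gt_one 2 one_lt_two)

lemma sg_tendsto_atTop : Tendsto sg atTop (𝓝 1) := by
  have h1 : Tendsto (fun x : ℝ => 1 - sg (-x)) atTop (𝓝 (1 - 0)) :=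
    tendsto_const_nhds.sub (sg_tendsto_atBot.comp tendsto_neg_atTop_atBot)
  rw [sub_zero] at h1
  refine h1.congr fun x => ?_
  have := sg_add_neg x
  linarith

/-- explicit inverse -/
lemma sg_logb {u : ℝ} (h0 : 0 < u) (h1 : u < 1) : sg (Real.logb 2 (u / (1 - u))) = u := by
  have h : 0 < u / (1 - u) := div_pos h0 (by linarith)
  unfold sg
  rw [Real.rpow_logb two_pos (by norm_num) h]
  have : (1 - u) ≠ 0 := by linarith
  field_simp
  ring

/-- the chart -/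
noncomputable def tch (δ κ b : ℝ) : ℝ := δ * sg (κ * b)

section chart

variable {δ κ : ℝ}

lemma tch_pos (hδ : 0 < δ) (b : ℝ) : 0 < tch δ κ b := mul_pos hδ (sg_pos _)

lemma tch_lt (hδ : 0 < δ) (b : ℝ) : tch δ κ b < δ := by
  have := sg_lt_one (κ * b)
  unfold tch
  nlinarith

/-- `δ - t(b) = t(-b)` -/
lemma tch_compl (b : ℝ) : δ - tch δ κ b = tch δ κ (-b) := by
  have := sg_add_neg (κ * b)
  unfold tch
  rw [mul_neg]
  linear_combination (-δ) * this

lemma tch_strictMono (hδ : 0 < δ) (hκ : 0 < κ) : StrictMono (tch δ κ) := fun _ _ h =>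
  mul_lt_mul_of_pos_left (sg_strictMono (mul_lt_mul_of_pos_left h hκ)) hδ

lemma tch_continuous : Continuous (tch δ κ) :=
  continuous_const.mul (sg_continuous.comp (continuous_const.mul continuous_id))

lemma tch_hasDerivAt (b : ℝ) :
    HasDerivAt (tch δ κ) (κ * Real.log 2 * (δ * (sg (κ * b) * sg (-(κ * b))))) b := by
  have h1 : HasDerivAt (fun b : ℝ => κ * b) κ b := by
    simpa using (hasDerivAt_id b).const_mul κ
  have := ((sg_hasDerivAt (κ * b)).comp b h1).const_mul δ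
  have e : κ * Real.log 2 * (δ * (sg (κ * b) * sg (-(κ * b))))
      = δ * (Real.log 2 * (sg (κ * b) * sg (-(κ * b))) * κ) := by ring
  rw [e]
  exact this

/-- surjectivity onto the open window -/
lemma tch_surj (hδ : 0 < δ) (hκ : 0 < κ) {x : ℝ} (h0 : 0 < x) (h1 : x < δ) :
    ∃ b, tch δ κ b = x := by
  refine ⟨Real.logb 2 (x / δ / (1 - x / δ)) / κ, ?_⟩
  unfold tch
  rw [mul_div_cancel₀ _ hκ.ne', sg_logb (div_pos h0 hδ) ((div_lt_one hδ).mpr h1)]
  field_simp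

lemma tch_surj_Icc (hδ : 0 < δ) (hκ : 0 < κ) {b0 b1 x : ℝ}
    (hx : x ∈ Set.Icc (tch δ κ b0) (tch δ κ b1)) : ∃ b ∈ Set.Icc b0 b1, tch δ κ b = x := by
  obtain ⟨b, hb⟩ := tch_surj hδ hκ (lt_of_lt_of_le (tch_pos hδ b0) hx.1)
    (lt_of_le_of_lt hx.2 (tch_lt hδ b1))
  refine ⟨b, ⟨?_, ?_⟩, hb⟩
  · exact (tch_strictMono hδ hκ).le_iff_le.mp (hb ▸ hx.1)
  · exact (tch_strictMono hδ hκ).le_iff_le.mp (hb ▸ hx.2)

/-- ratio bound -/
lemma tch_le_mul (hδ : 0 < δ) (hκ : 0 < κ) {b b' : ℝ} (h : b ≤ b') :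
    tch δ κ b' ≤ (2 : ℝ) ^ (κ * (b' - b)) * tch δ κ b := by
  have := sg_le_mul (mul_le_mul_of_nonneg_left h hκ.le)
  unfold tch
  rw [mul_sub]
  calc δ * sg (κ * b') ≤ δ * ((2 : ℝ) ^ (κ * b' - κ * b) * sg (κ * b)) :=
        mul_le_mul_of_nonneg_left this hδ.le
    _ = _ := by ring

/-- ratio bound for `δ - t` -/
lemma tch_compl_le_mul (hδ : 0 < δ) (hκ : 0 < κ) {b b' : ℝ} (h : b ≤ b') :
    δ - tch δ κ b ≤ (2 : ℝ) ^ (κ * (b' - b)) * (δ - tch δ κ b') := by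
  rw [tch_compl, tch_compl]
  have := tch_le_mul hδ hκ (neg_le_neg h)
  rwa [neg_sub_neg] at this

/-- increments, relative to `t` -/
lemma tch_sub_le (hδ : 0 < δ) (hκ : 0 < κ) {b b' : ℝ} (h : b ≤ b') :
    tch δ κ b' - tch δ κ b ≤ ((2 : ℝ) ^ (κ * (b' - b)) - 1) * tch δ κ b := by
  have := tch_le_mul hδ hκ h
  linarith

/-- increments, relative to `δ - t` -/
lemma tch_sub_le' (hδ : 0 < δ) (hκ : 0 < κ) {b b' : ℝ} (h : b ≤ b') :
    tch δ κ b' - tch δ κ b ≤ ((2 : ℝ) ^ (κ * (b' - b)) - 1) * (δ - tch δ κ b') := by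
  have := tch_compl_le_mul hδ hκ h
  linarith

/-- `2^x - 1 ≤ x` on `[0,1]` -/
lemma two_rpow_sub_one_le {x : ℝ} (h0 : 0 ≤ x) (h1 : x ≤ 1) : (2 : ℝ) ^ x - 1 ≤ x := by
  have := _root_.rpow_one_add_le_one_add_mul_self (s := 1) (by norm_num) h0 h1
  rw [one_add_one_eq_two] at this
  linarith

lemma tch_le_rpow (hδ : 0 < δ) (b : ℝ) : tch δ κ b ≤ δ * (2 : ℝ) ^ (κ * b) :=
  mul_le_mul_of_nonneg_left (sg_le_rpow _) hδ.le

lemma tch_ge_of_nonpos (hδ : 0 < δ) (hκ : 0 < κ) {b : ℝ} (hb : b ≤ 0) :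
    δ * (2 : ℝ) ^ (κ * b) / 2 ≤ tch δ κ b := by
  have := sg_ge_of_nonpos (mul_nonpos_of_nonneg_of_nonpos hκ.le hb)
  unfold tch
  rw [mul_div_assoc]
  exact mul_le_mul_of_nonneg_left this hδ.le

lemma tch_ge_of_nonneg (hδ : 0 < δ) (hκ : 0 < κ) {b : ℝ} (hb : 0 ≤ b) : δ / 2 ≤ tch δ κ b := by
  have := sg_ge_of_nonneg (mul_nonneg hκ.le hb)
  unfold tch
  nlinarith

/-- (8.product) -/
lemma tch_mul_compl_le (hδ : 0 < δ) (hκ : 0 < κ) (b : ℝ) :
    tch δ κ b * (δ - tch δ κ b) ≤ δ ^ 2 * (2 : ℝ) ^ (-(κ * |b|)) := by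
  rw [tch_compl]
  have := sg_mul_sg_neg_le (κ * b)
  rw [abs_mul, abs_of_pos hκ] at this
  unfold tch
  rw [mul_neg]
  calc δ * sg (κ * b) * (δ * sg (-(κ * b))) = δ ^ 2 * (sg (κ * b) * sg (-(κ * b))) := by ring
    _ ≤ _ := mul_le_mul_of_nonneg_left this (by positivity)

/-- the arcs of mesh `s` exhaust the window -/
theorem tch_hasSum (hδ : 0 < δ) (hκ : 0 < κ) {s : ℝ} (hs : 0 < s) :
    HasSum (fun α : ℤ => tch δ κ ((α + 1) * s) - tch δ κ (α * s)) δ := by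
  have hmono := (tch_strictMono (κ := κ) hδ hκ).monotone
  have htop : Tendsto (tch δ κ) atTop (𝓝 δ) := by
    have : Tendsto (fun b : ℝ => δ * sg (κ * b)) atTop (𝓝 (δ * 1)) :=
      (sg_tendsto_atTop.comp (tendsto_id.const_mul_atTop hκ)).const_mul δ
    rwa [mul_one] at this
  have hbot : Tendsto (tch δ κ) atBot (𝓝 0) := by
    have : Tendsto (fun b : ℝ => δ * sg (κ * b)) atBot (𝓝 (δ * 0)) :=
      (sg_tendsto_atBot.comp (tendsto_id.const_mul_atBot hκ)).const_mul δ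
    rwa [mul_zero] at this
  have hN : Tendsto (fun n : ℕ => (n : ℝ) * s) atTop atTop :=
    tendsto_natCast_atTop_atTop.atTop_mul_const hs
  have h1 : HasSum (fun n : ℕ => tch δ κ ((((n : ℤ) : ℝ) + 1) * s) - tch δ κ (((n : ℤ) : ℝ) * s))
      (δ - tch δ κ 0) := by
    rw [hasSum_iff_tendsto_nat_of_nonneg]
    · have e : ∀ N : ℕ, ∑ n ∈ Finset.range N,
          (tch δ κ ((((n : ℤ) : ℝ) + 1) * s) - tch δ κ (((n : ℤ) : ℝ) * s))
          = tch δ κ ((N : ℝ) * s) - tch δ κ 0 := by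
        intro N
        have := Finset.sum_range_sub (fun n : ℕ => tch δ κ ((n : ℝ) * s)) N
        simp only [Nat.cast_zero, zero_mul, Nat.cast_add, Nat.cast_one] at this
        simpa using this
      simp only [e]
      exact (htop.comp hN).sub_const _
    · intro n
      exact sub_nonneg.mpr (hmono (by nlinarith))
  have h2 : HasSum (fun n : ℕ => tch δ κ ((((-((n : ℤ) + 1) : ℤ) : ℝ) + 1) * s)
      - tch δ κ (((-((n : ℤ) + 1) : ℤ) : ℝ) * s)) (tch δ κ 0) := by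
    rw [hasSum_iff_tendsto_nat_of_nonneg]
    · have e : ∀ N : ℕ, ∑ n ∈ Finset.range N,
          (tch δ κ ((((-((n : ℤ) + 1) : ℤ) : ℝ) + 1) * s)
            - tch δ κ (((-((n : ℤ) + 1) : ℤ) : ℝ) * s))
          = tch δ κ 0 - tch δ κ (-((N : ℝ) * s)) := by
        intro N
        have := Finset.sum_range_sub' (fun n : ℕ => tch δ κ (-((n : ℝ) * s))) N
        simp only [Nat.cast_zero, zero_mul, Nat.cast_add, Nat.cast_one, neg_zero] at this
        rw [← this]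
        refine Finset.sum_congr rfl fun n _ => ?_
        push_cast
        congr 2 <;> ring
      simp only [e]
      have : Tendsto (fun N : ℕ => tch δ κ 0 - tch δ κ (-((N : ℝ) * s))) atTop
          (𝓝 (tch δ κ 0 - 0)) :=
        tendsto_const_nhds.sub (hbot.comp (tendsto_neg_atTop_atBot.comp hN))
      rwa [sub_zero] at this
    · intro n
      exact sub_nonneg.mpr (hmono (by nlinarith))
  have := HasSum.of_nat_of_neg_add_one (f := fun α : ℤ => tch δ κ ((α + 1) * s) - tch δ κ (α * s))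
    h1 h2
  simpa using this

end chart

end Claimed.Agent.R300.Nil
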