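import Mathlib

/-!
# KK Section 8, leaf NIL-CONV: twisted convolution on a discrete group, `ℓ¹` calculus

Generic (Mathlib only).  `Γ` a group, `ω : Γ → Γ → ℂ` a phase with `‖ω g h‖ ≤ 1`.
`tconv ω a b h = ∑' g, a g * b (g⁻¹ * h) * ω g (g⁻¹ * h)`.

PLAN.  Everything by comparison with `∑' (g, g'), ‖a g‖ ‖b g'‖` (`Summable.mul_of_nonneg`,
`summable_mul_of_summable_norm`) and the equivalence `(g, h) ↦ (g, g⁻¹ * h)` of `Γ × Γ`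
(`Equiv.summable_iff`, `Summable.prod_factor`, `Summable.tsum_prod'`/`tsum_comm'`), or in `ℝ≥0∞` (`ENNReal.tsum_comm`,
`ENNReal.tsum_mul_left`, `Equiv.tsum_eq (Equiv.mulLeft g⁻¹)`) and back.
-/

set_option autoImplicit false

namespace Claimed.Agent.R300.Nil

variable {Γ : Type*} [Group Γ]

/-- twisted convolution -/
noncomputable def tconv (ω : Γ → Γ → ℂ) (a b : Γ → ℂ) (h : Γ) : ℂ :=
  ∑' g, a g * b (g⁻¹ * h) * ω g (g⁻¹ * h)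

variable {ω : Γ → Γ → ℂ} {a b a' b' : Γ → ℂ}

theorem tconv_term_le (hω : ∀ g h, ‖ω g h‖ ≤ 1) {M : ℝ} (hb : ∀ g, ‖b g‖ ≤ M) (g h : Γ) :
    ‖a g * b (g⁻¹ * h) * ω g (g⁻¹ * h)‖ ≤ ‖a g‖ * M := by
  rw [norm_mul, norm_mul]
  calc ‖a g‖ * ‖b (g⁻¹ * h)‖ * ‖ω g (g⁻¹ * h)‖ ≤ ‖a g‖ * ‖b (g⁻¹ * h)‖ * 1 :=
        mul_le_mul_of_nonneg_left (hω _ _) (by positivity)
    _ = ‖a g‖ * ‖b (g⁻¹ * h)‖ := mul_one _
    _ ≤ ‖a g‖ * M := mul_le_mul_of_nonneg_left (hb _) (norm_nonneg _)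

theorem tconv_term_le' (hω : ∀ g h, ‖ω g h‖ ≤ 1) {M : ℝ} (ha : ∀ g, ‖a g‖ ≤ M) (g h : Γ) :
    ‖a g * b (g⁻¹ * h) * ω g (g⁻¹ * h)‖ ≤ M * ‖b (g⁻¹ * h)‖ := by
  rw [norm_mul, norm_mul]
  calc ‖a g‖ * ‖b (g⁻¹ * h)‖ * ‖ω g (g⁻¹ * h)‖ ≤ ‖a g‖ * ‖b (g⁻¹ * h)‖ * 1 :=
        mul_le_mul_of_nonneg_left (hω _ _) (by positivity)
    _ = ‖a g‖ * ‖b (g⁻¹ * h)‖ := mul_one _
    _ ≤ M * ‖b (g⁻¹ * h)‖ := mul_le_mul_of_nonneg_right (ha _) (norm_nonneg _)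

/-- the substitution `g ↦ g⁻¹ * h` -/
def tconvEquiv (h : Γ) : Γ ≃ Γ := (Equiv.inv Γ).trans (Equiv.mulRight h)

theorem tconvEquiv_apply (h g : Γ) : tconvEquiv h g = g⁻¹ * h := rfl

theorem tconv_summable_shift (hb : Summable fun g => ‖b g‖) (h : Γ) :
    Summable fun g => ‖b (g⁻¹ * h)‖ := by
  have h1 := ((tconvEquiv h).summable_iff (f := fun g => ‖b g‖)).2 hb
  exact h1

theorem tconv_tsum_shift (h : Γ) : ∑' g, ‖b (g⁻¹ * h)‖ = ∑' g, ‖b g‖ :=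
  (tconvEquiv h).tsum_eq fun g => ‖b g‖

theorem tconv_summable (hω : ∀ g h, ‖ω g h‖ ≤ 1) (ha : Summable fun g => ‖a g‖) {M : ℝ}
    (hb : ∀ g, ‖b g‖ ≤ M) (h : Γ) : Summable fun g => a g * b (g⁻¹ * h) * ω g (g⁻¹ * h) := by
  refine Summable.of_norm_bounded (g := fun g => ‖a g‖ * M) (ha.mul_right M) fun g => ?_
  exact tconv_term_le hω hb g h

theorem tconv_summable' (hω : ∀ g h, ‖ω g h‖ ≤ 1) {M : ℝ} (ha : ∀ g, ‖a g‖ ≤ M)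
    (hb : Summable fun g => ‖b g‖) (h : Γ) :
    Summable fun g => a g * b (g⁻¹ * h) * ω g (g⁻¹ * h) := by
  refine Summable.of_norm_bounded (g := fun g => M * ‖b (g⁻¹ * h)‖)
    ((tconv_summable_shift hb h).mul_left M) fun g => ?_
  exact tconv_term_le' hω ha g h

/-- sup bound, `ℓ¹ * ℓ^∞` -/
theorem norm_tconv_le (hω : ∀ g h, ‖ω g h‖ ≤ 1) (ha : Summable fun g => ‖a g‖) {M : ℝ}
    (hb : ∀ g, ‖b g‖ ≤ M) (h : Γ) : ‖tconv ω a b h‖ ≤ (∑' g, ‖a g‖) * M := by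
  unfold tconv
  rw [← tsum_mul_right]
  exact tsum_of_norm_bounded (ha.mul_right M).hasSum fun g => tconv_term_le hω hb g h

/-- sup bound, `ℓ^∞ * ℓ¹` -/
theorem norm_tconv_le' (hω : ∀ g h, ‖ω g h‖ ≤ 1) {M : ℝ} (ha : ∀ g, ‖a g‖ ≤ M)
    (hb : Summable fun g => ‖b g‖) (h : Γ) : ‖tconv ω a b h‖ ≤ M * ∑' g, ‖b g‖ := by
  unfold tconv
  rw [← tconv_tsum_shift h, ← tsum_mul_left]
  exact tsum_of_norm_bounded ((tconv_summable_shift hb h).mul_left M).hasSum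
    fun g => tconv_term_le' hω ha g h

/-- the equivalence `(h, g) ↦ (g, g⁻¹ * h)` of `Γ × Γ` -/
def tconvEquiv2 : Γ × Γ ≃ Γ × Γ where
  toFun x := (x.2, x.2⁻¹ * x.1)
  invFun y := (y.1 * y.2, y.1)
  left_inv x := by simp
  right_inv y := by simp

theorem tconv_aux_summable (ha : Summable fun g => ‖a g‖) (hb : Summable fun g => ‖b g‖) :
    Summable fun x : Γ × Γ => ‖a x.2‖ * ‖b (x.2⁻¹ * x.1)‖ :=
  (tconvEquiv2 (Γ := Γ)).summable_iff.2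
    (Summable.mul_of_nonneg ha hb (fun _ => norm_nonneg _) (fun _ => norm_nonneg _))

theorem tconv_aux_tsum (ha : Summable fun g => ‖a g‖) (hb : Summable fun g => ‖b g‖) :
    ∑' x : Γ × Γ, ‖a x.2‖ * ‖b (x.2⁻¹ * x.1)‖ = (∑' g, ‖a g‖) * ∑' g, ‖b g‖ := by
  have h1 := (tconvEquiv2 (Γ := Γ)).tsum_eq fun y : Γ × Γ => ‖a y.1‖ * ‖b y.2‖
  have h2 : ∑' x : Γ × Γ, ‖a x.2‖ * ‖b (x.2⁻¹ * x.1)‖ = ∑' y : Γ × Γ, ‖a y.1‖ * ‖b y.2‖ := h1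
  rw [h2]
  exact (ha.tsum_mul_tsum hb
    (Summable.mul_of_nonneg ha hb (fun _ => norm_nonneg _) (fun _ => norm_nonneg _))).symm

/-- the general `ℓ¹ * ℓ¹` estimate with a kernel `c` -/
theorem tconv_gen (c : Γ → Γ → ℂ) (η : ℝ) (ha : Summable fun g => ‖a g‖)
    (hb : Summable fun g => ‖b g‖)
    (hc : ∀ g g', ‖a g * b g' * c g g'‖ ≤ η * (‖a g‖ * ‖b g'‖)) :
    (Summable fun h => ‖∑' g, a g * b (g⁻¹ * h) * c g (g⁻¹ * h)‖) ∧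
      ∑' h, ‖∑' g, a g * b (g⁻¹ * h) * c g (g⁻¹ * h)‖ ≤ η * ((∑' g, ‖a g‖) * ∑' g, ‖b g‖) := by
  have hu := tconv_aux_summable ha hb
  have hw : Summable fun x : Γ × Γ => ‖a x.2 * b (x.2⁻¹ * x.1) * c x.2 (x.2⁻¹ * x.1)‖ :=
    Summable.of_nonneg_of_le (fun _ => norm_nonneg _) (fun x => hc x.2 (x.2⁻¹ * x.1))
      (hu.mul_left η)
  have h1 : ∀ h, ‖∑' g, a g * b (g⁻¹ * h) * c g (g⁻¹ * h)‖
      ≤ ∑' g, ‖a g * b (g⁻¹ * h) * c g (g⁻¹ * h)‖ := fun h =>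
    norm_tsum_le_tsum_norm (hw.prod_factor h)
  have h2 : Summable fun h => ∑' g, ‖a g * b (g⁻¹ * h) * c g (g⁻¹ * h)‖ := hw.prod
  have h3 : Summable fun h => ‖∑' g, a g * b (g⁻¹ * h) * c g (g⁻¹ * h)‖ :=
    Summable.of_nonneg_of_le (fun _ => norm_nonneg _) h1 h2
  refine ⟨h3, ?_⟩
  calc ∑' h, ‖∑' g, a g * b (g⁻¹ * h) * c g (g⁻¹ * h)‖
      ≤ ∑' h, ∑' g, ‖a g * b (g⁻¹ * h) * c g (g⁻¹ * h)‖ := h3.tsum_le_tsum h1 h2
    _ = ∑' x : Γ × Γ, ‖a x.2 * b (x.2⁻¹ * x.1) * c x.2 (x.2⁻¹ * x.1)‖ := hw.tsum_prod.symm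
    _ ≤ ∑' x : Γ × Γ, η * (‖a x.2‖ * ‖b (x.2⁻¹ * x.1)‖) :=
        hw.tsum_le_tsum (fun x => hc x.2 (x.2⁻¹ * x.1)) (hu.mul_left η)
    _ = η * ((∑' g, ‖a g‖) * ∑' g, ‖b g‖) := by rw [tsum_mul_left, tconv_aux_tsum ha hb]

omit [Group Γ] in
theorem tconv_gen_one (hω : ∀ g h, ‖ω g h‖ ≤ 1) (g g' : Γ) :
    ‖a g * b g' * ω g g'‖ ≤ 1 * (‖a g‖ * ‖b g'‖) := by
  rw [norm_mul, norm_mul, one_mul]
  calc ‖a g‖ * ‖b g'‖ * ‖ω g g'‖ ≤ ‖a g‖ * ‖b g'‖ * 1 :=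
        mul_le_mul_of_nonneg_left (hω _ _) (by positivity)
    _ = ‖a g‖ * ‖b g'‖ := mul_one _

theorem summable_norm_tconv (hω : ∀ g h, ‖ω g h‖ ≤ 1) (ha : Summable fun g => ‖a g‖)
    (hb : Summable fun g => ‖b g‖) : Summable fun h => ‖tconv ω a b h‖ :=
  (tconv_gen ω 1 ha hb (tconv_gen_one hω)).1

/-- `ℓ¹` is a Banach algebra for the twisted convolution -/
theorem tsum_norm_tconv_le (hω : ∀ g h, ‖ω g h‖ ≤ 1) (ha : Summable fun g => ‖a g‖)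
    (hb : Summable fun g => ‖b g‖) :
    ∑' h, ‖tconv ω a b h‖ ≤ (∑' g, ‖a g‖) * ∑' g, ‖b g‖ := by
  have := (tconv_gen ω 1 ha hb (tconv_gen_one hω)).2
  rwa [one_mul] at this

theorem tconv_sub_left (hω : ∀ g h, ‖ω g h‖ ≤ 1) (ha : Summable fun g => ‖a g‖)
    (ha' : Summable fun g => ‖a' g‖) {M : ℝ} (hb : ∀ g, ‖b g‖ ≤ M) (h : Γ) :
    tconv ω (fun g => a g - a' g) b h = tconv ω a b h - tconv ω a' b h := by
  unfold tconv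
  rw [← (tconv_summable hω ha hb h).tsum_sub (tconv_summable hω ha' hb h)]
  apply tsum_congr
  intro g
  ring

theorem tconv_sub_right (hω : ∀ g h, ‖ω g h‖ ≤ 1) (ha : Summable fun g => ‖a g‖) {M M' : ℝ}
    (hb : ∀ g, ‖b g‖ ≤ M) (hb' : ∀ g, ‖b' g‖ ≤ M') (h : Γ) :
    tconv ω a (fun g => b g - b' g) h = tconv ω a b h - tconv ω a b' h := by
  unfold tconv
  rw [← (tconv_summable hω ha hb h).tsum_sub (tconv_summable hω ha hb' h)]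
  apply tsum_congr
  intro g
  ring

/-- changing the phase -/
theorem tsum_norm_tconv_sub_le {ω' : Γ → Γ → ℂ} (hω : ∀ g h, ‖ω g h‖ ≤ 1)
    (hω' : ∀ g h, ‖ω' g h‖ ≤ 1) (ha : Summable fun g => ‖a g‖) (hb : Summable fun g => ‖b g‖)
    {η : ℝ} (hη : ∀ g h, a g ≠ 0 → b h ≠ 0 → ‖ω g h - ω' g h‖ ≤ η) :
    ∑' h, ‖tconv ω a b h - tconv ω' a b h‖ ≤ η * ((∑' g, ‖a g‖) * ∑' g, ‖b g‖) := by
  have hbM : ∀ g, ‖b g‖ ≤ ∑' g, ‖b g‖ := fun g => hb.le_tsum g fun _ _ => norm_nonneg _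
  have h1 : ∀ h, tconv ω a b h - tconv ω' a b h
      = ∑' g, a g * b (g⁻¹ * h) * (ω g (g⁻¹ * h) - ω' g (g⁻¹ * h)) := by
    intro h
    unfold tconv
    rw [← (tconv_summable hω ha hbM h).tsum_sub (tconv_summable hω' ha hbM h)]
    apply tsum_congr
    intro g
    ring
  simp_rw [h1]
  refine (tconv_gen (fun g g' => ω g g' - ω' g g') η ha hb ?_).2
  intro g g'
  by_cases hg : a g = 0
  · simp [hg]
  by_cases hg' : b g' = 0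
  · simp [hg']
  rw [norm_mul, norm_mul, mul_comm η]
  exact mul_le_mul_of_nonneg_left (hη g g' hg hg') (by positivity)

/-- support of a convolution -/
theorem tconv_eq_zero_of (h : Γ) (hh : ∀ g, a g ≠ 0 → b (g⁻¹ * h) = 0) : tconv ω a b h = 0 := by
  unfold tconv
  have : (fun g => a g * b (g⁻¹ * h) * ω g (g⁻¹ * h)) = fun _ => 0 := by
    funext g
    by_cases hg : a g = 0
    · simp [hg]
    · simp [hh g hg]
  rw [this, tsum_zero]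

/-- complex conjugation -/
theorem conj_tconv (h : Γ) :
    (starRingEnd ℂ) (tconv ω a b h)
      = tconv (fun g g' => (starRingEnd ℂ) (ω g g')) (fun g => (starRingEnd ℂ) (a g))
          (fun g => (starRingEnd ℂ) (b g)) h := by
  unfold tconv
  rw [Complex.conj_tsum]
  simp

/-- evaluation in a twisted family of operators: finitely supported coefficients -/
theorem ev_mul_ev {𝔄 : Type*} [Ring 𝔄] [Algebra ℂ 𝔄] (U : Γ → 𝔄)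
    (hU : ∀ g h, U g * U h = ω g h • U (g * h)) (S T R : Finset Γ)
    (ha : ∀ g, g ∉ S → a g = 0) (hb : ∀ g, g ∉ T → b g = 0)
    (hR : ∀ g ∈ S, ∀ h ∈ T, g * h ∈ R) :
    (∑ g ∈ S, a g • U g) * (∑ g ∈ T, b g • U g) = ∑ h ∈ R, tconv ω a b h • U h := by
  classical
  have h1 : ∀ h, tconv ω a b h = ∑ g ∈ S, a g * b (g⁻¹ * h) * ω g (g⁻¹ * h) := by
    intro h
    unfold tconv
    apply tsum_eq_sum
    intro g hg
    rw [ha g hg]; ring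
  simp_rw [h1, Finset.sum_smul]
  rw [Finset.sum_comm, Finset.sum_mul]
  apply Finset.sum_congr rfl
  intro g hg
  rw [Finset.mul_sum]
  have h2 : ∑ g' ∈ T, a g • U g * b g' • U g'
      = ∑ h ∈ T.image (fun g' => g * g'), (a g * b (g⁻¹ * h) * ω g (g⁻¹ * h)) • U h := by
    rw [Finset.sum_image (fun x _ y _ hxy => mul_left_cancel hxy)]
    apply Finset.sum_congr rfl
    intro g' _
    rw [inv_mul_cancel_left, smul_mul_smul_comm, hU, smul_smul]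
  rw [h2]
  apply Finset.sum_subset
  · intro h hh
    obtain ⟨g', hg', rfl⟩ := Finset.mem_image.1 hh
    exact hR g hg g' hg'
  · intro h _ hh
    have h3 : g⁻¹ * h ∉ T := by
      intro h4
      apply hh
      exact Finset.mem_image.2 ⟨g⁻¹ * h, h4, by simp⟩
    rw [hb _ h3]
    simp

end Claimed.Agent.R300.Nil
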