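import Claimed.Agent.R300.NilEe

/-!
# KK Section 8, leaf NIL-PARS: Parseval for Fourier series on an anisotropic box

Generic.  `F, G` continuous on `ι → ℝ`, supported in the open box `s i * |x i| < 1/2`
(period `1 / s i` in direction `i`).  Frequencies `s i * n i`, `n : ι → ℤ`.

PLAN.  Rescale `x i = t i / s i` (diagonal linear change of variables on `ι → ℝ`, Jacobian `∏ s i`),
so that WLOG `s = 1`.  For `s = 1`: push `F, G` to `UnitAddTorus ι` (value at the representative in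
`(-1/2, 1/2]`, bounded measurable => `MemLp 2`), use `UnitAddTorus.hasSum_prod_mFourierCoeff`,
`UnitAddTorus.mFourierCoeff_eq_integral` / `UnitAddTorus.integral_preimage` with `a i = -1/2`, and
`setIntegral_eq_integral_of_forall_compl_eq_zero`.
-/

set_option autoImplicit false
set_option linter.unusedSectionVars false

namespace Claimed.Agent.R300.Nil

open MeasureTheory

attribute [local instance] instMeasureSpaceUnitAddCircle

local instance nilp_prob : IsProbabilityMeasure (volume : Measure UnitAddCircle) :=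
  inferInstanceAs (IsProbabilityMeasure AddCircle.haarAddCircle)

variable {ι : Type*} [Fintype ι]

/-- Fourier coefficient at the frequency `(s i * n i)_i` -/
noncomputable def boxCoeff (s : ι → ℝ) (F : (ι → ℝ) → ℂ) (n : ι → ℤ) : ℂ :=
  ∫ x, F x * ee (-(∑ i, s i * (n i : ℝ) * x i))

/-- the half open unit box -/
def nilpBox (ι : Type*) : Set (ι → ℝ) := {x | ∀ i, x i ∈ Set.Ioc (-(1 / 2) : ℝ) (-(1 / 2) + 1)}

/-- transport of a function to the torus -/
noncomputable def nilpTor (F : (ι → ℝ) → ℂ) (y : UnitAddTorus ι) : ℂ :=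
  F (fun i => (AddCircle.equivIoc (1 : ℝ) (-(1 / 2)) (y i)).1)

theorem nilpTor_coe (F : (ι → ℝ) → ℂ) {x : ι → ℝ} (hx : x ∈ nilpBox ι) :
    nilpTor F (fun i => (x i : UnitAddCircle)) = F x := by
  unfold nilpTor
  congr 1
  funext i
  rw [AddCircle.equivIoc_coe_eq (hx i)]

theorem nilpTor_measurable (F : (ι → ℝ) → ℂ) (hF : Continuous F) : Measurable (nilpTor F) := by
  have h1 : Measurable fun y : UnitAddTorus ι =>
      ((UnitAddTorus.measurableEquivPiIoc (fun _ : ι => (-(1 / 2) : ℝ)) y).1 : ι → ℝ) :=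
    measurable_subtype_coe.comp (UnitAddTorus.measurableEquivPiIoc _).measurable
  exact hF.measurable.comp h1

theorem nilp_bounded (F : (ι → ℝ) → ℂ) (hF : Continuous F)
    (hFs : ∀ x, F x ≠ 0 → ∀ i, |x i| < 1 / 2) : ∃ C, ∀ x, ‖F x‖ ≤ C := by
  have hK : IsCompact (Set.pi Set.univ fun _ : ι => Set.Icc (-(1 / 2) : ℝ) (1 / 2)) :=
    isCompact_univ_pi fun _ => isCompact_Icc
  have hcs : HasCompactSupport F := by
    refine HasCompactSupport.intro hK fun x hx => ?_
    by_contra h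
    apply hx
    intro i _
    have := abs_lt.1 (hFs x h i)
    exact ⟨this.1.le, this.2.le⟩
  exact hF.bounded_above_of_compact_support hcs

theorem nilpTor_memLp (F : (ι → ℝ) → ℂ) (hF : Continuous F)
    (hFs : ∀ x, F x ≠ 0 → ∀ i, |x i| < 1 / 2) :
    MemLp (nilpTor F) 2 (volume : Measure (UnitAddTorus ι)) := by
  obtain ⟨C, hC⟩ := nilp_bounded F hF hFs
  exact MemLp.of_bound (nilpTor_measurable F hF).aestronglyMeasurable C
    (Filter.Eventually.of_forall fun y => hC _)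

theorem nilp_mFourier_coe (n : ι → ℤ) (x : ι → ℝ) :
    UnitAddTorus.mFourier (-n) (fun i => (x i : UnitAddCircle))
      = ee (-(∑ i, (1 : ℝ) * (n i : ℝ) * x i)) := by
  unfold UnitAddTorus.mFourier ee
  simp only [ContinuousMap.coe_mk, fourier_coe_apply, Pi.neg_apply]
  rw [← Complex.exp_sum]
  congr 1
  push_cast
  rw [← Finset.sum_neg_distrib, Finset.mul_sum, Finset.sum_mul]
  refine Finset.sum_congr rfl fun i _ => ?_
  ring

theorem nilp_zero_off_box (F : (ι → ℝ) → ℂ) (hFs : ∀ x, F x ≠ 0 → ∀ i, |x i| < 1 / 2)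
    {x : ι → ℝ} (hx : x ∉ nilpBox ι) : F x = 0 := by
  by_contra h
  apply hx
  intro i
  have := abs_lt.1 (hFs x h i)
  constructor
  · exact this.1
  · linarith [this.2]

theorem nilp_coeff_one (F : (ι → ℝ) → ℂ) (hFs : ∀ x, F x ≠ 0 → ∀ i, |x i| < 1 / 2)
    (n : ι → ℤ) : UnitAddTorus.mFourierCoeff (nilpTor F) n = boxCoeff (fun _ => 1) F n := by
  rw [UnitAddTorus.mFourierCoeff_eq_integral _ _ (fun _ => (-(1 / 2) : ℝ))]
  unfold boxCoeff
  have h1 : ∫ x in nilpBox ι, UnitAddTorus.mFourier (-n) (fun i => (x i : UnitAddCircle)) •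
        nilpTor F (fun i => (x i : UnitAddCircle))
      = ∫ x in nilpBox ι, F x * ee (-(∑ i, (1 : ℝ) * (n i : ℝ) * x i)) := by
    refine setIntegral_congr_fun ?_ fun x hx => ?_
    · exact MeasurableSet.univ_pi' fun i => measurableSet_Ioc
    · simp only [nilpTor_coe F hx, nilp_mFourier_coe, smul_eq_mul]
      ring
  have h2 : ∫ x in nilpBox ι, F x * ee (-(∑ i, (1 : ℝ) * (n i : ℝ) * x i))
      = ∫ x, F x * ee (-(∑ i, (1 : ℝ) * (n i : ℝ) * x i)) := by
    refine setIntegral_eq_integral_of_forall_compl_eq_zero fun x hx => ?_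
    rw [nilp_zero_off_box F hFs hx, zero_mul]
  exact h1.trans h2

theorem nilp_integral_one (F G : (ι → ℝ) → ℂ) (hFs : ∀ x, F x ≠ 0 → ∀ i, |x i| < 1 / 2) :
    ∫ y : UnitAddTorus ι, (starRingEnd ℂ) (nilpTor G y) * nilpTor F y
      = ∫ x, F x * (starRingEnd ℂ) (G x) := by
  rw [UnitAddTorus.integral_preimage _ (fun _ => (-(1 / 2) : ℝ))]
  have h1 : ∫ x in nilpBox ι, (starRingEnd ℂ) (nilpTor G (fun i => (x i : UnitAddCircle))) *
        nilpTor F (fun i => (x i : UnitAddCircle))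
      = ∫ x in nilpBox ι, F x * (starRingEnd ℂ) (G x) := by
    refine setIntegral_congr_fun ?_ fun x hx => ?_
    · exact MeasurableSet.univ_pi' fun i => measurableSet_Ioc
    · simp only [nilpTor_coe F hx, nilpTor_coe G hx]
      ring
  have h2 : ∫ x in nilpBox ι, F x * (starRingEnd ℂ) (G x) = ∫ x, F x * (starRingEnd ℂ) (G x) := by
    refine setIntegral_eq_integral_of_forall_compl_eq_zero fun x hx => ?_
    rw [nilp_zero_off_box F hFs hx, zero_mul]
  exact h1.trans h2

/-- Parseval, unit periods. -/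
theorem nilp_parseval_one (F G : (ι → ℝ) → ℂ) (hF : Continuous F) (hG : Continuous G)
    (hFs : ∀ x, F x ≠ 0 → ∀ i, |x i| < 1 / 2) (hGs : ∀ x, G x ≠ 0 → ∀ i, |x i| < 1 / 2) :
    HasSum (fun n : ι → ℤ => boxCoeff (fun _ => 1) F n * (starRingEnd ℂ) (boxCoeff (fun _ => 1) G n))
      (∫ x, F x * (starRingEnd ℂ) (G x)) := by
  have hf := nilpTor_memLp F hF hFs
  have hg := nilpTor_memLp G hG hGs
  have key := UnitAddTorus.hasSum_prod_mFourierCoeff (hg.toLp _) (hf.toLp _)
  have e1 : ∀ n, UnitAddTorus.mFourierCoeff (hf.toLp (nilpTor F)) n = boxCoeff (fun _ => 1) F n := by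
    intro n
    rw [← nilp_coeff_one F hFs n]
    unfold UnitAddTorus.mFourierCoeff
    refine integral_congr_ae ?_
    filter_upwards [hf.coeFn_toLp] with y hy
    rw [hy]
  have e2 : ∀ n, UnitAddTorus.mFourierCoeff (hg.toLp (nilpTor G)) n = boxCoeff (fun _ => 1) G n := by
    intro n
    rw [← nilp_coeff_one G hGs n]
    unfold UnitAddTorus.mFourierCoeff
    refine integral_congr_ae ?_
    filter_upwards [hg.coeFn_toLp] with y hy
    rw [hy]
  have e3 : ∫ y : UnitAddTorus ι, (starRingEnd ℂ) (hg.toLp (nilpTor G) y) * hf.toLp (nilpTor F) y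
      = ∫ x, F x * (starRingEnd ℂ) (G x) := by
    rw [← nilp_integral_one F G hFs]
    refine integral_congr_ae ?_
    filter_upwards [hf.coeFn_toLp, hg.coeFn_toLp] with y hy1 hy2
    rw [hy1, hy2]
  rw [e3] at key
  refine key.congr_fun fun n => ?_
  rw [e1, e2, mul_comm]

/-- diagonal change of variables -/
theorem nilp_scale (g : (ι → ℝ) → ℂ) (s : ι → ℝ) (hs : ∀ i, 0 < s i) :
    ∫ t : ι → ℝ, g (fun i => (s i)⁻¹ * t i) = ((∏ i, s i : ℝ) : ℂ) * ∫ x, g x := by
  classical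
  have hdet : (Matrix.diagonal fun i => (s i)⁻¹).det ≠ 0 := by
    rw [Matrix.det_diagonal]
    exact Finset.prod_ne_zero_iff.2 fun i _ => inv_ne_zero (hs i).ne'
  have hmap := Real.map_matrix_volume_pi_eq_smul_volume_pi hdet
  have hfun : (fun t : ι → ℝ => g (fun i => (s i)⁻¹ * t i))
      = fun t => g (Matrix.toLin' (Matrix.diagonal fun i => (s i)⁻¹) t) := by
    funext t
    congr 1
    funext i
    simp [Matrix.toLin'_apply, Matrix.mulVec_diagonal]
  rw [hfun]
  have hemb : MeasurableEmbedding (Matrix.toLin' (Matrix.diagonal fun i => (s i)⁻¹)) := by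
    have hc : Continuous (Matrix.toLin' (Matrix.diagonal fun i => (s i)⁻¹)) :=
      LinearMap.continuous_of_finiteDimensional _
    refine hc.measurableEmbedding ?_
    intro a b hab
    funext i
    have := congrFun hab i
    simp only [Matrix.toLin'_apply, Matrix.mulVec_diagonal] at this
    exact mul_left_cancel₀ (inv_ne_zero (hs i).ne') this
  rw [← hemb.integral_map, hmap, integral_smul_measure]
  rw [Matrix.det_diagonal, Finset.prod_inv_distrib, inv_inv,
    abs_of_pos (Finset.prod_pos fun i _ => hs i),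
    ENNReal.toReal_ofReal (Finset.prod_pos fun i _ => hs i).le]
  simp

/-- rescaled function -/
noncomputable def nilpResc (s : ι → ℝ) (F : (ι → ℝ) → ℂ) (t : ι → ℝ) : ℂ :=
  F (fun i => (s i)⁻¹ * t i)

theorem nilpResc_continuous (s : ι → ℝ) (F : (ι → ℝ) → ℂ) (hF : Continuous F) :
    Continuous (nilpResc s F) := by
  unfold nilpResc
  exact hF.comp (continuous_pi fun i => continuous_const.mul (continuous_apply i))

theorem nilpResc_supp (s : ι → ℝ) (hs : ∀ i, 0 < s i) (F : (ι → ℝ) → ℂ)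
    (hFs : ∀ x, F x ≠ 0 → ∀ i, s i * |x i| < 1 / 2) :
    ∀ t, nilpResc s F t ≠ 0 → ∀ i, |t i| < 1 / 2 := by
  intro t ht i
  have := hFs _ ht i
  rw [abs_mul, abs_of_pos (inv_pos.2 (hs i)), ← mul_assoc, mul_inv_cancel₀ (hs i).ne', one_mul]
    at this
  exact this

theorem nilp_coeff_resc (s : ι → ℝ) (hs : ∀ i, 0 < s i) (F : (ι → ℝ) → ℂ) (n : ι → ℤ) :
    boxCoeff (fun _ => 1) (nilpResc s F) n = ((∏ i, s i : ℝ) : ℂ) * boxCoeff s F n := by
  unfold boxCoeff
  rw [← nilp_scale (fun x => F x * ee (-(∑ i, s i * (n i : ℝ) * x i))) s hs]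
  refine integral_congr_ae (Filter.Eventually.of_forall fun t => ?_)
  simp only [nilpResc]
  congr 3
  refine Finset.sum_congr rfl fun i _ => ?_
  have := (hs i).ne'
  field_simp

theorem nilp_integral_resc (s : ι → ℝ) (hs : ∀ i, 0 < s i) (F G : (ι → ℝ) → ℂ) :
    ∫ t, nilpResc s F t * (starRingEnd ℂ) (nilpResc s G t)
      = ((∏ i, s i : ℝ) : ℂ) * ∫ x, F x * (starRingEnd ℂ) (G x) :=
  nilp_scale (fun x => F x * (starRingEnd ℂ) (G x)) s hs

/-- **Parseval** on the box with periods `1 / s i`. -/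
theorem nil_parseval (F G : (ι → ℝ) → ℂ) (hF : Continuous F) (hG : Continuous G)
    (s : ι → ℝ) (hs : ∀ i, 0 < s i)
    (hFs : ∀ x, F x ≠ 0 → ∀ i, s i * |x i| < 1 / 2)
    (hGs : ∀ x, G x ≠ 0 → ∀ i, s i * |x i| < 1 / 2) :
    HasSum (fun n : ι → ℤ => boxCoeff s F n * (starRingEnd ℂ) (boxCoeff s G n))
      (((∏ i, s i : ℝ) : ℂ)⁻¹ * ∫ x, F x * (starRingEnd ℂ) (G x)) := by
  have hP : ((∏ i, s i : ℝ) : ℂ) ≠ 0 :=
    Complex.ofReal_ne_zero.2 (Finset.prod_pos fun i _ => hs i).ne'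
  have key := nilp_parseval_one (nilpResc s F) (nilpResc s G) (nilpResc_continuous s F hF)
    (nilpResc_continuous s G hG) (nilpResc_supp s hs F hFs) (nilpResc_supp s hs G hGs)
  rw [nilp_integral_resc s hs] at key
  have key2 := key.mul_left ((((∏ i, s i : ℝ) : ℂ)⁻¹) ^ 2)
  have e : (((∏ i, s i : ℝ) : ℂ)⁻¹) ^ 2 * (((∏ i, s i : ℝ) : ℂ) * ∫ x, F x * (starRingEnd ℂ) (G x))
      = ((∏ i, s i : ℝ) : ℂ)⁻¹ * ∫ x, F x * (starRingEnd ℂ) (G x) := by
    field_simp
  rw [e] at key2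
  refine key2.congr_fun fun n => ?_
  rw [nilp_coeff_resc s hs, nilp_coeff_resc s hs, map_mul, Complex.conj_ofReal]
  field_simp

/-- norm version -/
theorem nil_parseval_sq (F : (ι → ℝ) → ℂ) (hF : Continuous F)
    (s : ι → ℝ) (hs : ∀ i, 0 < s i)
    (hFs : ∀ x, F x ≠ 0 → ∀ i, s i * |x i| < 1 / 2) :
    HasSum (fun n : ι → ℤ => ‖boxCoeff s F n‖ ^ 2)
      ((∏ i, s i)⁻¹ * ∫ x, ‖F x‖ ^ 2) := by
  have key := nil_parseval F F hF hF s hs hFs hFs
  have e1 : ∀ z : ℂ, z * (starRingEnd ℂ) z = ((‖z‖ ^ 2 : ℝ) : ℂ) := by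
    intro z
    rw [Complex.mul_conj, Complex.normSq_eq_norm_sq]
  simp only [e1] at key
  rw [integral_complex_ofReal] at key
  rw [← Complex.ofReal_inv, ← Complex.ofReal_mul] at key
  exact Complex.hasSum_ofReal.1 key

end Claimed.Agent.R300.Nil
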