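import Mathlib

/-!
# KK Section 8, leaf NIL-RIEM: Riemann sums, lattice point counts, lattice sums of decaying functions

Generic (Mathlib only).  `ι` finite index type, mesh sizes `s i ∈ (0,1]`, lattice points
`fun i => s i * n i`, `n : ι → ℤ`.  `ι → ℝ` carries the sup norm.

PLANS.
* `nil_riemann`: with `r x i = s i * ⌊x i / s i⌋`, `(∏ s) * ∑ f(lattice) = ∫ f ∘ r` (finite sum of
  indicators of the cells `∏ [s n, s n + s)`, `Real.volume_pi` / `volume_Ico`), and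
  `|f (r x) - f x| ≤ K σ` on the cube `[-R-1, R+1]^ι`, both vanish outside.
* `nil_count`: product of one dimensional counts `s * (2 ⌊R/s⌋ + 1) ≤ 2 R + 1` (`Fintype.piFinset`).
* `nil_decay_sum`, `nil_decay_tail`: enlarge `S` to a box `Fintype.piFinset`, `Finset.prod_univ_sum`,
  one dimensional telescoping `s/(1+s n)^2 ≤ 1/(1+s(n-1)) - 1/(1+s n)`.
Proofs: helper117.
-/

set_option autoImplicit false

namespace Claimed.Agent.R300.Nil

open MeasureTheory
open scoped NNReal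

variable {ι : Type*} [Fintype ι]

/-! ### one dimensional sums -/

/-- symmetric intervals of integers -/
theorem nilr_Icc_succ (M : ℕ) :
    Finset.Icc (-((M + 1 : ℕ) : ℤ)) ((M + 1 : ℕ) : ℤ) =
      insert ((M + 1 : ℕ) : ℤ) (insert (-((M + 1 : ℕ) : ℤ)) (Finset.Icc (-(M : ℤ)) (M : ℤ))) := by
  ext n
  simp only [Finset.mem_Icc, Finset.mem_insert]
  push_cast
  omega

/-- telescoping for an even weight on a symmetric interval -/
theorem nilr_sum_Icc_le (w : ℤ → ℝ) (G : ℕ → ℝ) (hev : ∀ n, w (-n) = w n)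
    (hw : ∀ n : ℕ, w ((n + 1 : ℕ) : ℤ) ≤ G n - G (n + 1)) (M : ℕ) :
    ∑ n ∈ Finset.Icc (-(M : ℤ)) (M : ℤ), w n ≤ w 0 + 2 * (G 0 - G M) := by
  induction M with
  | zero => simp
  | succ M ih =>
    rw [nilr_Icc_succ, Finset.sum_insert, Finset.sum_insert, hev]
    · have := hw M
      linarith
    · simp only [Finset.mem_Icc, not_and, not_le]
      push_cast
      omega
    · simp only [Finset.mem_insert, Finset.mem_Icc, not_or, not_and, not_le]
      push_cast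
      omega

/-- the one dimensional weight -/
noncomputable def nilrW (s : ℝ) (n : ℤ) : ℝ := s * ((1 + s * |(n : ℝ)|) ^ 2)⁻¹

theorem nilrW_nonneg {s : ℝ} (hs : 0 < s) (n : ℤ) : 0 ≤ nilrW s n := by
  unfold nilrW
  positivity

theorem nilrW_neg (s : ℝ) (n : ℤ) : nilrW s (-n) = nilrW s n := by
  unfold nilrW
  simp

theorem nilrW_succ_le {s : ℝ} (hs : 0 < s) (n : ℕ) :
    nilrW s ((n + 1 : ℕ) : ℤ) ≤ (1 + s * n)⁻¹ - (1 + s * ((n + 1 : ℕ) : ℝ))⁻¹ := by
  unfold nilrW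
  have hn : (0 : ℝ) ≤ n := Nat.cast_nonneg n
  have e : |(((n + 1 : ℕ) : ℤ) : ℝ)| = (n : ℝ) + 1 := by
    push_cast
    exact abs_of_nonneg (by linarith)
  rw [e]
  push_cast
  have h1 : 0 < 1 + s * (n : ℝ) := by positivity
  have h2 : 0 < 1 + s * ((n : ℝ) + 1) := by positivity
  have e2 : (1 + s * (n : ℝ))⁻¹ - (1 + s * ((n : ℝ) + 1))⁻¹ =
      s * ((1 + s * (n : ℝ)) * (1 + s * ((n : ℝ) + 1)))⁻¹ := by
    field_simp
    ring
  rw [e2]
  have h3 : (1 + s * (n : ℝ)) * (1 + s * ((n : ℝ) + 1)) ≤ (1 + s * ((n : ℝ) + 1)) ^ 2 := by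
    nlinarith
  gcongr

theorem nilrW_sum_le {s : ℝ} (hs : 0 < s) (hs1 : s ≤ 1) (M : ℕ) :
    ∑ n ∈ Finset.Icc (-(M : ℤ)) (M : ℤ), nilrW s n ≤ 3 := by
  have h := nilr_sum_Icc_le (nilrW s) (fun n => (1 + s * (n : ℝ))⁻¹) (nilrW_neg s)
    (fun n => nilrW_succ_le hs n) M
  have h0 : nilrW s 0 = s := by simp [nilrW]
  have h1 : (0 : ℝ) ≤ (1 + s * (M : ℝ))⁻¹ := by positivity
  simp only [Nat.cast_zero, mul_zero, add_zero, inv_one] at h
  rw [h0] at h
  linarith

/-- the truncated weight -/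
noncomputable def nilrW' (s Lam : ℝ) (n : ℤ) : ℝ :=
  if Lam < s * |(n : ℝ)| then nilrW s n else 0

theorem nilrW'_nonneg {s : ℝ} (hs : 0 < s) (Lam : ℝ) (n : ℤ) : 0 ≤ nilrW' s Lam n := by
  unfold nilrW'
  split_ifs
  · exact nilrW_nonneg hs n
  · exact le_rfl

theorem nilrW'_le {s : ℝ} (hs : 0 < s) (Lam : ℝ) (n : ℤ) : nilrW' s Lam n ≤ nilrW s n := by
  unfold nilrW'
  split_ifs
  · exact le_rfl
  · exact nilrW_nonneg hs n

theorem nilrW'_neg (s Lam : ℝ) (n : ℤ) : nilrW' s Lam (-n) = nilrW' s Lam n := by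
  unfold nilrW'
  rw [nilrW_neg]
  simp

theorem nilrW'_succ_le {s Lam : ℝ} (hs : 0 < s) (hs1 : s ≤ 1) (hLam : 1 ≤ Lam) (n : ℕ) :
    nilrW' s Lam ((n + 1 : ℕ) : ℤ) ≤
      min (1 + s * n)⁻¹ Lam⁻¹ - min (1 + s * ((n + 1 : ℕ) : ℝ))⁻¹ Lam⁻¹ := by
  have hn : (0 : ℝ) ≤ n := Nat.cast_nonneg n
  have h1 : 0 < 1 + s * (n : ℝ) := by positivity
  have hmono : (1 + s * ((n + 1 : ℕ) : ℝ))⁻¹ ≤ (1 + s * (n : ℝ))⁻¹ := by
    push_cast
    gcongr
    linarith
  unfold nilrW'
  split_ifs with h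
  · have e : |(((n + 1 : ℕ) : ℤ) : ℝ)| = (n : ℝ) + 1 := by
      push_cast
      exact abs_of_nonneg (by linarith)
    rw [e] at h
    have h2 : (1 + s * (n : ℝ))⁻¹ ≤ Lam⁻¹ := by
      have : Lam ≤ 1 + s * (n : ℝ) := by nlinarith
      gcongr
    rw [min_eq_left h2, min_eq_left (hmono.trans h2)]
    exact nilrW_succ_le hs n
  · have : min (1 + s * ((n + 1 : ℕ) : ℝ))⁻¹ Lam⁻¹ ≤ min (1 + s * (n : ℝ))⁻¹ Lam⁻¹ :=
      min_le_min_right _ hmono
    linarith

theorem nilrW'_sum_le {s Lam : ℝ} (hs : 0 < s) (hs1 : s ≤ 1) (hLam : 1 ≤ Lam) (M : ℕ) :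
    ∑ n ∈ Finset.Icc (-(M : ℤ)) (M : ℤ), nilrW' s Lam n ≤ 2 / Lam := by
  have h := nilr_sum_Icc_le (nilrW' s Lam) (fun n => min (1 + s * (n : ℝ))⁻¹ Lam⁻¹)
    (nilrW'_neg s Lam) (fun n => nilrW'_succ_le hs hs1 hLam n) M
  have h0 : nilrW' s Lam 0 = 0 := by
    unfold nilrW'
    rw [if_neg]
    simp only [Int.cast_zero, abs_zero, mul_zero, not_lt]
    linarith
  have h1 : (0 : ℝ) ≤ min (1 + s * (M : ℝ))⁻¹ Lam⁻¹ := le_min (by positivity) (by positivity)
  have h2 : min (1 + s * ((0 : ℕ) : ℝ))⁻¹ Lam⁻¹ ≤ Lam⁻¹ := min_le_right _ _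
  rw [h0] at h
  rw [div_eq_mul_inv]
  linarith

/-! ### products -/

/-- a finite set of integer vectors lies in a symmetric box -/
theorem nilr_exists_box [DecidableEq ι] (S : Finset (ι → ℤ)) :
    ∃ M : ℕ, S ⊆ Fintype.piFinset fun _ : ι => Finset.Icc (-(M : ℤ)) (M : ℤ) := by
  refine ⟨S.sup fun n => Finset.univ.sup fun i => (n i).natAbs, fun n hn => ?_⟩
  rw [Fintype.mem_piFinset]
  intro i
  have h1 : (n i).natAbs ≤ Finset.univ.sup fun i => (n i).natAbs :=
    Finset.le_sup (f := fun i => (n i).natAbs) (Finset.mem_univ i)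
  have h2 : (Finset.univ.sup fun i => (n i).natAbs) ≤
      S.sup fun n => Finset.univ.sup fun i => (n i).natAbs :=
    Finset.le_sup (f := fun n : ι → ℤ => Finset.univ.sup fun i => (n i).natAbs) hn
  rw [Finset.mem_Icc]
  omega

/-- sums of product weights over a finite set are bounded by the product of the bounds -/
theorem nilr_sum_prod_le (w : ι → ℤ → ℝ) (b : ι → ℝ) (hw : ∀ i n, 0 ≤ w i n)
    (hb : ∀ i (M : ℕ), ∑ n ∈ Finset.Icc (-(M : ℤ)) (M : ℤ), w i n ≤ b i) (S : Finset (ι → ℤ)) :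
    ∑ n ∈ S, ∏ i, w i (n i) ≤ ∏ i, b i := by
  classical
  obtain ⟨M, hM⟩ := nilr_exists_box S
  calc ∑ n ∈ S, ∏ i, w i (n i)
      ≤ ∑ n ∈ Fintype.piFinset fun _ : ι => Finset.Icc (-(M : ℤ)) (M : ℤ), ∏ i, w i (n i) :=
        Finset.sum_le_sum_of_subset_of_nonneg hM fun n _ _ =>
          Finset.prod_nonneg fun i _ => hw i (n i)
    _ = ∏ i, ∑ n ∈ Finset.Icc (-(M : ℤ)) (M : ℤ), w i n := (Finset.prod_univ_sum _ _).symm
    _ ≤ ∏ i, b i := Finset.prod_le_prod (fun i _ => Finset.sum_nonneg fun n _ => hw i n)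
        fun i _ => hb i M

theorem nilr_prod_eq (s : ι → ℝ) (n : ι → ℤ) :
    (∏ i, s i) * ∏ i, ((1 + s i * |(n i : ℝ)|) ^ 2)⁻¹ = ∏ i, nilrW (s i) (n i) := by
  rw [← Finset.prod_mul_distrib]
  rfl

/-- lattice sums of the product weight `∏ (1 + |x_i|)^(-2)` are bounded -/
theorem nil_decay_sum (s : ι → ℝ) (hs0 : ∀ i, 0 < s i) (hs1 : ∀ i, s i ≤ 1)
    (S : Finset (ι → ℤ)) :
    (∏ i, s i) * ∑ n ∈ S, ∏ i, ((1 + s i * |(n i : ℝ)|) ^ 2)⁻¹ ≤ 3 ^ Fintype.card ι := by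
  rw [Finset.mul_sum]
  simp only [nilr_prod_eq]
  have h := nilr_sum_prod_le (fun i => nilrW (s i)) (fun _ => 3) (fun i n => nilrW_nonneg (hs0 i) n)
    (fun i M => nilrW_sum_le (hs0 i) (hs1 i) M) S
  simpa using h

/-- tails of these lattice sums are small -/
theorem nil_decay_tail (s : ι → ℝ) (hs0 : ∀ i, 0 < s i) (hs1 : ∀ i, s i ≤ 1)
    (Lam : ℝ) (hLam : 1 ≤ Lam) (S : Finset (ι → ℤ))
    (hS : ∀ n ∈ S, ∃ i, Lam < s i * |(n i : ℝ)|) :
    (∏ i, s i) * ∑ n ∈ S, ∏ i, ((1 + s i * |(n i : ℝ)|) ^ 2)⁻¹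
      ≤ Fintype.card ι * 3 ^ Fintype.card ι * (2 / Lam) := by
  classical
  rw [Finset.mul_sum]
  simp only [nilr_prod_eq]
  -- the weights with one truncated factor
  let w : ι → ι → ℤ → ℝ := fun i₀ i => if i = i₀ then nilrW' (s i) Lam else nilrW (s i)
  have hw0 : ∀ i₀ i n, 0 ≤ w i₀ i n := by
    intro i₀ i n
    by_cases h : i = i₀
    · simp only [w, if_pos h]
      exact nilrW'_nonneg (hs0 i) Lam n
    · simp only [w, if_neg h]
      exact nilrW_nonneg (hs0 i) n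
  have hLam0 : 0 < Lam := by linarith
  have hpt : ∀ n ∈ S, ∏ i, nilrW (s i) (n i) ≤ ∑ i₀, ∏ i, w i₀ i (n i) := by
    intro n hn
    obtain ⟨i₀, hi₀⟩ := hS n hn
    have e : ∏ i, nilrW (s i) (n i) = ∏ i, w i₀ i (n i) := by
      refine Finset.prod_congr rfl fun i _ => ?_
      by_cases h : i = i₀
      · subst h
        simp only [w, if_true, nilrW', if_pos hi₀]
      · simp only [w, if_neg h]
    rw [e]
    exact Finset.single_le_sum (f := fun i₀ => ∏ i, w i₀ i (n i))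
      (fun j _ => Finset.prod_nonneg fun i _ => hw0 j i (n i)) (Finset.mem_univ i₀)
  have hone : ∀ i₀, ∑ n ∈ S, ∏ i, w i₀ i (n i) ≤ 3 ^ Fintype.card ι * (2 / Lam) := by
    intro i₀
    have h := nilr_sum_prod_le (w i₀) (fun i => 3 * if i = i₀ then 2 / Lam else 1) (hw0 i₀)
      (fun i M => by
        by_cases h : i = i₀
        · simp only [w, if_pos h]
          have := nilrW'_sum_le (hs0 i) (hs1 i) hLam M
          have h2 : 0 ≤ 2 / Lam := by positivity
          linarith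
        · simp only [w, if_neg h]
          have := nilrW_sum_le (hs0 i) (hs1 i) M
          linarith) S
    rw [Finset.prod_mul_distrib, Finset.prod_ite_eq' Finset.univ i₀ (fun _ => 2 / Lam)] at h
    simpa using h
  calc ∑ n ∈ S, ∏ i, nilrW (s i) (n i) ≤ ∑ n ∈ S, ∑ i₀, ∏ i, w i₀ i (n i) := Finset.sum_le_sum hpt
    _ = ∑ i₀, ∑ n ∈ S, ∏ i, w i₀ i (n i) := Finset.sum_comm
    _ ≤ ∑ _i₀ : ι, 3 ^ Fintype.card ι * (2 / Lam) := Finset.sum_le_sum fun i₀ _ => hone i₀
    _ = Fintype.card ι * 3 ^ Fintype.card ι * (2 / Lam) := by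
        rw [Finset.sum_const, Finset.card_univ, nsmul_eq_mul]
        ring

/-! ### lattice points in a cube -/

theorem nilr_abs_le_iff {s : ℝ} (hs : 0 < s) (R : ℝ) (n : ℤ) :
    |s * (n : ℝ)| ≤ R ↔ n ∈ Finset.Icc (-⌊R / s⌋) ⌊R / s⌋ := by
  have h1 : -⌊R / s⌋ ≤ n ↔ -(s * (n : ℝ)) ≤ R := by
    rw [neg_le, Int.le_floor, le_div_iff₀' hs]
    push_cast
    rw [mul_neg]
  have h2 : n ≤ ⌊R / s⌋ ↔ s * (n : ℝ) ≤ R := by
    rw [Int.le_floor, le_div_iff₀' hs]
  rw [Finset.mem_Icc, abs_le, neg_le, h1, h2]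

theorem nilr_box_eq [DecidableEq ι] (R : ℝ) (s : ι → ℝ) (hs0 : ∀ i, 0 < s i) :
    {n : ι → ℤ | ∀ i, |s i * (n i : ℝ)| ≤ R} =
      ↑(Fintype.piFinset fun i => Finset.Icc (-⌊R / s i⌋) ⌊R / s i⌋) := by
  ext n
  simp only [Set.mem_ofPred_eq, Finset.mem_coe, Fintype.mem_piFinset]
  exact forall_congr' fun i => nilr_abs_le_iff (hs0 i) R (n i)

/-- only finitely many lattice points in a ball -/
theorem nil_lattice_finite (R : ℝ) (s : ι → ℝ) (hs0 : ∀ i, 0 < s i) :
    Set.Finite {n : ι → ℤ | ∀ i, |s i * (n i : ℝ)| ≤ R} := by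
  classical
  rw [nilr_box_eq R s hs0]
  exact Finset.finite_toSet _

/-- volume-normalised number of lattice points in a cube -/
theorem nil_count (R : ℝ) (hR : 0 ≤ R) (s : ι → ℝ) (hs0 : ∀ i, 0 < s i) (hs1 : ∀ i, s i ≤ 1) :
    (∏ i, s i) * (Set.ncard {n : ι → ℤ | ∀ i, |s i * (n i : ℝ)| ≤ R} : ℝ)
      ≤ (2 * R + 1) ^ Fintype.card ι := by
  classical
  rw [nilr_box_eq R s hs0, Set.ncard_coe_finset, Fintype.card_piFinset]
  push_cast
  rw [← Finset.prod_mul_distrib]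
  calc ∏ i, s i * ((Finset.Icc (-⌊R / s i⌋) ⌊R / s i⌋).card : ℝ) ≤ ∏ _i : ι, (2 * R + 1) := by
        refine Finset.prod_le_prod (fun i _ => by have := hs0 i; positivity) fun i _ => ?_
        have hF0 : 0 ≤ ⌊R / s i⌋ := Int.floor_nonneg.2 (div_nonneg hR (hs0 i).le)
        have hF : (⌊R / s i⌋ : ℝ) ≤ R / s i := Int.floor_le _
        rw [le_div_iff₀' (hs0 i)] at hF
        have hc : ((Finset.Icc (-⌊R / s i⌋) ⌊R / s i⌋).card : ℝ) = 2 * (⌊R / s i⌋ : ℝ) + 1 := by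
          rw [Int.card_Icc]
          have h1 : ((⌊R / s i⌋ + 1 - -⌊R / s i⌋).toNat : ℤ) = 2 * ⌊R / s i⌋ + 1 := by
            rw [Int.toNat_of_nonneg (by omega)]
            ring
          exact_mod_cast h1
        rw [hc]
        have := hs1 i
        nlinarith
    _ = (2 * R + 1) ^ Fintype.card ι := by
        rw [Finset.prod_const, Finset.card_univ]

/-! ### Riemann sums -/

/-- the cell of a lattice point -/
def nilrCell (s : ι → ℝ) (n : ι → ℤ) : Set (ι → ℝ) :=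
  Set.pi Set.univ fun i => Set.Ico (s i * (n i : ℝ)) (s i * ((n i : ℝ) + 1))

/-- rounding down to the lattice -/
noncomputable def nilrRound (s : ι → ℝ) (x : ι → ℝ) : ι → ℝ := fun i => s i * (⌊x i / s i⌋ : ℝ)

omit [Fintype ι] in
theorem nilr_mem_cell_iff {s : ι → ℝ} (hs0 : ∀ i, 0 < s i) (n : ι → ℤ) (x : ι → ℝ) :
    x ∈ nilrCell s n ↔ ∀ i, ⌊x i / s i⌋ = n i := by
  simp only [nilrCell, Set.mem_pi, Set.mem_univ, true_implies, Set.mem_Ico]
  refine forall_congr' fun i => ?_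
  rw [Int.floor_eq_iff, le_div_iff₀' (hs0 i), div_lt_iff₀' (hs0 i)]

theorem nilr_cell_measurable (s : ι → ℝ) (n : ι → ℤ) : MeasurableSet (nilrCell s n) :=
  MeasurableSet.univ_pi fun _ => measurableSet_Ico

omit [Fintype ι] in
theorem nilr_cell_disjoint {s : ι → ℝ} (hs0 : ∀ i, 0 < s i) :
    Pairwise (Function.onFun Disjoint (nilrCell s)) := by
  intro n n' hne
  rw [Function.onFun, Set.disjoint_left]
  intro x hx hx'
  apply hne
  funext i
  rw [← (nilr_mem_cell_iff hs0 n x).1 hx i, (nilr_mem_cell_iff hs0 n' x).1 hx' i]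

omit [Fintype ι] in
theorem nilr_iUnion_cell {s : ι → ℝ} (hs0 : ∀ i, 0 < s i) : ⋃ n, nilrCell s n = Set.univ := by
  ext x
  simp only [Set.mem_iUnion, Set.mem_univ, iff_true]
  exact ⟨fun i => ⌊x i / s i⌋, (nilr_mem_cell_iff hs0 _ x).2 fun _ => rfl⟩

theorem nilr_cell_volume {s : ι → ℝ} (hs0 : ∀ i, 0 < s i) (n : ι → ℤ) :
    (volume (nilrCell s n)).toReal = ∏ i, s i := by
  unfold nilrCell
  rw [Real.volume_pi_Ico_toReal (fun i => by have := hs0 i; nlinarith)]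
  exact Finset.prod_congr rfl fun i _ => by ring

theorem nilr_round_measurable (s : ι → ℝ) : Measurable (nilrRound s) := by
  refine measurable_pi_lambda _ fun i => ?_
  have h00 : Measurable fun x : ι → ℝ => x i := measurable_pi_apply i
  have h0 : Measurable fun x : ι → ℝ => x i / s i := h00.div_const (s i)
  have h1 : Measurable fun x : ι → ℝ => ⌊x i / s i⌋ := h0.floor
  exact measurable_const.mul ((measurable_from_top (f := (Int.cast : ℤ → ℝ))).comp h1)

theorem nilr_round_dist {s : ι → ℝ} {σ : ℝ} (hs0 : ∀ i, 0 < s i) (hsσ : ∀ i, s i ≤ σ)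
    (hσ0 : 0 ≤ σ) (x : ι → ℝ) : ‖nilrRound s x - x‖ ≤ σ := by
  rw [pi_norm_le_iff_of_nonneg hσ0]
  intro i
  have h1 := Int.floor_le (x i / s i)
  have h2 := Int.lt_floor_add_one (x i / s i)
  rw [le_div_iff₀' (hs0 i)] at h1
  rw [div_lt_iff₀' (hs0 i)] at h2
  have h3 := hsσ i
  simp only [Pi.sub_apply, nilrRound, Real.norm_eq_abs]
  rw [abs_le]
  constructor <;> nlinarith

/-- Riemann sums of a Lipschitz function with bounded support. -/
theorem nil_riemann (f : (ι → ℝ) → ℝ) (K : ℝ≥0) (hf : LipschitzWith K f)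
    (R : ℝ) (hR : 0 ≤ R) (hsupp : ∀ x, R < ‖x‖ → f x = 0)
    (s : ι → ℝ) (σ : ℝ) (hs0 : ∀ i, 0 < s i) (hsσ : ∀ i, s i ≤ σ) (hσ0 : 0 ≤ σ) (hσ : σ ≤ 1) :
    |(∏ i, s i) * ∑' n : ι → ℤ, f (fun i => s i * (n i : ℝ)) - ∫ x, f x|
      ≤ K * σ * (2 * R + 2) ^ Fintype.card ι := by
  set g : (ι → ℝ) → ℝ := fun x => f (nilrRound s x) with hg
  have hfc : Continuous f := hf.continuous
  have hfcs : HasCompactSupport f :=
    HasCompactSupport.intro (isCompact_closedBall (0 : ι → ℝ) R) fun x hx =>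
      hsupp x (by simpa [Metric.mem_closedBall, dist_zero_right] using hx)
  have hfi : Integrable f := hfc.integrable_of_hasCompactSupport hfcs
  have hgm : Measurable g := hfc.measurable.comp (nilr_round_measurable s)
  -- pointwise bound
  have hpt : ∀ x, |g x - f x| ≤
      (Metric.closedBall (0 : ι → ℝ) (R + 1)).indicator (fun _ => (K : ℝ) * σ) x := by
    intro x
    have hd := nilr_round_dist hs0 hsσ hσ0 x
    by_cases hx : x ∈ Metric.closedBall (0 : ι → ℝ) (R + 1)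
    · rw [Set.indicator_of_mem hx]
      have := hf.dist_le_mul (nilrRound s x) x
      rw [Real.dist_eq, dist_eq_norm] at this
      exact this.trans (mul_le_mul_of_nonneg_left hd K.2)
    · rw [Set.indicator_of_notMem hx]
      have hx' : R + 1 < ‖x‖ := by simpa [Metric.mem_closedBall, dist_zero_right] using hx
      have h1 : f x = 0 := hsupp x (by linarith)
      have h2 : g x = 0 := by
        refine hsupp _ ?_
        have h3 : ‖x‖ ≤ ‖nilrRound s x‖ + ‖nilrRound s x - x‖ := by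
          calc ‖x‖ = ‖nilrRound s x - (nilrRound s x - x)‖ := by rw [sub_sub_cancel]
            _ ≤ _ := norm_sub_le _ _
        linarith
      simp [h1, h2]
  have hvol : volume (Metric.closedBall (0 : ι → ℝ) (R + 1)) =
      ENNReal.ofReal ((2 * (R + 1)) ^ Fintype.card ι) :=
    Real.volume_pi_closedBall _ (by linarith)
  have hind : Integrable
      ((Metric.closedBall (0 : ι → ℝ) (R + 1)).indicator fun _ => (K : ℝ) * σ) volume := by
    rw [integrable_indicator_iff Metric.isClosed_closedBall.measurableSet]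
    refine integrableOn_const ?_
    rw [hvol]
    exact ENNReal.ofReal_ne_top
  have hdi : Integrable (fun x => g x - f x) :=
    Integrable.mono' hind (hgm.sub hfc.measurable).aestronglyMeasurable
      (ae_of_all _ fun x => by rw [Real.norm_eq_abs]; exact hpt x)
  have hgi : Integrable g := by
    have := hdi.add hfi
    refine this.congr (ae_of_all _ fun x => ?_)
    simp
  -- comparison of the integrals
  have h5 : |(∫ x, g x) - ∫ x, f x| ≤ K * σ * (2 * R + 2) ^ Fintype.card ι := by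
    rw [← integral_sub hgi hfi]
    calc |∫ x, (g x - f x)| ≤ ∫ x, |g x - f x| := abs_integral_le_integral_abs
      _ ≤ ∫ x, (Metric.closedBall (0 : ι → ℝ) (R + 1)).indicator (fun _ => (K : ℝ) * σ) x :=
          integral_mono hdi.abs hind hpt
      _ = K * σ * (2 * R + 2) ^ Fintype.card ι := by
          rw [integral_indicator Metric.isClosed_closedBall.measurableSet, setIntegral_const,
            Measure.real, hvol, ENNReal.toReal_ofReal (by positivity), smul_eq_mul,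
            show 2 * (R + 1) = 2 * R + 2 by ring]
          ring
  -- the integral of the rounded function
  have h6 : ∫ x, g x = (∏ i, s i) * ∑' n : ι → ℤ, f (fun i => s i * (n i : ℝ)) := by
    have e0 : ∫ x, g x = ∫ x in ⋃ n, nilrCell s n, g x := by
      rw [nilr_iUnion_cell hs0, setIntegral_univ]
    rw [e0, integral_iUnion (fun n => nilr_cell_measurable s n) (nilr_cell_disjoint hs0)
      hgi.integrableOn, ← tsum_mul_left]
    congr 1
    funext n
    have e1 : ∫ x in nilrCell s n, g x = ∫ _x in nilrCell s n, f (fun i => s i * (n i : ℝ)) := by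
      refine setIntegral_congr_fun (nilr_cell_measurable s n) fun x hx => ?_
      show f (nilrRound s x) = _
      congr 1
      funext i
      rw [nilrRound, (nilr_mem_cell_iff hs0 n x).1 hx i]
    rw [e1, setIntegral_const, Measure.real, nilr_cell_volume hs0, smul_eq_mul]
  rw [← h6]
  exact h5

end Claimed.Agent.R300.Nil
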