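import Claimed.Agent.R300.NilRepC
import Claimed.Agent.R300.NilConv
import Claimed.Agent.R300.NilPars
import Claimed.Agent.R300.NilRiem

/-!
# KK Section 8: the painless frame identity on the lattice (replaces L8.5-P8.7 of the paper)

`L = EBar m ℤ`, `sc y γ = Delta_y γ ∈ EBar m ℝ`, `nu = y^(m n_f)`, `kk w y γ = nu * JJ w (sc y γ)` (paper: coefficients of
K_theta, theta = y^m > 0), `om θ g h = e(θ c(g,h))`.
`ss w y x = covol * ∑_{β ∈ Delta_y U_Z} φ(x ∘ β)²`  (frame symbol).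

MATHEMATICS.  For `f` continuous supported in the unit ball, `g` continuous, `y ≤ y1`:
   nu * ∑_γ <f, pi(sc γ)φ> conj <g, pi(sc γ)φ> = ∫ f conj g ss                                   (frame_hasSum)
Proof: fix the `bet` part `β` of `sc γ`; `<f, pi(λ,β)φ> = boxCoeff sL (f · φ(·∘β)) n`, `λ_p = y^(wtL p) n_p`.  If `f · φ(·∘β) ≠ 0`
somewhere then `‖β‖ ≤ R0` (`nil_R0`) and `g · φ(·∘β)` is supported in `‖x‖ ≤ R1` (`nil_R1`), inside the period box as soon as
`y * R1 < 1/2` (`y^(wtL p) ≤ y`).  `nil_parseval` gives the sum over `n`; only finitely many `β` contribute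
(`nil_lattice_finite`); glue the fibres (`EBar m ℤ ≃ (Idx m → ℤ) × (Idx m → ℤ)`, finite sum of `HasSum`s along injections).
`nu = ∏ y^(wtL p) * ∏ y^(wtB p)` (`wtL_add_wtB`).
   (kk * kk)(h) = nu <ss φ, pi(sc h) φ>   by `JJ_mul` (with a = sc g, a' = sc (g⁻¹ h), `EBar.coc_dil`, `EBar.coc_map`).
   |ss - 1| ≤ C y on the unit ball: `nil_riemann` for `β ↦ φ(x∘β)²` + `nil_mp_circ_left` (∫ = ∫ φ² = 1).
-/

set_option autoImplicit false

namespace Claimed.Agent.R300.Nil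

open MeasureTheory

variable {m : ℕ}

/-- the lattice embedding -/
noncomputable def emb : EBar m ℤ →* EBar m ℝ := EBar.map (Int.castRingHom ℝ)

/-- scaled lattice point (paper: Delta_y γ) -/
noncomputable def sc (y : ℝ) : EBar m ℤ →* EBar m ℝ := (EBar.dil y).comp emb

/-- `n_f` -/
def nf (m : ℕ) : ℕ := Fintype.card (Idx m)

/-- cell volume `nu = y^(m n_f)` -/
noncomputable def nu (m : ℕ) (y : ℝ) : ℝ := y ^ (m * nf m)

/-- sampled coefficients -/
noncomputable def kk (w : Win m) (y : ℝ) (γ : EBar m ℤ) : ℂ := (nu m y : ℂ) * JJ w (sc y γ)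

/-- the multiplier `e(θ c)` -/
noncomputable def om (θ : ℝ) (g h : EBar m ℤ) : ℂ := ee (θ * ((EBar.coc g h : ℤ) : ℝ))

/-- the frame symbol -/
noncomputable def ss (w : Win m) (y : ℝ) (x : VV m) : ℝ :=
  (∏ p : Idx m, y ^ wtB p) * ∑' n : Idx m → ℤ, w.φ (circ x (fun p => y ^ wtB p * (n p : ℝ))) ^ 2

/-- the defect `kk * kk - kk` at the matched parameter `θ = y^m` -/
noncomputable def dd (w : Win m) (y : ℝ) (h : EBar m ℤ) : ℂ :=
  tconv (om (y ^ m)) (kk w y) (kk w y) h - kk w y h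

lemma norm_om (θ : ℝ) (g h : EBar m ℤ) : ‖om θ g h‖ = 1 := norm_ee _

lemma sc_lam (y : ℝ) (γ : EBar m ℤ) (p : Idx m) : (sc y γ).lam p = y ^ wtL p * (γ.lam p : ℝ) := rfl

lemma sc_bet (y : ℝ) (γ : EBar m ℤ) (p : Idx m) : (sc y γ).bet p = y ^ wtB p * (γ.bet p : ℝ) := rfl

lemma coc_sc (y : ℝ) (g h : EBar m ℤ) :
    EBar.coc (sc y g) (sc y h) = y ^ m * ((EBar.coc g h : ℤ) : ℝ) := by
  show EBar.coc (EBar.dil y (emb g)) (EBar.dil y (emb h)) = _
  rw [EBar.coc_dil]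
  congr 1
  exact EBar.coc_map (Int.castRingHom ℝ) g h

lemma nu_eq (y : ℝ) : nu m y = (∏ p : Idx m, y ^ wtL p) * ∏ p : Idx m, y ^ wtB p := by
  rw [← Finset.prod_mul_distrib]
  have : ∀ p : Idx m, y ^ wtL p * y ^ wtB p = y ^ m := fun p => by
    rw [← pow_add, wtL_add_wtB]
  simp only [this, Finset.prod_const, Finset.card_univ, nu, nf, pow_mul]

end Claimed.Agent.R300.Nil
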