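/-
Row 300, KK Section 9: NUMERICS of the window (first width, second width, supports, ordinary range, weighted trace).
Architect: helper21.  Proofs: helper274 (`kk_num_Y` got the extra hypothesis `1 ≤ ℓ`: false for `ℓ = 0`).
`q = kkd ℓ ^ A = 2^(4 ℓ A)`, `δ = 1/q`, `kkH ℓ i = 20010 ℓ + 1 + |i|`, chart `tch δ κ b` (NilChart):
`tch b ≤ δ`, `tch b ≤ δ 2^(κ b)` (`tch_le_rpow`), `δ - tch b = tch (-b)` (`tch_compl`), `tch b ≥ (δ/2) 2^(-κ |b|)`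
(`tch_ge_of_nonpos`, `tch_ge_of_nonneg`), `tch b (δ - tch b) ≤ δ² 2^(-κ |b|)` (`tch_mul_compl_le`).
Everything reduces to inequalities between exponents of `2` (checked by hand in the comments).
-/
import Claimed.Agent.R300.KkIface
import Claimed.Agent.R300.NilChart
import Claimed.Agent.R300.NilFrame

set_option autoImplicit false

namespace Claimed.Agent.R300

open Nil

theorem kk_q_eq (ℓ A : ℕ) : kkd ℓ ^ A = 2 ^ (4 * ℓ * A) := by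
  unfold kkd; rw [← pow_mul]

theorem kkH_ge (ℓ : ℕ) (i : ℤ) : ℓ + i.natAbs + 1 ≤ kkH ℓ i := by
  unfold kkH; omega

/-! ### auxiliary lemmas (helper274) -/

theorem kkn_q (ℓ A : ℕ) : ((kkd ℓ ^ A : ℕ) : ℝ) = (2 : ℝ) ^ (4 * ℓ * A) := by
  rw [kk_q_eq]
  push_cast
  rfl

theorem kkn_delta (ℓ A : ℕ) : 1 / ((kkd ℓ ^ A : ℕ) : ℝ) = ((2 : ℝ) ^ (4 * ℓ * A))⁻¹ := by
  rw [kkn_q, one_div]

theorem kkn_rpow_neg_nat (N : ℕ) : (2 : ℝ) ^ (-(N : ℝ)) = ((2 : ℝ) ^ N)⁻¹ := by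
  rw [Real.rpow_neg (by norm_num), Real.rpow_natCast]

theorem kkn_inv_le {a c : ℕ} (h : c ≤ a) : ((2 : ℝ) ^ a)⁻¹ ≤ ((2 : ℝ) ^ c)⁻¹ :=
  inv_anti₀ (by positivity) (pow_le_pow_right₀ (by norm_num) h)

theorem kkn_mul_inv_le {a b c d : ℕ} (h : a + d ≤ b + c) :
    (2 : ℝ) ^ a * ((2 : ℝ) ^ b)⁻¹ ≤ (2 : ℝ) ^ c * ((2 : ℝ) ^ d)⁻¹ := by
  rw [← div_eq_mul_inv, ← div_eq_mul_inv, div_le_div_iff₀ (by positivity) (by positivity),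
    ← pow_add, ← pow_add]
  exact pow_le_pow_right₀ (by norm_num) (by omega)

theorem kkn_tch_le {δ κ b : ℝ} (hδ : 0 < δ) {N : ℕ} (h : κ * b ≤ -(N : ℝ)) :
    tch δ κ b ≤ δ * ((2 : ℝ) ^ N)⁻¹ := by
  refine (tch_le_rpow hδ b).trans (mul_le_mul_of_nonneg_left ?_ hδ.le)
  rw [← kkn_rpow_neg_nat]
  exact Real.rpow_le_rpow_of_exponent_le (by norm_num) h

theorem kkn_tch_ge {δ κ b : ℝ} (hδ : 0 < δ) (hκ : 0 < κ) {N : ℕ} (h : -(N : ℝ) ≤ κ * b) :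
    δ * ((2 : ℝ) ^ (N + 1))⁻¹ ≤ tch δ κ b := by
  have e : δ * ((2 : ℝ) ^ (N + 1))⁻¹ = δ * ((2 : ℝ) ^ N)⁻¹ / 2 := by
    rw [pow_succ, mul_inv]
    ring
  rw [e]
  rcases le_total b 0 with hb | hb
  · refine le_trans ?_ (tch_ge_of_nonpos hδ hκ hb)
    have h1 : ((2 : ℝ) ^ N)⁻¹ ≤ (2 : ℝ) ^ (κ * b) := by
      rw [← kkn_rpow_neg_nat]
      exact Real.rpow_le_rpow_of_exponent_le (by norm_num) h
    have h2 := mul_le_mul_of_nonneg_left h1 hδ.le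
    linarith
  · refine le_trans ?_ (tch_ge_of_nonneg hδ hκ hb)
    have h1 : ((2 : ℝ) ^ N)⁻¹ ≤ 1 := inv_le_one_of_one_le₀ (one_le_pow₀ (by norm_num))
    have h2 := mul_le_mul_of_nonneg_left h1 hδ.le
    linarith

theorem kkn_delta_pos (ℓ A : ℕ) : 0 < 1 / ((kkd ℓ ^ A : ℕ) : ℝ) := by
  rw [kkn_delta]
  positivity

theorem kkn_natAbs (i : ℤ) : ((i.natAbs : ℕ) : ℝ) = |(i : ℝ)| := by
  rw [Nat.cast_natAbs, Int.cast_abs]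

/-- constants are absorbed by one more `H_i`. -/
theorem kk_num_absorb (C : ℝ) : ∃ ℓ₀ : ℕ, ∀ ℓ ≥ ℓ₀, ∀ i : ℤ, C ≤ (2 : ℝ) ^ kkH ℓ i := by
  refine ⟨⌈C⌉₊, fun ℓ hℓ i => ?_⟩
  have h1 : ⌈C⌉₊ ≤ 2 ^ kkH ℓ i := by
    have h2 := kkH_ge ℓ i
    have h3 := (Nat.lt_two_pow_self (n := kkH ℓ i)).le
    omega
  calc C ≤ (⌈C⌉₊ : ℝ) := Nat.le_ceil _
    _ ≤ (2 : ℝ) ^ kkH ℓ i := by exact_mod_cast h1

/-- **First width** (`i ≤ 2 H_0`).  `i ≥ -2`: `H_i ≤ 3 H_0 ≤ 60033 ℓ`, `tch ≤ δ = 2^(-4 ℓ A)`.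
`i ≤ -3`: `tch ≤ δ 2^(-κ (|i| - 2))`, `m E H_i = m E (20010 ℓ + 3) + m E (|i| - 2)`. -/
theorem kk_num_X (m E A κ ℓ : ℕ) (hA : 15009 * m * E ≤ A) (hκ : m * E ≤ κ) (hℓ : 1 ≤ ℓ) (i : ℤ)
    (hi : i ≤ 2 * (kkH ℓ 0 : ℤ)) (b : ℝ) (hb : b ≤ i + 2) :
    tch (1 / ((kkd ℓ ^ A : ℕ) : ℝ)) κ b ≤ (((2 : ℝ) ^ (E * kkH ℓ i))⁻¹) ^ m := by
  have hδ := kkn_delta_pos ℓ A
  have hAℓ : 60036 * (ℓ * (m * E)) ≤ 4 * ℓ * A := by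
    calc 60036 * (ℓ * (m * E)) = 4 * ℓ * (15009 * m * E) := by ring
      _ ≤ 4 * ℓ * A := Nat.mul_le_mul_left _ hA
  rw [inv_pow, ← pow_mul]
  by_cases h2 : -2 ≤ i
  · refine (tch_lt hδ b).le.trans ?_
    rw [kkn_delta]
    refine kkn_inv_le ?_
    have hH : kkH ℓ i ≤ 60033 * ℓ := by
      unfold kkH at *
      omega
    calc E * kkH ℓ i * m ≤ E * (60033 * ℓ) * m :=
          Nat.mul_le_mul_right _ (Nat.mul_le_mul_left _ hH)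
      _ = 60033 * (ℓ * (m * E)) := by ring
      _ ≤ 60036 * (ℓ * (m * E)) := Nat.mul_le_mul_right _ (by norm_num)
      _ ≤ 4 * ℓ * A := hAℓ
  · obtain ⟨n, hn⟩ : ∃ n : ℕ, (n : ℤ) = -i - 2 := ⟨(-i - 2).toNat, by omega⟩
    have hnR : (n : ℝ) = -(i : ℝ) - 2 := by exact_mod_cast hn
    refine (kkn_tch_le hδ (N := κ * n) ?_).trans ?_
    · push_cast
      have h3 : b ≤ -(n : ℝ) := by linarith
      have h4 := mul_le_mul_of_nonneg_left h3 (Nat.cast_nonneg (α := ℝ) κ)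
      linarith
    · rw [kkn_delta, ← mul_inv, ← pow_add]
      refine kkn_inv_le ?_
      have hH : kkH ℓ i = 20010 * ℓ + 3 + n := by
        unfold kkH
        omega
      rw [hH]
      have h5 : (m * E) * (20013 * ℓ) ≤ 4 * ℓ * A := by
        calc (m * E) * (20013 * ℓ) = 20013 * (ℓ * (m * E)) := by ring
          _ ≤ 60036 * (ℓ * (m * E)) := Nat.mul_le_mul_right _ (by norm_num)
          _ ≤ 4 * ℓ * A := hAℓ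
      calc E * (20010 * ℓ + 3 + n) * m = (m * E) * (20010 * ℓ + 3) + (m * E) * n := by ring
        _ ≤ (m * E) * (20013 * ℓ) + κ * n :=
            Nat.add_le_add (Nat.mul_le_mul_left _ (by omega)) (Nat.mul_le_mul_right _ hκ)
        _ ≤ 4 * ℓ * A + κ * n := Nat.add_le_add_right h5 _

/-- **Second width** (`i ≥ H_0`).  `δ - tch b ≤ δ 2^(-κ (i - 2))`, `q^m δ = 2^(4 ℓ A (m - 1))`,
`4 ℓ A (m-1) + m E (H_0 + i) ≤ m (A + 2 E) i ≤ κ i / 2 ≤ κ (i - 2)`. -/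
theorem kk_num_Y (m E A κ ℓ : ℕ) (hm : 1 ≤ m) (hκ : 2 * m * (A + 2 * E) ≤ κ) (hℓ : 1 ≤ ℓ) (i : ℤ)
    (hi : (kkH ℓ 0 : ℤ) ≤ i) (b : ℝ) (hb : (i : ℝ) - 2 ≤ b) :
    ((kkd ℓ ^ A : ℕ) : ℝ) ^ m * (1 / ((kkd ℓ ^ A : ℕ) : ℝ) - tch (1 / ((kkd ℓ ^ A : ℕ) : ℝ)) κ b)
      ≤ (((2 : ℝ) ^ (E * kkH ℓ i))⁻¹) ^ m := by
  have hδ := kkn_delta_pos ℓ A
  obtain ⟨m', rfl⟩ : ∃ m', m = m' + 1 := ⟨m - 1, by omega⟩
  obtain ⟨n, hn⟩ : ∃ n : ℕ, (n : ℤ) = i - 2 := ⟨(i - 2).toNat, by unfold kkH at hi; omega⟩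
  have hnR : (n : ℝ) = (i : ℝ) - 2 := by exact_mod_cast hn
  have hH : kkH ℓ i = 20010 * ℓ + 3 + n := by
    unfold kkH at *
    omega
  have hn1 : 20010 * ℓ ≤ n + 1 := by
    unfold kkH at hi
    omega
  rw [tch_compl, inv_pow, ← pow_mul]
  have h1 : tch (1 / ((kkd ℓ ^ A : ℕ) : ℝ)) κ (-b) ≤
      1 / ((kkd ℓ ^ A : ℕ) : ℝ) * ((2 : ℝ) ^ (κ * n))⁻¹ := by
    refine kkn_tch_le hδ ?_
    push_cast
    have h3 : -b ≤ -(n : ℝ) := by linarith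
    have h4 := mul_le_mul_of_nonneg_left h3 (Nat.cast_nonneg (α := ℝ) κ)
    linarith
  have hq0 : (0 : ℝ) ≤ ((kkd ℓ ^ A : ℕ) : ℝ) ^ (m' + 1) := by positivity
  refine (mul_le_mul_of_nonneg_left h1 hq0).trans ?_
  rw [kkn_delta, kkn_q]
  have e : ((2 : ℝ) ^ (4 * ℓ * A)) ^ (m' + 1) * (((2 : ℝ) ^ (4 * ℓ * A))⁻¹ * ((2 : ℝ) ^ (κ * n))⁻¹)
      = (2 : ℝ) ^ (4 * ℓ * A * m') * ((2 : ℝ) ^ (κ * n))⁻¹ := by
    rw [pow_succ, ← pow_mul]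
    field_simp
  rw [e]
  have e2 : ((2 : ℝ) ^ (E * kkH ℓ i * (m' + 1)))⁻¹ =
      (2 : ℝ) ^ 0 * ((2 : ℝ) ^ (E * kkH ℓ i * (m' + 1)))⁻¹ := by rw [pow_zero, one_mul]
  rw [e2]
  refine kkn_mul_inv_le ?_
  rw [hH, add_zero]
  have a1 : 4 * ℓ * A * m' ≤ (n + 2) * A * (m' + 1) :=
    Nat.mul_le_mul (Nat.mul_le_mul_right _ (by omega)) (by omega)
  have a2 : E * (20010 * ℓ + 3 + n) * (m' + 1) ≤ E * (2 * (n + 2)) * (m' + 1) :=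
    Nat.mul_le_mul_right _ (Nat.mul_le_mul_left _ (by omega))
  calc 4 * ℓ * A * m' + E * (20010 * ℓ + 3 + n) * (m' + 1)
      ≤ (n + 2) * A * (m' + 1) + E * (2 * (n + 2)) * (m' + 1) := Nat.add_le_add a1 a2
    _ = ((m' + 1) * (A + 2 * E)) * (n + 2) := by ring
    _ ≤ ((m' + 1) * (A + 2 * E)) * (2 * n) := Nat.mul_le_mul_left _ (by omega)
    _ = (2 * (m' + 1) * (A + 2 * E)) * n := by ring
    _ ≤ κ * n := Nat.mul_le_mul_right _ hκ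

/-- **Lower bounds** (supports).  `4 ℓ A + 1 + κ (|i| + 2) ≤ (A + 3 κ + 1) H_i`. -/
theorem kk_num_low (A κ ℓ : ℕ) (hκ : 0 < κ) (i : ℤ) (b : ℝ) (hb : |b - i| ≤ 2) :
    ((2 : ℝ) ^ ((A + 3 * κ + 1) * kkH ℓ i))⁻¹ ≤ tch (1 / ((kkd ℓ ^ A : ℕ) : ℝ)) κ b ∧
      ((2 : ℝ) ^ ((A + 3 * κ + 1) * kkH ℓ i))⁻¹
        ≤ 1 / ((kkd ℓ ^ A : ℕ) : ℝ) - tch (1 / ((kkd ℓ ^ A : ℕ) : ℝ)) κ b := by
  have hδ := kkn_delta_pos ℓ A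
  have hκR : (0 : ℝ) < κ := by exact_mod_cast hκ
  obtain ⟨hb1, hb2⟩ := abs_le.1 hb
  have hI := kkn_natAbs i
  have hi1 := neg_abs_le (i : ℝ)
  have hi2 := le_abs_self (i : ℝ)
  have hexp : (A + 3 * κ + 1) * kkH ℓ i ≥ 4 * ℓ * A + (κ * (i.natAbs + 2) + 1) := by
    unfold kkH
    have a1 : 4 * ℓ * A ≤ A * (2001 * (10 * ℓ) + 1 + i.natAbs) := by
      calc 4 * ℓ * A = A * (4 * ℓ) := by ring
        _ ≤ A * (2001 * (10 * ℓ) + 1 + i.natAbs) := Nat.mul_le_mul_left _ (by omega)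
    have a2 : κ * (i.natAbs + 2) ≤ 3 * κ * (2001 * (10 * ℓ) + 1 + i.natAbs) := by
      calc κ * (i.natAbs + 2) ≤ κ * (3 * (2001 * (10 * ℓ) + 1 + i.natAbs)) :=
            Nat.mul_le_mul_left _ (by omega)
        _ = 3 * κ * (2001 * (10 * ℓ) + 1 + i.natAbs) := by ring
    have e : (A + 3 * κ + 1) * (2001 * (10 * ℓ) + 1 + i.natAbs) =
        A * (2001 * (10 * ℓ) + 1 + i.natAbs) + 3 * κ * (2001 * (10 * ℓ) + 1 + i.natAbs) +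
          (2001 * (10 * ℓ) + 1 + i.natAbs) := by ring
    rw [e]
    omega
  have hfin : ((2 : ℝ) ^ ((A + 3 * κ + 1) * kkH ℓ i))⁻¹ ≤
      1 / ((kkd ℓ ^ A : ℕ) : ℝ) * ((2 : ℝ) ^ (κ * (i.natAbs + 2) + 1))⁻¹ := by
    rw [kkn_delta, ← mul_inv, ← pow_add]
    exact kkn_inv_le hexp
  constructor
  · refine hfin.trans (kkn_tch_ge hδ hκR ?_)
    push_cast
    rw [hI]
    have h3 : -(|(i : ℝ)| + 2) ≤ b := by linarith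
    have h4 := mul_le_mul_of_nonneg_left h3 hκR.le
    linarith
  · rw [tch_compl]
    refine hfin.trans (kkn_tch_ge hδ hκR ?_)
    push_cast
    rw [hI]
    have h3 : -(|(i : ℝ)| + 2) ≤ -b := by linarith
    have h4 := mul_le_mul_of_nonneg_left h3 hκR.le
    linarith

/-- **Ordinary range** (`b ≤ H_0 + 2`).  `4 ℓ A + 1 + κ (20010 ℓ + 3) ≤ 4 ℓ A (2 + 6000 κ)`. -/
theorem kk_num_ord (A κ ℓ : ℕ) (hA : 1 ≤ A) (hκ : 0 < κ) (hℓ : 1 ≤ ℓ) (b : ℝ) (hb : b ≤ (kkH ℓ 0 : ℝ) + 2) :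
    ((((kkd ℓ ^ A : ℕ) : ℝ)) ^ (2 + 6000 * κ))⁻¹
      ≤ 1 / ((kkd ℓ ^ A : ℕ) : ℝ) - tch (1 / ((kkd ℓ ^ A : ℕ) : ℝ)) κ b := by
  have hδ := kkn_delta_pos ℓ A
  have hκR : (0 : ℝ) < κ := by exact_mod_cast hκ
  rw [tch_compl]
  refine le_trans ?_ (kkn_tch_ge hδ hκR (N := κ * (kkH ℓ 0 + 2)) ?_)
  · rw [kkn_delta, kkn_q, ← mul_inv, ← pow_add, ← pow_mul]
    refine kkn_inv_le ?_
    have hH : kkH ℓ 0 = 20010 * ℓ + 1 := by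
      unfold kkH
      simp
      ring
    rw [hH]
    have hℓA : 1 ≤ ℓ * A := Nat.mul_pos hℓ hA
    have a1 : κ * (20010 * ℓ + 1 + 2) ≤ 24000 * (ℓ * A * κ) := by
      calc κ * (20010 * ℓ + 1 + 2) ≤ κ * (24000 * ℓ) := Nat.mul_le_mul_left _ (by omega)
        _ = 24000 * (ℓ * 1 * κ) := by ring
        _ ≤ 24000 * (ℓ * A * κ) :=
            Nat.mul_le_mul_left _ (Nat.mul_le_mul_right _ (Nat.mul_le_mul_left _ hA))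
    have e : 4 * ℓ * A * (2 + 6000 * κ) = 8 * (ℓ * A) + 24000 * (ℓ * A * κ) := by ring
    have e2 : 4 * ℓ * A = 4 * (ℓ * A) := by ring
    rw [e, e2]
    omega
  · push_cast
    have h3 : -((kkH ℓ 0 : ℝ) + 2) ≤ -b := by linarith
    have h4 := mul_le_mul_of_nonneg_left h3 hκR.le
    linarith

/-- **Weighted trace.**  `q t (δ - t) ≤ δ 2^(-κ |b|) ≤ 1`, `nf m ≥ 1`, `|b| ≥ |i| - 1`:
the left side is `≤ Cp 2^(κ + Cbul) 2^(-(4 A - 20010 Cbul) ℓ) 2^((Cbul - κ) |i|) ≤ Cp 2^(κ + Cbul) 2^(-4 ℓ)`. -/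
theorem kk_num_trace (m Cbul A κ : ℕ) (hm : 2 ≤ m) (hA : 5003 * Cbul + 1 ≤ A) (hκ : Cbul ≤ κ) (hκ0 : 0 < κ)
    (Cp μ₀ : ℝ) (hCp : 0 ≤ Cp) (hμ : 0 < μ₀) : ∃ ℓ₀ : ℕ, ∀ ℓ ≥ ℓ₀, ∀ (i : ℤ) (b : ℝ), |b - i| ≤ 1 →
      (2 : ℝ) ^ (Cbul * kkH ℓ i) * (Cp * ((kkd ℓ ^ A : ℕ) : ℝ) ^ nf m
        * (tch (1 / ((kkd ℓ ^ A : ℕ) : ℝ)) κ b) ^ nf m
        * (1 / ((kkd ℓ ^ A : ℕ) : ℝ) - tch (1 / ((kkd ℓ ^ A : ℕ) : ℝ)) κ b) ^ nf m) ≤ μ₀ := by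
  have hκR : (0 : ℝ) < κ := by exact_mod_cast hκ0
  have hnf : nf m ≠ 0 := by
    unfold nf
    have : Nonempty (Idx m) := ⟨⟨(⟨0, by omega⟩, ⟨1, by omega⟩), by simp [Fin.lt_def]⟩⟩
    exact Fintype.card_ne_zero
  refine ⟨⌈Cp * 2 ^ (κ + Cbul) / μ₀⌉₊, fun ℓ hℓ i b hb => ?_⟩
  have hδ := kkn_delta_pos ℓ A
  set δ : ℝ := 1 / ((kkd ℓ ^ A : ℕ) : ℝ) with hδdef
  set q : ℝ := ((kkd ℓ ^ A : ℕ) : ℝ) with hqdef
  have hq0 : 0 < q := by rw [hqdef, kkn_q]; positivity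
  have hqδ : q * δ = 1 := by rw [hδdef]; field_simp
  set t : ℝ := tch δ κ b with ht
  have ht0 : 0 < t := tch_pos hδ b
  have hc0 : 0 < δ - t := sub_pos.2 (tch_lt hδ b)
  -- the basic quantity
  have hx0 : 0 ≤ q * t * (δ - t) := by positivity
  obtain ⟨hb1, hb2⟩ := abs_le.1 hb
  have hI := kkn_natAbs i
  have habs : ((i.natAbs - 1 : ℕ) : ℝ) ≤ |b| := by
    have h1 : |(i : ℝ)| - 1 ≤ |b| := by
      have := abs_sub_abs_le_abs_sub (i : ℝ) b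
      rw [abs_sub_comm] at this
      linarith
    rcases Nat.eq_zero_or_pos i.natAbs with h0 | h0
    · rw [h0]
      simp
    · have : ((i.natAbs - 1 : ℕ) : ℝ) = (i.natAbs : ℝ) - 1 := by
        rw [Nat.cast_sub h0]
        simp
      rw [this, hI]
      exact h1
  have hx1 : q * t * (δ - t) ≤ δ * ((2 : ℝ) ^ (κ * (i.natAbs - 1)))⁻¹ := by
    have h1 := tch_mul_compl_le hδ hκR b
    have h2 : (2 : ℝ) ^ (-((κ : ℝ) * |b|)) ≤ ((2 : ℝ) ^ (κ * (i.natAbs - 1)))⁻¹ := by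
      rw [← kkn_rpow_neg_nat]
      refine Real.rpow_le_rpow_of_exponent_le (by norm_num) ?_
      push_cast
      have := mul_le_mul_of_nonneg_left habs hκR.le
      linarith
    calc q * t * (δ - t) = q * (t * (δ - t)) := by ring
      _ ≤ q * (δ ^ 2 * (2 : ℝ) ^ (-((κ : ℝ) * |b|))) := mul_le_mul_of_nonneg_left h1 hq0.le
      _ = (q * δ) * δ * (2 : ℝ) ^ (-((κ : ℝ) * |b|)) := by ring
      _ = δ * (2 : ℝ) ^ (-((κ : ℝ) * |b|)) := by rw [hqδ, one_mul]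
      _ ≤ δ * ((2 : ℝ) ^ (κ * (i.natAbs - 1)))⁻¹ := mul_le_mul_of_nonneg_left h2 hδ.le
  have hδ1 : δ * ((2 : ℝ) ^ (κ * (i.natAbs - 1)))⁻¹ ≤ 1 := by
    rw [hδdef, kkn_delta, ← mul_inv, ← pow_add]
    exact inv_le_one_of_one_le₀ (one_le_pow₀ (by norm_num))
  have hpow : (q * t * (δ - t)) ^ nf m ≤ δ * ((2 : ℝ) ^ (κ * (i.natAbs - 1)))⁻¹ :=
    (pow_le_of_le_one hx0 (hx1.trans hδ1) hnf).trans hx1
  have hexp : Cbul * kkH ℓ i + 4 * ℓ ≤ (4 * ℓ * A + κ * (i.natAbs - 1)) + (κ + Cbul) := by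
    unfold kkH
    have a1 : 4 * ℓ * (5003 * Cbul + 1) ≤ 4 * ℓ * A := Nat.mul_le_mul_left _ hA
    have a2 : Cbul * i.natAbs ≤ κ * i.natAbs := Nat.mul_le_mul_right _ hκ
    have a3 : κ * i.natAbs ≤ κ * (i.natAbs - 1) + κ := by
      calc κ * i.natAbs ≤ κ * ((i.natAbs - 1) + 1) := Nat.mul_le_mul_left _ (by omega)
        _ = κ * (i.natAbs - 1) + κ := by ring
    have e1 : Cbul * (2001 * (10 * ℓ) + 1 + i.natAbs) =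
        20010 * (ℓ * Cbul) + Cbul + Cbul * i.natAbs := by ring
    have e2 : 4 * ℓ * (5003 * Cbul + 1) = 20012 * (ℓ * Cbul) + 4 * ℓ := by ring
    rw [e1]
    rw [e2] at a1
    omega
  have hℓ2 : Cp * 2 ^ (κ + Cbul) / μ₀ ≤ (2 : ℝ) ^ (4 * ℓ) := by
    have h1 : ⌈Cp * 2 ^ (κ + Cbul) / μ₀⌉₊ ≤ 2 ^ (4 * ℓ) := by
      have h3 := (Nat.lt_two_pow_self (n := 4 * ℓ)).le
      omega
    calc Cp * 2 ^ (κ + Cbul) / μ₀ ≤ (⌈Cp * 2 ^ (κ + Cbul) / μ₀⌉₊ : ℝ) := Nat.le_ceil _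
      _ ≤ (2 : ℝ) ^ (4 * ℓ) := by exact_mod_cast h1
  calc (2 : ℝ) ^ (Cbul * kkH ℓ i) * (Cp * q ^ nf m * t ^ nf m * (δ - t) ^ nf m)
      = Cp * ((2 : ℝ) ^ (Cbul * kkH ℓ i) * (q * t * (δ - t)) ^ nf m) := by
        rw [mul_pow, mul_pow]
        ring
    _ ≤ Cp * ((2 : ℝ) ^ (Cbul * kkH ℓ i) * (δ * ((2 : ℝ) ^ (κ * (i.natAbs - 1)))⁻¹)) :=
        mul_le_mul_of_nonneg_left (mul_le_mul_of_nonneg_left hpow (by positivity)) hCp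
    _ = Cp * ((2 : ℝ) ^ (Cbul * kkH ℓ i) * ((2 : ℝ) ^ (4 * ℓ * A + κ * (i.natAbs - 1)))⁻¹) := by
        rw [hδdef, kkn_delta, ← mul_inv, ← pow_add]
    _ ≤ Cp * ((2 : ℝ) ^ (κ + Cbul) * ((2 : ℝ) ^ (4 * ℓ))⁻¹) :=
        mul_le_mul_of_nonneg_left (kkn_mul_inv_le hexp) hCp
    _ ≤ μ₀ := by
        rw [div_le_iff₀ hμ] at hℓ2
        rw [← mul_assoc, ← div_eq_mul_inv, div_le_iff₀ (by positivity)]
        linarith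

/-- the truncation order of the masks of the layer `i`. -/
noncomputable def kkKi (ℓ A κ : ℕ) (L : ℝ) (i : ℤ) : ℕ :=
  ⌈L / (1 / ((kkd ℓ ^ A : ℕ) : ℝ) * (2 : ℝ) ^ (-((κ : ℝ) * |(i : ℝ)|)))⌉₊

/-- `w_i (K_i + 1) ≥ L` and `(2 K_i + 1) w_i ≤ 2 L + 3`, `K_i ≤ L 2^((A + κ) H_i) + 1`. -/
theorem kkKi_spec (ℓ A κ : ℕ) (L : ℝ) (hL : 0 < L) (i : ℤ) :
    L ≤ (1 / ((kkd ℓ ^ A : ℕ) : ℝ) * (2 : ℝ) ^ (-((κ : ℝ) * |(i : ℝ)|))) * (kkKi ℓ A κ L i + 1) ∧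
    (2 * (kkKi ℓ A κ L i : ℝ) + 1) * (1 / ((kkd ℓ ^ A : ℕ) : ℝ) * (2 : ℝ) ^ (-((κ : ℝ) * |(i : ℝ)|)))
      ≤ 2 * L + 3 ∧
    (kkKi ℓ A κ L i : ℝ) ≤ L * (2 : ℝ) ^ ((A + κ) * kkH ℓ i) + 1 := by
  have hw : 1 / ((kkd ℓ ^ A : ℕ) : ℝ) * (2 : ℝ) ^ (-((κ : ℝ) * |(i : ℝ)|)) =
      ((2 : ℝ) ^ (4 * ℓ * A + κ * i.natAbs))⁻¹ := by
    have e : -((κ : ℝ) * |(i : ℝ)|) = -((κ * i.natAbs : ℕ) : ℝ) := by
      push_cast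
      rw [kkn_natAbs]
    rw [e, kkn_rpow_neg_nat, kkn_delta, ← mul_inv, ← pow_add]
  unfold kkKi
  rw [hw]
  set w : ℝ := ((2 : ℝ) ^ (4 * ℓ * A + κ * i.natAbs))⁻¹ with hwdef
  have hw0 : 0 < w := by positivity
  have hw1 : w ≤ 1 := inv_le_one_of_one_le₀ (one_le_pow₀ (by norm_num))
  have h1 : L / w ≤ (⌈L / w⌉₊ : ℝ) := Nat.le_ceil _
  have h2 : (⌈L / w⌉₊ : ℝ) < L / w + 1 := Nat.ceil_lt_add_one (by positivity)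
  have h1' : L ≤ (⌈L / w⌉₊ : ℝ) * w := (div_le_iff₀ hw0).1 h1
  have h2' : (⌈L / w⌉₊ : ℝ) * w < L + w := by
    have := mul_lt_mul_of_pos_right h2 hw0
    rwa [add_mul, one_mul, div_mul_cancel₀ _ hw0.ne'] at this
  refine ⟨by nlinarith, by nlinarith, ?_⟩
  have h3 : L / w ≤ L * (2 : ℝ) ^ ((A + κ) * kkH ℓ i) := by
    rw [hwdef, div_inv_eq_mul]
    refine mul_le_mul_of_nonneg_left (pow_le_pow_right₀ (by norm_num) ?_) hL.le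
    unfold kkH
    have a1 : 4 * ℓ * A ≤ A * (2001 * (10 * ℓ) + 1 + i.natAbs) := by
      calc 4 * ℓ * A = A * (4 * ℓ) := by ring
        _ ≤ A * (2001 * (10 * ℓ) + 1 + i.natAbs) := Nat.mul_le_mul_left _ (by omega)
    have a2 : κ * i.natAbs ≤ κ * (2001 * (10 * ℓ) + 1 + i.natAbs) :=
      Nat.mul_le_mul_left _ (by omega)
    rw [add_mul]
    omega
  linarith

/-- the mesh: `2^(κ / ns)` is close to `1`. -/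
theorem kk_num_mesh (κ : ℕ) (u : ℝ) (hu : 0 < u) : ∃ ns₀ : ℕ, 0 < ns₀ ∧ ∀ ns ≥ ns₀,
    (2 : ℝ) ^ ((κ : ℝ) * (1 / (ns : ℝ))) - 1 ≤ u := by
  have hv : 0 < min 1 u := lt_min one_pos hu
  refine ⟨⌈(κ : ℝ) / min 1 u⌉₊ + 1, Nat.succ_pos _, fun ns hns => ?_⟩
  have hns0 : (0 : ℝ) < ns := by
    have : 0 < ns := by omega
    exact_mod_cast this
  have h1 : (κ : ℝ) / min 1 u ≤ ns := by
    calc (κ : ℝ) / min 1 u ≤ (⌈(κ : ℝ) / min 1 u⌉₊ : ℝ) := Nat.le_ceil _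
      _ ≤ ns := by exact_mod_cast (by omega : ⌈(κ : ℝ) / min 1 u⌉₊ ≤ ns)
  have h2 : (κ : ℝ) * (1 / (ns : ℝ)) ≤ min 1 u := by
    rw [mul_one_div, div_le_iff₀ hns0]
    rw [div_le_iff₀ hv] at h1
    linarith
  have h3 : 0 ≤ (κ : ℝ) * (1 / (ns : ℝ)) := by positivity
  exact (two_rpow_sub_one_le h3 (h2.trans (min_le_left _ _))).trans (h2.trans (min_le_right _ _))

/-- clipping of the second magnitude: for `b < -Bu` one has `δ ≤ (1 + 2^(-κ Bu)) (δ - tch b)`… in the form used. -/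
theorem kk_num_clip (δ : ℝ) (hδ : 0 < δ) (κ Bu : ℕ) (hκ : 0 < κ) (b : ℝ) (hb : b < -(Bu : ℝ)) :
    δ ≤ (1 + 2 * (2 : ℝ) ^ (-((κ : ℝ) * Bu))) * (δ - tch δ κ b) := by
  have hκR : (0 : ℝ) < κ := by exact_mod_cast hκ
  have h1 : (2 : ℝ) ^ ((κ : ℝ) * b) ≤ (2 : ℝ) ^ (-((κ : ℝ) * Bu)) := by
    refine Real.rpow_le_rpow_of_exponent_le (by norm_num) ?_
    have := mul_le_mul_of_nonneg_left hb.le hκR.le
    linarith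
  have h2 : (0 : ℝ) < (2 : ℝ) ^ ((κ : ℝ) * b) := Real.rpow_pos_of_pos (by norm_num) _
  have e : δ - tch δ κ b = δ / (1 + (2 : ℝ) ^ ((κ : ℝ) * b)) := by
    unfold tch sg
    field_simp
    ring
  rw [e, mul_div_assoc', le_div_iff₀ (by positivity)]
  nlinarith

end Claimed.Agent.R300
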