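/-
Row 300, KK Section 9.e: the empirical lists (`kk_lists_pf` = statement `kk_lists` of KkLawsMain.lean), from `kk_empirical`.
helper145.
-/
import Claimed.Agent.R300.KkBox
import Claimed.Agent.R300.KkEmp
import Claimed.Agent.R300.KkNum

set_option autoImplicit false

namespace Claimed.Agent.R300

open Nil HeisLaw
open scoped ENNReal ComplexConjugate InnerProductSpace Matrix.Norms.L2Operator

theorem kkl_deck_mono {m : ℕ} {g : Deck m ℤ} {M M' : ℝ} (h : g.CBound M) (hM : M ≤ M') : g.CBound M' :=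
  ⟨h.1.mono hM, h.2.1.mono hM, h.2.2.trans hM⟩

/-- a point with coordinates `≤ Q^e` and its inverse have coordinates `≤ Q^(1 + e (k + 1))` as soon as `Cm ≤ Q`. -/
theorem kkl_both {m : ℕ} (Cm : ℝ) (k : ℕ)
    (hinv : ∀ (g : Deck m ℤ) (M : ℝ), 1 ≤ M → g.CBound M → g⁻¹.CBound (Cm * M ^ k))
    (Q : ℝ) (hQ : 1 ≤ Q) (hCm : Cm ≤ Q) (e n : ℕ) (hn : 1 + e * (k + 1) ≤ n) (g : Deck m ℤ)
    (hg : g.CBound (Q ^ e)) : g.CBound (Q ^ n) ∧ g⁻¹.CBound (Q ^ n) := by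
  have h1 : (1 : ℝ) ≤ Q ^ e := one_le_pow₀ hQ
  constructor
  · refine kkl_deck_mono hg (pow_le_pow_right₀ hQ ?_)
    nlinarith
  · refine kkl_deck_mono (hinv g _ h1 hg) ?_
    calc Cm * (Q ^ e) ^ k ≤ Q * (Q ^ e) ^ k := by gcongr
      _ = Q ^ (1 + e * k) := by rw [← pow_mul, pow_add, pow_one]
      _ ≤ Q ^ n := pow_le_pow_right₀ hQ (by nlinarith)

/-- **The empirical lists**: one ordinary list for every scale `y` in the ordinary range, and the list of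
representatives. -/
theorem kk_lists_pf {m : ℕ} (A κ : ℕ) (hA : 0 < A) (w : Win m) (Lam : ℝ) (hL : 0 < Lam) (εl : ℝ) (hε : 0 < εl) :
    ∃ ℓ₀ : ℕ, ∀ ℓ ≥ ℓ₀, ∀ [NeZero (kkd ℓ ^ A)],
      (∃ ωY : ∀ y : ℝ, Fin (kkMs ℓ) → (kkYLaw (kkd ℓ ^ A) w Lam y).Ω, ∀ y : ℝ, 0 < y → y ≤ 1 →
        ((((kkd ℓ ^ A : ℕ) : ℝ)) ^ (2 + 6000 * κ))⁻¹ ≤ y ^ m →
        ‖((kkYLaw (kkd ℓ ^ A) w Lam y).sub (kkMs_pos ℓ) (ωY y)).meanOp
          - (kkYLaw (kkd ℓ ^ A) w Lam y).meanOp‖ ≤ εl) ∧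
      ∃ ωC : Fin (kkMs ℓ) → (kkCqLaw (m := m) (kkd ℓ ^ A)).Ω,
        ‖((kkCqLaw (m := m) (kkd ℓ ^ A)).sub (kkMs_pos ℓ) ωC).meanOp
          - (kkCqLaw (m := m) (kkd ℓ ^ A)).meanOp‖ ≤ εl := by
  obtain ⟨BX, hBX0, hBX⟩ := kkXLaw_c_le w Lam hL
  obtain ⟨Cm, k, hinv⟩ := nil_cbound_inv m
  obtain ⟨e, he⟩ : ∃ e : ℕ, e = 3 + 6000 * κ := ⟨_, rfl⟩
  obtain ⟨n, hn⟩ : ∃ n : ℕ, n = nf m + 1 + e * (k + 1) := ⟨_, rfl⟩
  obtain ⟨ℓ₁, hℓ₁⟩ := kk_empirical m n A (max BX 1) εl hε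
  obtain ⟨n₂, hn₂⟩ := pow_unbounded_of_one_lt (max Cm (2 * Lam + R0 m + 2)) one_lt_two
  refine ⟨max ℓ₁ n₂, fun ℓ hℓ _ => ?_⟩
  have hℓ1 : ℓ₁ ≤ ℓ := (le_max_left _ _).trans hℓ
  have hℓ2 : n₂ ≤ ℓ := (le_max_right _ _).trans hℓ
  obtain ⟨Q, hQdef⟩ : ∃ Q : ℝ, Q = ((kkd ℓ ^ A : ℕ) : ℝ) := ⟨_, rfl⟩
  have hQ2 : (2 : ℝ) ^ ℓ ≤ Q := by
    rw [hQdef, kk_q_eq]
    push_cast
    exact pow_le_pow_right₀ one_le_two (by nlinarith)
  have hQbig : max Cm (2 * Lam + R0 m + 2) ≤ Q :=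
    (hn₂.le.trans (pow_le_pow_right₀ one_le_two hℓ2)).trans hQ2
  have hCm : Cm ≤ Q := (le_max_left _ _).trans hQbig
  have hLQ : 2 * Lam + R0 m + 2 ≤ Q := (le_max_right _ _).trans hQbig
  have hR0 := R0_nonneg m
  have hQ1 : 1 ≤ Q := by linarith
  have hQ0 : 0 < Q := by linarith
  have hcard : (Fintype.card (Idx m → ZMod (kkd ℓ ^ A)) : ℝ) ≤ ((kkd ℓ ^ A : ℕ) : ℝ) ^ n := by
    rw [Fintype.card_fun, ZMod.card, Nat.cast_pow, ← hQdef]
    exact pow_le_pow_right₀ hQ1 (by rw [hn]; unfold nf; omega)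
  have hne : 1 + e * (k + 1) ≤ n := by rw [hn]; omega
  have key := hℓ₁ ℓ hℓ1 (Idx m → ZMod (kkd ℓ ^ A)) hcard
  constructor
  · have hex : ∀ y : ℝ, ∃ ω : Fin (kkMs ℓ) → (kkYLaw (kkd ℓ ^ A) w Lam y).Ω, 0 < y → y ≤ 1 →
        ((((kkd ℓ ^ A : ℕ) : ℝ)) ^ (2 + 6000 * κ))⁻¹ ≤ y ^ m →
        ‖((kkYLaw (kkd ℓ ^ A) w Lam y).sub (kkMs_pos ℓ) ω).meanOp
          - (kkYLaw (kkd ℓ ^ A) w Lam y).meanOp‖ ≤ εl := by
      intro y
      by_cases hy : 0 < y ∧ y ≤ 1 ∧ ((((kkd ℓ ^ A : ℕ) : ℝ)) ^ (2 + 6000 * κ))⁻¹ ≤ y ^ m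
      · obtain ⟨hy0, hy1, hym⟩ := hy
        obtain ⟨ω, hω⟩ := key (kkYLaw (kkd ℓ ^ A) w Lam y)
          (fun x => (((hBX (kkd ℓ ^ A) y hy0 hy1).2 x).trans (le_max_left _ _)))
          (fun x => kk_Rq_norm_le _ _)
          (fun x => by
            rw [← hQdef]
            refine kkl_both Cm k hinv Q hQ1 hCm e n hne _ ?_
            have hb := kkBoxPt_cbound (m := m) Lam 1 y 1 (by norm_num) hL le_rfl hy0 hy1 x
            have hbd : (2 * Lam + R0 m + 1) / y ^ m + 1 ≤ Q ^ e := by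
              rw [← hQdef] at hym
              have hym0 : 0 < y ^ m := by positivity
              have hP : 0 < Q ^ (2 + 6000 * κ) := by positivity
              have h1 : (2 * Lam + R0 m + 1) / y ^ m ≤ (2 * Lam + R0 m + 1) * Q ^ (2 + 6000 * κ) := by
                rw [div_le_iff₀ hym0]
                have h2 : 1 ≤ Q ^ (2 + 6000 * κ) * y ^ m := by
                  have := mul_le_mul_of_nonneg_left hym hP.le
                  rwa [mul_inv_cancel₀ hP.ne'] at this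
                have h3 : 0 ≤ 2 * Lam + R0 m + 1 := by linarith
                nlinarith
              have h4 : (1 : ℝ) ≤ Q ^ (2 + 6000 * κ) := one_le_pow₀ hQ1
              have h5 : Q ^ e = Q * Q ^ (2 + 6000 * κ) := by
                rw [he, ← pow_succ']
                congr 1
                omega
              rw [h5]
              nlinarith
            have hb' : (kkBoxPt ((1 : ℕ) : ℤ) _ _ x).CBound (Q ^ e) := hb.mono hbd
            have := deck_sigY_cbound _ (Q ^ e) (by positivity) hb'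
            simpa [kkYLaw, KkPre.unif] using this)
        exact ⟨ω, fun _ _ _ => hω⟩
      · have hne' : Nonempty (KkBoxI m (kkRadL Lam 1 y) (kkRadB 1 y)) := inferInstance
        exact ⟨fun _ => hne'.some, fun h1 h2 h3 => absurd ⟨h1, h2, h3⟩ hy⟩
    choose ωY hωY using hex
    exact ⟨ωY, hωY⟩
  · exact key (kkCqLaw (m := m) (kkd ℓ ^ A))
      (fun x => by
        have : ‖(kkCqLaw (m := m) (kkd ℓ ^ A)).c x‖ = 1 := by simp [kkCqLaw, KkPre.unif]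
        rw [this]; exact le_max_right _ _)
      (fun x => kk_Rq_norm_le _ _)
      (fun x => by
        rw [← hQdef]
        refine kkl_both Cm k hinv Q hQ1 hCm e n hne _ ?_
        have hb := kkRep_cbound (m := m) (kkd ℓ ^ A) x
        rw [← hQdef] at hb
        have hb' : (kkRep (kkd ℓ ^ A) x).CBound (Q ^ e) := hb.mono (by
          calc Q = Q ^ 1 := (pow_one Q).symm
            _ ≤ Q ^ e := pow_le_pow_right₀ hQ1 (by omega))
        exact deck_sigY_cbound _ (Q ^ e) (by positivity) hb')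

end Claimed.Agent.R300
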