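import Claimed.Agent.R300.NilTplMain
import Claimed.Agent.R300.NilRq

/-!
# KK Section 9.d: the congruence factorisation, coefficient level

Every `h` is uniquely `facY h * facV h`, `facY h ∈ Λ_q`, `facV h` a representative.  For `k = tpl w Lam s` (or its conjugate),
`ρ = q s ≤ 1`, `|τ| ≤ 3 s^m`:
  `(1_Λ k) *_τ 1_Rep (h) = k (facY h) e(τ c(facY h, facV h))`,
  `∑_h |k (facY h) e(τ c) - k h| ≤ C ρ`,   `‖1_Λ k‖₁ ‖1_Rep‖₁ = ∑_h |k (facY h)| ≤ C`,
  `s^m |c(y, v)| ≤ nf R0 ρ` on the supports.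
-/

set_option autoImplicit false
set_option linter.unusedSectionVars false

namespace Claimed.Agent.R300.Nil

open MeasureTheory

variable {m : ℕ} (q : ℕ) [NeZero q]

/-- the `Λ_q` factor -/
noncomputable def facY (h : EBar m ℤ) : EBar m ℤ := (exists_unique_factor q h).choose.1

/-- the representative factor -/
noncomputable def facV (h : EBar m ℤ) : EBar m ℤ := (exists_unique_factor q h).choose.2

lemma facY_mem (h : EBar m ℤ) : facY q h ∈ Lamq (m := m) q :=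
  (exists_unique_factor q h).choose_spec.1.1

lemma facV_isRep (h : EBar m ℤ) : IsRep q (facV q h) :=
  (exists_unique_factor q h).choose_spec.1.2.1

lemma fac_mul (h : EBar m ℤ) : h = facY q h * facV q h :=
  (exists_unique_factor q h).choose_spec.1.2.2

lemma fac_unique {y v h : EBar m ℤ} (hy : y ∈ Lamq (m := m) q) (hv : IsRep q v) (hh : h = y * v) :
    y = facY q h ∧ v = facV q h := by
  have := (exists_unique_factor q h).choose_spec.2 (y, v) ⟨hy, hv, hh⟩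
  exact ⟨congrArg Prod.fst this, congrArg Prod.snd this⟩

/-- restriction to the congruence subgroup -/
noncomputable def onLam (k : EBar m ℤ → ℂ) (g : EBar m ℤ) : ℂ :=
  open Classical in if g ∈ Lamq (m := m) q then k g else 0

/-- indicator of the representatives -/
noncomputable def oneRep (g : EBar m ℤ) : ℂ := open Classical in if IsRep q g then 1 else 0

variable {q}

lemma onLam_of_mem {k : EBar m ℤ → ℂ} {g : EBar m ℤ} (h : g ∈ Lamq (m := m) q) :
    onLam q k g = k g := by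
  unfold onLam; rw [if_pos h]

lemma onLam_of_not_mem {k : EBar m ℤ → ℂ} {g : EBar m ℤ} (h : g ∉ Lamq (m := m) q) :
    onLam q k g = 0 := by
  unfold onLam; rw [if_neg h]

lemma oneRep_of {g : EBar m ℤ} (h : IsRep q g) : oneRep q g = 1 := by
  unfold oneRep; rw [if_pos h]

lemma oneRep_of_not {g : EBar m ℤ} (h : ¬ IsRep q g) : oneRep q g = 0 := by
  unfold oneRep; rw [if_neg h]

lemma onLam_ne_zero {k : EBar m ℤ → ℂ} {g : EBar m ℤ} (h : onLam q k g ≠ 0) :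
    g ∈ Lamq (m := m) q ∧ k g ≠ 0 := by
  by_cases hg : g ∈ Lamq (m := m) q
  · exact ⟨hg, by rwa [onLam_of_mem hg] at h⟩
  · exact absurd (onLam_of_not_mem hg) h

lemma oneRep_ne_zero {g : EBar m ℤ} (h : oneRep q g ≠ 0) : IsRep q g := by
  by_contra hg
  exact h (oneRep_of_not hg)

lemma norm_onLam_le (k : EBar m ℤ → ℂ) (g : EBar m ℤ) : ‖onLam q k g‖ ≤ ‖k g‖ := by
  by_cases hg : g ∈ Lamq (m := m) q
  · rw [onLam_of_mem hg]
  · rw [onLam_of_not_mem hg, norm_zero]; exact norm_nonneg _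

lemma oneRep_support_finite : (Function.support (oneRep (m := m) q)).Finite :=
  (isRep_finite q).subset fun _ hg => oneRep_ne_zero hg

lemma onLam_support_finite {k : EBar m ℤ → ℂ} (hk : (Function.support k).Finite) :
    (Function.support (onLam q k)).Finite :=
  hk.subset fun _ hg => (onLam_ne_zero hg).2

/-- only one term survives -/
lemma fac_term_eq_zero {k : EBar m ℤ → ℂ} (h g : EBar m ℤ) (hg : g ≠ facY q h) :
    onLam q k g = 0 ∨ oneRep q (g⁻¹ * h) = 0 := by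
  by_contra hc
  rw [not_or] at hc
  have h1 := (onLam_ne_zero hc.1).1
  have h2 := oneRep_ne_zero hc.2
  exact hg (fac_unique q h1 h2 (by group)).1

lemma facY_inv_mul (h : EBar m ℤ) : (facY q h)⁻¹ * h = facV q h := by
  have := fac_mul q h
  rw [inv_mul_eq_iff_eq_mul]
  exact this

theorem tconv_fac (ω : EBar m ℤ → EBar m ℤ → ℂ) (k : EBar m ℤ → ℂ) (h : EBar m ℤ) :
    tconv ω (onLam q k) (oneRep q) h = k (facY q h) * ω (facY q h) (facV q h) := by
  unfold tconv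
  rw [tsum_eq_single (facY q h)]
  · rw [facY_inv_mul, onLam_of_mem (facY_mem q h), oneRep_of (facV_isRep q h), mul_one]
  · intro g hg
    rcases fac_term_eq_zero (k := k) h g hg with h0 | h0 <;> rw [h0] <;> ring

theorem tsum_pair_fac {k : EBar m ℤ → ℂ} (hk : (Function.support k).Finite) :
    (∑' g, ‖onLam q k g‖) * ∑' g, ‖oneRep (m := m) q g‖ = ∑' h, ‖k (facY q h)‖ := by
  have ha : Summable fun g => ‖onLam q k g‖ :=
    summable_of_hasFiniteSupport ((onLam_support_finite hk).subset fun g hg => by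
      simpa using hg)
  have hb : Summable fun g => ‖oneRep (m := m) q g‖ :=
    summable_of_hasFiniteSupport (oneRep_support_finite.subset fun g hg => by
      simpa using hg)
  rw [← tconv_aux_tsum ha hb, (tconv_aux_summable ha hb).tsum_prod]
  refine tsum_congr fun h => ?_
  rw [tsum_eq_single (facY q h)]
  · simp only
    rw [facY_inv_mul, onLam_of_mem (facY_mem q h), oneRep_of (facV_isRep q h), norm_one, mul_one]
  · intro g hg
    simp only
    rcases fac_term_eq_zero (k := k) h g hg with h0 | h0 <;> rw [h0] <;> simp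

/-! ## estimates -/

lemma tsum_le_of_finite_supp {Γ : Type*} {F : Γ → ℝ} {S : Set Γ} {B : ℝ} (hS : S.Finite)
    (h0 : ∀ h, h ∉ S → F h = 0) (hb : ∀ h, F h ≤ B) : ∑' h, F h ≤ S.ncard * B := by
  rw [tsum_eq_sum (s := hS.toFinset) fun h hh => h0 h (by simpa using hh)]
  calc ∑ h ∈ hS.toFinset, F h ≤ ∑ _h ∈ hS.toFinset, B := Finset.sum_le_sum fun h _ => hb h
    _ = S.ncard * B := by
        rw [Finset.sum_const, nsmul_eq_mul, Set.ncard_eq_toFinset_card S hS]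

lemma norm_sc_rep_le {s : ℝ} (hs0 : 0 < s) (hs1 : s ≤ 1) {v : EBar m ℤ} (hv : IsRep q v) :
    ‖(sc s v).lam‖ ≤ q * s ∧ ‖(sc s v).bet‖ ≤ q * s := by
  have hq : (0 : ℝ) ≤ q := Nat.cast_nonneg q
  have key : ∀ (n : ℕ) (z : ℤ), 0 < n → 0 ≤ z → z < q → ‖s ^ n * (z : ℝ)‖ ≤ q * s := by
    intro n z hn hz0 hz1
    have h1 : s ^ n ≤ s := by
      calc s ^ n ≤ s ^ 1 := pow_le_pow_of_le_one hs0.le hs1 hn
        _ = s := pow_one s
    have h2 : (z : ℝ) ≤ q := by exact_mod_cast hz1.le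
    have h3 : (0 : ℝ) ≤ z := by exact_mod_cast hz0
    rw [Real.norm_of_nonneg (by positivity), mul_comm]
    exact mul_le_mul h2 h1 (by positivity) hq
  constructor
  · rw [pi_norm_le_iff_of_nonneg (by positivity)]
    intro p
    rw [sc_lam]
    exact key _ _ (wtL_pos p) (hv.1 p).1 (hv.1 p).2
  · rw [pi_norm_le_iff_of_nonneg (by positivity)]
    intro p
    rw [sc_bet]
    exact key _ _ (wtB_pos p) (hv.2 p).1 (hv.2 p).2

lemma Jf_ne_zero_of_tpl {w : Win m} {Lam s : ℝ} {g : EBar m ℤ} (h : tpl w Lam s g ≠ 0) :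
    Jf w Lam (sc s g) ≠ 0 := by
  unfold tpl at h
  exact right_ne_zero_of_mul h

lemma norm_tpl_eq (w : Win m) (Lam : ℝ) {s : ℝ} (hs : 0 ≤ s) (g : EBar m ℤ) :
    ‖tpl w Lam s g‖ = nu m s * ‖Jf w Lam (sc s g)‖ := by
  unfold tpl
  rw [norm_mul, Complex.norm_real, Real.norm_of_nonneg (show 0 ≤ nu m s from pow_nonneg hs _)]

lemma norm_tpl_sub_eq (w : Win m) (Lam : ℝ) {s : ℝ} (hs : 0 ≤ s) (g g' : EBar m ℤ) :
    ‖tpl w Lam s g - tpl w Lam s g'‖ = nu m s * ‖Jf w Lam (sc s g) - Jf w Lam (sc s g')‖ := by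
  unfold tpl
  rw [← mul_sub, norm_mul, Complex.norm_real,
    Real.norm_of_nonneg (show 0 ≤ nu m s from pow_nonneg hs _)]

/-- geometry of the supports -/
theorem cong_geom (w : Win m) (Lam : ℝ) (hL : 1 ≤ Lam) : ∃ R3 R4 : ℝ, R0 m ≤ R3 ∧ 0 ≤ R4 ∧
    ∀ (q : ℕ) [NeZero q] (s : ℝ) (y v : EBar m ℤ), 0 < s → (q : ℝ) * s ≤ 1 → IsRep q v →
      (tpl w Lam s y ≠ 0 ∨ tpl w Lam s (y * v) ≠ 0) →
      ‖(sc s y).bet‖ ≤ R3 ∧ ‖(sc s (y * v)).lam‖ ≤ R4 ∧ ‖(sc s (y * v)).bet‖ ≤ R4 := by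
  obtain ⟨R', hR'0, hR'⟩ := nil_ninv_bound m 1
  have hR0 := R0_nonneg m
  have hL0 : 0 < Lam := lt_of_lt_of_le one_pos hL
  have hm : (0 : ℝ) ≤ m := Nat.cast_nonneg m
  refine ⟨R0 m + R' + m * R0 m * R', 2 * Lam + 1 + R0 m + m * R0 m, ?_, by positivity, ?_⟩
  · have : 0 ≤ m * R0 m * R' := by positivity
    linarith
  intro q _ s y v hs hqs hv hne
  have hq1 : (1 : ℝ) ≤ q := by exact_mod_cast Nat.pos_of_ne_zero (NeZero.ne q)
  have hs1 : s ≤ 1 := by nlinarith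
  obtain ⟨hvl, hvb⟩ := norm_sc_rep_le hs hs1 hv
  have hvl1 := hvl.trans hqs
  have hvb1 := hvb.trans hqs
  have elam : (sc s (y * v)).lam = (sc s y).lam + lact (sc s v).lam (sc s y).bet := by
    rw [map_mul]; rfl
  have ebet : (sc s (y * v)).bet = circ (sc s y).bet (sc s v).bet := by
    rw [map_mul]; rfl
  rcases hne with h | h
  · obtain ⟨h1, h2⟩ := Jf_supp w hL0 _ (Jf_ne_zero_of_tpl h)
    refine ⟨?_, ?_, ?_⟩
    · have : 0 ≤ m * R0 m * R' := by positivity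
      linarith
    · rw [elam]
      have a1 := norm_lact_le (sc s v).lam (sc s y).bet
      have a2 : ‖(sc s v).lam‖ * (1 + m * ‖(sc s y).bet‖) ≤ 1 * (1 + m * R0 m) :=
        mul_le_mul hvl1 (by nlinarith) (by positivity) zero_le_one
      have := norm_add_le (sc s y).lam (lact (sc s v).lam (sc s y).bet)
      linarith
    · rw [ebet]
      have a1 := norm_circ_le (sc s y).bet (sc s v).bet
      have a2 : m * ‖(sc s y).bet‖ * ‖(sc s v).bet‖ ≤ m * R0 m * 1 :=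
        mul_le_mul (by nlinarith) hvb1 (norm_nonneg _) (by positivity)
      linarith
  · obtain ⟨h1, h2⟩ := Jf_supp w hL0 _ (Jf_ne_zero_of_tpl h)
    refine ⟨?_, by linarith [mul_nonneg hm hR0], by linarith [mul_nonneg hm hR0]⟩
    have e : (sc s y).bet = circ (sc s (y * v)).bet (ninv (sc s v).bet) := by
      rw [ebet, circ_assoc, circ_ninv, circ_zero]
    rw [e]
    have a1 := norm_circ_le (sc s (y * v)).bet (ninv (sc s v).bet)
    have a3 := hR' _ hvb1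
    have a2 : m * ‖(sc s (y * v)).bet‖ * ‖ninv (sc s v).bet‖ ≤ m * R0 m * R' :=
      mul_le_mul (by nlinarith) a3 (norm_nonneg _) (by positivity)
    linarith

/-- the cocycle on the supports -/
theorem cong_coc (w : Win m) {Lam : ℝ} (hL : 0 < Lam) {s : ℝ} (hs : 0 < s) (hqs : (q : ℝ) * s ≤ 1)
    {y v : EBar m ℤ} (hy : tpl w Lam s y ≠ 0) (hv : IsRep q v) :
    s ^ m * |((EBar.coc y v : ℤ) : ℝ)| ≤ nf m * R0 m * (q * s) := by
  have hq1 : (1 : ℝ) ≤ q := by exact_mod_cast Nat.pos_of_ne_zero (NeZero.ne q)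
  have hs1 : s ≤ 1 := by nlinarith
  obtain ⟨hvl, -⟩ := norm_sc_rep_le hs hs1 hv
  obtain ⟨-, h2⟩ := Jf_supp w hL _ (Jf_ne_zero_of_tpl hy)
  have e : s ^ m * |((EBar.coc y v : ℤ) : ℝ)| = |EBar.coc (sc s y) (sc s v)| := by
    rw [coc_sc, abs_mul, abs_of_nonneg (pow_nonneg hs.le _)]
  rw [e]
  refine (abs_pr_le _ _).trans ?_
  have hnf : (0 : ℝ) ≤ nf m := Nat.cast_nonneg _
  calc (Fintype.card (Idx m) : ℝ) * ‖(sc s v).lam‖ * ‖(sc s y).bet‖
      ≤ (nf m : ℝ) * (q * s) * R0 m :=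
        mul_le_mul (mul_le_mul_of_nonneg_left hvl hnf) h2 (norm_nonneg _) (by positivity)
    _ = _ := by ring

/-- the phase term -/
theorem cong_phase (w : Win m) {Lam CJ : ℝ} (hL : 0 < Lam) (hCJ0 : 0 ≤ CJ)
    (hCJ : ∀ (Lam : ℝ) (a : EBar m ℝ), ‖Jf w Lam a‖ ≤ CJ) {s τ : ℝ} (hs : 0 < s)
    (hqs : (q : ℝ) * s ≤ 1) (hτ : |τ| ≤ 3 * s ^ m) {y v : EBar m ℤ} (hv : IsRep q v) :
    ‖tpl w Lam s y‖ * ‖om τ y v - 1‖
      ≤ nu m s * (CJ * (2 * Real.pi * (3 * (nf m * R0 m))) * (q * s)) := by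
  have hR0 := R0_nonneg m
  have hnf : (0 : ℝ) ≤ nf m := Nat.cast_nonneg _
  have hpi := Real.pi_pos
  have hnu : 0 ≤ nu m s := pow_nonneg hs.le _
  have hρ0 : 0 ≤ (q : ℝ) * s := by positivity
  by_cases hy0 : tpl w Lam s y = 0
  · rw [hy0, norm_zero, zero_mul]; positivity
  · have c1 := cong_coc w hL hs hqs hy0 hv
    have c2 : ‖om τ y v - 1‖ ≤ 2 * Real.pi * (3 * (nf m * R0 m * (q * s))) := by
      unfold om
      refine (norm_ee_sub_one_le _).trans ?_
      refine mul_le_mul_of_nonneg_left ?_ (by positivity)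
      rw [abs_mul]
      calc |τ| * |((EBar.coc y v : ℤ) : ℝ)| ≤ 3 * s ^ m * |((EBar.coc y v : ℤ) : ℝ)| :=
            mul_le_mul_of_nonneg_right hτ (abs_nonneg _)
        _ = 3 * (s ^ m * |((EBar.coc y v : ℤ) : ℝ)|) := by ring
        _ ≤ _ := by linarith
    rw [norm_tpl_eq w Lam hs.le]
    calc nu m s * ‖Jf w Lam (sc s y)‖ * ‖om τ y v - 1‖
        ≤ nu m s * CJ * (2 * Real.pi * (3 * (nf m * R0 m * (q * s)))) :=
          mul_le_mul (mul_le_mul_of_nonneg_left (hCJ _ _) hnu) c2 (norm_nonneg _)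
            (by positivity)
      _ = _ := by ring

/-- the difference term -/
theorem cong_diff (w : Win m) {Lam K R3 : ℝ} (hL : 1 ≤ Lam) (hK0 : 0 ≤ K) (hR3 : 0 ≤ R3)
    (hK : ∀ (Lam : ℝ) (a a' : EBar m ℝ), 1 ≤ Lam →
      ‖Jf w Lam a - Jf w Lam a'‖ ≤ K * (‖a.lam - a'.lam‖ + ‖a.bet - a'.bet‖))
    {s : ℝ} (hs : 0 < s) (hqs : (q : ℝ) * s ≤ 1) {y v : EBar m ℤ} (hv : IsRep q v)
    (hgeo : (tpl w Lam s y ≠ 0 ∨ tpl w Lam s (y * v) ≠ 0) → ‖(sc s y).bet‖ ≤ R3) :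
    ‖tpl w Lam s y - tpl w Lam s (y * v)‖ ≤ nu m s * (K * (2 * (1 + m * R3)) * (q * s)) := by
  have hm : (0 : ℝ) ≤ m := Nat.cast_nonneg m
  have hnu : 0 ≤ nu m s := pow_nonneg hs.le _
  have hρ0 : 0 ≤ (q : ℝ) * s := by positivity
  have hq1 : (1 : ℝ) ≤ q := by exact_mod_cast Nat.pos_of_ne_zero (NeZero.ne q)
  have hs1 : s ≤ 1 := by nlinarith
  by_cases hne : tpl w Lam s y ≠ 0 ∨ tpl w Lam s (y * v) ≠ 0
  · have g1 := hgeo hne
    obtain ⟨hvl, hvb⟩ := norm_sc_rep_le hs hs1 hv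
    rw [norm_tpl_sub_eq w Lam hs.le]
    refine mul_le_mul_of_nonneg_left ((hK Lam _ _ hL).trans ?_) hnu
    have elam : (sc s (y * v)).lam = (sc s y).lam + lact (sc s v).lam (sc s y).bet := by
      rw [map_mul]; rfl
    have ebet : (sc s (y * v)).bet = circ (sc s y).bet (sc s v).bet := by
      rw [map_mul]; rfl
    have hfac : 1 + m * ‖(sc s y).bet‖ ≤ 1 + m * R3 := by
      have := mul_le_mul_of_nonneg_left g1 hm
      linarith
    have d1 : ‖(sc s y).lam - (sc s (y * v)).lam‖ ≤ (1 + m * R3) * (q * s) := by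
      rw [elam, sub_add_cancel_left, norm_neg]
      refine (norm_lact_le _ _).trans ?_
      rw [mul_comm]
      exact mul_le_mul hfac hvl (norm_nonneg _) (by positivity)
    have d2 : ‖(sc s y).bet - (sc s (y * v)).bet‖ ≤ (1 + m * R3) * (q * s) := by
      have := norm_circ_sub_circ_le (sc s y).bet 0 (sc s v).bet
      rw [circ_zero, zero_sub, norm_neg] at this
      rw [ebet]
      refine this.trans ?_
      exact mul_le_mul hfac hvb (norm_nonneg _) (by positivity)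
    calc K * (‖(sc s y).lam - (sc s (y * v)).lam‖ + ‖(sc s y).bet - (sc s (y * v)).bet‖)
        ≤ K * ((1 + m * R3) * (q * s) + (1 + m * R3) * (q * s)) :=
          mul_le_mul_of_nonneg_left (add_le_add d1 d2) hK0
      _ = _ := by ring
  · rw [not_or, not_not, not_not] at hne
    rw [hne.1, hne.2, sub_zero, norm_zero]
    positivity

/-- **Congruence factorisation, coefficient level.** -/
theorem cong_main (w : Win m) (Lam : ℝ) (hL : 1 ≤ Lam) : ∃ C : ℝ, 0 ≤ C ∧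
    ∀ (q : ℕ) [NeZero q] (s τ : ℝ) (k : EBar m ℤ → ℂ), 0 < s → (q : ℝ) * s ≤ 1 →
      |τ| ≤ 3 * s ^ m → (∀ g, ‖k g‖ = ‖tpl w Lam s g‖) →
      (∀ g g', ‖k g - k g'‖ = ‖tpl w Lam s g - tpl w Lam s g'‖) →
      (Function.support (tconv (om τ) (onLam q k) (oneRep q))).Finite ∧
      ∑' h, ‖tconv (om τ) (onLam q k) (oneRep q) h - k h‖ ≤ C * (q * s) ∧
      (∑' g, ‖onLam q k g‖) * (∑' g, ‖oneRep (m := m) q g‖) ≤ C ∧
      ∀ g h, onLam q k g ≠ 0 → oneRep q h ≠ 0 →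
        s ^ m * |((EBar.coc g h : ℤ) : ℝ)| ≤ C * (q * s) := by
  obtain ⟨R3, R4, hR3, hR4, hgeo⟩ := cong_geom w Lam hL
  obtain ⟨CJ, hCJ0, hCJ⟩ := Jf_bound w
  obtain ⟨K, hK0, hK⟩ := Jf_lipschitz w
  have hR0 := R0_nonneg m
  have hL0 : 0 < Lam := lt_of_lt_of_le one_pos hL
  have hm : (0 : ℝ) ≤ m := Nat.cast_nonneg m
  have hnf : (0 : ℝ) ≤ nf m := Nat.cast_nonneg _
  have hR30 : 0 ≤ R3 := hR0.trans hR3
  have hpi := Real.pi_pos
  obtain ⟨Ca, hCa⟩ : ∃ Ca : ℝ, Ca = CJ * (2 * Real.pi * (3 * (nf m * R0 m))) := ⟨_, rfl⟩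
  obtain ⟨Cb, hCb⟩ : ∃ Cb : ℝ, Cb = K * (2 * (1 + m * R3)) := ⟨_, rfl⟩
  have hCa0 : 0 ≤ Ca := by rw [hCa]; positivity
  have hCb0 : 0 ≤ Cb := by rw [hCb]; positivity
  obtain ⟨N4, hN4⟩ : ∃ N4 : ℝ, N4 = (2 * R4 + 1) ^ (2 * nf m) := ⟨_, rfl⟩
  have hN40 : 0 ≤ N4 := by rw [hN4]; positivity
  obtain ⟨Cc, hCc⟩ : ∃ Cc : ℝ, Cc = nf m * R0 m := ⟨_, rfl⟩
  have hCc0 : 0 ≤ Cc := by rw [hCc]; positivity
  refine ⟨N4 * (Ca + Cb) + N4 * CJ + Cc, by positivity, ?_⟩
  intro q _ s τ k hs hqs hτ hk1 hk2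
  have hq1 : (1 : ℝ) ≤ q := by exact_mod_cast Nat.pos_of_ne_zero (NeZero.ne q)
  have hs1 : s ≤ 1 := by nlinarith
  have hρ0 : 0 ≤ (q : ℝ) * s := by positivity
  have hnu : 0 ≤ nu m s := pow_nonneg hs.le _
  obtain ⟨hS4, hcount⟩ := sc_count (m := m) R4 hR4 s hs hs1
  obtain ⟨S4, hS4def⟩ : ∃ S4 : Set (EBar m ℤ),
      S4 = {γ | ‖(sc s γ).lam‖ ≤ R4 ∧ ‖(sc s γ).bet‖ ≤ R4} := ⟨_, rfl⟩
  rw [← hN4, ← hS4def] at hcount
  rw [← hS4def] at hS4
  have hk0 : ∀ g, tpl w Lam s g = 0 → k g = 0 := fun g hg => by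
    rw [← norm_eq_zero, hk1, hg, norm_zero]
  -- outside `S4` everything vanishes
  have hout : ∀ h, h ∉ S4 → tpl w Lam s (facY q h) = 0 ∧ tpl w Lam s h = 0 := by
    intro h hh
    by_contra hc
    have hne : tpl w Lam s (facY q h) ≠ 0 ∨ tpl w Lam s (facY q h * facV q h) ≠ 0 := by
      rw [← fac_mul q h]
      by_contra hc2
      rw [not_or, not_not, not_not] at hc2
      exact hc hc2
    have := hgeo q s _ _ hs hqs (facV_isRep q h) hne
    rw [← fac_mul q h] at this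
    apply hh
    rw [hS4def]
    exact ⟨this.2.1, this.2.2⟩
  -- pointwise bound
  have hpt : ∀ h, ‖tconv (om τ) (onLam q k) (oneRep q) h - k h‖
      ≤ nu m s * ((Ca + Cb) * (q * s)) := by
    intro h
    rw [tconv_fac]
    have hvrep : IsRep q (facV q h) := facV_isRep q h
    have e : k (facY q h) * om τ (facY q h) (facV q h) - k h
        = k (facY q h) * (om τ (facY q h) (facV q h) - 1) + (k (facY q h) - k h) := by ring
    rw [e]
    refine (norm_add_le _ _).trans ?_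
    have t1 := cong_phase w hL0 hCJ0 hCJ hs hqs hτ (y := facY q h) hvrep
    have t2 := cong_diff w hL hK0 hR30 hK hs hqs (y := facY q h) hvrep
      (fun hne => (hgeo q s _ _ hs hqs hvrep hne).1)
    rw [← fac_mul q h] at t2
    rw [norm_mul, hk1, hk2]
    rw [← hCa] at t1
    rw [← hCb] at t2
    calc _ ≤ nu m s * (Ca * (q * s)) + nu m s * (Cb * (q * s)) := add_le_add t1 t2
      _ = nu m s * ((Ca + Cb) * (q * s)) := by ring
  refine ⟨?_, ?_, ?_, ?_⟩
  · refine hS4.subset fun h hh => ?_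
    by_contra hc
    apply hh
    rw [tconv_fac, hk0 _ (hout h hc).1, zero_mul]
  · have h0 : ∀ h, h ∉ S4 → ‖tconv (om τ) (onLam q k) (oneRep q) h - k h‖ = 0 := by
      intro h hh
      rw [tconv_fac, hk0 _ (hout h hh).1, hk0 _ (hout h hh).2, zero_mul, sub_zero, norm_zero]
    refine (tsum_le_of_finite_supp hS4 h0 hpt).trans ?_
    calc (S4.ncard : ℝ) * (nu m s * ((Ca + Cb) * (q * s)))
        = (nu m s * S4.ncard) * ((Ca + Cb) * (q * s)) := by ring
      _ ≤ N4 * ((Ca + Cb) * (q * s)) := mul_le_mul_of_nonneg_right hcount (by positivity)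
      _ ≤ (N4 * (Ca + Cb) + N4 * CJ + Cc) * (q * s) := by
          have : 0 ≤ (N4 * CJ + Cc) * (q * s) := by positivity
          linarith
  · have hkfin : (Function.support k).Finite := by
      refine (tpl_finite_support w hL0 hs).subset fun g hg => ?_
      intro hc
      exact hg (hk0 g hc)
    rw [tsum_pair_fac hkfin]
    have h0 : ∀ h, h ∉ S4 → ‖k (facY q h)‖ = 0 := by
      intro h hh
      rw [hk0 _ (hout h hh).1, norm_zero]
    have hb : ∀ h, ‖k (facY q h)‖ ≤ nu m s * CJ := by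
      intro h
      rw [hk1, norm_tpl_eq w Lam hs.le]
      exact mul_le_mul_of_nonneg_left (hCJ _ _) hnu
    refine (tsum_le_of_finite_supp hS4 h0 hb).trans ?_
    calc (S4.ncard : ℝ) * (nu m s * CJ) = (nu m s * S4.ncard) * CJ := by ring
      _ ≤ N4 * CJ := mul_le_mul_of_nonneg_right hcount hCJ0
      _ ≤ _ := by
          have : 0 ≤ N4 * (Ca + Cb) + Cc := by positivity
          linarith
  · intro g h hg hh
    obtain ⟨-, hg2⟩ := onLam_ne_zero hg
    have hg3 : tpl w Lam s g ≠ 0 := fun hc => hg2 (hk0 g hc)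
    refine (cong_coc w hL0 hs hqs hg3 (oneRep_ne_zero hh)).trans ?_
    rw [← hCc]
    refine mul_le_mul_of_nonneg_right ?_ hρ0
    have : 0 ≤ N4 * (Ca + Cb) + N4 * CJ := by positivity
    linarith

end Claimed.Agent.R300.Nil
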