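/-
Row 300, KK Section 9.d: the CONGRUENCE FACTORISATION of the second factor, in arc form.     Architect: helper21.
Proof: helper36 (coefficient level in `NilCong.lean`).

`L_Λ = q^(2 nf) ∑_{y ∈ Λ_q} k(y) Y(y)` (`= (kkLamLaw).meanOp`), `C_q = q^(-2 nf) ∑_{v rep} Y(v)` (`= (kkCqLaw).meanOp`),
`k = kkTplc w Lam s` (scale `s`, `b = s^m`).  CLAIM: `‖(L_Λ C_q - LY(k)) Q‖ ≤ ε` on every arc `[lo, hi] ⊆ [0, 1/q]` with
`1/q - lo ≤ 3 b`, as soon as `q s ≤ ϑ`.

PROOF.  `L_Λ C_q = LY(1_Λ k) LY(1_Rep)`;  `kkLY_mul_frozen` at `t₀ = lo` replaces the product by `LY((1_Λ k) *_τ 1_Rep)`, `τ = lo - 1/q`,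
and `cong_main` compares `(1_Λ k) *_τ 1_Rep` with `k` in `ℓ¹`.
-/
import Claimed.Agent.R300.KkBox
import Claimed.Agent.R300.NilCong

set_option autoImplicit false

namespace Claimed.Agent.R300

open Nil
open scoped ENNReal ComplexConjugate InnerProductSpace Matrix.Norms.L2Operator

theorem kkcg_sum_rep {m : ℕ} (q : ℕ) [NeZero q] :
    ∑ a : (Idx m → ZMod q) × (Idx m → ZMod q), kkY q (kkRep q a) = kkLY q (oneRep (m := m) q) := by
  classical
  have hb := kkRep_bijOn (m := m) q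
  have hinj : Function.Injective (kkRep (m := m) q) := fun a b h =>
    hb.injOn (Set.mem_univ a) (Set.mem_univ b) h
  have hsupp : (Function.support fun g : EBar m ℤ => oneRep q g • kkY q g) ⊆
      ((Finset.univ.image (kkRep (m := m) q) : Finset (EBar m ℤ)) : Set (EBar m ℤ)) := by
    intro g hg
    have h1 : oneRep q g ≠ 0 := fun h0 => hg (by simp [h0])
    obtain ⟨a, -, ha⟩ := hb.surjOn (oneRep_ne_zero h1)
    simp only [Finset.coe_image, Finset.coe_univ, Set.image_univ, Set.mem_range]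
    exact ⟨a, ha⟩
  unfold kkLY
  rw [finsum_eq_sum_of_support_subset _ hsupp, Finset.sum_image fun a _ b _ h => hinj h]
  refine Finset.sum_congr rfl fun a _ => ?_
  rw [oneRep_of (kkRep_isRep q a), one_smul]

theorem kkcg_prod {m : ℕ} (q : ℕ) [NeZero q] (w : Win m) {Lam s : ℝ} (hL : 0 < Lam) (hs : 0 < s) :
    (kkLamLaw q w Lam s).meanOp * (kkCqLaw q).meanOp
      = kkLY q (onLam q (kkTplc w Lam s)) * kkLY q (oneRep (m := m) q) := by
  rw [kkLamLaw_meanOp q w hL hs, kkCqLaw_meanOp, kkcg_sum_rep, smul_mul_smul_comm]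
  have hq : ((q : ℂ) ^ (2 * nf m)) ≠ 0 := pow_ne_zero _ (by exact_mod_cast NeZero.ne q)
  rw [mul_inv_cancel₀ hq, one_smul]
  rfl

/-- **Congruence factorisation on an arc.** -/
theorem kk_cong {m : ℕ} (w : Win m) (Lam : ℝ) (hL : 1 ≤ Lam) (ε : ℝ) (hε : 0 < ε) :
    ∃ ϑ : ℝ, 0 < ϑ ∧ ϑ ≤ 1 ∧ ∀ (q : ℕ) [NeZero q] (s lo hi : ℝ), 0 < s → (q : ℝ) * s ≤ ϑ →
      0 ≤ lo → lo ≤ hi → hi ≤ 1 / (q : ℝ) → 1 / (q : ℝ) - lo ≤ 3 * s ^ m →
      ‖((kkLamLaw q w Lam s).meanOp * (kkCqLaw q).meanOp - kkLY q (kkTplc w Lam s)) * kkQ q lo hi‖ ≤ ε := by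
  obtain ⟨C, hC0, hC⟩ := cong_main w Lam hL
  have hL0 : 0 < Lam := lt_of_lt_of_le one_pos hL
  have hpi := Real.pi_pos
  obtain ⟨D, hD⟩ : ∃ D : ℝ, D = 6 * Real.pi * C ^ 2 + C + 1 := ⟨_, rfl⟩
  have hD0 : 0 < D := by rw [hD]; positivity
  refine ⟨min 1 (ε / D), lt_min one_pos (div_pos hε hD0), min_le_left _ _, ?_⟩
  intro q _ s lo hi hs hqs hlo hlh hhi hlo3
  have hqs1 : (q : ℝ) * s ≤ 1 := hqs.trans (min_le_left _ _)
  have hqsε : (q : ℝ) * s * D ≤ ε := by
    have := hqs.trans (min_le_right _ _)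
    rwa [le_div_iff₀ hD0] at this
  have hρ0 : 0 ≤ (q : ℝ) * s := by positivity
  have hsm : 0 < s ^ m := pow_pos hs m
  obtain ⟨k, hk⟩ : ∃ k : EBar m ℤ → ℂ, k = kkTplc w Lam s := ⟨_, rfl⟩
  have hk1 : ∀ g, ‖k g‖ = ‖tpl w Lam s g‖ := fun g => by
    rw [hk]; exact RCLike.norm_conj _
  have hk2 : ∀ g g', ‖k g - k g'‖ = ‖tpl w Lam s g - tpl w Lam s g'‖ := fun g g' => by
    rw [hk]
    unfold kkTplc
    rw [← map_sub, RCLike.norm_conj]
  have hτ : |lo - 1 / (q : ℝ)| ≤ 3 * s ^ m := by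
    rw [abs_sub_comm, abs_of_nonneg (by linarith)]
    exact hlo3
  obtain ⟨hxfin, hx1, hab, hcoc⟩ := hC q s (lo - 1 / (q : ℝ)) k hs hqs1 hτ hk1 hk2
  have hkfin : (Function.support k).Finite := by
    refine (tpl_finite_support w hL0 hs).subset fun g hg => ?_
    intro hc
    apply hg
    rw [← norm_eq_zero, hk1, hc, norm_zero]
  have hafin := onLam_support_finite (q := q) hkfin
  have hbfin := oneRep_support_finite (m := m) (q := q)
  rw [kkcg_prod q w hL0 hs, ← hk]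
  -- frozen product
  have hfro := kkLY_mul_frozen q hafin hbfin (C * (q * s) / s ^ m)
    (fun g h hg hh => by
      rw [le_div_iff₀ hsm, mul_comm]
      exact hcoc g h hg hh) lo hi lo le_rfl hlh
  have hE1 : ‖(kkLY q (onLam q k) * kkLY q (oneRep q)
      - kkLY q (tconv (om (lo - 1 / (q : ℝ))) (onLam q k) (oneRep q))) * kkQ q lo hi‖
      ≤ 6 * Real.pi * C ^ 2 * (q * s) := by
    refine hfro.trans ?_
    have h1 : hi - lo ≤ 3 * s ^ m := by linarith
    have h0 : 0 ≤ hi - lo := by linarith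
    calc 2 * Real.pi * (hi - lo) * (C * (q * s) / s ^ m)
          * ((∑' g, ‖onLam q k g‖) * ∑' g, ‖oneRep (m := m) q g‖)
        ≤ 2 * Real.pi * (3 * s ^ m) * (C * (q * s) / s ^ m) * C := by
          refine mul_le_mul ?_ hab (by positivity) (by positivity)
          refine mul_le_mul_of_nonneg_right ?_ (by positivity)
          exact mul_le_mul_of_nonneg_left h1 (by positivity)
      _ = 6 * Real.pi * C ^ 2 * (q * s) := by
          field_simp
          ring
  have hE2 : ‖(kkLY q (tconv (om (lo - 1 / (q : ℝ))) (onLam q k) (oneRep q)) - kkLY q k)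
      * kkQ q lo hi‖ ≤ C * (q * s) := by
    rw [kkLY_sub q hxfin hkfin]
    have hfin : (Function.support fun g =>
        tconv (om (lo - 1 / (q : ℝ))) (onLam q k) (oneRep q) g - k g).Finite :=
      (hxfin.union hkfin).subset fun g hg => by
        by_contra hc
        rw [Set.mem_union, not_or] at hc
        simp only [Function.mem_support, not_not] at hc
        exact hg (by simp only [hc.1, hc.2, sub_zero])
    calc _ ≤ ‖kkLY q fun g => tconv (om (lo - 1 / (q : ℝ))) (onLam q k) (oneRep q) g - k g‖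
          * ‖kkQ (m := m) q lo hi‖ := norm_mul_le _ _
      _ ≤ (C * (q * s)) * 1 :=
          mul_le_mul ((kkLY_norm_le q hfin).trans hx1) (kkArc_norm_le _ _) (norm_nonneg _)
            (by positivity)
      _ = _ := mul_one _
  have e : (kkLY q (onLam q k) * kkLY q (oneRep q) - kkLY q k) * kkQ q lo hi
      = (kkLY q (onLam q k) * kkLY q (oneRep q)
          - kkLY q (tconv (om (lo - 1 / (q : ℝ))) (onLam q k) (oneRep q))) * kkQ q lo hi
        + (kkLY q (tconv (om (lo - 1 / (q : ℝ))) (onLam q k) (oneRep q)) - kkLY q k)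
          * kkQ q lo hi := by
    rw [← add_mul]; congr 1; abel
  rw [e]
  refine (norm_add_le _ _).trans ?_
  calc _ ≤ 6 * Real.pi * C ^ 2 * (q * s) + C * (q * s) := add_le_add hE1 hE2
    _ ≤ (q : ℝ) * s * D := by rw [hD]; nlinarith
    _ ≤ ε := hqsε

end Claimed.Agent.R300
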