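/-
Row 300, KK Section 9: VERIFICATION BLOCKS of `kk_laws_proof` (KkLawsMain.lean), part A (scales, widths, second factor).     Architect: helper21.
`c : KkCfg m (kkd ℓ ^ A)` is any configuration with `c.κ = κ`, `c.I = kkH ℓ 0`, …
-/
import Claimed.Agent.R300.KkCfgLoc
import Claimed.Agent.R300.KkNum

set_option autoImplicit false

namespace Claimed.Agent.R300

open Nil HeisLaw
open scoped ENNReal ComplexConjugate InnerProductSpace Matrix.Norms.L2Operator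

section parts

variable {m A κ ℓ : ℕ} [NeZero (kkd ℓ ^ A)] (c : KkCfg m (kkd ℓ ^ A))

/-- **scales** of the templates of the layer `i` (`idx_mem`, `kk_num_low`, `y1_pow`, `yY_pow`, `bs`). -/
theorem kkl_scales (hm : 0 < m) (hcκ : c.κ = κ) (hκ : 0 < κ) (hns : 0 < c.ns) (i : ℤ)
    (r : Fin (4 * c.ns + 1)) :
    c.y1 (c.idx i r) ≤ 1 ∧ c.yY (c.idx i r) ≤ 1 ∧
      ((2 : ℝ) ^ ((A + 3 * κ + 1) * kkH ℓ i))⁻¹ ≤ c.y1 (c.idx i r) ^ m ∧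
      ((2 : ℝ) ^ ((A + 3 * κ + 1) * kkH ℓ i))⁻¹ ≤ c.yY (c.idx i r) ^ m := by
  have hb := c.idx_mem hns i r
  obtain ⟨h1, h2⟩ := kk_num_low A κ ℓ hκ i _ hb
  have ht : c.t (c.idx i r) = tch (1 / ((kkd ℓ ^ A : ℕ) : ℝ)) κ ((c.idx i r : ℤ) * c.s) := by
    unfold KkCfg.t KkCfg.δ
    rw [hcκ]
  have hd : c.δ = 1 / ((kkd ℓ ^ A : ℕ) : ℝ) := rfl
  have hy1 : c.y1 (c.idx i r) ≤ 1 := by
    refine KkCfg.kk_root_le hm (c.t_pos _).le zero_le_one ?_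
    rw [one_pow]
    exact (c.t_lt _).le.trans c.δ_le_one
  have hyY : c.yY (c.idx i r) ≤ 1 := by
    refine KkCfg.kk_root_le hm (c.bs_pos _).le zero_le_one ?_
    rw [one_pow]
    exact (c.bs_le _).trans c.δ_le_one
  refine ⟨hy1, hyY, ?_, ?_⟩
  · rw [c.y1_pow hm, ht]
    exact h1
  · rw [c.yY_pow hm]
    have h3 : c.δ - c.t (c.idx i r) ≤ c.bs (c.idx i r) := by
      unfold KkCfg.bs
      split_ifs
      · linarith [c.t_pos (c.idx i r)]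
      · exact le_rfl
    refine le_trans ?_ h3
    rw [ht, hd]
    exact h2

/-- second width in the form used (`kk_num_Y`, `kk_root_le`; `β s ≥ i - 2 ≥ H_0 - 2 > -Bu`). -/
theorem kkl_qy (E : ℕ) (hm : 0 < m) (hcκ : c.κ = κ) (hκ : 2 * m * (A + 2 * E) ≤ κ) (hℓ : 1 ≤ ℓ)
    (hns : 0 < c.ns) (i β : ℤ) (hi : (kkH ℓ 0 : ℤ) ≤ i) (hβ : |(β : ℝ) * c.s - i| ≤ 2) :
    c.bs β = c.δ - c.t β ∧ ((kkd ℓ ^ A : ℕ) : ℝ) * c.yY β ≤ ((2 : ℝ) ^ (E * kkH ℓ i))⁻¹ := by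
  have hb := abs_le.1 hβ
  have hH : (0 : ℝ) ≤ ((kkH ℓ 0 : ℕ) : ℝ) - 2 := by
    have : 2 ≤ kkH ℓ 0 := by unfold kkH; omega
    have h2 : (2 : ℝ) ≤ ((kkH ℓ 0 : ℕ) : ℝ) := by exact_mod_cast this
    linarith
  have hiR : ((kkH ℓ 0 : ℕ) : ℝ) ≤ (i : ℝ) := by exact_mod_cast hi
  have hbs : c.bs β = c.δ - c.t β := by
    unfold KkCfg.bs
    rw [if_neg]
    have : (0 : ℝ) ≤ (c.Bu : ℝ) := Nat.cast_nonneg _
    intro h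
    linarith [hb.1]
  refine ⟨hbs, ?_⟩
  have ht : c.t β = tch (1 / ((kkd ℓ ^ A : ℕ) : ℝ)) κ ((β : ℤ) * c.s) := by
    unfold KkCfg.t KkCfg.δ
    rw [hcκ]
  have hd : c.δ = 1 / ((kkd ℓ ^ A : ℕ) : ℝ) := rfl
  have hY := kk_num_Y m E A κ ℓ hm hκ hℓ i hi ((β : ℝ) * c.s) (by linarith [hb.1])
  have hq : (0 : ℝ) ≤ ((kkd ℓ ^ A : ℕ) : ℝ) := Nat.cast_nonneg _
  have hpos : (0 : ℝ) ≤ ((2 : ℝ) ^ (E * kkH ℓ i))⁻¹ := by positivity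
  have h5 : (((kkd ℓ ^ A : ℕ) : ℝ) * c.yY β) ^ m ≤ (((2 : ℝ) ^ (E * kkH ℓ i))⁻¹) ^ m := by
    rw [mul_pow, c.yY_pow hm, hbs, ht, hd]
    exact hY
  exact le_of_pow_le_pow_left₀ hm.ne' hpos h5

/-- **wide**, first factor. -/
theorem kkl_wide_X (E : ℕ) (hm : 0 < m) (hcκ : c.κ = κ) (hA : 15009 * m * E ≤ A) (hκ : m * E ≤ κ)
    (hℓ : 1 ≤ ℓ) (hns : 0 < c.ns) (i k : ℤ) (hi : i ≤ 2 * (kkH ℓ 0 : ℤ)) :
    (c.blk i k).Wide (fun z => z.gX.bet) ((2 : ℝ) ^ (E * kkH ℓ i))⁻¹ := by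
  refine c.blk_wide_X i k _ fun r => ?_
  have hb := abs_le.1 (c.idx_mem hns i r)
  have ht : c.t (c.idx i r) = tch (1 / ((kkd ℓ ^ A : ℕ) : ℝ)) κ ((c.idx i r : ℤ) * c.s) := by
    unfold KkCfg.t KkCfg.δ
    rw [hcκ]
  constructor
  · refine KkCfg.kk_root_le hm (c.t_pos _).le (by positivity) ?_
    rw [ht]
    exact kk_num_X m E A κ ℓ hA hκ hℓ i hi _ (by linarith [hb.2])
  · refine KkCfg.kk_root_le hm (c.t_pos _).le zero_le_one ?_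
    rw [one_pow]
    exact (c.t_lt _).le.trans c.δ_le_one

/-- **wide**, second factor. -/
theorem kkl_wide_Y (E : ℕ) (hm : 0 < m) (hcκ : c.κ = κ) (hcI : c.I = kkH ℓ 0)
    (hκ : 2 * m * (A + 2 * E) ≤ κ) (hκ0 : 0 < κ) (hℓ : 1 ≤ ℓ) (hns : 0 < c.ns) (i k : ℤ) (hi : (kkH ℓ 0 : ℤ) ≤ i) :
    (c.blk i k).Wide (fun z => z.gY.bet) ((2 : ℝ) ^ (E * kkH ℓ i))⁻¹ := by
  refine c.blk_wide_Y i k (by rw [hcI]; exact hi) _ fun r => ?_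
  exact ⟨(kkl_qy c E hm hcκ hκ hℓ hns i _ hi (c.idx_mem hns i r)).2,
    (kkl_scales c hm hcκ hκ0 hns i r).2.1⟩

/-- **scalars and norm of the second factor** (`sec_c_le`, `sec_R_norm_le`, `KkPre.meanOp_norm_le`, `kkl_qy` with `E = 0`). -/
theorem kkl_sec_le (hm : 0 < m) (hcκ : c.κ = κ) (hcI : c.I = kkH ℓ 0) (hκ : 2 * m * A ≤ κ) (hκ0 : 0 < κ)
    (hℓ : 1 ≤ ℓ) (hns : 0 < c.ns) (BX BL : ℝ)
    (hBX : ∀ y : ℝ, 0 < y → y ≤ 1 → ∀ a, ‖(kkYLaw (kkd ℓ ^ A) c.w c.Lam y).c a‖ ≤ BX)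
    (hBL : ∀ y : ℝ, 0 < y → ((kkd ℓ ^ A : ℕ) : ℝ) * y ≤ 1 → ∀ a, ‖(kkLamLaw (kkd ℓ ^ A) c.w c.Lam y).c a‖ ≤ BL)
    (i : ℤ) (r : Fin (4 * c.ns + 1)) :
    (∀ a, ‖(c.sec i (c.idx i r)).c a‖ ≤ max BX BL) ∧ ‖(c.sec i (c.idx i r)).meanOp‖ ≤ max BX BL := by
  have hc : ∀ a, ‖(c.sec i (c.idx i r)).c a‖ ≤ max BX BL := by
    refine c.sec_c_le _ i _ (fun _ a => ?_) (fun hi a => ?_)
    · exact (hBX _ (c.yY_pos _) (kkl_scales c hm hcκ hκ0 hns i r).2.1 a).trans (le_max_left _ _)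
    · refine (hBL _ (c.yY_pos _) ?_ a).trans (le_max_right _ _)
      have := (kkl_qy c 0 hm hcκ (by simpa using hκ) hℓ hns i _ (by rw [← hcI]; exact hi)
        (c.idx_mem hns i r)).2
      simpa using this
  exact ⟨hc, KkPre.meanOp_norm_le _ _ hc (c.sec_R_norm_le i _)⟩

end parts

end Claimed.Agent.R300
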