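/-
Row 300, KK Section 9: change of scale between the templates of the laws and the frozen templates of an adjacent arc
(`KkCfg.scale_close_pf` = statement `KkCfg.scale_close` of KkLawsMain.lean).     helper145.
-/
import Claimed.Agent.R300.KkCfgArc
import Claimed.Agent.R300.KkNum

set_option autoImplicit false

namespace Claimed.Agent.R300

open Nil
open scoped ENNReal ComplexConjugate InnerProductSpace Matrix.Norms.L2Operator

namespace KkCfg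

variable {m q : ℕ} [NeZero q] (c : KkCfg m q)

/-- the ratio of adjacent scales. -/
noncomputable def scR : ℝ := (2 : ℝ) ^ ((c.κ : ℝ) * c.s) * (1 + 2 * (2 : ℝ) ^ (-((c.κ : ℝ) * c.Bu)))

theorem scR_ge (hns : 0 < c.ns) : (2 : ℝ) ^ ((c.κ : ℝ) * c.s) ≤ c.scR ∧
    (1 + 2 * (2 : ℝ) ^ (-((c.κ : ℝ) * c.Bu))) ≤ c.scR ∧ 1 ≤ c.scR := by
  have hs := c.s_pos hns
  have h1 : (1 : ℝ) ≤ (2 : ℝ) ^ ((c.κ : ℝ) * c.s) :=
    Real.one_le_rpow one_le_two (by positivity)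
  have h2 : (0 : ℝ) < (2 : ℝ) ^ (-((c.κ : ℝ) * c.Bu)) := Real.rpow_pos_of_pos two_pos _
  unfold scR
  refine ⟨?_, ?_, ?_⟩ <;> nlinarith

theorem t_succ_le (hκ : 0 < c.κ) (hns : 0 < c.ns) (a : ℤ) :
    c.t (a + 1) ≤ (2 : ℝ) ^ ((c.κ : ℝ) * c.s) * c.t a := by
  have hs := c.s_pos hns
  have hκ' : (0 : ℝ) < (c.κ : ℝ) := by exact_mod_cast hκ
  have h := tch_le_mul (δ := c.δ) (κ := (c.κ : ℝ)) c.δ_pos hκ' (b := (a : ℝ) * c.s)
    (b' := ((a + 1 : ℤ) : ℝ) * c.s) (by push_cast; nlinarith)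
  have e : ((a + 1 : ℤ) : ℝ) * c.s - (a : ℝ) * c.s = c.s := by push_cast; ring
  rw [e] at h
  exact h

theorem compl_t_le (hκ : 0 < c.κ) (hns : 0 < c.ns) (a : ℤ) :
    c.δ - c.t a ≤ (2 : ℝ) ^ ((c.κ : ℝ) * c.s) * (c.δ - c.t (a + 1)) := by
  have hs := c.s_pos hns
  have hκ' : (0 : ℝ) < (c.κ : ℝ) := by exact_mod_cast hκ
  have h := tch_compl_le_mul (δ := c.δ) (κ := (c.κ : ℝ)) c.δ_pos hκ' (b := (a : ℝ) * c.s)
    (b' := ((a + 1 : ℤ) : ℝ) * c.s) (by push_cast; nlinarith)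
  have e : ((a + 1 : ℤ) : ℝ) * c.s - (a : ℝ) * c.s = c.s := by push_cast; ring
  rw [e] at h
  exact h

/-- first magnitudes of adjacent indices. -/
theorem t_ratio (hκ : 0 < c.κ) (hns : 0 < c.ns) (a β : ℤ) (hβ : β = a ∨ β = a + 1) :
    c.t β ≤ c.scR * c.t a ∧ c.t a ≤ c.scR * c.t β := by
  obtain ⟨h1, _, h3⟩ := c.scR_ge hns
  have ha := c.t_pos a
  rcases hβ with rfl | rfl
  · constructor <;> nlinarith
  · have hb := c.t_pos (a + 1)
    have h4 := c.t_succ_le hκ hns a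
    have h5 := c.t_lt_succ hκ hns a
    constructor <;> nlinarith

/-- second magnitudes of adjacent indices. -/
theorem bs_ratio (hκ : 0 < c.κ) (hns : 0 < c.ns) (a β : ℤ) (hβ : β = a ∨ β = a + 1) :
    c.bs β ≤ c.scR * (c.δ - c.t a) ∧ c.δ - c.t a ≤ c.scR * c.bs β := by
  obtain ⟨h1, h2, h3⟩ := c.scR_ge hns
  have hs := c.s_pos hns
  have ha : 0 < c.δ - c.t a := sub_pos.2 (c.t_lt a)
  have hta := c.t_pos a
  have hδ := c.δ_pos
  by_cases hcl : (β : ℝ) * c.s < -(c.Bu : ℝ)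
  · have e : c.bs β = c.δ := by unfold bs; rw [if_pos hcl]
    rw [e]
    have hab : (a : ℝ) * c.s < -(c.Bu : ℝ) := by
      refine lt_of_le_of_lt ?_ hcl
      rcases hβ with rfl | rfl
      · exact le_rfl
      · push_cast; nlinarith
    have h4 := kk_num_clip c.δ hδ c.κ c.Bu hκ ((a : ℝ) * c.s) hab
    have h4' : c.δ ≤ (1 + 2 * (2 : ℝ) ^ (-((c.κ : ℝ) * c.Bu))) * (c.δ - c.t a) := h4
    constructor <;> nlinarith
  · have e : c.bs β = c.δ - c.t β := by unfold bs; rw [if_neg hcl]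
    rw [e]
    rcases hβ with rfl | rfl
    · constructor <;> nlinarith
    · have hb : 0 < c.δ - c.t (a + 1) := sub_pos.2 (c.t_lt (a + 1))
      have h4 := c.compl_t_le hκ hns a
      have h5 := c.t_lt_succ hκ hns a
      constructor <;> nlinarith

theorem y1_le_one (hm : 0 < m) (β : ℤ) : c.y1 β ≤ 1 :=
  kk_root_le hm (c.t_pos β).le zero_le_one (by
    rw [one_pow]; exact ((c.t_lt β).le).trans c.δ_le_one)

theorem y2_le_one (hm : 0 < m) (β : ℤ) : c.y2 β ≤ 1 :=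
  kk_root_le hm (sub_pos.2 (c.t_lt β)).le zero_le_one (by
    rw [one_pow]; have := c.t_pos β; have := c.δ_le_one; linarith)

theorem yY_le_one (hm : 0 < m) (β : ℤ) : c.yY β ≤ 1 :=
  kk_root_le hm (c.bs_pos β).le zero_le_one (by
    rw [one_pow]; exact (c.bs_le β).trans c.δ_le_one)

/-- **Change of scale** between the templates of the laws and the frozen templates of an adjacent arc. -/
theorem scale_close_pf (hm : 0 < m) (hκ : 0 < c.κ) (hns : 0 < c.ns)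
    (Cs a' : ℝ) (ha0 : 0 ≤ a') (ha1 : a' ≤ 1)
    (ha : Real.log ((2 : ℝ) ^ ((c.κ : ℝ) * c.s) * (1 + 2 * (2 : ℝ) ^ (-((c.κ : ℝ) * c.Bu)))) ≤ a')
    (H : ∀ (y y' a : ℝ), 0 < y → y ≤ 1 → 0 < y' → y' ≤ 1 → 0 ≤ a → a ≤ 1 → |Real.log (y / y')| ≤ a →
      ∑' γ, ‖tpl c.w c.Lam y γ - tpl c.w c.Lam y' γ‖ ≤ Cs * a)
    (a β : ℤ) (hβ : β = a ∨ β = a + 1) :
    ∑' g, ‖tpl c.w c.Lam (c.y1 β) g - tpl c.w c.Lam (c.y1 a) g‖ ≤ Cs * a' ∧
      ∑' g, ‖tpl c.w c.Lam (c.yY β) g - tpl c.w c.Lam (c.y2 a) g‖ ≤ Cs * a' := by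
  obtain ⟨_, _, h3⟩ := c.scR_ge hns
  have ha' : Real.log c.scR ≤ a' := ha
  constructor
  · refine H _ _ a' (c.y1_pos β) (c.y1_le_one hm β) (c.y1_pos a) (c.y1_le_one hm a) ha0 ha1 ?_
    obtain ⟨r1, r2⟩ := c.t_ratio hκ hns a β hβ
    exact (kk_log_root hm (c.t_pos β) (c.t_pos a) h3 r1 r2).trans ha'
  · refine H _ _ a' (c.yY_pos β) (c.yY_le_one hm β) (c.y2_pos a) (c.y2_le_one hm a) ha0 ha1 ?_
    obtain ⟨r1, r2⟩ := c.bs_ratio hκ hns a β hβ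
    exact (kk_log_root hm (c.bs_pos β) (sub_pos.2 (c.t_lt a)) h3 r1 r2).trans ha'

end KkCfg

end Claimed.Agent.R300
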