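/-
Row 300, KK Section 9: VERIFICATION BLOCKS of `kk_laws_proof` (KkLawsMain.lean), part C (both factors against the frozen P).     Architect: helper21.
`c : KkCfg m (kkd ℓ ^ A)` is any configuration with `c.κ = κ`, `c.I = kkH ℓ 0`, …
-/
import Claimed.Agent.R300.KkLpA
import Claimed.Agent.R300.KkCong
import Claimed.Agent.R300.KkScale

set_option autoImplicit false

namespace Claimed.Agent.R300

open Nil HeisLaw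
open scoped ENNReal ComplexConjugate InnerProductSpace Matrix.Norms.L2Operator

section parts

variable {m A κ ℓ : ℕ} [NeZero (kkd ℓ ^ A)] (c : KkCfg m (kkd ℓ ^ A))

/-- **both factors against the frozen `P`** (`factor_close`, `sec_close_lt`, `sec_close_ge`; ordinary range by `kk_num_ord`,
congruence range by `kkl_qy`, `tch_compl_le_mul`). -/
theorem kkl_fac (E : ℕ) (hE : 1 ≤ E) (hm : 0 < m) (hA : 1 ≤ A) (hcκ : c.κ = κ) (hcI : c.I = kkH ℓ 0)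
    (hκ : 2 * m * (A + 2 * E) ≤ κ) (hκ0 : 0 < κ) (hℓ : 1 ≤ ℓ) (hns : 0 < c.ns) (hL : 0 < c.Lam)
    (h3 : (2 : ℝ) ^ ((κ : ℝ) * c.s) ≤ 3)
    (εs εl εc C₁ CB BL ϑ : ℝ) (hC₁ : 0 ≤ C₁) (hϑ : ((2 : ℝ) ^ ℓ)⁻¹ ≤ ϑ)
    (hsc : ∀ a β : ℤ, (β = a ∨ β = a + 1) →
      ∑' g, ‖tpl c.w c.Lam (c.y1 β) g - tpl c.w c.Lam (c.y1 a) g‖ ≤ εs ∧
      ∑' g, ‖tpl c.w c.Lam (c.yY β) g - tpl c.w c.Lam (c.y2 a) g‖ ≤ εs)
    (hX : ∀ a, ∑' g, ‖tpl c.w c.Lam (c.y1 a) g‖ ≤ C₁)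
    (hSB : ∀ i r, ‖(c.sec i (c.idx i r)).meanOp‖ ≤ CB)
    (hBL : ∀ y : ℝ, 0 < y → ((kkd ℓ ^ A : ℕ) : ℝ) * y ≤ 1 → ‖(kkLamLaw (kkd ℓ ^ A) c.w c.Lam y).meanOp‖ ≤ BL)
    (hlY : ∀ y : ℝ, 0 < y → y ≤ 1 → ((((kkd ℓ ^ A : ℕ) : ℝ)) ^ (2 + 6000 * κ))⁻¹ ≤ y ^ m →
      ‖((kkYLaw (kkd ℓ ^ A) c.w c.Lam y).sub c.hM (c.ωY y)).meanOp
        - (kkYLaw (kkd ℓ ^ A) c.w c.Lam y).meanOp‖ ≤ εl)
    (hlC : ‖((kkCqLaw (m := m) (kkd ℓ ^ A)).sub c.hM c.ωC).meanOp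
        - (kkCqLaw (m := m) (kkd ℓ ^ A)).meanOp‖ ≤ εl)
    (hcong : ∀ (s lo hi : ℝ), 0 < s → ((kkd ℓ ^ A : ℕ) : ℝ) * s ≤ ϑ →
      0 ≤ lo → lo ≤ hi → hi ≤ 1 / ((kkd ℓ ^ A : ℕ) : ℝ) → 1 / ((kkd ℓ ^ A : ℕ) : ℝ) - lo ≤ 3 * s ^ m →
      ‖((kkLamLaw (kkd ℓ ^ A) c.w c.Lam s).meanOp * (kkCqLaw (kkd ℓ ^ A)).meanOp
        - kkLY (kkd ℓ ^ A) (kkTplc c.w c.Lam s)) * kkQ (kkd ℓ ^ A) lo hi‖ ≤ εc)
    (i a β : ℤ) (hβ : β = a ∨ β = a + 1) (hβi : |(β : ℝ) * c.s - i| ≤ 2) :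
    ‖(kkLX (kkd ℓ ^ A) (tpl c.w c.Lam (c.y1 β)) * (c.sec i β).meanOp
          - kkP (kkd ℓ ^ A) c.w c.Lam (c.y1 a) (c.y2 a)) * kkQ (kkd ℓ ^ A) (c.y1 a ^ m) (c.t (a + 1))‖
      ≤ εs * CB + C₁ * max εl (BL * εl + εc) + C₁ * εs := by
  obtain ⟨r, hr⟩ := c.exists_idx hns i β hβi
  have hcκ0 : 0 < c.κ := by rw [hcκ]; exact hκ0
  have hδ : c.δ = 1 / ((kkd ℓ ^ A : ℕ) : ℝ) := rfl
  have ht : ∀ x : ℤ, c.t x = tch (1 / ((kkd ℓ ^ A : ℕ) : ℝ)) κ ((x : ℝ) * c.s) := by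
    intro x; unfold KkCfg.t; rw [hδ, hcκ]
  have hQ : ‖kkQ (m := m) (kkd ℓ ^ A) (c.y1 a ^ m) (c.t (a + 1))‖ ≤ 1 := kkQ_norm_le _ _ _
  refine c.factor_close hL i a β εs _ C₁ CB _ _ (hsc a β hβ).1 (hsc a β hβ).2 (hX a)
    (hr ▸ hSB i r) ?_
  rw [abs_le] at hβi
  by_cases hi : i < c.I
  · -- ordinary lists
    refine le_trans ?_ (le_max_left _ _)
    have hord : ((((kkd ℓ ^ A : ℕ) : ℝ)) ^ (2 + 6000 * κ))⁻¹ ≤ c.yY β ^ m := by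
      rw [c.yY_pow hm]
      have hb : (β : ℝ) * c.s ≤ (kkH ℓ 0 : ℝ) + 2 := by
        have h1 : (i : ℝ) < (kkH ℓ 0 : ℝ) := by
          rw [hcI] at hi
          exact_mod_cast hi
        linarith [hβi.2]
      have h2 := kk_num_ord A κ ℓ hA hκ0 hℓ ((β : ℝ) * c.s) hb
      rw [← ht β, ← hδ] at h2
      refine h2.trans ?_
      unfold KkCfg.bs
      split_ifs
      · have := c.t_pos β; linarith
      · exact le_rfl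
    have h1 := c.sec_close_lt hL i β hi εl
      (hlY (c.yY β) (c.yY_pos β) (c.yY_le_one hm β) hord)
    calc _ ≤ ‖(c.sec i β).meanOp - kkLY (kkd ℓ ^ A) (kkTplc c.w c.Lam (c.yY β))‖
          * ‖kkQ (m := m) (kkd ℓ ^ A) (c.y1 a ^ m) (c.t (a + 1))‖ := norm_mul_le _ _
      _ ≤ εl * 1 := mul_le_mul h1 hQ (norm_nonneg _) ((norm_nonneg _).trans h1)
      _ = εl := mul_one _
  · -- congruence form
    refine le_trans ?_ (le_max_right _ _)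
    have hi' : c.I ≤ i := not_lt.mp hi
    have hiH : (kkH ℓ 0 : ℤ) ≤ i := by rw [← hcI]; exact hi'
    obtain ⟨hbs, hqy⟩ := kkl_qy c E hm hcκ hκ hℓ hns i β hiH (abs_le.mpr hβi)
    have hpow : ((2 : ℝ) ^ (E * kkH ℓ i))⁻¹ ≤ ((2 : ℝ) ^ ℓ)⁻¹ := by
      apply inv_anti₀ (by positivity)
      apply pow_le_pow_right₀ one_le_two
      have h5 := kkH_ge ℓ i
      calc ℓ ≤ 1 * kkH ℓ i := by omega
        _ ≤ E * kkH ℓ i := Nat.mul_le_mul_right _ hE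
    have hpow1 : ((2 : ℝ) ^ ℓ)⁻¹ ≤ 1 := inv_le_one_of_one_le₀ (one_le_pow₀ one_le_two)
    refine c.sec_close_ge i β hi' εl εc BL _ _
      (hBL (c.yY β) (c.yY_pos β) (hqy.trans (hpow.trans hpow1))) hlC ?_
    refine hcong (c.yY β) _ _ (c.yY_pos β) (hqy.trans (hpow.trans hϑ)) (by
      have := c.y1_pos a; positivity) ?_ ?_ ?_
    · rw [c.y1_pow hm]; exact (c.t_lt_succ hcκ0 hns a).le
    · rw [← hδ]; exact (c.t_lt (a + 1)).le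
    · rw [c.y1_pow hm, c.yY_pow hm, hbs, ← hδ]
      rcases hβ with rfl | rfl
      · have : 0 < c.δ - c.t β := sub_pos.2 (c.t_lt β)
        linarith
      · have h4 := c.compl_t_le hcκ0 hns a
        rw [hcκ] at h4
        have : 0 < c.δ - c.t (a + 1) := sub_pos.2 (c.t_lt (a + 1))
        nlinarith

end parts

end Claimed.Agent.R300
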