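/-
Row 300, KK Section 9: VERIFICATION BLOCKS of `kk_laws_proof` (KkLawsMain.lean), part D (voltages).     Architect: helper21.
`c : KkCfg m (kkd ℓ ^ A)` is any configuration with `c.κ = κ`, `c.I = kkH ℓ 0`, …
-/
import Claimed.Agent.R300.KkLpA

set_option autoImplicit false

namespace Claimed.Agent.R300

open Nil HeisLaw
open scoped ENNReal ComplexConjugate InnerProductSpace Matrix.Norms.L2Operator

/-- **voltages** (`kk_blk_cbound` with `Mb = 2^((A + 3 κ + 3) H_i)`, `kkl_scales`, `kkKi_spec`, `kk_num_absorb`,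
`kk_deck_cbound_mono`). -/
theorem kkl_cbound (m A κ : ℕ) (hm : 0 < m) (hκ : 0 < κ) (Lam L : ℝ) (hLam : 0 < Lam) (hL : 0 < L) :
    ∃ (Csupp ℓ₀ : ℕ), ∀ ℓ ≥ ℓ₀, ∀ [NeZero (kkd ℓ ^ A)] (c : KkCfg m (kkd ℓ ^ A)), c.κ = κ → c.Lam = Lam →
      c.K = kkKi ℓ A κ L → 0 < c.ns → ∀ i k a,
      ((c.blk i k).z a).CBound (2 ^ (Csupp * kkH ℓ i)) ∧ ((c.blk i k).z a)⁻¹.CBound (2 ^ (Csupp * kkH ℓ i)) := by
  obtain ⟨C, e, hC1, H⟩ := kk_blk_cbound m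
  obtain ⟨ℓ₁, h₁⟩ := kk_num_absorb C
  obtain ⟨ℓ₂, h₂⟩ := kk_num_absorb (2 * Lam + R0 m + 1)
  obtain ⟨ℓ₃, h₃⟩ := kk_num_absorb (L + 1)
  refine ⟨(A + 3 * κ + 3) * e + 1, max ℓ₁ (max ℓ₂ ℓ₃), fun ℓ hℓ _ c hcκ hcL hcK hns i k a => ?_⟩
  have hℓ₁ : ℓ₁ ≤ ℓ := (le_max_left _ _).trans hℓ
  have hℓ₂ : ℓ₂ ≤ ℓ := ((le_max_left _ _).trans (le_max_right _ _)).trans hℓ
  have hℓ₃ : ℓ₃ ≤ ℓ := ((le_max_right _ _).trans (le_max_right _ _)).trans hℓ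
  set Hh := kkH ℓ i with hHh
  have h2 : ∀ n : ℕ, (1 : ℝ) ≤ (2 : ℝ) ^ n := fun n => one_le_pow₀ (by norm_num)
  have hmono : ∀ {a b : ℕ}, a ≤ b → (2 : ℝ) ^ a ≤ (2 : ℝ) ^ b := fun h =>
    pow_le_pow_right₀ (by norm_num) h
  set Mb : ℝ := (2 : ℝ) ^ ((A + 3 * κ + 3) * Hh) with hMb
  have hMb1 : 1 ≤ Mb := h2 _
  have hsplit : Mb = (2 : ℝ) ^ Hh * (2 : ℝ) ^ Hh * (2 : ℝ) ^ ((A + 3 * κ + 1) * Hh) := by
    rw [hMb, ← pow_add, ← pow_add]; congr 1; ring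
  have hK : (c.K i : ℝ) ≤ Mb := by
    rw [hcK]
    have h := (kkKi_spec ℓ A κ L hL i).2.2
    have h3' := h₃ ℓ hℓ₃ i
    have h4 : (2 : ℝ) ^ ((A + κ) * kkH ℓ i) ≤ (2 : ℝ) ^ ((A + 3 * κ + 1) * Hh) :=
      hmono (Nat.mul_le_mul_right _ (by omega))
    have h5 := h2 ((A + κ) * kkH ℓ i)
    calc (kkKi ℓ A κ L i : ℝ) ≤ L * (2 : ℝ) ^ ((A + κ) * kkH ℓ i) + 1 := h
      _ ≤ (L + 1) * (2 : ℝ) ^ ((A + κ) * kkH ℓ i) := by nlinarith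
      _ ≤ (2 : ℝ) ^ Hh * (2 : ℝ) ^ ((A + 3 * κ + 1) * Hh) :=
          mul_le_mul h3' h4 (by positivity) (by positivity)
      _ ≤ Mb := by
          rw [hsplit]
          have := h2 Hh
          have h6 : (0 : ℝ) ≤ (2 : ℝ) ^ Hh * (2 : ℝ) ^ ((A + 3 * κ + 1) * Hh) := by positivity
          nlinarith
  have hq : (((kkd ℓ ^ A : ℕ)) : ℝ) ≤ Mb := by
    rw [kk_q_eq]
    push_cast
    rw [hMb]
    refine hmono ?_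
    have : ℓ + i.natAbs + 1 ≤ Hh := kkH_ge ℓ i
    have h20 : 4 * ℓ ≤ Hh := by rw [hHh]; unfold kkH; omega
    calc 4 * ℓ * A = A * (4 * ℓ) := by ring
      _ ≤ A * Hh := Nat.mul_le_mul_left _ h20
      _ ≤ (A + 3 * κ + 3) * Hh := Nat.mul_le_mul_right _ (by omega)
  have hdiv : ∀ x : ℝ, ((2 : ℝ) ^ ((A + 3 * κ + 1) * kkH ℓ i))⁻¹ ≤ x →
      (2 * c.Lam + R0 m + 1) / x ≤ Mb := by
    intro x hx
    have hpos : (0 : ℝ) < ((2 : ℝ) ^ ((A + 3 * κ + 1) * kkH ℓ i))⁻¹ := by positivity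
    have hx0 : 0 < x := lt_of_lt_of_le hpos hx
    rw [hcL, div_le_iff₀ hx0]
    have h2' := h₂ ℓ hℓ₂ i
    have h7 : (1 : ℝ) ≤ (2 : ℝ) ^ ((A + 3 * κ + 1) * Hh) * x := by
      have := mul_le_mul_of_nonneg_left hx (show (0 : ℝ) ≤ (2 : ℝ) ^ ((A + 3 * κ + 1) * Hh) by positivity)
      rwa [mul_inv_cancel₀ (by positivity)] at this
    have h8 := h2 Hh
    calc 2 * Lam + R0 m + 1 ≤ (2 : ℝ) ^ Hh := h2'
      _ ≤ (2 : ℝ) ^ Hh * (2 : ℝ) ^ Hh * ((2 : ℝ) ^ ((A + 3 * κ + 1) * Hh) * x) := by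
          have h9 : (0 : ℝ) ≤ (2 : ℝ) ^ Hh := by positivity
          nlinarith [mul_nonneg h9 h9]
      _ = Mb * x := by rw [hsplit]; ring
  have hmain := H (kkd ℓ ^ A) c i k Mb hMb1 (hcL ▸ hLam) hK hq (fun r => by
    obtain ⟨s1, s2, s3, s4⟩ := kkl_scales c hm hcκ hκ hns i r
    exact ⟨s1, s2, hdiv _ s3, hdiv _ s4⟩) a
  have hfin : C * Mb ^ e ≤ 2 ^ (((A + 3 * κ + 3) * e + 1) * kkH ℓ i) := by
    have h1' := h₁ ℓ hℓ₁ i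
    have : (2 : ℝ) ^ (((A + 3 * κ + 3) * e + 1) * kkH ℓ i) = (2 : ℝ) ^ Hh * Mb ^ e := by
      rw [hMb, ← pow_mul, ← pow_add]; congr 1; ring
    rw [this]
    exact mul_le_mul_of_nonneg_right h1' (by positivity)
  exact ⟨kk_deck_cbound_mono hmain.1 hfin, kk_deck_cbound_mono hmain.2 hfin⟩

end Claimed.Agent.R300
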