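/-
Row 300, KK Section 8 + 9.a-9.f: ASSEMBLY `kk_laws_proof`.     Architect: helper21.

CHOICE OF CONSTANTS.   `E := 10 (Cstar + 1) + 1`,  `A := 15009 m E + 5003 Cbul + 1`,  `κ := 2 m (A + 2 E) + Cbul + 1`.
Given `η, μ₀`:
  `w` (`exists_win`);  `C₁` (`tpl_l1 w`);  `(Lam, y0, u, Cp)` := `kk_proj w (η/8)`;  `Cs` := `tpl_scale w Lam`;  `Ah` Lipschitz constant of `hwin`
  (`hwin_c2b`, `C2B.lipschitz`);  `BX` (`kkXLaw_c_le`), `BL` (`kkLamLaw_c_le`), `BS = CB := max BX BL`;  `CP := C₁²`;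
  `ns, Bu`:  `2^(κ/ns) - 1 ≤ min u (1/2)`,  `a' := log (2^(κ/ns) (1 + 2 · 2^(-κ Bu))) ≤ 1`,  `εs := Cs a'`,  `εs CB + C₁ εs ≤ η/32`,  `2 Ah CP / ns ≤ η/8`;
  `εl, εc`:  `C₁ (BL εl + εc) ≤ η/32`, `C₁ εl ≤ η/32`;   `ϑ` := `kk_cong w Lam εc`;
  `Cm` := `masks_exist κ (1/ns)`;   `L`:  `(4 ns + 1) (4 Cm / L) C₁ CB ≤ η/8`;   `K i := kkKi ℓ A κ L i`;   `Bm := Cm (2 L + 3)`;
  `Cw := 2 (4 ns + 1) Bm BX BS + 4 (ns (Bu + 20013) + 3) + 1`;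
  `Csupp := (A + 3 κ + 3) e + 1` with `(C, e)` := `kk_blk_cbound m`;
  `ℓ₀`: `kk_lists`, `kk_num_trace`, `kk_num_absorb` (several constants), `δ ≤ y0^m`, `2^(-ℓ) ≤ ϑ`.
For `ℓ ≥ ℓ₀`:  `q = kkd ℓ ^ A`, masks `f` (`masks_exist` at `δ = 1/q`), lists (`kk_lists`),
  `c : KkCfg m q := ⟨κ, ns, Bu, kkH ℓ 0, w, Lam, f, kkKi ℓ A κ L, kkMs ℓ, kkMs_pos ℓ, ωY, ωC⟩`,
  `μ i k := (c.blk i k).toLaw Cw _ _`,  `WW := c.alphabet Cw`,  `𝔄 := Option ℤ`,  arcs `c.arcs`.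
VERIFICATION.
  weights: `toLaw_W_mem`, `alphabet_norm_le`, `alphabet_card_le`, `mats_card_le`, `kkMs_pow_le`;
  voltages: `kk_blk_cbound` with `Mb = 2^((A + 3 κ + 3) H_i)` (`kk_num_low`, `kkKi_spec`, `kk_num_absorb`);
  wide: `KkPre.Wide.toLaw`, `blk_wide_X` (`kk_num_X`, `kk_root_le`), `blk_wide_Y` (`kk_num_Y`);
  arcs: `projOk_of`, `arcs_good`, `arcs_trace` (`kk_num_trace`, `hwin_ne_zero_iff`), `arcs_ne_zero`;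
  means: `KkPre.meanOp_toLaw`, `blk_local` with `ε₁ = 4 Cm / L` (`mask_trunc`, `kkKi_spec`), `ε₂ = εs CB + C₁ max(εl, BL εl + εc) + C₁ εs`
  (`factor_close`, `scale_close`, `sec_close_lt` + lists in the ordinary range `kk_num_ord`, `sec_close_ge` + `kk_cong`: `q yY ≤ ϑ` by `kk_num_Y`,
  `1/q - lo ≤ 3 yY^m` by `tch_compl_le_mul`), `ε₃ = η/8`.   Total `≤ η/8 + η/4 + η/8 + η/8 ≤ η`.
-/
import Claimed.Agent.R300.KkLpB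
import Claimed.Agent.R300.KkLpC
import Claimed.Agent.R300.KkLpD
import Claimed.Agent.R300.KkLists
import Claimed.Agent.R300.KkScale

set_option autoImplicit false

namespace Claimed.Agent.R300

open Nil HeisLaw
open scoped ENNReal ComplexConjugate InnerProductSpace Matrix.Norms.L2Operator

/-- the mesh and the clipping: the logarithmic ratio of the scales is small. -/
theorem kkf_mesh (κ : ℕ) (hκ : 0 < κ) (a' : ℝ) (ha : 0 < a') : ∃ ns₀ Bu : ℕ, 0 < ns₀ ∧ ∀ ns ≥ ns₀,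
    Real.log ((2 : ℝ) ^ ((κ : ℝ) * (1 / (ns : ℝ))) * (1 + 2 * (2 : ℝ) ^ (-((κ : ℝ) * Bu)))) ≤ a' := by
  obtain ⟨ns₀, hns₀, H⟩ := kk_num_mesh κ (a' / 2) (by positivity)
  obtain ⟨Bu, hBu⟩ := kkl_delta_small 1 one_pos (a' / 4) (by positivity)
  have hB := (hBu Bu le_rfl).2
  refine ⟨ns₀, Bu, hns₀, fun ns hns => ?_⟩
  have h1 := H ns hns
  have hx : (0 : ℝ) < (2 : ℝ) ^ ((κ : ℝ) * (1 / (ns : ℝ))) := Real.rpow_pos_of_pos (by norm_num) _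
  have hy0 : (0 : ℝ) < (2 : ℝ) ^ (-((κ : ℝ) * Bu)) := Real.rpow_pos_of_pos (by norm_num) _
  have hy : (2 : ℝ) ^ (-((κ : ℝ) * Bu)) ≤ ((2 : ℝ) ^ Bu)⁻¹ := by
    rw [← Real.rpow_natCast, ← Real.rpow_neg (by norm_num)]
    refine Real.rpow_le_rpow_of_exponent_le (by norm_num) ?_
    have : (1 : ℝ) ≤ κ := by exact_mod_cast hκ
    have hBu0 : (0 : ℝ) ≤ Bu := Nat.cast_nonneg _
    nlinarith
  rw [Real.log_mul hx.ne' (by positivity)]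
  have l1 : Real.log ((2 : ℝ) ^ ((κ : ℝ) * (1 / (ns : ℝ)))) ≤ a' / 2 := by
    have := Real.log_le_sub_one_of_pos hx
    linarith
  have l2 : Real.log (1 + 2 * (2 : ℝ) ^ (-((κ : ℝ) * Bu))) ≤ a' / 2 := by
    have := Real.log_le_sub_one_of_pos (show (0 : ℝ) < 1 + 2 * (2 : ℝ) ^ (-((κ : ℝ) * Bu)) by positivity)
    linarith
  linarith


theorem kkf_eps2 (η C₁ BL CB Cs a' : ℝ) (hη : 0 < η) (hC₁0 : 0 ≤ C₁) (hBL0 : 0 ≤ BL) (hCB0 : 0 ≤ CB)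
    (hCs0 : 0 ≤ Cs) (ha'0 : 0 < a') (ha'2 : a' ≤ η / (32 * ((Cs + 1) * (CB + C₁ + 1)))) :
    Cs * a' * CB + C₁ * max (η / (64 * (C₁ + 1) * (BL + 1)))
      (BL * (η / (64 * (C₁ + 1) * (BL + 1))) + η / (64 * (C₁ + 1))) + C₁ * (Cs * a') ≤ η / 16 := by
  obtain ⟨εl, hεl⟩ : ∃ εl : ℝ, εl = η / (64 * (C₁ + 1) * (BL + 1)) := ⟨_, rfl⟩
  obtain ⟨εc, hεc⟩ : ∃ εc : ℝ, εc = η / (64 * (C₁ + 1)) := ⟨_, rfl⟩
  have hεc0 : 0 < εc := hεc ▸ by positivity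
  have hεl0 : 0 < εl := hεl ▸ by positivity
  rw [← hεl, ← hεc]
  have hmax : max εl (BL * εl + εc) ≤ η / (32 * (C₁ + 1)) := by
    have e1 : (BL + 1) * εl = η / (64 * (C₁ + 1)) := by
      rw [hεl]; field_simp
    have e2 : η / (32 * (C₁ + 1)) = η / (64 * (C₁ + 1)) + η / (64 * (C₁ + 1)) := by
      field_simp; ring
    have hBLε : 0 ≤ BL * εl := mul_nonneg hBL0 hεl0.le
    have e3 : εc = (BL + 1) * εl := by rw [e1, hεc]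
    rw [e2, ← e1]
    refine max_le ?_ ?_
    · nlinarith
    · rw [e3]; nlinarith
  have hmax0 : 0 ≤ max εl (BL * εl + εc) := le_max_of_le_left hεl0.le
  have hT2a : C₁ * max εl (BL * εl + εc) ≤ η / 32 := by
    calc C₁ * max εl (BL * εl + εc) ≤ (C₁ + 1) * (η / (32 * (C₁ + 1))) :=
          mul_le_mul (by linarith) hmax hmax0 (by linarith)
      _ = η / 32 := by field_simp
  have hT2b : Cs * a' * (CB + C₁) ≤ η / 32 := by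
    calc Cs * a' * (CB + C₁) ≤ (Cs + 1) * (η / (32 * ((Cs + 1) * (CB + C₁ + 1)))) * (CB + C₁ + 1) := by
          refine mul_le_mul (mul_le_mul (by linarith) ha'2 ha'0.le (by linarith)) (by linarith)
            (by linarith) (by positivity)
      _ = η / 32 := by field_simp
  nlinarith

theorem kkf_T1 (η Cm C₁ CB n : ℝ) (hη : 0 < η) (hCm0 : 0 ≤ Cm) (hC₁0 : 0 ≤ C₁) (hCB0 : 0 ≤ CB) (hn : 0 ≤ n) :
    (4 * n + 1) * (4 * Cm / (32 * (4 * n + 1) * Cm * C₁ * CB / η + 1)) * C₁ * CB ≤ η / 8 := by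
  obtain ⟨L, hL⟩ : ∃ L : ℝ, L = 32 * (4 * n + 1) * Cm * C₁ * CB / η + 1 := ⟨_, rfl⟩
  have hL0 : 0 < L := hL ▸ by positivity
  rw [← hL]
  have hLge : 32 * (4 * n + 1) * Cm * C₁ * CB / η ≤ L := by rw [hL]; linarith
  rw [div_le_iff₀ hη] at hLge
  have : (4 * n + 1) * (4 * Cm / L) * C₁ * CB = (4 * (4 * n + 1) * Cm * C₁ * CB) / L := by
    field_simp
  rw [this, div_le_iff₀ hL0]
  nlinarith

theorem kkf_T3 (η Ah C₁ n : ℝ) (hη : 0 < η) (hn : 0 < n) (h1 : 16 * Ah * (C₁ * C₁) / η ≤ n) :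
    2 * Ah * (1 / n) * (C₁ * C₁) ≤ η / 8 := by
  rw [div_le_iff₀ hη] at h1
  have : 2 * Ah * (1 / n) * (C₁ * C₁) = (2 * Ah * (C₁ * C₁)) / n := by field_simp
  rw [this, div_le_iff₀ hn]
  nlinarith

set_option maxHeartbeats 1000000 in
/-- **Section 8 and steps 9.a-9.f, 9.b in local form.** -/
theorem kk_laws_proof (m Cstar Cbul : ℕ) (hm : 2 ≤ m) :
    ∃ E0c Astar : ℕ, 10 * (Cstar + 1) < E0c ∧ 0 < Astar ∧ ∀ η μ₀ : ℝ, 0 < η → 0 < μ₀ →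
    ∃ (Cw : ℝ) (Csupp : ℕ) (ℓ₀ : ℕ), 0 ≤ Cw ∧ ∀ ℓ ≥ ℓ₀, ∀ [NeZero (kkd ℓ ^ Astar)],
    ∃ (μ : ℤ → ℤ → KkLaw (Deck m ℤ) (Idx m → ZMod (kkd ℓ ^ Astar)))
      (WW : Finset (Matrix (Idx m → ZMod (kkd ℓ ^ Astar)) (Idx m → ZMod (kkd ℓ ^ Astar)) ℂ))
      (𝔄 : Type) (_ : Countable 𝔄)
      (A : KkArcData (Deck m ℤ) (Idx m → ZMod (kkd ℓ ^ Astar)) 𝔄),
      (∀ i k a, (μ i k).W a ∈ WW) ∧ (∀ w ∈ WW, ‖w‖ ≤ Cw) ∧
      ((WW.card : ℝ) ^ 32 ≤ (Cw * (1 + ℓ)) ^ 32 * kkd ℓ) ∧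
      (∀ i k a, ((μ i k).z a).CBound (2 ^ (Csupp * kkH ℓ i)) ∧
        ((μ i k).z a)⁻¹.CBound (2 ^ (Csupp * kkH ℓ i))) ∧
      (∀ i k, i ≤ 2 * (kkH ℓ 0 : ℤ) →
        KkWide (μ i k).p (fun a => ((μ i k).z a).gX.bet) ((2 : ℝ) ^ (E0c * kkH ℓ i))⁻¹) ∧
      (∀ i k, (kkH ℓ 0 : ℤ) ≤ i →
        KkWide (μ i k).p (fun a => ((μ i k).z a).gY.bet) ((2 : ℝ) ^ (E0c * kkH ℓ i))⁻¹) ∧
      A.Good Deck.z0 ∧
      (∀ α (i k : ℤ), |i - k| ≤ 1 →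
        ‖(μ i k).meanOp * A.Q Deck.z0 _ α - ((A.hh α i * A.hh α k : ℝ) : ℂ) • A.pp α‖ ≤ η) ∧
      (∀ α i, A.hh α i ≠ 0 →
        ENNReal.ofReal (2 ^ (Cbul * kkH ℓ i)) * specHS (A.pp α)
          ≤ ENNReal.ofReal (μ₀ * (A.hi α - A.lo α))) ∧
      ∃ α, A.pp α ≠ 0 := by
  classical
  obtain ⟨E, hE⟩ : ∃ E : ℕ, E = 10 * (Cstar + 1) + 1 := ⟨_, rfl⟩
  obtain ⟨A, hA⟩ : ∃ A : ℕ, A = 15009 * m * E + 5003 * Cbul + 1 := ⟨_, rfl⟩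
  obtain ⟨κ, hκ⟩ : ∃ κ : ℕ, κ = 2 * m * (A + 2 * E) + Cbul + 1 := ⟨_, rfl⟩
  have hm0 : 0 < m := by omega
  have hE1 : 1 ≤ E := by omega
  have hA1 : 1 ≤ A := by omega
  have hAX : 15009 * m * E ≤ A := by omega
  have hAT : 5003 * Cbul + 1 ≤ A := by omega
  have hκY : 2 * m * (A + 2 * E) ≤ κ := by omega
  have hκ0 : 0 < κ := by omega
  have hκX : m * E ≤ κ := by nlinarith
  have hκA : 2 * m * A ≤ κ := by nlinarith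
  have hκT : Cbul ≤ κ := by omega
  refine ⟨E, A, by omega, by omega, fun η μ₀ hη hμ₀ => ?_⟩
  obtain ⟨w⟩ := exists_win m
  obtain ⟨C₁, hC₁0, HC₁⟩ := tpl_l1 w
  obtain ⟨Lam, y0, u, Cp, hLam1, hy0, hy01, hu, hCp, Hproj⟩ := kk_proj w (η / 8) (by positivity)
  have hLam : 0 < Lam := by linarith
  obtain ⟨Cs, hCs0, HCs⟩ := tpl_scale w Lam hLam1
  obtain ⟨Ah, hAh1, hAh⟩ := hwin_c2b
  obtain ⟨BX, hBX0, HBX⟩ := kkXLaw_c_le w Lam hLam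
  obtain ⟨BL, hBL0, HBL⟩ := kkLamLaw_c_le w Lam hLam
  obtain ⟨CB, hCB⟩ : ∃ CB : ℝ, CB = max BX BL := ⟨_, rfl⟩
  have hCB0 : 0 ≤ CB := hCB ▸ le_max_of_le_left hBX0
  obtain ⟨a', ha'⟩ : ∃ a' : ℝ, a' = min 1 (η / (32 * ((Cs + 1) * (CB + C₁ + 1)))) := ⟨_, rfl⟩
  have ha'0 : 0 < a' := ha' ▸ lt_min one_pos (by positivity)
  have ha'1 : a' ≤ 1 := ha' ▸ min_le_left _ _
  have ha'2 : a' ≤ η / (32 * ((Cs + 1) * (CB + C₁ + 1))) := ha' ▸ min_le_right _ _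
  obtain ⟨ns₁, Bu, hns₁, Hmesh⟩ := kkf_mesh κ hκ0 a' ha'0
  obtain ⟨ns₂, hns₂, Hu⟩ := kk_num_mesh κ (min u 1) (lt_min hu one_pos)
  obtain ⟨ns₃, hns₃⟩ := exists_nat_ge (16 * Ah * (C₁ * C₁) / η)
  obtain ⟨ns, hns⟩ : ∃ ns : ℕ, ns = max (max ns₁ ns₂) (ns₃ + 1) := ⟨_, rfl⟩
  have hnsA : ns₁ ≤ ns := hns ▸ (le_max_left _ _).trans (le_max_left _ _)
  have hnsB : ns₂ ≤ ns := hns ▸ (le_max_right _ _).trans (le_max_left _ _)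
  have hnsC : ns₃ + 1 ≤ ns := hns ▸ le_max_right _ _
  have hns0 : 0 < ns := by omega
  have hnsR : (0 : ℝ) < ns := by exact_mod_cast hns0
  obtain ⟨εc, hεc⟩ : ∃ εc : ℝ, εc = η / (64 * (C₁ + 1)) := ⟨_, rfl⟩
  obtain ⟨εl, hεl⟩ : ∃ εl : ℝ, εl = η / (64 * (C₁ + 1) * (BL + 1)) := ⟨_, rfl⟩
  have hεc0 : 0 < εc := hεc ▸ by positivity
  have hεl0 : 0 < εl := hεl ▸ by positivity
  obtain ⟨ϑ, hϑ0, hϑ1, Hcong⟩ := kk_cong w Lam hLam1 εc hεc0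
  obtain ⟨Cm, hCm0, HCm⟩ := masks_exist (κ := (κ : ℝ)) (s := 1 / (ns : ℝ)) (by exact_mod_cast hκ0)
    (by positivity) (by rw [div_le_one hnsR]; exact_mod_cast hns0)
  obtain ⟨L, hL⟩ : ∃ L : ℝ, L = 32 * (4 * ns + 1) * Cm * C₁ * CB / η + 1 := ⟨_, rfl⟩
  have hL0 : 0 < L := hL ▸ by positivity
  obtain ⟨Cw, hCw⟩ : ∃ Cw : ℝ, Cw = 2 * ((4 * ns + 1) * (Cm * (2 * L + 3) * (BX * CB)))
      + 4 * ((ns : ℝ) * (Bu + 20013) + 3) + 1 := ⟨_, rfl⟩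
  have hCw0 : 0 < Cw := hCw ▸ by positivity
  obtain ⟨Csupp, ℓa, Hcb⟩ := kkl_cbound m A κ hm0 hκ0 Lam L hLam hL0
  obtain ⟨ℓb, Hlists⟩ := kk_lists_pf (m := m) A κ hA1 w Lam hLam εl hεl0
  obtain ⟨ℓc, Htr⟩ := kk_num_trace m Cbul A κ hm hAT hκT hκ0 Cp μ₀ hCp hμ₀
  obtain ⟨ℓd, Hsm⟩ := kkl_delta_small A hA1 (min (y0 ^ m) ϑ) (lt_min (by positivity) hϑ0)
  refine ⟨Cw, Csupp, max (max ℓa ℓb) (max (max ℓc ℓd) 1), hCw0.le, fun ℓ hℓ _ => ?_⟩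
  have hℓa : ℓa ≤ ℓ := ((le_max_left _ _).trans (le_max_left _ _)).trans hℓ
  have hℓb : ℓb ≤ ℓ := ((le_max_right _ _).trans (le_max_left _ _)).trans hℓ
  have hℓc : ℓc ≤ ℓ := (((le_max_left _ _).trans (le_max_left _ _)).trans (le_max_right _ _)).trans hℓ
  have hℓd : ℓd ≤ ℓ := (((le_max_right _ _).trans (le_max_left _ _)).trans (le_max_right _ _)).trans hℓ
  have hℓ1 : 1 ≤ ℓ := ((le_max_right _ _).trans (le_max_right _ _)).trans hℓ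
  have hq0 : (0 : ℝ) < ((kkd ℓ ^ A : ℕ) : ℝ) := by
    exact_mod_cast Nat.pos_of_ne_zero (NeZero.ne (kkd ℓ ^ A))
  have hq1 : (1 : ℝ) ≤ ((kkd ℓ ^ A : ℕ) : ℝ) := by
    exact_mod_cast Nat.one_le_iff_ne_zero.2 (NeZero.ne (kkd ℓ ^ A))
  obtain ⟨f, hf1, hf2, hf3, hf4⟩ := HCm (1 / ((kkd ℓ ^ A : ℕ) : ℝ)) (by positivity)
    (by rw [div_le_one hq0]; exact hq1)
  obtain ⟨⟨ωY, HωY⟩, ωC, HωC⟩ := Hlists ℓ hℓb
  let c : KkCfg m (kkd ℓ ^ A) :=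
    ⟨κ, ns, Bu, kkH ℓ 0, w, Lam, f, kkKi ℓ A κ L, kkMs ℓ, kkMs_pos ℓ, ωY, ωC⟩
  have e_κ : c.κ = κ := rfl
  have e_I : c.I = kkH ℓ 0 := rfl
  have e_K : c.K = kkKi ℓ A κ L := rfl
  have e_M : c.M = kkMs ℓ := rfl
  have hcns : 0 < c.ns := hns0
  have hcκ0 : 0 < c.κ := hκ0
  have hcL : 0 < c.Lam := hLam
  -- the second factor
  have hsec := fun (i : ℤ) (r : Fin (4 * c.ns + 1)) =>
    kkl_sec_le c hm0 e_κ e_I hκA hκ0 hℓ1 hcns BX BL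
      (fun y h1 h2 => (HBX (kkd ℓ ^ A) y h1 h2).2) (fun y h1 h2 => HBL (kkd ℓ ^ A) y h1 h2) i r
  have hSB : ∀ i r, ‖(c.sec i (c.idx i r)).meanOp‖ ≤ CB := fun i r => hCB ▸ (hsec i r).2
  -- scalars
  have hcc : ∀ i k a, |((c.blk i k).c a).re| + |((c.blk i k).c a).im| ≤ Cw := by
    intro i k a
    have h1 := kkl_blk_c c hm0 e_κ hκ0 hcns L Cm BX CB hL0 hCm0 hBX0 e_K hf3
      (fun y h1 h2 => (HBX (kkd ℓ ^ A) y h1 h2).1) (fun i r a => hCB ▸ (hsec i r).1 a) i k a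
    have h2 : (0 : ℝ) ≤ 4 * ((ns : ℝ) * (Bu + 20013) + 3) + 1 := by positivity
    have h3 : (c.ns : ℝ) = ns := rfl
    rw [h3] at h1
    rw [hCw]
    linarith
  -- the arcs
  have hδy : c.δ ≤ y0 ^ m := (Hsm ℓ hℓd).1.trans (min_le_left _ _)
  have hϑ' : ((2 : ℝ) ^ ℓ)⁻¹ ≤ ϑ := (Hsm ℓ hℓd).2.trans (min_le_right _ _)
  have hmesh_u : (2 : ℝ) ^ ((c.κ : ℝ) * c.s) - 1 ≤ min u 1 := Hu ns hnsB
  have hproj : c.ProjOk (η / 8) Cp :=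
    c.projOk_of hm0 hcκ0 hcns (η / 8) y0 u Cp hy0 hδy (hmesh_u.trans (min_le_left _ _))
      (fun y₁ y₂ hi => Hproj (kkd ℓ ^ A) y₁ y₂ hi)
  -- scales
  have hy1 : ∀ a, c.y1 a ≤ 1 := fun a =>
    KkCfg.kk_root_le hm0 (c.t_pos a).le zero_le_one (by
      rw [one_pow]; exact (c.t_lt a).le.trans c.δ_le_one)
  have hy2 : ∀ a, c.y2 a ≤ 1 := fun a =>
    KkCfg.kk_root_le hm0 (sub_pos.2 (c.t_lt a)).le zero_le_one (by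
      rw [one_pow]; linarith [c.t_pos a, c.δ_le_one])
  have hsc := fun (a β : ℤ) (hβ : β = a ∨ β = a + 1) =>
    c.scale_close_pf hm0 hcκ0 hcns Cs a' ha'0.le ha'1 (Hmesh ns hnsA) (fun y y' a => HCs y y' a) a β hβ
  have hX : ∀ a, ∑' g, ‖tpl c.w c.Lam (c.y1 a) g‖ ≤ C₁ := fun a =>
    HC₁ Lam (c.y1 a) hLam (c.y1_pos a) (hy1 a)
  have hXB : ∀ β, ‖kkLX (kkd ℓ ^ A) (tpl c.w c.Lam (c.y1 β))‖ ≤ C₁ := fun β =>
    (kkLX_norm_le (kkd ℓ ^ A) (tpl_finite_support w hLam (c.y1_pos β))).trans (hX β)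
  have hYB : ∀ a, ‖kkLY (kkd ℓ ^ A) (kkTplc c.w c.Lam (c.y2 a))‖ ≤ C₁ := by
    intro a
    have hfin : (Function.support (kkTplc c.w c.Lam (c.y2 a))).Finite := by
      refine (tpl_finite_support w hLam (c.y2_pos a)).subset fun g hg => ?_
      intro h0
      apply hg
      show (starRingEnd ℂ) (tpl w Lam (c.y2 a) g) = 0
      rw [h0, map_zero]
    refine (kkLY_norm_le (kkd ℓ ^ A) hfin).trans ?_
    have e : (fun g => ‖kkTplc c.w c.Lam (c.y2 a) g‖) = fun g => ‖tpl w Lam (c.y2 a) g‖ := by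
      funext g
      exact RCLike.norm_conj _
    rw [e]
    exact HC₁ Lam (c.y2 a) hLam (c.y2_pos a) (hy2 a)
  have hPB : ∀ a, ‖kkP (kkd ℓ ^ A) c.w c.Lam (c.y1 a) (c.y2 a)‖ ≤ C₁ * C₁ := fun a =>
    (norm_mul_le _ _).trans (mul_le_mul (hXB a) (hYB a) (norm_nonneg _) hC₁0)
  have hBLm : ∀ y : ℝ, 0 < y → ((kkd ℓ ^ A : ℕ) : ℝ) * y ≤ 1 →
      ‖(kkLamLaw (kkd ℓ ^ A) c.w c.Lam y).meanOp‖ ≤ BL := fun y h1 h2 =>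
    KkPre.meanOp_norm_le _ BL (HBL (kkd ℓ ^ A) y h1 h2) (fun _ => by
      have := kk_Rq_norm_le (m := m) (kkd ℓ ^ A) 1
      rw [Rq_one] at this
      exact this)
  have h3 : (2 : ℝ) ^ ((κ : ℝ) * c.s) ≤ 3 := by
    have := hmesh_u.trans (min_le_right _ _)
    have e : (c.κ : ℝ) = κ := rfl
    rw [e] at this
    linarith
  have hfac := kkl_fac c E hE1 hm0 hA1 e_κ e_I hκY hκ0 hℓ1 hcns hcL h3 (Cs * a') εl εc C₁ CB BL ϑ hC₁0 hϑ'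
    hsc hX hSB hBLm HωY HωC (fun s lo hi => Hcong (kkd ℓ ^ A) s lo hi)
  have htr := kkl_trunc c e_κ L Cm hL0 hCm0 e_K hf3 hf4
  -- the error budget
  obtain ⟨ε₂, hε₂⟩ : ∃ ε₂ : ℝ, ε₂ = Cs * a' * CB + C₁ * max εl (BL * εl + εc) + C₁ * (Cs * a') := ⟨_, rfl⟩
  have hε₂0 : 0 ≤ ε₂ := by
    have hmax0 : 0 ≤ max εl (BL * εl + εc) := le_max_of_le_left hεl0.le
    rw [hε₂]; positivity
  have hε₂le : ε₂ ≤ η / 16 := by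
    rw [hε₂, hεl, hεc]
    exact kkf_eps2 η C₁ BL CB Cs a' hη hC₁0 hBL0 hCB0 hCs0 ha'0 ha'2
  have hT1 : (4 * (c.ns : ℝ) + 1) * (4 * Cm / L) * C₁ * CB ≤ η / 8 := by
    rw [hL]
    exact kkf_T1 η Cm C₁ CB ns hη hCm0 hC₁0 hCB0 hnsR.le
  have hT3 : 2 * Ah * c.s * (C₁ * C₁) ≤ η / 8 :=
    kkf_T3 η Ah C₁ ns hη hnsR (hns₃.trans (by exact_mod_cast (by omega : ns₃ ≤ ns)))
  have hloc := fun (α : Option ℤ) (i k : ℤ) =>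
    c.blk_local hm0 hcκ0 hcns hcL C₁ CB (C₁ * C₁) (4 * Cm / L) ε₂ (η / 8) Ah Cp hε₂0 (by linarith)
      hf1 hf2 htr hXB hSB hPB (fun i a β h1 h2 => (hfac i a β h1 h2).trans hε₂.ge) hproj hAh.lipschitz α i k
  refine ⟨fun i k => (c.blk i k).toLaw Cw hCw0 (hcc i k), c.alphabet Cw, Option ℤ, inferInstance, c.arcs,
    ?_, ?_, ?_, ?_, ?_, ?_, ?_, ?_, ?_, ?_⟩
  · exact fun i k a => c.toLaw_W_mem hcns (by rw [e_I]; positivity) i k Cw hCw0 (hcc i k) a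
  · exact fun W hW => c.alphabet_norm_le Cw hCw0.le W hW
  · refine kkl_card c e_I e_M Cw Cw ?_
    have e1 : (c.ns : ℝ) = ns := rfl
    have e2 : (c.Bu : ℝ) = Bu := rfl
    rw [e1, e2, hCw]
    have : (0 : ℝ) ≤ 2 * ((4 * ns + 1) * (Cm * (2 * L + 3) * (BX * CB))) := by positivity
    linarith
  · exact fun i k a => Hcb ℓ hℓa c e_κ rfl e_K hcns i k a.1
  · exact fun i k hi => (kkl_wide_X c E hm0 e_κ hAX hκX hℓ1 hcns i k hi).toLaw Cw hCw0 (hcc i k)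
  · exact fun i k hi => (kkl_wide_Y c E hm0 e_κ e_I hκY hκ0 hℓ1 hcns i k hi).toLaw Cw hCw0 (hcc i k)
  · exact c.arcs_good hm0 hcκ0 hcns (η / 8) Cp hproj
  · intro α i k _
    rw [KkPre.meanOp_toLaw]
    refine (hloc α i k).trans ?_
    linarith
  · refine c.arcs_trace hm0 hcκ0 hcns (η / 8) Cp hproj (fun i => 2 ^ (Cbul * kkH ℓ i)) (fun i => by positivity)
      μ₀ (fun a i hai => ?_)
    exact Htr ℓ hℓc i _ (le_of_lt ((hwin_ne_zero_iff.1 hai).trans (by norm_num)))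
  · exact c.arcs_ne_zero (η / 8) Cp hproj

end Claimed.Agent.R300
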