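/-
Row 300, KK steps 9.g-9.i (`kk_realize` of `KkModel.lean`).  Sub-captain: helper121.
File `KkRzWalk`: walks in the finite pieces, layers along a walk, girth of the finite pieces.
-/
import Claimed.Agent.R300.KkRzFin

set_option autoImplicit false

namespace Claimed.Agent.R300

open Nil HeisLaw
open scoped ENNReal ComplexConjugate InnerProductSpace Matrix.Norms.L2Operator

namespace KkGraph

variable {ℓ : ℕ} (Y : KkGraph ℓ)

/-! ## Walks -/

/-- the two ends of a dart lie in neighbouring layers. -/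
private theorem kkrz_lay_dart (d : Y.E0 × Bool) :
    |Y.lay (Y.darts.tgt d) - Y.lay (Y.darts.src d)| ≤ 1 ∧
      |Y.lay (Y.src d.1) - Y.lay (Y.darts.src d)| ≤ 1 := by
  obtain ⟨e, b⟩ := d
  have hb := Y.band e
  cases b
  · have h1 : Y.darts.tgt (e, false) = Y.tgt e := rfl
    have h2 : Y.darts.src (e, false) = Y.src e := rfl
    rw [h1, h2]
    refine ⟨by rw [abs_sub_comm]; exact hb, by simp⟩
  · have h1 : Y.darts.tgt (e, true) = Y.src e := rfl
    have h2 : Y.darts.src (e, true) = Y.tgt e := rfl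
    rw [h1, h2]
    exact ⟨hb, hb⟩

/-- the layer changes by at most one along a dart, so every edge of a walk from `v` has its source within
`w.length` of the layer of `v`. -/
theorem lay_of_walk (v v' : Y.V0) (w : List (Y.E0 × Bool)) (hw : Y.darts.IsWalk v w v') :
    ∀ d ∈ w, |Y.lay (Y.src d.1) - Y.lay v| ≤ w.length := by
  induction w generalizing v with
  | nil => intro d hd; simp at hd
  | cons d0 w' ih =>
    obtain ⟨h1, h2⟩ := hw
    obtain ⟨h3, h4⟩ := Y.kkrz_lay_dart d0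
    rw [h1] at h3 h4
    intro d hd
    have hlen : (((d0 :: w').length : ℕ) : ℤ) = (w'.length : ℤ) + 1 := by
      simp
    rw [hlen]
    rcases List.mem_cons.1 hd with rfl | hd'
    · have : (0 : ℤ) ≤ (w'.length : ℤ) := Int.natCast_nonneg _
      linarith
    · have h5 := ih _ h2 d hd'
      have h6 : Y.lay (Y.src d.1) - Y.lay v =
          (Y.lay (Y.src d.1) - Y.lay (Y.darts.tgt d0)) + (Y.lay (Y.darts.tgt d0) - Y.lay v) := by ring
      rw [h6]
      exact (abs_add_le _ _).trans (add_le_add h5 h3)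

/-- forgetting that the edges lie in `S`. -/
def up (S : Finset Y.E0) (d : S × Bool) : Y.E0 × Bool := (d.1, d.2)

private theorem kkrz_up_inj (S : Finset Y.E0) : Function.Injective (Y.up S) := by
  rintro ⟨⟨e, he⟩, b⟩ ⟨⟨e', he'⟩, b'⟩ h
  simp only [up, Prod.mk.injEq] at h
  obtain ⟨rfl, rfl⟩ := h
  rfl

theorem sub_isWalk (S : Finset Y.E0) (v v' : Y.V0) (w : List (S × Bool)) :
    (Y.sub S).IsWalk v w v' ↔ Y.darts.IsWalk v (w.map (Y.up S)) v' := by
  induction w generalizing v with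
  | nil => exact Iff.rfl
  | cons d w' ih =>
    have h1 : (Y.sub S).IsWalk v (d :: w') v' ↔
        (Y.sub S).src d = v ∧ (Y.sub S).IsWalk ((Y.sub S).tgt d) w' v' := Iff.rfl
    have h2 : Y.darts.IsWalk v ((d :: w').map (Y.up S)) v' ↔
        Y.darts.src (Y.up S d) = v ∧ Y.darts.IsWalk (Y.darts.tgt (Y.up S d)) (w'.map (Y.up S)) v' :=
      Iff.rfl
    rw [h1, h2, ih]
    exact Iff.rfl

private theorem kkrz_up_ne (S : Finset Y.E0) (d d' : S × Bool) :
    Y.up S d' ≠ Y.darts.inv (Y.up S d) ↔ d' ≠ (Y.sub S).inv d := by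
  have h1 : Y.darts.inv (Y.up S d) = Y.up S ((Y.sub S).inv d) := rfl
  rw [h1]
  exact (Y.kkrz_up_inj S).ne_iff

theorem sub_cycRed (S : Finset Y.E0) (w : List (S × Bool)) :
    (Y.sub S).CycRed w ↔ Y.darts.CycRed (w.map (Y.up S)) := by
  unfold HlGraph.CycRed HlGraph.Reduced
  rw [List.isChain_map]
  simp only [kkrz_up_ne, List.head?_map, List.getLast?_map, Option.mem_def, Option.map_eq_some_iff,
    forall_exists_index, and_imp, forall_apply_eq_imp_iff₂]

theorem exists_lift (S : Finset Y.E0) (w : List (Y.E0 × Bool)) (h : ∀ d ∈ w, d.1 ∈ S) :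
    ∃ w' : List (S × Bool), w'.map (Y.up S) = w := by
  induction w with
  | nil => exact ⟨[], rfl⟩
  | cons d w ih =>
    obtain ⟨w', hw'⟩ := ih fun d' hd' => h d' (List.mem_cons_of_mem _ hd')
    refine ⟨(⟨d.1, h d List.mem_cons_self⟩, d.2) :: w', ?_⟩
    rw [List.map_cons, hw']
    rfl

/-- girth of the graph on a set of kept edges near the layer `i`. -/
theorem sub_girth (hY : Y.Girth) (i : ℤ) (r : ℕ) (S : Finset Y.E0) (hS : S ⊆ Y.nearE i r)
    (x : Y.V0) (c : List (S × Bool)) (hne : c ≠ []) (hw : (Y.sub S).IsWalk x c x)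
    (hc : (Y.sub S).CycRed c) : (kkH ℓ i - r - 1) / (400 * ℓ) < c.length := by
  have hcyc : Y.IsCyc x (c.map (Y.up S)) := by
    refine ⟨by simpa using hne, (Y.sub_isWalk S x x c).1 hw, (Y.sub_cycRed S c).1 hc, ?_⟩
    intro d hd
    obtain ⟨d', _, rfl⟩ := List.mem_map.1 hd
    exact (Y.mem_nearE.1 (hS d'.1.2)).1
  have h1 := hY x _ hcyc
  rw [List.length_map] at h1
  refine Nat.div_lt_of_lt_mul (lt_of_le_of_lt ?_ h1)
  cases c with
  | nil => exact absurd rfl hne
  | cons d0 c' =>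
    have h2 : Y.darts.src (Y.up S d0) = x := ((Y.sub_isWalk S x x (d0 :: c')).1 hw).1
    have h3 := (Y.kkrz_lay_dart (Y.up S d0)).2
    rw [h2] at h3
    have h4 : |Y.lay (Y.src d0.1) - i| ≤ r := (Y.mem_nearE.1 (hS d0.1.2)).2
    have h5 : Y.src (Y.up S d0).1 = Y.src d0.1 := rfl
    rw [h5] at h3
    unfold kkH
    rw [abs_le] at h3 h4
    omega

private theorem kkrz_blk_isWalk [DecidableEq Y.V0] (i k : ℤ) (x y : Y.blkV i k)
    (c : List (Y.blkE i k × Bool)) (hw : (smpGraph (Y.bsrc i k) (Y.btgt i k)).IsWalk x c y) :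
    (Y.sub (Y.blkE i k)).IsWalk x.1 c y.1 := by
  induction c generalizing x with
  | nil => exact congrArg Subtype.val hw
  | cons d c' ih =>
    obtain ⟨h1, h2⟩ := hw
    refine ⟨?_, ?_⟩
    · rw [← h1]
      obtain ⟨e, b⟩ := d
      cases b <;> rfl
    · have h3 := ih _ h2
      have h4 : ((smpGraph (Y.bsrc i k) (Y.btgt i k)).tgt d).1 = (Y.sub (Y.blkE i k)).tgt d := by
        obtain ⟨e, b⟩ := d
        cases b <;> rfl
      rw [h4] at h3
      exact h3

/-- girth of the finite block graph. -/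
theorem blk_girth [DecidableEq Y.V0] (hY : Y.Girth) (i k : ℤ) (hik : |i - k| ≤ 1)
    (x : Y.blkV i k) (c : List (Y.blkE i k × Bool)) (hne : c ≠ [])
    (hw : (smpGraph (Y.bsrc i k) (Y.btgt i k)).IsWalk x c x)
    (hc : (smpGraph (Y.bsrc i k) (Y.btgt i k)).CycRed c) : (kkH ℓ i - 1) / (400 * ℓ) < c.length := by
  have hS : Y.blkE i k ⊆ Y.nearE i 0 := by
    intro e he
    obtain ⟨h1, h2, _⟩ := Y.mem_blkE.1 he
    exact Y.mem_nearE.2 ⟨h1, by simp [h2]⟩
  have h := Y.sub_girth hY i 0 (Y.blkE i k) hS x.1 c hne (Y.kkrz_blk_isWalk i k x x c hw) hc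
  simpa using h

end KkGraph

end Claimed.Agent.R300
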