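/-
Row 300, KK steps 9.g-9.i (`kk_realize` of `KkModel.lean`).  Sub-captain: helper121.
File `KkRzDefs`: laws on the edges and the two families of bad events.
All statements about `smpP` take `[DecidableEq Y.E0]`, `[DecidableEq Y.V0]` as instance arguments.
-/
import Claimed.Agent.R300.KkRzDeg
import Claimed.Agent.R300.KkRzWalk

set_option autoImplicit false

namespace Claimed.Agent.R300

open Nil HeisLaw
open scoped ENNReal ComplexConjugate InnerProductSpace Matrix.Norms.L2Operator

namespace KkGraph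

variable {ℓ : ℕ} (Y : KkGraph ℓ)

/-! ## Laws on the edges, bad events -/

variable {F J : Type} (μ : ℤ → ℤ → KkLaw F J)

/-- the law of the edge `e`. -/
abbrev law (e : Y.E0) : KkLaw F J := μ (Y.lay (Y.src e)) (Y.lay (Y.tgt e))

/-- **Bad event of the layer `i`**: a short cyclically reduced closed walk based in the layer `i`, inside the finite
graph `S`, with trivial holonomy. -/
def BadG [Group F] (Cstar : ℕ) (i : ℤ) (S : Finset Y.E0) (x : ∀ e : S, (Y.law μ e).Ω) : Prop :=
  ∃ (v : Y.V0) (w : List (S × Bool)), Y.lay v = i ∧ w ≠ [] ∧ (Y.sub S).IsWalk v w v ∧ (Y.sub S).CycRed w ∧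
    4 * ℓ * w.length ≤ Cstar * kkH ℓ i ∧
    (w.map fun d => if d.2 then ((Y.law μ d.1).z (x d.1))⁻¹ else (Y.law μ d.1).z (x d.1)).prod = 1

/-- the centred coefficients of the finite block `(i, k)`. -/
noncomputable def blkC [Group F] [DecidableEq F] [Fintype J] [DecidableEq J] [DecidableEq Y.V0] [DecidableEq Y.E0]
    (i k : ℤ) (x : ∀ e : Y.blkE i k, (Y.law μ e).Ω) : Y.blkV i k × J → Y.blkV i k × J → F → ℂ :=
  smpCoef (Y.bsrc i k) (Y.btgt i k) (fun e => (Y.law μ e).W (x e)) (fun e => (Y.law μ e).z (x e))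
    - smpE (fun e : Y.blkE i k => (Y.law μ e).p) (fun x' =>
        smpCoef (Y.bsrc i k) (Y.btgt i k) (fun e => (Y.law μ e).W (x' e)) (fun e => (Y.law μ e).z (x' e)))

/-- **Bad event of the block `(i, k)`**. -/
def BadB [Group F] [DecidableEq F] [Fintype J] [DecidableEq J] [DecidableEq Y.V0] [DecidableEq Y.E0]
    (ε : ℝ) (i k : ℤ) (x : ∀ e : Y.blkE i k, (Y.law μ e).Ω) : Prop :=
  kkNrm ℓ i k * ε < ‖smpConv (Y.blkC μ i k x)‖

end KkGraph

end Claimed.Agent.R300
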