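/-
Row 300, KK steps 9.g-9.i (`kk_realize` of `KkModel.lean`).  Sub-captain: helper121.
File `KkRzCoef`: coefficients of `T_P` and of the model on one block, as finite sums over the block.
Proofs: helper124 (auxiliary names: prefix `kkrzCo_`).
-/
import Claimed.Agent.R300.KkRzDefs

set_option autoImplicit false
set_option linter.unusedSectionVars false

namespace Claimed.Agent.R300

open Nil HeisLaw
open scoped ENNReal ComplexConjugate InnerProductSpace Matrix.Norms.L2Operator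

variable {ℓ : ℕ} (Y : KkGraph ℓ) {F J : Type} [Group F]

/-- the matrix of `E[W ⊗ λ(z)]`. -/
theorem kkrz_meanOp_hasKer [Fintype J] (μ : KkLaw F J) : SmpHasKer μ.meanOp (smpLConvK μ.mean) := by
  classical
  obtain ⟨R, hR⟩ := smpCoefBd_exists_of_finite μ.mean (Finset.univ.image μ.z) (by
    intro u v g hg
    unfold KkLaw.mean
    refine Finset.sum_eq_zero fun a _ => ?_
    rw [if_neg fun h => hg (Finset.mem_image.2 ⟨a, Finset.mem_univ a, h⟩), mul_zero])
  exact hR.lhasKer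

/-- `U⁰_ik` is supported on the block. -/
theorem kkrz_U0_supp [DecidableEq Y.V0] (i k : ℤ) : KkSupp (Y.U0 i k) (Y.blkV i k) := by
  intro v v' hv
  unfold KkGraph.U0
  split_ifs with h
  · have h0 : Y.inc v v' = 0 := by
      by_contra hne
      obtain ⟨⟨e, he1, he2⟩⟩ := (Nat.card_ne_zero.1 hne).1
      refine hv ⟨Finset.mem_union_left _ (Y.mem_fA.2 ⟨h.1, ?_⟩),
        Finset.mem_union_right _ (Y.mem_fB.2 ⟨h.2, ?_⟩)⟩
      · rw [← he1]; exact Y.src_A e
      · rw [← he2]; exact Y.tgt_B e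
    rw [h0]
    simp
  · rfl

/-- coefficients of `T_P` from the `A` side to the `B` side, as a finite sum over the block. -/
theorem kkrz_coef_AB [DecidableEq F] (z : Y.E0 → F) (W : Y.E0 → Matrix J J ℂ) (i k : ℤ) (a b : Y.V0 × J) (g : F)
    (ha : Y.lay a.1 = i ∧ Y.sideA a.1) (hb : Y.lay b.1 = k ∧ ¬ Y.sideA b.1) [DecidableEq Y.V0] :
    Y.coef z W a b g = ((kkNrm ℓ i k)⁻¹ : ℝ) *
      ∑ e : Y.blkE i k, if Y.src e = a.1 ∧ Y.tgt e = b.1 ∧ z e = g then W e a.2 b.2 else 0 := by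
  have _ := hb
  unfold KkGraph.coef
  rw [tsum_eq_sum (s := Y.blkE i k), Finset.sum_coe_sort (Y.blkE i k)
    (fun e => if Y.src e = a.1 ∧ Y.tgt e = b.1 ∧ z e = g then W e a.2 b.2 else 0), Finset.mul_sum]
  · refine Finset.sum_congr rfl fun e he => ?_
    obtain ⟨hk, h1, h2⟩ := Y.mem_blkE.1 he
    rw [if_neg (c := Y.tgt e = a.1 ∧ _) fun h => Y.tgt_B e (h.1 ▸ ha.2), add_zero, h1, h2]
    by_cases h : Y.src e = a.1 ∧ Y.tgt e = b.1 ∧ z e = g
    · rw [if_pos h, if_pos ⟨h.1, h.2.1, hk, h.2.2⟩]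
    · rw [if_neg h, if_neg fun h' => h ⟨h'.1, h'.2.1, h'.2.2.2⟩, mul_zero]
  · intro e he
    rw [if_neg (c := Y.tgt e = a.1 ∧ _) fun h => Y.tgt_B e (h.1 ▸ ha.2), add_zero]
    refine if_neg fun h => he (Y.mem_blkE.2 ⟨h.2.2.1, ?_, ?_⟩)
    · rw [h.1]; exact ha.1
    · rw [h.2.1]; exact hb.1

/-- `keep`-compressed `U⁰_ik ⊗ mean`, as a finite sum over the block. -/
theorem kkrz_mean_AB [DecidableEq F] (μ : ℤ → ℤ → KkLaw F J) (i k : ℤ) (a b : Y.V0 × J) (g : F)
    (hk : Y.keep a.1 ∧ Y.keep b.1) [DecidableEq Y.V0] :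
    Y.U0 i k a.1 b.1 * (μ i k).mean a.2 b.2 g = ((kkNrm ℓ i k)⁻¹ : ℝ) *
      ∑ e : Y.blkE i k, if Y.src e = a.1 ∧ Y.tgt e = b.1 then
        ∑ x, ((Y.law μ e).p x : ℂ) * (if (Y.law μ e).z x = g then (Y.law μ e).W x a.2 b.2 else 0) else 0 := by
  have hmean : ∀ ν : KkLaw F J, ∑ x, (ν.p x : ℂ) * (if ν.z x = g then ν.W x a.2 b.2 else 0)
      = ν.mean a.2 b.2 g := by
    intro ν
    unfold KkLaw.mean
    refine Finset.sum_congr rfl fun x _ => ?_
    by_cases h : ν.z x = g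
    · rw [if_pos h, if_pos h]
    · rw [if_neg h, if_neg h]
  have h1 : ∀ e : Y.blkE i k, (if Y.src e = a.1 ∧ Y.tgt e = b.1 then
        ∑ x, ((Y.law μ e).p x : ℂ) * (if (Y.law μ e).z x = g then (Y.law μ e).W x a.2 b.2 else 0)
        else 0) = if Y.src e = a.1 ∧ Y.tgt e = b.1 then (μ i k).mean a.2 b.2 g else 0 := by
    intro e
    obtain ⟨-, e1, e2⟩ := Y.mem_blkE.1 e.2
    rw [hmean (Y.law μ e)]
    show (if _ then (μ (Y.lay (Y.src e)) (Y.lay (Y.tgt e))).mean a.2 b.2 g else 0) = _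
    rw [e1, e2]
  rw [Finset.sum_congr rfl fun e _ => h1 e, Finset.sum_coe_sort (Y.blkE i k)
    (fun e => if Y.src e = a.1 ∧ Y.tgt e = b.1 then (μ i k).mean a.2 b.2 g else 0),
    ← Finset.sum_filter, Finset.sum_const, nsmul_eq_mul]
  unfold KkGraph.U0
  split_ifs with h
  · have hc : Y.inc a.1 b.1
        = ((Y.blkE i k).filter fun e => Y.src e = a.1 ∧ Y.tgt e = b.1).card := by
      unfold KkGraph.inc
      refine Nat.subtype_card _ fun e => ?_
      rw [Finset.mem_filter, Y.mem_blkE]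
      constructor
      · exact fun h' => h'.2
      · intro h'
        refine ⟨⟨⟨?_, ?_⟩, ?_, ?_⟩, h'⟩
        · rw [h'.1]; exact hk.1
        · rw [h'.2]; exact hk.2
        · rw [h'.1]; exact h.1
        · rw [h'.2]; exact h.2
    rw [hc]
    push_cast
    ring
  · have hc : ((Y.blkE i k).filter fun e => Y.src e = a.1 ∧ Y.tgt e = b.1) = ∅ := by
      refine Finset.filter_eq_empty_iff.2 fun e he h' => h ?_
      obtain ⟨-, e1, e2⟩ := Y.mem_blkE.1 he
      exact ⟨h'.1 ▸ e1, h'.2 ▸ e2⟩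
    rw [hc]
    simp

end Claimed.Agent.R300
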