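/-
Row 300, KK step 9.h (`kk_realize`).  Sub-captain: helper121.
File 5: general kernel lemmas (extension of an operator by zero along injections; corners).
-/
import Claimed.Agent.R300.SmpEmp

set_option autoImplicit false

namespace Claimed.Agent.R300

open scoped ENNReal ComplexConjugate InnerProductSpace Matrix.Norms.L2Operator

variable {X Y X' Y' : Type}

/-- If the matrix of `T` vanishes off `range φ × range ψ` and is the matrix of `T'` there, then `‖T‖ ≤ ‖T'‖`
(`T = scPush φ ∘ T' ∘ scPull ψ`). -/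
theorem kkrz_norm_le_of_ker {T : ScL2 Y →L[ℂ] ScL2 X} {k : X → Y → ℂ} (hT : SmpHasKer T k)
    (φ : X' → X) (hφ : Function.Injective φ) (ψ : Y' → Y) (hψ : Function.Injective ψ)
    (h0 : ∀ x y, ¬ (x ∈ Set.range φ ∧ y ∈ Set.range ψ) → k x y = 0)
    {T' : ScL2 Y' →L[ℂ] ScL2 X'} (hT' : SmpHasKer T' (fun x y => k (φ x) (ψ y))) : ‖T‖ ≤ ‖T'‖ := by
  have hEq : T = scPush φ hφ ∘L T' ∘L scPull ψ hψ := by
    refine scOp_ext fun y => ?_
    ext x
    simp only [ContinuousLinearMap.comp_apply]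
    rw [hT x y]
    by_cases hy : y ∈ Set.range ψ
    · obtain ⟨y', rfl⟩ := hy
      rw [scPull_delta]
      by_cases hx : x ∈ Set.range φ
      · obtain ⟨x', rfl⟩ := hx
        rw [scPush_apply, hT' x' y']
      · rw [scPush_apply_of_not_mem φ hφ _ x (fun z hz => hx ⟨z, hz⟩), h0 _ _ (fun h => hx h.1)]
    · rw [scPull_delta_of_not_mem ψ hψ y (fun z hz => hy ⟨z, hz⟩), h0 _ _ (fun h => hy h.2)]
      simp
  rw [hEq]
  refine ContinuousLinearMap.opNorm_le_bound _ (norm_nonneg _) fun ξ => ?_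
  simp only [ContinuousLinearMap.comp_apply]
  rw [scPush_norm]
  exact (T'.le_opNorm _).trans (mul_le_mul_of_nonneg_left (scPull_norm_le _ _ ξ) (norm_nonneg _))

theorem kkrz_restr_norm_le (B : Set X) : ‖scRestr B‖ ≤ 1 := by
  refine ContinuousLinearMap.opNorm_le_bound _ zero_le_one fun ξ => ?_
  rw [one_mul]
  have h := scRestr_norm_sq_add B ξ
  have h1 : ‖scRestr B ξ‖ ^ 2 ≤ ‖ξ‖ ^ 2 := by nlinarith [sq_nonneg ‖scRestr Bᶜ ξ‖]
  exact le_of_sq_le_sq h1 (norm_nonneg _)

/-- a corner has norm at most the norm of the operator. -/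
theorem kkrz_corner_norm_le (S : ScL2 Y →L[ℂ] ScL2 X) (A : Set X) (B : Set Y) :
    ‖scRestr A ∘L S ∘L scRestr B‖ ≤ ‖S‖ := by
  calc ‖scRestr A ∘L S ∘L scRestr B‖ ≤ ‖scRestr A‖ * (‖S‖ * ‖scRestr B‖) :=
        (ContinuousLinearMap.opNorm_comp_le _ _).trans
          (mul_le_mul_of_nonneg_left (ContinuousLinearMap.opNorm_comp_le _ _) (norm_nonneg _))
    _ ≤ 1 * (‖S‖ * 1) := by
        gcongr
        · exact kkrz_restr_norm_le A
        · exact kkrz_restr_norm_le B
    _ = ‖S‖ := by ring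

end Claimed.Agent.R300
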