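/-
Row 300, KK steps 9.g-9.i (`kk_realize` of `KkModel.lean`).  Sub-captain: helper121.
File `KkRzBDet`: the error of a block is (an extension by zero of) a corner of the centred finite block.
-/
import Claimed.Agent.R300.KkRzCoef
import Claimed.Agent.R300.KkRzCoefBd
import Claimed.Agent.R300.KkRzKer

set_option autoImplicit false

namespace Claimed.Agent.R300

open Nil HeisLaw
open scoped ENNReal ComplexConjugate InnerProductSpace Matrix.Norms.L2Operator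

variable {ℓ : ℕ} (Y : KkGraph ℓ) {F J : Type} [Group F]

/-- `U⁰_ik` vanishes off `A_i × B_k`. -/
theorem kkrz_U0_eq_zero (i k : ℤ) (v v' : Y.V0)
    (h : ¬ ((Y.lay v = i ∧ Y.sideA v) ∧ (Y.lay v' = k ∧ ¬ Y.sideA v'))) : Y.U0 i k v v' = 0 := by
  classical
  unfold KkGraph.U0
  split_ifs with h1
  · have h2 : Y.inc v v' = 0 := by
      unfold KkGraph.inc
      by_contra h3
      have h4 : Nonempty {e // Y.src e = v ∧ Y.tgt e = v'} := by
        by_contra h5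
        rw [not_nonempty_iff] at h5
        exact h3 Nat.card_of_isEmpty
      obtain ⟨e, he1, he2⟩ := h4
      exact h ⟨⟨h1.1, he1 ▸ Y.src_A e⟩, ⟨h1.2, he2 ▸ Y.tgt_B e⟩⟩
    rw [h2]
    simp
  · rfl

/-- the centred coefficient of the block `(i, k)` between two vertices of `Y⁰`. -/
noncomputable def kkrzD [DecidableEq F] [DecidableEq Y.V0] (μ : ℤ → ℤ → KkLaw F J) (ω : ∀ e, (Y.law μ e).Ω)
    (i k : ℤ) (a b : Y.V0 × J) (g : F) : ℂ :=
  ∑ e : Y.blkE i k, if Y.src e = a.1 ∧ Y.tgt e = b.1 then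
    ((if (Y.law μ e).z (ω e) = g then (Y.law μ e).W (ω e) a.2 b.2 else 0)
      - ∑ x, ((Y.law μ e).p x : ℂ) * (if (Y.law μ e).z x = g then (Y.law μ e).W x a.2 b.2 else 0)) else 0

/-- the matrix coefficient of the error. -/
theorem kkrz_err_coef [DecidableEq F] [DecidableEq Y.V0] (μ : ℤ → ℤ → KkLaw F J) (ω : ∀ e, (Y.law μ e).Ω)
    (i k : ℤ) (a b : Y.V0 × J) (g : F) [Decidable ((Y.lay a.1 = i ∧ Y.sideA a.1) ∧ (Y.lay b.1 = k ∧ ¬ Y.sideA b.1))]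
    [Decidable (Y.keep a.1 ∧ Y.keep b.1)] :
    (if (Y.lay a.1 = i ∧ Y.sideA a.1) ∧ (Y.lay b.1 = k ∧ ¬ Y.sideA b.1) then
        Y.coef (fun e => (Y.law μ e).z (ω e)) (fun e => (Y.law μ e).W (ω e)) a b g else 0)
      - (if Y.keep a.1 ∧ Y.keep b.1 then Y.U0 i k a.1 b.1 * (μ i k).mean a.2 b.2 g else 0)
    = if (Y.lay a.1 = i ∧ Y.sideA a.1) ∧ (Y.lay b.1 = k ∧ ¬ Y.sideA b.1) then
        ((kkNrm ℓ i k)⁻¹ : ℝ) * kkrzD Y μ ω i k a b g else 0 := by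
  by_cases h : (Y.lay a.1 = i ∧ Y.sideA a.1) ∧ (Y.lay b.1 = k ∧ ¬ Y.sideA b.1)
  · rw [if_pos h, if_pos h, kkrz_coef_AB Y _ _ i k a b g h.1 h.2]
    by_cases hk : Y.keep a.1 ∧ Y.keep b.1
    · rw [if_pos hk, kkrz_mean_AB Y μ i k a b g hk, ← mul_sub, ← Finset.sum_sub_distrib]
      congr 1
      unfold kkrzD
      refine Finset.sum_congr rfl fun e _ => ?_
      by_cases he : Y.src e = a.1 ∧ Y.tgt e = b.1
      · rw [if_pos he, if_pos he]
        congr 1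
        by_cases hz : (Y.law μ e).z (ω e) = g
        · rw [if_pos ⟨he.1, he.2, hz⟩, if_pos hz]
        · rw [if_neg (fun h' => hz h'.2.2), if_neg hz]
      · rw [if_neg he, if_neg he, if_neg (fun h' => he ⟨h'.1, h'.2.1⟩), sub_zero]
    · rw [if_neg hk, sub_zero]
      congr 1
      unfold kkrzD
      refine Finset.sum_congr rfl fun e _ => ?_
      have he : ¬ (Y.src e = a.1 ∧ Y.tgt e = b.1) := fun he =>
        hk ⟨he.1 ▸ (Y.mem_blkE.1 e.2).1.1, he.2 ▸ (Y.mem_blkE.1 e.2).1.2⟩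
      rw [if_neg he, if_neg (fun h' => he ⟨h'.1, h'.2.1⟩)]
  · rw [if_neg h, if_neg h, kkrz_U0_eq_zero Y i k _ _ h]
    simp

/-- the coefficients of the centred finite block from the `A` side to the `B` side. -/
theorem kkrz_blkC_AB [DecidableEq F] [Fintype J] [DecidableEq J] [DecidableEq Y.V0] [DecidableEq Y.E0]
    (μ : ℤ → ℤ → KkLaw F J) (ω : ∀ e, (Y.law μ e).Ω) (i k : ℤ) (a b : Y.blkV i k × J) (g : F)
    (ha : Y.sideA a.1) :
    Y.blkC μ i k (fun e => ω e) a b g = kkrzD Y μ ω i k ((a.1 : Y.V0), a.2) ((b.1 : Y.V0), b.2) g := by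
  unfold KkGraph.blkC kkrzD
  rw [Pi.sub_apply, Pi.sub_apply, Pi.sub_apply,
    smpE_smpCoef (Y.bsrc i k) (Y.btgt i k) (fun e : Y.blkE i k => (Y.law μ e).p)
      (fun e => (Y.law μ e).p_sum) (fun e => (Y.law μ e).W) (fun e => (Y.law μ e).z) a b g]
  unfold smpCoef
  rw [← Finset.sum_sub_distrib]
  refine Finset.sum_congr rfl fun e _ => ?_
  have h1 : ¬ Y.btgt i k e = a.1 := fun h => Y.tgt_B e (by
    have : Y.tgt e = (a.1 : Y.V0) := congrArg Subtype.val h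
    rw [this]; exact ha)
  have h2 : (Y.bsrc i k e = a.1 ∧ Y.btgt i k e = b.1) ↔ (Y.src e = (a.1 : Y.V0) ∧ Y.tgt e = (b.1 : Y.V0)) := by
    constructor
    · rintro ⟨h3, h4⟩
      exact ⟨congrArg Subtype.val h3, congrArg Subtype.val h4⟩
    · rintro ⟨h3, h4⟩
      exact ⟨Subtype.ext h3, Subtype.ext h4⟩
  simp only [h1, false_and, if_false, add_zero]
  by_cases he : Y.src e = (a.1 : Y.V0) ∧ Y.tgt e = (b.1 : Y.V0)
  · rw [if_pos he, if_pos (h2.2 he)]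
    congr 1
    by_cases hz : (Y.law μ e).z (ω e) = g
    · rw [if_pos ⟨(h2.2 he).1, (h2.2 he).2, hz⟩, if_pos hz]
    · rw [if_neg (fun h' => hz h'.2.2), if_neg hz]
  · rw [if_neg he, if_neg (fun h => he (h2.1 h)), if_neg (fun h => he (h2.1 ⟨h.1, h.2.1⟩)), sub_zero]

/-- some Schur bound for the centred finite block. -/
theorem kkrz_blkC_bd [DecidableEq F] [Fintype J] [DecidableEq J] [DecidableEq Y.V0] [DecidableEq Y.E0]
    (μ : ℤ → ℤ → KkLaw F J) (i k : ℤ) (x : ∀ e : Y.blkE i k, (Y.law μ e).Ω) :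
    ∃ R, SmpCoefBd (Y.blkC μ i k x) R := by
  refine smpCoefBd_exists_of_finite _ (smpbSg fun e : Y.blkE i k => (Y.law μ e).z) fun u v g hg => ?_
  unfold KkGraph.blkC
  rw [Pi.sub_apply, Pi.sub_apply, Pi.sub_apply,
    smpb_supp (Y.bsrc i k) (Y.btgt i k) (fun e => (Y.law μ e).W) (fun e => (Y.law μ e).z) x u v g hg,
    smpb_smpE_apply,
    smpE_congr _ (fun x' => smpb_supp (Y.bsrc i k) (Y.btgt i k) (fun e => (Y.law μ e).W)
      (fun e => (Y.law μ e).z) x' u v g hg)]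
  unfold smpE
  simp

/-- the embedding of the finite block. -/
def kkrzPhi [DecidableEq Y.V0] (F J : Type) (i k : ℤ) (x : F × (Y.blkV i k × J)) : F × (Y.V0 × J) :=
  (x.1, ((x.2.1 : Y.V0), x.2.2))

omit [Group F] in
theorem kkrzPhi_injective [DecidableEq Y.V0] (i k : ℤ) : Function.Injective (kkrzPhi Y F J i k) := by
  rintro ⟨f, ⟨a, ha⟩, j⟩ ⟨f', ⟨a', ha'⟩, j'⟩ h
  simp only [kkrzPhi, Prod.mk.injEq] at h
  obtain ⟨rfl, rfl, rfl⟩ := h
  rfl

/-- **Deterministic part of 9.h**: the error of the block `(i, k)` is (an extension by zero of) a corner of the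
centred finite block. -/
theorem kkrz_block_det [DecidableEq F] [Fintype J] [DecidableEq J] [DecidableEq Y.V0] [DecidableEq Y.E0]
    (hℓ : 1 ≤ ℓ) (μ : ℤ → ℤ → KkLaw F J) (Cw : ℝ) (hCw : 0 ≤ Cw) (hW : ∀ i k a, ‖(μ i k).W a‖ ≤ Cw)
    (ω : ∀ e, (Y.law μ e).Ω) (i k : ℤ) (hik : |i - k| ≤ 1) :
    ‖Y.sideOp F J True i * Y.TP (fun e => (Y.law μ e).z (ω e)) (fun e => (Y.law μ e).W (ω e))
          * Y.sideOp F J False k
        - Y.PiOp F J * kkTens (Y.U0 i k) (μ i k).meanOp * Y.PiOp F J‖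
      ≤ (kkNrm ℓ i k)⁻¹ * ‖smpConv (Y.blkC μ i k (fun e => ω e))‖ := by
  classical
  have hn : 1 ≤ kkNrm ℓ i k := kkNrm_one_le hℓ i k hik
  -- the matrix of the error
  have hTP := kkrz_TP_hasKer Y hℓ (fun e => (Y.law μ e).z (ω e)) (fun e => (Y.law μ e).W (ω e)) Cw hCw
    (fun e => hW _ _ _)
  have h1 := hTP.restr {x | Y.lay x.2.1 = i ∧ (Y.sideA x.2.1 ↔ True)}
    {x | Y.lay x.2.1 = k ∧ (Y.sideA x.2.1 ↔ False)}
  have h2 := (kkTens_hasKer (F := F) (J := J) (Y.U0 i k) (Y.blkV i k) (kkrz_U0_supp Y i k)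
    (μ i k).meanOp).restr {x | Y.keep x.2.1} {x | Y.keep x.2.1}
  have hK : SmpHasKer (Y.sideOp F J True i * Y.TP (fun e => (Y.law μ e).z (ω e))
        (fun e => (Y.law μ e).W (ω e)) * Y.sideOp F J False k
        - Y.PiOp F J * kkTens (Y.U0 i k) (μ i k).meanOp * Y.PiOp F J)
      (fun x y => if (Y.lay x.2.1 = i ∧ Y.sideA x.2.1) ∧ (Y.lay y.2.1 = k ∧ ¬ Y.sideA y.2.1) then
        ((kkNrm ℓ i k)⁻¹ : ℝ) * kkrzD Y μ ω i k x.2 y.2 (x.1 * y.1⁻¹) else 0) := by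
    intro x y
    have h3 := (h1.sub h2) x y
    refine Eq.trans h3 (Eq.trans ?_ (kkrz_err_coef Y μ ω i k x.2 y.2 (x.1 * y.1⁻¹)))
    simp only [Set.mem_ofPred_eq, iff_true, iff_false, smpLConvK, kkTensK,
      kkrz_meanOp_hasKer (μ i k) _ _]
  -- the finite model
  obtain ⟨R, hR⟩ := kkrz_blkC_bd Y μ i k (fun e => ω e)
  have h4 := (hR.lhasKer.restr {x : F × (Y.blkV i k × J) | Y.sideA x.2.1}
    {x : F × (Y.blkV i k × J) | ¬ Y.sideA x.2.1}).smul (((kkNrm ℓ i k)⁻¹ : ℝ) : ℂ)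
  have h5 := kkrz_norm_le_of_ker hK (kkrzPhi Y F J i k) (kkrzPhi_injective Y i k)
    (kkrzPhi Y F J i k) (kkrzPhi_injective Y i k) (fun x y hxy => by
      refine if_neg fun h => hxy ⟨?_, ?_⟩
      · exact ⟨(x.1, (⟨x.2.1, Finset.mem_union_left _ (Y.mem_fA.2 h.1)⟩, x.2.2)), rfl⟩
      · exact ⟨(y.1, (⟨y.2.1, Finset.mem_union_right _ (Y.mem_fB.2 h.2)⟩, y.2.2)), rfl⟩)
    (T' := (((kkNrm ℓ i k)⁻¹ : ℝ) : ℂ) • (scRestr {x : F × (Y.blkV i k × J) | Y.sideA x.2.1}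
      ∘L smpLConv (Y.blkC μ i k (fun e => ω e)) ∘L scRestr {x : F × (Y.blkV i k × J) | ¬ Y.sideA x.2.1}))
    (by
      intro x y
      rw [h4 x y]
      beta_reduce
      by_cases hs : Y.sideA x.2.1 ∧ ¬ Y.sideA y.2.1
      · have hx : Y.lay (x.2.1 : Y.V0) = i := by
          rcases Finset.mem_union.1 x.2.1.2 with h | h
          · exact (Y.mem_fA.1 h).1
          · exact absurd hs.1 (Y.mem_fB.1 h).2
        have hy : Y.lay (y.2.1 : Y.V0) = k := by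
          rcases Finset.mem_union.1 y.2.1.2 with h | h
          · exact absurd (Y.mem_fA.1 h).2 hs.2
          · exact (Y.mem_fB.1 h).1
        have e1 : x ∈ {x : F × (Y.blkV i k × J) | Y.sideA x.2.1} ∧
            y ∈ {x : F × (Y.blkV i k × J) | ¬ Y.sideA x.2.1} := hs
        have e2 : (Y.lay (kkrzPhi Y F J i k x).2.1 = i ∧ Y.sideA (kkrzPhi Y F J i k x).2.1) ∧
            (Y.lay (kkrzPhi Y F J i k y).2.1 = k ∧ ¬ Y.sideA (kkrzPhi Y F J i k y).2.1) :=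
          ⟨⟨hx, hs.1⟩, ⟨hy, hs.2⟩⟩
        rw [if_pos e1, if_pos e2]
        exact congrArg _ (kkrz_blkC_AB Y μ ω i k x.2 y.2 _ hs.1)
      · have e1 : ¬ (x ∈ {x : F × (Y.blkV i k × J) | Y.sideA x.2.1} ∧
            y ∈ {x : F × (Y.blkV i k × J) | ¬ Y.sideA x.2.1}) := hs
        have e2 : ¬ ((Y.lay (kkrzPhi Y F J i k x).2.1 = i ∧ Y.sideA (kkrzPhi Y F J i k x).2.1) ∧
            (Y.lay (kkrzPhi Y F J i k y).2.1 = k ∧ ¬ Y.sideA (kkrzPhi Y F J i k y).2.1)) :=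
          fun h => hs ⟨h.1.2, h.2.2⟩
        rw [if_neg e1, if_neg e2, mul_zero])
  refine h5.trans ?_
  rw [norm_smul, Complex.norm_real, Real.norm_of_nonneg (by positivity), ← smpLConv_norm hR]
  exact mul_le_mul_of_nonneg_left (kkrz_corner_norm_le _ _ _) (by positivity)

end Claimed.Agent.R300
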