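/-
Row 300, KK steps 9.g-9.i (`kk_realize` of `KkModel.lean`).  Sub-captain: helper121.
File `KkRzBlock`: probability of the block events (`nil_box`, `smp_block_tail`, `smp_walk_count_girth`).
-/
import Claimed.Agent.R300.KkRzDefs
import Claimed.Agent.R300.KkRzBNum

set_option autoImplicit false

namespace Claimed.Agent.R300

open Nil HeisLaw
open scoped ENNReal ComplexConjugate InnerProductSpace Matrix.Norms.L2Operator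

/-- **Probability of the block event.** -/
theorem kkrz_block_prob (m Csupp CN : ℕ) (Cw ε : ℝ) (hCw : 0 ≤ Cw) (hε : 0 < ε) :
    ∃ ℓ₀ : ℕ, ∀ ℓ ≥ ℓ₀, ∀ (J : Type) [Fintype J] [DecidableEq J],
      (Fintype.card J : ℝ) ≤ 2 ^ (CN * kkH ℓ 0) →
      ∀ (Y : KkGraph ℓ) [DecidableEq Y.V0] [DecidableEq Y.E0], Y.Girth →
      ∀ μ : ℤ → ℤ → KkLaw (Deck m ℤ) J,
      (∀ i k a, ‖(μ i k).W a‖ ≤ Cw) →
      (∀ i k a, ((μ i k).z a).CBound (2 ^ (Csupp * kkH ℓ i)) ∧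
        ((μ i k).z a)⁻¹.CBound (2 ^ (Csupp * kkH ℓ i))) →
      ∀ i k : ℤ, |i - k| ≤ 1 →
        smpP (fun e : Y.blkE i k => (Y.law μ e).p) (Y.BadB μ ε i k) ≤ ((2 : ℝ) ^ (4 * kkH ℓ i))⁻¹ := by
  obtain ⟨c, Cc, hbox⟩ := nil_box m Csupp (CN + 9)
  obtain ⟨C2, hC2⟩ : ∃ C2 : ℕ, C2 = 2 * (CN + c + 7) := ⟨_, rfl⟩
  obtain ⟨K, hK⟩ : ∃ K : ℕ, K = 16 * (4 * smpB (200 * C2) + 2) ^ 2 := ⟨_, rfl⟩
  obtain ⟨ℓ1, h1⟩ := kkrz_num_box CN (max Cc 0) Cw ε (le_max_right _ _) hCw hε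
  obtain ⟨ℓ2, h2⟩ := kkrz_num_tail CN c K Cw ε hCw hε
  refine ⟨max (max ℓ1 ℓ2) 1, fun ℓ hℓ J _ _ hJ Y _ _ hY μ hW hz i k hik => ?_⟩
  have hℓ1 : ℓ1 ≤ ℓ := le_trans (le_trans (le_max_left _ _) (le_max_left _ _)) hℓ
  have hℓ2 : ℓ2 ≤ ℓ := le_trans (le_trans (le_max_right _ _) (le_max_left _ _)) hℓ
  have hℓ3 : 1 ≤ ℓ := le_trans (le_max_right _ _) hℓ
  have hx2 : 2 ≤ 2 ^ kkH ℓ i := by
    have : 1 ≤ kkH ℓ i := by unfold kkH; omega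
    calc 2 = 2 ^ 1 := rfl
      _ ≤ 2 ^ kkH ℓ i := Nat.pow_le_pow_right (by norm_num) this
  obtain ⟨Bx, hBne, hBcard, hBfol⟩ := hbox (2 ^ kkH ℓ i) hx2
  obtain ⟨l, hl⟩ : ∃ l : ℕ, l = kkrzL ℓ C2 i := ⟨_, rfl⟩
  obtain ⟨κ, hκ⟩ : ∃ κ : ℝ, κ = max Cc 0 * ((((2 ^ kkH ℓ i : ℕ) : ℝ)) ^ (CN + 9))⁻¹ := ⟨_, rfl⟩
  have hκ0 : 0 ≤ κ := by
    rw [hκ]
    exact mul_nonneg (le_max_right _ _) (by positivity)
  have hn : 1 ≤ kkNrm ℓ i k := kkNrm_one_le hℓ3 i k hik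
  obtain ⟨τ, hτ⟩ : ∃ τ : ℝ, τ = kkNrm ℓ i k * ε / 2 := ⟨_, rfl⟩
  have hτ0 : 0 < τ := by rw [hτ]; positivity
  have hp0 : ∀ (e : Y.blkE i k) (a : (Y.law μ e).Ω), 0 ≤ (Y.law μ e).p a :=
    fun e a => (Y.law μ e).p_nonneg a
  have hfol : ∀ g : Deck m ℤ, g.CBound (2 ^ (Csupp * kkH ℓ i)) →
      ((Bx.filter fun f => f * g ∉ Bx).card : ℝ) ≤ κ * Bx.card := by
    intro g hg
    have h3 := hBfol g (by
      have : (((2 ^ kkH ℓ i : ℕ) : ℝ)) ^ Csupp = 2 ^ (Csupp * kkH ℓ i) := by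
        push_cast
        rw [← pow_mul, mul_comm]
      rw [this]
      exact hg)
    refine h3.trans ?_
    rw [hκ]
    gcongr
    exact le_max_left _ _
  have hlay : ∀ e : Y.blkE i k, Y.lay (Y.src e) = i := fun e => (Y.mem_blkE.1 e.2).2.1
  have htail := smp_block_tail (Y.bsrc i k) (Y.btgt i k) (fun e : Y.blkE i k => (Y.law μ e).p) hp0
    (fun e => (Y.law μ e).p_sum) (fun e => (Y.law μ e).W) (fun e => (Y.law μ e).z) Cw hCw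
    (fun e a => hW _ _ a) (2 * kkD ℓ) (Y.blk_deg_le i k hik) Bx hBne κ hκ0
    (fun e a => by
      have h4 := hz (Y.lay (Y.src e)) (Y.lay (Y.tgt e)) a
      have hH : kkH ℓ (Y.lay (Y.src e)) = kkH ℓ i := by rw [hlay e]
      rw [hH] at h4
      exact ⟨hfol _ h4.1, hfol _ h4.2⟩)
    l ((K * (2 * kkD ℓ)) ^ l)
    (fun v S hS => by
      rw [hK]
      refine smp_walk_count_girth (smpGraph (Y.bsrc i k) (Y.btgt i k)) (2 * kkD ℓ)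
        ((kkH ℓ i - 1) / (400 * ℓ)) (200 * C2) l (Y.blk_deg_le i k hik)
        (fun x c hne hw hc => Y.blk_girth hY i k hik x c hne hw hc) ?_ v S hS
      rw [hl]
      exact kkrz_num_len C2 (by omega) ℓ hℓ3 i)
    τ hτ0
  have hJ0 : (0 : ℝ) ≤ Fintype.card J := Nat.cast_nonneg _
  refine le_trans (smpP_mono _ hp0 fun x hx => ?_) (htail.trans ?_)
  · have h5 := h1 ℓ hℓ1 i k hik (Fintype.card J) hJ0 hJ
    rw [← hκ] at h5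
    have h6 : kkNrm ℓ i k * ε < ‖smpConv (Y.blkC μ i k x)‖ := hx
    have h7 : τ + κ * (2 * ((2 * kkD ℓ : ℕ) : ℝ) * Cw * Fintype.card J) ≤ ‖smpConv (Y.blkC μ i k x)‖ := by
      rw [hτ]
      linarith
    exact h7
  · have h8 := h2 ℓ hℓ2 i k hik (Fintype.card (Y.blkV i k)) (Fintype.card J) Bx.card
      (Nat.cast_nonneg _) hJ0 (Nat.cast_nonneg _)
      (by rw [Fintype.card_coe]; exact_mod_cast Y.card_blkV_le i k) hJ hBcard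
    rw [← hC2, ← hl, ← hτ] at h8
    exact h8

end Claimed.Agent.R300
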