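/-
Row 300, KK steps 9.g-9.i (`kk_realize` of `KkModel.lean`).  Sub-captain: helper121.
File `KkRzGNum`: numerics of step 9.g.
-/
import Claimed.Agent.R300.KkRzFin

set_option autoImplicit false

namespace Claimed.Agent.R300

open Nil HeisLaw Finset

/-! ### numerics -/

/-- `r_i ≤ 201 C_* g_i`. -/
theorem kkrz_num_rad (Cstar : ℕ) : ∃ ℓ₀ : ℕ, ∀ ℓ ≥ ℓ₀, ∀ i : ℤ,
    1000 * kkRad ℓ Cstar i ≤ kkH ℓ i ∧
    kkRad ℓ Cstar i ≤ 201 * Cstar * ((kkH ℓ i - kkRad ℓ Cstar i - 1) / (400 * ℓ)) := by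
  refine ⟨250 * Cstar + 1, fun ℓ hℓ i => ?_⟩
  have hH : 20010 * ℓ + 1 ≤ kkH ℓ i := by
    unfold kkH
    omega
  have ha : kkRad ℓ Cstar i * (4 * ℓ) ≤ Cstar * kkH ℓ i := Nat.div_mul_le_self _ _
  generalize kkH ℓ i = H at *
  generalize kkRad ℓ Cstar i = r at *
  have hℓ0 : 0 < ℓ := by omega
  have h1 : 1000 * r ≤ H := by
    refine Nat.le_of_mul_le_mul_left (c := 4 * ℓ) ?_ (by omega)
    calc 4 * ℓ * (1000 * r) = 1000 * (r * (4 * ℓ)) := by ring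
      _ ≤ 1000 * (Cstar * H) := Nat.mul_le_mul_left _ ha
      _ = (1000 * Cstar) * H := by ring
      _ ≤ (4 * ℓ) * H := Nat.mul_le_mul_right _ (by omega)
  refine ⟨h1, ?_⟩
  have hd : H - r - 1 < 400 * ℓ * ((H - r - 1) / (400 * ℓ) + 1) :=
    Nat.lt_mul_div_succ _ (by omega)
  generalize (H - r - 1) / (400 * ℓ) = g at *
  have hX : 100 * H ≤ 201 * (400 * ℓ * g) := by
    rw [Nat.mul_add, Nat.mul_one] at hd
    generalize 400 * ℓ * g = X at *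
    omega
  refine Nat.le_of_mul_le_mul_left (c := 400 * ℓ) ?_ (by omega)
  calc 400 * ℓ * r = 100 * (r * (4 * ℓ)) := by ring
    _ ≤ 100 * (Cstar * H) := Nat.mul_le_mul_left _ ha
    _ = Cstar * (100 * H) := by ring
    _ ≤ Cstar * (201 * (400 * ℓ * g)) := Nat.mul_le_mul_left _ hX
    _ = 400 * ℓ * (201 * Cstar * g) := by ring

/-- the two regimes, chosen by the base layer. -/
theorem kkrz_num_regime (ℓ : ℕ) (i j : ℤ) (r : ℕ) (hr : 1000 * r ≤ kkH ℓ i) (hj : |j - i| ≤ r) :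
    (2 * i ≤ 3 * (kkH ℓ 0 : ℤ) → j ≤ 2 * (kkH ℓ 0 : ℤ)) ∧
    (¬ 2 * i ≤ 3 * (kkH ℓ 0 : ℤ) → (kkH ℓ 0 : ℤ) ≤ j) ∧ kkH ℓ i ≤ 2 * kkH ℓ j := by
  rw [abs_le] at hj
  unfold kkH at *
  refine ⟨?_, ?_, ?_⟩ <;> omega

/-- the final count of 9.g. -/
theorem kkrz_num_girth (Cstar : ℕ) : ∃ ℓ₀ : ℕ, ∀ ℓ ≥ ℓ₀, ∀ i : ℤ,
    ((kkd ℓ * 2 ^ kkH ℓ i + 2 ^ kkH ℓ i : ℕ) : ℝ)
        * (((kkRad ℓ Cstar i : ℝ) + 1) * ((6 * kkD ℓ : ℕ) : ℝ) ^ kkRad ℓ Cstar i)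
        * ((2 : ℝ) ^ ((5 * Cstar + 5) * kkH ℓ i))⁻¹ ≤ ((2 : ℝ) ^ (2 * kkH ℓ i))⁻¹ := by
  refine ⟨1, fun ℓ hℓ i => ?_⟩
  have hH : 20010 * ℓ + 1 ≤ kkH ℓ i := by
    unfold kkH
    omega
  have ha : kkRad ℓ Cstar i * (4 * ℓ) ≤ Cstar * kkH ℓ i := Nat.div_mul_le_self _ _
  generalize kkH ℓ i = H at *
  generalize kkRad ℓ Cstar i = r at *
  -- the three factors
  have h1 : kkd ℓ * 2 ^ H + 2 ^ H ≤ 2 ^ (2 * H) := by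
    unfold kkd
    calc 2 ^ (4 * ℓ) * 2 ^ H + 2 ^ H ≤ 2 ^ (4 * ℓ) * 2 ^ H + 2 ^ (4 * ℓ) * 2 ^ H :=
          Nat.add_le_add_left (Nat.le_mul_of_pos_left _ (by positivity)) _
      _ = 2 ^ (4 * ℓ + 1 + H) := by ring
      _ ≤ 2 ^ (2 * H) := Nat.pow_le_pow_right (by norm_num) (by omega)
  have h2 : r + 1 ≤ 2 ^ r := Nat.lt_two_pow_self (n := r)
  have h3 : (6 * kkD ℓ) ^ r ≤ 2 ^ ((8 * ℓ + 3) * r) := by
    unfold kkD kkd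
    calc (6 * (2 ^ (4 * ℓ)) ^ 2) ^ r ≤ (2 ^ 3 * (2 ^ (4 * ℓ)) ^ 2) ^ r :=
          Nat.pow_le_pow_left (Nat.mul_le_mul_right _ (by norm_num)) r
      _ = 2 ^ ((8 * ℓ + 3) * r) := by
          rw [← pow_mul, ← pow_add, ← pow_mul]
          congr 1
          ring
  have h4 : r + (8 * ℓ + 3) * r ≤ 3 * Cstar * H := by
    calc r + (8 * ℓ + 3) * r = (8 * ℓ + 4) * r := by ring
      _ ≤ (12 * ℓ) * r := Nat.mul_le_mul_right _ (by omega)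
      _ = 3 * (r * (4 * ℓ)) := by ring
      _ ≤ 3 * (Cstar * H) := Nat.mul_le_mul_left _ ha
      _ = 3 * Cstar * H := by ring
  have hN : (kkd ℓ * 2 ^ H + 2 ^ H) * ((r + 1) * (6 * kkD ℓ) ^ r) * 2 ^ (2 * H) ≤
      2 ^ ((5 * Cstar + 5) * H) := by
    calc (kkd ℓ * 2 ^ H + 2 ^ H) * ((r + 1) * (6 * kkD ℓ) ^ r) * 2 ^ (2 * H)
        ≤ 2 ^ (2 * H) * (2 ^ r * 2 ^ ((8 * ℓ + 3) * r)) * 2 ^ (2 * H) :=
          Nat.mul_le_mul_right _ (Nat.mul_le_mul h1 (Nat.mul_le_mul h2 h3))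
      _ = 2 ^ (2 * H + (r + (8 * ℓ + 3) * r) + 2 * H) := by
          rw [← pow_add, ← pow_add, ← pow_add]
      _ ≤ 2 ^ ((5 * Cstar + 5) * H) := by
          refine Nat.pow_le_pow_right (by norm_num) ?_
          have : (5 * Cstar + 5) * H = 3 * Cstar * H + 2 * Cstar * H + 5 * H := by ring
          omega
  have hR : ((kkd ℓ * 2 ^ H + 2 ^ H : ℕ) : ℝ) * (((r : ℝ) + 1) * ((6 * kkD ℓ : ℕ) : ℝ) ^ r) *
      (2 : ℝ) ^ (2 * H) ≤ (2 : ℝ) ^ ((5 * Cstar + 5) * H) := by exact_mod_cast hN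
  have hc : (0 : ℝ) < (2 : ℝ) ^ ((5 * Cstar + 5) * H) := by positivity
  have he : (0 : ℝ) < (2 : ℝ) ^ (2 * H) := by positivity
  generalize ((kkd ℓ * 2 ^ H + 2 ^ H : ℕ) : ℝ) * (((r : ℝ) + 1) * ((6 * kkD ℓ : ℕ) : ℝ) ^ r) = A
    at *
  generalize (2 : ℝ) ^ ((5 * Cstar + 5) * H) = c at *
  generalize (2 : ℝ) ^ (2 * H) = e at *
  calc A * c⁻¹ = (A * e) * (c⁻¹ * e⁻¹) := by field_simp
    _ ≤ c * (c⁻¹ * e⁻¹) := mul_le_mul_of_nonneg_right hR (by positivity)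
    _ = e⁻¹ := by field_simp

end Claimed.Agent.R300
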