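/-
Row 300, KK steps 9.g-9.i (`kk_realize` of `KkModel.lean`).  Sub-captain: helper121.
File `KkRzSel`: selection with positive weights; equal push-forward laws give equal expectations.
-/
import Claimed.Agent.R300.SmpSelect

set_option autoImplicit false

namespace Claimed.Agent.R300

open Finset

universe u v w

/-- `smp_select`, with all selected coordinates of positive weight.
Proof: apply `smp_select` to `Ω' i := {a // 0 < p i a}`; `smpE_push` along `Subtype.val`. -/
theorem smp_select_pos {ι : Type u} [DecidableEq ι] {Ω : ι → Type v} [∀ i, Fintype (Ω i)]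
    (p : ∀ i, Ω i → ℝ) (hp0 : ∀ i a, 0 ≤ p i a) (hp1 : ∀ i, ∑ a, p i a = 1)
    {κ : Type w} [Countable κ] (S : κ → Finset ι)
    (Bad : ∀ k, (∀ i : S k, Ω i) → Prop) (ε : κ → ℝ)
    (hε : ∀ k, smpP (fun i : S k => p i) (Bad k) ≤ ε k)
    (hsum : Summable ε) (hlt : ∑' k, ε k < 1) :
    ∃ ω : ∀ i, Ω i, (∀ i, 0 < p i (ω i)) ∧ ∀ k, ¬ Bad k (fun i : S k => ω i) := by
  classical
  have hfib : ∀ i a, p i a =
      Finset.sum (Finset.filter (fun b : {a // 0 < p i a} => b.1 = a) Finset.univ)
        (fun b => p i b.1) := by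
    intro i a
    by_cases ha : 0 < p i a
    · rw [Finset.sum_eq_single (⟨a, ha⟩ : {a // 0 < p i a})]
      · intro b hb hne
        exact absurd (Subtype.ext (Finset.mem_filter.1 hb).2) hne
      · intro h
        exact absurd (by simp) h
    · rw [Finset.sum_eq_zero]
      · exact le_antisymm (not_lt.1 ha) (hp0 i a)
      · intro b hb
        exact absurd ((Finset.mem_filter.1 hb).2 ▸ b.2) ha
  have hp1' : ∀ i, ∑ a : {a // 0 < p i a}, p i a = 1 := by
    intro i
    rw [← hp1 i, ← Finset.sum_fiberwise univ (fun b : {a // 0 < p i a} => (b : Ω i))]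
    exact Finset.sum_congr rfl fun a _ => (hfib i a).symm
  obtain ⟨ω, hω⟩ := smp_select (Ω := fun i => {a // 0 < p i a}) (fun i a => p i a)
    (fun i a => hp0 i a) hp1' S (fun k x => Bad k (fun i => (x i : Ω i))) ε (fun k => by
      refine le_trans (le_of_eq ?_) (hε k)
      rw [smpP_eq, smpP_eq]
      exact (smpE_push (fun i : S k => p i) (fun (i : S k) (a : {a // 0 < p i a}) => p i a)
        (fun _ b => b.1) (fun i a => hfib i a) (fun ω => if Bad k ω then (1 : ℝ) else 0)).symm)
    hsum hlt
  exact ⟨fun i => ω i, fun i => (ω i).2, hω⟩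

/-- Two families of finite weighted spaces with the same push-forward laws on (possibly infinite) types `T i`. -/
theorem smpE_law_eq {ι : Type u} [Fintype ι] [DecidableEq ι] {Ω Ω' : ι → Type v} [∀ i, Fintype (Ω i)]
    [∀ i, Fintype (Ω' i)] {T : ι → Type v} [∀ i, DecidableEq (T i)]
    {M : Type w} [AddCommMonoid M] [Module ℝ M]
    (p : ∀ i, Ω i → ℝ) (p' : ∀ i, Ω' i → ℝ) (φ : ∀ i, Ω i → T i) (φ' : ∀ i, Ω' i → T i)
    (h : ∀ i t, ∑ a with φ i a = t, p i a = ∑ b with φ' i b = t, p' i b) (f : (∀ i, T i) → M) :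
    smpE p (fun ω => f (fun i => φ i (ω i))) = smpE p' (fun ω => f (fun i => φ' i (ω i))) := by
  classical
  let R : ∀ i, Finset (T i) := fun i => univ.image (φ i) ∪ univ.image (φ' i)
  let q : ∀ i, R i → ℝ := fun i t => ∑ a with φ i a = (t : T i), p i a
  let ψ : ∀ i, Ω i → R i := fun i a =>
    ⟨φ i a, Finset.mem_union_left _ (Finset.mem_image_of_mem _ (Finset.mem_univ a))⟩
  let ψ' : ∀ i, Ω' i → R i := fun i a =>
    ⟨φ' i a, Finset.mem_union_right _ (Finset.mem_image_of_mem _ (Finset.mem_univ a))⟩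
  have h1 := smpE_push q p ψ (fun i t => by
    refine Finset.sum_congr ?_ fun _ _ => rfl
    ext a
    simp only [Finset.mem_filter, Finset.mem_univ, true_and]
    exact ⟨fun e => Subtype.ext e, fun e => congrArg Subtype.val e⟩)
    (fun τ => f (fun i => (τ i : T i)))
  have h2 := smpE_push q p' ψ' (fun i t => by
    change ∑ a with φ i a = (t : T i), p i a = _
    rw [h i t]
    refine Finset.sum_congr ?_ fun _ _ => rfl
    ext a
    simp only [Finset.mem_filter, Finset.mem_univ, true_and]
    exact ⟨fun e => Subtype.ext e, fun e => congrArg Subtype.val e⟩)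
    (fun τ => f (fun i => (τ i : T i)))
  exact h1.symm.trans h2

end Claimed.Agent.R300
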