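/-
Row 300, KK steps 9.g-9.i (`kk_realize` of `KkModel.lean`).  Sub-captain: helper121.
File `KkRzWide`: anti-concentration (`KkWide`) + Schwartz-Zippel with atoms.
-/
import Claimed.Agent.R300.KkRzSel
import Claimed.Agent.R300.KkModel

set_option autoImplicit false

namespace Claimed.Agent.R300

open Nil HeisLaw Finset

/-- `KkWide` is monotone in the atom bound. -/
theorem KkWide.rzMono {m : ℕ} {Ω : Type} [Fintype Ω] {p : Ω → ℝ} {u : Ω → Idx m → ℤ} {κ κ' : ℝ}
    (h : KkWide p u κ) (hκ : κ ≤ κ') : KkWide p u κ' := by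
  obtain ⟨C, i1, pc, Θ, i2, r, val, Al, Br, h1, h2, h3, h4, h5, h6⟩ := h
  exact ⟨C, i1, pc, Θ, i2, r, val, Al, Br, h1, h2, h3, h4, fun c s t => (h5 c s t).trans hκ, h6⟩

/-- The core of `kkrz_wide_poly`: independent coordinates with small atoms. -/
theorem kkrz_wide_core {m : ℕ} {E : Type} [Fintype E] [DecidableEq E]
    {Θ : E → Idx m → Type} [∀ e s, Fintype (Θ e s)] (r : ∀ e s, Θ e s → ℝ) (val : ∀ e s, Θ e s → ℤ)
    (Al Br : E → Idx m → ℤ) (κ : ℝ) (hκ : 0 ≤ κ)
    (h3 : ∀ e s a, 0 ≤ r e s a) (h4 : ∀ e s, ∑ a, r e s a = 1)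
    (h5 : ∀ e s (t : ℤ), ∑ a with val e s a = t, r e s a ≤ κ)
    (A : (E → Idx m → ℤ) → Prop) (d : ℕ)
    (hA : ∃ P : MvPolynomial (E × Idx m) ℤ, P ≠ 0 ∧ P.totalDegree ≤ d ∧
      ∀ x : E → Idx m → ℤ, A (fun e => circ (circ (Al e) (x e)) (Br e)) →
        MvPolynomial.eval (fun v : E × Idx m => x v.1 v.2) P = 0) :
    smpP (Ω := fun e => ∀ s, Θ e s) (fun e x => ∏ s, r e s (x s))
      (fun ω => A (fun e => circ (circ (Al e) (fun s => val e s (ω e s))) (Br e))) ≤ d * κ := by
  classical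
  obtain ⟨P, hP0, hPd, hP⟩ := hA
  rw [smpP_eq, smpE_regroup r
    (fun ω => if A (fun e => circ (circ (Al e) (fun s => val e s (ω e s))) (Br e))
      then (1 : ℝ) else 0), ← smpP_eq]
  calc smpP (ι := E × Idx m) (Ω := fun j => Θ j.1 j.2) (fun j => r j.1 j.2)
        (fun ω => A (fun e => circ (circ (Al e) (fun s => val e s (ω (e, s)))) (Br e)))
      ≤ smpP (ι := E × Idx m) (Ω := fun j => Θ j.1 j.2) (fun j => r j.1 j.2)
        (fun ω => MvPolynomial.eval (fun j : E × Idx m => val j.1 j.2 (ω j)) P = 0) :=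
        smpP_mono _ (fun j a => h3 j.1 j.2 a) fun ω hω =>
          hP (fun e s => val e s (ω (e, s))) hω
    _ ≤ P.totalDegree * κ :=
        smp_poly_atom (ι := E × Idx m) (Ω := fun j => Θ j.1 j.2) (fun j => r j.1 j.2)
          (fun j a => h3 j.1 j.2 a) (fun j => h4 j.1 j.2) (fun j => val j.1 j.2) κ
          (fun j c => h5 j.1 j.2 c) P hP0
    _ ≤ d * κ := mul_le_mul_of_nonneg_right (by exact_mod_cast hPd) hκ

/-- **Anti-concentration + Schwartz-Zippel.**  An event on the family `t e = u e (ω e)` which, for all choices of the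
left and right factors, forces a nonzero polynomial of degree `≤ d` in the free coordinates to vanish, has probability
`≤ d κ`.
Proof: `smpE_law_eq` to pass to `Σ c, ∀ s, Θ e c s`; `smpP_mixture_le`; `smpE_push`; `smpE_regroup`;
`smp_poly_atom`. -/
theorem kkrz_wide_poly {m : ℕ} {E : Type} [Fintype E] [DecidableEq E] {Ω : E → Type} [∀ e, Fintype (Ω e)]
    (p : ∀ e, Ω e → ℝ) (u : ∀ e, Ω e → Idx m → ℤ) (κ : ℝ) (hκ : 0 ≤ κ)
    (hw : ∀ e, KkWide (p e) (u e) κ)
    (A : (E → Idx m → ℤ) → Prop) (d : ℕ)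
    (hA : ∀ Al Br : E → Idx m → ℤ, ∃ P : MvPolynomial (E × Idx m) ℤ, P ≠ 0 ∧ P.totalDegree ≤ d ∧
      ∀ x : E → Idx m → ℤ, A (fun e => circ (circ (Al e) (x e)) (Br e)) →
        MvPolynomial.eval (fun v : E × Idx m => x v.1 v.2) P = 0) :
    smpP p (fun ω => A (fun e => u e (ω e))) ≤ d * κ := by
  classical
  choose C i1 pc Θ i2 r val Al Br h1 h2 h3 h4 h5 h6 using hw
  -- the model space
  let p' : ∀ e, (Σ c : C e, ∀ s, Θ e c s) → ℝ := fun e a => pc e a.1 * ∏ s, r e a.1 s (a.2 s)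
  let u' : ∀ e, (Σ c : C e, ∀ s, Θ e c s) → Idx m → ℤ := fun e a =>
    circ (circ (Al e a.1) (fun s => val e a.1 s (a.2 s))) (Br e a.1)
  have hlaw : ∀ e (t : Idx m → ℤ), ∑ a with u e a = t, p e a = ∑ b with u' e b = t, p' e b := by
    intro e t
    rw [h6 e t, Finset.sum_filter, Fintype.sum_sigma]
    refine Finset.sum_congr rfl fun c _ => ?_
    rw [Finset.mul_sum, Finset.sum_filter]
  have hstep1 : smpP p (fun ω => A (fun e => u e (ω e))) = smpP p' (fun ω => A (fun e => u' e (ω e))) := by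
    rw [smpP_eq, smpP_eq]
    exact smpE_law_eq p p' u u' hlaw (fun t => if A t then (1 : ℝ) else 0)
  rw [hstep1]
  -- conditioning on the auxiliary choices
  let q : ∀ e, C e → (Σ c : C e, ∀ s, Θ e c s) → ℝ := fun e c a =>
    if a.1 = c then ∏ s, r e a.1 s (a.2 s) else 0
  refine smpP_mixture_le p' pc h1 h2 q (fun e a => ?_) _ _ fun c => ?_
  · change pc e a.1 * ∏ s, r e a.1 s (a.2 s) = ∑ c, pc e c * (if a.1 = c then ∏ s, r e a.1 s (a.2 s) else 0)
    rw [Finset.sum_eq_single a.1]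
    · rw [if_pos rfl]
    · intro b _ hb
      rw [if_neg (Ne.symm hb), mul_zero]
    · intro h
      exact absurd (Finset.mem_univ _) h
  · -- push forward from the fibre over `c`
    have hpush : ∀ e (a : Σ c : C e, ∀ s, Θ e c s), q e (c e) a =
        Finset.sum (Finset.filter (fun x : (∀ s, Θ e (c e) s) =>
          (⟨c e, x⟩ : Σ c : C e, ∀ s, Θ e c s) = a) Finset.univ)
          (fun x => ∏ s, r e (c e) s (x s)) := by
      rintro e ⟨c', x'⟩
      by_cases hc : c' = c e
      · subst hc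
        rw [Finset.sum_eq_single x']
        · change (if c e = c e then _ else _) = _
          rw [if_pos rfl]
        · intro b hb hne
          have := (Finset.mem_filter.1 hb).2
          exact absurd (eq_of_heq (Sigma.mk.inj this).2) hne
        · intro h
          exact absurd (by simp) h
      · rw [Finset.sum_eq_zero]
        · change (if c' = c e then _ else _) = _
          rw [if_neg hc]
        · intro b hb
          have := (Finset.mem_filter.1 hb).2
          exact absurd (Sigma.mk.inj this).1.symm hc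
    rw [smpP_eq, smpE_push (fun e => q e (c e)) (Ω' := fun e => ∀ s, Θ e (c e) s)
      (fun e x => ∏ s, r e (c e) s (x s)) (fun e x => ⟨c e, x⟩) hpush, ← smpP_eq]
    exact kkrz_wide_core (fun e => r e (c e)) (fun e => val e (c e)) (fun e => Al e (c e))
      (fun e => Br e (c e)) κ hκ (fun e => h3 e (c e)) (fun e => h4 e (c e)) (fun e => h5 e (c e))
      A d (hA _ _)

end Claimed.Agent.R300
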