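/-
Row 300, KK steps 9.g-9.i (`kk_realize` of `KkModel.lean`).  Sub-captain: helper121.
File `KkRzDet`: one walk (detector polynomial in the edge variables).
-/
import Claimed.Agent.R300.KkRzWide
import Claimed.Agent.R300.NilDetect

set_option autoImplicit false

namespace Claimed.Agent.R300

open Nil HeisLaw Finset

/-- unitriangular voltage of a dart. -/
def kkrzDV {m : ℕ} {E : Type} (t : E → Idx m → ℤ) (d : E × Bool) : Idx m → ℤ :=
  if d.2 then ninv (t d.1) else t d.1

/-- `nil_detector` on `smpGraph src tgt`, with the polynomial in the variables `E × Idx m`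
(`pos d = !d.2`; restrict the variables with `MvPolynomial.exists_rename_eq_of_vars_subset_range`). -/
theorem kkrz_detect {m : ℕ} {V E : Type} (src tgt : E → V) (g C : ℕ) (a : V) (W : List (E × Bool))
    (hW : (smpGraph src tgt).IsWalk a W a) (hne : W ≠ []) (hcr : (smpGraph src tgt).CycRed W)
    (hgirth : ∀ (x : V) (c : List (E × Bool)), c ≠ [] → (smpGraph src tgt).IsWalk x c x →
      (smpGraph src tgt).CycRed c → g < c.length)
    (hlen : W.length ≤ C * g) (hm : nilL C < m) (Al Br : E → Idx m → ℤ) :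
    ∃ P : MvPolynomial (E × Idx m) ℤ, P ≠ 0 ∧ P.totalDegree ≤ m - 1 ∧
      ∀ x : E → Idx m → ℤ,
        cprod (W.map (kkrzDV fun e => circ (circ (Al e) (x e)) (Br e))) = 0 →
        MvPolynomial.eval (fun v : E × Idx m => x v.1 v.2) P = 0 := by
  classical
  obtain ⟨P, hP0, hPd, hPv, hPe⟩ := nil_detector (smpGraph src tgt) (fun d => !d.2)
    (fun d => by simp [smpGraph]) g C a W hW hne hcr
    (fun x c hc hw hcr _ => hgirth x c hc hw hcr) hlen hm (fun d => Al d.1) (fun d => Br d.1)
  let f : E × Idx m → (E × Bool) × Idx m := fun v => ((v.1, false), v.2)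
  have hf : Function.Injective f := by
    rintro ⟨e, s⟩ ⟨e', s'⟩ h
    simp only [f, Prod.mk.injEq, and_true] at h
    rw [h.1, h.2]
  have hsub : (P.vars : Set ((E × Bool) × Idx m)) ⊆ Set.range f := by
    rintro ⟨⟨e, b⟩, s⟩ hv
    have h := (hPv _ hv).1
    simp only [Bool.not_eq_eq_eq_not, Bool.not_true] at h
    exact ⟨(e, s), by simp [f, h]⟩
  obtain ⟨Q, hQ⟩ := MvPolynomial.exists_rename_eq_of_vars_subset_range P f hf hsub
  refine ⟨Q, ?_, ?_, ?_⟩
  · rintro rfl
    rw [map_zero] at hQ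
    exact hP0 hQ.symm
  · let gI : (E × Bool) × Idx m → E × Idx m := fun v => (v.1.1, v.2)
    have hgf : gI ∘ f = id := by
      funext v
      rfl
    have h1 : MvPolynomial.rename gI P = Q := by
      rw [← hQ, MvPolynomial.rename_rename, hgf, MvPolynomial.rename_id_apply]
    rw [← h1]
    exact (MvPolynomial.totalDegree_rename_le _ _).trans hPd
  · intro x hx
    have h2 : (W.map (volt (smpGraph src tgt) (fun d => !d.2) (fun d => Al d.1) (fun d => Br d.1)
        (fun d => x d.1))) = W.map (kkrzDV fun e => circ (circ (Al e) (x e)) (Br e)) := by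
      refine List.map_congr_left fun d _ => ?_
      obtain ⟨e, b⟩ := d
      cases b <;> simp [volt, kkrzDV, smpGraph]
    have h3 := hPe (fun d => x d.1) (by rw [h2]; exact hx)
    rw [← hQ, MvPolynomial.eval_rename] at h3
    exact h3

/-- **One walk** (KK 9.g). -/
theorem kkrz_walk_prob {m : ℕ} {V E : Type} [Fintype E] [DecidableEq E] (src tgt : E → V)
    {Ω : E → Type} [∀ e, Fintype (Ω e)] (p : ∀ e, Ω e → ℝ)
    (u : ∀ e, Ω e → Idx m → ℤ) (κ : ℝ) (hκ : 0 ≤ κ) (hw : ∀ e, KkWide (p e) (u e) κ)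
    (g C : ℕ) (a : V) (W : List (E × Bool))
    (hW : (smpGraph src tgt).IsWalk a W a) (hne : W ≠ []) (hcr : (smpGraph src tgt).CycRed W)
    (hgirth : ∀ (x : V) (c : List (E × Bool)), c ≠ [] → (smpGraph src tgt).IsWalk x c x →
      (smpGraph src tgt).CycRed c → g < c.length)
    (hlen : W.length ≤ C * g) (hm : nilL C < m) :
    smpP p (fun ω => cprod (W.map (kkrzDV fun e => u e (ω e))) = 0) ≤ (m - 1 : ℕ) * κ :=
  kkrz_wide_poly p u κ hκ hw (fun t => cprod (W.map (kkrzDV t)) = 0) (m - 1)
    (fun Al Br => kkrz_detect src tgt g C a W hW hne hcr hgirth hlen hm Al Br)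

end Claimed.Agent.R300
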