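/-
Row 300, KK steps 9.g-9.i (`kk_realize` of `KkModel.lean`).  Sub-captain: helper121.
File `KkRzUnion`: number of walks, union bound over all short walks.
-/
import Claimed.Agent.R300.KkRzDet

set_option autoImplicit false

namespace Claimed.Agent.R300

open Nil HeisLaw Finset

/-- number of walks of length `t` from `v` in a graph of degree `≤ Δ`. -/
theorem kkrz_walk_count {V D : Type} (G : HlGraph V D) (Δ : ℕ)
    (hΔ : ∀ (x : V) (T : Finset D), (∀ d ∈ T, G.src d = x) → T.card ≤ Δ) (t : ℕ) (v : V)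
    (S : Finset (List D)) (hS : ∀ w ∈ S, w.length = t ∧ ∃ v', G.IsWalk v w v') : S.card ≤ Δ ^ t := by
  classical
  induction t generalizing v S with
  | zero =>
    have h1 : S ⊆ {[]} := by
      intro w hw
      rw [Finset.mem_singleton]
      exact List.length_eq_zero_iff.1 (hS w hw).1
    simpa using Finset.card_le_card h1
  | succ t ih =>
    set T : Finset D := (S.image List.head?).eraseNone with hT
    have hTcard : T.card ≤ Δ := by
      refine hΔ v T fun d hd => ?_
      rw [hT, Finset.mem_eraseNone, Finset.mem_image] at hd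
      obtain ⟨w, hw, hwd⟩ := hd
      obtain ⟨_, v', hv'⟩ := hS w hw
      cases w with
      | nil => simp at hwd
      | cons d' w' =>
        simp only [List.head?_cons, Option.some.injEq] at hwd
        subst hwd
        exact hv'.1
    have hmaps : ∀ w ∈ S, List.head? w ∈ T.image some := by
      intro w hw
      obtain ⟨hlen, _⟩ := hS w hw
      cases w with
      | nil => simp at hlen
      | cons d' w' =>
        refine Finset.mem_image.2 ⟨d', ?_, rfl⟩
        rw [hT, Finset.mem_eraseNone, Finset.mem_image]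
        exact ⟨d' :: w', hw, rfl⟩
    have hfib : ∀ b ∈ T.image some, (S.filter (fun w => List.head? w = b)).card ≤ Δ ^ t := by
      intro b hb
      obtain ⟨d, _, rfl⟩ := Finset.mem_image.1 hb
      have hinj : Set.InjOn List.tail (S.filter (fun w => List.head? w = some d) : Set (List D)) := by
        intro w hw w' hw' hww
        have h1 := (Finset.mem_filter.1 (Finset.mem_coe.1 hw)).2
        have h2 := (Finset.mem_filter.1 (Finset.mem_coe.1 hw')).2
        cases w with
        | nil => simp at h1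
        | cons a l =>
          cases w' with
          | nil => simp at h2
          | cons a' l' =>
            simp only [List.head?_cons, Option.some.injEq] at h1 h2
            simp only [List.tail_cons] at hww
            rw [h1, h2, hww]
      rw [← Finset.card_image_of_injOn hinj]
      refine ih (G.tgt d) _ fun w' hw' => ?_
      obtain ⟨w, hw, rfl⟩ := Finset.mem_image.1 hw'
      obtain ⟨hwS, hwd⟩ := Finset.mem_filter.1 hw
      obtain ⟨hlen, v', hv'⟩ := hS w hwS
      cases w with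
      | nil => simp at hwd
      | cons a l =>
        simp only [List.head?_cons, Option.some.injEq] at hwd
        subst hwd
        simp only [List.length_cons, Nat.add_right_cancel_iff] at hlen
        exact ⟨hlen, v', hv'.2⟩
    have h3 := Finset.card_le_mul_card_image_of_maps_to hmaps (Δ ^ t) hfib
    rw [Finset.card_image_of_injective _ (Option.some_injective D)] at h3
    calc S.card ≤ Δ ^ t * T.card := h3
      _ ≤ Δ ^ t * Δ := Nat.mul_le_mul_left _ hTcard
      _ = Δ ^ (t + 1) := (pow_succ _ _).symm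

/-- number of walks of length `≤ r` from `v`. -/
theorem kkrz_walk_count_le {V D : Type} (G : HlGraph V D) (Δ : ℕ) (hΔ1 : 1 ≤ Δ)
    (hΔ : ∀ (x : V) (T : Finset D), (∀ d ∈ T, G.src d = x) → T.card ≤ Δ) (r : ℕ) (v : V)
    (S : Finset (List D)) (hS : ∀ w ∈ S, w.length ≤ r ∧ ∃ v', G.IsWalk v w v') :
    S.card ≤ (r + 1) * Δ ^ r := by
  classical
  have hmaps : ∀ w ∈ S, List.length w ∈ Finset.range (r + 1) := fun w hw =>
    Finset.mem_range.2 (Nat.lt_succ_of_le (hS w hw).1)
  have hfib : ∀ t ∈ Finset.range (r + 1), (S.filter (fun w => List.length w = t)).card ≤ Δ ^ r := by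
    intro t ht
    have h1 : (S.filter (fun w => List.length w = t)).card ≤ Δ ^ t :=
      kkrz_walk_count G Δ hΔ t v _ fun w hw =>
        ⟨(Finset.mem_filter.1 hw).2, (hS w (Finset.mem_filter.1 hw).1).2⟩
    exact h1.trans (Nat.pow_le_pow_right hΔ1 (Nat.lt_succ_iff.1 (Finset.mem_range.1 ht)))
  have h3 := Finset.card_le_mul_card_image_of_maps_to hmaps (Δ ^ r) hfib
  rw [Finset.card_range] at h3
  rw [mul_comm]
  exact h3

/-- **All short walks based in `L`** (KK 9.g): union bound. -/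
theorem kkrz_girth_abs {m : ℕ} {V E : Type} [Fintype E] [DecidableEq E] (src tgt : E → V)
    {Ω : E → Type} [∀ e, Fintype (Ω e)] (p : ∀ e, Ω e → ℝ) (hp0 : ∀ e a, 0 ≤ p e a)
    (u : ∀ e, Ω e → Idx m → ℤ) (κ : ℝ) (hκ : 0 ≤ κ) (hw : ∀ e, KkWide (p e) (u e) κ)
    (g C r Δ : ℕ) (hΔ1 : 1 ≤ Δ)
    (hgirth : ∀ (x : V) (c : List (E × Bool)), c ≠ [] → (smpGraph src tgt).IsWalk x c x →
      (smpGraph src tgt).CycRed c → g < c.length)
    (hr : r ≤ C * g) (hm : nilL C < m)
    (hΔ : ∀ (x : V) (T : Finset (E × Bool)), (∀ d ∈ T, (smpGraph src tgt).src d = x) → T.card ≤ Δ)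
    (L : Finset V) :
    smpP p (fun ω => ∃ v ∈ L, ∃ w : List (E × Bool), w ≠ [] ∧ (smpGraph src tgt).IsWalk v w v ∧
        (smpGraph src tgt).CycRed w ∧ w.length ≤ r ∧ cprod (w.map (kkrzDV fun e => u e (ω e))) = 0)
      ≤ L.card * ((r + 1) * Δ ^ r) * ((m - 1 : ℕ) * κ) := by
  classical
  have hc0 : (0 : ℝ) ≤ ((m - 1 : ℕ) : ℝ) * κ := mul_nonneg (Nat.cast_nonneg _) hκ
  -- the finite set of short closed walks at `v`
  let Wf : V → Finset (List (E × Bool)) := fun v =>
    (List.finite_length_le (E × Bool) r).toFinset.filter fun w =>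
      w ≠ [] ∧ (smpGraph src tgt).IsWalk v w v ∧ (smpGraph src tgt).CycRed w
  have hWf : ∀ v w, w ∈ Wf v ↔ w.length ≤ r ∧ w ≠ [] ∧ (smpGraph src tgt).IsWalk v w v ∧
      (smpGraph src tgt).CycRed w := by
    intro v w
    simp only [Wf, Finset.mem_filter, Set.Finite.mem_toFinset, Set.mem_ofPred_eq]
  have hcard : ∀ v, (Wf v).card ≤ (r + 1) * Δ ^ r := fun v =>
    kkrz_walk_count_le (smpGraph src tgt) Δ hΔ1 hΔ r v _ fun w hw =>
      ⟨((hWf v w).1 hw).1, v, ((hWf v w).1 hw).2.2.1⟩
  have hone : ∀ v, smpP p (fun ω => ∃ w ∈ Wf v, cprod (w.map (kkrzDV fun e => u e (ω e))) = 0)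
      ≤ ((r + 1) * Δ ^ r : ℕ) * (((m - 1 : ℕ) : ℝ) * κ) := by
    intro v
    refine (smpP_union_le p hp0 (Wf v) _).trans ?_
    calc ∑ w ∈ Wf v, smpP p (fun ω => cprod (w.map (kkrzDV fun e => u e (ω e))) = 0)
        ≤ ∑ _w ∈ Wf v, (((m - 1 : ℕ) : ℝ) * κ) := by
          refine Finset.sum_le_sum fun w hw' => ?_
          obtain ⟨h1, h2, h3, h4⟩ := (hWf v w).1 hw'
          exact kkrz_walk_prob src tgt p u κ hκ hw g C v w h3 h2 h4 hgirth (h1.trans hr) hm
      _ = ((Wf v).card : ℝ) * (((m - 1 : ℕ) : ℝ) * κ) := by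
          rw [Finset.sum_const, nsmul_eq_mul]
      _ ≤ _ := mul_le_mul_of_nonneg_right (by exact_mod_cast hcard v) hc0
  have hmono : smpP p (fun ω => ∃ v ∈ L, ∃ w : List (E × Bool), w ≠ [] ∧
        (smpGraph src tgt).IsWalk v w v ∧ (smpGraph src tgt).CycRed w ∧ w.length ≤ r ∧
        cprod (w.map (kkrzDV fun e => u e (ω e))) = 0) ≤
      smpP p (fun ω => ∃ v ∈ L, ∃ w ∈ Wf v, cprod (w.map (kkrzDV fun e => u e (ω e))) = 0) := by
    refine smpP_mono p hp0 fun ω => ?_
    rintro ⟨v, hv, w, h1, h2, h3, h4, h5⟩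
    exact ⟨v, hv, w, (hWf v w).2 ⟨h4, h1, h2, h3⟩, h5⟩
  refine hmono.trans ((smpP_union_le p hp0 L _).trans ?_)
  calc ∑ v ∈ L, smpP p (fun ω => ∃ w ∈ Wf v, cprod (w.map (kkrzDV fun e => u e (ω e))) = 0)
      ≤ ∑ _v ∈ L, (((r + 1) * Δ ^ r : ℕ) : ℝ) * (((m - 1 : ℕ) : ℝ) * κ) :=
        Finset.sum_le_sum fun v _ => hone v
    _ = L.card * ((r + 1) * Δ ^ r) * ((m - 1 : ℕ) * κ) := by
        rw [Finset.sum_const, nsmul_eq_mul]
        push_cast
        ring

end Claimed.Agent.R300
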