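/-
Row 300, KK steps 9.g-9.i (`kk_realize` of `KkModel.lean`).  Sub-captain: helper121.
File `KkRzGirth`: the girth events of the tower: probability and deterministic consequence.
-/
import Claimed.Agent.R300.KkRzUnion
import Claimed.Agent.R300.KkRzGNum
import Claimed.Agent.R300.KkRzDefs

set_option autoImplicit false

namespace Claimed.Agent.R300

open Nil HeisLaw Finset

/-! ### holonomy and unitriangular coordinates -/

theorem kkrz_prod_gX {m : ℕ} (l : List (Deck m ℤ)) : l.prod.gX.bet = cprod (l.map fun g => g.gX.bet) := by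
  induction l with
  | nil => rfl
  | cons g l ih =>
    rw [List.prod_cons, List.map_cons, cprod_cons, ← ih]
    rfl

theorem kkrz_prod_gY {m : ℕ} (l : List (Deck m ℤ)) : l.prod.gY.bet = cprod (l.map fun g => g.gY.bet) := by
  induction l with
  | nil => rfl
  | cons g l ih =>
    rw [List.prod_cons, List.map_cons, cprod_cons, ← ih]
    rfl

theorem kkrz_hol_gX {m : ℕ} {E : Type} (z : E → Deck m ℤ) (w : List (E × Bool))
    (h : (w.map fun d => if d.2 then (z d.1)⁻¹ else z d.1).prod = 1) :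
    cprod (w.map (kkrzDV fun e => (z e).gX.bet)) = 0 := by
  have h1 := kkrz_prod_gX (w.map fun d => if d.2 then (z d.1)⁻¹ else z d.1)
  rw [h, List.map_map] at h1
  have h2 : ((fun g : Deck m ℤ => g.gX.bet) ∘ fun d : E × Bool => if d.2 then (z d.1)⁻¹ else z d.1)
      = kkrzDV fun e => (z e).gX.bet := by
    funext d
    unfold kkrzDV
    simp only [Function.comp]
    split_ifs <;> rfl
  rw [h2] at h1
  exact h1.symm

theorem kkrz_hol_gY {m : ℕ} {E : Type} (z : E → Deck m ℤ) (w : List (E × Bool))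
    (h : (w.map fun d => if d.2 then (z d.1)⁻¹ else z d.1).prod = 1) :
    cprod (w.map (kkrzDV fun e => (z e).gY.bet)) = 0 := by
  have h1 := kkrz_prod_gY (w.map fun d => if d.2 then (z d.1)⁻¹ else z d.1)
  rw [h, List.map_map] at h1
  have h2 : ((fun g : Deck m ℤ => g.gY.bet) ∘ fun d : E × Bool => if d.2 then (z d.1)⁻¹ else z d.1)
      = kkrzDV fun e => (z e).gY.bet := by
    funext d
    unfold kkrzDV
    simp only [Function.comp]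
    split_ifs <;> rfl
  rw [h2] at h1
  exact h1.symm

/-! ### the events -/

/-- comparison of the atom bounds. -/
theorem kkrz_kappa_le (Cstar E0c : ℕ) (hE0 : 10 * (Cstar + 1) < E0c) (Hi Hj : ℕ) (h : Hi ≤ 2 * Hj) :
    ((2 : ℝ) ^ (E0c * Hj))⁻¹ ≤ ((2 : ℝ) ^ ((5 * Cstar + 5) * Hi))⁻¹ := by
  have h1 : (5 * Cstar + 5) * Hi ≤ E0c * Hj := by
    calc (5 * Cstar + 5) * Hi ≤ (5 * Cstar + 5) * (2 * Hj) := Nat.mul_le_mul_left _ h
      _ = (10 * (Cstar + 1)) * Hj := by ring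
      _ ≤ E0c * Hj := Nat.mul_le_mul_right _ hE0.le
  exact inv_anti₀ (by positivity) (pow_le_pow_right₀ (by norm_num) h1)

/-- **Probability of the girth event of the layer `i`.** -/
theorem kkrz_girth_prob (m Cstar : ℕ) (hm : nilL (201 * Cstar) < m) (E0c : ℕ)
    (hE0 : 10 * (Cstar + 1) < E0c) :
    ∃ ℓ₀ : ℕ, ∀ ℓ ≥ ℓ₀, ∀ (J : Type) (Y : KkGraph ℓ) [DecidableEq Y.E0], Y.Girth →
      ∀ μ : ℤ → ℤ → KkLaw (Deck m ℤ) J,
      (∀ i k, i ≤ 2 * (kkH ℓ 0 : ℤ) →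
        KkWide (μ i k).p (fun a => ((μ i k).z a).gX.bet) ((2 : ℝ) ^ (E0c * kkH ℓ i))⁻¹) →
      (∀ i k, (kkH ℓ 0 : ℤ) ≤ i →
        KkWide (μ i k).p (fun a => ((μ i k).z a).gY.bet) ((2 : ℝ) ^ (E0c * kkH ℓ i))⁻¹) →
      ∀ i : ℤ, smpP (fun e : Y.nearE i (kkRad ℓ Cstar i) => (Y.law μ e).p)
        (Y.BadG μ Cstar i (Y.nearE i (kkRad ℓ Cstar i))) ≤ (m - 1 : ℕ) * ((2 : ℝ) ^ (2 * kkH ℓ i))⁻¹ := by
  obtain ⟨ℓ1, h1⟩ := kkrz_num_rad Cstar
  obtain ⟨ℓ2, h2⟩ := kkrz_num_girth Cstar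
  refine ⟨max (max ℓ1 ℓ2) 1, fun ℓ hℓ J Y _ hY μ hX hYY i => ?_⟩
  classical
  have hℓ1 : ℓ1 ≤ ℓ := le_trans (le_trans (le_max_left _ _) (le_max_left _ _)) hℓ
  have hℓ2 : ℓ2 ≤ ℓ := le_trans (le_trans (le_max_right _ _) (le_max_left _ _)) hℓ
  have hℓ3 : 1 ≤ ℓ := le_trans (le_max_right _ _) hℓ
  obtain ⟨r, hr⟩ : ∃ r, r = kkRad ℓ Cstar i := ⟨_, rfl⟩
  obtain ⟨hr1000, hrC⟩ := h1 ℓ hℓ1 i
  have hnum := h2 ℓ hℓ2 i
  rw [← hr] at hr1000 hrC hnum ⊢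
  obtain ⟨S, hS⟩ : ∃ S, S = Y.nearE i r := ⟨_, rfl⟩
  rw [← hS]
  obtain ⟨κ, hκ⟩ : ∃ κ : ℝ, κ = ((2 : ℝ) ^ ((5 * Cstar + 5) * kkH ℓ i))⁻¹ := ⟨_, rfl⟩
  rw [← hκ] at hnum
  have hκ0 : 0 ≤ κ := by rw [hκ]; positivity
  have hp0 : ∀ (e : S) (a : (Y.law μ e).Ω), 0 ≤ (Y.law μ e).p a := fun e a => (Y.law μ e).p_nonneg a
  have key : ∀ (u : ∀ e : S, (Y.law μ e).Ω → Idx m → ℤ), (∀ e : S, KkWide (Y.law μ e).p (u e) κ) →
      (∀ (x : ∀ e : S, (Y.law μ e).Ω) (w : List (S × Bool)),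
        (w.map fun d => if d.2 then ((Y.law μ d.1).z (x d.1))⁻¹ else (Y.law μ d.1).z (x d.1)).prod = 1 →
          cprod (w.map (kkrzDV fun e => u e (x e))) = 0) →
      smpP (fun e : S => (Y.law μ e).p) (Y.BadG μ Cstar i S)
        ≤ (m - 1 : ℕ) * ((2 : ℝ) ^ (2 * kkH ℓ i))⁻¹ := by
    intro u hu hhol
    have habs := kkrz_girth_abs (fun e : S => Y.src e) (fun e : S => Y.tgt e)
      (fun e : S => (Y.law μ e).p) hp0 u κ hκ0 hu ((kkH ℓ i - r - 1) / (400 * ℓ)) (201 * Cstar) r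
      (6 * kkD ℓ) (by have : 0 < kkD ℓ := by unfold kkD kkd; positivity
                      omega)
      (fun x c hne hw hc => Y.sub_girth hY i r S hS.le x c hne hw hc) hrC hm
      (fun x T hT => Y.sub_deg_le S x T hT) (Y.fA i ∪ Y.fB i)
    refine le_trans (smpP_mono _ hp0 fun x hx => ?_) (habs.trans ?_)
    · obtain ⟨v, w, hv, hne, hw, hc, hlen, hprod⟩ := hx
      refine ⟨v, ?_, w, hne, hw, hc, ?_, hhol x w hprod⟩
      · by_cases hA : Y.sideA v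
        · exact Finset.mem_union_left _ (Y.mem_fA.2 ⟨hv, hA⟩)
        · exact Finset.mem_union_right _ (Y.mem_fB.2 ⟨hv, hA⟩)
      · rw [hr]
        unfold kkRad
        rw [Nat.le_div_iff_mul_le (by omega)]
        calc w.length * (4 * ℓ) = 4 * ℓ * w.length := by ring
          _ ≤ _ := hlen
    · have hcard : (((Y.fA i ∪ Y.fB i).card : ℕ) : ℝ)
          ≤ ((kkd ℓ * 2 ^ kkH ℓ i + 2 ^ kkH ℓ i : ℕ) : ℝ) := by
        have := Finset.card_union_le (Y.fA i) (Y.fB i)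
        rw [Y.card_fA, Y.card_fB] at this
        exact_mod_cast this
      have hX0 : (0 : ℝ) ≤ ((r : ℝ) + 1) * ((6 * kkD ℓ : ℕ) : ℝ) ^ r := by positivity
      have hm0 : (0 : ℝ) ≤ ((m - 1 : ℕ) : ℝ) := Nat.cast_nonneg _
      calc (((Y.fA i ∪ Y.fB i).card : ℕ) : ℝ) * (((r : ℝ) + 1) * ((6 * kkD ℓ : ℕ) : ℝ) ^ r)
            * (((m - 1 : ℕ) : ℝ) * κ)
          ≤ ((kkd ℓ * 2 ^ kkH ℓ i + 2 ^ kkH ℓ i : ℕ) : ℝ) * (((r : ℝ) + 1) * ((6 * kkD ℓ : ℕ) : ℝ) ^ r)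
            * (((m - 1 : ℕ) : ℝ) * κ) := by gcongr
        _ = ((m - 1 : ℕ) : ℝ) * (((kkd ℓ * 2 ^ kkH ℓ i + 2 ^ kkH ℓ i : ℕ) : ℝ)
            * (((r : ℝ) + 1) * ((6 * kkD ℓ : ℕ) : ℝ) ^ r) * κ) := by ring
        _ ≤ ((m - 1 : ℕ) : ℝ) * ((2 : ℝ) ^ (2 * kkH ℓ i))⁻¹ := by gcongr
  have hmem : ∀ e : S, |Y.lay (Y.src e) - i| ≤ r := fun e =>
    (Y.mem_nearE.1 (hS.le e.2)).2
  by_cases hreg : 2 * i ≤ 3 * (kkH ℓ 0 : ℤ)
  · refine key (fun e a => ((Y.law μ e).z a).gX.bet) (fun e => ?_) (fun x w h => ?_)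
    · obtain ⟨g1, -, g3⟩ := kkrz_num_regime ℓ i (Y.lay (Y.src e)) r hr1000 (hmem e)
      refine (hX _ _ (g1 hreg)).rzMono ?_
      rw [hκ]
      exact kkrz_kappa_le Cstar E0c hE0 _ _ g3
    · exact kkrz_hol_gX (fun e : S => (Y.law μ e).z (x e)) w h
  · refine key (fun e a => ((Y.law μ e).z a).gY.bet) (fun e => ?_) (fun x w h => ?_)
    · obtain ⟨-, g2, g3⟩ := kkrz_num_regime ℓ i (Y.lay (Y.src e)) r hr1000 (hmem e)
      refine (hYY _ _ (g2 hreg)).rzMono ?_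
      rw [hκ]
      exact kkrz_kappa_le Cstar E0c hE0 _ _ g3
    · exact kkrz_hol_gY (fun e : S => (Y.law μ e).z (x e)) w h

/-- **Deterministic part**: if no girth event occurs, the voltage cover has large girth. -/
theorem kkrz_girth_det {ℓ : ℕ} (hℓ : 1 ≤ ℓ) (Y : KkGraph ℓ) {F J : Type} [Group F]
    (μ : ℤ → ℤ → KkLaw F J) (Cstar : ℕ) (ω : ∀ e, (Y.law μ e).Ω)
    (h : ∀ i, ¬ Y.BadG μ Cstar i (Y.nearE i (kkRad ℓ Cstar i)) (fun e => ω e)) :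
    Y.CoverGirth Cstar (fun e => (Y.law μ e).z (ω e)) := by
  intro v w hcyc hlen hhol
  obtain ⟨hne, hwalk, hcr, hkeep⟩ := hcyc
  have hlen' : w.length ≤ kkRad ℓ Cstar (Y.lay v) := by
    unfold kkRad
    rw [Nat.le_div_iff_mul_le (by omega)]
    calc w.length * (4 * ℓ) = 4 * ℓ * w.length := by ring
      _ ≤ _ := hlen
  have hS : ∀ d ∈ w, d.1 ∈ Y.nearE (Y.lay v) (kkRad ℓ Cstar (Y.lay v)) := fun d hd =>
    Y.mem_nearE.2 ⟨hkeep d hd, (Y.lay_of_walk v v w hwalk d hd).trans (by exact_mod_cast hlen')⟩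
  obtain ⟨w', rfl⟩ := Y.exists_lift _ w hS
  refine h (Y.lay v) ⟨v, w', rfl, ?_, (Y.sub_isWalk _ v v w').2 hwalk, (Y.sub_cycRed _ w').2 hcr,
    by simpa using hlen, ?_⟩
  · rintro rfl
    exact hne rfl
  · unfold KkGraph.hol at hhol
    rw [List.map_map] at hhol
    exact hhol

end Claimed.Agent.R300
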