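/-
Row 300, KK step 9.i (`kk_realize`).  Sub-captain: helper121.
File 8: the sum of the probabilities of all bad events is `< 1`.
-/
import Claimed.Agent.R300.KkIface

set_option autoImplicit false

namespace Claimed.Agent.R300

/-- the bound for the probabilities of the bad events. -/
noncomputable def kkrzEps (m ℓ : ℕ) : ℤ ⊕ ℤ × Fin 3 → ℝ :=
  Sum.elim (fun i : ℤ => ((m - 1 : ℕ) : ℝ) * ((2 : ℝ) ^ (2 * kkH ℓ i))⁻¹)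
    (fun q : ℤ × Fin 3 => ((2 : ℝ) ^ (4 * kkH ℓ q.1))⁻¹)

/-- two-sided geometric series -/
theorem kkrz_hasSum_natAbs {x : ℝ} (h0 : 0 ≤ x) (h1 : x < 1) :
    HasSum (fun i : ℤ => x ^ i.natAbs) ((1 - x)⁻¹ + (1 - x)⁻¹ * x) := by
  refine HasSum.of_nat_of_neg_add_one ?_ ?_
  · simpa using hasSum_geometric_of_lt_one h0 h1
  · have h2 : ∀ n : ℕ, (-((n : ℤ) + 1)).natAbs = n + 1 := by
      intro n
      omega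
    simp only [h2, pow_succ]
    exact (hasSum_geometric_of_lt_one h0 h1).mul_right x

theorem kkrz_pow_H (k ℓ : ℕ) (i : ℤ) :
    ((2 : ℝ) ^ (k * kkH ℓ i))⁻¹ = ((2 : ℝ) ^ (k * kkH ℓ 0))⁻¹ * (((2 : ℝ) ^ k)⁻¹) ^ i.natAbs := by
  have h : k * kkH ℓ i = k * kkH ℓ 0 + k * i.natAbs := by
    unfold kkH
    simp
    ring
  rw [h, pow_add, mul_inv, pow_mul 2 k i.natAbs, inv_pow]

theorem kkrz_sum (m : ℕ) : ∃ ℓ₀ : ℕ, ∀ ℓ ≥ ℓ₀, Summable (kkrzEps m ℓ) ∧ ∑' k, kkrzEps m ℓ k < 1 := by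
  refine ⟨m, fun ℓ hℓ => ?_⟩
  set c2 : ℝ := ((2 : ℝ) ^ (2 * kkH ℓ 0))⁻¹ with hc2
  set c4 : ℝ := ((2 : ℝ) ^ (4 * kkH ℓ 0))⁻¹ with hc4
  have hA : HasSum (fun i : ℤ => ((m - 1 : ℕ) : ℝ) * ((2 : ℝ) ^ (2 * kkH ℓ i))⁻¹)
      (((m - 1 : ℕ) : ℝ) * (c2 * ((1 - ((2 : ℝ) ^ 2)⁻¹)⁻¹ + (1 - ((2 : ℝ) ^ 2)⁻¹)⁻¹ * ((2 : ℝ) ^ 2)⁻¹))) := by
    have e : (fun i : ℤ => ((m - 1 : ℕ) : ℝ) * ((2 : ℝ) ^ (2 * kkH ℓ i))⁻¹) =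
        fun i : ℤ => ((m - 1 : ℕ) : ℝ) * (c2 * (((2 : ℝ) ^ 2)⁻¹) ^ i.natAbs) :=
      funext fun i => by rw [kkrz_pow_H 2 ℓ i]
    rw [e]
    exact ((kkrz_hasSum_natAbs (by norm_num) (by norm_num)).mul_left c2).mul_left _
  have hB0 : HasSum (fun i : ℤ => ((2 : ℝ) ^ (4 * kkH ℓ i))⁻¹)
      (c4 * ((1 - ((2 : ℝ) ^ 4)⁻¹)⁻¹ + (1 - ((2 : ℝ) ^ 4)⁻¹)⁻¹ * ((2 : ℝ) ^ 4)⁻¹)) := by
    have e : (fun i : ℤ => ((2 : ℝ) ^ (4 * kkH ℓ i))⁻¹) =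
        fun i : ℤ => c4 * (((2 : ℝ) ^ 4)⁻¹) ^ i.natAbs :=
      funext fun i => by rw [kkrz_pow_H 4 ℓ i]
    rw [e]
    exact (kkrz_hasSum_natAbs (by norm_num) (by norm_num)).mul_left c4
  have hone : HasSum (fun _ : Fin 3 => (1 : ℝ)) 3 := by
    have := hasSum_fintype (fun _ : Fin 3 => (1 : ℝ))
    simpa using this
  have hB : HasSum (fun q : ℤ × Fin 3 => ((2 : ℝ) ^ (4 * kkH ℓ q.1))⁻¹)
      (c4 * ((1 - ((2 : ℝ) ^ 4)⁻¹)⁻¹ + (1 - ((2 : ℝ) ^ 4)⁻¹)⁻¹ * ((2 : ℝ) ^ 4)⁻¹) * 3) := by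
    have h1 := hB0.mul hone (Summable.mul_of_nonneg hB0.summable hone.summable
      (fun i => by positivity) (fun _ => zero_le_one))
    simpa using h1
  have hS := HasSum.sum (f := kkrzEps m ℓ) hA hB
  refine ⟨hS.summable, ?_⟩
  rw [hS.tsum_eq]
  -- numerics
  have hH0 : ℓ + 2 ≤ 2 * kkH ℓ 0 := by
    unfold kkH
    omega
  have h2 : (4 : ℝ) * ((m : ℝ) + 1) ≤ (2 : ℝ) ^ (2 * kkH ℓ 0) := by
    have h3 : 4 * (m + 1) ≤ 2 ^ (2 * kkH ℓ 0) := by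
      calc 4 * (m + 1) ≤ 4 * (ℓ + 1) := by omega
        _ ≤ 2 ^ 2 * 2 ^ ℓ := Nat.mul_le_mul (by norm_num) (Nat.lt_two_pow_self (n := ℓ))
        _ = 2 ^ (ℓ + 2) := by ring
        _ ≤ 2 ^ (2 * kkH ℓ 0) := Nat.pow_le_pow_right (by norm_num) hH0
    exact_mod_cast h3
  have hm0 : (0 : ℝ) ≤ m := Nat.cast_nonneg _
  have hm1 : (((m - 1 : ℕ) : ℝ)) ≤ m := by exact_mod_cast Nat.sub_le m 1
  have hm1' : (0 : ℝ) ≤ ((m - 1 : ℕ) : ℝ) := Nat.cast_nonneg _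
  have hc2le : c2 ≤ (4 * ((m : ℝ) + 1))⁻¹ := inv_anti₀ (by positivity) h2
  have hc2pos : 0 ≤ c2 := by positivity
  have hc4le : c4 ≤ (16 : ℝ)⁻¹ := by
    refine inv_anti₀ (by norm_num) ?_
    calc (16 : ℝ) = 2 ^ 4 := by norm_num
      _ ≤ (2 : ℝ) ^ (4 * kkH ℓ 0) := pow_le_pow_right₀ (by norm_num) (by unfold kkH; omega)
  have hmc : ((m - 1 : ℕ) : ℝ) * c2 ≤ 1 / 4 := by
    calc ((m - 1 : ℕ) : ℝ) * c2 ≤ (m : ℝ) * (4 * ((m : ℝ) + 1))⁻¹ :=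
          mul_le_mul hm1 hc2le hc2pos hm0
      _ ≤ 1 / 4 := by
          rw [← div_eq_mul_inv, div_le_iff₀ (by positivity)]
          linarith
  norm_num
  nlinarith

end Claimed.Agent.R300
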