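/-
Row 300, KK steps 9.g-9.i: proof of `kk_realize` of `KkModel.lean`.  Sub-captain: helper121.
-/
import Claimed.Agent.R300.KkRzGirth
import Claimed.Agent.R300.KkRzBDet
import Claimed.Agent.R300.KkRzBlock
import Claimed.Agent.R300.KkRzNum

set_option autoImplicit false

namespace Claimed.Agent.R300

open Nil HeisLaw
open scoped ENNReal ComplexConjugate InnerProductSpace Matrix.Norms.L2Operator

theorem kkrz_fin3 (i k : ℤ) (h : |i - k| ≤ 1) : ∃ t : Fin 3, k = i + (t : ℤ) - 1 := by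
  rw [abs_le] at h
  refine ⟨⟨(k - i + 1).toNat, by omega⟩, ?_⟩
  show k = i + ((k - i + 1).toNat : ℤ) - 1
  omega

theorem kkrz_fin3_abs (i : ℤ) (t : Fin 3) : |i - (i + (t : ℤ) - 1)| ≤ 1 := by
  have := t.2
  rw [abs_le]
  constructor <;> omega

/-- **Steps 9.g, 9.h, 9.i.** -/
theorem kk_realize_proof (m Cstar : ℕ) (hm : nilL (201 * Cstar) < m) (E0c Csupp CN : ℕ)
    (hE0 : 10 * (Cstar + 1) < E0c) (Cw ε : ℝ) (hCw : 0 ≤ Cw) (hε : 0 < ε) :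
    ∃ ℓ₀ : ℕ, ∀ ℓ ≥ ℓ₀, ∀ (J : Type) [Fintype J] [DecidableEq J],
      (Fintype.card J : ℝ) ≤ 2 ^ (CN * kkH ℓ 0) →
      ∀ (Y : KkGraph ℓ), Y.Girth → ∀ μ : ℤ → ℤ → KkLaw (Deck m ℤ) J,
      (∀ i k a, ‖(μ i k).W a‖ ≤ Cw) →
      (∀ i k a, ((μ i k).z a).CBound (2 ^ (Csupp * kkH ℓ i)) ∧
        ((μ i k).z a)⁻¹.CBound (2 ^ (Csupp * kkH ℓ i))) →
      (∀ i k, i ≤ 2 * (kkH ℓ 0 : ℤ) →
        KkWide (μ i k).p (fun a => ((μ i k).z a).gX.bet) ((2 : ℝ) ^ (E0c * kkH ℓ i))⁻¹) →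
      (∀ i k, (kkH ℓ 0 : ℤ) ≤ i →
        KkWide (μ i k).p (fun a => ((μ i k).z a).gY.bet) ((2 : ℝ) ^ (E0c * kkH ℓ i))⁻¹) →
      ∃ ω : ∀ e : Y.E0, (μ (Y.lay (Y.src e)) (Y.lay (Y.tgt e))).Ω,
        (∀ e, 0 < (μ (Y.lay (Y.src e)) (Y.lay (Y.tgt e))).p (ω e)) ∧
        Y.CoverGirth Cstar (fun e => (μ (Y.lay (Y.src e)) (Y.lay (Y.tgt e))).z (ω e)) ∧
        ∀ i k : ℤ, |i - k| ≤ 1 →
          ‖Y.sideOp (Deck m ℤ) J True i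
              * Y.TP (fun e => (μ (Y.lay (Y.src e)) (Y.lay (Y.tgt e))).z (ω e))
                  (fun e => (μ (Y.lay (Y.src e)) (Y.lay (Y.tgt e))).W (ω e))
              * Y.sideOp (Deck m ℤ) J False k
            - Y.PiOp (Deck m ℤ) J * kkTens (Y.U0 i k) (μ i k).meanOp * Y.PiOp (Deck m ℤ) J‖ ≤ ε := by
  obtain ⟨ℓ1, h1⟩ := kkrz_girth_prob m Cstar hm E0c hE0
  obtain ⟨ℓ2, h2⟩ := kkrz_block_prob m Csupp CN Cw ε hCw hε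
  obtain ⟨ℓ3, h3⟩ := kkrz_sum m
  refine ⟨max (max ℓ1 ℓ2) (max ℓ3 1), fun ℓ hℓ J _ _ hJ Y hY μ hW hz hX hYY => ?_⟩
  classical
  have hℓ1 : ℓ1 ≤ ℓ := le_trans (le_trans (le_max_left _ _) (le_max_left _ _)) hℓ
  have hℓ2 : ℓ2 ≤ ℓ := le_trans (le_trans (le_max_right _ _) (le_max_left _ _)) hℓ
  have hℓ3 : ℓ3 ≤ ℓ := le_trans (le_trans (le_max_left _ _) (le_max_right _ _)) hℓ
  have hℓ4 : 1 ≤ ℓ := le_trans (le_trans (le_max_right _ _) (le_max_right _ _)) hℓ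
  obtain ⟨hsum, hlt⟩ := h3 ℓ hℓ3
  obtain ⟨ω, hpos, hbad⟩ := smp_select_pos (ι := Y.E0) (Ω := fun e => (Y.law μ e).Ω)
    (fun e => (Y.law μ e).p) (fun e a => (Y.law μ e).p_nonneg a) (fun e => (Y.law μ e).p_sum)
    (κ := ℤ ⊕ ℤ × Fin 3)
    (Sum.elim (fun i => Y.nearE i (kkRad ℓ Cstar i)) (fun q => Y.blkE q.1 (q.1 + (q.2 : ℤ) - 1)))
    (fun k => Sum.rec
      (motive := fun k => (∀ e : (Sum.elim (fun i => Y.nearE i (kkRad ℓ Cstar i))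
        (fun q : ℤ × Fin 3 => Y.blkE q.1 (q.1 + (q.2 : ℤ) - 1)) k : Finset Y.E0), (Y.law μ e).Ω) → Prop)
      (fun i => Y.BadG μ Cstar i (Y.nearE i (kkRad ℓ Cstar i)))
      (fun q => Y.BadB μ ε q.1 (q.1 + (q.2 : ℤ) - 1)) k)
    (kkrzEps m ℓ)
    (by
      rintro (i | q)
      · exact h1 ℓ hℓ1 J Y hY μ hX hYY i
      · exact h2 ℓ hℓ2 J hJ Y hY μ hW hz q.1 _ (kkrz_fin3_abs q.1 q.2))
    hsum hlt
  refine ⟨ω, hpos, kkrz_girth_det hℓ4 Y μ Cstar ω (fun i => hbad (Sum.inl i)), fun i k hik => ?_⟩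
  obtain ⟨t, rfl⟩ := kkrz_fin3 i k hik
  have hb : ¬ Y.BadB μ ε i (i + (t : ℤ) - 1) (fun e => ω e) := hbad (Sum.inr (i, t))
  have hn : 1 ≤ kkNrm ℓ i (i + (t : ℤ) - 1) := kkNrm_one_le hℓ4 i _ hik
  have hn0 : 0 < kkNrm ℓ i (i + (t : ℤ) - 1) := lt_of_lt_of_le one_pos hn
  refine (kkrz_block_det Y hℓ4 μ Cw hCw hW ω i _ hik).trans ?_
  unfold KkGraph.BadB at hb
  rw [not_lt] at hb
  rw [inv_mul_le_iff₀ hn0]
  exact hb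

end Claimed.Agent.R300
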