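/-
Row 300, KK Sections 8-10: `kk_cover_local` from `kk_realize` and `kk_laws` (subtask KKM-COMB, helper145).

`D := (T_P - Π (modelM ⊗ pp) Π) Q`.  Blocks w.r.t. the sides and layers:
* `A_i - A_k` and `B_i - B_k` blocks vanish, `A_i - B_k` blocks vanish for `|i - k| > 1`;
* `P_{A,i} D P_{B,k} = [P_{A,i} T_P P_{B,k} - Π (U⁰_ik ⊗ mean_ik) Π] Q + Π (U⁰_ik ⊗ (mean_ik Q - h_i h_k pp)) Π`;
* `D` is selfadjoint, so the `B_k - A_i` blocks are the adjoints;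
* band width one: `‖D‖ ≤ 3 sup ‖layer blocks‖ ≤ 6 sup ‖side-layer blocks‖`.
The leaves are in KkCombA.lean (COMB-1) and KkCombB.lean (COMB-2); this file is proved from them.
-/
import Claimed.Agent.R300.KkCombB
import Claimed.Agent.R300.KkRzMain
import Claimed.Agent.R300.KkLawsMain

set_option autoImplicit false
set_option linter.unusedSectionVars false

namespace Claimed.Agent.R300

open Nil HeisLaw
open scoped ENNReal ComplexConjugate InnerProductSpace Matrix.Norms.L2Operator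

/-! ### MAIN -/

section main

variable {ℓ : ℕ} (Y : KkGraph ℓ) {F : Type} [Group F] {J : Type} [Fintype J] [DecidableEq J]

/-- the model part `Π (modelM ⊗ pp) Π` -/
noncomputable def kkcMo (h : ℤ → ℝ) (pp : ScL2 (F × J) →L[ℂ] ScL2 (F × J)) :
    ScL2 (F × (Y.V0 × J)) →L[ℂ] ScL2 (F × (Y.V0 × J)) :=
  Y.PiOp F J * kkTens (Y.modelM h) pp * Y.PiOp F J

variable {Y}

theorem kkc_side_pi (s : Prop) (i : ℤ) : Commute (Y.sideOp F J s i) (Y.PiOp F J) :=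
  kkc_restr_commute _ _

/-- moving the side projections inside -/
theorem kkc_block_pi (K : ScL2 (F × (Y.V0 × J)) →L[ℂ] ScL2 (F × (Y.V0 × J))) (s s' : Prop)
    (i k : ℤ) :
    Y.sideOp F J s i * (Y.PiOp F J * K * Y.PiOp F J) * Y.sideOp F J s' k
      = Y.PiOp F J * (Y.sideOp F J s i * K * Y.sideOp F J s' k) * Y.PiOp F J := by
  have h1 := (kkc_side_pi (Y := Y) (F := F) (J := J) s i).eq
  have h2 := (kkc_side_pi (Y := Y) (F := F) (J := J) s' k).eq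
  calc Y.sideOp F J s i * (Y.PiOp F J * K * Y.PiOp F J) * Y.sideOp F J s' k
      = (Y.sideOp F J s i * Y.PiOp F J) * K * (Y.PiOp F J * Y.sideOp F J s' k) := by
        simp only [mul_assoc]
    _ = (Y.PiOp F J * Y.sideOp F J s i) * K * (Y.sideOp F J s' k * Y.PiOp F J) := by
        rw [h1, h2]
    _ = _ := by simp only [mul_assoc]

theorem kkc_Mo_AB (h : ℤ → ℝ) (j : ℤ) (hj : ∀ i, i ≠ j → i ≠ j + 1 → h i = 0)
    (pp : ScL2 (F × J) →L[ℂ] ScL2 (F × J)) (i k : ℤ) :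
    Y.sideOp F J True i * kkcMo Y h pp * Y.sideOp F J False k
      = ((h i * h k : ℝ) : ℂ) • (Y.PiOp F J * kkTens (Y.U0 i k) pp * Y.PiOp F J) := by
  unfold kkcMo
  rw [kkc_block_pi]
  have h1 := kkc_restr_tens (F := F) (J := J) (Y.modelM h) _ (kkc_modelM_supp Y h j hj) pp
    {v | Y.lay v = i ∧ (Y.sideA v ↔ True)} {v | Y.lay v = k ∧ (Y.sideA v ↔ False)}
  rw [kkc_modelM_AB, (kkTens_smul _ _ (kkc_U0_supp Y i k) _ pp).1] at h1
  have h2 : Y.sideOp F J True i * kkTens (Y.modelM h) pp * Y.sideOp F J False k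
      = ((h i * h k : ℝ) : ℂ) • kkTens (Y.U0 i k) pp := h1
  rw [h2, mul_smul_comm, smul_mul_assoc]

theorem kkc_Mo_same (h : ℤ → ℝ) (j : ℤ) (hj : ∀ i, i ≠ j → i ≠ j + 1 → h i = 0)
    (pp : ScL2 (F × J) →L[ℂ] ScL2 (F × J)) (s : Prop) (i k : ℤ) :
    Y.sideOp F J s i * kkcMo Y h pp * Y.sideOp F J s k = 0 := by
  unfold kkcMo
  rw [kkc_block_pi]
  have h1 := kkc_restr_tens (F := F) (J := J) (Y.modelM h) _ (kkc_modelM_supp Y h j hj) pp
    {v | Y.lay v = i ∧ (Y.sideA v ↔ s)} {v | Y.lay v = k ∧ (Y.sideA v ↔ s)}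
  rw [kkc_modelM_same, kkc_tens_zero] at h1
  have h2 : Y.sideOp F J s i * kkTens (Y.modelM h) pp * Y.sideOp F J s k = 0 := h1
  rw [h2, mul_zero, zero_mul]

theorem kkc_Mo_star (h : ℤ → ℝ) (j : ℤ) (hj : ∀ i, i ≠ j → i ≠ j + 1 → h i = 0)
    (pp : ScL2 (F × J) →L[ℂ] ScL2 (F × J)) (hpp : star pp = pp) :
    star (kkcMo Y h pp) = kkcMo Y h pp := by
  unfold kkcMo KkGraph.PiOp
  rw [star_mul, star_mul, kkc_restr_star, kkTens_star _ _ (kkc_modelM_supp Y h j hj), hpp,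
    mul_assoc]
  congr 3
  funext v v'
  exact kkc_modelM_symm Y h v v'

/-- `(M ⊗ B) Q = M ⊗ (B Q)` -/
theorem kkc_tens_arc (M : Y.V0 → Y.V0 → ℂ) (S : Finset Y.V0) (hM : KkSupp M S)
    (B : ScL2 (F × J) →L[ℂ] ScL2 (F × J)) (z₀ : F) (T : Set UnitAddCircle) :
    kkTens M B * kkArc (kkU (Y.V0 × J) z₀) T = kkTens M (B * kkArc (kkU J z₀) T) ∧
    kkArc (kkU (Y.V0 × J) z₀) T * kkTens M B = kkTens M (kkArc (kkU J z₀) T * B) := by
  rw [← kkAmpHom_arc]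
  exact kkTens_mul_amp M S hM B _

/-- **The local comparison.** -/
theorem kkc_main (z₀ : F) (hz : ∀ g, z₀ * g = g * z₀) (μ : ℤ → ℤ → KkLaw F J) {𝔄 : Type}
    (A : KkArcData F J 𝔄) (hA : A.Good z₀) (z : Y.E0 → F) (W : Y.E0 → Matrix J J ℂ) (Cw : ℝ)
    (hW : ∀ e, ‖W e‖ ≤ Cw) (ε η : ℝ) (hε : 0 ≤ ε) (hη : 0 ≤ η)
    (hreal : ∀ i k : ℤ, |i - k| ≤ 1 →
      ‖Y.sideOp F J True i * Y.TP z W * Y.sideOp F J False k
        - Y.PiOp F J * kkTens (Y.U0 i k) (μ i k).meanOp * Y.PiOp F J‖ ≤ ε)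
    (hlaw : ∀ α (i k : ℤ), |i - k| ≤ 1 →
      ‖(μ i k).meanOp * A.Q z₀ _ α - ((A.hh α i * A.hh α k : ℝ) : ℂ) • A.pp α‖ ≤ η) (α : 𝔄) :
    ‖(Y.TP z W - Y.PiOp _ _ * kkTens (Y.modelM (A.hh α)) (A.pp α) * Y.PiOp _ _) * A.Q z₀ _ α‖
      ≤ 6 * (ε + η) := by
  classical
  obtain ⟨j, hj, -⟩ := hA.hh_two α
  set h := A.hh α with hh
  set pp := A.pp α with hpp
  set Q : ScL2 (F × (Y.V0 × J)) →L[ℂ] ScL2 (F × (Y.V0 × J)) := A.Q z₀ (Y.V0 × J) α with hQ
  set Qs : ScL2 (F × J) →L[ℂ] ScL2 (F × J) := A.Q z₀ J α with hQs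
  have hppsa : star pp = pp := (hA.pp_proj α).isSelfAdjoint.star_eq
  have hQsa : star Q = Q := (kkArc_isStarProjection _ _).isSelfAdjoint.star_eq
  have hQssa : star Qs = Qs := (kkArc_isStarProjection _ _).isSelfAdjoint.star_eq
  have hQn : ‖Q‖ ≤ 1 := kkArc_norm_le _ _
  have hpQ : pp * Qs = pp := hA.pp_arc α
  have hQp : Qs * pp = pp := by
    have := congrArg star hpQ
    rwa [star_mul, hppsa, hQssa] at this
  have cS : ∀ (s : Prop) (i : ℤ), Commute (Y.sideOp F J s i) Q := fun s i =>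
    kkc_restr_arc z₀ _ {v | Y.lay v = i ∧ (Y.sideA v ↔ s)}
  have cP : Commute (Y.PiOp F J) Q := kkc_restr_arc z₀ _ {v | Y.keep v}
  have cT : Commute (Y.TP z W) Q := kkc_TP_arc Y z W Cw hW z₀ hz _
  have cK : Commute (kkTens (Y.modelM h) pp) Q := by
    have := kkc_tens_arc (Y.modelM h) _ (kkc_modelM_supp Y h j hj) pp z₀
      (kkIcc (A.lo α) (A.hi α))
    show kkTens (Y.modelM h) pp * Q = Q * kkTens (Y.modelM h) pp
    rw [hQ]
    unfold KkArcData.Q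
    rw [this.1, this.2]
    show kkTens (Y.modelM h) (pp * Qs) = kkTens (Y.modelM h) (Qs * pp)
    rw [hpQ, hQp]
  have cM : Commute (kkcMo Y h pp) Q := (cP.mul_left cK).mul_left cP
  set D := (Y.TP z W - kkcMo Y h pp) * Q with hD
  have hDsa : star D = D := by
    rw [hD, star_mul, star_sub, kkc_TP_star Y z W Cw hW, kkc_Mo_star h j hj pp hppsa, hQsa]
    exact ((cT.sub_left cM).eq).symm
  -- blocks of `D`
  have hblock : ∀ (s s' : Prop) (i k : ℤ), Y.sideOp F J s i * D * Y.sideOp F J s' k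
      = (Y.sideOp F J s i * Y.TP z W * Y.sideOp F J s' k
          - Y.sideOp F J s i * kkcMo Y h pp * Y.sideOp F J s' k) * Q := by
    intro s s' i k
    rw [hD]
    calc Y.sideOp F J s i * ((Y.TP z W - kkcMo Y h pp) * Q) * Y.sideOp F J s' k
        = Y.sideOp F J s i * (Y.TP z W - kkcMo Y h pp) * (Q * Y.sideOp F J s' k) := by
          simp only [mul_assoc]
      _ = Y.sideOp F J s i * (Y.TP z W - kkcMo Y h pp) * (Y.sideOp F J s' k * Q) := by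
          rw [(cS s' k).eq]
      _ = _ := by
          simp only [mul_sub, sub_mul, mul_assoc]
  have hBA : ∀ i k : ℤ, Y.sideOp F J False k * D * Y.sideOp F J True i
      = star (Y.sideOp F J True i * D * Y.sideOp F J False k) := by
    intro i k
    rw [star_mul, star_mul, hDsa]
    unfold KkGraph.sideOp
    rw [kkc_restr_star, kkc_restr_star, mul_assoc]
  have hfar : ∀ i k : ℤ, 1 < |i - k| → Y.sideOp F J True i * D * Y.sideOp F J False k = 0 := by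
    intro i k hik
    rw [hblock, kkc_TP_far Y z W Cw hW i k hik, kkc_Mo_AB h j hj, kkc_U0_far Y i k hik,
      kkc_tens_zero]
    simp
  have hnear : ∀ i k : ℤ, |i - k| ≤ 1 →
      ‖Y.sideOp F J True i * D * Y.sideOp F J False k‖ ≤ ε + η := by
    intro i k hik
    rw [hblock, kkc_Mo_AB h j hj]
    have hs := kkc_U0_supp Y i k
    have e1 : (Y.PiOp F J * kkTens (Y.U0 i k) (μ i k).meanOp * Y.PiOp F J
          - ((h i * h k : ℝ) : ℂ) • (Y.PiOp F J * kkTens (Y.U0 i k) pp * Y.PiOp F J)) * Q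
        = Y.PiOp F J * kkTens (Y.U0 i k) ((μ i k).meanOp * Qs - ((h i * h k : ℝ) : ℂ) • pp)
            * Y.PiOp F J := by
      have a1 := (kkc_tens_arc (Y.U0 i k) _ hs (μ i k).meanOp z₀ (kkIcc (A.lo α) (A.hi α))).1
      have a2 := (kkc_tens_arc (Y.U0 i k) _ hs pp z₀ (kkIcc (A.lo α) (A.hi α))).1
      have a1' : kkTens (Y.U0 i k) (μ i k).meanOp * Q = kkTens (Y.U0 i k) ((μ i k).meanOp * Qs) :=
        a1
      have a2' : kkTens (Y.U0 i k) pp * Q = kkTens (Y.U0 i k) pp := by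
        have : kkTens (Y.U0 i k) pp * Q = kkTens (Y.U0 i k) (pp * Qs) := a2
        rw [this, hpQ]
      rw [kkTens_sub_right _ _ hs, (kkTens_smul _ _ hs _ pp).2, sub_mul, smul_mul_assoc]
      have b1 : Y.PiOp F J * kkTens (Y.U0 i k) (μ i k).meanOp * Y.PiOp F J * Q
          = Y.PiOp F J * kkTens (Y.U0 i k) ((μ i k).meanOp * Qs) * Y.PiOp F J := by
        rw [mul_assoc _ (Y.PiOp F J) Q, cP.eq, ← mul_assoc, mul_assoc (Y.PiOp F J) _ Q, a1']
      have b2 : Y.PiOp F J * kkTens (Y.U0 i k) pp * Y.PiOp F J * Q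
          = Y.PiOp F J * kkTens (Y.U0 i k) pp * Y.PiOp F J := by
        rw [mul_assoc _ (Y.PiOp F J) Q, cP.eq, ← mul_assoc, mul_assoc (Y.PiOp F J) _ Q, a2']
      rw [b1, b2, mul_sub, sub_mul, mul_smul_comm, smul_mul_assoc]
    have e2 : (Y.sideOp F J True i * Y.TP z W * Y.sideOp F J False k
          - ((h i * h k : ℝ) : ℂ) • (Y.PiOp F J * kkTens (Y.U0 i k) pp * Y.PiOp F J)) * Q
        = (Y.sideOp F J True i * Y.TP z W * Y.sideOp F J False k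
            - Y.PiOp F J * kkTens (Y.U0 i k) (μ i k).meanOp * Y.PiOp F J) * Q
          + Y.PiOp F J * kkTens (Y.U0 i k) ((μ i k).meanOp * Qs - ((h i * h k : ℝ) : ℂ) • pp)
            * Y.PiOp F J := by
      rw [← e1, ← add_mul]
      congr 1
      abel
    rw [e2]
    have hPn : ‖Y.PiOp F J‖ ≤ 1 := kkc_restr_norm_le _
    have n1 : ‖(Y.sideOp F J True i * Y.TP z W * Y.sideOp F J False k
            - Y.PiOp F J * kkTens (Y.U0 i k) (μ i k).meanOp * Y.PiOp F J) * Q‖ ≤ ε :=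
      (norm_mul_le _ _).trans (by
        calc _ ≤ ε * 1 := mul_le_mul (hreal i k hik) hQn (norm_nonneg _) hε
          _ = ε := mul_one _)
    have n2 : ‖kkTens (Y.U0 i k) ((μ i k).meanOp * Qs - ((h i * h k : ℝ) : ℂ) • pp)‖ ≤ η :=
      (kkTens_norm_le _ _ hs _).trans (by
        calc _ ≤ 1 * η := mul_le_mul (kkc_U0_norm_le Y i k hik) (hlaw α i k hik) (norm_nonneg _)
              zero_le_one
          _ = η := one_mul _)
    have n3 : ‖Y.PiOp F J * kkTens (Y.U0 i k) ((μ i k).meanOp * Qs - ((h i * h k : ℝ) : ℂ) • pp)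
            * Y.PiOp F J‖ ≤ η := by
      calc _ ≤ ‖Y.PiOp F J * kkTens (Y.U0 i k)
              ((μ i k).meanOp * Qs - ((h i * h k : ℝ) : ℂ) • pp)‖ * ‖Y.PiOp F J‖ := norm_mul_le _ _
        _ ≤ (‖Y.PiOp F J‖ * ‖kkTens (Y.U0 i k)
              ((μ i k).meanOp * Qs - ((h i * h k : ℝ) : ℂ) • pp)‖) * ‖Y.PiOp F J‖ :=
            mul_le_mul_of_nonneg_right (norm_mul_le _ _) (norm_nonneg _)
        _ ≤ (1 * η) * 1 := by
            refine mul_le_mul (mul_le_mul hPn n2 (norm_nonneg _) zero_le_one) hPn (norm_nonneg _)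
              (by positivity)
        _ = η := by ring
    exact (norm_add_le _ _).trans (add_le_add n1 n3)
  have key := kkc_asm D (fun x => Y.lay x.2.1) (fun x => Y.sideA x.2.1) (ε + η) (by positivity)
    (fun s i k => by
      have := hblock s s i k
      rw [kkc_TP_same Y z W Cw hW, kkc_Mo_same h j hj, sub_zero, zero_mul] at this
      exact this)
    hfar
    (fun i k hik => by
      have := hBA i k
      rw [hfar i k hik, star_zero] at this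
      exact this)
    hnear
    (fun i k hik => by
      have := hBA i k
      have h2 : ‖Y.sideOp F J False k * D * Y.sideOp F J True i‖ ≤ ε + η := by
        rw [this]
        exact (norm_star (Y.sideOp F J True i * D * Y.sideOp F J False k)).le.trans
          (hnear i k hik)
      exact h2)
  exact key

end main

/-! ### FINAL -/

theorem kkc_card_J (m Astar ℓ : ℕ) [NeZero (kkd ℓ ^ Astar)] :
    (Fintype.card (Idx m → ZMod (kkd ℓ ^ Astar)) : ℝ)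
      ≤ 2 ^ (4 * Astar * Fintype.card (Idx m) * kkH ℓ 0) := by
  rw [Fintype.card_fun, ZMod.card]
  have h1 : (kkd ℓ ^ Astar) ^ Fintype.card (Idx m) = 2 ^ (4 * ℓ * Astar * Fintype.card (Idx m)) := by
    unfold kkd
    rw [← pow_mul, ← pow_mul, mul_assoc (4 * ℓ)]
  rw [h1]
  push_cast
  refine pow_le_pow_right₀ (by norm_num) ?_
  have h2 : ℓ ≤ kkH ℓ 0 := by unfold kkH; omega
  calc 4 * ℓ * Astar * Fintype.card (Idx m) = 4 * Astar * Fintype.card (Idx m) * ℓ := by ring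
    _ ≤ 4 * Astar * Fintype.card (Idx m) * kkH ℓ 0 := Nat.mul_le_mul_left _ h2

/-- **Export of Sections 8 and 9 to Section 10** (statement of `kk_cover_local`). -/
theorem kk_cover_local_proof (Cstar Cbul : ℕ) :
    ∃ m Astar : ℕ, 2 ≤ m ∧ 0 < Astar ∧ ∀ η μ₀ : ℝ, 0 < η → 0 < μ₀ →
    ∃ (Cw : ℝ) (ℓ₀ : ℕ), 0 ≤ Cw ∧ ∀ ℓ ≥ ℓ₀, ∀ [NeZero (kkd ℓ ^ Astar)],
    ∀ Y : KkGraph ℓ, Y.Girth →
    ∃ (z : Y.E0 → Deck m ℤ)
      (W : Y.E0 → Matrix (Idx m → ZMod (kkd ℓ ^ Astar)) (Idx m → ZMod (kkd ℓ ^ Astar)) ℂ)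
      (WW : Finset (Matrix (Idx m → ZMod (kkd ℓ ^ Astar)) (Idx m → ZMod (kkd ℓ ^ Astar)) ℂ))
      (𝔄 : Type) (_ : Countable 𝔄)
      (A : KkArcData (Deck m ℤ) (Idx m → ZMod (kkd ℓ ^ Astar)) 𝔄),
      (∀ e, W e ∈ WW) ∧ (∀ w ∈ WW, ‖w‖ ≤ Cw) ∧
      ((WW.card : ℝ) ^ 32 ≤ (Cw * (1 + ℓ)) ^ 32 * kkd ℓ) ∧
      Y.CoverGirth Cstar z ∧
      A.Good Deck.z0 ∧
      (∀ α, ‖(Y.TP z W - Y.PiOp _ _ * kkTens (Y.modelM (A.hh α)) (A.pp α) * Y.PiOp _ _)
          * A.Q Deck.z0 _ α‖ ≤ η) ∧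
      (∀ α i, A.hh α i ≠ 0 →
        ENNReal.ofReal (2 ^ (Cbul * kkH ℓ i)) * specHS (A.pp α)
          ≤ ENNReal.ofReal (μ₀ * (A.hi α - A.lo α))) ∧
      ∃ α, A.pp α ≠ 0 := by
  obtain ⟨E0c, Astar, hE0, hAst, hlaws⟩ := kk_laws_proof (nilL (201 * Cstar) + 2) Cstar Cbul (by omega)
  refine ⟨nilL (201 * Cstar) + 2, Astar, by omega, hAst, fun η μ₀ hη hμ => ?_⟩
  obtain ⟨Cw, Csupp, ℓ₁, hCw, hl⟩ := hlaws (η / 12) μ₀ (by positivity) hμ
  obtain ⟨ℓ₂, hr⟩ := kk_realize_proof (nilL (201 * Cstar) + 2) Cstar (by omega) E0c Csupp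
    (4 * Astar * Fintype.card (Idx (nilL (201 * Cstar) + 2))) hE0 Cw (η / 12) hCw (by positivity)
  refine ⟨Cw, max ℓ₁ ℓ₂, hCw, fun ℓ hℓ _ Y hY => ?_⟩
  obtain ⟨μ, WW, 𝔄, hcount, A, hWW, hWn, hcard, hCB, hwX, hwY, hgood, hmean, hHS, hne⟩ :=
    hl ℓ (le_of_max_le_left hℓ)
  obtain ⟨ω, -, hgirth, hblocks⟩ := hr ℓ (le_of_max_le_right hℓ) _ (kkc_card_J _ Astar ℓ) Y hY μ
    (fun i k a => hWn _ (hWW i k a)) hCB hwX hwY
  refine ⟨_, _, WW, 𝔄, hcount, A, fun e => hWW _ _ (ω e), hWn, hcard, hgirth, hgood, ?_, hHS, hne⟩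
  intro α
  have := kkc_main (Y := Y) Deck.z0 (fun g => Deck.cen_comm 1 g) μ A hgood _ _ Cw
    (fun e => hWn _ (hWW _ _ (ω e))) (η / 12) (η / 12) (by positivity) (by positivity) hblocks
    hmean α
  calc _ ≤ 6 * (η / 12 + η / 12) := this
    _ = η := by ring

end Claimed.Agent.R300
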