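/-
Row 300, KK Section 10, KKG-GLUE part 1 (owner helper47, prefix `kkm`).

Finite matrix lemmas, in a generic form (no graph, no operators):
* `kkm_block`   : a biregular block with a gap on the mean zero functions;
* `kkm_numeric` : the numerical inequality behind the form bound of the frozen model;
* `kkm_schur`   : Schur test for a symmetric nonnegative matrix with a fixed nonnegative vector.
-/
import Mathlib

set_option autoImplicit false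

namespace Claimed.Agent.R300

open scoped ComplexConjugate

section generic

variable {X : Type}

/-- normalised mean `⟨1_A / √|A|, y⟩`. -/
noncomputable def kkmMean (A : Finset X) (y : X → ℂ) : ℂ := (∑ a ∈ A, y a) / (Real.sqrt A.card : ℝ)

/-- the mean zero part on `A`. -/
noncomputable def kkmCen (A : Finset X) (y : X → ℂ) : X → ℂ := fun a => y a - (∑ x ∈ A, y x) / A.card

/-- the norm of the mean zero part. -/
noncomputable def kkmDev (A : Finset X) (y : X → ℂ) : ℝ := Real.sqrt (∑ a ∈ A, ‖kkmCen A y a‖ ^ 2)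

theorem kkmDev_nonneg (A : Finset X) (y : X → ℂ) : 0 ≤ kkmDev A y := Real.sqrt_nonneg _

theorem kkmDev_sq (A : Finset X) (y : X → ℂ) : kkmDev A y ^ 2 = ∑ a ∈ A, ‖kkmCen A y a‖ ^ 2 :=
  Real.sq_sqrt (Finset.sum_nonneg fun _ _ => by positivity)

theorem kkmCen_sum (A : Finset X) (hA : 0 < A.card) (y : X → ℂ) : ∑ a ∈ A, kkmCen A y a = 0 := by
  have h : (A.card : ℂ) ≠ 0 := by exact_mod_cast hA.ne'
  simp only [kkmCen, Finset.sum_sub_distrib, Finset.sum_const, nsmul_eq_mul]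
  field_simp
  ring

theorem kkm_cs (A : Finset X) (f g : X → ℂ) :
    ‖∑ a ∈ A, f a * g a‖ ≤ Real.sqrt (∑ a ∈ A, ‖f a‖ ^ 2) * Real.sqrt (∑ a ∈ A, ‖g a‖ ^ 2) := by
  refine (norm_sum_le _ _).trans ?_
  simp only [norm_mul]
  exact Real.sum_mul_le_sqrt_mul_sqrt A (fun a => ‖f a‖) (fun a => ‖g a‖)

/-- Pythagoras. -/
theorem kkm_pyth (A : Finset X) (hA : 0 < A.card) (y : X → ℂ) :
    ∑ a ∈ A, ‖y a‖ ^ 2 = ‖kkmMean A y‖ ^ 2 + kkmDev A y ^ 2 := by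
  rw [kkmDev_sq]
  set μ : ℂ := (∑ x ∈ A, y x) / A.card with hμ
  have hn : (0 : ℝ) < A.card := by exact_mod_cast hA
  have h0 := kkmCen_sum A hA y
  have h1 : ∀ a, ‖y a‖ ^ 2 = ‖μ‖ ^ 2 + ‖kkmCen A y a‖ ^ 2 + 2 * (conj μ * kkmCen A y a).re := by
    intro a
    have e : y a = μ + kkmCen A y a := by simp [kkmCen, hμ]
    have e2 : (μ * conj (kkmCen A y a)).re = (conj μ * kkmCen A y a).re := by
      simp [Complex.mul_re]
    generalize kkmCen A y a = w at e e2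
    rw [e, ← Complex.normSq_eq_norm_sq, ← Complex.normSq_eq_norm_sq, ← Complex.normSq_eq_norm_sq,
      Complex.normSq_add, e2]
  have h2 : ∑ a ∈ A, (conj μ * kkmCen A y a).re = 0 := by
    rw [← Complex.re_sum, ← Finset.mul_sum, h0, mul_zero, Complex.zero_re]
  rw [Finset.sum_congr rfl fun a _ => h1 a, Finset.sum_add_distrib, Finset.sum_add_distrib,
    ← Finset.mul_sum, h2, Finset.sum_const, nsmul_eq_mul]
  have h3 : (A.card : ℝ) * ‖μ‖ ^ 2 = ‖kkmMean A y‖ ^ 2 := by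
    rw [hμ, kkmMean, norm_div, norm_div, div_pow, div_pow, Complex.norm_natCast, Complex.norm_real,
      Real.norm_eq_abs, sq_abs, Real.sq_sqrt hn.le]
    field_simp
  rw [h3]
  ring

/-- **Block lemma.**  A biregular block with gap `g` on the mean zero functions. -/
theorem kkm_block (A B : Finset X) (u : X → X → ℝ) (r c g : ℝ) (hA : 0 < A.card) (hB : 0 < B.card)
    (hrow : ∀ a ∈ A, ∑ b ∈ B, u a b = r) (hcol : ∀ b ∈ B, ∑ a ∈ A, u a b = c)
    (hr : (A.card : ℝ) * r = Real.sqrt A.card * Real.sqrt B.card) (hg : 0 ≤ g)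
    (hgap : ∀ f : X → ℂ, ∑ b ∈ B, f b = 0 →
      ∑ a ∈ A, ‖∑ b ∈ B, (u a b : ℂ) * f b‖ ^ 2 ≤ g ^ 2 * ∑ b ∈ B, ‖f b‖ ^ 2)
    (y : X → ℂ) :
    ‖∑ a ∈ A, ∑ b ∈ B, conj (y a) * (u a b : ℂ) * y b - conj (kkmMean A y) * kkmMean B y‖ ≤
      g * kkmDev A y * kkmDev B y := by
  set μA : ℂ := (∑ x ∈ A, y x) / A.card with hμA
  set μB : ℂ := (∑ x ∈ B, y x) / B.card with hμB
  set yA := kkmCen A y with hyA
  set yB := kkmCen B y with hyB
  have hnA : (0 : ℝ) < A.card := by exact_mod_cast hA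
  have hnB : (0 : ℝ) < B.card := by exact_mod_cast hB
  have e1 : ∀ a, y a = μA + yA a := fun a => by simp [hyA, kkmCen, hμA]
  have e2 : ∀ b, y b = μB + yB b := fun b => by simp [hyB, kkmCen, hμB]
  have s1 : ∑ a ∈ A, yA a = 0 := kkmCen_sum A hA y
  have s2 : ∑ b ∈ B, yB b = 0 := kkmCen_sum B hB y
  have hrow' : ∀ a ∈ A, ∑ b ∈ B, (u a b : ℂ) = r := fun a ha => by
    rw [← hrow a ha]; push_cast; rfl
  have hcol' : ∀ b ∈ B, ∑ a ∈ A, (u a b : ℂ) = c := fun b hb => by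
    rw [← hcol b hb]; push_cast; rfl
  -- expansion
  have t1 : ∑ a ∈ A, ∑ b ∈ B, conj μA * (u a b : ℂ) * μB = conj μA * μB * (A.card * r) := by
    have : ∀ a ∈ A, ∑ b ∈ B, conj μA * (u a b : ℂ) * μB = conj μA * μB * r := by
      intro a ha
      rw [← hrow' a ha, Finset.mul_sum]
      exact Finset.sum_congr rfl fun b _ => by ring
    rw [Finset.sum_congr rfl this, Finset.sum_const, nsmul_eq_mul]
    ring
  have t2 : ∑ a ∈ A, ∑ b ∈ B, conj μA * (u a b : ℂ) * yB b = 0 := by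
    rw [Finset.sum_comm]
    have : ∀ b ∈ B, ∑ a ∈ A, conj μA * (u a b : ℂ) * yB b = conj μA * c * yB b := by
      intro b hb
      rw [← hcol' b hb, Finset.mul_sum, Finset.sum_mul]
    rw [Finset.sum_congr rfl this, ← Finset.mul_sum, s2, mul_zero]
  have t3 : ∑ a ∈ A, ∑ b ∈ B, conj (yA a) * (u a b : ℂ) * μB = 0 := by
    have : ∀ a ∈ A, ∑ b ∈ B, conj (yA a) * (u a b : ℂ) * μB = conj (yA a) * (r * μB) := by
      intro a ha
      rw [← hrow' a ha, Finset.sum_mul, Finset.mul_sum]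
      exact Finset.sum_congr rfl fun b _ => by ring
    rw [Finset.sum_congr rfl this, ← Finset.sum_mul, ← map_sum, s1, map_zero, zero_mul]
  have t4 : ∑ a ∈ A, ∑ b ∈ B, conj (y a) * (u a b : ℂ) * y b =
      conj μA * μB * (A.card * r) + ∑ a ∈ A, conj (yA a) * ∑ b ∈ B, (u a b : ℂ) * yB b := by
    have : ∀ a b, conj (y a) * (u a b : ℂ) * y b =
        conj μA * (u a b : ℂ) * μB + conj μA * (u a b : ℂ) * yB b + conj (yA a) * (u a b : ℂ) * μB +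
          conj (yA a) * ((u a b : ℂ) * yB b) := by
      intro a b
      rw [e1 a, e2 b, map_add]
      ring
    simp only [this, Finset.sum_add_distrib, t1, t2, t3, add_zero, Finset.mul_sum]
  have t5 : conj μA * μB * (A.card * r) = conj (kkmMean A y) * kkmMean B y := by
    have h1 : ((A.card : ℂ) * r) = ((Real.sqrt A.card * Real.sqrt B.card : ℝ) : ℂ) := by
      rw [← hr]; push_cast; rfl
    have h2 : (A.card : ℂ) = ((Real.sqrt A.card : ℝ) : ℂ) * ((Real.sqrt A.card : ℝ) : ℂ) := by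
      rw [← Complex.ofReal_mul, Real.mul_self_sqrt hnA.le]; simp
    have h3 : (B.card : ℂ) = ((Real.sqrt B.card : ℝ) : ℂ) * ((Real.sqrt B.card : ℝ) : ℂ) := by
      rw [← Complex.ofReal_mul, Real.mul_self_sqrt hnB.le]; simp
    have h4 : ((Real.sqrt A.card : ℝ) : ℂ) ≠ 0 := by
      exact_mod_cast (Real.sqrt_pos.2 hnA).ne'
    have h5 : ((Real.sqrt B.card : ℝ) : ℂ) ≠ 0 := by
      exact_mod_cast (Real.sqrt_pos.2 hnB).ne'
    rw [h1, hμA, hμB, kkmMean, kkmMean, h2, h3, map_div₀, map_div₀, map_mul, Complex.conj_ofReal]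
    push_cast
    field_simp
  rw [t4, t5, add_sub_cancel_left]
  have t6 := kkm_cs A (fun a => conj (yA a)) (fun a => ∑ b ∈ B, (u a b : ℂ) * yB b)
  refine t6.trans ?_
  simp only [RCLike.norm_conj]
  have t7 : Real.sqrt (∑ a ∈ A, ‖∑ b ∈ B, (u a b : ℂ) * yB b‖ ^ 2) ≤ g * kkmDev B y := by
    rw [kkmDev, ← Real.sqrt_sq hg, ← Real.sqrt_mul (sq_nonneg g)]
    exact Real.sqrt_le_sqrt (hgap yB s2)
  calc Real.sqrt (∑ a ∈ A, ‖yA a‖ ^ 2) * Real.sqrt (∑ a ∈ A, ‖∑ b ∈ B, (u a b : ℂ) * yB b‖ ^ 2)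
      ≤ kkmDev A y * (g * kkmDev B y) := mul_le_mul_of_nonneg_left t7 (Real.sqrt_nonneg _)
    _ = g * kkmDev A y * kkmDev B y := by ring

/-- Cauchy-Schwarz against a unit vector. -/
theorem kkm_unit_cs {ι : Type} (I : Finset ι) (h : ι → ℝ) (hh : ∑ i ∈ I, h i ^ 2 = 1) (α : ι → ℂ) :
    ‖∑ i ∈ I, (h i : ℂ) * α i‖ ^ 2 ≤ ∑ i ∈ I, ‖α i‖ ^ 2 := by
  have h1 := kkm_cs I (fun i => (h i : ℂ)) α
  simp only [Complex.norm_real, Real.norm_eq_abs, sq_abs, hh, Real.sqrt_one, one_mul] at h1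
  calc ‖∑ i ∈ I, (h i : ℂ) * α i‖ ^ 2 ≤ (Real.sqrt (∑ i ∈ I, ‖α i‖ ^ 2)) ^ 2 :=
        pow_le_pow_left₀ (norm_nonneg _) h1 2
    _ = _ := Real.sq_sqrt (Finset.sum_nonneg fun _ _ => by positivity)

theorem kkm_unit_cs_real {ι : Type} (I : Finset ι) (h : ι → ℝ) (hh : ∑ i ∈ I, h i ^ 2 = 1)
    (p : ι → ℝ) : (∑ i ∈ I, h i * p i) ^ 2 ≤ ∑ i ∈ I, p i ^ 2 := by
  have := Finset.sum_mul_sq_le_sq_mul_sq I h p
  rwa [hh, one_mul] at this

/-- **The numerical inequality.** -/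
theorem kkm_numeric {ι : Type} (I : Finset ι) (h : ι → ℝ) (h0 : ∀ i, 0 ≤ h i)
    (hh : ∑ i ∈ I, h i ^ 2 = 1) (χ : ℝ) (hχ0 : 0 ≤ χ) (hχ1 : χ ≤ 1) (α β : ι → ℂ) (p q : ι → ℝ)
    (t : ι → ι → ℂ)
    (ht : ∀ i ∈ I, ∀ k ∈ I, ‖t i k‖ ≤ (1 - χ) * p i * q k) :
    2 * (∑ i ∈ I, ∑ k ∈ I, ((h i * h k : ℝ) : ℂ) * (conj (α i) * β k + t i k)).re ≤
      (1 - χ) * ∑ i ∈ I, (‖α i‖ ^ 2 + ‖β i‖ ^ 2 + p i ^ 2 + q i ^ 2) +
        χ * (‖∑ i ∈ I, (h i : ℂ) * (α i + β i)‖ ^ 2 / 2) := by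
  set a : ℂ := ∑ i ∈ I, (h i : ℂ) * α i with ha
  set b : ℂ := ∑ i ∈ I, (h i : ℂ) * β i with hb
  set P : ℝ := ∑ i ∈ I, h i * p i with hP
  set Q : ℝ := ∑ i ∈ I, h i * q i with hQ
  have e1 : ∑ i ∈ I, ∑ k ∈ I, ((h i * h k : ℝ) : ℂ) * (conj (α i) * β k) = conj a * b := by
    rw [ha, hb, map_sum, Finset.sum_mul_sum]
    refine Finset.sum_congr rfl fun i _ => Finset.sum_congr rfl fun k _ => ?_
    rw [map_mul, Complex.conj_ofReal]
    push_cast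
    ring
  have e2 : (∑ i ∈ I, ∑ k ∈ I, ((h i * h k : ℝ) : ℂ) * t i k).re ≤ (1 - χ) * (P * Q) := by
    refine (Complex.re_le_norm _).trans ?_
    refine (norm_sum_le _ _).trans ?_
    rw [hP, hQ, Finset.sum_mul_sum, Finset.mul_sum]
    refine Finset.sum_le_sum fun i hi => ?_
    refine (norm_sum_le _ _).trans ?_
    rw [Finset.mul_sum]
    refine Finset.sum_le_sum fun k hk => ?_
    rw [norm_mul, Complex.norm_real, Real.norm_eq_abs, abs_of_nonneg (mul_nonneg (h0 i) (h0 k))]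
    calc h i * h k * ‖t i k‖ ≤ h i * h k * ((1 - χ) * p i * q k) :=
          mul_le_mul_of_nonneg_left (ht i hi k hk) (mul_nonneg (h0 i) (h0 k))
      _ = _ := by ring
  have e3 : ∑ i ∈ I, (h i : ℂ) * (α i + β i) = a + b := by
    rw [ha, hb, ← Finset.sum_add_distrib]
    exact Finset.sum_congr rfl fun i _ => by ring
  have e4 : ‖a + b‖ ^ 2 = ‖a‖ ^ 2 + ‖b‖ ^ 2 + 2 * (conj a * b).re := by
    rw [← Complex.normSq_eq_norm_sq, ← Complex.normSq_eq_norm_sq, ← Complex.normSq_eq_norm_sq,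
      Complex.normSq_add]
    have : (a * conj b).re = (conj a * b).re := by simp [Complex.mul_re]
    rw [this]
  have e5 : 2 * (conj a * b).re ≤ ‖a‖ ^ 2 + ‖b‖ ^ 2 := by
    have h1 : (conj a * b).re ≤ ‖a‖ * ‖b‖ := by
      refine (Complex.re_le_norm _).trans ?_
      rw [norm_mul, RCLike.norm_conj]
    nlinarith [sq_nonneg (‖a‖ - ‖b‖)]
  have e6 : ‖a‖ ^ 2 ≤ ∑ i ∈ I, ‖α i‖ ^ 2 := kkm_unit_cs I h hh α
  have e7 : ‖b‖ ^ 2 ≤ ∑ i ∈ I, ‖β i‖ ^ 2 := kkm_unit_cs I h hh β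
  have e8 : P ^ 2 ≤ ∑ i ∈ I, p i ^ 2 := kkm_unit_cs_real I h hh p
  have e9 : Q ^ 2 ≤ ∑ i ∈ I, q i ^ 2 := kkm_unit_cs_real I h hh q
  have e10 : ∑ i ∈ I, ∑ k ∈ I, ((h i * h k : ℝ) : ℂ) * (conj (α i) * β k + t i k) =
      conj a * b + ∑ i ∈ I, ∑ k ∈ I, ((h i * h k : ℝ) : ℂ) * t i k := by
    rw [← e1, ← Finset.sum_add_distrib]
    refine Finset.sum_congr rfl fun i _ => ?_
    rw [← Finset.sum_add_distrib]
    exact Finset.sum_congr rfl fun k _ => by ring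
  rw [e10, e3, e4, Complex.add_re]
  simp only [Finset.sum_add_distrib]
  have e11 : 2 * (P * Q) ≤ P ^ 2 + Q ^ 2 := by nlinarith [sq_nonneg (P - Q)]
  have hχ' : 0 ≤ 1 - χ := by linarith
  set R := (conj a * b).re with hR
  nlinarith [mul_le_mul_of_nonneg_left e6 hχ', mul_le_mul_of_nonneg_left e7 hχ',
    mul_le_mul_of_nonneg_left e8 hχ', mul_le_mul_of_nonneg_left e9 hχ',
    mul_le_mul_of_nonneg_left e11 hχ', mul_le_mul_of_nonneg_left e5 hχ0,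
    mul_le_mul_of_nonneg_left e5 hχ']

/-- **Schur test** for a symmetric nonnegative matrix fixing a nonnegative vector. -/
theorem kkm_schur (S : Finset X) (m : X → X → ℝ) (V : X → ℝ) (hm : ∀ v v', 0 ≤ m v v')
    (hsym : ∀ v v', m v v' = m v' v) (hV : ∀ v, 0 ≤ V v)
    (hfix : ∀ v ∈ S, ∑ v' ∈ S, m v v' * V v' = V v) (hzero : ∀ v v', V v' = 0 → m v v' = 0)
    (y : X → ℂ) :
    ∑ v ∈ S, ‖∑ v' ∈ S, (m v v' : ℂ) * y v'‖ ^ 2 ≤ ∑ v ∈ S, ‖y v‖ ^ 2 := by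
  have h1 : ∀ v ∈ S, ‖∑ v' ∈ S, (m v v' : ℂ) * y v'‖ ^ 2 ≤
      V v * ∑ v' ∈ S, m v v' * (‖y v'‖ ^ 2 / V v') := by
    intro v hv
    have a1 : ‖∑ v' ∈ S, (m v v' : ℂ) * y v'‖ ≤ ∑ v' ∈ S, m v v' * ‖y v'‖ := by
      refine (norm_sum_le _ _).trans (le_of_eq ?_)
      refine Finset.sum_congr rfl fun v' _ => ?_
      rw [norm_mul, Complex.norm_real, Real.norm_eq_abs, abs_of_nonneg (hm v v')]
    have a2 : ∀ v' ∈ S, m v v' * ‖y v'‖ =
        Real.sqrt (m v v' * V v') * Real.sqrt (m v v' * (‖y v'‖ ^ 2 / V v')) := by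
      intro v' _
      rcases (hV v').eq_or_lt with h0 | h0
      · rw [hzero v v' h0.symm]; simp
      · rw [← Real.sqrt_mul (mul_nonneg (hm v v') h0.le)]
        have : m v v' * V v' * (m v v' * (‖y v'‖ ^ 2 / V v')) = (m v v' * ‖y v'‖) ^ 2 := by
          field_simp
        rw [this, Real.sqrt_sq (mul_nonneg (hm v v') (norm_nonneg _))]
    have a3 := Finset.sum_mul_sq_le_sq_mul_sq S (fun v' => Real.sqrt (m v v' * V v'))
      (fun v' => Real.sqrt (m v v' * (‖y v'‖ ^ 2 / V v')))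
    have a4 : ∀ v' ∈ S, Real.sqrt (m v v' * V v') ^ 2 = m v v' * V v' := fun v' _ =>
      Real.sq_sqrt (mul_nonneg (hm v v') (hV v'))
    have a5 : ∀ v' ∈ S, Real.sqrt (m v v' * (‖y v'‖ ^ 2 / V v')) ^ 2 =
        m v v' * (‖y v'‖ ^ 2 / V v') := fun v' _ =>
      Real.sq_sqrt (mul_nonneg (hm v v') (div_nonneg (sq_nonneg _) (hV v')))
    rw [← Finset.sum_congr rfl a2, Finset.sum_congr rfl a4, Finset.sum_congr rfl a5, hfix v hv] at a3
    exact (pow_le_pow_left₀ (norm_nonneg _) a1 2).trans a3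
  refine (Finset.sum_le_sum h1).trans ?_
  simp only [Finset.mul_sum]
  rw [Finset.sum_comm]
  refine Finset.sum_le_sum fun v' hv' => ?_
  have h2 : ∑ v ∈ S, V v * (m v v' * (‖y v'‖ ^ 2 / V v')) = V v' * (‖y v'‖ ^ 2 / V v') := by
    rw [← hfix v' hv', Finset.sum_mul]
    refine Finset.sum_congr rfl fun v _ => ?_
    rw [hsym v v']
    ring
  rw [h2]
  rcases (hV v').eq_or_lt with h0 | h0
  · rw [← h0]; simp
  · rw [mul_div_cancel₀ _ h0.ne']

end generic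

end Claimed.Agent.R300
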