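/-
Row 300, KK Section 10, KKG-GLUE part 1b (owner helper47, prefix `kkm`).

The frozen model matrix `Y.modelM h` and the frozen upper vector `Y.modelV h` of a tower graph
`Y : KkGraph ℓ`, for `h ≥ 0` supported on two consecutive layers `j, j + 1` with `h_j² + h_{j+1}² = 1`:
support, symmetry, fixed vector, norm, form bound (from `Gap`), deleted mass (from `Del`).
-/
import Claimed.Agent.R300.KkModel
import Claimed.Agent.R300.KkMat
import Claimed.Agent.R300.KkRzFin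

set_option autoImplicit false

namespace Claimed.Agent.R300

open scoped ComplexConjugate

theorem kkm_finite_of_card {α : Type} {p : α → Prop} (h : Nat.card {x // p x} ≠ 0) :
    {x | p x}.Finite := by
  have h1 : Finite {x // p x} := Nat.finite_of_card_ne_zero h
  exact Set.finite_coe_iff.1 h1

theorem kkm_card_toFinset {α : Type} {p : α → Prop} (hf : {x | p x}.Finite) :
    hf.toFinset.card = Nat.card {x // p x} := by
  rw [← Set.ncard_eq_toFinset_card _ hf, ← Nat.card_coe_set_eq]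
  rfl

theorem kkm_card_of_coe {α : Type} {p : α → Prop} (s : Finset α) (h : ∀ x, x ∈ s ↔ p x) :
    Nat.card {x // p x} = s.card := by
  have hf : {x | p x}.Finite := by
    have : {x | p x} = ↑s := by ext x; simp [h]
    rw [this]; exact s.finite_toSet
  rw [← kkm_card_toFinset hf]
  congr 1
  ext x
  simp [h]

/-! ### numbers -/

theorem kkDik_mul {ℓ : ℕ} (hℓ : 0 < ℓ) (i k : ℤ) (hik : |i - k| ≤ 1) :
    kkDik ℓ i k * 2 ^ kkH ℓ k = kkD ℓ * 2 ^ kkH ℓ i := by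
  have hk : k.natAbs ≤ i.natAbs + 1 := by
    rw [abs_le] at hik
    omega
  obtain ⟨e, he⟩ : ∃ e, i.natAbs + 1 = k.natAbs + e := ⟨i.natAbs + 1 - k.natAbs, by omega⟩
  obtain ⟨n, hn⟩ : ∃ n, 8 * ℓ = n + 1 := ⟨8 * ℓ - 1, by omega⟩
  have hD : kkD ℓ = 2 * 2 ^ n := by
    unfold kkD kkd
    rw [← pow_mul, show 4 * ℓ * 2 = n + 1 by omega, pow_succ, mul_comm]
  have h1 : kkDik ℓ i k = 2 ^ n * 2 ^ e := by
    unfold kkDik
    rw [hD, show i.natAbs + 1 - k.natAbs = e by omega, mul_assoc, Nat.mul_div_cancel_left _ (by norm_num)]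
  rw [h1, hD]
  unfold kkH
  rw [← pow_add, ← pow_add, ← pow_succ', ← pow_add]
  congr 1
  omega

theorem kkDik_pos {ℓ : ℕ} (hℓ : 0 < ℓ) (i k : ℤ) (hik : |i - k| ≤ 1) : 0 < kkDik ℓ i k := by
  have h := kkDik_mul hℓ i k hik
  by_contra h0
  have : kkDik ℓ i k = 0 := by omega
  rw [this, zero_mul] at h
  have : 0 < kkD ℓ * 2 ^ kkH ℓ i := by unfold kkD kkd; positivity
  omega

/-- `|A_i|` as a real number. -/
noncomputable def kkmNA (ℓ : ℕ) (i : ℤ) : ℝ := (kkd ℓ : ℝ) * 2 ^ kkH ℓ i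

/-- `|B_i|` as a real number. -/
noncomputable def kkmNB (ℓ : ℕ) (i : ℤ) : ℝ := 2 ^ kkH ℓ i

theorem kkmNA_pos (ℓ : ℕ) (i : ℤ) : 0 < kkmNA ℓ i := by unfold kkmNA kkd; positivity

theorem kkmNB_pos (ℓ : ℕ) (i : ℤ) : 0 < kkmNB ℓ i := by unfold kkmNB; positivity

theorem kkd_pos' (ℓ : ℕ) : (0 : ℝ) < kkd ℓ := by unfold kkd; positivity

theorem kkNrm_eq {ℓ : ℕ} (hℓ : 0 < ℓ) (i k : ℤ) (hik : |i - k| ≤ 1) :
    kkNrm ℓ i k = kkd ℓ * Real.sqrt (kkmNA ℓ i) / Real.sqrt (kkmNB ℓ k) := by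
  have h1 : (kkDik ℓ i k : ℝ) * kkmNB ℓ k = kkd ℓ * kkmNA ℓ i := by
    have := kkDik_mul hℓ i k hik
    unfold kkmNB kkmNA
    have h2 : ((kkDik ℓ i k * 2 ^ kkH ℓ k : ℕ) : ℝ) = ((kkD ℓ * 2 ^ kkH ℓ i : ℕ) : ℝ) := by rw [this]
    unfold kkD at h2
    push_cast at h2
    rw [h2]; ring
  have hA := kkmNA_pos ℓ i
  have hB := kkmNB_pos ℓ k
  have hd := kkd_pos' ℓ
  unfold kkNrm
  have h3 : (kkd ℓ : ℝ) * kkDik ℓ i k = (kkd ℓ * Real.sqrt (kkmNA ℓ i) / Real.sqrt (kkmNB ℓ k)) ^ 2 := by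
    rw [div_pow, mul_pow, Real.sq_sqrt hA.le, Real.sq_sqrt hB.le, eq_div_iff hB.ne', mul_assoc, h1]
    ring
  rw [h3, Real.sqrt_sq (by positivity)]

theorem kkNrm_pos {ℓ : ℕ} (hℓ : 0 < ℓ) (i k : ℤ) (hik : |i - k| ≤ 1) : 0 < kkNrm ℓ i k := by
  rw [kkNrm_eq hℓ i k hik]
  have hA := kkmNA_pos ℓ i
  have hB := kkmNB_pos ℓ k
  have hd := kkd_pos' ℓ
  positivity

/-- row sums of the normalised block. -/
theorem kkm_row_num {ℓ : ℕ} (hℓ : 0 < ℓ) (i k : ℤ) (hik : |i - k| ≤ 1) :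
    (kkd ℓ : ℝ) / kkNrm ℓ i k = Real.sqrt (kkmNB ℓ k) / Real.sqrt (kkmNA ℓ i) := by
  rw [kkNrm_eq hℓ i k hik]
  have hA := Real.sqrt_pos.2 (kkmNA_pos ℓ i)
  have hB := Real.sqrt_pos.2 (kkmNB_pos ℓ k)
  have hd := kkd_pos' ℓ
  field_simp

/-- column sums of the normalised block. -/
theorem kkm_col_num {ℓ : ℕ} (hℓ : 0 < ℓ) (i k : ℤ) (hik : |i - k| ≤ 1) :
    (kkDik ℓ i k : ℝ) / kkNrm ℓ i k = Real.sqrt (kkmNA ℓ i) / Real.sqrt (kkmNB ℓ k) := by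
  have h1 : (kkDik ℓ i k : ℝ) * kkmNB ℓ k = kkd ℓ * kkmNA ℓ i := by
    have := kkDik_mul hℓ i k hik
    unfold kkmNB kkmNA
    have h2 : ((kkDik ℓ i k * 2 ^ kkH ℓ k : ℕ) : ℝ) = ((kkD ℓ * 2 ^ kkH ℓ i : ℕ) : ℝ) := by rw [this]
    unfold kkD at h2
    push_cast at h2
    rw [h2]; ring
  rw [kkNrm_eq hℓ i k hik]
  have hA := Real.sqrt_pos.2 (kkmNA_pos ℓ i)
  have hB := Real.sqrt_pos.2 (kkmNB_pos ℓ k)
  have hd := kkd_pos' ℓ
  have hA2 : Real.sqrt (kkmNA ℓ i) * Real.sqrt (kkmNA ℓ i) = kkmNA ℓ i :=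
    Real.mul_self_sqrt (kkmNA_pos ℓ i).le
  have hB2 : Real.sqrt (kkmNB ℓ k) * Real.sqrt (kkmNB ℓ k) = kkmNB ℓ k :=
    Real.mul_self_sqrt (kkmNB_pos ℓ k).le
  rw [div_eq_div_iff (by positivity) (by positivity)]
  calc (kkDik ℓ i k : ℝ) * Real.sqrt (kkmNB ℓ k)
      = ((kkDik ℓ i k : ℝ) * kkmNB ℓ k) / Real.sqrt (kkmNB ℓ k) := by
        nth_rewrite 2 [← hB2]
        field_simp
    _ = kkd ℓ * (Real.sqrt (kkmNA ℓ i) * Real.sqrt (kkmNA ℓ i)) / Real.sqrt (kkmNB ℓ k) := by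
        rw [h1, hA2]
    _ = _ := by ring

namespace KkGraph

variable {ℓ : ℕ} (Y : KkGraph ℓ)

theorem finA (i : ℤ) : {v | Y.lay v = i ∧ Y.sideA v}.Finite :=
  kkm_finite_of_card (by rw [Y.cardA i]; unfold kkd; positivity)

theorem finB (i : ℤ) : {v | Y.lay v = i ∧ ¬ Y.sideA v}.Finite :=
  kkm_finite_of_card (by rw [Y.cardB i]; positivity)

theorem inc_ne_zero {v v' : Y.V0} (h : Y.inc v v' ≠ 0) :
    Y.sideA v ∧ ¬ Y.sideA v' ∧ |Y.lay v - Y.lay v'| ≤ 1 := by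
  have : Nonempty {e // Y.src e = v ∧ Y.tgt e = v'} := by
    by_contra hne
    rw [not_nonempty_iff] at hne
    exact h (by unfold inc; exact Nat.card_of_isEmpty)
  obtain ⟨e, rfl, rfl⟩ := this
  exact ⟨Y.src_A e, Y.tgt_B e, Y.band e⟩

theorem sum_inc_row (a : Y.V0) (ha : Y.sideA a) (k : ℤ) (hk : |Y.lay a - k| ≤ 1) :
    ∑ b ∈ Y.fB k, Y.inc a b = kkd ℓ := by
  classical
  have hcard := Y.degA a ha k hk
  have hne : Nat.card {e // Y.src e = a ∧ Y.lay (Y.tgt e) = k} ≠ 0 := by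
    rw [hcard]; unfold kkd; positivity
  have hfin : {e | Y.src e = a ∧ Y.lay (Y.tgt e) = k}.Finite := kkm_finite_of_card hne
  have h1 : hfin.toFinset.card = kkd ℓ := by rw [← hcard, kkm_card_toFinset]
  rw [← h1, Finset.card_eq_sum_card_fiberwise (f := Y.tgt) (t := Y.fB k)]
  · refine Finset.sum_congr rfl fun b hb => ?_
    unfold inc
    refine kkm_card_of_coe _ fun e => ?_
    simp only [Finset.mem_filter, Set.Finite.mem_toFinset, Set.mem_ofPred_eq]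
    constructor
    · rintro ⟨⟨h1, -⟩, h2⟩
      exact ⟨h1, h2⟩
    · rintro ⟨h1, h2⟩
      exact ⟨⟨h1, by rw [h2]; exact (Y.mem_fB.1 hb).1⟩, h2⟩
  · intro e he
    simp only [Finset.mem_coe, Set.Finite.mem_toFinset, Set.mem_ofPred_eq] at he
    exact Y.mem_fB.2 ⟨he.2, Y.tgt_B e⟩

theorem sum_inc_col (b : Y.V0) (hb : ¬ Y.sideA b) (i : ℤ) (hi : |i - Y.lay b| ≤ 1)
    (hpos : kkDik ℓ i (Y.lay b) ≠ 0) :
    ∑ a ∈ Y.fA i, Y.inc a b = kkDik ℓ i (Y.lay b) := by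
  classical
  have hcard := Y.degB b hb i hi
  have hne : Nat.card {e // Y.tgt e = b ∧ Y.lay (Y.src e) = i} ≠ 0 := by
    rw [hcard]; exact hpos
  have hfin : {e | Y.tgt e = b ∧ Y.lay (Y.src e) = i}.Finite := kkm_finite_of_card hne
  have h1 : hfin.toFinset.card = kkDik ℓ i (Y.lay b) := by rw [← hcard, kkm_card_toFinset]
  rw [← h1, Finset.card_eq_sum_card_fiberwise (f := Y.src) (t := Y.fA i)]
  · refine Finset.sum_congr rfl fun a ha => ?_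
    unfold inc
    refine kkm_card_of_coe _ fun e => ?_
    simp only [Finset.mem_filter, Set.Finite.mem_toFinset, Set.mem_ofPred_eq]
    constructor
    · rintro ⟨⟨h1, -⟩, h2⟩
      exact ⟨h2, h1⟩
    · rintro ⟨h1, h2⟩
      exact ⟨⟨h2, by rw [h1]; exact (Y.mem_fA.1 ha).1⟩, h1⟩
  · intro e he
    simp only [Finset.mem_coe, Set.Finite.mem_toFinset, Set.mem_ofPred_eq] at he
    exact Y.mem_fA.2 ⟨he.2, Y.src_A e⟩

/-! ### the normalised incidence -/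

/-- normalised incidence. -/
noncomputable def uu (v v' : Y.V0) : ℝ := (Y.inc v v' : ℝ) / kkNrm ℓ (Y.lay v) (Y.lay v')

theorem uu_nonneg (v v' : Y.V0) : 0 ≤ Y.uu v v' :=
  div_nonneg (Nat.cast_nonneg _) (Real.sqrt_nonneg _)

theorem uu_eq_zero {v v' : Y.V0} (h : ¬ (Y.sideA v ∧ ¬ Y.sideA v' ∧ |Y.lay v - Y.lay v'| ≤ 1)) :
    Y.uu v v' = 0 := by
  have : Y.inc v v' = 0 := by
    by_contra h0
    exact h (Y.inc_ne_zero h0)
  simp [uu, this]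

theorem U0_eq (v v' : Y.V0) : Y.U0 (Y.lay v) (Y.lay v') v v' = (Y.uu v v' : ℂ) := by
  simp [U0, uu]

theorem U0_of_mem {i k : ℤ} {a b : Y.V0} (ha : Y.lay a = i) (hb : Y.lay b = k) :
    Y.U0 i k a b = (Y.uu a b : ℂ) := by
  subst ha hb
  exact Y.U0_eq a b

theorem U0_of_not {i k : ℤ} {a b : Y.V0} (h : ¬ (Y.lay a = i ∧ Y.lay b = k)) :
    Y.U0 i k a b = 0 := by
  simp [U0, h]

theorem sum_uu_row (hℓ : 0 < ℓ) {i k : ℤ} (hik : |i - k| ≤ 1) {a : Y.V0} (ha : a ∈ Y.fA i) :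
    ∑ b ∈ Y.fB k, Y.uu a b = Real.sqrt (kkmNB ℓ k) / Real.sqrt (kkmNA ℓ i) := by
  obtain ⟨h1, h2⟩ := Y.mem_fA.1 ha
  have h3 : ∀ b ∈ Y.fB k, Y.uu a b = (Y.inc a b : ℝ) / kkNrm ℓ i k := by
    intro b hb
    rw [uu, h1, (Y.mem_fB.1 hb).1]
  rw [Finset.sum_congr rfl h3, ← Finset.sum_div, ← Nat.cast_sum,
    Y.sum_inc_row a h2 k (by rw [h1]; exact hik), kkm_row_num hℓ i k hik]

theorem sum_uu_col (hℓ : 0 < ℓ) {i k : ℤ} (hik : |i - k| ≤ 1) {b : Y.V0} (hb : b ∈ Y.fB k) :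
    ∑ a ∈ Y.fA i, Y.uu a b = Real.sqrt (kkmNA ℓ i) / Real.sqrt (kkmNB ℓ k) := by
  obtain ⟨h1, h2⟩ := Y.mem_fB.1 hb
  have h3 : ∀ a ∈ Y.fA i, Y.uu a b = (Y.inc a b : ℝ) / kkNrm ℓ i k := by
    intro a ha
    rw [uu, h1, (Y.mem_fA.1 ha).1]
  rw [Finset.sum_congr rfl h3, ← Finset.sum_div, ← Nat.cast_sum,
    Y.sum_inc_col b h2 i (by rw [h1]; exact hik) (by rw [h1]; exact (kkDik_pos hℓ i k hik).ne'), h1,
    kkm_col_num hℓ i k hik]

theorem card_fA_real (i : ℤ) : ((Y.fA i).card : ℝ) = kkmNA ℓ i := by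
  rw [card_fA, kkmNA]; push_cast; rfl

theorem card_fB_real (i : ℤ) : ((Y.fB i).card : ℝ) = kkmNB ℓ i := by
  rw [card_fB, kkmNB]; push_cast; rfl

theorem card_fA_pos (i : ℤ) : 0 < (Y.fA i).card := by
  rw [card_fA]; unfold kkd; positivity

theorem card_fB_pos (i : ℤ) : 0 < (Y.fB i).card := by
  rw [card_fB]; positivity

/-- the gap in finset form. -/
theorem gap_finset {χ : ℝ} (hG : Y.Gap χ) {i k : ℤ} (hik : |i - k| ≤ 1) (f : Y.V0 → ℂ)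
    (hf : ∑ b ∈ Y.fB k, f b = 0) :
    ∑ a ∈ Y.fA i, ‖∑ b ∈ Y.fB k, (Y.uu a b : ℂ) * f b‖ ^ 2 ≤
      (1 - χ) ^ 2 * ∑ b ∈ Y.fB k, ‖f b‖ ^ 2 := by
  classical
  set f' : Y.V0 → ℂ := fun v => if v ∈ Y.fB k then f v else 0 with hf'
  have hsupp : ∀ v, f' v ≠ 0 → v ∈ Y.fB k := by
    intro v hv
    by_contra h
    exact hv (by simp [hf', h])
  have e0 : ∀ b ∈ Y.fB k, f' b = f b := fun b hb => by simp [hf', hb]
  have e1 : ∑ᶠ v, f' v = 0 := by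
    rw [finsum_eq_sum_of_support_subset (s := Y.fB k) _ (fun v hv => hsupp v hv),
      Finset.sum_congr rfl e0, hf]
  have e2 : ∀ a, ∑ᶠ b, Y.U0 i k a b * f' b = ∑ b ∈ Y.fB k, Y.U0 i k a b * f b := by
    intro a
    rw [finsum_eq_sum_of_support_subset (s := Y.fB k)]
    · exact Finset.sum_congr rfl fun b hb => by rw [e0 b hb]
    · intro v hv
      exact hsupp v (right_ne_zero_of_mul hv)
  have e3 : ∑ᶠ b, ‖f' b‖ ^ 2 = ∑ b ∈ Y.fB k, ‖f b‖ ^ 2 := by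
    rw [finsum_eq_sum_of_support_subset (s := Y.fB k)]
    · exact Finset.sum_congr rfl fun b hb => by rw [e0 b hb]
    · intro v hv
      apply hsupp v
      intro h0
      exact hv (by simp [h0])
  have e4 : ∑ᶠ a, ‖∑ᶠ b, Y.U0 i k a b * f' b‖ ^ 2 =
      ∑ a ∈ Y.fA i, ‖∑ b ∈ Y.fB k, (Y.uu a b : ℂ) * f b‖ ^ 2 := by
    simp only [e2]
    rw [finsum_eq_sum_of_support_subset (s := Y.fA i)]
    · refine Finset.sum_congr rfl fun a ha => ?_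
      congr 2
      refine Finset.sum_congr rfl fun b hb => ?_
      rw [Y.U0_of_mem (Y.mem_fA.1 ha).1 (Y.mem_fB.1 hb).1]
    · intro a ha
      by_contra hna
      apply ha
      have : ∑ b ∈ Y.fB k, Y.U0 i k a b * f b = 0 := by
        refine Finset.sum_eq_zero fun b hb => ?_
        by_cases hl : Y.lay a = i
        · rw [Y.U0_of_mem hl (Y.mem_fB.1 hb).1, Y.uu_eq_zero]
          · simp
          · intro h
            exact hna (Finset.mem_coe.2 (Y.mem_fA.2 ⟨hl, h.1⟩))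
        · rw [Y.U0_of_not (fun h => hl h.1), zero_mul]
      simp [this]
  have := hG i k hik f' (fun v hv => Y.mem_fB.1 (hsupp v hv)) e1
  rwa [e3, e4] at this

/-- the block lemma for the block `(A_i, B_k)`. -/
theorem block_est (hℓ : 0 < ℓ) {χ : ℝ} (hχ1 : χ ≤ 1) (hG : Y.Gap χ) {i k : ℤ} (hik : |i - k| ≤ 1)
    (y : Y.V0 → ℂ) :
    ‖∑ a ∈ Y.fA i, ∑ b ∈ Y.fB k, conj (y a) * (Y.uu a b : ℂ) * y b -
        conj (kkmMean (Y.fA i) y) * kkmMean (Y.fB k) y‖ ≤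
      (1 - χ) * kkmDev (Y.fA i) y * kkmDev (Y.fB k) y := by
  refine kkm_block (Y.fA i) (Y.fB k) Y.uu _ _ (1 - χ) (Y.card_fA_pos i) (Y.card_fB_pos k)
    (fun a ha => Y.sum_uu_row hℓ hik ha) (fun b hb => Y.sum_uu_col hℓ hik hb) ?_ (by linarith)
    (fun f hf => Y.gap_finset hG hik f hf) y
  rw [card_fA_real, card_fB_real]
  have hA := Real.sqrt_pos.2 (kkmNA_pos ℓ i)
  have hA2 : Real.sqrt (kkmNA ℓ i) * Real.sqrt (kkmNA ℓ i) = kkmNA ℓ i :=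
    Real.mul_self_sqrt (kkmNA_pos ℓ i).le
  nth_rewrite 1 [← hA2]
  field_simp

/-! ### the frozen model -/

/-- the real model matrix. -/
noncomputable def mm (h : ℤ → ℝ) (v v' : Y.V0) : ℝ :=
  h (Y.lay v) * h (Y.lay v') * (Y.uu v v' + Y.uu v' v)

/-- the real upper vector. -/
noncomputable def vv (h : ℤ → ℝ) (v : Y.V0) : ℝ :=
  open Classical in
  h (Y.lay v) / Real.sqrt (2 * (if Y.sideA v then kkd ℓ * 2 ^ kkH ℓ (Y.lay v)
    else 2 ^ kkH ℓ (Y.lay v)))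

theorem modelM_eq (h : ℤ → ℝ) (v v' : Y.V0) : Y.modelM h v v' = (Y.mm h v v' : ℂ) := by
  unfold modelM mm
  rw [U0_eq, U0_eq]
  push_cast
  ring

theorem modelV_eq (h : ℤ → ℝ) (v : Y.V0) : Y.modelV h v = (Y.vv h v : ℂ) := rfl

theorem mm_symm (h : ℤ → ℝ) (v v' : Y.V0) : Y.mm h v v' = Y.mm h v' v := by
  unfold mm; ring

theorem vv_A (h : ℤ → ℝ) {i : ℤ} {a : Y.V0} (ha : a ∈ Y.fA i) :
    Y.vv h a = h i / (Real.sqrt 2 * Real.sqrt (kkmNA ℓ i)) := by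
  obtain ⟨h1, h2⟩ := Y.mem_fA.1 ha
  unfold vv
  rw [if_pos h2, h1, Real.sqrt_mul (by norm_num)]
  unfold kkmNA
  push_cast
  rfl

theorem vv_B (h : ℤ → ℝ) {i : ℤ} {b : Y.V0} (hb : b ∈ Y.fB i) :
    Y.vv h b = h i / (Real.sqrt 2 * Real.sqrt (kkmNB ℓ i)) := by
  obtain ⟨h1, h2⟩ := Y.mem_fB.1 hb
  unfold vv
  rw [if_neg h2, h1, Real.sqrt_mul (by norm_num)]
  unfold kkmNB
  push_cast
  rfl

end KkGraph

/-- the frozen scalars: nonnegative, supported on `{j, j + 1}`, of norm one. -/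
structure KkmH (h : ℤ → ℝ) (j : ℤ) : Prop where
  nonneg : ∀ i, 0 ≤ h i
  supp : ∀ i, i ≠ j → i ≠ j + 1 → h i = 0
  unit : h j ^ 2 + h (j + 1) ^ 2 = 1

/-- the two active layers. -/
def kkmI (j : ℤ) : Finset ℤ := {j, j + 1}

theorem kkmI_sum {M : Type} [AddCommMonoid M] (j : ℤ) (F : ℤ → M) :
    ∑ i ∈ kkmI j, F i = F j + F (j + 1) :=
  Finset.sum_pair (by omega)

theorem mem_kkmI {j i : ℤ} : i ∈ kkmI j ↔ i = j ∨ i = j + 1 := by simp [kkmI]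

theorem kkmI_near {j i k : ℤ} (hi : i ∈ kkmI j) (hk : k ∈ kkmI j) : |i - k| ≤ 1 := by
  rw [mem_kkmI] at hi hk
  rw [abs_le]
  omega

theorem KkmH.sum_sq {h : ℤ → ℝ} {j : ℤ} (H : KkmH h j) : ∑ i ∈ kkmI j, h i ^ 2 = 1 := by
  rw [kkmI_sum]; exact H.unit

theorem KkmH.mem_of_ne {h : ℤ → ℝ} {j i : ℤ} (H : KkmH h j) (hi : h i ≠ 0) : i ∈ kkmI j := by
  rw [mem_kkmI]
  by_contra hc
  push Not at hc
  exact hi (H.supp i hc.1 hc.2)

namespace KkGraph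

variable {ℓ : ℕ} (Y : KkGraph ℓ)

/-- the vertices of the two active layers. -/
noncomputable def fS (j : ℤ) : Finset Y.V0 :=
  open Classical in (Y.fA j ∪ Y.fB j) ∪ (Y.fA (j + 1) ∪ Y.fB (j + 1))

theorem mem_fS {j : ℤ} {v : Y.V0} : v ∈ Y.fS j ↔ Y.lay v ∈ kkmI j := by
  classical
  simp only [fS, Finset.mem_union, mem_fA, mem_fB, mem_kkmI]
  tauto

theorem sum_fS {M : Type} [AddCommMonoid M] (j : ℤ) (F : Y.V0 → M) :
    ∑ v ∈ Y.fS j, F v = ∑ i ∈ kkmI j, (∑ a ∈ Y.fA i, F a + ∑ b ∈ Y.fB i, F b) := by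
  classical
  have d1 : ∀ i, Disjoint (Y.fA i) (Y.fB i) := by
    intro i
    rw [Finset.disjoint_left]
    intro v h1 h2
    exact (Y.mem_fB.1 h2).2 (Y.mem_fA.1 h1).2
  have d2 : Disjoint (Y.fA j ∪ Y.fB j) (Y.fA (j + 1) ∪ Y.fB (j + 1)) := by
    rw [Finset.disjoint_left]
    intro v h1 h2
    simp only [Finset.mem_union, mem_fA, mem_fB] at h1 h2
    have e1 : Y.lay v = j := by tauto
    have e2 : Y.lay v = j + 1 := by tauto
    omega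
  rw [kkmI_sum, fS, Finset.sum_union d2, Finset.sum_union (d1 j), Finset.sum_union (d1 (j + 1))]

theorem sum_fS_A {M : Type} [AddCommMonoid M] (j : ℤ) (F : Y.V0 → M)
    (hF : ∀ v, ¬ Y.sideA v → F v = 0) :
    ∑ v ∈ Y.fS j, F v = ∑ i ∈ kkmI j, ∑ a ∈ Y.fA i, F a := by
  rw [sum_fS]
  refine Finset.sum_congr rfl fun i _ => ?_
  rw [Finset.sum_eq_zero (s := Y.fB i) fun b hb => hF b (Y.mem_fB.1 hb).2, add_zero]

theorem sum_fS_B {M : Type} [AddCommMonoid M] (j : ℤ) (F : Y.V0 → M)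
    (hF : ∀ v, Y.sideA v → F v = 0) :
    ∑ v ∈ Y.fS j, F v = ∑ i ∈ kkmI j, ∑ b ∈ Y.fB i, F b := by
  rw [sum_fS]
  refine Finset.sum_congr rfl fun i _ => ?_
  rw [Finset.sum_eq_zero (s := Y.fA i) fun a ha => hF a (Y.mem_fA.1 ha).2, zero_add]

variable {h : ℤ → ℝ} {j : ℤ}

theorem h_eq_zero (H : KkmH h j) {v : Y.V0} (hv : v ∉ Y.fS j) : h (Y.lay v) = 0 := by
  by_contra h0
  exact hv (Y.mem_fS.2 (H.mem_of_ne h0))

theorem mm_supp (H : KkmH h j) {v v' : Y.V0} (hv : ¬ (v ∈ Y.fS j ∧ v' ∈ Y.fS j)) :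
    Y.mm h v v' = 0 := by
  unfold mm
  by_cases h1 : v ∈ Y.fS j
  · have h2 : v' ∉ Y.fS j := fun h2 => hv ⟨h1, h2⟩
    rw [Y.h_eq_zero H h2]; ring
  · rw [Y.h_eq_zero H h1]; ring

theorem vv_supp (H : KkmH h j) {v : Y.V0} (hv : v ∉ Y.fS j) : Y.vv h v = 0 := by
  unfold vv
  rw [Y.h_eq_zero H hv, zero_div]

theorem mm_nonneg (H : KkmH h j) (v v' : Y.V0) : 0 ≤ Y.mm h v v' :=
  mul_nonneg (mul_nonneg (H.nonneg _) (H.nonneg _)) (add_nonneg (Y.uu_nonneg _ _) (Y.uu_nonneg _ _))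

theorem vv_nonneg (H : KkmH h j) (v : Y.V0) : 0 ≤ Y.vv h v :=
  div_nonneg (H.nonneg _) (Real.sqrt_nonneg _)

theorem mm_zero_of_vv (v v' : Y.V0) (h0 : Y.vv h v' = 0) : Y.mm h v v' = 0 := by
  classical
  unfold vv at h0
  rw [div_eq_zero_iff] at h0
  rcases h0 with h0 | h0
  · unfold mm; rw [h0]; ring
  · exfalso
    have : (0 : ℝ) < Real.sqrt (2 * ((if Y.sideA v' then kkd ℓ * 2 ^ kkH ℓ (Y.lay v')
        else 2 ^ kkH ℓ (Y.lay v') : ℕ) : ℝ)) := by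
      apply Real.sqrt_pos.2
      split_ifs
      · unfold kkd; positivity
      · positivity
    exact this.ne' h0

theorem mm_AB (a b : Y.V0) (ha : Y.sideA a) : Y.mm h a b = h (Y.lay a) * h (Y.lay b) * Y.uu a b := by
  unfold mm
  rw [Y.uu_eq_zero (v := b) (v' := a) (fun hc => hc.2.1 ha), add_zero]

theorem mm_BA (b a : Y.V0) (hb : ¬ Y.sideA b) :
    Y.mm h b a = h (Y.lay b) * h (Y.lay a) * Y.uu a b := by
  unfold mm
  rw [Y.uu_eq_zero (v := b) (v' := a) (fun hc => hb hc.1), zero_add]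

theorem mm_AA (a a' : Y.V0) (ha : Y.sideA a) (ha' : Y.sideA a') : Y.mm h a a' = 0 := by
  rw [Y.mm_AB a a' ha, Y.uu_eq_zero (fun hc => hc.2.1 ha'), mul_zero]

theorem mm_BB (b b' : Y.V0) (hb : ¬ Y.sideA b) (hb' : ¬ Y.sideA b') : Y.mm h b b' = 0 := by
  rw [Y.mm_BA b b' hb, Y.uu_eq_zero (fun hc => hb' hc.1), mul_zero]

/-- the upper vector is fixed. -/
theorem mm_fix (hℓ : 0 < ℓ) (H : KkmH h j) (v : Y.V0) :
    ∑ v' ∈ Y.fS j, Y.mm h v v' * Y.vv h v' = Y.vv h v := by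
  by_cases h0 : h (Y.lay v) = 0
  · have h1 : Y.vv h v = 0 := by unfold vv; rw [h0, zero_div]
    rw [h1]
    refine Finset.sum_eq_zero fun v' _ => ?_
    unfold mm
    rw [h0]; ring
  have hi := H.mem_of_ne h0
  have h2 : (0 : ℝ) < Real.sqrt 2 := by positivity
  by_cases hs : Y.sideA v
  · have hv : v ∈ Y.fA (Y.lay v) := Y.mem_fA.2 ⟨rfl, hs⟩
    rw [Y.sum_fS_B j _ (fun v' hv' => by rw [Y.mm_AA v v' hs hv', zero_mul])]
    have e1 : ∀ k ∈ kkmI j, ∑ b ∈ Y.fB k, Y.mm h v b * Y.vv h b = h k ^ 2 * Y.vv h v := by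
      intro k hk
      have e2 : ∀ b ∈ Y.fB k, Y.mm h v b * Y.vv h b =
          (h (Y.lay v) * h k * (h k / (Real.sqrt 2 * Real.sqrt (kkmNB ℓ k)))) * Y.uu v b := by
        intro b hb
        rw [Y.mm_AB v b hs, Y.vv_B h hb, (Y.mem_fB.1 hb).1]
        ring
      rw [Finset.sum_congr rfl e2, ← Finset.mul_sum, Y.sum_uu_row hℓ (kkmI_near hi hk) hv,
        Y.vv_A h hv]
      have hA := Real.sqrt_pos.2 (kkmNA_pos ℓ (Y.lay v))
      have hB := Real.sqrt_pos.2 (kkmNB_pos ℓ k)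
      field_simp
    rw [Finset.sum_congr rfl e1, ← Finset.sum_mul, H.sum_sq, one_mul]
  · have hv : v ∈ Y.fB (Y.lay v) := Y.mem_fB.2 ⟨rfl, hs⟩
    rw [Y.sum_fS_A j _ (fun v' hv' => by rw [Y.mm_BB v v' hs hv', zero_mul])]
    have e1 : ∀ k ∈ kkmI j, ∑ a ∈ Y.fA k, Y.mm h v a * Y.vv h a = h k ^ 2 * Y.vv h v := by
      intro k hk
      have e2 : ∀ a ∈ Y.fA k, Y.mm h v a * Y.vv h a =
          (h (Y.lay v) * h k * (h k / (Real.sqrt 2 * Real.sqrt (kkmNA ℓ k)))) * Y.uu a v := by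
        intro a ha
        rw [Y.mm_BA v a hs, Y.vv_A h ha, (Y.mem_fA.1 ha).1]
        ring
      rw [Finset.sum_congr rfl e2, ← Finset.mul_sum, Y.sum_uu_col hℓ (kkmI_near hk hi) hv,
        Y.vv_B h hv]
      have hA := Real.sqrt_pos.2 (kkmNA_pos ℓ k)
      have hB := Real.sqrt_pos.2 (kkmNB_pos ℓ (Y.lay v))
      field_simp
    rw [Finset.sum_congr rfl e1, ← Finset.sum_mul, H.sum_sq, one_mul]

/-- the upper vector has norm one. -/
theorem vv_norm (H : KkmH h j) : ∑ v ∈ Y.fS j, Y.vv h v ^ 2 = 1 := by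
  rw [sum_fS, ← H.sum_sq]
  refine Finset.sum_congr rfl fun i _ => ?_
  have e1 : ∀ a ∈ Y.fA i, Y.vv h a ^ 2 = h i ^ 2 / (2 * kkmNA ℓ i) := by
    intro a ha
    rw [Y.vv_A h ha, div_pow, mul_pow, Real.sq_sqrt (by norm_num), Real.sq_sqrt (kkmNA_pos ℓ i).le]
  have e2 : ∀ b ∈ Y.fB i, Y.vv h b ^ 2 = h i ^ 2 / (2 * kkmNB ℓ i) := by
    intro b hb
    rw [Y.vv_B h hb, div_pow, mul_pow, Real.sq_sqrt (by norm_num), Real.sq_sqrt (kkmNB_pos ℓ i).le]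
  rw [Finset.sum_congr rfl e1, Finset.sum_congr rfl e2, Finset.sum_const, Finset.sum_const,
    nsmul_eq_mul, nsmul_eq_mul, card_fA_real, card_fB_real]
  have hA := kkmNA_pos ℓ i
  have hB := kkmNB_pos ℓ i
  field_simp
  ring

/-- the pairing with the upper vector. -/
theorem vv_pair (j : ℤ) (h : ℤ → ℝ) (y : Y.V0 → ℂ) :
    ∑ v ∈ Y.fS j, (Y.vv h v : ℂ) * y v =
      (∑ i ∈ kkmI j, (h i : ℂ) * (kkmMean (Y.fA i) y + kkmMean (Y.fB i) y)) / (Real.sqrt 2 : ℝ) := by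
  rw [sum_fS, Finset.sum_div]
  refine Finset.sum_congr rfl fun i _ => ?_
  have e1 : ∀ a ∈ Y.fA i, (Y.vv h a : ℂ) * y a =
      ((h i / (Real.sqrt 2 * Real.sqrt (kkmNA ℓ i)) : ℝ) : ℂ) * y a := by
    intro a ha
    rw [Y.vv_A h ha]
  have e2 : ∀ b ∈ Y.fB i, (Y.vv h b : ℂ) * y b =
      ((h i / (Real.sqrt 2 * Real.sqrt (kkmNB ℓ i)) : ℝ) : ℂ) * y b := by
    intro b hb
    rw [Y.vv_B h hb]
  rw [Finset.sum_congr rfl e1, Finset.sum_congr rfl e2, ← Finset.mul_sum, ← Finset.mul_sum, kkmMean,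
    kkmMean, card_fA_real, card_fB_real]
  have hA : ((Real.sqrt (kkmNA ℓ i) : ℝ) : ℂ) ≠ 0 := by
    exact_mod_cast (Real.sqrt_pos.2 (kkmNA_pos ℓ i)).ne'
  have hB : ((Real.sqrt (kkmNB ℓ i) : ℝ) : ℂ) ≠ 0 := by
    exact_mod_cast (Real.sqrt_pos.2 (kkmNB_pos ℓ i)).ne'
  have h2 : ((Real.sqrt 2 : ℝ) : ℂ) ≠ 0 := by
    exact_mod_cast (Real.sqrt_pos.2 (by norm_num : (0 : ℝ) < 2)).ne'
  push_cast
  field_simp

/-- **The form bound of the frozen model.** -/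
theorem mm_form (hℓ : 0 < ℓ) {χ : ℝ} (hχ0 : 0 ≤ χ) (hχ1 : χ ≤ 1) (hG : Y.Gap χ) (H : KkmH h j)
    (y : Y.V0 → ℂ) :
    (∑ v ∈ Y.fS j, ∑ v' ∈ Y.fS j, conj (y v) * (Y.mm h v v' : ℂ) * y v').re ≤
      (1 - χ) * ∑ v ∈ Y.fS j, ‖y v‖ ^ 2 + χ * ‖∑ v ∈ Y.fS j, (Y.vv h v : ℂ) * y v‖ ^ 2 := by
  set w : Y.V0 → Y.V0 → ℝ := fun v v' => h (Y.lay v) * h (Y.lay v') * Y.uu v v' with hw
  set Ψ : ℂ := ∑ v ∈ Y.fS j, ∑ v' ∈ Y.fS j, conj (y v) * (w v v' : ℂ) * y v' with hΨ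
  have e1 : ∑ v ∈ Y.fS j, ∑ v' ∈ Y.fS j, conj (y v) * (Y.mm h v v' : ℂ) * y v' = Ψ + conj Ψ := by
    have : conj Ψ = ∑ v ∈ Y.fS j, ∑ v' ∈ Y.fS j, conj (y v) * (w v' v : ℂ) * y v' := by
      rw [hΨ, map_sum, Finset.sum_comm]
      refine Finset.sum_congr rfl fun v _ => ?_
      rw [map_sum]
      refine Finset.sum_congr rfl fun v' _ => ?_
      rw [map_mul, map_mul, Complex.conj_conj, Complex.conj_ofReal]
      ring
    rw [this, hΨ, ← Finset.sum_add_distrib]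
    refine Finset.sum_congr rfl fun v _ => ?_
    rw [← Finset.sum_add_distrib]
    refine Finset.sum_congr rfl fun v' _ => ?_
    simp only [mm, hw]
    push_cast
    ring
  have e2 : (Ψ + conj Ψ).re = 2 * Ψ.re := by
    rw [Complex.add_re, Complex.conj_re]; ring
  have hwA : ∀ v v', ¬ Y.sideA v → w v v' = 0 := by
    intro v v' hv
    simp only [hw]
    rw [Y.uu_eq_zero (fun hc => hv hc.1), mul_zero]
  have hwB : ∀ v v', Y.sideA v' → w v v' = 0 := by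
    intro v v' hv
    simp only [hw]
    rw [Y.uu_eq_zero (fun hc => hc.2.1 hv), mul_zero]
  set T : ℤ → ℤ → ℂ := fun i k =>
    ∑ a ∈ Y.fA i, ∑ b ∈ Y.fB k, conj (y a) * (Y.uu a b : ℂ) * y b with hT
  have e3 : Ψ = ∑ i ∈ kkmI j, ∑ k ∈ kkmI j, ((h i * h k : ℝ) : ℂ) * T i k := by
    rw [hΨ, Y.sum_fS_A j _ (fun v hv => Finset.sum_eq_zero fun v' _ => by rw [hwA v v' hv]; simp)]
    refine Finset.sum_congr rfl fun i _ => ?_
    have : ∀ a ∈ Y.fA i, ∑ v' ∈ Y.fS j, conj (y a) * (w a v' : ℂ) * y v' =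
        ∑ k ∈ kkmI j, ∑ b ∈ Y.fB k, ((h i * h k : ℝ) : ℂ) * (conj (y a) * (Y.uu a b : ℂ) * y b) := by
      intro a ha
      rw [Y.sum_fS_B j _ (fun v' hv' => by rw [hwB a v' hv']; simp)]
      refine Finset.sum_congr rfl fun k _ => Finset.sum_congr rfl fun b hb => ?_
      simp only [hw]
      rw [(Y.mem_fA.1 ha).1, (Y.mem_fB.1 hb).1]
      push_cast
      ring
    rw [Finset.sum_congr rfl this, Finset.sum_comm]
    refine Finset.sum_congr rfl fun k _ => ?_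
    simp only [hT, Finset.mul_sum]
  set α : ℤ → ℂ := fun i => kkmMean (Y.fA i) y with hα
  set β : ℤ → ℂ := fun i => kkmMean (Y.fB i) y with hβ
  set p : ℤ → ℝ := fun i => kkmDev (Y.fA i) y with hp
  set q : ℤ → ℝ := fun i => kkmDev (Y.fB i) y with hq
  have e4 := kkm_numeric (kkmI j) h H.nonneg H.sum_sq χ hχ0 hχ1 α β p q
    (fun i k => T i k - conj (α i) * β k)
    (fun i hi k hk => Y.block_est hℓ hχ1 hG (kkmI_near hi hk) y)
  simp only [add_sub_cancel] at e4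
  rw [e1, e2, e3]
  refine e4.trans (le_of_eq ?_)
  congr 1
  · congr 1
    rw [sum_fS]
    refine Finset.sum_congr rfl fun i _ => ?_
    rw [kkm_pyth (Y.fA i) (Y.card_fA_pos i) y, kkm_pyth (Y.fB i) (Y.card_fB_pos i) y]
    ring
  · congr 1
    rw [Y.vv_pair j h y, norm_div, div_pow, Complex.norm_real, Real.norm_eq_abs, sq_abs,
      Real.sq_sqrt (by norm_num)]

/-- the frozen model has norm at most one. -/
theorem mm_norm (hℓ : 0 < ℓ) (H : KkmH h j) (y : Y.V0 → ℂ) :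
    ∑ v ∈ Y.fS j, ‖∑ v' ∈ Y.fS j, (Y.mm h v v' : ℂ) * y v'‖ ^ 2 ≤ ∑ v ∈ Y.fS j, ‖y v‖ ^ 2 :=
  kkm_schur (Y.fS j) (Y.mm h) (Y.vv h) (Y.mm_nonneg H) (Y.mm_symm h) (Y.vv_nonneg H)
    (fun v _ => Y.mm_fix hℓ H v) (fun v v' h0 => Y.mm_zero_of_vv v v' h0) y

open Classical in
/-- the mass of the upper vector on the deleted vertices. -/
theorem vv_del {β : ℝ} (hDel : Y.Del β) (H : KkmH h j) :
    ∑ v ∈ Y.fS j, (if Y.keep v then 0 else Y.vv h v ^ 2) ≤ β := by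
  rw [sum_fS]
  have key : ∀ i ∈ kkmI j, (∑ a ∈ Y.fA i, (if Y.keep a then 0 else Y.vv h a ^ 2) +
      ∑ b ∈ Y.fB i, (if Y.keep b then 0 else Y.vv h b ^ 2)) ≤ h i ^ 2 * β := by
    intro i _
    have hA := kkmNA_pos ℓ i
    have hB := kkmNB_pos ℓ i
    have e1 : ∑ a ∈ Y.fA i, (if Y.keep a then 0 else Y.vv h a ^ 2) =
        ((Y.fA i).filter fun a => ¬ Y.keep a).card * (h i ^ 2 / (2 * kkmNA ℓ i)) := by
      rw [← nsmul_eq_mul, ← Finset.sum_const, Finset.sum_filter]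
      refine Finset.sum_congr rfl fun a ha => ?_
      by_cases hk : Y.keep a
      · simp [hk]
      · simp only [hk, if_false, not_false_eq_true, if_true]
        rw [Y.vv_A h ha, div_pow, mul_pow, Real.sq_sqrt (by norm_num), Real.sq_sqrt hA.le]
    have e2 : ∑ b ∈ Y.fB i, (if Y.keep b then 0 else Y.vv h b ^ 2) =
        ((Y.fB i).filter fun b => ¬ Y.keep b).card * (h i ^ 2 / (2 * kkmNB ℓ i)) := by
      rw [← nsmul_eq_mul, ← Finset.sum_const, Finset.sum_filter]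
      refine Finset.sum_congr rfl fun b hb => ?_
      by_cases hk : Y.keep b
      · simp [hk]
      · simp only [hk, if_false, not_false_eq_true, if_true]
        rw [Y.vv_B h hb, div_pow, mul_pow, Real.sq_sqrt (by norm_num), Real.sq_sqrt hB.le]
    have c1 : (((Y.fA i).filter fun a => ¬ Y.keep a).card : ℝ) ≤ β * kkmNA ℓ i := by
      have := hDel.1 i
      rw [kkm_card_of_coe ((Y.fA i).filter fun a => ¬ Y.keep a) (fun v => by
        simp only [Finset.mem_filter, mem_fA]; tauto)] at this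
      exact this
    have c2 : (((Y.fB i).filter fun b => ¬ Y.keep b).card : ℝ) ≤ β * kkmNB ℓ i := by
      have := hDel.2 i
      rw [kkm_card_of_coe ((Y.fB i).filter fun b => ¬ Y.keep b) (fun v => by
        simp only [Finset.mem_filter, mem_fB]; tauto)] at this
      exact this
    rw [e1, e2]
    have f1 : (0 : ℝ) ≤ h i ^ 2 / (2 * kkmNA ℓ i) := by positivity
    have f2 : (0 : ℝ) ≤ h i ^ 2 / (2 * kkmNB ℓ i) := by positivity
    calc _ ≤ β * kkmNA ℓ i * (h i ^ 2 / (2 * kkmNA ℓ i)) + β * kkmNB ℓ i * (h i ^ 2 / (2 * kkmNB ℓ i)) :=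
          add_le_add (mul_le_mul_of_nonneg_right c1 f1) (mul_le_mul_of_nonneg_right c2 f2)
      _ = h i ^ 2 * β := by field_simp; ring
  refine (Finset.sum_le_sum key).trans (le_of_eq ?_)
  rw [← Finset.sum_mul, H.sum_sq, one_mul]

end KkGraph

end Claimed.Agent.R300
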