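import Claimed.Agent.R300.SpecCut

/-!
# Row 300, KK Section 10: layer decay without resolvents (owner: helper236, prefix `spec`)

`X` is an index set with a layer function `lay : X → ℤ`.  If `T = A₀ + Δ`, `Δ` has layer width one,
`h` commutes with `T` and `A₀`, and `A₀ * h` vanishes on the layers at distance `≥ 2` from `j`, then
`P_i T^n h = P_i Δ^n h` as long as `n ≤ |i - j| - 1`.
-/

set_option autoImplicit false

namespace Claimed.Agent.R300

open scoped ENNReal ComplexConjugate InnerProductSpace

variable {X : Type} (lay : X → ℤ)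

/-- cut-off to a set of layers. -/
noncomputable def specLayer (A : Set ℤ) : ScL2 X →L[ℂ] ScL2 X := scRestr (lay ⁻¹' A)

theorem specLayer_mul (A B : Set ℤ) :
    specLayer lay A * specLayer lay B = specLayer lay (A ∩ B) := by
  unfold specLayer
  rw [spec_restr_mul, Set.preimage_inter]

theorem specLayer_norm_le (A : Set ℤ) : ‖specLayer lay A‖ ≤ 1 := by
  refine ContinuousLinearMap.opNorm_le_bound _ zero_le_one fun x => ?_
  rw [one_mul]
  exact spec_restr_norm_le _ x

variable {lay}

/-- an operator of layer width one. -/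
theorem specLayer_width {Δ : ScL2 X →L[ℂ] ScL2 X}
    (hΔ : ∀ x y, 1 < |lay x - lay y| → Δ (scDelta y) x = 0) {A B : Set ℤ}
    (hAB : ∀ a ∈ A, ∀ b, |a - b| ≤ 1 → b ∈ B) :
    specLayer lay A * Δ = specLayer lay A * Δ * specLayer lay B := by
  refine scOp_ext fun y => ?_
  by_cases hy : lay y ∈ B
  · have : specLayer lay B (scDelta y) = scDelta y := spec_restr_delta_mem hy
    simp [this]
  · have h0 : specLayer lay B (scDelta y) = 0 := spec_restr_delta_not_mem hy
    simp only [mul_apply_eq_comp, h0, map_zero]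
    ext x
    by_cases hx : lay x ∈ A
    · have h1 : specLayer lay A (Δ (scDelta y)) x = Δ (scDelta y) x := scRestr_apply_mem _ hx
      rw [h1, hΔ x y]
      · simp
      · by_contra hcon
        exact hy (hAB _ hx _ (not_lt.mp hcon))
    · have h1 : specLayer lay A (Δ (scDelta y)) x = 0 := scRestr_apply_not_mem _ hx
      rw [h1]; simp

theorem specLayer_mul_eq_zero {B₀ : ScL2 X →L[ℂ] ScL2 X} {A : Set ℤ}
    (h : ∀ x y, lay x ∈ A → B₀ (scDelta y) x = 0) : specLayer lay A * B₀ = 0 := by
  refine scOp_ext fun y => ?_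
  ext x
  by_cases hx : lay x ∈ A
  · have h1 : specLayer lay A (B₀ (scDelta y)) x = B₀ (scDelta y) x := scRestr_apply_mem _ hx
    simp [h1, h x y hx]
  · have h1 : specLayer lay A (B₀ (scDelta y)) x = 0 := scRestr_apply_not_mem _ hx
    simp [h1]

/-- locality of powers. -/
theorem specLayer_pow_local {Δ : ScL2 X →L[ℂ] ScL2 X}
    (hΔ : ∀ x y, 1 < |lay x - lay y| → Δ (scDelta y) x = 0) (i : ℤ) (n : ℕ) :
    specLayer lay {i} * Δ ^ n = specLayer lay {i} * Δ ^ n * specLayer lay {a | |a - i| ≤ n} := by
  induction n with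
  | zero =>
    simp only [pow_zero, mul_one]
    rw [specLayer_mul]
    congr 1
    ext a
    simp only [Set.mem_singleton_iff, Set.mem_inter_iff, Set.mem_ofPred_eq]
    constructor
    · rintro rfl; simp
    · exact fun h => h.1
  | succ n ih =>
    have hw := specLayer_width hΔ (A := {a | |a - i| ≤ n}) (B := {a | |a - i| ≤ (n + 1 : ℕ)}) (by
      intro a ha b hb
      simp only [Set.mem_ofPred_eq] at ha ⊢
      have : |b - i| ≤ |a - b| + |a - i| := by
        have h1 : b - i = -(a - b) + (a - i) := by ring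
        rw [h1]
        exact (abs_add_le _ _).trans (by rw [abs_neg])
      push_cast
      linarith)
    calc specLayer lay {i} * Δ ^ (n + 1)
        = (specLayer lay {i} * Δ ^ n) * Δ := by rw [pow_succ, mul_assoc]
      _ = specLayer lay {i} * Δ ^ n * (specLayer lay {a | |a - i| ≤ n} * Δ) := by
          conv_lhs => rw [ih]
          simp only [mul_assoc]
      _ = specLayer lay {i} * Δ ^ n * (specLayer lay {a | |a - i| ≤ n} * Δ
            * specLayer lay {a | |a - i| ≤ (n + 1 : ℕ)}) := by rw [← hw]
      _ = (specLayer lay {i} * Δ ^ n * specLayer lay {a | |a - i| ≤ n}) * Δ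
            * specLayer lay {a | |a - i| ≤ (n + 1 : ℕ)} := by simp only [mul_assoc]
      _ = specLayer lay {i} * Δ ^ (n + 1) * specLayer lay {a | |a - i| ≤ (n + 1 : ℕ)} := by
          rw [← ih, pow_succ]; simp only [mul_assoc]

/-- **Decay identity.** -/
theorem specLayer_pow_eq {T A₀ Δ h : ScL2 X →L[ℂ] ScL2 X} (hT : T = A₀ + Δ)
    (hΔ : ∀ x y, 1 < |lay x - lay y| → Δ (scDelta y) x = 0)
    (hhT : Commute h T) (hhA : Commute h A₀) {j : ℤ}
    (hact : ∀ x y, 2 ≤ |lay x - j| → (A₀ * h) (scDelta y) x = 0) (i : ℤ) (n : ℕ)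
    (hn : (n : ℤ) + 1 ≤ |i - j|) :
    specLayer lay {i} * T ^ n * h = specLayer lay {i} * Δ ^ n * h := by
  induction n with
  | zero => simp
  | succ n ih =>
    have hn' : (n : ℤ) + 1 ≤ |i - j| := by push_cast at hn; linarith
    have ih' := ih hn'
    have hzero : specLayer lay {a | |a - i| ≤ n} * (A₀ * h) = 0 := by
      refine specLayer_mul_eq_zero fun x y hx => hact x y ?_
      simp only [Set.mem_ofPred_eq] at hx
      have h1 : |i - j| ≤ |lay x - i| + |lay x - j| := by
        have h2 : i - j = -(lay x - i) + (lay x - j) := by ring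
        rw [h2]
        exact (abs_add_le _ _).trans (by rw [abs_neg])
      push_cast at hn
      linarith
    have hhΔ : Commute h Δ := by
      have : Δ = T - A₀ := by rw [hT]; abel
      rw [this]
      exact hhT.sub_right hhA
    calc specLayer lay {i} * T ^ (n + 1) * h
        = specLayer lay {i} * T ^ n * (T * h) := by rw [pow_succ]; simp only [mul_assoc]
      _ = (specLayer lay {i} * T ^ n * h) * T := by rw [← hhT.eq]; simp only [mul_assoc]
      _ = (specLayer lay {i} * Δ ^ n * h) * (A₀ + Δ) := by rw [ih', hT]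
      _ = specLayer lay {i} * Δ ^ n * (A₀ * h) + specLayer lay {i} * Δ ^ n * (Δ * h) := by
          rw [mul_add, mul_assoc _ h A₀, mul_assoc _ h Δ, hhA.eq, hhΔ.eq]
      _ = specLayer lay {i} * Δ ^ n * specLayer lay {a | |a - i| ≤ n} * (A₀ * h)
            + specLayer lay {i} * Δ ^ n * (Δ * h) := by rw [← specLayer_pow_local hΔ i n]
      _ = specLayer lay {i} * Δ ^ (n + 1) * h := by
          rw [mul_assoc _ (specLayer lay {a | |a - i| ≤ n}), hzero, mul_zero, zero_add, pow_succ]
          simp only [mul_assoc]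

end Claimed.Agent.R300
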