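import Claimed.Agent.R300.SpecPart
import Claimed.Agent.R300.SpecTrace
import Claimed.Agent.R300.SpecDecay

/-!
# Row 300, KK Section 10: Theorem A (cover half)  (owner: helper236, prefix `spec`)

Fibre-free form of Propositions "cover-projection" and "localization" of the KK paper.

`H = ℓ²(F × I)` (`I` = base vertices × matrix indices, `lay : I → ℤ`).  `TP` is the adjacency operator
of the voltage cover.  The central Fourier decomposition is replaced by a family of commuting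
"central" operators `cc α` with `∑ ‖cc α x‖² = ‖x‖²` and projections `Pc α` with
`Pc α * cc α = cc α` (fine arcs `α` of the circle).  On the range of `Pc α` the operator `TP` is
`η`-close to the compression `Pi * O α * Pi` of a model `O α` with an exact upper band `Es α`,
active in the layers at distance `≤ 1` from `ctr α`.

Conclusions: `TP` has a spectral gap, its upper band projection `EP` is nonzero, and the weighted
size `∑ w (lay ι) ‖EP δ_(1,ι)‖²` is at most `(χ / κ) (1 + 4 K) μ`.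

The symmetry (deck translations) enters only through a set `U` of operators such that the
adjoint-square identity `specHS X = specHS (star X)` holds on the commutant of `U`.
-/

set_option autoImplicit false

namespace Claimed.Agent.R300

open scoped ENNReal ComplexConjugate InnerProductSpace

theorem spec_norm_pow_le {H : Type*} [NormedAddCommGroup H] [NormedSpace ℂ H] {A : H →L[ℂ] H} {c : ℝ}
    (h : ‖A‖ ≤ c) (k : ℕ) : ‖A ^ k‖ ≤ c ^ k := by
  have hc : 0 ≤ c := (norm_nonneg _).trans h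
  induction k with
  | zero =>
    rw [pow_zero, pow_zero]
    exact ContinuousLinearMap.norm_id_le (𝕜 := ℂ) (E := H)
  | succ k ih =>
    rw [pow_succ, pow_succ]
    exact (norm_mul_le _ _).trans (mul_le_mul ih h (norm_nonneg _) (by positivity))

theorem spec_geom_nat {K r : ℝ} (hK : 0 ≤ K) (hr0 : 0 ≤ r) (hr : r ≤ 1 / 2) :
    ∑' n : ℕ, ENNReal.ofReal (K * r ^ n) ≤ ENNReal.ofReal (2 * K) := by
  have hs : Summable fun n : ℕ => K * r ^ n :=
    (summable_geometric_of_lt_one hr0 (by linarith)).mul_left K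
  rw [← ENNReal.ofReal_tsum_of_nonneg (fun n => by positivity) hs]
  refine ENNReal.ofReal_le_ofReal ?_
  rw [tsum_mul_left, tsum_geometric_of_lt_one hr0 (by linarith)]
  have h1 : (1 - r)⁻¹ ≤ 2 := by
    rw [inv_le_comm₀ (by linarith) (by norm_num)]
    linarith
  nlinarith

theorem spec_geom_int {K θ : ℝ} (hK : 0 ≤ K) (h : K * θ ^ 2 ≤ 1 / 2) (j : ℤ) :
    ∑' i : ℤ, ENNReal.ofReal (K ^ (i - j).natAbs * (θ ^ ((i - j).natAbs - 1)) ^ 2)
      ≤ ENNReal.ofReal (1 + 4 * K) := by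
  set g : ℕ → ℝ≥0∞ := fun n => ENNReal.ofReal (K ^ n * (θ ^ (n - 1)) ^ 2) with hg
  have h1 : ∑' i : ℤ, g (i - j).natAbs = ∑' m : ℤ, g m.natAbs :=
    (Equiv.subRight j).tsum_eq (fun m : ℤ => g m.natAbs)
  have h2 : ∑' m : ℤ, g m.natAbs = ∑' n : ℕ, g n + ∑' n : ℕ, g (n + 1) := by
    rw [tsum_of_nat_of_neg_add_one (f := fun m : ℤ => g m.natAbs) ENNReal.summable
      ENNReal.summable]
    have e1 : ∀ n : ℕ, ((n : ℤ)).natAbs = n := fun n => by omega
    have e2 : ∀ n : ℕ, (-((n : ℤ) + 1)).natAbs = n + 1 := fun n => by omega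
    simp_rw [e1, e2]
  have h3 : ∑' n : ℕ, g n = g 0 + ∑' n : ℕ, g (n + 1) := tsum_eq_zero_add' ENNReal.summable
  have h4 : ∀ n : ℕ, g (n + 1) = ENNReal.ofReal (K * (K * θ ^ 2) ^ n) := by
    intro n
    simp only [hg, Nat.add_sub_cancel]
    congr 1
    rw [mul_pow, pow_succ, ← pow_mul, ← pow_mul, mul_comm n 2]
    ring
  have h5 : ∑' n : ℕ, g (n + 1) ≤ ENNReal.ofReal (2 * K) := by
    simp_rw [h4]
    exact spec_geom_nat hK (by positivity) h
  have h6 : g 0 = ENNReal.ofReal 1 := by simp [hg]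
  show ∑' i : ℤ, g (i - j).natAbs ≤ _
  rw [h1, h2, h3, h6]
  calc ENNReal.ofReal 1 + ∑' n : ℕ, g (n + 1) + ∑' n : ℕ, g (n + 1)
      ≤ ENNReal.ofReal 1 + ENNReal.ofReal (2 * K) + ENNReal.ofReal (2 * K) := by gcongr
    _ = ENNReal.ofReal (1 + 4 * K) := by
        rw [← ENNReal.ofReal_add (by norm_num) (by positivity),
          ← ENNReal.ofReal_add (by positivity) (by positivity)]
        congr 1; ring

/-- The data and hypotheses of Theorem A. -/
structure SpecCoverData (F : Type) [Group F] (I 𝒜 : Type) where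
  /-- layer of an index -/
  lay : I → ℤ
  /-- the symmetries (deck translations) -/
  U : Set (ScL2 (F × I) →L[ℂ] ScL2 (F × I))
  /-- adjacency operator of the cover -/
  TP : ScL2 (F × I) →L[ℂ] ScL2 (F × I)
  /-- cut-off to the surviving base vertices -/
  Pi : ScL2 (F × I) →L[ℂ] ScL2 (F × I)
  /-- local models -/
  O : 𝒜 → ScL2 (F × I) →L[ℂ] ScL2 (F × I)
  /-- upper band of the local model -/
  Es : 𝒜 → ScL2 (F × I) →L[ℂ] ScL2 (F × I)
  /-- the central partition (square roots) -/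
  cc : 𝒜 → ScL2 (F × I) →L[ℂ] ScL2 (F × I)
  /-- the reducing projections on which the local model is accurate -/
  Pc : 𝒜 → ScL2 (F × I) →L[ℂ] ScL2 (F × I)
  /-- central layer of the local model -/
  ctr : 𝒜 → ℤ
  /-- layer weights -/
  w : ℤ → ℝ
  /-- masses of the arcs -/
  mm : 𝒜 → ℝ≥0∞
  χ : ℝ
  η : ℝ
  ε : ℝ
  K : ℝ
  μ : ℝ
  hU : ∀ X : ScL2 (F × I) →L[ℂ] ScL2 (F × I), (∀ u ∈ U, Commute u X) → specHS X = specHS (star X)
  hUlay : ∀ u ∈ U, ∀ A : Set ℤ, Commute u (specLayer (fun p : F × I => lay p.2) A)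
  hTP : IsSelfAdjoint TP
  hTPU : ∀ u ∈ U, Commute u TP
  hPi : IsStarProjection Pi
  hPiU : ∀ u ∈ U, Commute u Pi
  hEs : ∀ α, IsStarProjection (Es α)
  hEsU : ∀ α, ∀ u ∈ U, Commute u (Es α)
  hcc : ∀ α, IsSelfAdjoint (cc α)
  hccU : ∀ α, ∀ u ∈ U, Commute u (cc α)
  hccT : ∀ α, Commute (cc α) TP
  hccPi : ∀ α, Commute (cc α) Pi
  hccO : ∀ α, Commute (cc α) (Pi * O α * Pi)
  hpart : ∀ x, HasSum (fun α => ‖cc α x‖ ^ 2) (‖x‖ ^ 2)
  hPc : ∀ α, IsStarProjection (Pc α)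
  hPcT : ∀ α, Commute (Pc α) TP
  hPcc : ∀ α, Pc α * cc α = cc α
  hOPc : ∀ α, Pi * O α * Pi * Pc α = Pi * O α * Pi
  hform : ∀ α y, (⟪O α y, y⟫_ℂ).re ≤ (1 - χ) * ‖y‖ ^ 2 + χ * ‖Es α y‖ ^ 2
  hnorm : ∀ α, ‖O α‖ ≤ 1
  hfix : ∀ α x, Es α x = x → O α x = x
  hcut : ∀ α x, Es α x = x → ‖x - Pi x‖ ≤ ε * ‖x‖
  hη : ∀ α, ‖(TP - Pi * O α * Pi) * Pc α‖ ≤ η
  hwidth : ∀ α (x y : F × I), 1 < |lay x.2 - lay y.2| → (TP - Pi * O α * Pi) (scDelta y) x = 0
  hact : ∀ α (x y : F × I), 2 ≤ |lay x.2 - ctr α| → (Pi * O α * Pi * cc α) (scDelta y) x = 0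
  hw : ∀ i, 0 ≤ w i
  hwK : ∀ i j, w i ≤ w j * K ^ (i - j).natAbs
  htr : ∀ α, ENNReal.ofReal (w (ctr α)) * specHS (cc α * Es α) ≤ ENNReal.ofReal μ * mm α
  hmm : ∑' α, mm α ≤ 1
  hχ0 : 0 < χ
  hχ1 : χ ≤ 1
  hη0 : 0 ≤ η
  hη1 : η ≤ 1
  hε0 : 0 ≤ ε
  hε1 : ε < 1
  hK : 0 ≤ K
  hμ : 0 ≤ μ
  hgap : 1 - χ + η < 1 - 4 * ε - 2 * ε ^ 2 - η
  hθ : K * (η / (1 - 4 * ε - 2 * ε ^ 2 - η)) ^ 2 ≤ 1 / 2

namespace SpecCoverData

variable {F : Type} [Group F] {I 𝒜 : Type} (d : SpecCoverData F I 𝒜)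

/-- lower edge of the gap -/
def c₀ : ℝ := 1 - d.χ + d.η
/-- upper edge of the gap -/
def c₁ : ℝ := 1 - 4 * d.ε - 2 * d.ε ^ 2 - d.η
/-- the compressed local model -/
noncomputable def A₀ (α : 𝒜) : ScL2 (F × I) →L[ℂ] ScL2 (F × I) := d.Pi * d.O α * d.Pi
/-- the upper band projection of the cover operator -/
noncomputable def EP : ScL2 (F × I) →L[ℂ] ScL2 (F × I) := specProj d.c₀ d.c₁ d.TP
/-- the partial inverse -/
noncomputable def RP : ScL2 (F × I) →L[ℂ] ScL2 (F × I) := specRes d.c₀ d.c₁ d.TP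

theorem c₀_lt_c₁ : d.c₀ < d.c₁ := d.hgap

theorem c₀_nonneg : 0 ≤ d.c₀ := by
  have := d.hχ1; have := d.hη0; unfold c₀; linarith

theorem c₁_pos : 0 < d.c₁ := lt_of_le_of_lt d.c₀_nonneg d.c₀_lt_c₁

/-- the localised operator is selfadjoint. -/
theorem local_isSelfAdjoint (α : 𝒜) : IsSelfAdjoint (d.TP * d.Pc α) :=
  (IsSelfAdjoint.commute_iff d.hTP (d.hPc α).isSelfAdjoint).mp (d.hPcT α).symm

theorem local_sub (α : 𝒜) : d.TP * d.Pc α - d.Pi * d.O α * d.Pi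
    = (d.TP - d.Pi * d.O α * d.Pi) * d.Pc α := by
  rw [sub_mul, d.hOPc α]

/-- the two blocks: surviving and deleted base vertices. -/
noncomputable def blkJ (b : Bool) : ScL2 (F × I) →L[ℂ] ScL2 (F × I) := cond b d.Pi (1 - d.Pi)
/-- block operators -/
noncomputable def blkT (α : 𝒜) (b : Bool) : ScL2 (F × I) →L[ℂ] ScL2 (F × I) := cond b (d.O α) 0
/-- block projections -/
noncomputable def blkE (α : 𝒜) (b : Bool) : ScL2 (F × I) →L[ℂ] ScL2 (F × I) := cond b (d.Es α) 0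

theorem blkJ_proj (b : Bool) : IsStarProjection (d.blkJ b) := by
  cases b
  · exact d.hPi.one_sub
  · exact d.hPi

theorem blkJ_orth (b b' : Bool) (h : b ≠ b') : d.blkJ b * d.blkJ b' = 0 := by
  have h1 : d.Pi * d.Pi = d.Pi := d.hPi.isIdempotentElem.eq
  cases b <;> cases b' <;> simp_all [blkJ, mul_sub, sub_mul]

theorem blkJ_sum (y : ScL2 (F × I)) : HasSum (fun b => d.blkJ b y) y := by
  have := hasSum_fintype (fun b => d.blkJ b y)
  simpa [blkJ] using this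

theorem blkE_proj (α : 𝒜) (b : Bool) : IsStarProjection (d.blkE α b) := by
  cases b
  · exact IsStarProjection.zero _
  · exact d.hEs α

theorem blk_block (α : 𝒜) (b : Bool) :
    d.Pi * d.O α * d.Pi * d.blkJ b = d.blkJ b * d.blkT α b * d.blkJ b := by
  have h1 : d.Pi * d.Pi = d.Pi := d.hPi.isIdempotentElem.eq
  cases b
  · simp [blkJ, blkT, mul_sub, mul_assoc, h1]
  · simp [blkJ, blkT, mul_assoc, h1]

theorem blk_f (α : 𝒜) : ‖d.TP * d.Pc α - d.Pi * d.O α * d.Pi‖ ≤ d.η := by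
  rw [d.local_sub α]; exact d.hη α

theorem blk_form (α : 𝒜) (b : Bool) (y : ScL2 (F × I)) :
    (⟪d.blkT α b y, y⟫_ℂ).re ≤ (1 - d.χ) * ‖y‖ ^ 2 + d.χ * ‖d.blkE α b y‖ ^ 2 := by
  cases b
  · have := d.hχ1
    simp only [blkT, blkE, cond_false, zero_apply, inner_zero_left, Complex.zero_re, norm_zero]
    have : 0 ≤ (1 - d.χ) * ‖y‖ ^ 2 := mul_nonneg (by linarith) (by positivity)
    simpa using this
  · exact d.hform α y

theorem blk_norm (α : 𝒜) (b : Bool) : ‖d.blkT α b‖ ≤ 2 := by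
  cases b
  · simp [blkT]
  · exact (d.hnorm α).trans (by norm_num)

theorem blk_near (α : 𝒜) (b : Bool) (x : ScL2 (F × I)) (hx : d.blkE α b x = x) :
    ‖d.blkT α b x - x‖ ≤ 0 * ‖x‖ := by
  cases b
  · have : x = 0 := by simpa [blkE] using hx.symm
    simp [this]
  · have := d.hfix α x hx
    simp [blkT, this]

theorem blk_cut (α : 𝒜) (b : Bool) (x : ScL2 (F × I)) (hx : d.blkE α b x = x) :
    ‖x - d.blkJ b x‖ ≤ d.ε * ‖x‖ := by
  cases b
  · have : x = 0 := by simpa [blkE] using hx.symm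
    simp [this]
  · exact d.hcut α x hx

theorem blk_pos : 0 ≤ 1 - 0 - 4 * d.ε - 2 * d.ε ^ 2 := by
  have := d.c₁_pos; have := d.hη0; unfold c₁ at *; linarith

/-- gap of the localised operators. -/
theorem local_gap (α : 𝒜) : SpecGap (d.TP * d.Pc α) d.c₀ d.c₁ := by
  have := spec_blocks_gap (d.local_isSelfAdjoint α) d.blkJ_proj d.blkJ_orth d.blkJ_sum
    (d.blkE_proj α) (d.blk_block α) (d.blk_f α) (d.blk_form α) (d.blk_norm α) (d.blk_near α)
    (d.blk_cut α) d.blk_pos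
  simpa [c₀, c₁] using this

theorem Pc_cc_apply (α : 𝒜) (x : ScL2 (F × I)) : d.Pc α (d.cc α x) = d.cc α x := by
  have := congrArg (fun T : ScL2 (F × I) →L[ℂ] ScL2 (F × I) => T x) (d.hPcc α)
  simpa using this

/-- local gaps give global gaps. -/
theorem gap_of_local {a b : ℝ} (hab : a < b) (h : ∀ α, SpecGap (d.TP * d.Pc α) a b) :
    SpecGap d.TP a b := by
  refine specGap_of_lower d.hTP fun z x => ?_
  have hB : ∀ y, ((z : ℂ) • (1 : ScL2 (F × I) →L[ℂ] ScL2 (F × I)) - d.TP) y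
      = (z : ℂ) • y - d.TP y := fun y => by
    rw [sub_apply, smul_apply, one_apply_eq_self]
  rw [← hB]
  refine spec_partition_lower d.hpart (fun α => ?_) (fun α y => ?_) x
  · exact ((Commute.one_right _).smul_right _).sub_right (d.hccT α)
  · rw [hB]
    have := specGap_lower (d.local_isSelfAdjoint α) hab (h α) z (d.cc α y)
    simpa [d.Pc_cc_apply α y] using this

/-- **the cover operator has a spectral gap.** -/
theorem gap : SpecGap d.TP d.c₀ d.c₁ := d.gap_of_local d.c₀_lt_c₁ d.local_gap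

theorem local_upper (α : 𝒜) : ∀ z ∈ spectrum ℝ (d.TP * d.Pc α), z ≤ 1 + d.η := by
  have := spec_blocks_upper (d.local_isSelfAdjoint α) d.blkJ_proj d.blkJ_sum
    (d.blkE_proj α) (d.blk_block α) d.hχ0.le (d.blk_f α) (d.blk_form α)
  intro z hz
  have := this z hz
  linarith

/-- upper bound of the spectrum. -/
theorem upper : ∀ z ∈ spectrum ℝ d.TP, z ≤ 1 + d.η := by
  intro z hz
  by_contra hcon
  have h1 : SpecGap d.TP (1 + d.η) (z + 1) :=
    d.gap_of_local (by linarith [not_le.mp hcon]) fun α y hy => Or.inl (d.local_upper α y hy)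
  rcases h1 z hz with h | h
  · exact hcon h
  · linarith

theorem Pi_norm_le : ‖d.Pi‖ ≤ 1 :=
  ContinuousLinearMap.opNorm_le_bound _ zero_le_one fun x => by
    rw [one_mul]; exact spec_proj_norm_le d.hPi x

theorem A₀_norm_le (α : 𝒜) : ‖d.A₀ α‖ ≤ 1 := by
  unfold A₀
  calc ‖d.Pi * d.O α * d.Pi‖ ≤ ‖d.Pi‖ * ‖d.O α‖ * ‖d.Pi‖ :=
        (norm_mul_le _ _).trans (mul_le_mul_of_nonneg_right (norm_mul_le _ _) (norm_nonneg _))
    _ ≤ 1 * 1 * 1 := by
        gcongr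
        · exact d.Pi_norm_le
        · exact d.hnorm α
        · exact d.Pi_norm_le
    _ = 1 := by norm_num

/-- the error term on the range of `cc α`. -/
theorem err_apply_le (α : 𝒜) (x : ScL2 (F × I)) :
    ‖(d.TP - d.A₀ α) (d.cc α x)‖ ≤ d.η * ‖d.cc α x‖ := by
  have h1 : (d.TP - d.A₀ α) (d.cc α x) = ((d.TP - d.Pi * d.O α * d.Pi) * d.Pc α) (d.cc α x) := by
    rw [mul_apply_eq_comp, d.Pc_cc_apply α x]; rfl
  rw [h1]
  exact (ContinuousLinearMap.le_opNorm _ _).trans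
    (mul_le_mul_of_nonneg_right (d.hη α) (norm_nonneg _))

theorem norm_le : ‖d.TP‖ ≤ 2 := by
  refine spec_partition_upper d.hpart d.hccT (by norm_num) fun α x => ?_
  have h1 : d.TP (d.cc α x) = (d.TP - d.A₀ α) (d.cc α x) + d.A₀ α (d.cc α x) := by simp
  have h2 := d.err_apply_le α x
  have h3 : ‖d.A₀ α (d.cc α x)‖ ≤ 1 * ‖d.cc α x‖ :=
    (ContinuousLinearMap.le_opNorm _ _).trans
      (mul_le_mul_of_nonneg_right (d.A₀_norm_le α) (norm_nonneg _))
  have h4 := d.hη1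
  have h5 : d.η * ‖d.cc α x‖ ≤ 1 * ‖d.cc α x‖ := mul_le_mul_of_nonneg_right h4 (norm_nonneg _)
  rw [h1]
  refine (norm_add_le _ _).trans ?_
  linarith

theorem EP_isStarProjection : IsStarProjection d.EP :=
  specProj_isStarProjection d.c₀_lt_c₁ d.gap

theorem EP_commute {B : ScL2 (F × I) →L[ℂ] ScL2 (F × I)} (hB : Commute d.TP B) : Commute d.EP B :=
  specProj_commute hB _ _

theorem RP_commute {B : ScL2 (F × I) →L[ℂ] ScL2 (F × I)} (hB : Commute d.TP B) : Commute d.RP B :=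
  specRes_commute hB _ _

/-- `‖(TP - 1) x‖ ≤ (4 ε + 2 ε² + η) ‖x‖` on the upper band. -/
theorem near {x : ScL2 (F × I)} (hx : d.EP x = x) :
    ‖d.TP x - x‖ ≤ (4 * d.ε + 2 * d.ε ^ 2 + d.η) * ‖x‖ := by
  have h1 := specProj_norm_sub_le d.hTP (δ := 4 * d.ε + 2 * d.ε ^ 2 + d.η) d.c₀_lt_c₁ d.gap d.upper
    (by unfold c₁; linarith) (by have := d.hε0; nlinarith [sq_nonneg d.ε])
    (by have := d.hε0; have := d.hη0; positivity)
  have h2 : d.TP x - x = ((d.TP - 1) * specProj d.c₀ d.c₁ d.TP) x := by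
    have : specProj d.c₀ d.c₁ d.TP x = x := hx
    simp [this]
  rw [h2]
  exact (ContinuousLinearMap.le_opNorm _ _).trans (mul_le_mul_of_nonneg_right h1 (norm_nonneg _))

/-- form bound. -/
theorem form_le (y : ScL2 (F × I)) :
    (⟪d.TP y, y⟫_ℂ).re ≤ (1 - d.χ + d.η) * ‖y‖ ^ 2 + d.χ * ‖d.EP y‖ ^ 2 := by
  have := spec_form_le d.hTP d.c₀_lt_c₁ d.gap d.upper y
  have e : 1 + d.η - d.c₀ = d.χ := by unfold c₀; ring
  rw [e] at this
  exact this

/-- the upper band does not vanish. -/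
theorem EP_ne_zero (h : ∃ α, d.Es α ≠ 0) : d.EP ≠ 0 := by
  obtain ⟨α, hα⟩ := h
  have h01 : (1 - d.χ) + d.η < 1 - 0 - 4 * d.ε - 2 * d.ε ^ 2 - d.η := by
    have := d.hgap; linarith
  have hne := spec_blocks_ne_zero (d.local_isSelfAdjoint α) d.blkJ_proj d.blkJ_orth d.blkJ_sum
    (d.blkE_proj α) (d.blk_block α) (d.blk_f α) (d.blk_form α) (d.blk_norm α) (d.blk_near α)
    (d.blk_cut α) d.blk_pos d.hε1 h01 (q := true) hα
  have e0 : (1 - d.χ) + d.η = d.c₀ := rfl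
  have e1 : 1 - 0 - 4 * d.ε - 2 * d.ε ^ 2 - d.η = d.c₁ := by unfold c₁; ring
  rw [e0, e1] at hne
  set Eα := specProj d.c₀ d.c₁ (d.TP * d.Pc α) with hEα
  have hEp : IsStarProjection Eα := specProj_isStarProjection d.c₀_lt_c₁ (d.local_gap α)
  obtain ⟨x₀, hx₀⟩ : ∃ x₀, Eα x₀ ≠ 0 := by
    by_contra hcon
    push Not at hcon
    exact hne (ContinuousLinearMap.ext hcon)
  set y := Eα x₀ with hy
  have hidem : Eα y = y := by
    have := congrArg (fun T : ScL2 (F × I) →L[ℂ] ScL2 (F × I) => T x₀) hEp.isIdempotentElem.eq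
    simpa using this
  have hlow := specProj_form_lower (d.local_isSelfAdjoint α) d.c₀_lt_c₁ (d.local_gap α) hidem
  set u := d.Pc α y with hu
  have hPidem : d.Pc α u = u := by
    have := congrArg (fun T : ScL2 (F × I) →L[ℂ] ScL2 (F × I) => T y) (d.hPc α).isIdempotentElem.eq
    simpa using this
  have hsym := ContinuousLinearMap.isSelfAdjoint_iff_isSymmetric.mp (d.hPc α).isSelfAdjoint
  have h1 : ⟪(d.TP * d.Pc α) y, y⟫_ℂ = ⟪d.TP u, u⟫_ℂ := by
    have h2 : (d.TP * d.Pc α) y = d.Pc α (d.TP u) := by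
      have := congrArg (fun T : ScL2 (F × I) →L[ℂ] ScL2 (F × I) => T u) (d.hPcT α).eq
      simp only [mul_apply_eq_comp] at this
      rw [this, hPidem]; rfl
    rw [h2]
    exact hsym _ _
  rw [h1] at hlow
  have hyn : 0 < ‖y‖ := norm_pos_iff.mpr hx₀
  have hun : ‖u‖ ≤ ‖y‖ := spec_proj_norm_le (d.hPc α) y
  refine specProj_ne_zero d.hTP d.c₀_lt_c₁ d.gap (x := u) ?_
  have h3 : d.c₀ * ‖u‖ ^ 2 ≤ d.c₀ * ‖y‖ ^ 2 :=
    mul_le_mul_of_nonneg_left (pow_le_pow_left₀ (norm_nonneg _) hun 2) d.c₀_nonneg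
  have h4 : d.c₀ * ‖y‖ ^ 2 < d.c₁ * ‖y‖ ^ 2 := mul_lt_mul_of_pos_right d.c₀_lt_c₁ (by positivity)
  linarith

/-! ### The weighted size -/

/-- layer function on `F × I`. -/
def L (p : F × I) : ℤ := d.lay p.2

/-- projection onto a layer -/
noncomputable def P (i : ℤ) : ScL2 (F × I) →L[ℂ] ScL2 (F × I) := specLayer d.L {i}

/-- the weighted size of the upper band. -/
noncomputable def size : ℝ≥0∞ :=
  ∑' ι : I, ENNReal.ofReal (d.w (d.lay ι)) * ENNReal.ofReal (‖d.EP (scDelta ((1 : F), ι))‖ ^ 2)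

theorem P_delta (i : ℤ) (ι : I) [Decidable (d.lay ι = i)] :
    d.P i (scDelta ((1 : F), ι)) = if d.lay ι = i then scDelta ((1 : F), ι) else 0 := by
  split_ifs with h
  · exact spec_restr_delta_mem (by simpa [L] using h)
  · exact spec_restr_delta_not_mem (by simpa [L] using h)

theorem size_eq : d.size = ∑' i : ℤ, ENNReal.ofReal (d.w i) * specHS (d.EP * d.P i) := by
  classical
  unfold size specHS
  simp_rw [← ENNReal.tsum_mul_left]
  rw [ENNReal.tsum_comm]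
  refine tsum_congr fun ι => ?_
  rw [tsum_eq_single (d.lay ι)]
  · simp [P_delta]
  · intro i hi
    simp [P_delta, hi.symm]

theorem hs_part (X : ScL2 (F × I) →L[ℂ] ScL2 (F × I)) :
    specHS X = ∑' α, specHS (d.cc α * X) := by
  unfold specHS
  rw [ENNReal.tsum_comm]
  refine tsum_congr fun ι => ?_
  have h := d.hpart (X (scDelta ((1 : F), ι)))
  rw [← h.tsum_eq, ENNReal.ofReal_tsum_of_nonneg (fun _ => by positivity) h.summable]
  rfl

theorem P_isSelfAdjoint (i : ℤ) : IsSelfAdjoint (d.P i) :=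
  (spec_restr_isStarProjection _).isSelfAdjoint

theorem EPU : ∀ u ∈ d.U, Commute u d.EP := fun u hu => (d.EP_commute (d.hTPU u hu).symm).symm

theorem hs_swap (i : ℤ) (α : 𝒜) :
    specHS (d.cc α * (d.EP * d.P i)) = specHS (d.P i * d.EP * d.cc α) := by
  rw [d.hU (d.cc α * (d.EP * d.P i))
    (fun u hu => (d.hccU α u hu).mul_right ((d.EPU u hu).mul_right (d.hUlay u hu {i})))]
  congr 1
  rw [star_mul, star_mul, (d.P_isSelfAdjoint i).star_eq, d.EP_isStarProjection.isSelfAdjoint.star_eq,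
    (d.hcc α).star_eq]

/-- the error term -/
noncomputable def Δ (α : 𝒜) : ScL2 (F × I) →L[ℂ] ScL2 (F × I) := d.TP - d.A₀ α
/-- the localised error term -/
noncomputable def D (α : 𝒜) : ScL2 (F × I) →L[ℂ] ScL2 (F × I) := d.Δ α * d.Pc α

theorem D_norm_le (α : 𝒜) : ‖d.D α‖ ≤ d.η := d.hη α

theorem cc_mul_Pc (α : 𝒜) : d.cc α * d.Pc α = d.cc α := by
  have := congrArg star (d.hPcc α)
  rwa [star_mul, (d.hcc α).star_eq, (d.hPc α).isSelfAdjoint.star_eq] at this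

theorem cc_comm_Δ (α : 𝒜) : Commute (d.cc α) (d.Δ α) := (d.hccT α).sub_right (d.hccO α)

theorem cc_comm_D (α : 𝒜) : Commute (d.cc α) (d.D α) := by
  refine (d.cc_comm_Δ α).mul_right ?_
  show d.cc α * d.Pc α = d.Pc α * d.cc α
  rw [d.cc_mul_Pc, d.hPcc]

theorem Δ_mul_cc (α : 𝒜) : d.Δ α * d.cc α = d.D α * d.cc α := by
  unfold D
  rw [mul_assoc, d.hPcc]

theorem Δ_pow_cc (α : 𝒜) (k : ℕ) : d.Δ α ^ k * d.cc α = d.D α ^ k * d.cc α := by
  induction k with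
  | zero => simp
  | succ k ih =>
    calc d.Δ α ^ (k + 1) * d.cc α = d.Δ α ^ k * (d.Δ α * d.cc α) := by rw [pow_succ, mul_assoc]
      _ = d.Δ α ^ k * (d.cc α * d.D α) := by rw [d.Δ_mul_cc, (d.cc_comm_D α).eq]
      _ = (d.Δ α ^ k * d.cc α) * d.D α := by rw [mul_assoc]
      _ = d.D α ^ k * (d.cc α * d.D α) := by rw [ih, mul_assoc]
      _ = d.D α ^ (k + 1) * d.cc α := by rw [(d.cc_comm_D α).eq, pow_succ, mul_assoc]

theorem pow_eq (i : ℤ) (α : 𝒜) (k : ℕ) (hk : k = 0 ∨ (k : ℤ) + 1 ≤ |i - d.ctr α|) :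
    d.P i * d.TP ^ k * d.cc α = d.P i * d.Δ α ^ k * d.cc α := by
  rcases hk with rfl | hk
  · simp
  · exact specLayer_pow_eq (lay := d.L) (T := d.TP) (A₀ := d.A₀ α) (Δ := d.Δ α) (h := d.cc α)
      (by unfold Δ; abel) (d.hwidth α) (d.hccT α) (d.hccO α) (d.hact α) i k hk

theorem TP_mul_RP : d.TP * d.RP = d.EP :=
  spec_mul_specRes d.hTP d.c₀_lt_c₁ d.c₁_pos d.gap

theorem EP_eq (k : ℕ) : d.EP = d.TP ^ k * d.RP ^ k * d.EP := by
  have hc : Commute d.TP d.RP := (d.RP_commute (Commute.refl _)).symm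
  rw [← hc.mul_pow, d.TP_mul_RP, ← pow_succ, d.EP_isStarProjection.isIdempotentElem.pow_succ_eq]

theorem RP_norm_le : ‖d.RP‖ ≤ d.c₁⁻¹ := specRes_norm_le d.c₀_lt_c₁ d.c₁_pos d.gap

theorem decay_eq (i : ℤ) (α : 𝒜) (k : ℕ) (hk : k = 0 ∨ (k : ℤ) + 1 ≤ |i - d.ctr α|) :
    d.P i * d.EP * d.cc α = (d.P i * d.D α ^ k * d.RP ^ k) * (d.cc α * d.EP) := by
  have c1 : Commute (d.cc α) d.EP := (d.EP_commute (d.hccT α).symm).symm
  have c2 : Commute (d.cc α) (d.RP ^ k) := ((d.RP_commute (d.hccT α).symm).symm).pow_right k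
  calc d.P i * d.EP * d.cc α = d.P i * (d.TP ^ k * d.RP ^ k * d.EP) * d.cc α := by rw [← d.EP_eq k]
    _ = d.P i * d.TP ^ k * (d.RP ^ k * (d.EP * d.cc α)) := by simp only [mul_assoc]
    _ = d.P i * d.TP ^ k * (d.RP ^ k * (d.cc α * d.EP)) := by rw [c1.eq]
    _ = d.P i * d.TP ^ k * ((d.RP ^ k * d.cc α) * d.EP) := by simp only [mul_assoc]
    _ = d.P i * d.TP ^ k * ((d.cc α * d.RP ^ k) * d.EP) := by rw [c2.eq]
    _ = (d.P i * d.TP ^ k * d.cc α) * (d.RP ^ k * d.EP) := by simp only [mul_assoc]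
    _ = (d.P i * (d.Δ α ^ k * d.cc α)) * (d.RP ^ k * d.EP) := by
        rw [d.pow_eq i α k hk, mul_assoc (d.P i)]
    _ = (d.P i * (d.D α ^ k * d.cc α)) * (d.RP ^ k * d.EP) := by rw [d.Δ_pow_cc]
    _ = d.P i * d.D α ^ k * ((d.cc α * d.RP ^ k) * d.EP) := by simp only [mul_assoc]
    _ = d.P i * d.D α ^ k * ((d.RP ^ k * d.cc α) * d.EP) := by rw [c2.eq]
    _ = (d.P i * d.D α ^ k * d.RP ^ k) * (d.cc α * d.EP) := by simp only [mul_assoc]

/-- the decay ratio -/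
noncomputable def θ : ℝ := d.η / d.c₁

theorem θ_nonneg : 0 ≤ d.θ := div_nonneg d.hη0 d.c₁_pos.le

theorem decay_norm_le (i : ℤ) (α : 𝒜) (k : ℕ) : ‖d.P i * d.D α ^ k * d.RP ^ k‖ ≤ d.θ ^ k := by
  have h1 : ‖d.P i‖ ≤ 1 := specLayer_norm_le _ _
  have h2 : ‖d.D α ^ k‖ ≤ d.η ^ k := spec_norm_pow_le (d.D_norm_le α) k
  have h3 : ‖d.RP ^ k‖ ≤ d.c₁⁻¹ ^ k := spec_norm_pow_le d.RP_norm_le k
  calc ‖d.P i * d.D α ^ k * d.RP ^ k‖ ≤ ‖d.P i‖ * ‖d.D α ^ k‖ * ‖d.RP ^ k‖ :=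
        (norm_mul_le _ _).trans (mul_le_mul_of_nonneg_right (norm_mul_le _ _) (norm_nonneg _))
    _ ≤ 1 * d.η ^ k * d.c₁⁻¹ ^ k := by
        have := d.hη0
        have := d.c₁_pos
        gcongr
    _ = d.θ ^ k := by rw [one_mul, ← mul_pow]; rfl

theorem hs_decay (i : ℤ) (α : 𝒜) (k : ℕ) (hk : k = 0 ∨ (k : ℤ) + 1 ≤ |i - d.ctr α|) :
    specHS (d.P i * d.EP * d.cc α) ≤ ENNReal.ofReal ((d.θ ^ k) ^ 2) * specHS (d.cc α * d.EP) := by
  rw [d.decay_eq i α k hk]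
  exact specHS_mul_le _ _ (d.decay_norm_le i α k)

/-- width of the gap -/
def κ : ℝ := d.c₁ - d.c₀

theorem κ_pos : 0 < d.κ := sub_pos.mpr d.c₀_lt_c₁

/-- vectors of the upper band are seen by the local model band. -/
theorem band_le (α : 𝒜) (y : ScL2 (F × I)) (hx : d.EP (d.cc α y) = d.cc α y) :
    ‖d.cc α y‖ ^ 2 ≤ d.χ / d.κ * ‖d.Es α (d.Pi (d.cc α y))‖ ^ 2 := by
  set x := d.cc α y with hxdef
  have h1 : d.c₁ * ‖x‖ ^ 2 ≤ (⟪d.TP x, x⟫_ℂ).re := specProj_form_lower d.hTP d.c₀_lt_c₁ d.gap hx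
  have h2 : d.TP x = (d.TP - d.A₀ α) x + d.A₀ α x := by simp
  have h3 : (⟪(d.TP - d.A₀ α) x, x⟫_ℂ).re ≤ d.η * ‖x‖ ^ 2 := by
    have a1 : (⟪(d.TP - d.A₀ α) x, x⟫_ℂ).re ≤ ‖(d.TP - d.A₀ α) x‖ * ‖x‖ :=
      (Complex.re_le_norm _).trans (norm_inner_le_norm _ _)
    have a2 := mul_le_mul_of_nonneg_right (d.err_apply_le α y) (norm_nonneg x)
    calc _ ≤ _ := a1
      _ ≤ d.η * ‖x‖ * ‖x‖ := a2
      _ = d.η * ‖x‖ ^ 2 := by ring
  have hsym := ContinuousLinearMap.isSelfAdjoint_iff_isSymmetric.mp d.hPi.isSelfAdjoint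
  have h4 : ⟪d.A₀ α x, x⟫_ℂ = ⟪d.O α (d.Pi x), d.Pi x⟫_ℂ := hsym _ _
  have h5 := d.hform α (d.Pi x)
  have h6 : ‖d.Pi x‖ ^ 2 ≤ ‖x‖ ^ 2 := pow_le_pow_left₀ (norm_nonneg _) (spec_proj_norm_le d.hPi x) 2
  have h7 : (1 - d.χ) * ‖d.Pi x‖ ^ 2 ≤ (1 - d.χ) * ‖x‖ ^ 2 :=
    mul_le_mul_of_nonneg_left h6 (by have := d.hχ1; linarith)
  rw [h2, inner_add_left, Complex.add_re, h4] at h1
  have h8 : d.κ * ‖x‖ ^ 2 ≤ d.χ * ‖d.Es α (d.Pi x)‖ ^ 2 := by
    unfold κ c₀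
    nlinarith
  rw [div_mul_eq_mul_div, le_div_iff₀ d.κ_pos]
  linarith

theorem EP_cc_apply (α : 𝒜) (y : ScL2 (F × I)) : d.EP (d.cc α (d.EP y)) = d.cc α (d.EP y) := by
  have c1 : Commute (d.cc α) d.EP := (d.EP_commute (d.hccT α).symm).symm
  have h1 : d.EP (d.cc α (d.EP y)) = d.cc α (d.EP (d.EP y)) := by
    have := congrArg (fun T : ScL2 (F × I) →L[ℂ] ScL2 (F × I) => T (d.EP y)) c1.eq
    simpa using this.symm
  have h2 : d.EP (d.EP y) = d.EP y := by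
    have := congrArg (fun T : ScL2 (F × I) →L[ℂ] ScL2 (F × I) => T y)
      d.EP_isStarProjection.isIdempotentElem.eq
    simpa using this
  rw [h1, h2]

theorem EP_norm_le : ‖d.EP‖ ≤ 1 :=
  ContinuousLinearMap.opNorm_le_bound _ zero_le_one fun x => by
    rw [one_mul]; exact spec_proj_norm_le d.EP_isStarProjection x

/-- trace comparison with the local model. -/
theorem hs_compare (α : 𝒜) :
    specHS (d.cc α * d.EP) ≤ ENNReal.ofReal (d.χ / d.κ) * specHS (d.cc α * d.Es α) := by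
  have h1 : specHS (d.cc α * d.EP)
      ≤ ENNReal.ofReal (d.χ / d.κ) * specHS (d.Es α * d.Pi * (d.cc α * d.EP)) := by
    refine specHS_le_of_norm_le (fun ι => ?_) (div_nonneg d.hχ0.le d.κ_pos.le)
    exact d.band_le α _ (d.EP_cc_apply α _)
  have h2 : specHS (d.Es α * d.Pi * (d.cc α * d.EP))
      = specHS ((d.EP * d.Pi) * (d.cc α * d.Es α)) := by
    rw [d.hU (d.Es α * d.Pi * (d.cc α * d.EP)) (fun u hu =>
      ((d.hEsU α u hu).mul_right (d.hPiU u hu)).mul_right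
        ((d.hccU α u hu).mul_right (d.EPU u hu)))]
    congr 1
    rw [star_mul, star_mul, star_mul, (d.hEs α).isSelfAdjoint.star_eq, d.hPi.isSelfAdjoint.star_eq,
      (d.hcc α).star_eq, d.EP_isStarProjection.isSelfAdjoint.star_eq]
    calc d.EP * d.cc α * (d.Pi * d.Es α) = d.EP * (d.cc α * d.Pi) * d.Es α := by
          simp only [mul_assoc]
      _ = d.EP * (d.Pi * d.cc α) * d.Es α := by rw [(d.hccPi α).eq]
      _ = _ := by simp only [mul_assoc]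
  have h3 : specHS ((d.EP * d.Pi) * (d.cc α * d.Es α)) ≤ specHS (d.cc α * d.Es α) := by
    refine specHS_mul_le_one _ _ ?_
    calc ‖d.EP * d.Pi‖ ≤ ‖d.EP‖ * ‖d.Pi‖ := norm_mul_le _ _
      _ ≤ 1 * 1 := mul_le_mul d.EP_norm_le d.Pi_norm_le (norm_nonneg _) zero_le_one
      _ = 1 := one_mul 1
  rw [h2] at h1
  exact h1.trans (mul_le_mul_right h3 _)

/-- one term of the double sum. -/
theorem term_le (i : ℤ) (α : 𝒜) :
    ENNReal.ofReal (d.w i) * specHS (d.cc α * (d.EP * d.P i))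
      ≤ ENNReal.ofReal (d.K ^ (i - d.ctr α).natAbs * (d.θ ^ ((i - d.ctr α).natAbs - 1)) ^ 2)
        * (ENNReal.ofReal (d.χ / d.κ) * (ENNReal.ofReal d.μ * d.mm α)) := by
  set n := (i - d.ctr α).natAbs with hn
  have hk : n - 1 = 0 ∨ ((n - 1 : ℕ) : ℤ) + 1 ≤ |i - d.ctr α| := by
    rcases Nat.eq_zero_or_pos n with h | h
    · left; omega
    · right
      have : |i - d.ctr α| = (n : ℤ) := by rw [hn]; exact Int.abs_eq_natAbs _
      rw [this]; omega
  have hθ2 : 0 ≤ (d.θ ^ (n - 1)) ^ 2 := by positivity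
  calc ENNReal.ofReal (d.w i) * specHS (d.cc α * (d.EP * d.P i))
      = ENNReal.ofReal (d.w i) * specHS (d.P i * d.EP * d.cc α) := by rw [d.hs_swap]
    _ ≤ ENNReal.ofReal (d.w (d.ctr α) * d.K ^ n)
          * (ENNReal.ofReal ((d.θ ^ (n - 1)) ^ 2)
            * (ENNReal.ofReal (d.χ / d.κ) * specHS (d.cc α * d.Es α))) := by
        refine mul_le_mul' (ENNReal.ofReal_le_ofReal (d.hwK i (d.ctr α))) ?_
        exact (d.hs_decay i α (n - 1) hk).trans (mul_le_mul_right (d.hs_compare α) _)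
    _ = ENNReal.ofReal (d.K ^ n * (d.θ ^ (n - 1)) ^ 2)
          * (ENNReal.ofReal (d.χ / d.κ)
            * (ENNReal.ofReal (d.w (d.ctr α)) * specHS (d.cc α * d.Es α))) := by
        rw [ENNReal.ofReal_mul (d.hw _), ENNReal.ofReal_mul (pow_nonneg d.hK n)]
        ring
    _ ≤ _ := by
        refine mul_le_mul_right (mul_le_mul_right (d.htr α) _) _

/-- **The weighted size is small** (paper: Proposition "localization"). -/
theorem size_le : d.size ≤ ENNReal.ofReal ((1 + 4 * d.K) * (d.χ / d.κ) * d.μ) := by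
  have hθ : d.K * d.θ ^ 2 ≤ 1 / 2 := d.hθ
  calc d.size = ∑' i : ℤ, ∑' α, ENNReal.ofReal (d.w i) * specHS (d.cc α * (d.EP * d.P i)) := by
        rw [d.size_eq]
        refine tsum_congr fun i => ?_
        rw [d.hs_part (d.EP * d.P i), ENNReal.tsum_mul_left]
    _ ≤ ∑' i : ℤ, ∑' α,
          ENNReal.ofReal (d.K ^ (i - d.ctr α).natAbs * (d.θ ^ ((i - d.ctr α).natAbs - 1)) ^ 2)
            * (ENNReal.ofReal (d.χ / d.κ) * (ENNReal.ofReal d.μ * d.mm α)) :=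
        ENNReal.tsum_le_tsum fun i => ENNReal.tsum_le_tsum fun α => d.term_le i α
    _ = ∑' α, (∑' i : ℤ,
          ENNReal.ofReal (d.K ^ (i - d.ctr α).natAbs * (d.θ ^ ((i - d.ctr α).natAbs - 1)) ^ 2))
            * (ENNReal.ofReal (d.χ / d.κ) * (ENNReal.ofReal d.μ * d.mm α)) := by
        rw [ENNReal.tsum_comm]
        refine tsum_congr fun α => ?_
        rw [ENNReal.tsum_mul_right]
    _ ≤ ∑' α, ENNReal.ofReal (1 + 4 * d.K)
            * (ENNReal.ofReal (d.χ / d.κ) * (ENNReal.ofReal d.μ * d.mm α)) :=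
        ENNReal.tsum_le_tsum fun α => mul_le_mul_left (spec_geom_int d.hK hθ (d.ctr α)) _
    _ = ENNReal.ofReal (1 + 4 * d.K) * (ENNReal.ofReal (d.χ / d.κ) * (ENNReal.ofReal d.μ
          * ∑' α, d.mm α)) := by
        rw [ENNReal.tsum_mul_left, ENNReal.tsum_mul_left, ENNReal.tsum_mul_left]
    _ ≤ ENNReal.ofReal (1 + 4 * d.K) * (ENNReal.ofReal (d.χ / d.κ) * (ENNReal.ofReal d.μ * 1)) := by
        gcongr
        exact d.hmm
    _ = _ := by
        have h1 := d.hK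
        have h2 : 0 ≤ d.χ / d.κ := div_nonneg d.hχ0.le d.κ_pos.le
        rw [mul_one, ENNReal.ofReal_mul (by positivity), ENNReal.ofReal_mul (by positivity),
          mul_assoc]

/-- **Theorem A.**  Summary of the conclusions. -/
theorem main (h : ∃ α, d.Es α ≠ 0) :
    SpecGap d.TP d.c₀ d.c₁ ∧ (∀ z ∈ spectrum ℝ d.TP, z ≤ 1 + d.η) ∧ ‖d.TP‖ ≤ 2 ∧
      IsStarProjection d.EP ∧ d.EP ≠ 0 ∧
      (∀ B, Commute d.TP B → Commute d.EP B) ∧
      (∀ x, d.EP x = x → ‖d.TP x - x‖ ≤ (4 * d.ε + 2 * d.ε ^ 2 + d.η) * ‖x‖) ∧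
      (∀ y, (⟪d.TP y, y⟫_ℂ).re ≤ (1 - d.χ + d.η) * ‖y‖ ^ 2 + d.χ * ‖d.EP y‖ ^ 2) ∧
      d.size ≤ ENNReal.ofReal ((1 + 4 * d.K) * (d.χ / d.κ) * d.μ) :=
  ⟨d.gap, d.upper, d.norm_le, d.EP_isStarProjection, d.EP_ne_zero h, fun _ hB => d.EP_commute hB,
    fun _ hx => d.near hx, d.form_le, d.size_le⟩

end SpecCoverData

end Claimed.Agent.R300
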