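/-
Row 300, KK Section 10, KKG-GLUE part 2a (owner helper47, prefix `kkv`).

From scalar inequalities for a finite matrix to inequalities for vectors with values in `ℓ²(Z)`
(coordinatewise), and the local model operators `M ⊗ p`, `v v* ⊗ p` through their vertex slices.
-/
import Claimed.Agent.R300.KkMatG
import Claimed.Agent.R300.SpecCover

set_option autoImplicit false

namespace Claimed.Agent.R300

open scoped ENNReal ComplexConjugate InnerProductSpace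

section lift

variable {X Z : Type}

theorem kkv_hasSum_inner (ξ η : ScL2 Z) : HasSum (fun p => conj (ξ p) * η p) ⟪ξ, η⟫_ℂ := by
  have h := lp.hasSum_inner (𝕜 := ℂ) ξ η
  have e : (fun p => conj (ξ p) * η p) = fun p => ⟪ξ p, η p⟫_ℂ := by
    funext p
    simp [mul_comm]
  rw [e]
  exact h

/-- vector valued form bound. -/
theorem kkv_form_lift (S : Finset X) (m : X → X → ℝ) (V : X → ℝ) (c1 c2 : ℝ)
    (h : ∀ y : X → ℂ, (∑ v ∈ S, ∑ v' ∈ S, conj (y v) * (m v v' : ℂ) * y v').re ≤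
      c1 * ∑ v ∈ S, ‖y v‖ ^ 2 + c2 * ‖∑ v ∈ S, (V v : ℂ) * y v‖ ^ 2)
    (η : X → ScL2 Z) :
    (∑ v ∈ S, ∑ v' ∈ S, (m v v' : ℂ) * ⟪η v, η v'⟫_ℂ).re ≤
      c1 * ∑ v ∈ S, ‖η v‖ ^ 2 + c2 * ‖∑ v ∈ S, (V v : ℂ) • η v‖ ^ 2 := by
  have h1 : HasSum (fun p => (∑ v ∈ S, ∑ v' ∈ S, conj (η v p) * (m v v' : ℂ) * η v' p).re)
      (∑ v ∈ S, ∑ v' ∈ S, (m v v' : ℂ) * ⟪η v, η v'⟫_ℂ).re := by
    apply Complex.reCLM.hasSum
    refine hasSum_sum fun v _ => hasSum_sum fun v' _ => ?_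
    have h2 := (kkv_hasSum_inner (η v) (η v')).mul_left (m v v' : ℂ)
    have e : (fun p => conj (η v p) * (m v v' : ℂ) * η v' p) =
        fun p => (m v v' : ℂ) * (conj (η v p) * η v' p) := by
      funext p; ring
    rw [e]
    exact h2
  have h3 : HasSum (fun p => c1 * ∑ v ∈ S, ‖η v p‖ ^ 2 + c2 * ‖∑ v ∈ S, (V v : ℂ) * η v p‖ ^ 2)
      (c1 * ∑ v ∈ S, ‖η v‖ ^ 2 + c2 * ‖∑ v ∈ S, (V v : ℂ) • η v‖ ^ 2) := by
    refine HasSum.add (HasSum.mul_left _ (hasSum_sum fun v _ => scL2_hasSum_sq (η v))) ?_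
    refine HasSum.mul_left _ ?_
    have h4 := scL2_hasSum_sq (∑ v ∈ S, (V v : ℂ) • η v)
    have e : (fun p => ‖(∑ v ∈ S, (V v : ℂ) • η v : ScL2 Z) p‖ ^ 2) =
        fun p => ‖∑ v ∈ S, (V v : ℂ) * η v p‖ ^ 2 := by
      funext p
      rw [scL2_sum_apply]
      rfl
    rw [e] at h4
    exact h4
  exact hasSum_le (fun p => h fun v => η v p) h1 h3

/-- vector valued norm bound. -/
theorem kkv_norm_lift (S : Finset X) (m : X → X → ℝ)
    (h : ∀ y : X → ℂ, ∑ v ∈ S, ‖∑ v' ∈ S, (m v v' : ℂ) * y v'‖ ^ 2 ≤ ∑ v ∈ S, ‖y v‖ ^ 2)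
    (η : X → ScL2 Z) :
    ∑ v ∈ S, ‖∑ v' ∈ S, (m v v' : ℂ) • η v'‖ ^ 2 ≤ ∑ v ∈ S, ‖η v‖ ^ 2 := by
  have h1 : HasSum (fun p => ∑ v ∈ S, ‖∑ v' ∈ S, (m v v' : ℂ) * η v' p‖ ^ 2)
      (∑ v ∈ S, ‖∑ v' ∈ S, (m v v' : ℂ) • η v'‖ ^ 2) := by
    refine hasSum_sum fun v _ => ?_
    have h4 := scL2_hasSum_sq (∑ v' ∈ S, (m v v' : ℂ) • η v')
    have e : (fun p => ‖(∑ v' ∈ S, (m v v' : ℂ) • η v' : ScL2 Z) p‖ ^ 2) =
        fun p => ‖∑ v' ∈ S, (m v v' : ℂ) * η v' p‖ ^ 2 := by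
      funext p
      rw [scL2_sum_apply]
      rfl
    rw [e] at h4
    exact h4
  have h3 : HasSum (fun p => ∑ v ∈ S, ‖η v p‖ ^ 2) (∑ v ∈ S, ‖η v‖ ^ 2) :=
    hasSum_sum fun v _ => scL2_hasSum_sq (η v)
  exact hasSum_le (fun p => h fun v => η v p) h1 h3

end lift

/-- A finite model: a symmetric real matrix supported on `S × S`, fixing a unit vector, with a form bound
and a norm bound. -/
structure KkvModel {X : Type} (S : Finset X) (m : X → X → ℝ) (V : X → ℝ) (χ : ℝ) : Prop where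
  supp : ∀ v v', ¬ (v ∈ S ∧ v' ∈ S) → m v v' = 0
  vsupp : ∀ v, v ∉ S → V v = 0
  symm : ∀ v v', m v v' = m v' v
  fix : ∀ v, ∑ v' ∈ S, m v v' * V v' = V v
  unit : ∑ v ∈ S, V v ^ 2 = 1
  form : ∀ y : X → ℂ, (∑ v ∈ S, ∑ v' ∈ S, conj (y v) * (m v v' : ℂ) * y v').re ≤
    (1 - χ) * ∑ v ∈ S, ‖y v‖ ^ 2 + χ * ‖∑ v ∈ S, (V v : ℂ) * y v‖ ^ 2
  norm : ∀ y : X → ℂ, ∑ v ∈ S, ‖∑ v' ∈ S, (m v v' : ℂ) * y v'‖ ^ 2 ≤ ∑ v ∈ S, ‖y v‖ ^ 2

section model

variable {F X J : Type} {S : Finset X} {m : X → X → ℝ} {V : X → ℝ} {χ : ℝ}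

/-- the local model `M ⊗ p`. -/
noncomputable def kkvO (m : X → X → ℝ) (pp : ScL2 (F × J) →L[ℂ] ScL2 (F × J)) :
    ScL2 (F × (X × J)) →L[ℂ] ScL2 (F × (X × J)) :=
  kkTens (fun v v' => (m v v' : ℂ)) pp

/-- the upper band `v v* ⊗ p` of the local model. -/
noncomputable def kkvE (V : X → ℝ) (pp : ScL2 (F × J) →L[ℂ] ScL2 (F × J)) :
    ScL2 (F × (X × J)) →L[ℂ] ScL2 (F × (X × J)) :=
  kkTens (fun v v' => (V v : ℂ) * conj (V v' : ℂ)) pp

theorem KkvModel.suppM (Mo : KkvModel S m V χ) : KkSupp (fun v v' => (m v v' : ℂ)) S := by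
  intro v v' h
  simp only
  rw [Mo.supp v v' h, Complex.ofReal_zero]

theorem KkvModel.suppE (Mo : KkvModel S m V χ) :
    KkSupp (fun v v' => (V v : ℂ) * conj (V v' : ℂ)) S := by
  intro v v' h
  simp only
  by_cases h1 : v ∈ S
  · have h2 : v' ∉ S := fun h2 => h ⟨h1, h2⟩
    rw [Mo.vsupp v' h2]; simp
  · rw [Mo.vsupp v h1]; simp

variable (pp : ScL2 (F × J) →L[ℂ] ScL2 (F × J))

/-- the compressed slices. -/
noncomputable def kkvEta (ξ : ScL2 (F × (X × J))) (v : X) : ScL2 (F × J) := pp (kkSl v ξ)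

/-- the coefficient of the upper band. -/
noncomputable def kkvZeta (S : Finset X) (V : X → ℝ) (ξ : ScL2 (F × (X × J))) : ScL2 (F × J) :=
  ∑ v ∈ S, (V v : ℂ) • kkvEta pp ξ v

theorem KkvModel.O_slice (Mo : KkvModel S m V χ) (ξ : ScL2 (F × (X × J))) (v : X) :
    kkSl v (kkvO m pp ξ) = ∑ v' ∈ S, (m v v' : ℂ) • kkvEta pp ξ v' :=
  kkTens_sliceForm _ S Mo.suppM pp ξ v

theorem KkvModel.E_slice (Mo : KkvModel S m V χ) (ξ : ScL2 (F × (X × J))) (v : X) :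
    kkSl v (kkvE V pp ξ) = (V v : ℂ) • kkvZeta pp S V ξ := by
  rw [kkvE, kkTens_sliceForm _ S Mo.suppE pp ξ v, kkvZeta, Finset.smul_sum]
  refine Finset.sum_congr rfl fun v' _ => ?_
  show ((V v : ℂ) * conj (V v' : ℂ)) • pp (kkSl v' ξ) = _
  rw [Complex.conj_ofReal, mul_smul]
  rfl

theorem kkv_norm_sq_of_slices (ξ : ScL2 (F × (X × J))) (S : Finset X)
    (h : ∀ v, v ∉ S → kkSl v ξ = 0) : ‖ξ‖ ^ 2 = ∑ v ∈ S, ‖kkSl v ξ‖ ^ 2 := by
  have h1 := scSlice_hasSum_sq (kkE F X J) ξ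
  have h2 : HasSum (fun v => ‖kkSl v ξ‖ ^ 2) (∑ v ∈ S, ‖kkSl v ξ‖ ^ 2) :=
    hasSum_sum_of_ne_finset_zero fun v hv => by rw [h v hv]; simp
  exact h1.unique h2

theorem kkv_sum_slices_le (ξ : ScL2 (F × (X × J))) (S : Finset X) :
    ∑ v ∈ S, ‖kkSl v ξ‖ ^ 2 ≤ ‖ξ‖ ^ 2 :=
  sum_le_hasSum S (fun _ _ => by positivity) (scSlice_hasSum_sq (kkE F X J) ξ)

theorem KkvModel.E_norm_sq (Mo : KkvModel S m V χ) (ξ : ScL2 (F × (X × J))) :
    ‖kkvE V pp ξ‖ ^ 2 = ‖kkvZeta pp S V ξ‖ ^ 2 := by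
  rw [kkv_norm_sq_of_slices _ S (fun v hv => by rw [Mo.E_slice, Mo.vsupp v hv]; simp)]
  have : ∀ v ∈ S, ‖kkSl v (kkvE V pp ξ)‖ ^ 2 = V v ^ 2 * ‖kkvZeta pp S V ξ‖ ^ 2 := by
    intro v _
    rw [Mo.E_slice, norm_smul, mul_pow, Complex.norm_real, Real.norm_eq_abs, sq_abs]
  rw [Finset.sum_congr rfl this, ← Finset.sum_mul, Mo.unit, one_mul]

variable {pp}

theorem kkv_eta_sum_le (hp : IsStarProjection pp) (ξ : ScL2 (F × (X × J))) (S : Finset X) :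
    ∑ v ∈ S, ‖kkvEta pp ξ v‖ ^ 2 ≤ ‖ξ‖ ^ 2 := by
  refine le_trans (Finset.sum_le_sum fun v _ => ?_) (kkv_sum_slices_le ξ S)
  exact pow_le_pow_left₀ (norm_nonneg _) (spec_proj_norm_le hp _) 2

theorem kkv_proj_inner (hp : IsStarProjection pp) (a b : ScL2 (F × J)) :
    ⟪pp a, b⟫_ℂ = ⟪pp a, pp b⟫_ℂ := by
  have hs : ContinuousLinearMap.adjoint pp = pp := hp.isSelfAdjoint
  have hi : pp (pp a) = pp a := by
    have := congrArg (fun T : ScL2 (F × J) →L[ℂ] ScL2 (F × J) => T a) hp.isIdempotentElem.eq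
    simpa using this
  rw [← ContinuousLinearMap.adjoint_inner_left, hs, hi]

/-- **the form bound of the local model.** -/
theorem KkvModel.O_form (Mo : KkvModel S m V χ) (hχ1 : χ ≤ 1) (hp : IsStarProjection pp)
    (y : ScL2 (F × (X × J))) :
    (⟪kkvO m pp y, y⟫_ℂ).re ≤ (1 - χ) * ‖y‖ ^ 2 + χ * ‖kkvE V pp y‖ ^ 2 := by
  have h1 := scSlice_hasSum_inner (kkE F X J) (kkvO m pp y) y
  have h2 : HasSum (fun v => ⟪kkSl v (kkvO m pp y), kkSl v y⟫_ℂ)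
      (∑ v ∈ S, ⟪kkSl v (kkvO m pp y), kkSl v y⟫_ℂ) :=
    hasSum_sum_of_ne_finset_zero fun v hv => by
      rw [Mo.O_slice, Finset.sum_eq_zero, inner_zero_left]
      intro v' _
      rw [Mo.supp v v' (fun h => hv h.1)]; simp
  have h3 : ⟪kkvO m pp y, y⟫_ℂ =
      ∑ v ∈ S, ∑ v' ∈ S, (m v v' : ℂ) * ⟪kkvEta pp y v, kkvEta pp y v'⟫_ℂ := by
    rw [h1.unique h2, Finset.sum_comm]
    refine Finset.sum_congr rfl fun v _ => ?_
    rw [Mo.O_slice, sum_inner]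
    refine Finset.sum_congr rfl fun v' _ => ?_
    rw [inner_smul_left, Complex.conj_ofReal, Mo.symm v v']
    congr 1
    exact kkv_proj_inner hp _ _
  rw [h3, Mo.E_norm_sq]
  refine (kkv_form_lift S m V (1 - χ) χ Mo.form (kkvEta pp y)).trans ?_
  have h4 := kkv_eta_sum_le hp y S
  have : (1 - χ) * ∑ v ∈ S, ‖kkvEta pp y v‖ ^ 2 ≤ (1 - χ) * ‖y‖ ^ 2 :=
    mul_le_mul_of_nonneg_left h4 (by linarith)
  unfold kkvZeta
  linarith

/-- the local model has norm at most one. -/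
theorem KkvModel.O_norm_le (Mo : KkvModel S m V χ) (hp : IsStarProjection pp) :
    ‖(kkvO m pp : ScL2 (F × (X × J)) →L[ℂ] ScL2 (F × (X × J)))‖ ≤ 1 := by
  refine ContinuousLinearMap.opNorm_le_bound _ zero_le_one fun y => ?_
  rw [one_mul]
  refine abs_le_of_sq_le_sq' ?_ (norm_nonneg _) |>.2
  rw [kkv_norm_sq_of_slices _ S (fun v hv => by
    rw [Mo.O_slice, Finset.sum_eq_zero]
    intro v' _
    rw [Mo.supp v v' (fun h => hv h.1)]; simp)]
  simp only [Mo.O_slice]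
  exact (kkv_norm_lift S m Mo.norm (kkvEta pp y)).trans (kkv_eta_sum_le hp y S)

theorem KkvModel.E_isStarProjection (Mo : KkvModel S m V χ) (hp : IsStarProjection pp) :
    IsStarProjection (kkvE V pp : ScL2 (F × (X × J)) →L[ℂ] ScL2 (F × (X × J))) := by
  constructor
  · unfold IsIdempotentElem kkvE
    rw [kkTens_mul _ _ S Mo.suppE Mo.suppE, hp.isIdempotentElem.eq]
    congr 1
    funext v v'
    have : ∑ x ∈ S, (V v : ℂ) * conj (V x : ℂ) * ((V x : ℂ) * conj (V v' : ℂ)) =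
        (V v : ℂ) * conj (V v' : ℂ) * ((∑ x ∈ S, V x ^ 2 : ℝ) : ℂ) := by
      push_cast
      rw [Finset.mul_sum]
      refine Finset.sum_congr rfl fun x _ => ?_
      rw [Complex.conj_ofReal]
      ring
    rw [this, Mo.unit]
    simp
  · unfold IsSelfAdjoint kkvE
    rw [kkTens_star _ S Mo.suppE, hp.isSelfAdjoint.star_eq]
    congr 1
    funext v v'
    simp [mul_comm]

theorem KkvModel.O_mul_E (Mo : KkvModel S m V χ) (hp : IsStarProjection pp) :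
    (kkvO m pp * kkvE V pp : ScL2 (F × (X × J)) →L[ℂ] ScL2 (F × (X × J))) = kkvE V pp := by
  unfold kkvO kkvE
  rw [kkTens_mul _ _ S Mo.suppM Mo.suppE, hp.isIdempotentElem.eq]
  congr 1
  funext v v'
  have : ∑ x ∈ S, (m v x : ℂ) * ((V x : ℂ) * conj (V v' : ℂ)) =
      ((∑ x ∈ S, m v x * V x : ℝ) : ℂ) * conj (V v' : ℂ) := by
    push_cast
    rw [Finset.sum_mul]
    exact Finset.sum_congr rfl fun x _ => by ring
  rw [this, Mo.fix]

theorem KkvModel.O_fix (Mo : KkvModel S m V χ) (hp : IsStarProjection pp)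
    (x : ScL2 (F × (X × J))) (hx : kkvE V pp x = x) : kkvO m pp x = x := by
  have := congrArg (fun T : ScL2 (F × (X × J)) →L[ℂ] ScL2 (F × (X × J)) => T x) (Mo.O_mul_E hp)
  simp only [mul_apply_eq_comp, hx] at this
  exact this

open Classical in
/-- the upper band is almost supported on the surviving vertices. -/
theorem KkvModel.E_cut (Mo : KkvModel S m V χ) (keep : X → Prop) (β : ℝ)
    (hβ : ∑ v ∈ S, (if keep v then 0 else V v ^ 2) ≤ β)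
    (x : ScL2 (F × (X × J))) (hx : kkvE V pp x = x) :
    ‖x - scRestr {p : F × (X × J) | keep p.2.1} x‖ ≤ Real.sqrt β * ‖x‖ := by
  set ζ := kkvZeta pp S V x with hζ
  have hsl : ∀ v, kkSl v x = (V v : ℂ) • ζ := fun v => by
    rw [hζ, ← Mo.E_slice, hx]
  have h1 : ‖x‖ ^ 2 = ‖ζ‖ ^ 2 := by
    rw [hζ, ← Mo.E_norm_sq, hx]
  have hsl2 : ∀ v, kkSl v (x - scRestr {p : F × (X × J) | keep p.2.1} x) =
      if keep v then 0 else (V v : ℂ) • ζ := by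
    intro v
    rw [← hsl v]
    ext p
    by_cases hk : keep v
    · rw [if_pos hk]
      show x (p.1, (v, p.2)) - scRestr {p : F × (X × J) | keep p.2.1} x (p.1, (v, p.2)) = 0
      rw [scRestr_apply_mem _ (show (p.1, (v, p.2)) ∈ {p : F × (X × J) | keep p.2.1} from hk),
        sub_self]
    · rw [if_neg hk]
      show x (p.1, (v, p.2)) - scRestr {p : F × (X × J) | keep p.2.1} x (p.1, (v, p.2)) = _
      rw [scRestr_apply_not_mem _ (show (p.1, (v, p.2)) ∉ {p : F × (X × J) | keep p.2.1} from hk),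
        sub_zero]
      rfl
  have h2 : ‖x - scRestr {p : F × (X × J) | keep p.2.1} x‖ ^ 2 ≤ β * ‖x‖ ^ 2 := by
    rw [kkv_norm_sq_of_slices _ S (fun v hv => by
      rw [hsl2, Mo.vsupp v hv]; simp), h1]
    have : ∀ v ∈ S, ‖kkSl v (x - scRestr {p : F × (X × J) | keep p.2.1} x)‖ ^ 2 =
        (if keep v then 0 else V v ^ 2) * ‖ζ‖ ^ 2 := by
      intro v _
      rw [hsl2]
      by_cases hk : keep v
      · simp [hk]
      · simp only [hk, if_false]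
        rw [norm_smul, mul_pow, Complex.norm_real, Real.norm_eq_abs, sq_abs]
    rw [Finset.sum_congr rfl this, ← Finset.sum_mul]
    exact mul_le_mul_of_nonneg_right hβ (sq_nonneg _)
  have hβ0 : 0 ≤ β := le_trans (Finset.sum_nonneg fun v _ => by split_ifs <;> positivity) hβ
  refine abs_le_of_sq_le_sq' ?_ (by positivity) |>.2
  rw [mul_pow, Real.sq_sqrt hβ0]
  exact h2

theorem KkvModel.E_ne_zero (Mo : KkvModel S m V χ) (hpp : pp ≠ 0) :
    (kkvE V pp : ScL2 (F × (X × J)) →L[ℂ] ScL2 (F × (X × J))) ≠ 0 := by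
  classical
  intro h0
  obtain ⟨ξ, hξ⟩ : ∃ ξ, pp ξ ≠ 0 := by
    by_contra hc
    push Not at hc
    exact hpp (ContinuousLinearMap.ext hc)
  obtain ⟨v0, hv0, hV0⟩ : ∃ v0 ∈ S, V v0 ≠ 0 := by
    by_contra hc
    push Not at hc
    have := Mo.unit
    rw [Finset.sum_eq_zero fun v hv => by rw [hc v hv]; ring] at this
    exact zero_ne_one this
  have h1 := Mo.E_slice pp (kkIn v0 ξ) v0
  rw [h0] at h1
  have h2 : kkvZeta pp S V (kkIn v0 ξ) = (V v0 : ℂ) • pp ξ := by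
    unfold kkvZeta kkvEta
    rw [Finset.sum_eq_single v0]
    · rw [kkSl_in_same]
    · intro b _ hb
      rw [kkSl_in_ne hb, map_zero, smul_zero]
    · intro h; exact absurd hv0 h
  rw [h2, smul_smul] at h1
  have h3 : ((V v0 : ℂ) * (V v0 : ℂ)) • pp ξ = 0 := by
    rw [← h1]; simp
  rcases smul_eq_zero.1 h3 with h4 | h4
  · have : (V v0 : ℂ) = 0 := by simpa using h4
    exact hV0 (by exact_mod_cast this)
  · exact hξ h4

end model

end Claimed.Agent.R300
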