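/-
Row 300, KK Section 10, KKG-GLUE part 2b (owner helper47, prefix `kkv`).

Commutation relations: cut-offs in the index coordinate, sharp arcs of a central element, tensors
`M ⊗ B`, the cover operator `T_P`.
-/
import Claimed.Agent.R300.KkCovA

set_option autoImplicit false

namespace Claimed.Agent.R300

open scoped ENNReal ComplexConjugate InnerProductSpace

section cut

variable {F : Type} [Group F] {I : Type}

/-- cut-off in the index coordinate. -/
noncomputable def kkvCut (P : I → Prop) : ScL2 (F × I) →L[ℂ] ScL2 (F × I) :=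
  scRestr {x : F × I | P x.2}

theorem kkvCut_apply (P : I → Prop) [DecidablePred P] (ξ : ScL2 (F × I)) (x : F × I) :
    kkvCut P ξ x = if P x.2 then ξ x else 0 := by
  unfold kkvCut
  by_cases h : P x.2
  · rw [if_pos h, scRestr_apply_mem _ (show x ∈ {x : F × I | P x.2} from h)]
  · rw [if_neg h, scRestr_apply_not_mem _ (show x ∉ {x : F × I | P x.2} from h)]

theorem kkvCut_lam (P : I → Prop) (g : F) : Commute (kkvCut P) (smpLam g : ScL2 (F × I) →L[ℂ] _) := by
  classical
  ext ξ x
  show kkvCut P (smpLam g ξ) x = smpLam g (kkvCut P ξ) x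
  rw [smpConv_lam_apply, kkvCut_apply, kkvCut_apply, smpConv_lam_apply]

theorem kkvCut_rho (P : I → Prop) (g : F) :
    Commute (specRho g : ScL2 (F × I) →L[ℂ] _) (kkvCut P) := by
  classical
  ext ξ x
  show specRho g (kkvCut P ξ) x = kkvCut P (specRho g ξ) x
  rw [specRho_apply, kkvCut_apply, kkvCut_apply, specRho_apply]

theorem kkvCut_isStarProjection (P : I → Prop) :
    IsStarProjection (kkvCut P : ScL2 (F × I) →L[ℂ] _) :=
  spec_restr_isStarProjection _

variable (z₀ : F)

/-- an operator commuting with `λ(z₀)` and `λ(z₀⁻¹)` commutes with the sharp arcs. -/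
theorem kkv_arc_commute (S : Set UnitAddCircle) {b : ScL2 (F × I) →L[ℂ] ScL2 (F × I)}
    (h1 : Commute b (smpLam z₀)) (h2 : Commute b (smpLam z₀⁻¹)) :
    Commute b (kkArc (kkU I z₀) S) := by
  apply kkArc_commute
  · exact h1
  · show Commute b (star (smpLam z₀))
    rw [smpLam_star]
    exact h2

theorem kkv_arc_cut (S : Set UnitAddCircle) (P : I → Prop) :
    Commute (kkArc (kkU I z₀) S) (kkvCut P) :=
  (kkv_arc_commute z₀ S (kkvCut_lam P z₀) (kkvCut_lam P z₀⁻¹)).symm

theorem kkv_arc_rho (S : Set UnitAddCircle) (g : F) :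
    Commute (specRho g) (kkArc (kkU I z₀) S) :=
  kkv_arc_commute z₀ S (smpLam_rho_comm z₀ g).symm (smpLam_rho_comm z₀⁻¹ g).symm

theorem kkv_arc_lconv (S : Set UnitAddCircle) (hz : ∀ g, z₀ * g = g * z₀) {c : I → I → F → ℂ} {R : ℝ}
    (h : SmpCoefBd c R) : Commute (kkArc (kkU I z₀) S) (smpLConv c) := by
  refine (kkv_arc_commute z₀ S (smpLConv_lam_comm h z₀ hz) (smpLConv_lam_comm h z₀⁻¹ ?_)).symm
  intro g
  have := hz g
  rw [inv_mul_eq_iff_eq_mul, ← mul_assoc, this, mul_assoc, mul_inv_cancel, mul_one]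

end cut

section tens

variable {F X J : Type} [Group F] {S : Finset X} {M : X → X → ℂ}

theorem kkv_tens_rho (hM : KkSupp M S) {B : ScL2 (F × J) →L[ℂ] ScL2 (F × J)} (g : F)
    (hB : Commute B (specRho g)) : Commute (specRho g) (kkTens M B) := by
  show specRho g * kkTens M B = kkTens M B * specRho g
  rw [← kkAmpHom_rho (V := X) (J := J) g, (kkTens_mul_amp M S hM B (specRho g)).1,
    (kkTens_mul_amp M S hM B (specRho g)).2, hB.eq]

variable (z₀ : F)

theorem kkv_tens_arc_right (hM : KkSupp M S) {B : ScL2 (F × J) →L[ℂ] ScL2 (F × J)}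
    (T : Set UnitAddCircle) (hB : B * kkArc (kkU J z₀) T = B) :
    kkTens M B * kkArc (kkU (X × J) z₀) T = kkTens M B := by
  rw [← kkAmpHom_arc (V := X) (J := J) z₀ T, (kkTens_mul_amp M S hM B _).1, hB]

theorem kkv_tens_arc_left (hM : KkSupp M S) {B : ScL2 (F × J) →L[ℂ] ScL2 (F × J)}
    (T : Set UnitAddCircle) (hB : kkArc (kkU J z₀) T * B = B) :
    kkArc (kkU (X × J) z₀) T * kkTens M B = kkTens M B := by
  rw [← kkAmpHom_arc (V := X) (J := J) z₀ T, (kkTens_mul_amp M S hM B _).2, hB]

/-- absorbing on the right implies absorbing on the left, for projections. -/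
theorem kkv_absorb_left {H : Type*} [NormedAddCommGroup H] [InnerProductSpace ℂ H] [CompleteSpace H]
    {p q : H →L[ℂ] H} (hp : IsStarProjection p) (hq : IsStarProjection q) (h : p * q = p) :
    q * p = p := by
  have := congrArg star h
  rwa [star_mul, hp.isSelfAdjoint.star_eq, hq.isSelfAdjoint.star_eq] at this

end tens

end Claimed.Agent.R300
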