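/-
Row 300, KK Section 10, KKG-GLUE part 2c (owner helper47, prefix `kkv`).

The tower graph: the finite model of an arc, band structure of the model matrix and of the coefficients
of `T_P`, symmetry of `T_P`, the layer weights.
-/
import Claimed.Agent.R300.KkCovB

set_option autoImplicit false

namespace Claimed.Agent.R300

open scoped ENNReal ComplexConjugate InnerProductSpace

namespace KkGraph

variable {ℓ : ℕ} (Y : KkGraph ℓ)

/-- the finite model of an arc. -/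
theorem kkv_model (hℓ : 0 < ℓ) {χ : ℝ} (hχ0 : 0 ≤ χ) (hχ1 : χ ≤ 1) (hG : Y.Gap χ) {h : ℤ → ℝ} {j : ℤ}
    (H : KkmH h j) : KkvModel (Y.fS j) (Y.mm h) (Y.vv h) χ where
  supp := fun _ _ hv => Y.mm_supp H hv
  vsupp := fun _ hv => Y.vv_supp H hv
  symm := Y.mm_symm h
  fix := Y.mm_fix hℓ H
  unit := Y.vv_norm H
  form := Y.mm_form hℓ hχ0 hχ1 hG H
  norm := Y.mm_norm hℓ H

theorem kkv_mm_band (h : ℤ → ℝ) {v v' : Y.V0} (hb : 1 < |Y.lay v - Y.lay v'|) : Y.mm h v v' = 0 := by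
  unfold mm
  rw [Y.uu_eq_zero (fun hc => absurd hc.2.2 (not_le.2 hb)),
    Y.uu_eq_zero (fun hc => absurd hc.2.2 (not_le.2 (by rwa [abs_sub_comm]))), add_zero, mul_zero]

theorem kkv_mm_row (h : ℤ → ℝ) {v : Y.V0} (h0 : h (Y.lay v) = 0) (v' : Y.V0) : Y.mm h v v' = 0 := by
  unfold mm
  rw [h0, zero_mul, zero_mul]

theorem kkv_tens_eq {F J : Type} (h : ℤ → ℝ) (pp : ScL2 (F × J) →L[ℂ] ScL2 (F × J)) :
    kkTens (Y.modelM h) pp = kkvO (Y.mm h) pp := by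
  unfold kkvO
  congr 1
  funext v v'
  exact Y.modelM_eq h v v'

variable {F J : Type} [Group F]

theorem kkv_coef_symm (z : Y.E0 → F) (W : Y.E0 → Matrix J J ℂ) (a b : Y.V0 × J) (g : F) :
    conj (Y.coef z W b a g⁻¹) = Y.coef z W a b g := by
  classical
  unfold coef
  rw [Complex.conj_tsum]
  refine tsum_congr fun e => ?_
  rw [map_add, add_comm]
  congr 1
  · by_cases hc : Y.src e = a.1 ∧ Y.tgt e = b.1 ∧ Y.keepE e ∧ z e = g
    · rw [if_pos hc, if_pos ⟨hc.2.1, hc.1, hc.2.2.1, by rw [hc.2.2.2]⟩]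
      simp
    · rw [if_neg hc, if_neg (fun h => hc ⟨h.2.1, h.1, h.2.2.1, inv_injective h.2.2.2⟩), map_zero]
  · by_cases hc : Y.tgt e = a.1 ∧ Y.src e = b.1 ∧ Y.keepE e ∧ (z e)⁻¹ = g
    · rw [if_pos hc, if_pos ⟨hc.2.1, hc.1, hc.2.2.1, by rw [← hc.2.2.2, inv_inv]⟩]
      simp
    · rw [if_neg hc, if_neg (fun h => hc ⟨h.2.1, h.1, h.2.2.1, by rw [h.2.2.2, inv_inv]⟩), map_zero]

theorem kkv_coef_band (z : Y.E0 → F) (W : Y.E0 → Matrix J J ℂ) {a b : Y.V0 × J}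
    (hb : 1 < |Y.lay a.1 - Y.lay b.1|) (g : F) : Y.coef z W a b g = 0 := by
  classical
  unfold coef
  rw [tsum_congr (g := fun _ => 0), tsum_zero]
  intro e
  rw [if_neg, if_neg, add_zero]
  · rintro ⟨h1, h2, -⟩
    have := Y.band e
    rw [h1, h2, abs_sub_comm] at this
    exact absurd this (not_le.2 hb)
  · rintro ⟨h1, h2, -⟩
    have := Y.band e
    rw [h1, h2] at this
    exact absurd this (not_le.2 hb)

theorem kkv_TP_isSelfAdjoint (z : Y.E0 → F) (W : Y.E0 → Matrix J J ℂ) {R : ℝ}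
    (hbd : SmpCoefBd (Y.coef z W) R) : IsSelfAdjoint (Y.TP z W) := by
  unfold IsSelfAdjoint TP
  rw [smpLConv_star hbd]
  congr 1
  funext a b g
  exact Y.kkv_coef_symm z W a b g

theorem kkv_TP_band (z : Y.E0 → F) (W : Y.E0 → Matrix J J ℂ) {R : ℝ}
    (hbd : SmpCoefBd (Y.coef z W) R) (x y : F × (Y.V0 × J))
    (hb : 1 < |Y.lay x.2.1 - Y.lay y.2.1|) : Y.TP z W (scDelta y) x = 0 := by
  unfold TP
  rw [hbd.lhasKer]
  exact Y.kkv_coef_band z W hb _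

end KkGraph

/-- the layer weights. -/
theorem kkv_weight (Cbul ℓ : ℕ) (i j : ℤ) :
    (2 : ℝ) ^ (Cbul * kkH ℓ i) ≤ 2 ^ (Cbul * kkH ℓ j) * ((2 : ℝ) ^ Cbul) ^ (i - j).natAbs := by
  rw [← pow_mul, ← pow_add]
  refine pow_le_pow_right₀ (by norm_num) ?_
  rw [← Nat.mul_add]
  refine Nat.mul_le_mul_left _ ?_
  unfold kkH
  omega

end Claimed.Agent.R300
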