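/-
Row 300, KK Section 10, KKG-GLUE part 2d (owner helper47, prefix `kkv`).

The instance of `SpecCoverData` (Theorem A, cover half) for the voltage cover of the tower graph, from the
export `kk_cover_local` of Sections 8-9, the gap and the deleted fraction of the tower; its conclusions.
-/
import Claimed.Agent.R300.KkCovC

set_option autoImplicit false

namespace Claimed.Agent.R300

open scoped ENNReal ComplexConjugate InnerProductSpace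

/-- the central layer of a frozen profile. -/
noncomputable def kkvCtr (hh : ℤ → ℝ) : ℤ :=
  Classical.epsilon fun c => hh c ≠ 0 ∧ ∀ i, hh i ≠ 0 → |i - c| ≤ 1

theorem kkvCtr_spec {hh : ℤ → ℝ} {j : ℤ} (H : KkmH hh j) :
    hh (kkvCtr hh) ≠ 0 ∧ ∀ i, hh i ≠ 0 → |i - kkvCtr hh| ≤ 1 := by
  apply Classical.epsilon_spec (p := fun c => hh c ≠ 0 ∧ ∀ i, hh i ≠ 0 → |i - c| ≤ 1)
  by_cases h0 : hh j = 0
  · refine ⟨j + 1, ?_, ?_⟩
    · intro h1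
      have := H.unit
      rw [h0, h1] at this
      norm_num at this
    · intro i hi
      rcases mem_kkmI.1 (H.mem_of_ne hi) with rfl | rfl
      · exact absurd h0 hi
      · simp
  · refine ⟨j, h0, ?_⟩
    intro i hi
    rcases mem_kkmI.1 (H.mem_of_ne hi) with rfl | rfl <;> simp

/-- The input of the cover half of Theorem A. -/
structure KkvIn {ℓ : ℕ} (Y : KkGraph ℓ) {F J 𝔄 : Type} [Group F] (z₀ : F) (z : Y.E0 → F)
    (W : Y.E0 → Matrix J J ℂ) (A : KkArcData F J 𝔄) (Cbul : ℕ) (χ β ε η μ₀ : ℝ) : Prop where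
  hℓ : 0 < ℓ
  cen : ∀ g, z₀ * g = g * z₀
  inj : Function.Injective fun n : ℤ => z₀ ^ n
  bd : ∃ R, SmpCoefBd (Y.coef z W) R
  good : A.Good z₀
  gap : Y.Gap χ
  del : Y.Del β
  loc : ∀ α, ‖(Y.TP z W - Y.PiOp _ _ * kkTens (Y.modelM (A.hh α)) (A.pp α) * Y.PiOp _ _)
    * A.Q z₀ _ α‖ ≤ η
  tr : ∀ α i, A.hh α i ≠ 0 → ENNReal.ofReal (2 ^ (Cbul * kkH ℓ i)) * specHS (A.pp α)
    ≤ ENNReal.ofReal (μ₀ * (A.hi α - A.lo α))
  hχ0 : 0 < χ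
  hχ1 : χ ≤ 1
  hη0 : 0 ≤ η
  hη1 : η ≤ 1
  hε0 : 0 ≤ ε
  hβε : β ≤ ε ^ 2
  hμ : 0 ≤ μ₀
  hgap : 1 - χ + η < 1 - 4 * ε - 2 * ε ^ 2 - η
  hθ : (2 : ℝ) ^ Cbul * (η / (1 - 4 * ε - 2 * ε ^ 2 - η)) ^ 2 ≤ 1 / 2

namespace KkvIn

variable {ℓ : ℕ} {Y : KkGraph ℓ} {F J 𝔄 : Type} [Group F] {z₀ : F} {z : Y.E0 → F}
  {W : Y.E0 → Matrix J J ℂ} {A : KkArcData F J 𝔄} {Cbul : ℕ} {χ β ε η μ₀ : ℝ}
  (h : KkvIn Y z₀ z W A Cbul χ β ε η μ₀)

include h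

theorem exists_H (α : 𝔄) : ∃ j, KkmH (A.hh α) j := by
  obtain ⟨j, h1, h2⟩ := h.good.hh_two α
  exact ⟨j, ⟨h.good.hh_nonneg α, h1, h2⟩⟩

theorem exists_model (α : 𝔄) : ∃ j, KkmH (A.hh α) j ∧
    KkvModel (Y.fS j) (Y.mm (A.hh α)) (Y.vv (A.hh α)) χ := by
  obtain ⟨j, H⟩ := h.exists_H α
  exact ⟨j, H, Y.kkv_model h.hℓ h.hχ0.le h.hχ1 h.gap H⟩

theorem arc_pp (α : 𝔄) : A.Q z₀ J α * A.pp α = A.pp α :=
  kkv_absorb_left (h.good.pp_proj α) (kkArc_isStarProjection _ _) (h.good.pp_arc α)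

theorem O_arc (α : 𝔄) : kkvO (Y.mm (A.hh α)) (A.pp α) * A.Q z₀ (Y.V0 × J) α
    = kkvO (Y.mm (A.hh α)) (A.pp α) := by
  obtain ⟨j, -, Mo⟩ := h.exists_model α
  exact kkv_tens_arc_right z₀ Mo.suppM _ (h.good.pp_arc α)

theorem arc_O (α : 𝔄) : A.Q z₀ (Y.V0 × J) α * kkvO (Y.mm (A.hh α)) (A.pp α)
    = kkvO (Y.mm (A.hh α)) (A.pp α) := by
  obtain ⟨j, -, Mo⟩ := h.exists_model α
  exact kkv_tens_arc_left z₀ Mo.suppM _ (h.arc_pp α)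

theorem arc_E (α : 𝔄) : A.Q z₀ (Y.V0 × J) α * kkvE (Y.vv (A.hh α)) (A.pp α)
    = kkvE (Y.vv (A.hh α)) (A.pp α) := by
  obtain ⟨j, -, Mo⟩ := h.exists_model α
  exact kkv_tens_arc_left z₀ Mo.suppE _ (h.arc_pp α)

omit h in
theorem arc_Pi (α : 𝔄) : Commute (A.Q z₀ (Y.V0 × J) α) (Y.PiOp F J) :=
  kkv_arc_cut z₀ _ (fun ι : Y.V0 × J => Y.keep ι.1)

theorem arc_comp (α : 𝔄) : Commute (A.Q z₀ (Y.V0 × J) α)
    (Y.PiOp F J * kkvO (Y.mm (A.hh α)) (A.pp α) * Y.PiOp F J) := by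
  have h1 : Commute (A.Q z₀ (Y.V0 × J) α) (kkvO (Y.mm (A.hh α)) (A.pp α)) := by
    show _ * _ = _ * _
    rw [h.arc_O, h.O_arc]
  exact ((arc_Pi α).mul_right h1).mul_right (arc_Pi α)

theorem comp_arc (α : 𝔄) :
    Y.PiOp F J * kkvO (Y.mm (A.hh α)) (A.pp α) * Y.PiOp F J * A.Q z₀ (Y.V0 × J) α
      = Y.PiOp F J * kkvO (Y.mm (A.hh α)) (A.pp α) * Y.PiOp F J := by
  rw [mul_assoc, ← (arc_Pi α).eq, ← mul_assoc, mul_assoc (Y.PiOp F J), h.O_arc]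

theorem width (α : 𝔄) (x y : F × (Y.V0 × J)) (hb : 1 < |Y.lay x.2.1 - Y.lay y.2.1|) :
    (Y.TP z W - Y.PiOp F J * kkvO (Y.mm (A.hh α)) (A.pp α) * Y.PiOp F J) (scDelta y) x = 0 := by
  classical
  obtain ⟨R, hR⟩ := h.bd
  obtain ⟨j, -, Mo⟩ := h.exists_model α
  have h1 := Y.kkv_TP_band z W hR x y hb
  have h2 := ((kkTens_hasKer _ _ Mo.suppM (A.pp α)).restr {x : F × (Y.V0 × J) | Y.keep x.2.1}
    {x : F × (Y.V0 × J) | Y.keep x.2.1}) x y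
  have h3 : (Y.PiOp F J * kkvO (Y.mm (A.hh α)) (A.pp α) * Y.PiOp F J) (scDelta y) x = 0 := by
    refine Eq.trans h2 ?_
    beta_reduce
    split_ifs
    · simp only [kkTensK]
      rw [Y.kkv_mm_band _ hb]
      simp
    · rfl
  rw [sub_apply]
  show Y.TP z W (scDelta y) x - _ = 0
  rw [h1, h3, sub_zero]

theorem act (α : 𝔄) (x y : F × (Y.V0 × J)) (hb : 2 ≤ |Y.lay x.2.1 - kkvCtr (A.hh α)|) :
    (Y.PiOp F J * kkvO (Y.mm (A.hh α)) (A.pp α) * Y.PiOp F J * A.Q z₀ (Y.V0 × J) α) (scDelta y) x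
      = 0 := by
  classical
  obtain ⟨j, H, Mo⟩ := h.exists_model α
  have h0 : A.hh α (Y.lay x.2.1) = 0 := by
    by_contra hc
    have := (kkvCtr_spec H).2 _ hc
    omega
  set ξ := Y.PiOp F J (A.Q z₀ (Y.V0 × J) α (scDelta y)) with hξ
  show kkvCut (fun ι : Y.V0 × J => Y.keep ι.1) (kkvO (Y.mm (A.hh α)) (A.pp α) ξ) x = 0
  rw [kkvCut_apply]
  split_ifs
  · have h1 : kkvO (Y.mm (A.hh α)) (A.pp α) ξ x
        = kkSl x.2.1 (kkvO (Y.mm (A.hh α)) (A.pp α) ξ) (x.1, x.2.2) := rfl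
    rw [h1, Mo.O_slice, Finset.sum_eq_zero]
    · rfl
    · intro v' _
      rw [Y.kkv_mm_row _ h0]
      simp
  · rfl

theorem trace (α : 𝔄) : ENNReal.ofReal (2 ^ (Cbul * kkH ℓ (kkvCtr (A.hh α))))
      * specHS (A.Q z₀ (Y.V0 × J) α * kkvE (Y.vv (A.hh α)) (A.pp α))
    ≤ ENNReal.ofReal μ₀ * ENNReal.ofReal (A.hi α - A.lo α) := by
  obtain ⟨j, H, Mo⟩ := h.exists_model α
  rw [h.arc_E, kkvE, specHS_kkTens _ _ Mo.suppE, ← ENNReal.ofReal_mul h.hμ]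
  have h1 : ∑ v ∈ Y.fS j, ∑ v' ∈ Y.fS j,
      ‖(Y.vv (A.hh α) v : ℂ) * conj (Y.vv (A.hh α) v' : ℂ)‖ ^ 2 = 1 := by
    have : ∀ v v', ‖(Y.vv (A.hh α) v : ℂ) * conj (Y.vv (A.hh α) v' : ℂ)‖ ^ 2
        = Y.vv (A.hh α) v ^ 2 * Y.vv (A.hh α) v' ^ 2 := by
      intro v v'
      rw [norm_mul, mul_pow, RCLike.norm_conj, Complex.norm_real, Complex.norm_real,
        Real.norm_eq_abs, Real.norm_eq_abs, sq_abs, sq_abs]
    simp only [this]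
    simp only [← Finset.mul_sum, Mo.unit, mul_one]
  rw [h1, ENNReal.ofReal_one, one_mul]
  exact h.tr α _ (kkvCtr_spec H).1

theorem mass : ∑' α, ENNReal.ofReal (A.hi α - A.lo α) ≤ 1 := by
  rw [← ENNReal.ofReal_tsum_of_nonneg (fun α => sub_nonneg.2 (h.good.lo_le α))
    h.good.len.summable, h.good.len.tsum_eq, ENNReal.ofReal_one]

theorem cut (α : 𝔄) (x : ScL2 (F × (Y.V0 × J))) (hx : kkvE (Y.vv (A.hh α)) (A.pp α) x = x) :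
    ‖x - Y.PiOp F J x‖ ≤ ε * ‖x‖ := by
  obtain ⟨j, H, Mo⟩ := h.exists_model α
  refine (Mo.E_cut Y.keep β (Y.vv_del h.del H) x hx).trans ?_
  refine mul_le_mul_of_nonneg_right ?_ (norm_nonneg _)
  exact (Real.sqrt_le_sqrt h.hβε).trans (le_of_eq (Real.sqrt_sq h.hε0))

theorem eps_lt : ε < 1 := by
  have h1 := h.hgap
  have h2 := h.hχ1
  have h3 := h.hη0
  have h4 := h.hε0
  nlinarith [sq_nonneg ε]

/-- **The instance of Theorem A (cover half).** -/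
noncomputable def data : SpecCoverData F (Y.V0 × J) 𝔄 where
  lay := fun ι => Y.lay ι.1
  U := Set.range fun g : F => (specRho g : ScL2 (F × (Y.V0 × J)) →L[ℂ] ScL2 (F × (Y.V0 × J)))
  TP := Y.TP z W
  Pi := Y.PiOp F J
  O := fun α => kkvO (Y.mm (A.hh α)) (A.pp α)
  Es := fun α => kkvE (Y.vv (A.hh α)) (A.pp α)
  cc := fun α => A.Q z₀ (Y.V0 × J) α
  Pc := fun α => A.Q z₀ (Y.V0 × J) α
  ctr := fun α => kkvCtr (A.hh α)
  w := fun i => 2 ^ (Cbul * kkH ℓ i)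
  mm := fun α => ENNReal.ofReal (A.hi α - A.lo α)
  χ := χ
  η := η
  ε := ε
  K := 2 ^ Cbul
  μ := μ₀
  hU := fun X hX => specHS_star fun g => (hX _ ⟨g, rfl⟩).eq
  hUlay := by
    rintro _ ⟨g, rfl⟩ B
    exact kkvCut_rho (fun ι : Y.V0 × J => Y.lay ι.1 ∈ B) g
  hTP := by
    obtain ⟨R, hR⟩ := h.bd
    exact Y.kkv_TP_isSelfAdjoint z W hR
  hTPU := by
    obtain ⟨R, hR⟩ := h.bd
    rintro _ ⟨g, rfl⟩
    exact (smpLConv_rho_comm hR g).symm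
  hPi := spec_restr_isStarProjection _
  hPiU := by
    rintro _ ⟨g, rfl⟩
    exact kkvCut_rho (fun ι : Y.V0 × J => Y.keep ι.1) g
  hEs := fun α => by
    obtain ⟨j, -, Mo⟩ := h.exists_model α
    exact Mo.E_isStarProjection (h.good.pp_proj α)
  hEsU := fun α => by
    obtain ⟨j, -, Mo⟩ := h.exists_model α
    rintro _ ⟨g, rfl⟩
    exact kkv_tens_rho Mo.suppE g (h.good.pp_rho α g)
  hcc := fun α => (kkArc_isStarProjection _ _).isSelfAdjoint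
  hccU := fun α => by
    rintro _ ⟨g, rfl⟩
    exact kkv_arc_rho z₀ _ g
  hccT := fun α => by
    obtain ⟨R, hR⟩ := h.bd
    exact kkv_arc_lconv z₀ _ h.cen hR
  hccPi := fun α => arc_Pi α
  hccO := h.arc_comp
  hpart := (kk_res_of_arcs z₀ h.inj A.lo A.hi 0 h.good.lo_le
    (fun α => ⟨(h.good.unit α).1, by rw [zero_add]; exact (h.good.unit α).2⟩)
    h.good.disj h.good.len).total
  hPc := fun α => kkArc_isStarProjection _ _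
  hPcT := fun α => by
    obtain ⟨R, hR⟩ := h.bd
    exact kkv_arc_lconv z₀ _ h.cen hR
  hPcc := fun α => (kkArc_isStarProjection _ _).isIdempotentElem.eq
  hOPc := h.comp_arc
  hform := fun α y => by
    obtain ⟨j, -, Mo⟩ := h.exists_model α
    exact Mo.O_form h.hχ1 (h.good.pp_proj α) y
  hnorm := fun α => by
    obtain ⟨j, -, Mo⟩ := h.exists_model α
    exact Mo.O_norm_le (h.good.pp_proj α)
  hfix := fun α x hx => by
    obtain ⟨j, -, Mo⟩ := h.exists_model α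
    exact Mo.O_fix (h.good.pp_proj α) x hx
  hcut := h.cut
  hη := fun α => by
    have := h.loc α
    rwa [Y.kkv_tens_eq] at this
  hwidth := h.width
  hact := h.act
  hw := fun i => by positivity
  hwK := kkv_weight Cbul ℓ
  htr := h.trace
  hmm := h.mass
  hχ0 := h.hχ0
  hχ1 := h.hχ1
  hη0 := h.hη0
  hη1 := h.hη1
  hε0 := h.hε0
  hε1 := h.eps_lt
  hK := by positivity
  hμ := h.hμ
  hgap := h.hgap
  hθ := h.hθ

/-- **Theorem A, cover half, for the voltage cover of the tower.** -/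
theorem main (hne : ∃ α, A.pp α ≠ 0) :
    ∃ EP : ScL2 (F × (Y.V0 × J)) →L[ℂ] ScL2 (F × (Y.V0 × J)),
      IsStarProjection EP ∧ EP ≠ 0 ∧ (∀ B, Commute (Y.TP z W) B → Commute EP B) ∧
      ‖Y.TP z W‖ ≤ 2 ∧
      (∀ x, EP x = x → ‖Y.TP z W x - x‖ ≤ (4 * ε + 2 * ε ^ 2 + η) * ‖x‖) ∧
      (∀ y, (⟪Y.TP z W y, y⟫_ℂ).re ≤ (1 - χ + η) * ‖y‖ ^ 2 + χ * ‖EP y‖ ^ 2) ∧
      ∑' ι : Y.V0 × J, ENNReal.ofReal (2 ^ (Cbul * kkH ℓ (Y.lay ι.1)))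
          * ENNReal.ofReal (‖EP (scDelta ((1 : F), ι))‖ ^ 2)
        ≤ ENNReal.ofReal ((1 + 4 * 2 ^ Cbul) * (χ / (χ - 4 * ε - 2 * ε ^ 2 - 2 * η)) * μ₀) := by
  have hE : ∃ α, h.data.Es α ≠ 0 := by
    obtain ⟨α, hα⟩ := hne
    obtain ⟨j, -, Mo⟩ := h.exists_model α
    exact ⟨α, Mo.E_ne_zero hα⟩
  obtain ⟨-, -, h3, h4, h5, h6, h7, h8, h9⟩ := h.data.main hE
  refine ⟨h.data.EP, h4, h5, h6, h3, h7, h8, ?_⟩
  have e : χ - 4 * ε - 2 * ε ^ 2 - 2 * η = h.data.κ := by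
    show _ = (1 - 4 * ε - 2 * ε ^ 2 - η) - (1 - χ + η)
    ring
  rw [e]
  exact h9

end KkvIn

end Claimed.Agent.R300
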