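/-
Row 300, KK Section 10, KKG-GLUE part 2e (owner helper47, prefix `kkv`).

Theorem A (cover half) for the deck group `Deck m ℤ` with its central generator `z0`: the statement consumed by
the final assembly.  Input: the conclusions of `kk_cover_local`, the gap and the deleted fraction of the tower.
-/
import Claimed.Agent.R300.KkCovD
import Claimed.Agent.R300.KkRzCoefBd

set_option autoImplicit false

namespace Claimed.Agent.R300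

open Nil
open scoped ENNReal ComplexConjugate InnerProductSpace Matrix.Norms.L2Operator

theorem kkv_z0_cen {m : ℕ} (g : Deck m ℤ) : Deck.z0 * g = g * Deck.z0 := Deck.cen_comm 1 g

theorem kkv_z0_inj {m : ℕ} : Function.Injective fun n : ℤ => (Deck.z0 : Deck m ℤ) ^ n := by
  intro a b hab
  simp only [Deck.z0_zpow] at hab
  exact congrArg Deck.z hab

/-- **Theorem A, cover half** (explicit constants). -/
theorem kkv_cover_deck {ℓ m : ℕ} (hℓ : 0 < ℓ) (Y : KkGraph ℓ) {J 𝔄 : Type} [Fintype J] [DecidableEq J]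
    (z : Y.E0 → Deck m ℤ) (W : Y.E0 → Matrix J J ℂ) (A : KkArcData (Deck m ℤ) J 𝔄) (Cbul : ℕ)
    (χ β ε η μ₀ Cw : ℝ) (hCw : 0 ≤ Cw) (hW : ∀ e, ‖W e‖ ≤ Cw)
    (good : A.Good Deck.z0) (gap : Y.Gap χ) (del : Y.Del β)
    (loc : ∀ α, ‖(Y.TP z W - Y.PiOp _ _ * kkTens (Y.modelM (A.hh α)) (A.pp α) * Y.PiOp _ _)
      * A.Q Deck.z0 _ α‖ ≤ η)
    (tr : ∀ α i, A.hh α i ≠ 0 → ENNReal.ofReal (2 ^ (Cbul * kkH ℓ i)) * specHS (A.pp α)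
      ≤ ENNReal.ofReal (μ₀ * (A.hi α - A.lo α)))
    (hne : ∃ α, A.pp α ≠ 0)
    (hχ0 : 0 < χ) (hχ1 : χ ≤ 1) (hη0 : 0 ≤ η) (hη1 : η ≤ 1) (hε0 : 0 ≤ ε) (hβε : β ≤ ε ^ 2)
    (hμ : 0 ≤ μ₀) (hgap : 1 - χ + η < 1 - 4 * ε - 2 * ε ^ 2 - η)
    (hθ : (2 : ℝ) ^ Cbul * (η / (1 - 4 * ε - 2 * ε ^ 2 - η)) ^ 2 ≤ 1 / 2) :
    SmpHasKer (Y.TP z W) (smpLConvK (Y.coef z W)) ∧ IsSelfAdjoint (Y.TP z W) ∧
    ∃ EP : ScL2 (Deck m ℤ × (Y.V0 × J)) →L[ℂ] ScL2 (Deck m ℤ × (Y.V0 × J)),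
      IsStarProjection EP ∧ EP ≠ 0 ∧ (∀ B, Commute (Y.TP z W) B → Commute EP B) ∧
      ‖Y.TP z W‖ ≤ 2 ∧
      (∀ x, EP x = x → ‖Y.TP z W x - x‖ ≤ (4 * ε + 2 * ε ^ 2 + η) * ‖x‖) ∧
      (∀ y, (⟪Y.TP z W y, y⟫_ℂ).re ≤ (1 - χ + η) * ‖y‖ ^ 2 + χ * ‖EP y‖ ^ 2) ∧
      ∑' ι : Y.V0 × J, ENNReal.ofReal (2 ^ (Cbul * kkH ℓ (Y.lay ι.1)))
          * ENNReal.ofReal (‖EP (scDelta ((1 : Deck m ℤ), ι))‖ ^ 2)
        ≤ ENNReal.ofReal ((1 + 4 * 2 ^ Cbul) * (χ / (χ - 4 * ε - 2 * ε ^ 2 - 2 * η)) * μ₀) := by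
  have hbd := kkrz_coef_bd Y hℓ z W Cw hCw hW
  have hin : KkvIn Y Deck.z0 z W A Cbul χ β ε η μ₀ :=
    { hℓ := hℓ, cen := kkv_z0_cen, inj := kkv_z0_inj, bd := ⟨_, hbd⟩, good := good, gap := gap,
      del := del, loc := loc, tr := tr, hχ0 := hχ0, hχ1 := hχ1, hη0 := hη0, hη1 := hη1, hε0 := hε0,
      hβε := hβε, hμ := hμ, hgap := hgap, hθ := hθ }
  exact ⟨hbd.lhasKer, Y.kkv_TP_isSelfAdjoint z W hbd, hin.main hne⟩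

end Claimed.Agent.R300
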