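import Claimed.Agent.R300.KkModel

/-!
# Row 300, KK paper: the statement of Theorem A for the KK cover

`KkCoverSpec Cbul` is the interface between KKG-GLUE (owner helper47: prove
`kkv_cover_spec : ∀ Cbul, KkCoverSpec Cbul` in `KkCov*.lean`, importing this file) and the final
assembly `KkTop.kk_main`.
-/

set_option autoImplicit false

namespace Claimed.Agent.R300

open Nil
open scoped ENNReal ComplexConjugate InnerProductSpace Matrix.Norms.L2Operator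

/-- **Section 10, Theorem A for the KK cover.**  (`SpecCoverData.main` for the instance built from
the output of `kk_cover_local`, the gap and the deleted fractions of the tower.) -/
def KkCoverSpec (Cbul : ℕ) : Prop :=
    ∃ χ : ℝ, 0 < χ ∧ χ ≤ 1 ∧ ∀ τ : ℝ, 0 < τ → ∃ η μ₀ β : ℝ, 0 < η ∧ 0 < μ₀ ∧ 0 < β ∧
    ∀ (m Astar ℓ : ℕ) [NeZero (kkd ℓ ^ Astar)], 1 ≤ ℓ → ∀ Y : KkGraph ℓ, Y.Gap (1 / 800) → Y.Del β →
    ∀ (z : Y.E0 → Deck m ℤ)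
      (W : Y.E0 → Matrix (Idx m → ZMod (kkd ℓ ^ Astar)) (Idx m → ZMod (kkd ℓ ^ Astar)) ℂ)
      (Cw : ℝ), 0 ≤ Cw → (∀ e, ‖W e‖ ≤ Cw) →
    ∀ (𝔄 : Type) (_ : Countable 𝔄)
      (A : KkArcData (Deck m ℤ) (Idx m → ZMod (kkd ℓ ^ Astar)) 𝔄),
      A.Good Deck.z0 →
      (∀ α, ‖(Y.TP z W - Y.PiOp _ _ * kkTens (Y.modelM (A.hh α)) (A.pp α) * Y.PiOp _ _)
          * A.Q Deck.z0 _ α‖ ≤ η) →
      (∀ α i, A.hh α i ≠ 0 →
        ENNReal.ofReal (2 ^ (Cbul * kkH ℓ i)) * specHS (A.pp α)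
          ≤ ENNReal.ofReal (μ₀ * (A.hi α - A.lo α))) →
      (∃ α, A.pp α ≠ 0) →
      ∃ EP : ScL2 (Deck m ℤ × (Y.V0 × (Idx m → ZMod (kkd ℓ ^ Astar)))) →L[ℂ]
          ScL2 (Deck m ℤ × (Y.V0 × (Idx m → ZMod (kkd ℓ ^ Astar)))),
        IsStarProjection EP ∧ EP ≠ 0 ∧ (∀ B, Commute (Y.TP z W) B → Commute EP B) ∧
        ‖Y.TP z W‖ ≤ 2 ∧ (∀ x, EP x = x → ‖Y.TP z W x - x‖ ≤ τ * ‖x‖) ∧
        (∀ y, (⟪Y.TP z W y, y⟫_ℂ).re ≤ (1 - χ + τ) * ‖y‖ ^ 2 + χ * ‖EP y‖ ^ 2) ∧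
        ∑' ι : Y.V0 × (Idx m → ZMod (kkd ℓ ^ Astar)),
          ENNReal.ofReal (2 ^ (Cbul * kkH ℓ (Y.lay ι.1))) *
            ENNReal.ofReal (‖EP (scDelta ((1 : Deck m ℤ), ι))‖ ^ 2) ≤ ENNReal.ofReal τ

end Claimed.Agent.R300
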