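/-
Row 300, KK Section 10, KKG-GLUE part 2f (owner helper47, prefix `kkv`).

`kkv_cover_spec : ∀ Cbul, KkCoverSpec Cbul` (the interface of `KkTopStmt.lean`): choice of the constants.
-/
import Claimed.Agent.R300.KkCovE
import Claimed.Agent.R300.KkTopStmt

set_option autoImplicit false

namespace Claimed.Agent.R300

open Nil
open scoped ENNReal ComplexConjugate InnerProductSpace Matrix.Norms.L2Operator

/-- the numerics of the choice `ε = t / 20000`, `η = t / (20000 K)`, `μ₀ = τ / (2 (1 + 4 K))`. -/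
theorem kkv_numerics (K τ t : ℝ) (hK : 1 ≤ K) (ht0 : 0 < t) (ht1 : t ≤ 1) (htτ : t ≤ τ) :
    let ε := t / 20000
    let η := t / (20000 * K)
    let μ₀ := τ / (2 * (1 + 4 * K))
    0 < ε ∧ 0 < η ∧ η ≤ 1 ∧ 0 < μ₀ ∧ 4 * ε + 2 * ε ^ 2 + η ≤ τ ∧ η ≤ τ ∧
      1 - 1 / 800 + η < 1 - 4 * ε - 2 * ε ^ 2 - η ∧
      K * (η / (1 - 4 * ε - 2 * ε ^ 2 - η)) ^ 2 ≤ 1 / 2 ∧
      (1 + 4 * K) * (1 / 800 / (1 / 800 - 4 * ε - 2 * ε ^ 2 - 2 * η)) * μ₀ ≤ τ := by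
  intro ε η μ₀
  have hK0 : 0 < K := by linarith
  have hτ0 : 0 < τ := by linarith
  have hε0 : 0 < ε := by positivity
  have hη0 : 0 < η := by positivity
  have hμ0 : 0 < μ₀ := by positivity
  have hε1 : ε ≤ 1 / 20000 := by
    show t / 20000 ≤ 1 / 20000
    linarith
  have hKη : K * η = ε := by
    show K * (t / (20000 * K)) = t / 20000
    field_simp
  have hηε : η ≤ ε := by
    rw [← hKη]
    nlinarith
  have hεt : 20000 * ε = t := by
    show 20000 * (t / 20000) = t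
    ring
  have hsq : ε ^ 2 ≤ ε := by nlinarith
  have hc1 : 1 / 2 ≤ 1 - 4 * ε - 2 * ε ^ 2 - η := by linarith
  have hκ : 1 / 1600 ≤ 1 / 800 - 4 * ε - 2 * ε ^ 2 - 2 * η := by linarith
  refine ⟨hε0, hη0, by linarith, hμ0, by linarith, by linarith, by linarith, ?_, ?_⟩
  · have h1 : η / (1 - 4 * ε - 2 * ε ^ 2 - η) ≤ 2 * η := by
      rw [div_le_iff₀ (by linarith)]
      nlinarith
    have h2 : 0 ≤ η / (1 - 4 * ε - 2 * ε ^ 2 - η) := div_nonneg hη0.le (by linarith)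
    calc K * (η / (1 - 4 * ε - 2 * ε ^ 2 - η)) ^ 2 ≤ K * (2 * η) ^ 2 :=
          mul_le_mul_of_nonneg_left (pow_le_pow_left₀ h2 h1 2) hK0.le
      _ = 4 * (K * η) * η := by ring
      _ = 4 * ε * η := by rw [hKη]
      _ ≤ 1 / 2 := by nlinarith
  · have h1 : 1 / 800 / (1 / 800 - 4 * ε - 2 * ε ^ 2 - 2 * η) ≤ 2 := by
      rw [div_le_iff₀ (by linarith)]
      linarith
    calc (1 + 4 * K) * (1 / 800 / (1 / 800 - 4 * ε - 2 * ε ^ 2 - 2 * η)) * μ₀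
        ≤ (1 + 4 * K) * 2 * μ₀ := by
          refine mul_le_mul_of_nonneg_right (mul_le_mul_of_nonneg_left h1 (by linarith)) hμ0.le
      _ = τ := by
          show (1 + 4 * K) * 2 * (τ / (2 * (1 + 4 * K))) = τ
          field_simp

/-- **Section 10, Theorem A for the KK cover.** -/
theorem kkv_cover_spec (Cbul : ℕ) : KkCoverSpec Cbul := by
  refine ⟨1 / 800, by norm_num, by norm_num, fun τ hτ => ?_⟩
  have hK : (1 : ℝ) ≤ 2 ^ Cbul := one_le_pow₀ (by norm_num)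
  obtain ⟨h1, h2, h3, h4, h5, h6, h7, h8, h9⟩ := kkv_numerics (2 ^ Cbul) τ (min τ 1) hK
    (lt_min hτ one_pos) (min_le_right _ _) (min_le_left _ _)
  refine ⟨min τ 1 / (20000 * 2 ^ Cbul), τ / (2 * (1 + 4 * 2 ^ Cbul)), (min τ 1 / 20000) ^ 2, h2, h4,
    by positivity, ?_⟩
  intro m Astar ℓ _ hℓ Y hGap hDel z W Cw hCw hW 𝔄 _ A hGood hloc htr hne
  obtain ⟨-, -, EP, e1, e2, e3, e4, e5, e6, e7⟩ := kkv_cover_deck hℓ Y z W A Cbul (1 / 800)
    ((min τ 1 / 20000) ^ 2) (min τ 1 / 20000) (min τ 1 / (20000 * 2 ^ Cbul))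
    (τ / (2 * (1 + 4 * 2 ^ Cbul))) Cw hCw hW hGood hGap hDel hloc htr hne (by norm_num) (by norm_num)
    h2.le h3 h1.le le_rfl h4.le h7 h8
  refine ⟨EP, e1, e2, e3, e4, fun x hx => (e5 x hx).trans ?_, fun y => (e6 y).trans ?_,
    e7.trans (ENNReal.ofReal_le_ofReal h9)⟩
  · exact mul_le_mul_of_nonneg_right h5 (norm_nonneg _)
  · have : (1 - 1 / 800 + min τ 1 / (20000 * 2 ^ Cbul)) * ‖y‖ ^ 2 ≤ (1 - 1 / 800 + τ) * ‖y‖ ^ 2 :=
      mul_le_mul_of_nonneg_right (by linarith) (sq_nonneg _)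
    linarith

end Claimed.Agent.R300
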