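import Claimed.Agent.R300.KkGlueOp

/-!
# Row 300, KK paper: the Cayley operator, its block diagonal part, the forest bound

`K.T = ∑_σ (λ_σ ⊗ M_σ + adjoint)` on `ℓ²(Γ × Fin N)`, `K.TD dom` = the part carried by the internal
edges, `‖T - TD‖ ≤ 4 w √#S` (residual forest), and `TD χ_{D q} = χ_{D q} T_q χ_{D q}`.
-/

set_option autoImplicit false

namespace Claimed.Agent.R300

open Shell DomBr
open scoped ENNReal ComplexConjugate InnerProductSpace

variable {S V F : Type} [Group F] {Y : VGraph S V F}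

theorem specCutV_star {Γ : Type} (N : ℕ) (A : Set Γ) : star (specCutV N A) = specCutV N A :=
  (spec_restr_isStarProjection _).isSelfAdjoint.star_eq

theorem specCutV_empty {Γ : Type} (N : ℕ) : specCutV N (∅ : Set Γ) = 0 := by
  ext1 ξ
  ext p
  change scRestr _ ξ p = 0
  exact scRestr_apply_not_mem _ (fun h => h)

theorem specCutV_delta_mem {Γ : Type} {N : ℕ} {A : Set Γ} {x : Γ} (h : x ∈ A) (k : Fin N) :
    specCutV N A (scDelta (x, k)) = scDelta (x, k) := scRestr_delta_mem (by exact h)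

theorem specCutV_delta_not_mem {Γ : Type} {N : ℕ} {A : Set Γ} {x : Γ} (h : x ∉ A) (k : Fin N) :
    specCutV N A (scDelta (x, k)) = 0 := scRestr_delta_not_mem (by exact h)

theorem specCutV_apply_mem {Γ : Type} {N : ℕ} {A : Set Γ} {x : Γ} (h : x ∈ A)
    (ξ : ScL2 (Γ × Fin N)) (k : Fin N) : specCutV N A ξ (x, k) = ξ (x, k) :=
  scRestr_apply_mem _ (by exact h)

theorem specCutV_apply_not_mem {Γ : Type} {N : ℕ} {A : Set Γ} {x : Γ} (h : x ∉ A)
    (ξ : ScL2 (Γ × Fin N)) (k : Fin N) : specCutV N A ξ (x, k) = 0 :=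
  scRestr_apply_not_mem _ (by exact h)

/-- a partition of the group into three sets -/
theorem specCutV_three {Γ : Type} (N : ℕ) (A B C : Set Γ)
    (h : ∀ x, (x ∈ A ∧ x ∉ B ∧ x ∉ C) ∨ (x ∉ A ∧ x ∈ B ∧ x ∉ C) ∨ (x ∉ A ∧ x ∉ B ∧ x ∈ C)) :
    specCutV N A + specCutV N B + specCutV N C = 1 := by
  ext1 ξ
  ext ⟨x, k⟩
  change specCutV N A ξ (x, k) + specCutV N B ξ (x, k) + specCutV N C ξ (x, k) = ξ (x, k)
  rcases h x with ⟨h1, h2, h3⟩ | ⟨h1, h2, h3⟩ | ⟨h1, h2, h3⟩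
  · rw [specCutV_apply_mem h1, specCutV_apply_not_mem h2, specCutV_apply_not_mem h3]; simp
  · rw [specCutV_apply_not_mem h1, specCutV_apply_mem h2, specCutV_apply_not_mem h3]; simp
  · rw [specCutV_apply_not_mem h1, specCutV_apply_not_mem h2, specCutV_apply_mem h3]; simp

theorem kkg_inv_mul_iff {G : Type} [Group G] (a b s : G) : b⁻¹ = a⁻¹ * s ↔ a = s * b := by
  constructor
  · intro h
    have h1 : b = s⁻¹ * a := by rw [← inv_inv b, h]; group
    rw [h1]; group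
  · intro h
    rw [h]; group

section dom

variable {hemb : Embeds Y.rel} {wt : V × F → ℕ} (dom : GkDomains hemb Y.rel_pos_surjective wt)

/-- assigned domain of a copy, in the left convention -/
def kkgD (q : Sheets Y.rel) : Set (Gam Y.rel) := {x | x⁻¹ ∈ dom.D q}

/-- sources of the internal edges with the letter `σ`, in the left convention -/
def kkgIntS (σ : S) : Set (Gam Y.rel) := {x | (x⁻¹, σ) ∈ kkgInt dom}

theorem kkg_edge_iff' {g₀ x y : Gam Y.rel} {v₀ a b : V} {φ φ' : F} {σ : S}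
    (hx : Dev (Θ := Y.rel) g₀ (v₀, 1) (a, φ⁻¹) x⁻¹) (hy : Dev (Θ := Y.rel) g₀ (v₀, 1) (b, φ'⁻¹) y⁻¹)
    (hDx : x ∈ kkgD dom ((toSys hemb Y.rel_pos_surjective).sheet (g₀, v₀)))
    (hDy : y ∈ kkgD dom ((toSys hemb Y.rel_pos_surjective).sheet (g₀, v₀))) :
    (x ∈ kkgIntS dom σ ∧ x = sig Y.rel σ * y) ↔
      (Y.E a (σ, true) b ∧ φ = Y.vol a (σ, true) * φ') := by
  rw [← kkg_inv_mul_iff, ← kkg_inv_mul_iff φ φ']
  exact kkg_edge_iff dom hx hy hDx hDy

theorem kkg_intS_dom {x y : Gam Y.rel} {σ : S} (h : x ∈ kkgIntS dom σ) (hxy : x = sig Y.rel σ * y)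
    (q : Sheets Y.rel) : x ∈ kkgD dom q ↔ y ∈ kkgD dom q := by
  have h1 := kkg_int_dom dom h q
  have h2 : x⁻¹ * sig Y.rel σ = y⁻¹ := ((kkg_inv_mul_iff x y _).2 hxy).symm
  rw [h2] at h1
  exact h1

end dom

namespace KkCoverOps

variable [Fintype S] {J : Type} {N : ℕ} (K : KkCoverOps Y J N)

/-- the Cayley operator -/
noncomputable def T : ScL2 (Gam Y.rel × Fin N) →L[ℂ] ScL2 (Gam Y.rel × Fin N) :=
  ∑ σ, (kkT (sig Y.rel σ) (K.M σ) + kkT (sig Y.rel σ)⁻¹ (star (K.M σ)))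

theorem T_selfAdjoint : IsSelfAdjoint K.T := by
  change star K.T = K.T
  rw [T, star_sum]
  refine Finset.sum_congr rfl fun σ _ => ?_
  rw [star_add, kkT_star, kkT_star, inv_inv, star_star, add_comm]

theorem T_rho (h : Gam Y.rel) : specRho h * K.T = K.T * specRho h := by
  rw [T, Finset.mul_sum, Finset.sum_mul]
  refine Finset.sum_congr rfl fun σ _ => ?_
  rw [mul_add, add_mul, kkT_rho, kkT_rho]

theorem T_mem : K.T ∈ scMatRed (Gam Y.rel) N := by
  rw [mem_scMatRed_iff]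
  exact sum_mem fun σ _ => add_mem (kkT_mem _ _) (kkT_mem _ _)

variable {hemb : Embeds Y.rel} {wt : V × F → ℕ} (dom : GkDomains hemb Y.rel_pos_surjective wt)

/-- the part of the Cayley operator carried by the internal edges -/
noncomputable def TD : ScL2 (Gam Y.rel × Fin N) →L[ℂ] ScL2 (Gam Y.rel × Fin N) :=
  ∑ σ, (specCutV N (kkgIntS dom σ) * kkT (sig Y.rel σ) (K.M σ)
    + kkT (sig Y.rel σ)⁻¹ (star (K.M σ)) * specCutV N (kkgIntS dom σ))

open Classical in
theorem TD_entry (y : Gam Y.rel) (k : Fin N) (x : Gam Y.rel) (j : Fin N) :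
    K.TD dom (scDelta (y, k)) (x, j) =
      ∑ σ : S, ((if x ∈ kkgIntS dom σ ∧ x = sig Y.rel σ * y then K.M σ (scDelta k) j else 0)
        + (if y ∈ kkgIntS dom σ ∧ y = sig Y.rel σ * x then conj (K.M σ (scDelta j) k) else 0)) := by
  rw [TD, scOp_sum_apply]
  refine Finset.sum_congr rfl fun σ _ => ?_
  change specCutV N (kkgIntS dom σ) (kkT (sig Y.rel σ) (K.M σ) (scDelta (y, k))) (x, j)
    + kkT (sig Y.rel σ)⁻¹ (star (K.M σ)) (specCutV N (kkgIntS dom σ) (scDelta (y, k))) (x, j) = _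
  congr 1
  · by_cases hx : x ∈ kkgIntS dom σ
    · rw [specCutV_apply_mem hx, kkT_delta_apply]
      simp only [hx, true_and]
    · rw [specCutV_apply_not_mem hx, if_neg (fun h => hx h.1)]
  · by_cases hy : y ∈ kkgIntS dom σ
    · rw [specCutV_delta_mem hy, kkT_delta_apply, sc_star_delta_apply]
      have e1 : x = (sig Y.rel σ)⁻¹ * y ↔ y = sig Y.rel σ * x := by
        constructor
        · intro h; rw [h]; group
        · intro h; rw [h]; group
      simp only [hy, true_and, e1]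
    · rw [specCutV_delta_not_mem hy, map_zero, if_neg (fun h => hy h.1)]
      rfl

theorem TD_rest : K.TD dom * specCutV N (⋃ q, kkgD dom q)ᶜ = 0 := by
  have h : (⋃ q, kkgD dom q)ᶜ = (∅ : Set (Gam Y.rel)) := by
    rw [Set.compl_empty_iff]
    ext x
    simp only [Set.mem_iUnion, Set.mem_univ, iff_true]
    exact dom.cover x⁻¹
  rw [h, specCutV_empty, mul_zero]

/-- **the block identity** -/
theorem TD_block (q : Sheets Y.rel) :
    K.TD dom * specCutV N (kkgD dom q) =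
      specCutV N (kkgD dom q) * K.Tq hemb q * specCutV N (kkgD dom q) := by
  classical
  by_cases hq : ∃ p : Gam Y.rel × V, (toSys hemb Y.rel_pos_surjective).sheet p = q
  swap
  · have h0 : kkgD dom q = ∅ := by
      ext x
      simp only [Set.mem_empty_iff_false, iff_false]
      intro hx
      obtain ⟨v, hv⟩ := dom.sub q hx
      exact hq ⟨_, hv⟩
    rw [h0, specCutV_empty, mul_zero, mul_zero]
  obtain ⟨⟨g₀, v₀⟩, rfl⟩ := hq
  set q := (toSys hemb Y.rel_pos_surjective).sheet (g₀, v₀) with hqdef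
  refine scOp_ext fun p => ?_
  obtain ⟨y, k⟩ := p
  ext ⟨x, j⟩
  change K.TD dom (specCutV N (kkgD dom q) (scDelta (y, k))) (x, j) =
    specCutV N (kkgD dom q) (K.Tq hemb q (specCutV N (kkgD dom q) (scDelta (y, k)))) (x, j)
  by_cases hy : y ∈ kkgD dom q
  swap
  · rw [specCutV_delta_not_mem hy, map_zero, map_zero, map_zero]
  rw [specCutV_delta_mem hy, TD_entry]
  by_cases hx : x ∈ kkgD dom q
  swap
  · rw [specCutV_apply_not_mem hx]
    refine Finset.sum_eq_zero fun σ _ => ?_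
    rw [if_neg, if_neg, add_zero]
    · rintro ⟨h1, h2⟩
      exact hx ((kkg_intS_dom dom h1 h2 q).1 hy)
    · rintro ⟨h1, h2⟩
      exact hx ((kkg_intS_dom dom h1 h2 q).2 hy)
  rw [specCutV_apply_mem hx, Tq_sheet]
  obtain ⟨⟨b, f'⟩, hzy⟩ := (mem_gkV_iff hemb Y.rel_pos_surjective g₀ y⁻¹ (v₀, (1 : F))).1
    (dom.sub q hy)
  obtain ⟨⟨a, f⟩, hzx⟩ := (mem_gkV_iff hemb Y.rel_pos_surjective g₀ x⁻¹ (v₀, (1 : F))).1
    (dom.sub q hx)
  have hzy' : Dev (Θ := Y.rel) g₀ (v₀, 1) (b, (f'⁻¹)⁻¹) y⁻¹ := by rw [inv_inv]; exact hzy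
  have hzx' : Dev (Θ := Y.rel) g₀ (v₀, 1) (a, (f⁻¹)⁻¹) x⁻¹ := by rw [inv_inv]; exact hzx
  rw [kkTr_entry_some (kkgChart hemb K.e g₀ v₀) K.TP
    (x := (f'⁻¹, (b, K.e.symm k))) (x' := (f⁻¹, (a, K.e.symm j)))
    ((kkgChart_eq_some hemb K.e).2 ⟨hzy', by simp⟩)
    ((kkgChart_eq_some hemb K.e).2 ⟨hzx', by simp⟩), K.hTP]
  refine Finset.sum_congr rfl fun σ _ => ?_
  have e1 := kkg_edge_iff' dom (σ := σ) hzx' hzy' hx hy
  have e2 := kkg_edge_iff' dom (σ := σ) hzy' hzx' hy hx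
  simp only [e1, e2, Equiv.apply_symm_apply]

end KkCoverOps

end Claimed.Agent.R300
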