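import Claimed.Agent.R300.KkGlueCay
import Claimed.Agent.R300.DomHall

/-!
# Row 300, KK paper: the forest bound `‖T - TD‖ ≤ 4 w √#S`
-/

set_option autoImplicit false

namespace Claimed.Agent.R300

open Shell DomBr
open scoped ENNReal ComplexConjugate InnerProductSpace

variable {S V F : Type} [Group F] {Y : VGraph S V F}

theorem sc_norm_star {X : Type} (A : ScL2 X →L[ℂ] ScL2 X) : ‖star A‖ = ‖A‖ := by
  rw [ContinuousLinearMap.star_eq_adjoint]
  exact LinearIsometryEquiv.norm_map _ A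

namespace KkCoverOps

variable [Fintype S] {J : Type} {N : ℕ} (K : KkCoverOps Y J N)
variable {hemb : Embeds Y.rel} {wt : V × F → ℕ} (dom : GkDomains hemb Y.rel_pos_surjective wt)

theorem T_sub_TD_norm (w : ℝ) (hw : 0 ≤ w) (hM : ∀ σ, ‖K.M σ‖ ≤ w) :
    ‖K.T - K.TD dom‖ ≤ 4 * w * Real.sqrt (Fintype.card S) := by
  classical
  obtain ⟨child, hinj, hchild⟩ := DomForest.exists_orientation (kkg_forest dom)
  set Src : S → Set (Gam Y.rel) :=
    fun σ => {x | ∃ h : (x⁻¹, σ) ∈ (kkgInt dom)ᶜ, child ⟨_, h⟩ = x⁻¹} with hSrc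
  set Tg : S → Set (Gam Y.rel) :=
    fun σ => {x | ∃ h : (x⁻¹, σ) ∈ (kkgInt dom)ᶜ, child ⟨_, h⟩ ≠ x⁻¹} with hTg
  have hpart : ∀ σ, specCutV N (kkgIntS dom σ) + specCutV N (Src σ) + specCutV N (Tg σ) = 1 := by
    intro σ
    refine specCutV_three N _ _ _ fun x => ?_
    by_cases h1 : (x⁻¹, σ) ∈ kkgInt dom
    · left
      exact ⟨h1, fun ⟨h, _⟩ => h h1, fun ⟨h, _⟩ => h h1⟩
    · right
      by_cases h2 : child ⟨(x⁻¹, σ), h1⟩ = x⁻¹
      · left
        exact ⟨h1, ⟨h1, h2⟩, fun ⟨_, h⟩ => h h2⟩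
      · right
        exact ⟨h1, fun ⟨_, h⟩ => h2 h, ⟨h1, h2⟩⟩
  set a : S → ScL2 (Gam Y.rel × Fin N) →L[ℂ] ScL2 (Gam Y.rel × Fin N) :=
    fun σ => kkT (sig Y.rel σ) (K.M σ) with ha
  set b : S → ScL2 (Gam Y.rel × Fin N) →L[ℂ] ScL2 (Gam Y.rel × Fin N) :=
    fun σ => kkT (sig Y.rel σ)⁻¹ (star (K.M σ)) with hb
  have hab : ∀ σ, star (a σ) = b σ := fun σ => kkT_star _ _
  have hba : ∀ σ, star (b σ) = a σ := fun σ => by rw [← hab, star_star]
  have hna : ∀ σ, ‖a σ‖ ≤ w := fun σ => (kkT_norm_le _ _).trans (hM σ)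
  have hnb : ∀ σ, ‖b σ‖ ≤ w := fun σ => by rw [← hab, sc_norm_star]; exact hna σ
  set R : S → Set (Gam Y.rel × Fin N) := fun σ => {p | sig Y.rel σ * p.1 ∈ Tg σ} with hR
  have hcut : ∀ σ, specCutV N (Tg σ) * a σ = a σ * scRestr (R σ) := fun σ => kkT_cut _ _ _
  set P₁ : ScL2 (Gam Y.rel × Fin N) →L[ℂ] ScL2 (Gam Y.rel × Fin N) :=
    ∑ σ, b σ ∘L scRestr {p : Gam Y.rel × Fin N | p.1 ∈ Src σ} with hP₁
  set Q₂ : ScL2 (Gam Y.rel × Fin N) →L[ℂ] ScL2 (Gam Y.rel × Fin N) :=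
    ∑ σ, a σ ∘L scRestr (R σ) with hQ₂
  have hnP : ‖P₁‖ ≤ w * Real.sqrt (Fintype.card S) := by
    refine kk_sum_cut_norm_le _ _ w hw hnb fun σ σ' hne => ?_
    rw [Set.disjoint_left]
    rintro ⟨x, k⟩ ⟨h1, h2⟩ ⟨h1', h2'⟩
    have h3 := hinj (h2.trans h2'.symm)
    exact hne (congrArg (fun ε : ↥(kkgInt dom)ᶜ => ε.1.2) h3)
  have hnQ : ‖Q₂‖ ≤ w * Real.sqrt (Fintype.card S) := by
    refine kk_sum_cut_norm_le _ _ w hw hna fun σ σ' hne => ?_
    rw [Set.disjoint_left]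
    have key : ∀ (τ : S) (y : Gam Y.rel) (h1 : ((sig Y.rel τ * y)⁻¹, τ) ∈ (kkgInt dom)ᶜ),
        child ⟨_, h1⟩ ≠ (sig Y.rel τ * y)⁻¹ → child ⟨_, h1⟩ = y⁻¹ := by
      intro τ y h1 h2
      rcases hchild ⟨_, h1⟩ with h3 | h3
      · exact absurd h3 h2
      · rw [h3]
        change (sig Y.rel τ * y)⁻¹ * sig Y.rel τ = y⁻¹
        group
    rintro ⟨y, k⟩ ⟨h1, h2⟩ ⟨h1', h2'⟩
    have h3 := hinj ((key σ y h1 h2).trans (key σ' y h1' h2').symm)
    exact hne (congrArg (fun ε : ↥(kkgInt dom)ᶜ => ε.1.2) h3)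
  have hterm : ∀ σ, (a σ + b σ) - (specCutV N (kkgIntS dom σ) * a σ
      + b σ * specCutV N (kkgIntS dom σ)) =
      (b σ * specCutV N (Src σ) + star (b σ * specCutV N (Src σ)))
        + (a σ * scRestr (R σ) + star (a σ * scRestr (R σ))) := by
    intro σ
    rw [← hcut, star_mul, star_mul, specCutV_star, specCutV_star, hba, hab]
    have h1 : a σ = specCutV N (kkgIntS dom σ) * a σ + specCutV N (Src σ) * a σ
        + specCutV N (Tg σ) * a σ := by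
      rw [← add_mul, ← add_mul, hpart, one_mul]
    have h2 : b σ = b σ * specCutV N (kkgIntS dom σ) + b σ * specCutV N (Src σ)
        + b σ * specCutV N (Tg σ) := by
      rw [← mul_add, ← mul_add, hpart, mul_one]
    have h3 : a σ + b σ = (specCutV N (kkgIntS dom σ) * a σ + specCutV N (Src σ) * a σ
        + specCutV N (Tg σ) * a σ) + (b σ * specCutV N (kkgIntS dom σ) + b σ * specCutV N (Src σ)
        + b σ * specCutV N (Tg σ)) := by
      rw [← h1, ← h2]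
    rw [h3]
    abel
  have hdec : K.T - K.TD dom = (P₁ + star P₁) + (Q₂ + star Q₂) := by
    rw [T, TD, ← Finset.sum_sub_distrib, hP₁, hQ₂, star_sum, star_sum, ← Finset.sum_add_distrib,
      ← Finset.sum_add_distrib, ← Finset.sum_add_distrib]
    exact Finset.sum_congr rfl fun σ _ => hterm σ
  rw [hdec]
  have h1 := norm_add_le (P₁ + star P₁) (Q₂ + star Q₂)
  have h2 := norm_add_le P₁ (star P₁)
  have h3 := norm_add_le Q₂ (star Q₂)
  rw [sc_norm_star] at h2 h3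
  nlinarith

end KkCoverOps

end Claimed.Agent.R300
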