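import Claimed.Agent.R300.KkOp
import Claimed.Agent.R300.GeoKKMain

/-!
# Row 300, KK paper: the charts of the sheets as partial bijections

`Y : Shell.VGraph S V F` is the base graph with voltages, `Γ = Gam Y.rel`.  In the LEFT convention
of `SpecCayley` a group element `g` is represented by `x = g⁻¹` and a point `(v, f)` of the voltage
cover by `(f⁻¹, v)`.

* `kkgChart hemb e g₀ v₀ : F × (V × J) ≃. Γ × Fin N`: the chart of the sheet through `g₀` at `v₀`;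
* `kkgChart_smul` (translation), `kkgChart_base` (change of the base incidence = deck translation);
* `kkg_edge_iff`: the edges of the cover and the internal Cayley edges correspond.
-/

set_option autoImplicit false

namespace Claimed.Agent.R300

open Shell DomBr

variable {S V F : Type} [Group F] {Y : VGraph S V F}

/-- deck translations act on the developing relation -/
theorem kkg_dev_translate (c : F) {g₀ g : Gam Y.rel} {v₀ v : V} {f₀ f : F}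
    (h : Dev (Θ := Y.rel) g₀ (v₀, f₀) (v, f) g) : Dev (Θ := Y.rel) g₀ (v₀, c * f₀) (v, c * f) g := by
  obtain ⟨a, h1, h2⟩ := h
  exact ⟨a, VGraph.cpath_translate c h1, h2⟩

theorem kkg_dev_translate_iff (c : F) {g₀ g : Gam Y.rel} {v₀ v : V} {f₀ f : F} :
    Dev (Θ := Y.rel) g₀ (v₀, c * f₀) (v, c * f) g ↔ Dev (Θ := Y.rel) g₀ (v₀, f₀) (v, f) g := by
  refine ⟨fun h => ?_, kkg_dev_translate c⟩
  have := kkg_dev_translate c⁻¹ h
  simpa using this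

section chart

variable (hemb : Embeds Y.rel) {J : Type} {N : ℕ} (e : J ≃ Fin N)

/-- the chart relation -/
def kkgRel (e : J ≃ Fin N) (g₀ : Gam Y.rel) (v₀ : V) (a : F × (V × J)) (b : Gam Y.rel × Fin N) :
    Prop :=
  Dev (Θ := Y.rel) g₀ (v₀, 1) (a.2.1, a.1⁻¹) b.1⁻¹ ∧ e a.2.2 = b.2

/-- the chart of the sheet through `g₀` at the position `v₀`. -/
noncomputable def kkgChart (g₀ : Gam Y.rel) (v₀ : V) : (F × (V × J)) ≃. (Gam Y.rel × Fin N) :=
  scRelPE (kkgRel e g₀ v₀)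
    (by
      rintro a ⟨x, k⟩ ⟨x', k'⟩ ⟨h1, h2⟩ ⟨h1', h2'⟩
      have h3 : x⁻¹ = x'⁻¹ := h1.functional h1'
      have h4 : k = k' := h2.symm.trans h2'
      rw [inv_inj.1 h3, h4])
    (by
      rintro ⟨φ, v, j⟩ ⟨φ', v', j'⟩ b ⟨h1, h2⟩ ⟨h1', h2'⟩
      have h3 := h1.injective hemb h1'
      have h4 : v = v' := (Prod.mk.inj h3).1
      have h5 : φ = φ' := inv_inj.1 (Prod.mk.inj h3).2
      have h6 : j = j' := e.injective (h2.trans h2'.symm)
      rw [h4, h5, h6])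

theorem kkgChart_eq_some {g₀ : Gam Y.rel} {v₀ : V} {φ : F} {v : V} {j : J} {x : Gam Y.rel}
    {k : Fin N} :
    kkgChart hemb e g₀ v₀ (φ, (v, j)) = some (x, k) ↔
      Dev (Θ := Y.rel) g₀ (v₀, 1) (v, φ⁻¹) x⁻¹ ∧ e j = k :=
  scRelPE_eq_some

theorem kkgChart_symm_eq_some {g₀ : Gam Y.rel} {v₀ : V} {φ : F} {v : V} {j : J} {x : Gam Y.rel}
    {k : Fin N} :
    (kkgChart hemb e g₀ v₀).symm (x, k) = some (φ, (v, j)) ↔
      Dev (Θ := Y.rel) g₀ (v₀, 1) (v, φ⁻¹) x⁻¹ ∧ e j = k :=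
  scRelPE_symm_eq_some

theorem kkgChart_symm_eq_none {g₀ : Gam Y.rel} {v₀ : V} {x : Gam Y.rel} {k : Fin N}
    (h : ∀ z, ¬ Dev (Θ := Y.rel) g₀ (v₀, 1) z x⁻¹) : (kkgChart hemb e g₀ v₀).symm (x, k) = none := by
  rcases h' : (kkgChart hemb e g₀ v₀).symm (x, k) with _ | ⟨φ, v, j⟩
  · rfl
  · exact absurd ((kkgChart_symm_eq_some hemb e).1 h').1 (h _)

/-- translation of the base incidence -/
theorem kkgChart_smul (h g₀ : Gam Y.rel) (v₀ : V) :
    (kkgChart hemb e g₀ v₀).trans (kkRhoE h).toPEquiv = kkgChart hemb e (h * g₀) v₀ := by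
  refine scPEquiv_ext ?_
  rintro ⟨φ, v, j⟩ ⟨x, k⟩
  rw [kkgChart_eq_some, PEquiv.trans_eq_some]
  constructor
  · rintro ⟨⟨x', k'⟩, h1, h2⟩
    obtain ⟨h3, h4⟩ := (kkgChart_eq_some hemb e).1 h1
    have h5 : (x' * h⁻¹, k') = (x, k) := Option.some.inj h2
    obtain ⟨h6, h7⟩ := Prod.mk.inj h5
    refine ⟨?_, h4.trans h7⟩
    have := h3.smul h
    rw [← h6]
    simpa using this
  · rintro ⟨h1, h2⟩
    refine ⟨(x * h, k), (kkgChart_eq_some hemb e).2 ⟨?_, h2⟩, ?_⟩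
    · have := h1.smul h⁻¹
      simpa using this
    · change some (x * h * h⁻¹, k) = some (x, k)
      rw [mul_inv_cancel_right]

/-- change of the base incidence inside a sheet: a deck translation -/
theorem kkgChart_base {g₀ g₁ : Gam Y.rel} {v₀ v₁ : V}
    (h : (toSys hemb Y.rel_pos_surjective).sheet (g₁, v₁) =
      (toSys hemb Y.rel_pos_surjective).sheet (g₀, v₀)) :
    ∃ f₁ : F, kkgChart hemb e g₁ v₁ = (kkRhoE f₁).toPEquiv.trans (kkgChart hemb e g₀ v₀) := by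
  obtain ⟨⟨v', f₁⟩, hz1, hz2⟩ := exists_dev hemb Y.rel_pos_surjective (x₀ := (v₀, (1 : F))) h
  have hv : v' = v₁ := hz1
  subst hv
  refine ⟨f₁, scPEquiv_ext ?_⟩
  rintro ⟨φ, v, j⟩ ⟨x, k⟩
  have key : Dev (Θ := Y.rel) g₁ (v', 1) (v, φ⁻¹) x⁻¹ ↔
      Dev (Θ := Y.rel) g₀ (v₀, 1) (v, (φ * f₁⁻¹)⁻¹) x⁻¹ := by
    have e1 : (φ * f₁⁻¹)⁻¹ = f₁ * φ⁻¹ := by simp
    rw [e1, ← dev_base_iff hz2]
    have := (kkg_dev_translate_iff (Y := Y) f₁ (g₀ := g₁) (g := x⁻¹) (v₀ := v') (v := v)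
      (f₀ := 1) (f := φ⁻¹)).symm
    rwa [mul_one] at this
  rw [kkgChart_eq_some, PEquiv.trans_eq_some, key]
  constructor
  · rintro ⟨h1, h2⟩
    exact ⟨(φ * f₁⁻¹, (v, j)), rfl, (kkgChart_eq_some hemb e).2 ⟨h1, h2⟩⟩
  · rintro ⟨⟨φ', v', j'⟩, h1, h2⟩
    have h3 : (φ * f₁⁻¹, (v, j)) = (φ', (v', j')) := Option.some.inj h1
    rw [← h3] at h2
    exact (kkgChart_eq_some hemb e).1 h2

theorem mem_kkDom_kkgChart {g₀ : Gam Y.rel} {v₀ : V} {φ : F} {v : V} {j : J} :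
    (φ, (v, j)) ∈ kkDom (kkgChart hemb e g₀ v₀) ↔ ∃ g, Dev (Θ := Y.rel) g₀ (v₀, 1) (v, φ⁻¹) g := by
  rw [mem_kkDom]
  constructor
  · rintro ⟨⟨x, k⟩, h⟩
    exact ⟨_, ((kkgChart_eq_some hemb e).1 h).1⟩
  · rintro ⟨g, h⟩
    exact ⟨(g⁻¹, e j), (kkgChart_eq_some hemb e).2 ⟨by simpa using h, rfl⟩⟩

end chart

theorem kkg_dom_edge {g₀ : Gam Y.rel} {x₀ z z' : V × F} {l : S × Bool} (h : Y.cE z l z') :
    (∃ g, Dev (Θ := Y.rel) g₀ x₀ z g) ↔ ∃ g, Dev (Θ := Y.rel) g₀ x₀ z' g := by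
  constructor
  · rintro ⟨g, hg⟩
    exact ⟨_, hg.edge h⟩
  · rintro ⟨g, hg⟩
    exact ⟨_, hg.edge (Y.cE_sym h)⟩

section dom

variable {hemb : Embeds Y.rel} {wt : V × F → ℕ} (dom : GkDomains hemb Y.rel_pos_surjective wt)

/-- the internal Cayley edges: edges of a sheet with both ends in its domain -/
def kkgInt : Set (Gam Y.rel × S) :=
  {ε | ∃ q x z, Y.rel.E x (ε.2, true) z ∧
    (toSys hemb Y.rel_pos_surjective).sheet (ε.1, Y.rel.pos x) = q ∧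
      ε.1 ∈ dom.D q ∧ ε.1 * sig Y.rel ε.2 ∈ dom.D q}

theorem kkg_forest : DomForest domCs (domCt (sig Y.rel)) (kkgInt dom)ᶜ := dom.forest

theorem kkg_D_unique {q q' : Sheets Y.rel} {g : Gam Y.rel} (h : g ∈ dom.D q) (h' : g ∈ dom.D q') :
    q = q' := by
  by_contra hne
  exact Set.disjoint_left.1 (dom.disj q q' hne) h h'

theorem kkg_int_dom {g : Gam Y.rel} {σ : S} (h : (g, σ) ∈ kkgInt dom) (q : Sheets Y.rel) :
    g ∈ dom.D q ↔ g * sig Y.rel σ ∈ dom.D q := by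
  obtain ⟨q', x, z, _, _, h3, h4⟩ := h
  constructor
  · intro hg
    rw [kkg_D_unique dom hg h3]; exact h4
  · intro hg
    rw [kkg_D_unique dom hg h4]; exact h3

/-- the edges of the cover correspond to the internal Cayley edges -/
theorem kkg_edge_iff {g₀ g g' : Gam Y.rel} {v₀ a b : V} {f f' : F} {σ : S}
    (hg : Dev (Θ := Y.rel) g₀ (v₀, 1) (a, f) g) (hg' : Dev (Θ := Y.rel) g₀ (v₀, 1) (b, f') g')
    (hD : g ∈ dom.D ((toSys hemb Y.rel_pos_surjective).sheet (g₀, v₀)))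
    (hD' : g' ∈ dom.D ((toSys hemb Y.rel_pos_surjective).sheet (g₀, v₀))) :
    ((g, σ) ∈ kkgInt dom ∧ g' = g * sig Y.rel σ) ↔
      (Y.E a (σ, true) b ∧ f' = f * Y.vol a (σ, true)) := by
  have hsh : (toSys hemb Y.rel_pos_surjective).sheet (g, a) =
      (toSys hemb Y.rel_pos_surjective).sheet (g₀, v₀) := hg.sheet hemb Y.rel_pos_surjective
  constructor
  · rintro ⟨⟨q', ⟨a', c⟩, ⟨b', c'⟩, h1, h2, h3, _⟩, h5⟩
    have hq : q' = (toSys hemb Y.rel_pos_surjective).sheet (g₀, v₀) := kkg_D_unique dom h3 hD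
    have ha : a' = a := by
      apply (toSys hemb Y.rel_pos_surjective).sheet_inj (g := g)
      rw [hsh, ← hq]; exact h2
    subst ha
    have hE : Y.E a' (σ, true) b' := h1.1
    have hedge : Y.cE (a', f) (σ, true) (b', f * Y.vol a' (σ, true)) := ⟨hE, rfl⟩
    have h6 : Dev (Θ := Y.rel) g₀ (v₀, 1) (b', f * Y.vol a' (σ, true)) g' := by
      rw [h5]; exact hg.edge hedge
    have h7 := h6.injective hemb hg'
    obtain ⟨h8, h9⟩ := Prod.mk.inj h7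
    subst h8
    exact ⟨hE, h9.symm⟩
  · rintro ⟨hE, hf⟩
    have hedge : Y.cE (a, f) (σ, true) (b, f') := ⟨hE, hf⟩
    have h6 : Dev (Θ := Y.rel) g₀ (v₀, 1) (b, f') (g * sig Y.rel σ) := hg.edge hedge
    have h7 : g' = g * sig Y.rel σ := hg'.functional h6
    refine ⟨⟨_, (a, f), (b, f'), hedge, hsh, hD, ?_⟩, h7⟩
    rw [← h7]; exact hD'

end dom

end Claimed.Agent.R300
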