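import Claimed.Agent.R300.KkGlueGeo

/-!
# Row 300, KK paper: transport of the cover operators to the copies

`KkCoverOps Y J N`: the weighted adjacency `TP` of the voltage cover (given by its entries) and its
upper band projection `EP` (output of Theorem A).  `kkgLift A q` is the transport of an operator `A`
commuting with the deck translations to the sheet `q`.
-/

set_option autoImplicit false

namespace Claimed.Agent.R300

open Shell DomBr
open scoped ENNReal ComplexConjugate InnerProductSpace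

variable {S V F : Type} [Group F] {Y : VGraph S V F}

/-- The operators on the voltage cover consumed by the glue. -/
structure KkCoverOps [Fintype S] (Y : VGraph S V F) (J : Type) (N : ℕ) where
  e : J ≃ Fin N
  /-- the matrix weight of a letter -/
  M : S → ScL2 (Fin N) →L[ℂ] ScL2 (Fin N)
  TP : ScL2 (F × (V × J)) →L[ℂ] ScL2 (F × (V × J))
  EP : ScL2 (F × (V × J)) →L[ℂ] ScL2 (F × (V × J))
  c : ℝ
  χ : ℝ
  a : ℝ
  hTP : ∀ (φ' : F) (b : V) (k : J) (φ : F) (a : V) (j : J),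
    TP (scDelta (φ', (b, k))) (φ, (a, j)) = open Classical in
      ∑ σ : S, ((if Y.E a (σ, true) b ∧ φ = Y.vol a (σ, true) * φ' then
            M σ (scDelta (e k)) (e j) else 0)
        + (if Y.E b (σ, true) a ∧ φ' = Y.vol b (σ, true) * φ then
            conj (M σ (scDelta (e j)) (e k)) else 0))
  hEP : IsStarProjection EP
  hcomm : ∀ A : ScL2 (F × (V × J)) →L[ℂ] ScL2 (F × (V × J)), A * TP = TP * A → A * EP = EP * A
  hnorm : ‖TP‖ ≤ 2
  hnear : ∀ x, EP x = x → ‖TP x - x‖ ≤ a * ‖x‖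
  hform : ∀ y, (⟪TP y, y⟫_ℂ).re ≤ c * ‖y‖ ^ 2 + χ * ‖EP y‖ ^ 2
  hc : 0 ≤ c

namespace KkCoverOps

variable [Fintype S] {J : Type} {N : ℕ} (K : KkCoverOps Y J N)

theorem adj_of_ne {φ' : F} {b : V} {k : J} {φ : F} {a : V} {j : J}
    (h : K.TP (scDelta (φ', (b, k))) (φ, (a, j)) ≠ 0) : ∃ l, Y.cE (a, φ⁻¹) l (b, φ'⁻¹) := by
  classical
  rw [K.hTP] at h
  obtain ⟨σ, _, hσ⟩ := Finset.exists_ne_zero_of_sum_ne_zero h
  by_cases h1 : Y.E a (σ, true) b ∧ φ = Y.vol a (σ, true) * φ'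
  · refine ⟨(σ, true), h1.1, ?_⟩
    change φ'⁻¹ = φ⁻¹ * Y.vol a (σ, true)
    rw [h1.2]; group
  · by_cases h2 : Y.E b (σ, true) a ∧ φ' = Y.vol b (σ, true) * φ
    · refine ⟨linv (σ, true), Y.cE_sym (a := (b, φ'⁻¹)) ⟨h2.1, ?_⟩⟩
      change φ⁻¹ = φ'⁻¹ * Y.vol b (σ, true)
      rw [h2.2]; group
    · rw [if_neg h1, if_neg h2, add_zero] at hσ
      exact absurd rfl hσ

theorem TP_rho (f : F) : specRho f * K.TP = K.TP * specRho f := by
  classical
  refine sc_rho_comm_of_entries K.TP ?_ f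
  rintro f φ' ⟨b, k⟩ φ ⟨a, j⟩
  rw [K.hTP, K.hTP]
  refine Finset.sum_congr rfl fun σ _ => ?_
  have e1 : (φ * f = Y.vol a (σ, true) * (φ' * f)) ↔ φ = Y.vol a (σ, true) * φ' := by
    rw [← mul_assoc, mul_left_inj]
  have e2 : (φ' * f = Y.vol b (σ, true) * (φ * f)) ↔ φ' = Y.vol b (σ, true) * φ := by
    rw [← mul_assoc, mul_left_inj]
  simp only [e1, e2]

theorem EP_rho (f : F) : specRho f * K.EP = K.EP * specRho f := K.hcomm _ (K.TP_rho f)

variable (hemb : Embeds Y.rel)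

theorem TP_dom (g₀ : Gam Y.rel) (v₀ : V) :
    scRestr (kkDom (kkgChart hemb K.e g₀ v₀)) * K.TP =
      K.TP * scRestr (kkDom (kkgChart hemb K.e g₀ v₀)) := by
  refine sc_restr_comm_of_entries _ _ ?_
  rintro ⟨φ, a, j⟩ ⟨φ', b, k⟩ h
  obtain ⟨l, hl⟩ := K.adj_of_ne h
  rw [mem_kkDom_kkgChart, mem_kkDom_kkgChart]
  exact kkg_dom_edge hl

theorem EP_dom (g₀ : Gam Y.rel) (v₀ : V) :
    scRestr (kkDom (kkgChart hemb K.e g₀ v₀)) * K.EP =
      K.EP * scRestr (kkDom (kkgChart hemb K.e g₀ v₀)) := K.hcomm _ (K.TP_dom hemb g₀ v₀)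

end KkCoverOps

/-! ### transport to the sheets -/

section lift

variable {J : Type} {N : ℕ} (hemb : Embeds Y.rel) (e : J ≃ Fin N)

theorem kkTr_chart_base (A : ScL2 (F × (V × J)) →L[ℂ] ScL2 (F × (V × J)))
    (hA : ∀ f : F, specRho f * A = A * specRho f) {g₀ g₁ : Gam Y.rel} {v₀ v₁ : V}
    (h : (toSys hemb Y.rel_pos_surjective).sheet (g₁, v₁) =
      (toSys hemb Y.rel_pos_surjective).sheet (g₀, v₀)) :
    kkTr (kkgChart hemb e g₁ v₁) A = kkTr (kkgChart hemb e g₀ v₀) A := by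
  obtain ⟨f₁, hf⟩ := kkgChart_base hemb e h
  rw [hf, kkTr_trans, kkTr_of_comm (kkRhoE f₁) A (by rw [← specRho_eq_scPE]; exact hA f₁)]

open Classical in
/-- transport of a deck invariant operator to the sheet `q` (zero if `q` is not a sheet) -/
noncomputable def kkgLift (A : ScL2 (F × (V × J)) →L[ℂ] ScL2 (F × (V × J))) (q : Sheets Y.rel) :
    ScL2 (Gam Y.rel × Fin N) →L[ℂ] ScL2 (Gam Y.rel × Fin N) :=
  if h : ∃ p : Gam Y.rel × V, (toSys hemb Y.rel_pos_surjective).sheet p = q then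
    kkTr (kkgChart hemb e h.choose.1 h.choose.2) A else 0

theorem kkgLift_sheet (A : ScL2 (F × (V × J)) →L[ℂ] ScL2 (F × (V × J)))
    (hA : ∀ f : F, specRho f * A = A * specRho f) (g : Gam Y.rel) (v : V) :
    kkgLift hemb e A ((toSys hemb Y.rel_pos_surjective).sheet (g, v)) =
      kkTr (kkgChart hemb e g v) A := by
  have h : ∃ p : Gam Y.rel × V, (toSys hemb Y.rel_pos_surjective).sheet p =
      (toSys hemb Y.rel_pos_surjective).sheet (g, v) := ⟨(g, v), rfl⟩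
  unfold kkgLift
  rw [dif_pos h]
  exact kkTr_chart_base hemb e A hA h.choose_spec

theorem kkgLift_junk (A : ScL2 (F × (V × J)) →L[ℂ] ScL2 (F × (V × J))) {q : Sheets Y.rel}
    (h : ¬ ∃ p : Gam Y.rel × V, (toSys hemb Y.rel_pos_surjective).sheet p = q) :
    kkgLift hemb e A q = 0 := by
  unfold kkgLift
  rw [dif_neg h]

/-- a statement about all `kkgLift A q` follows from the charts and from zero -/
theorem kkgLift_cases (A : ScL2 (F × (V × J)) →L[ℂ] ScL2 (F × (V × J)))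
    (hA : ∀ f : F, specRho f * A = A * specRho f)
    (P : Sheets Y.rel → (ScL2 (Gam Y.rel × Fin N) →L[ℂ] ScL2 (Gam Y.rel × Fin N)) → Prop)
    (h0 : ∀ q, (¬ ∃ p : Gam Y.rel × V, (toSys hemb Y.rel_pos_surjective).sheet p = q) → P q 0)
    (h1 : ∀ g v, P ((toSys hemb Y.rel_pos_surjective).sheet (g, v))
      (kkTr (kkgChart hemb e g v) A)) (q : Sheets Y.rel) : P q (kkgLift hemb e A q) := by
  by_cases h : ∃ p : Gam Y.rel × V, (toSys hemb Y.rel_pos_surjective).sheet p = q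
  · obtain ⟨⟨g, v⟩, rfl⟩ := h
    rw [kkgLift_sheet hemb e A hA]
    exact h1 g v
  · rw [kkgLift_junk hemb e A h]
    exact h0 q h

theorem kkTr_equiv_mul {X : Type} (u : X ≃ X) (B : ScL2 X →L[ℂ] ScL2 X) :
    kkTr u.toPEquiv B * scPE u.toPEquiv = scPE u.toPEquiv * B := by
  have h1 : kkTr u.toPEquiv B * scPE u.toPEquiv =
      scPE u.toPEquiv * B * (scPE u.toPEquiv.symm * scPE u.toPEquiv) := by
    simp only [kkTr, mul_assoc]; rfl
  have h2 : scPE u.toPEquiv.symm * scPE u.toPEquiv = 1 := by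
    rw [scPE_mul, ← Equiv.toPEquiv_symm, ← Equiv.toPEquiv_trans, Equiv.self_trans_symm,
      Equiv.toPEquiv_refl, scPE_refl]
  rw [h1, h2, mul_one]

/-- equivariance -/
theorem kkgLift_rho (A : ScL2 (F × (V × J)) →L[ℂ] ScL2 (F × (V × J)))
    (hA : ∀ f : F, specRho f * A = A * specRho f) (h : Gam Y.rel) (q : Sheets Y.rel) :
    specRho h * kkgLift hemb e A q = kkgLift hemb e A (h • q) * specRho h := by
  by_cases hq : ∃ p : Gam Y.rel × V, (toSys hemb Y.rel_pos_surjective).sheet p = q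
  · obtain ⟨⟨g, v⟩, rfl⟩ := hq
    rw [← (toSys hemb Y.rel_pos_surjective).sheet_smul, kkgLift_sheet hemb e A hA,
      kkgLift_sheet hemb e A hA, ← kkgChart_smul, kkTr_trans, specRho_eq_scPE, kkTr_equiv_mul]
  · have hq' : ¬ ∃ p : Gam Y.rel × V, (toSys hemb Y.rel_pos_surjective).sheet p = h • q := by
      rintro ⟨⟨g, v⟩, hp⟩
      apply hq
      refine ⟨(h⁻¹ * g, v), ?_⟩
      rw [(toSys hemb Y.rel_pos_surjective).sheet_smul, hp, inv_smul_smul]
    rw [kkgLift_junk hemb e A hq, kkgLift_junk hemb e A hq', mul_zero, zero_mul]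

/-- vertex set of a copy, in the left convention -/
def kkgV (q : Sheets Y.rel) : Set (Gam Y.rel) :=
  {x | x⁻¹ ∈ (toSys hemb Y.rel_pos_surjective).gkV q}

theorem kkgV_empty {q : Sheets Y.rel}
    (h : ¬ ∃ p : Gam Y.rel × V, (toSys hemb Y.rel_pos_surjective).sheet p = q) :
    kkgV hemb q = ∅ := by
  ext x
  simp only [Set.mem_empty_iff_false, iff_false]
  rintro ⟨v, hv⟩
  exact h ⟨_, hv⟩

theorem kkTr_chart_cut (A : ScL2 (F × (V × J)) →L[ℂ] ScL2 (F × (V × J))) (g : Gam Y.rel) (v : V) :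
    specCutV N (kkgV hemb ((toSys hemb Y.rel_pos_surjective).sheet (g, v))) *
      kkTr (kkgChart hemb e g v) A = kkTr (kkgChart hemb e g v) A := by
  ext1 η
  ext ⟨x, k⟩
  change scRestr _ (kkTr (kkgChart hemb e g v) A η) (x, k) = _
  by_cases hx : x ∈ kkgV hemb ((toSys hemb Y.rel_pos_surjective).sheet (g, v))
  · rw [scRestr_apply_mem]
    exact hx
  · rw [scRestr_apply_not_mem _ (by exact hx), kkTr_apply_none]
    refine kkgChart_symm_eq_none hemb e fun z hz => hx ?_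
    exact (mem_gkV_iff hemb Y.rel_pos_surjective g x⁻¹ (v, (1 : F))).2 ⟨z, hz⟩

end lift

namespace KkCoverOps

variable [Fintype S] {J : Type} {N : ℕ} (K : KkCoverOps Y J N) (hemb : Embeds Y.rel)

/-- the upper projection of the copy `q` -/
noncomputable def E (q : Sheets Y.rel) : ScL2 (Gam Y.rel × Fin N) →L[ℂ] ScL2 (Gam Y.rel × Fin N) :=
  kkgLift hemb K.e K.EP q

/-- the adjacency operator of the copy `q` -/
noncomputable def Tq (q : Sheets Y.rel) : ScL2 (Gam Y.rel × Fin N) →L[ℂ] ScL2 (Gam Y.rel × Fin N) :=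
  kkgLift hemb K.e K.TP q

theorem E_sheet (g : Gam Y.rel) (v : V) :
    K.E hemb ((toSys hemb Y.rel_pos_surjective).sheet (g, v)) =
      kkTr (kkgChart hemb K.e g v) K.EP := kkgLift_sheet hemb K.e K.EP K.EP_rho g v

theorem Tq_sheet (g : Gam Y.rel) (v : V) :
    K.Tq hemb ((toSys hemb Y.rel_pos_surjective).sheet (g, v)) =
      kkTr (kkgChart hemb K.e g v) K.TP := kkgLift_sheet hemb K.e K.TP K.TP_rho g v

theorem E_junk {q : Sheets Y.rel}
    (h : ¬ ∃ p : Gam Y.rel × V, (toSys hemb Y.rel_pos_surjective).sheet p = q) :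
    K.E hemb q = 0 := kkgLift_junk hemb K.e K.EP h

theorem Tq_junk {q : Sheets Y.rel}
    (h : ¬ ∃ p : Gam Y.rel × V, (toSys hemb Y.rel_pos_surjective).sheet p = q) :
    K.Tq hemb q = 0 := kkgLift_junk hemb K.e K.TP h

theorem E_proj (q : Sheets Y.rel) : IsStarProjection (K.E hemb q) := by
  by_cases h : ∃ p : Gam Y.rel × V, (toSys hemb Y.rel_pos_surjective).sheet p = q
  · obtain ⟨⟨g, v⟩, rfl⟩ := h
    rw [E_sheet]
    exact kkTr_isStarProjection _ K.hEP (K.EP_dom hemb g v)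
  · rw [K.E_junk hemb h]
    exact ⟨by simp [IsIdempotentElem], by simp [IsSelfAdjoint]⟩

theorem E_cut (q : Sheets Y.rel) : specCutV N (kkgV hemb q) * K.E hemb q = K.E hemb q := by
  by_cases h : ∃ p : Gam Y.rel × V, (toSys hemb Y.rel_pos_surjective).sheet p = q
  · obtain ⟨⟨g, v⟩, rfl⟩ := h
    rw [E_sheet]
    exact kkTr_chart_cut hemb K.e K.EP g v
  · rw [K.E_junk hemb h, mul_zero]

theorem E_rho (h : Gam Y.rel) (q : Sheets Y.rel) :
    specRho h * K.E hemb q = K.E hemb (h • q) * specRho h :=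
  kkgLift_rho hemb K.e K.EP K.EP_rho h q

theorem Tq_norm (q : Sheets Y.rel) : ‖K.Tq hemb q‖ ≤ 2 := by
  by_cases h : ∃ p : Gam Y.rel × V, (toSys hemb Y.rel_pos_surjective).sheet p = q
  · obtain ⟨⟨g, v⟩, rfl⟩ := h
    rw [Tq_sheet]
    exact (kkTr_norm_le _ _).trans K.hnorm
  · rw [K.Tq_junk hemb h, norm_zero]; norm_num

theorem form (hχ : 0 ≤ K.χ) (q : Sheets Y.rel) (y : ScL2 (Gam Y.rel × Fin N)) :
    (⟪K.Tq hemb q y, y⟫_ℂ).re ≤ K.c * ‖y‖ ^ 2 + K.χ * ‖K.E hemb q y‖ ^ 2 := by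
  by_cases h : ∃ p : Gam Y.rel × V, (toSys hemb Y.rel_pos_surjective).sheet p = q
  · obtain ⟨⟨g, v⟩, rfl⟩ := h
    rw [Tq_sheet, E_sheet, kkTr_inner, kkTr_norm_apply _ _ (K.EP_dom hemb g v)]
    refine (K.hform _).trans ?_
    have h1 : ‖scPE (kkgChart hemb K.e g v).symm y‖ ^ 2 ≤ ‖y‖ ^ 2 :=
      pow_le_pow_left₀ (norm_nonneg _) (scPE_norm_le _ _) 2
    have := mul_le_mul_of_nonneg_left h1 K.hc
    linarith
  · rw [K.Tq_junk hemb h, K.E_junk hemb h]
    have := K.hc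
    simp only [zero_apply, inner_zero_left, Complex.zero_re, norm_zero]
    positivity

theorem near (q : Sheets Y.rel) (x : ScL2 (Gam Y.rel × Fin N)) (hx : K.E hemb q x = x) :
    ‖K.Tq hemb q x - x‖ ≤ K.a * ‖x‖ := by
  by_cases h : ∃ p : Gam Y.rel × V, (toSys hemb Y.rel_pos_surjective).sheet p = q
  · obtain ⟨⟨g, v⟩, rfl⟩ := h
    rw [E_sheet] at hx
    rw [Tq_sheet]
    set j := kkgChart hemb K.e g v with hj
    set u := K.EP (scPE j.symm x) with hu
    have h1 : scPE j u = x := hx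
    have h2 : scRestr (kkDom j) u = u := kkTr_dom_fix j K.EP (K.EP_dom hemb g v) x
    have h3 : K.EP u = u := by
      have := congrArg (fun A : ScL2 (F × (V × J)) →L[ℂ] ScL2 (F × (V × J)) =>
        A (scPE j.symm x)) K.hEP.isIdempotentElem.eq
      exact this
    have h4 : scPE j.symm x = u := by
      rw [← h1]
      change (scPE j.symm ∘L scPE j) u = u
      rw [scPE_symm_comp, h2]
    have h5 : kkTr j K.TP x - x = scPE j (K.TP u - u) := by
      rw [kkTr_apply, h4, map_sub, h1]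
    have h6 : ‖u‖ = ‖x‖ := by rw [← h1, scPE_norm_of_dom j u h2]
    rw [h5, ← h6]
    exact (scPE_norm_le _ _).trans (K.hnear u h3)
  · rw [K.E_junk hemb h] at hx
    have : x = 0 := hx.symm
    subst this
    simp

/-- diagonal of the local upper projection -/
noncomputable def ee [Fintype J] (v : V) : ℝ := ∑ j : J, ‖K.EP (scDelta ((1 : F), (v, j)))‖ ^ 2

theorem chart_norm (g : Gam Y.rel) (v : V) (j : J) :
    ‖kkTr (kkgChart hemb K.e g v) K.EP (scDelta (g⁻¹, K.e j))‖ =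
      ‖K.EP (scDelta ((1 : F), (v, j)))‖ := by
  rw [kkTr_norm_apply _ _ (K.EP_dom hemb g v), scPE_delta_some (y := ((1 : F), (v, j)))]
  refine (kkgChart_symm_eq_some hemb K.e).2 ⟨?_, rfl⟩
  rw [inv_one, inv_inv]
  exact Dev.refl g (v, 1)

theorem diag [Fintype J] [Nonempty V] (q : Sheets Y.rel) (x : Gam Y.rel) (hx : x ∈ kkgV hemb q) :
    ∑ j : Fin N, ‖K.E hemb q (scDelta (x, j))‖ ^ 2 =
      K.ee ((toSys hemb Y.rel_pos_surjective).gkTy q x⁻¹) := by
  have h1 := DomSys.gkTy_spec (Y := toSys hemb Y.rel_pos_surjective) hx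
  set v := (toSys hemb Y.rel_pos_surjective).gkTy q x⁻¹ with hv
  rw [← h1, E_sheet, ee, ← K.e.sum_comp]
  refine Finset.sum_congr rfl fun j _ => ?_
  have := K.chart_norm hemb x⁻¹ v j
  rw [inv_inv] at this
  rw [this]

theorem E_ne (hne : K.EP ≠ 0) : ∃ q, K.E hemb q ≠ 0 := by
  have h1 : ∃ p, K.EP (scDelta p) ≠ 0 := by
    by_contra hcon
    push Not at hcon
    exact hne (scOp_ext fun p => by rw [hcon p]; rfl)
  obtain ⟨⟨φ, v, j⟩, hp⟩ := h1
  have h2 : K.EP (scDelta ((1 : F), (v, j))) ≠ 0 := by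
    intro h0
    apply hp
    have h3 : scDelta (φ, (v, j)) = specRho φ⁻¹ (scDelta ((1 : F), (v, j))) := by
      rw [specRho_delta, inv_inv, one_mul]
    have h4 := congrArg (fun A : ScL2 (F × (V × J)) →L[ℂ] ScL2 (F × (V × J)) =>
      A (scDelta ((1 : F), (v, j)))) (K.EP_rho φ⁻¹)
    change specRho φ⁻¹ (K.EP (scDelta ((1 : F), (v, j)))) =
      K.EP (specRho φ⁻¹ (scDelta ((1 : F), (v, j)))) at h4
    rw [h3, ← h4, h0, map_zero]
  refine ⟨(toSys hemb Y.rel_pos_surjective).sheet (1, v), fun h0 => h2 ?_⟩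
  have h5 := K.chart_norm hemb 1 v j
  rw [← E_sheet, h0] at h5
  simpa using h5.symm

end KkCoverOps

end Claimed.Agent.R300
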