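/-
Row 300, KK Section 9: VERIFICATION BLOCKS of `kk_laws_proof` (KkLawsMain.lean), part B (scalars, alphabet, truncation).     Architect: helper21.
`c : KkCfg m (kkd ℓ ^ A)` is any configuration with `c.κ = κ`, `c.I = kkH ℓ 0`, …
-/
import Claimed.Agent.R300.KkCfgLoc
import Claimed.Agent.R300.KkNum
import Claimed.Agent.R300.KkEmp

set_option autoImplicit false

namespace Claimed.Agent.R300

open Nil HeisLaw
open scoped ENNReal ComplexConjugate InnerProductSpace Matrix.Norms.L2Operator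

section parts

variable {m A κ ℓ : ℕ} [NeZero (kkd ℓ ^ A)] (c : KkCfg m (kkd ℓ ^ A))

/-- **scalars of the block law** (`blk_c_le`, `kkMaskLaw_c_le`, `kkKi_spec`, `kk_re_im_le`). -/
theorem kkl_blk_c (hm : 0 < m) (hcκ : c.κ = κ) (hκ0 : 0 < κ) (hns : 0 < c.ns) (L Cm BX BS : ℝ) (hL : 0 < L)
    (hCm : 0 ≤ Cm) (hBX0 : 0 ≤ BX) (hcK : c.K = kkKi ℓ A κ L)
    (hf : ∀ i k β n, ‖fourierCoeff (kkC (c.f i k β)) n‖ ≤ Cm * (c.δ * (2 : ℝ) ^ (-((κ : ℝ) * |(i : ℝ)|))))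
    (hBX : ∀ y : ℝ, 0 < y → y ≤ 1 → ∀ a, ‖(kkXLaw (kkd ℓ ^ A) c.w c.Lam y).c a‖ ≤ BX)
    (hS : ∀ i r a, ‖(c.sec i (c.idx i r)).c a‖ ≤ BS) (i k : ℤ) (a : (c.blk i k).Ω) :
    |((c.blk i k).c a).re| + |((c.blk i k).c a).im|
      ≤ 2 * ((4 * c.ns + 1) * (Cm * (2 * L + 3) * (BX * BS))) := by
  have hy1 : ∀ β, c.y1 β ≤ 1 := by
    intro β
    have h := c.y1_pow hm β
    by_contra hcon
    push Not at hcon
    have h2 : 1 < c.y1 β ^ m := one_lt_pow₀ hcon hm.ne'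
    rw [h] at h2
    linarith [c.t_lt β, c.δ_le_one]
  have hδ : c.δ = 1 / ((kkd ℓ ^ A : ℕ) : ℝ) := rfl
  refine (KkCfg.kk_re_im_le _).trans ?_
  refine mul_le_mul_of_nonneg_left ?_ (by norm_num)
  refine c.blk_c_le (Cm * (2 * L + 3)) BX BS (by positivity) hBX0 i k ?_ ?_ (hS i) a
  · intro r a
    refine (kkMaskLaw_c_le _ _ _ _ (hf i k (c.idx i r)) a).trans ?_
    have h2 := (kkKi_spec ℓ A κ L hL i).2.1
    rw [hcK, hδ]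
    calc (2 * (kkKi ℓ A κ L i : ℝ) + 1) * (Cm * (1 / ((kkd ℓ ^ A : ℕ) : ℝ) * (2 : ℝ) ^ (-((κ : ℝ) * |(i : ℝ)|))))
        = Cm * ((2 * (kkKi ℓ A κ L i : ℝ) + 1) * (1 / ((kkd ℓ ^ A : ℕ) : ℝ) * (2 : ℝ) ^ (-((κ : ℝ) * |(i : ℝ)|)))) := by ring
      _ ≤ Cm * (2 * L + 3) := mul_le_mul_of_nonneg_left h2 hCm
  · intro r a
    exact hBX _ (c.y1_pos _) (hy1 _) a

/-- **alphabet** (`alphabet_card_le`, `mats_card_le`, `kkMs_pow_le`; `H_0 = 20010 ℓ + 1`). -/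
theorem kkl_card (hcI : c.I = kkH ℓ 0) (hcM : c.M = kkMs ℓ) (C Cw : ℝ)
    (hCw : 4 * ((c.ns : ℝ) * (c.Bu + 20013) + 3) ≤ Cw) :
    ((c.alphabet C).card : ℝ) ^ 32 ≤ (Cw * (1 + ℓ)) ^ 32 * kkd ℓ := by
  have hI0 : 0 ≤ c.I := by rw [hcI]; positivity
  have h1 : ((c.alphabet C).card : ℝ) ≤ 4 * (c.mats.card : ℝ) := by
    exact_mod_cast c.alphabet_card_le C
  have h2 := c.mats_card_le hI0
  have hIr : (c.I : ℝ) = 20010 * (ℓ : ℝ) + 1 := by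
    rw [hcI]
    unfold kkH
    push_cast
    simp
    ring
  have hns : (0 : ℝ) ≤ c.ns := by positivity
  have hBu : (0 : ℝ) ≤ c.Bu := by positivity
  have hl : (0 : ℝ) ≤ ℓ := by positivity
  have hM : (0 : ℝ) ≤ c.M := by positivity
  have h3 : (c.ns : ℝ) * (c.Bu + c.I + 2) + 3 ≤ ((c.ns : ℝ) * (c.Bu + 20013) + 3) * (1 + ℓ) := by
    rw [hIr]
    nlinarith [mul_nonneg hns hl, mul_nonneg (mul_nonneg hns hBu) hl]
  have h4 : ((c.alphabet C).card : ℝ) ≤ (Cw * (1 + ℓ)) * (kkMs ℓ : ℝ) := by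
    rw [← hcM]
    calc ((c.alphabet C).card : ℝ) ≤ 4 * (c.mats.card : ℝ) := h1
      _ ≤ 4 * (((c.ns : ℝ) * (c.Bu + c.I + 2) + 3) * c.M) := by linarith
      _ ≤ 4 * ((((c.ns : ℝ) * (c.Bu + 20013) + 3) * (1 + ℓ)) * c.M) := by
          have := mul_le_mul_of_nonneg_right h3 hM
          linarith
      _ = (4 * ((c.ns : ℝ) * (c.Bu + 20013) + 3)) * (1 + ℓ) * c.M := by ring
      _ ≤ Cw * (1 + ℓ) * c.M := by
          apply mul_le_mul_of_nonneg_right _ hM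
          apply mul_le_mul_of_nonneg_right hCw (by positivity)
  have h5 : ((kkMs ℓ : ℝ)) ^ 32 ≤ kkd ℓ := by exact_mod_cast kkMs_pow_le ℓ
  calc ((c.alphabet C).card : ℝ) ^ 32 ≤ ((Cw * (1 + ℓ)) * (kkMs ℓ : ℝ)) ^ 32 :=
        pow_le_pow_left₀ (by positivity) h4 32
    _ = (Cw * (1 + ℓ)) ^ 32 * (kkMs ℓ : ℝ) ^ 32 := mul_pow _ _ _
    _ ≤ (Cw * (1 + ℓ)) ^ 32 * kkd ℓ := by
        apply mul_le_mul_of_nonneg_left h5
        exact (even_two_mul 16).pow_nonneg _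

/-- **truncation of the masks** (`mask_trunc`, `kkKi_spec`). -/
theorem kkl_trunc (hcκ : c.κ = κ) (L Cm : ℝ) (hL : 0 < L) (hCm : 0 ≤ Cm) (hcK : c.K = kkKi ℓ A κ L)
    (hf1 : ∀ i k β n, ‖fourierCoeff (kkC (c.f i k β)) n‖ ≤ Cm * (c.δ * (2 : ℝ) ^ (-((κ : ℝ) * |(i : ℝ)|))))
    (hf2 : ∀ i k β, ∀ n : ℤ, (n : ℝ) ^ 2 * ‖fourierCoeff (kkC (c.f i k β)) n‖
      ≤ Cm / (c.δ * (2 : ℝ) ^ (-((κ : ℝ) * |(i : ℝ)|)))) (i k β : ℤ) :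
    ‖kkHom (kkU (Idx m → ZMod (kkd ℓ ^ A)) (Deck.z0 : Deck m ℤ)) (kkC (c.f i k β))
        - (kkMaskLaw (m := m) (kkd ℓ ^ A) (kkC (c.f i k β)) (c.K i)).meanOp‖ ≤ 4 * Cm / L := by
  have hδ : c.δ = 1 / ((kkd ℓ ^ A : ℕ) : ℝ) := rfl
  have hq : (0 : ℝ) < ((kkd ℓ ^ A : ℕ) : ℝ) := by
    have : 0 < kkd ℓ ^ A := Nat.pos_of_ne_zero (NeZero.ne _)
    exact_mod_cast this
  set w : ℝ := c.δ * (2 : ℝ) ^ (-((κ : ℝ) * |(i : ℝ)|)) with hw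
  have hw0 : 0 < w := by
    rw [hw, hδ]; positivity
  have h := c.mask_trunc i k β (Cm * w) (Cm / w) (by positivity) (hf1 i k β) (hf2 i k β)
  refine h.trans ?_
  have hs := (kkKi_spec ℓ A κ L hL i).1
  rw [← hδ, ← hw] at hs
  rw [hcK]
  have hK : (0 : ℝ) < (kkKi ℓ A κ L i : ℝ) + 1 := by positivity
  rw [div_le_div_iff₀ hK hL]
  have e : 4 * (Cm / w) * L = 4 * Cm * (L / w) := by field_simp
  rw [e]
  have : L / w ≤ (kkKi ℓ A κ L i : ℝ) + 1 := by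
    rw [div_le_iff₀ hw0]; linarith
  exact mul_le_mul_of_nonneg_left this (by positivity)

end parts

/-- **arcs**: for large `ℓ` the window is short (`projOk_of`; `δ = 2^(-4 ℓ A) ≤ y0^m`). -/
theorem kkl_delta_small (A : ℕ) (hA : 0 < A) (x : ℝ) (hx : 0 < x) :
    ∃ ℓ₀ : ℕ, ∀ ℓ ≥ ℓ₀, 1 / ((kkd ℓ ^ A : ℕ) : ℝ) ≤ x ∧ ((2 : ℝ) ^ ℓ)⁻¹ ≤ x := by
  obtain ⟨n, hn⟩ := exists_nat_gt (1 / x)
  refine ⟨n, fun ℓ hℓ => ?_⟩
  have h2 : (1 / x) < (2 : ℝ) ^ ℓ := by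
    have h3 : (ℓ : ℝ) < (2 : ℝ) ^ ℓ := by exact_mod_cast Nat.lt_two_pow_self
    have h4 : (n : ℝ) ≤ ℓ := by exact_mod_cast hℓ
    linarith
  have hb : ((2 : ℝ) ^ ℓ)⁻¹ ≤ x := by
    rw [inv_le_comm₀ (by positivity) hx]
    rw [← one_div]; exact h2.le
  refine ⟨?_, hb⟩
  rw [kk_q_eq]
  push_cast
  rw [one_div]
  refine le_trans ?_ hb
  apply inv_anti₀ (by positivity)
  apply pow_le_pow_right₀ (by norm_num)
  nlinarith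

end Claimed.Agent.R300
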