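import Claimed.Agent.R300.ScMat

/-!
# Row 300: `M_N(C*_r(Γ))` on `ℓ²(Γ × Fin N)` is a closed star subalgebra
-/

set_option autoImplicit false
set_option linter.unusedSectionVars false

namespace Claimed.Agent.R300

open scoped ENNReal ComplexConjugate InnerProductSpace

variable {Γ : Type} [Group Γ] {N : ℕ}

theorem scElem_apply (g : Γ) (j k : Fin N) (ξ : ScL2 (Γ × Fin N)) :
    scElem g j k ξ = scCol j (scLam g (scEnt k ξ)) := rfl

theorem scElem_mul_same (g h : Γ) (j k l : Fin N) :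
    scElem g j k * scElem h k l = scElem (g * h) j l := by
  ext1 ξ
  change scCol j (scLam g (scEnt k (scCol k (scLam h (scEnt l ξ))))) = _
  rw [scEnt_col_same, scElem_apply, scLam_mul]
  rfl

theorem scElem_mul_ne (g h : Γ) (j l : Fin N) {k k' : Fin N} (hk : k ≠ k') :
    scElem g j k * scElem h k' l = 0 := by
  ext1 ξ
  change scCol j (scLam g (scEnt k (scCol k' (scLam h (scEnt l ξ))))) = _
  rw [scEnt_col_ne hk]
  simp

theorem scElem_star (g : Γ) (j k : Fin N) : star (scElem g j k) = scElem g⁻¹ k j := by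
  rw [ContinuousLinearMap.star_eq_adjoint, scElem, ContinuousLinearMap.adjoint_comp,
    ContinuousLinearMap.adjoint_comp, scCol_adjoint, scEnt_adjoint,
    ← ContinuousLinearMap.star_eq_adjoint, scLam_star, scElem, ContinuousLinearMap.comp_assoc]

theorem scElem_sum_one : ∑ j : Fin N, scElem (1 : Γ) j j = 1 := by
  ext1 ξ
  have h : (∑ j : Fin N, scElem (1 : Γ) j j) ξ = ∑ j, scCol j (scEnt j ξ) := by
    simp [scElem_apply, scLam_one]
  rw [h, scCol_ent_sum]
  rfl

/-- The set of matrix units. -/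
def scElemSet (Γ : Type) [Group Γ] (N : ℕ) : Set (ScL2 (Γ × Fin N) →L[ℂ] ScL2 (Γ × Fin N)) :=
  {T | ∃ (g : Γ) (j k : Fin N), T = scElem g j k}

/-- `M_N(ℂ[Γ])` as a star subalgebra of `B(ℓ²(Γ × Fin N))`. -/
noncomputable def scMatRing (Γ : Type) [Group Γ] (N : ℕ) :
    StarSubalgebra ℂ (ScL2 (Γ × Fin N) →L[ℂ] ScL2 (Γ × Fin N)) where
  toSubalgebra := (Submodule.span ℂ (scElemSet Γ N)).toSubalgebra
    (by
      rw [← scElem_sum_one]
      exact Submodule.sum_mem _ fun j _ => Submodule.subset_span ⟨1, j, j, rfl⟩)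
    (by
      intro x y hx hy
      have h := Submodule.mul_mem_mul hx hy
      rw [Submodule.span_mul_span] at h
      refine (Submodule.span_le.mpr ?_) h
      rintro _ ⟨_, ⟨g, j, k, rfl⟩, _, ⟨h, k', l, rfl⟩, rfl⟩
      by_cases hk : k = k'
      · subst hk
        change scElem g j k * scElem h k l ∈ _
        rw [scElem_mul_same]
        exact Submodule.subset_span ⟨g * h, j, l, rfl⟩
      · change scElem g j k * scElem h k' l ∈ _
        rw [scElem_mul_ne g h j l hk]
        exact Submodule.zero_mem _)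
  star_mem' := by
    intro x hx
    change x ∈ Submodule.span ℂ (scElemSet Γ N) at hx
    change star x ∈ Submodule.span ℂ (scElemSet Γ N)
    induction hx using Submodule.span_induction with
    | mem x hx =>
      obtain ⟨g, j, k, rfl⟩ := hx
      exact Submodule.subset_span ⟨g⁻¹, k, j, scElem_star g j k⟩
    | zero => simp
    | add x y _ _ hx hy => rw [star_add]; exact Submodule.add_mem _ hx hy
    | smul c x _ hx => rw [star_smul]; exact Submodule.smul_mem _ _ hx

/-- `M_N(C*_r(Γ))` as a closed star subalgebra of `B(ℓ²(Γ × Fin N))`. -/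
noncomputable def scMatAlg (Γ : Type) [Group Γ] (N : ℕ) :
    StarSubalgebra ℂ (ScL2 (Γ × Fin N) →L[ℂ] ScL2 (Γ × Fin N)) :=
  (scMatRing Γ N).topologicalClosure

theorem scMatAlg_coe (Γ : Type) [Group Γ] (N : ℕ) :
    (scMatAlg Γ N : Set (ScL2 (Γ × Fin N) →L[ℂ] ScL2 (Γ × Fin N))) = scMatRed Γ N := rfl

theorem scMatAlg_isClosed (Γ : Type) [Group Γ] (N : ℕ) :
    IsClosed (scMatAlg Γ N : Set (ScL2 (Γ × Fin N) →L[ℂ] ScL2 (Γ × Fin N))) :=
  StarSubalgebra.isClosed_topologicalClosure _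

theorem scElem_mem (g : Γ) (j k : Fin N) : scElem g j k ∈ scMatAlg Γ N :=
  subset_closure (Submodule.subset_span ⟨g, j, k, rfl⟩)

theorem mem_scMatRed_iff (T : ScL2 (Γ × Fin N) →L[ℂ] ScL2 (Γ × Fin N)) :
    T ∈ scMatRed Γ N ↔ T ∈ scMatAlg Γ N := Iff.rfl

end Claimed.Agent.R300
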