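import Claimed.Agent.R300.SpecBlock
import Claimed.Agent.R300.SpecCut
import Claimed.Agent.R300.SpecTrace

/-!
# Row 300, KK Section 10: Theorem B (Cayley half)  (owner: helper236, prefix `spec`)

Abstract form of everything in Section 10 of the KK paper after Lemma "copy-cut":
from the indexed copies, their assigned domains, the residual (forest) error and the local upper
projections to the spectral gap of the Cayley operator `T`, the nonvanishing of its upper band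
projection `p₀` and the bound of its unnormalised trace.

Conventions: `H = ℓ²(Γ × Fin N)`; the operator `T` is built from LEFT translations, hence commutes
with the right translations `specRho h`; `Γ` acts on the index set `Q` of copies.
-/

set_option autoImplicit false

namespace Claimed.Agent.R300

open scoped ENNReal ComplexConjugate InnerProductSpace

/-- cut-off to the vertices in `A ⊆ Γ` (all matrix indices). -/
noncomputable def specCutV {Γ : Type} (N : ℕ) (A : Set Γ) :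
    ScL2 (Γ × Fin N) →L[ℂ] ScL2 (Γ × Fin N) := scRestr {p : Γ × Fin N | p.1 ∈ A}

/-- The data and hypotheses of Theorem B. -/
structure SpecCopyData (Γ : Type) [Group Γ] (N : ℕ) (Q 𝒱 : Type) [MulAction Γ Q] where
  /-- the Cayley operator -/
  T : ScL2 (Γ × Fin N) →L[ℂ] ScL2 (Γ × Fin N)
  /-- its block diagonal part (edges internal to the assigned domains) -/
  TD : ScL2 (Γ × Fin N) →L[ℂ] ScL2 (Γ × Fin N)
  /-- adjacency of the copy `q` -/
  Tq : Q → ScL2 (Γ × Fin N) →L[ℂ] ScL2 (Γ × Fin N)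
  /-- upper projection of the copy `q` -/
  E : Q → ScL2 (Γ × Fin N) →L[ℂ] ScL2 (Γ × Fin N)
  /-- vertex set of the copy -/
  V : Q → Set Γ
  /-- assigned domain -/
  D : Q → Set Γ
  /-- base type of an incidence -/
  ty : Q → Γ → 𝒱
  /-- diagonal of the local upper projection at a base vertex -/
  e : 𝒱 → ℝ
  /-- weight of a base vertex -/
  w : 𝒱 → ℝ
  c : ℝ
  χ : ℝ
  a : ℝ
  f : ℝ
  S : ℝ
  hT : IsSelfAdjoint T
  hTeq : ∀ h : Γ, specRho h * T = T * specRho h
  hDV : ∀ q, D q ⊆ V q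
  hDdisj : ∀ q q', q ≠ q' → Disjoint (D q) (D q')
  hE : ∀ q, IsStarProjection (E q)
  hEV : ∀ q, specCutV N (V q) * E q = E q
  hEeq : ∀ (h : Γ) (q : Q), specRho h * E q = E (h • q) * specRho h
  hform : ∀ q y, (⟪Tq q y, y⟫_ℂ).re ≤ c * ‖y‖ ^ 2 + χ * ‖E q y‖ ^ 2
  hnorm : ∀ q, ‖Tq q‖ ≤ 2
  hnear : ∀ q x, E q x = x → ‖Tq q x - x‖ ≤ a * ‖x‖
  hinc : ∀ (x : Γ) (v : 𝒱), ∃! q, x ∈ V q ∧ ty q x = v
  hdiag : ∀ q x, x ∈ V q → ∑ j : Fin N, ‖E q (scDelta (x, j))‖ ^ 2 = e (ty q x)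
  hfin : ∀ q, (V q \ D q).Finite
  hcard : ∀ q x, x ∈ V q \ D q → ((V q \ D q).ncard : ℝ) ≤ w (ty q x)
  hw : ∀ v, 1 ≤ w v
  hS : HasSum (fun v => w v * e v) S
  hblock : ∀ q, TD * specCutV N (D q) = specCutV N (D q) * Tq q * specCutV N (D q)
  hrest : TD * specCutV N (⋃ q, D q)ᶜ = 0
  hf : ‖T - TD‖ ≤ f
  hc : 0 ≤ c
  hχ : 0 < χ
  hS1 : S < 1
  hgap : c + f + 2 * χ * S < 1 - a - 4 * Real.sqrt S - 2 * S - f

namespace SpecCopyData

variable {Γ : Type} [Group Γ] {N : ℕ} {Q 𝒱 : Type} [MulAction Γ Q] (d : SpecCopyData Γ N Q 𝒱)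

/-- lower edge of the gap -/
def c₀ : ℝ := d.c + d.f
/-- upper edge of the gap -/
noncomputable def c₁ : ℝ := 1 - d.a - 4 * Real.sqrt d.S - 2 * d.S - d.f
/-- the upper band projection of the Cayley operator -/
noncomputable def p₀ : ScL2 (Γ × Fin N) →L[ℂ] ScL2 (Γ × Fin N) := specProj d.c₀ d.c₁ d.T

theorem e_nonneg (v : 𝒱) : 0 ≤ d.e v := by
  obtain ⟨q, ⟨hq1, hq2⟩, _⟩ := d.hinc 1 v
  rw [← hq2, ← d.hdiag q 1 hq1]
  positivity

theorem S_nonneg : 0 ≤ d.S :=
  d.hS.nonneg fun v => mul_nonneg (zero_le_one.trans (d.hw v)) (d.e_nonneg v)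

theorem summable_e : Summable d.e :=
  Summable.of_nonneg_of_le d.e_nonneg
    (fun v => le_mul_of_one_le_left (d.e_nonneg v) (d.hw v)) d.hS.summable

/-- incidence count at a fixed vertex. -/
theorem tsum_incidence (u : Γ) (φ : 𝒱 → ℝ≥0∞) :
    ∑' q, Set.indicator {q | u ∈ d.V q} (fun q => φ (d.ty q u)) q = ∑' v, φ v := by
  have hbij : Function.Bijective (fun q : ({q | u ∈ d.V q} : Set Q) => d.ty q u) := by
    constructor
    · rintro ⟨q, hq⟩ ⟨q', hq'⟩ h
      obtain ⟨q₀, _, huniq⟩ := d.hinc u (d.ty q u)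
      have h1 := huniq q ⟨hq, rfl⟩
      have h2 := huniq q' ⟨hq', h.symm⟩
      exact Subtype.ext (h1.trans h2.symm)
    · intro v
      obtain ⟨q, ⟨hq1, hq2⟩, _⟩ := d.hinc u v
      exact ⟨⟨q, hq1⟩, hq2⟩
  rw [← tsum_subtype {q | u ∈ d.V q} (fun q => φ (d.ty q u))]
  exact (Equiv.ofBijective _ hbij).tsum_eq φ

/-- the removed part of a copy, as a finset. -/
noncomputable def cutSet (q : Q) : Finset Γ := (d.hfin q).toFinset

theorem mem_cutSet {q : Q} {u : Γ} : u ∈ d.cutSet q ↔ u ∈ d.V q \ d.D q := by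
  simp [cutSet]

theorem card_cutSet_le {q : Q} {u : Γ} (hu : u ∈ d.cutSet q) :
    ((d.cutSet q).card : ℝ) ≤ d.w (d.ty q u) := by
  have h1 := d.hcard q u (d.mem_cutSet.mp hu)
  rwa [Set.ncard_eq_toFinset_card _ (d.hfin q)] at h1

/-- paper: first weighted sum (one trimming ball, repeated lifts allowed). -/
theorem sum_cutSet_le (q : Q) : ∑ u ∈ d.cutSet q, d.e (d.ty q u) ≤ d.S := by
  classical
  set A := d.cutSet q with hA
  set B := A.image (d.ty q) with hB
  have h1 : ∑ u ∈ A, d.e (d.ty q u) = ∑ v ∈ B, ∑ u ∈ A with d.ty q u = v, d.e (d.ty q u) :=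
    (Finset.sum_fiberwise_of_maps_to (fun u hu => Finset.mem_image_of_mem _ hu) _).symm
  rw [h1]
  refine le_trans (Finset.sum_le_sum (f := fun v => ∑ u ∈ A with d.ty q u = v, d.e (d.ty q u))
    (g := fun v => d.w v * d.e v) ?_) ?_
  · intro v hv
    obtain ⟨u₀, hu₀, rfl⟩ := Finset.mem_image.mp hv
    have h2 : ∑ u ∈ A with d.ty q u = d.ty q u₀, d.e (d.ty q u)
        = ((A.filter fun u => d.ty q u = d.ty q u₀).card : ℝ) * d.e (d.ty q u₀) := by
      rw [Finset.sum_congr rfl (g := fun _ => d.e (d.ty q u₀))]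
      · simp
      · intro u hu
        rw [(Finset.mem_filter.mp hu).2]
    show ∑ u ∈ A with d.ty q u = d.ty q u₀, d.e (d.ty q u) ≤ _
    rw [h2]
    refine mul_le_mul_of_nonneg_right ?_ (d.e_nonneg _)
    refine le_trans ?_ (d.card_cutSet_le hu₀)
    exact_mod_cast Finset.card_filter_le _ _
  · exact sum_le_hasSum B (fun v _ => mul_nonneg (zero_le_one.trans (d.hw v)) (d.e_nonneg v)) d.hS

theorem cutV_cutSet (q : Q) :
    specCutV N (d.V q \ d.D q) = scRestr ((d.cutSet q ×ˢ (Finset.univ : Finset (Fin N)) :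
      Finset (Γ × Fin N)) : Set (Γ × Fin N)) := by
  unfold specCutV
  congr 1
  ext p
  simp [mem_cutSet]

theorem sum_prod_cutSet (q : Q) :
    ∑ p ∈ d.cutSet q ×ˢ (Finset.univ : Finset (Fin N)), ‖d.E q (scDelta p)‖ ^ 2
      = ∑ u ∈ d.cutSet q, d.e (d.ty q u) := by
  rw [Finset.sum_product]
  refine Finset.sum_congr rfl fun u hu => ?_
  exact d.hdiag q u (d.mem_cutSet.mp hu).1

/-- paper (spec:ball-HS): `‖1_{I_Q} E_Q‖² ≤ S`. -/
theorem norm_cut_E_le (q : Q) (x : ScL2 (Γ × Fin N)) :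
    ‖specCutV N (d.V q \ d.D q) (d.E q x)‖ ^ 2 ≤ d.S * ‖x‖ ^ 2 := by
  rw [cutV_cutSet]
  refine (spec_restr_finset_norm_sq_le _ (d.hE q).isSelfAdjoint x).trans ?_
  rw [sum_prod_cutSet]
  exact mul_le_mul_of_nonneg_right (d.sum_cutSet_le q) (by positivity)

theorem sub_cutD_eq (q : Q) {x : ScL2 (Γ × Fin N)} (hx : d.E q x = x) :
    x - specCutV N (d.D q) x = specCutV N (d.V q \ d.D q) (d.E q x) := by
  have hV : specCutV N (d.V q) x = x := by
    have := congrArg (fun S : ScL2 (Γ × Fin N) →L[ℂ] ScL2 (Γ × Fin N) => S x) (d.hEV q)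
    simpa [hx] using this
  rw [hx]
  ext p
  have hVp : p.1 ∉ d.V q → x p = 0 := by
    intro hp
    rw [← hV]
    exact scRestr_apply_not_mem x hp
  by_cases hD : p.1 ∈ d.D q
  · have h1 : specCutV N (d.D q) x p = x p := scRestr_apply_mem x hD
    have h2 : specCutV N (d.V q \ d.D q) x p = 0 := scRestr_apply_not_mem x (fun h => h.2 hD)
    simp [h1, h2]
  · have h1 : specCutV N (d.D q) x p = 0 := scRestr_apply_not_mem x hD
    by_cases hVq : p.1 ∈ d.V q
    · have h2 : specCutV N (d.V q \ d.D q) x p = x p := scRestr_apply_mem x ⟨hVq, hD⟩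
      simp [h1, h2]
    · have h2 : specCutV N (d.V q \ d.D q) x p = 0 := scRestr_apply_not_mem x (fun h => hVq h.1)
      simp [h1, h2, hVp hVq]

/-- the cutting hypothesis of the block theorem. -/
theorem hcut (q : Q) (x : ScL2 (Γ × Fin N)) (hx : d.E q x = x) :
    ‖x - specCutV N (d.D q) x‖ ≤ Real.sqrt d.S * ‖x‖ := by
  rw [d.sub_cutD_eq q hx]
  have h1 := d.norm_cut_E_le q x
  have h2 : (Real.sqrt d.S * ‖x‖) ^ 2 = d.S * ‖x‖ ^ 2 := by
    rw [mul_pow, Real.sq_sqrt d.S_nonneg]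
  rw [← h2] at h1
  exact le_of_sq_le_sq h1 (by positivity)

/-- squared norm of the value of `ξ` at the vertex `u`. -/
noncomputable def vnorm (ξ : ScL2 (Γ × Fin N)) (u : Γ) : ℝ := ∑ j : Fin N, ‖ξ (u, j)‖ ^ 2

omit [Group Γ] in
theorem vnorm_nonneg (ξ : ScL2 (Γ × Fin N)) (u : Γ) : 0 ≤ vnorm ξ u := by
  unfold vnorm; positivity

omit [Group Γ] in
theorem tsum_vnorm (ξ : ScL2 (Γ × Fin N)) :
    ∑' u, ENNReal.ofReal (vnorm ξ u) = ENNReal.ofReal (‖ξ‖ ^ 2) := by
  rw [spec_ofReal_norm_sq, ENNReal.tsum_prod']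
  refine tsum_congr fun u => ?_
  rw [tsum_fintype, vnorm, ENNReal.ofReal_sum_of_nonneg (fun _ _ => by positivity)]

/-- paper (spec:finite-cut-CS), with the ball size already paid by the weight. -/
theorem norm_E_cut_sq_le (q : Q) (ξ : ScL2 (Γ × Fin N)) :
    ‖d.E q (specCutV N (d.V q \ d.D q) ξ)‖ ^ 2
      ≤ ∑ u ∈ d.cutSet q, (d.w (d.ty q u) * d.e (d.ty q u)) * vnorm ξ u := by
  classical
  set A := d.cutSet q with hA
  set t : Γ → ℝ := fun u => Real.sqrt (vnorm ξ u) * Real.sqrt (d.e (d.ty q u)) with ht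
  have h1 : ‖d.E q (specCutV N (d.V q \ d.D q) ξ)‖ ≤ ∑ u ∈ A, t u := by
    rw [cutV_cutSet, spec_restr_finset, map_sum]
    refine (norm_sum_le _ _).trans ?_
    rw [Finset.sum_product]
    refine Finset.sum_le_sum fun u hu => ?_
    have h2 : ∀ j : Fin N, ‖d.E q (ξ (u, j) • scDelta (u, j))‖
        = ‖ξ (u, j)‖ * ‖d.E q (scDelta (u, j))‖ := by
      intro j
      rw [map_smul, norm_smul]
    simp only [h2]
    have h3 := Real.sum_mul_le_sqrt_mul_sqrt (Finset.univ : Finset (Fin N))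
      (fun j => ‖ξ (u, j)‖) (fun j => ‖d.E q (scDelta (u, j))‖)
    rw [d.hdiag q u (d.mem_cutSet.mp hu).1] at h3
    exact h3
  have h0 : 0 ≤ ∑ u ∈ A, t u := Finset.sum_nonneg fun u _ => by positivity
  have h4 : ‖d.E q (specCutV N (d.V q \ d.D q) ξ)‖ ^ 2 ≤ (∑ u ∈ A, t u) ^ 2 :=
    pow_le_pow_left₀ (norm_nonneg _) h1 2
  refine h4.trans (sq_sum_le_card_mul_sum_sq.trans ?_)
  rw [Finset.mul_sum]
  refine Finset.sum_le_sum fun u hu => ?_
  have h5 : t u ^ 2 = vnorm ξ u * d.e (d.ty q u) := by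
    rw [ht]
    simp only
    rw [mul_pow, Real.sq_sqrt (vnorm_nonneg ξ u), Real.sq_sqrt (d.e_nonneg _)]
  rw [h5]
  have h6 := d.card_cutSet_le hu
  have h7 : 0 ≤ vnorm ξ u * d.e (d.ty q u) := mul_nonneg (vnorm_nonneg ξ u) (d.e_nonneg _)
  calc ((A.card : ℝ)) * (vnorm ξ u * d.e (d.ty q u))
      ≤ d.w (d.ty q u) * (vnorm ξ u * d.e (d.ty q u)) := mul_le_mul_of_nonneg_right h6 h7
    _ = _ := by ring

/-- paper Lemma "lost-restrictions": `∑_Q ‖E_Q (ξ|_{I_Q})‖² ≤ S ‖ξ‖²`. -/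
theorem tsum_E_cut_le (ξ : ScL2 (Γ × Fin N)) :
    ∑' q, ENNReal.ofReal (‖d.E q (specCutV N (d.V q \ d.D q) ξ)‖ ^ 2)
      ≤ ENNReal.ofReal (d.S * ‖ξ‖ ^ 2) := by
  classical
  have hwe : ∀ v, 0 ≤ d.w v * d.e v := fun v =>
    mul_nonneg (zero_le_one.trans (d.hw v)) (d.e_nonneg v)
  -- termwise bound by a sum over all incidences
  have h1 : ∀ q, ENNReal.ofReal (‖d.E q (specCutV N (d.V q \ d.D q) ξ)‖ ^ 2)
      ≤ ∑' u, Set.indicator {q | u ∈ d.V q}
        (fun q => ENNReal.ofReal (d.w (d.ty q u) * d.e (d.ty q u)) * ENNReal.ofReal (vnorm ξ u)) q := by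
    intro q
    refine (ENNReal.ofReal_le_ofReal (d.norm_E_cut_sq_le q ξ)).trans ?_
    rw [ENNReal.ofReal_sum_of_nonneg (fun u _ => mul_nonneg (hwe _) (vnorm_nonneg ξ u))]
    refine le_trans (Finset.sum_le_sum fun u hu => ?_) (ENNReal.sum_le_tsum (d.cutSet q))
    have hu' : q ∈ {q | u ∈ d.V q} := (d.mem_cutSet.mp hu).1
    rw [Set.indicator_of_mem hu', ENNReal.ofReal_mul (hwe _)]
  refine (ENNReal.tsum_le_tsum h1).trans ?_
  rw [ENNReal.tsum_comm]
  have h2 : ∀ u, ∑' q, Set.indicator {q | u ∈ d.V q}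
        (fun q => ENNReal.ofReal (d.w (d.ty q u) * d.e (d.ty q u)) * ENNReal.ofReal (vnorm ξ u)) q
      = ENNReal.ofReal d.S * ENNReal.ofReal (vnorm ξ u) := by
    intro u
    rw [d.tsum_incidence u (fun v => ENNReal.ofReal (d.w v * d.e v) * ENNReal.ofReal (vnorm ξ u)),
      ENNReal.tsum_mul_right, ← ENNReal.ofReal_tsum_of_nonneg hwe d.hS.summable, d.hS.tsum_eq]
  simp_rw [h2]
  rw [ENNReal.tsum_mul_left, tsum_vnorm, ← ENNReal.ofReal_mul d.S_nonneg]

/-! ### Application of the block theorem -/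

open Classical in
/-- the copy to which a vertex is assigned. -/
noncomputable def home (p : Γ × Fin N) : Option Q :=
  if h : ∃ q, p.1 ∈ d.D q then some h.choose else none

theorem home_fiber_some (q : Q) : d.home ⁻¹' {some q} = {p : Γ × Fin N | p.1 ∈ d.D q} := by
  classical
  ext p
  simp only [Set.mem_preimage, Set.mem_singleton_iff, Set.mem_ofPred_eq, home]
  constructor
  · intro h
    split_ifs at h with hex
    have h1 := hex.choose_spec
    rw [Option.some.inj h] at h1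
    exact h1
  · intro h
    have hex : ∃ q, p.1 ∈ d.D q := ⟨q, h⟩
    rw [dif_pos hex]
    congr 1
    by_contra hne
    exact (Set.disjoint_left.mp (d.hDdisj _ _ hne)) hex.choose_spec h

theorem home_fiber_none :
    d.home ⁻¹' {none} = {p : Γ × Fin N | p.1 ∈ (⋃ q, d.D q)ᶜ} := by
  classical
  ext p
  simp only [Set.mem_preimage, Set.mem_singleton_iff, Set.mem_ofPred_eq, home, Set.mem_compl_iff,
    Set.mem_iUnion]
  constructor
  · intro h
    split_ifs at h with hex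
    exact hex
  · intro h
    rw [dif_neg h]

/-- the resolution of the identity given by the assigned domains. -/
noncomputable def J (o : Option Q) : ScL2 (Γ × Fin N) →L[ℂ] ScL2 (Γ × Fin N) :=
  scRestr (d.home ⁻¹' {o})

theorem J_some (q : Q) : d.J (some q) = specCutV N (d.D q) := by
  unfold J specCutV; rw [home_fiber_some]

theorem J_none : d.J none = specCutV N (⋃ q, d.D q)ᶜ := by
  unfold J specCutV; rw [home_fiber_none]

/-- block operators, extended by zero to the unassigned part. -/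
noncomputable def Tq' : Option Q → ScL2 (Γ × Fin N) →L[ℂ] ScL2 (Γ × Fin N)
  | some q => d.Tq q
  | none => 0

/-- block projections, extended by zero to the unassigned part. -/
noncomputable def E' : Option Q → ScL2 (Γ × Fin N) →L[ℂ] ScL2 (Γ × Fin N)
  | some q => d.E q
  | none => 0

theorem hJ (o : Option Q) : IsStarProjection (d.J o) := spec_restr_isStarProjection _

theorem hJJ (o o' : Option Q) (h : o ≠ o') : d.J o * d.J o' = 0 := by
  refine spec_restr_mul_of_disjoint ?_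
  rw [Set.disjoint_left]
  intro p hp hp'
  exact h (hp.symm.trans hp')

theorem hJsum (y : ScL2 (Γ × Fin N)) : HasSum (fun o => d.J o y) y :=
  spec_restr_hasSum_fiber d.home y

theorem hE' (o : Option Q) : IsStarProjection (d.E' o) := by
  cases o with
  | some q => exact d.hE q
  | none => exact ⟨by simp [E', IsIdempotentElem], by simp [E']⟩

theorem hblock' (o : Option Q) : d.TD * d.J o = d.J o * d.Tq' o * d.J o := by
  cases o with
  | some q => rw [J_some]; exact d.hblock q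
  | none => rw [J_none, d.hrest]; simp [Tq']

theorem hform' (o : Option Q) (y : ScL2 (Γ × Fin N)) :
    (⟪d.Tq' o y, y⟫_ℂ).re ≤ d.c * ‖y‖ ^ 2 + d.χ * ‖d.E' o y‖ ^ 2 := by
  cases o with
  | some q => exact d.hform q y
  | none =>
    have := d.hc
    simp only [Tq', E', zero_apply, inner_zero_left, Complex.zero_re, norm_zero]
    have h2 : 0 ≤ d.c * ‖y‖ ^ 2 := mul_nonneg this (by positivity)
    simpa using h2

theorem hnorm' (o : Option Q) : ‖d.Tq' o‖ ≤ 2 := by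
  cases o with
  | some q => exact d.hnorm q
  | none => simp [Tq']

theorem hnear' (o : Option Q) (x : ScL2 (Γ × Fin N)) (hx : d.E' o x = x) :
    ‖d.Tq' o x - x‖ ≤ d.a * ‖x‖ := by
  cases o with
  | some q => exact d.hnear q x hx
  | none =>
    have : x = 0 := by simpa [E'] using hx.symm
    simp [this]

theorem hcut' (o : Option Q) (x : ScL2 (Γ × Fin N)) (hx : d.E' o x = x) :
    ‖x - d.J o x‖ ≤ Real.sqrt d.S * ‖x‖ := by
  cases o with
  | some q => rw [J_some]; exact d.hcut q x hx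
  | none =>
    have : x = 0 := by simpa [E'] using hx.symm
    simp [this]

theorem c₁_eq : d.c₁ = 1 - d.a - 4 * Real.sqrt d.S - 2 * Real.sqrt d.S ^ 2 - d.f := by
  rw [Real.sq_sqrt d.S_nonneg]; rfl

theorem c₀_lt_c₁ : d.c₀ < d.c₁ := by
  have h1 := d.hgap
  have h2 : 0 ≤ 2 * d.χ * d.S := mul_nonneg (by linarith [d.hχ]) d.S_nonneg
  unfold c₀ c₁
  linarith

theorem f_nonneg : 0 ≤ d.f := (norm_nonneg _).trans d.hf

theorem hpos : 0 ≤ 1 - d.a - 4 * Real.sqrt d.S - 2 * Real.sqrt d.S ^ 2 := by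
  have h1 := d.c₀_lt_c₁
  rw [c₁_eq] at h1
  have := d.hc
  have := d.f_nonneg
  unfold c₀ at h1
  linarith

/-- **the spectral gap of the Cayley operator** (paper (spec:global-spectrum)). -/
theorem specGap : SpecGap d.T d.c₀ d.c₁ := by
  rw [c₁_eq]
  exact spec_blocks_gap d.hT d.hJ d.hJJ d.hJsum d.hE' d.hblock' d.hf d.hform' d.hnorm' d.hnear'
    d.hcut' d.hpos

theorem p₀_isStarProjection : IsStarProjection d.p₀ :=
  specProj_isStarProjection d.c₀_lt_c₁ d.specGap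

theorem sqrt_S_lt_one : Real.sqrt d.S < 1 := by
  rw [Real.sqrt_lt' one_pos]; simpa using d.hS1

theorem p₀_ne_zero {q : Q} (hq : d.E q ≠ 0) : d.p₀ ≠ 0 := by
  have h01 := d.c₀_lt_c₁
  rw [c₁_eq] at h01
  have := spec_blocks_ne_zero d.hT d.hJ d.hJJ d.hJsum d.hE' d.hblock' d.hf d.hform' d.hnorm'
    d.hnear' d.hcut' d.hpos d.sqrt_S_lt_one h01 (q := some q) hq
  unfold p₀
  rw [c₁_eq]
  exact this

theorem p₀_commute (h : Γ) : specRho h * d.p₀ = d.p₀ * specRho h :=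
  ((specProj_commute (show Commute d.T (specRho h) from (d.hTeq h).symm) d.c₀ d.c₁).eq).symm

/-! ### The trace bound -/

theorem hEV' (q : Q) : d.E q * specCutV N (d.V q) = d.E q := by
  have h1 := congrArg star (d.hEV q)
  have h2 : star (specCutV N (d.V q)) = specCutV N (d.V q) :=
    (spec_restr_isStarProjection {p : Γ × Fin N | p.1 ∈ d.V q}).isSelfAdjoint.star_eq
  rw [star_mul, (d.hE q).isSelfAdjoint.star_eq, h2] at h1
  exact h1

theorem E_cutD_eq (q : Q) (y : ScL2 (Γ × Fin N)) :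
    d.E q (specCutV N (d.D q) y) = d.E q y - d.E q (specCutV N (d.V q \ d.D q) y) := by
  have h1 : d.E q y = d.E q (specCutV N (d.V q) y) := by
    have := congrArg (fun S : ScL2 (Γ × Fin N) →L[ℂ] ScL2 (Γ × Fin N) => S y) (d.hEV' q)
    simpa using this.symm
  have h2 : specCutV N (d.V q) y = specCutV N (d.D q) y + specCutV N (d.V q \ d.D q) y := by
    ext p
    by_cases hD : p.1 ∈ d.D q
    · have e1 : specCutV N (d.V q) y p = y p := scRestr_apply_mem y (d.hDV q hD)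
      have e2 : specCutV N (d.D q) y p = y p := scRestr_apply_mem y hD
      have e3 : specCutV N (d.V q \ d.D q) y p = 0 := scRestr_apply_not_mem y (fun h => h.2 hD)
      simp [e1, e2, e3]
    · have e2 : specCutV N (d.D q) y p = 0 := scRestr_apply_not_mem y hD
      by_cases hV : p.1 ∈ d.V q
      · have e1 : specCutV N (d.V q) y p = y p := scRestr_apply_mem y hV
        have e3 : specCutV N (d.V q \ d.D q) y p = y p := scRestr_apply_mem y ⟨hV, hD⟩
        simp [e1, e2, e3]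
      · have e1 : specCutV N (d.V q) y p = 0 := scRestr_apply_not_mem y hV
        have e3 : specCutV N (d.V q \ d.D q) y p = 0 := scRestr_apply_not_mem y (fun h => hV h.1)
        simp [e1, e2, e3]
  rw [h1, h2, map_add]
  abel

theorem tsum_EJ_le (y : ScL2 (Γ × Fin N)) :
    ENNReal.ofReal (∑' o, ‖d.E' o (d.J o y)‖ ^ 2)
      ≤ 2 * ∑' q, ENNReal.ofReal (‖d.E q y‖ ^ 2) + 2 * ENNReal.ofReal (d.S * ‖y‖ ^ 2) := by
  rw [ENNReal.ofReal_tsum_of_nonneg (fun _ => by positivity)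
    (spec_summable_proj d.hJ d.hJsum d.hE' y)]
  have h1 : ∑' o, ENNReal.ofReal (‖d.E' o (d.J o y)‖ ^ 2)
      = ∑' q, ENNReal.ofReal (‖d.E q (specCutV N (d.D q) y)‖ ^ 2) := by
    have hinj : Function.Injective (some : Q → Option Q) := Option.some_injective Q
    have hsupp : Function.support (fun o => ENNReal.ofReal (‖d.E' o (d.J o y)‖ ^ 2))
        ⊆ Set.range (some : Q → Option Q) := by
      intro o ho
      cases o with
      | some q => exact ⟨q, rfl⟩
      | none => exact absurd (by simp [E']) ho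
    rw [← hinj.tsum_eq hsupp]
    refine tsum_congr fun q => ?_
    rw [J_some]; rfl
  rw [h1]
  have h2 : ∀ q, ENNReal.ofReal (‖d.E q (specCutV N (d.D q) y)‖ ^ 2)
      ≤ 2 * ENNReal.ofReal (‖d.E q y‖ ^ 2)
        + 2 * ENNReal.ofReal (‖d.E q (specCutV N (d.V q \ d.D q) y)‖ ^ 2) := by
    intro q
    rw [E_cutD_eq]
    set u := d.E q y
    set v := d.E q (specCutV N (d.V q \ d.D q) y)
    have h3 : ‖u - v‖ ^ 2 ≤ 2 * ‖u‖ ^ 2 + 2 * ‖v‖ ^ 2 := by
      have h4 : ‖u - v‖ ≤ ‖u‖ + ‖v‖ := norm_sub_le u v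
      have h5 : ‖u - v‖ ^ 2 ≤ (‖u‖ + ‖v‖) ^ 2 := pow_le_pow_left₀ (norm_nonneg _) h4 2
      nlinarith [sq_nonneg (‖u‖ - ‖v‖)]
    refine (ENNReal.ofReal_le_ofReal h3).trans ?_
    rw [ENNReal.ofReal_add (by positivity) (by positivity), ENNReal.ofReal_mul (by norm_num),
      ENNReal.ofReal_mul (by norm_num)]
    simp
  refine (ENNReal.tsum_le_tsum h2).trans ?_
  rw [ENNReal.tsum_add, ENNReal.tsum_mul_left, ENNReal.tsum_mul_left]
  gcongr
  exact d.tsum_E_cut_le y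

/-- the constant of the trace bound. -/
noncomputable def κ : ℝ := d.c₁ - d.c₀ - 2 * d.χ * d.S

theorem κ_pos : 0 < d.κ := by
  have := d.hgap
  unfold κ c₀ c₁
  linarith

/-- on the upper band of `T` the restrictions to all local upper spaces are bounded below. -/
theorem key_lower {y : ScL2 (Γ × Fin N)} (hy : d.p₀ y = y) :
    ENNReal.ofReal (d.κ * ‖y‖ ^ 2)
      ≤ ENNReal.ofReal (2 * d.χ) * ∑' q, ENNReal.ofReal (‖d.E q y‖ ^ 2) := by
  have hχ := d.hχ
  set A : ℝ≥0∞ := ∑' q, ENNReal.ofReal (‖d.E q y‖ ^ 2) with hA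
  by_cases hAtop : A = ⊤
  · rw [hAtop, ENNReal.mul_top]
    · exact le_top
    · simp only [ne_eq, ENNReal.ofReal_eq_zero, not_le]; linarith
  set R : ℝ := ∑' o, ‖d.E' o (d.J o y)‖ ^ 2 with hR
  have h1 : d.c₁ * ‖y‖ ^ 2 ≤ (⟪d.T y, y⟫_ℂ).re :=
    specProj_form_lower d.hT d.c₀_lt_c₁ d.specGap hy
  have h2 : (⟪d.T y, y⟫_ℂ).re ≤ d.c₀ * ‖y‖ ^ 2 + d.χ * R :=
    spec_blocks_form d.hJ d.hJsum d.hE' d.hblock' d.hf d.hform' y
  have h3 := d.tsum_EJ_le y
  rw [← hA, ← hR] at h3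
  have h4 : R ≤ 2 * A.toReal + 2 * (d.S * ‖y‖ ^ 2) := by
    have hSy : 0 ≤ d.S * ‖y‖ ^ 2 := mul_nonneg d.S_nonneg (by positivity)
    have h5 : 2 * A + 2 * ENNReal.ofReal (d.S * ‖y‖ ^ 2)
        = ENNReal.ofReal (2 * A.toReal + 2 * (d.S * ‖y‖ ^ 2)) := by
      have e1 : ENNReal.ofReal (2 * A.toReal) = 2 * A := by
        rw [ENNReal.ofReal_mul (by norm_num), ENNReal.ofReal_toReal hAtop]; simp
      have e2 : ENNReal.ofReal (2 * (d.S * ‖y‖ ^ 2)) = 2 * ENNReal.ofReal (d.S * ‖y‖ ^ 2) := by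
        rw [ENNReal.ofReal_mul (by norm_num)]; simp
      rw [ENNReal.ofReal_add (by positivity) (by positivity), e1, e2]
    rw [h5] at h3
    exact (ENNReal.ofReal_le_ofReal_iff (by positivity)).mp h3
  have h6 : d.κ * ‖y‖ ^ 2 ≤ 2 * d.χ * A.toReal := by
    unfold κ
    nlinarith
  refine (ENNReal.ofReal_le_ofReal h6).trans ?_
  rw [ENNReal.ofReal_mul (by linarith), ENNReal.ofReal_toReal hAtop]

theorem p₀_norm_le : ‖d.p₀‖ ≤ 1 := by
  refine ContinuousLinearMap.opNorm_le_bound _ zero_le_one fun x => ?_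
  rw [one_mul]
  exact spec_proj_norm_le d.p₀_isStarProjection x

theorem specHS_E (q : Q) :
    specHS (d.E q) = Set.indicator {q | (1 : Γ) ∈ d.V q}
      (fun q => ENNReal.ofReal (d.e (d.ty q 1))) q := by
  unfold specHS
  by_cases h1 : (1 : Γ) ∈ d.V q
  · rw [Set.indicator_of_mem (show q ∈ {q | (1 : Γ) ∈ d.V q} from h1), tsum_fintype,
      ← ENNReal.ofReal_sum_of_nonneg (fun _ _ => by positivity), d.hdiag q 1 h1]
  · rw [Set.indicator_of_notMem (show q ∉ {q | (1 : Γ) ∈ d.V q} from h1)]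
    have h2 : ∀ j : Fin N, d.E q (scDelta ((1 : Γ), j)) = 0 := by
      intro j
      have h3 := congrArg (fun S : ScL2 (Γ × Fin N) →L[ℂ] ScL2 (Γ × Fin N) =>
        S (scDelta ((1 : Γ), j))) (d.hEV' q)
      have h4 : specCutV N (d.V q) (scDelta ((1 : Γ), j)) = 0 :=
        spec_restr_delta_not_mem (by simpa using h1)
      simp only [mul_apply_eq_comp, h4, map_zero] at h3
      exact h3.symm
    simp [h2]

theorem tsum_specHS_E : ∑' q, specHS (d.E q) = ENNReal.ofReal (∑' v, d.e v) := by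
  simp_rw [specHS_E]
  rw [d.tsum_incidence 1 (fun v => ENNReal.ofReal (d.e v)),
    ENNReal.ofReal_tsum_of_nonneg d.e_nonneg d.summable_e]

/-- **the trace bound** (paper (spec:strict-trace), with an explicit constant instead of `1`). -/
theorem trace_le :
    d.κ * ∑ j : Fin N, ‖d.p₀ (scDelta ((1 : Γ), j))‖ ^ 2 ≤ 2 * d.χ * ∑' v, d.e v := by
  have hχ := d.hχ
  have hκ := d.κ_pos
  have hidem : ∀ x, d.p₀ (d.p₀ x) = d.p₀ x := by
    intro x
    have := congrArg (fun S : ScL2 (Γ × Fin N) →L[ℂ] ScL2 (Γ × Fin N) => S x)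
      d.p₀_isStarProjection.isIdempotentElem.eq
    simpa using this
  have h1 : ENNReal.ofReal (d.κ * ∑ j : Fin N, ‖d.p₀ (scDelta ((1 : Γ), j))‖ ^ 2)
      ≤ ENNReal.ofReal (2 * d.χ) * ∑' q, specHS (d.E q * d.p₀) := by
    rw [Finset.mul_sum, ENNReal.ofReal_sum_of_nonneg (fun _ _ => by positivity)]
    refine (Finset.sum_le_sum fun j _ => d.key_lower (hidem (scDelta ((1 : Γ), j)))).trans ?_
    rw [← Finset.mul_sum]
    gcongr
    unfold specHS
    rw [ENNReal.tsum_comm, tsum_fintype]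
    exact le_of_eq rfl
  have h2 : ∑' q, specHS (d.E q * d.p₀) = ∑' q, specHS (star (d.E q * d.p₀)) := by
    refine specHS_family (fun q => d.E q * d.p₀) ?_
    intro h q
    rw [← mul_assoc, d.hEeq h q, mul_assoc, d.p₀_commute h, mul_assoc]
  have h3 : ∑' q, specHS (star (d.E q * d.p₀)) ≤ ∑' q, specHS (d.E q) := by
    refine ENNReal.tsum_le_tsum fun q => ?_
    rw [star_mul, (d.hE q).isSelfAdjoint.star_eq, d.p₀_isStarProjection.isSelfAdjoint.star_eq]
    exact specHS_mul_le_one _ _ d.p₀_norm_le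
  rw [h2] at h1
  have h4 := h1.trans (mul_le_mul_right h3 _)
  rw [tsum_specHS_E, ← ENNReal.ofReal_mul (by linarith)] at h4
  have h5 : 0 ≤ 2 * d.χ * ∑' v, d.e v :=
    mul_nonneg (by linarith) (tsum_nonneg d.e_nonneg)
  exact (ENNReal.ofReal_le_ofReal_iff h5).mp h4

/-- a nonzero equivariant projection has positive trace. -/
theorem trace_pos (h : d.p₀ ≠ 0) : 0 < ∑ j : Fin N, ‖d.p₀ (scDelta ((1 : Γ), j))‖ ^ 2 := by
  by_contra hcon
  apply h
  have h0 : ∑ j : Fin N, ‖d.p₀ (scDelta ((1 : Γ), j))‖ ^ 2 = 0 :=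
    le_antisymm (not_lt.mp hcon) (by positivity)
  have h1 : ∀ j : Fin N, d.p₀ (scDelta ((1 : Γ), j)) = 0 := by
    intro j
    have := (Finset.sum_eq_zero_iff_of_nonneg (fun _ _ => by positivity)).mp h0 j (Finset.mem_univ j)
    simpa using this
  refine scOp_ext fun p => ?_
  obtain ⟨x, j⟩ := p
  have h2 : scDelta (x, j) = specRho x⁻¹ (scDelta ((1 : Γ), j)) := by
    rw [specRho_delta]; simp
  have h3 := congrArg (fun S : ScL2 (Γ × Fin N) →L[ℂ] ScL2 (Γ × Fin N) =>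
    S (scDelta ((1 : Γ), j))) (d.p₀_commute x⁻¹)
  simp only [mul_apply_eq_comp, h1 j, map_zero] at h3
  rw [h2, ← h3]
  simp

/-- **Theorem B.**  Summary: the upper band projection of the Cayley operator is a nonzero star
projection, lies in every closed star subalgebra containing `T`, and its unnormalised trace lies
strictly between `0` and `1/2` as soon as `4 χ ∑ e_v < κ`. -/
theorem main (hq : ∃ q, d.E q ≠ 0) (hsmall : 4 * d.χ * ∑' v, d.e v < d.κ) :
    IsStarProjection d.p₀ ∧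
    (∀ A : StarSubalgebra ℂ (ScL2 (Γ × Fin N) →L[ℂ] ScL2 (Γ × Fin N)),
      IsClosed (A : Set (ScL2 (Γ × Fin N) →L[ℂ] ScL2 (Γ × Fin N))) → d.T ∈ A → d.p₀ ∈ A) ∧
    0 < ∑ j : Fin N, (⟪d.p₀ (scDelta ((1 : Γ), j)), scDelta ((1 : Γ), j)⟫_ℂ).re ∧
    ∑ j : Fin N, (⟪d.p₀ (scDelta ((1 : Γ), j)), scDelta ((1 : Γ), j)⟫_ℂ).re < 1 / 2 := by
  obtain ⟨q, hq⟩ := hq
  have e1 : ∑ j : Fin N, (⟪d.p₀ (scDelta ((1 : Γ), j)), scDelta ((1 : Γ), j)⟫_ℂ).re
      = ∑ j : Fin N, ‖d.p₀ (scDelta ((1 : Γ), j))‖ ^ 2 :=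
    Finset.sum_congr rfl fun j _ => spec_proj_inner d.p₀_isStarProjection _
  rw [e1]
  refine ⟨d.p₀_isStarProjection, fun A hA hT => specProj_mem hA hT _ _,
    d.trace_pos (d.p₀_ne_zero hq), ?_⟩
  have h1 := d.trace_le
  have h2 := d.κ_pos
  by_contra hcon
  have h3 : (1 : ℝ) / 2 ≤ ∑ j : Fin N, ‖d.p₀ (scDelta ((1 : Γ), j))‖ ^ 2 := not_lt.mp hcon
  nlinarith

end SpecCopyData

end Claimed.Agent.R300
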