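import Claimed.Agent.R300.ScPE
import Claimed.Agent.R300.ScMatAlg
import Claimed.Agent.R300.SpecCayley

/-!
# Row 300, KK paper: operator lemmas for the glue "cover → Cayley graph"

* `kkT g m = λ_g ⊗ m` on `ℓ²(Γ × I)`: fibres, entries, adjoint, norm, membership in `M_N(C*_r Γ)`,
  commutation with the right translations and covariance of the cut-offs;
* `kk_sum_cut_norm_le`: `‖∑ A_i χ_{B_i}‖ ≤ w √#ι` for pairwise disjoint `B_i` (forest bound);
* `kkTr j A = J A J*` for the partial isometry `J` of a partial bijection `j`;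
* commutation criteria in terms of matrix entries.
-/

set_option autoImplicit false

namespace Claimed.Agent.R300

open scoped ENNReal ComplexConjugate InnerProductSpace

section Fib

variable {X Y I : Type}

theorem scFib_delta_same (x : X) (k : I) : scFib x (scDelta (x, k)) = scDelta k := by
  classical
  ext j
  rw [scFib_apply, scDelta_apply, scDelta_apply]
  simp

theorem scFib_delta_ne {x y : X} (h : y ≠ x) (k : I) : scFib y (scDelta (x, k)) = 0 := by
  ext j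
  rw [scFib_apply, scDelta_ne]
  · rfl
  · intro h'
    exact h (Prod.mk.inj h').1

theorem scFib_restr_mem {A : Set X} {x : X} (hx : x ∈ A) (ξ : ScL2 (X × I)) :
    scFib x (scRestr {p : X × I | p.1 ∈ A} ξ) = scFib x ξ := by
  ext j
  rw [scFib_apply, scFib_apply, scRestr_apply_mem]
  exact hx

theorem scFib_restr_not_mem {A : Set X} {x : X} (hx : x ∉ A) (ξ : ScL2 (X × I)) :
    scFib x (scRestr {p : X × I | p.1 ∈ A} ξ) = 0 := by
  ext j
  rw [scFib_apply, scRestr_apply_not_mem]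
  · rfl
  · exact hx

theorem sc_norm_le_of_apply_le (ξ η : ScL2 X) (h : ∀ x, ‖η x‖ ≤ ‖ξ x‖) : ‖η‖ ≤ ‖ξ‖ := by
  have h1 : ‖η‖ ^ 2 ≤ ‖ξ‖ ^ 2 :=
    hasSum_le (fun x => pow_le_pow_left₀ (norm_nonneg _) (h x) 2) (scL2_hasSum_sq η)
      (scL2_hasSum_sq ξ)
  exact (pow_le_pow_iff_left₀ (norm_nonneg _) (norm_nonneg _) two_ne_zero).1 h1

theorem scRestr_norm_le (B : Set X) (ξ : ScL2 X) : ‖scRestr B ξ‖ ≤ ‖ξ‖ := by
  refine sc_norm_le_of_apply_le ξ _ fun x => ?_
  by_cases hx : x ∈ B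
  · rw [scRestr_apply_mem _ hx]
  · rw [scRestr_apply_not_mem _ hx]; simp

/-- Bessel for cut-offs to pairwise disjoint sets. -/
theorem sc_sum_restr_sq_le {ι : Type*} (s : Finset ι) (B : ι → Set X)
    (hB : ∀ i ∈ s, ∀ j ∈ s, i ≠ j → Disjoint (B i) (B j)) (ξ : ScL2 X) :
    ∑ i ∈ s, ‖scRestr (B i) ξ‖ ^ 2 ≤ ‖ξ‖ ^ 2 := by
  classical
  rw [← sc_norm_sq_sum_of_disjoint s (fun i => scRestr (B i) ξ)]
  · refine pow_le_pow_left₀ (norm_nonneg _) (sc_norm_le_of_apply_le ξ _ fun x => ?_) 2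
    rw [scL2_sum_apply]
    by_cases hx : ∃ i ∈ s, x ∈ B i
    · obtain ⟨i, hi, hxi⟩ := hx
      rw [Finset.sum_eq_single i, scRestr_apply_mem _ hxi]
      · intro j hj hji
        refine scRestr_apply_not_mem _ fun hxj => ?_
        exact Set.disjoint_left.1 (hB j hj i hi hji) hxj hxi
      · intro h; exact absurd hi h
    · rw [Finset.sum_eq_zero]
      · simp
      · intro i hi
        exact scRestr_apply_not_mem _ fun hxi => hx ⟨i, hi, hxi⟩
  · intro i hi j hj hij x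
    by_cases hxi : x ∈ B i
    · right
      exact scRestr_apply_not_mem _ fun hxj => Set.disjoint_left.1 (hB i hi j hj hij) hxi hxj
    · left
      exact scRestr_apply_not_mem _ hxi

/-- **Forest bound.** -/
theorem kk_sum_cut_norm_le {ι : Type*} [Fintype ι] {E : Type*} [NormedAddCommGroup E]
    [NormedSpace ℂ E] (A : ι → ScL2 X →L[ℂ] E) (B : ι → Set X) (w : ℝ) (hw : 0 ≤ w)
    (hA : ∀ i, ‖A i‖ ≤ w) (hB : ∀ i j, i ≠ j → Disjoint (B i) (B j)) :
    ‖∑ i, A i ∘L scRestr (B i)‖ ≤ w * Real.sqrt (Fintype.card ι) := by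
  refine ContinuousLinearMap.opNorm_le_bound _ (by positivity) fun ξ => ?_
  have h1 : ‖(∑ i, A i ∘L scRestr (B i)) ξ‖ ≤ ∑ i, w * ‖scRestr (B i) ξ‖ := by
    rw [sum_apply]
    refine (norm_sum_le _ _).trans (Finset.sum_le_sum fun i _ => ?_)
    exact ((A i).le_opNorm _).trans (mul_le_mul_of_nonneg_right (hA i) (norm_nonneg _))
  have h2 : (∑ i, ‖scRestr (B i) ξ‖) ^ 2 ≤ (Fintype.card ι : ℝ) * ‖ξ‖ ^ 2 := by
    refine (sq_sum_le_card_mul_sum_sq (s := Finset.univ)).trans ?_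
    rw [Finset.card_univ]
    exact mul_le_mul_of_nonneg_left
      (sc_sum_restr_sq_le Finset.univ B (fun i _ j _ hij => hB i j hij) ξ) (by positivity)
  have h3 : ∑ i, ‖scRestr (B i) ξ‖ ≤ Real.sqrt (Fintype.card ι) * ‖ξ‖ := by
    refine Real.le_sqrt_of_sq_le ?_ |>.trans ?_ (b := Real.sqrt ((Fintype.card ι : ℝ) * ‖ξ‖ ^ 2))
    · exact h2
    · rw [Real.sqrt_mul (by positivity), Real.sqrt_sq (norm_nonneg _)]
  calc ‖(∑ i, A i ∘L scRestr (B i)) ξ‖ ≤ w * ∑ i, ‖scRestr (B i) ξ‖ := by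
        rw [Finset.mul_sum]; exact h1
    _ ≤ w * (Real.sqrt (Fintype.card ι) * ‖ξ‖) := mul_le_mul_of_nonneg_left h3 hw
    _ = w * Real.sqrt (Fintype.card ι) * ‖ξ‖ := by ring

end Fib

section Grp

variable {Γ : Type} [Group Γ] {I : Type}

/-- `λ_g ⊗ m` on `ℓ²(Γ × I)`. -/
noncomputable def kkT (g : Γ) (m : ScL2 I →L[ℂ] ScL2 I) : ScL2 (Γ × I) →L[ℂ] ScL2 (Γ × I) :=
  scW Γ m ∘L scPL (Equiv.mulLeft g).toPEquiv

theorem kkT_fib (g : Γ) (m : ScL2 I →L[ℂ] ScL2 I) (ξ : ScL2 (Γ × I)) (x : Γ) :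
    scFib x (kkT g m ξ) = m (scFib (g⁻¹ * x) ξ) := by
  change scFib x (scW Γ m (scPL _ ξ)) = _
  rw [scFib_W, scFib_PL_some (x := g⁻¹ * x)]
  simp [Equiv.toPEquiv_apply]

theorem kkT_apply (g : Γ) (m : ScL2 I →L[ℂ] ScL2 I) (ξ : ScL2 (Γ × I)) (x : Γ) (j : I) :
    kkT g m ξ (x, j) = m (scFib (g⁻¹ * x) ξ) j := by
  rw [← scFib_apply, kkT_fib]

theorem kkT_delta_apply (g : Γ) (m : ScL2 I →L[ℂ] ScL2 I) (y : Γ) (k : I) (x : Γ) (j : I)
    [Decidable (x = g * y)] :
    kkT g m (scDelta (y, k)) (x, j) = if x = g * y then m (scDelta k) j else 0 := by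
  rw [kkT_apply]
  by_cases h : x = g * y
  · rw [if_pos h, h, inv_mul_cancel_left, scFib_delta_same]
  · rw [if_neg h, scFib_delta_ne, map_zero]
    · rfl
    · intro h'
      exact h (by rw [← h', mul_inv_cancel_left])

theorem kkT_norm_le (g : Γ) (m : ScL2 I →L[ℂ] ScL2 I) : ‖kkT g m‖ ≤ ‖m‖ := by
  refine (ContinuousLinearMap.opNorm_comp_le _ _).trans ?_
  calc ‖scW Γ m‖ * ‖(scPL (Equiv.mulLeft g).toPEquiv : ScL2 (Γ × I) →L[ℂ] ScL2 (Γ × I))‖
      ≤ ‖m‖ * 1 := mul_le_mul (scW_norm_le m) (scPE_opNorm_le _) (norm_nonneg _) (norm_nonneg _)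
    _ = ‖m‖ := mul_one _

theorem kkT_star (g : Γ) (m : ScL2 I →L[ℂ] ScL2 I) : star (kkT g m) = kkT g⁻¹ (star m) := by
  rw [ContinuousLinearMap.star_eq_adjoint, kkT, ContinuousLinearMap.adjoint_comp, scPL_adjoint,
    ← ContinuousLinearMap.star_eq_adjoint, scW_star, ← scW_comp_PL, kkT,
    ← Equiv.toPEquiv_symm, Equiv.mulLeft_symm]

theorem scFib_rho (h x : Γ) (ξ : ScL2 (Γ × I)) : scFib x (specRho h ξ) = scFib (x * h) ξ := rfl

theorem kkT_rho (g h : Γ) (m : ScL2 I →L[ℂ] ScL2 I) :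
    specRho h * kkT g m = kkT g m * specRho h := by
  ext1 ξ
  refine scFib_ext fun x => ?_
  change scFib x (specRho h (kkT g m ξ)) = scFib x (kkT g m (specRho h ξ))
  rw [scFib_rho, kkT_fib, kkT_fib, scFib_rho, mul_assoc]

/-- covariance of the cut-offs -/
theorem kkT_cut (g : Γ) (m : ScL2 I →L[ℂ] ScL2 I) (A : Set Γ) :
    scRestr {p : Γ × I | p.1 ∈ A} * kkT g m =
      kkT g m * scRestr {p : Γ × I | g * p.1 ∈ A} := by
  ext1 ξ
  refine scFib_ext fun x => ?_
  change scFib x (scRestr _ (kkT g m ξ)) = scFib x (kkT g m (scRestr _ ξ))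
  rw [kkT_fib]
  by_cases hx : x ∈ A
  · have h := scFib_restr_mem (A := {y | g * y ∈ A}) (x := g⁻¹ * x) (by simpa using hx) ξ
    rw [scFib_restr_mem hx, kkT_fib]
    exact congrArg m h.symm
  · have h := scFib_restr_not_mem (A := {y | g * y ∈ A}) (x := g⁻¹ * x) (by simpa using hx) ξ
    rw [scFib_restr_not_mem hx]
    exact ((congrArg m h).trans (map_zero m)).symm

theorem scOp_sum_apply {X Y : Type} {ι : Type*} (s : Finset ι) (T : ι → ScL2 X →L[ℂ] ScL2 Y)
    (ξ : ScL2 X) (y : Y) : (∑ i ∈ s, T i) ξ y = ∑ i ∈ s, T i ξ y := by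
  rw [sum_apply, scL2_sum_apply]

theorem sc_fin_expand [Fintype I] (η : ScL2 I) : η = ∑ k, η k • scDelta k := by
  classical
  ext i
  rw [scL2_sum_apply, Finset.sum_eq_single i]
  · simp
  · intro k _ hk
    have : scDelta k i = 0 := scDelta_ne (Ne.symm hk)
    simp [this]
  · intro h; exact absurd (Finset.mem_univ i) h

theorem sc_fin_apply [Fintype I] (m : ScL2 I →L[ℂ] ScL2 I) (η : ScL2 I) (i : I) :
    m η i = ∑ k, m (scDelta k) i * η k := by
  conv_lhs => rw [sc_fin_expand η, map_sum, scL2_sum_apply]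
  refine Finset.sum_congr rfl fun k _ => ?_
  rw [map_smul]
  simp [mul_comm]

theorem kkT_eq_sum {N : ℕ} (g : Γ) (m : ScL2 (Fin N) →L[ℂ] ScL2 (Fin N)) :
    kkT g m = ∑ j, ∑ k, m (scDelta k) j • scElem g j k := by
  ext1 ξ
  ext ⟨x, i⟩
  have h1 : ∀ j, (∑ k, m (scDelta k) j • scElem g j k) ξ (x, i) =
      if j = i then ∑ k, m (scDelta k) i * ξ (g⁻¹ * x, k) else 0 := by
    intro j
    rw [scOp_sum_apply]
    by_cases hj : j = i
    · subst hj
      rw [if_pos rfl]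
      refine Finset.sum_congr rfl fun k _ => ?_
      have : (m (scDelta k) j • scElem g j k) ξ (x, j) =
          m (scDelta k) j * scElem g j k ξ (x, j) := rfl
      rw [this, scElem_apply_same]
    · rw [if_neg hj]
      refine Finset.sum_eq_zero fun k _ => ?_
      have : (m (scDelta k) j • scElem g j k) ξ (x, i) =
          m (scDelta k) j * scElem g j k ξ (x, i) := rfl
      rw [this, scElem_apply_ne g (Ne.symm hj), mul_zero]
  rw [scOp_sum_apply, Finset.sum_congr rfl fun j _ => h1 j, Finset.sum_ite_eq' Finset.univ i,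
    if_pos (Finset.mem_univ i), kkT_apply, sc_fin_apply]
  rfl

theorem kkT_mem {N : ℕ} (g : Γ) (m : ScL2 (Fin N) →L[ℂ] ScL2 (Fin N)) :
    kkT g m ∈ scMatAlg Γ N := by
  rw [kkT_eq_sum]
  exact sum_mem fun j _ => sum_mem fun k _ => (scMatAlg Γ N).smul_mem (scElem_mem g j k) _

end Grp

section Tr

variable {X Y Z : Type}

/-- the domain of a partial bijection -/
def kkDom (j : X ≃. Y) : Set X := {x | (j x).isSome}

theorem mem_kkDom {j : X ≃. Y} {x : X} : x ∈ kkDom j ↔ ∃ y, j x = some y :=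
  Option.isSome_iff_exists

theorem scPE_symm_comp (j : X ≃. Y) : scPE j.symm ∘L scPE j = scRestr (kkDom j) := by
  refine scOp_ext fun x => ?_
  change scPE j.symm (scPE j (scDelta x)) = _
  by_cases hx : x ∈ kkDom j
  · obtain ⟨y, hy⟩ := mem_kkDom.1 hx
    rw [scPE_delta_some hy, scPE_delta_some (j.eq_some_iff.2 hy), scRestr_delta_mem hx]
  · have hn : j x = none := by
      rcases h : j x with _ | y
      · rfl
      · exact absurd (mem_kkDom.2 ⟨y, h⟩) hx
    rw [scPE_delta_none hn, map_zero, scRestr_delta_not_mem hx]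

theorem scPE_comp_restr (j : X ≃. Y) : scPE j ∘L scRestr (kkDom j) = scPE j := by
  refine scOp_ext fun x => ?_
  change scPE j (scRestr _ (scDelta x)) = _
  by_cases hx : x ∈ kkDom j
  · rw [scRestr_delta_mem hx]
  · have hn : j x = none := by
      rcases h : j x with _ | y
      · rfl
      · exact absurd (mem_kkDom.2 ⟨y, h⟩) hx
    rw [scRestr_delta_not_mem hx, map_zero, scPE_delta_none hn]

theorem scRestr_scPE_symm (j : X ≃. Y) (η : ScL2 Y) :
    scRestr (kkDom j) (scPE j.symm η) = scPE j.symm η := by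
  ext x
  by_cases hx : x ∈ kkDom j
  · rw [scRestr_apply_mem _ hx]
  · have hn : j x = none := by
      rcases h : j x with _ | y
      · rfl
      · exact absurd (mem_kkDom.2 ⟨y, h⟩) hx
    rw [scRestr_apply_not_mem _ hx, scPE_apply_none]
    simpa using hn

theorem scPE_norm_of_dom (j : X ≃. Y) (u : ScL2 X) (hu : scRestr (kkDom j) u = u) :
    ‖scPE j u‖ = ‖u‖ := by
  refine le_antisymm (scPE_norm_le j u) ?_
  have h : scPE j.symm (scPE j u) = u := by
    change (scPE j.symm ∘L scPE j) u = u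
    rw [scPE_symm_comp, hu]
  calc ‖u‖ = ‖scPE j.symm (scPE j u)‖ := by rw [h]
    _ ≤ ‖scPE j u‖ := scPE_norm_le _ _

/-- transport of an operator by a partial bijection: `J A J*`. -/
noncomputable def kkTr (j : X ≃. Y) (A : ScL2 X →L[ℂ] ScL2 X) : ScL2 Y →L[ℂ] ScL2 Y :=
  scPE j ∘L A ∘L scPE j.symm

theorem kkTr_apply (j : X ≃. Y) (A : ScL2 X →L[ℂ] ScL2 X) (η : ScL2 Y) :
    kkTr j A η = scPE j (A (scPE j.symm η)) := rfl

theorem kkTr_star (j : X ≃. Y) (A : ScL2 X →L[ℂ] ScL2 X) :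
    star (kkTr j A) = kkTr j (star A) := by
  rw [ContinuousLinearMap.star_eq_adjoint, kkTr, ContinuousLinearMap.adjoint_comp,
    ContinuousLinearMap.adjoint_comp, scPE_adjoint, scPE_adjoint, PEquiv.symm_symm,
    ← ContinuousLinearMap.star_eq_adjoint, kkTr, ContinuousLinearMap.comp_assoc]

theorem kkTr_norm_le (j : X ≃. Y) (A : ScL2 X →L[ℂ] ScL2 X) : ‖kkTr j A‖ ≤ ‖A‖ := by
  refine ContinuousLinearMap.opNorm_le_bound _ (norm_nonneg _) fun η => ?_
  rw [kkTr_apply]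
  exact (scPE_norm_le _ _).trans ((A.le_opNorm _).trans
    (mul_le_mul_of_nonneg_left (scPE_norm_le _ _) (norm_nonneg _)))

theorem kkTr_mul (j : X ≃. Y) (A B : ScL2 X →L[ℂ] ScL2 X) :
    kkTr j A * kkTr j B = kkTr j (A * scRestr (kkDom j) * B) := by
  ext1 η
  change scPE j (A (scPE j.symm (scPE j (B (scPE j.symm η))))) = _
  have h : scPE j.symm (scPE j (B (scPE j.symm η))) = scRestr (kkDom j) (B (scPE j.symm η)) := by
    rw [← scPE_symm_comp]; rfl
  rw [h]; rfl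

theorem kkTr_mul_of_comm (j : X ≃. Y) (A B : ScL2 X →L[ℂ] ScL2 X)
    (hB : scRestr (kkDom j) * B = B * scRestr (kkDom j)) :
    kkTr j A * kkTr j B = kkTr j (A * B) := by
  rw [kkTr_mul, mul_assoc, hB]
  ext1 η
  change scPE j (A (B (scRestr (kkDom j) (scPE j.symm η)))) = _
  rw [scRestr_scPE_symm]; rfl

theorem kkTr_isStarProjection (j : X ≃. Y) {E : ScL2 X →L[ℂ] ScL2 X} (hE : IsStarProjection E)
    (hC : scRestr (kkDom j) * E = E * scRestr (kkDom j)) : IsStarProjection (kkTr j E) := by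
  refine ⟨?_, ?_⟩
  · change kkTr j E * kkTr j E = kkTr j E
    rw [kkTr_mul_of_comm j E E hC, hE.isIdempotentElem.eq]
  · change star (kkTr j E) = kkTr j E
    rw [kkTr_star, hE.isSelfAdjoint.star_eq]

theorem kkTr_dom_fix (j : X ≃. Y) (A : ScL2 X →L[ℂ] ScL2 X)
    (hC : scRestr (kkDom j) * A = A * scRestr (kkDom j)) (η : ScL2 Y) :
    scRestr (kkDom j) (A (scPE j.symm η)) = A (scPE j.symm η) := by
  have h := congrArg (fun S : ScL2 X →L[ℂ] ScL2 X => S (scPE j.symm η)) hC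
  change scRestr (kkDom j) (A (scPE j.symm η)) = A (scRestr (kkDom j) (scPE j.symm η)) at h
  rw [h, scRestr_scPE_symm]

theorem kkTr_norm_apply (j : X ≃. Y) (A : ScL2 X →L[ℂ] ScL2 X)
    (hC : scRestr (kkDom j) * A = A * scRestr (kkDom j)) (η : ScL2 Y) :
    ‖kkTr j A η‖ = ‖A (scPE j.symm η)‖ := by
  rw [kkTr_apply]
  exact scPE_norm_of_dom j _ (kkTr_dom_fix j A hC η)

theorem kkTr_inner (j : X ≃. Y) (A : ScL2 X →L[ℂ] ScL2 X) (η : ScL2 Y) :
    ⟪kkTr j A η, η⟫_ℂ = ⟪A (scPE j.symm η), scPE j.symm η⟫_ℂ := by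
  rw [kkTr_apply, ← scPE_adjoint j, ContinuousLinearMap.adjoint_inner_right]

theorem kkTr_entry_some (j : X ≃. Y) (A : ScL2 X →L[ℂ] ScL2 X) {x x' : X} {y y' : Y}
    (hx : j x = some y) (hx' : j x' = some y') : kkTr j A (scDelta y) y' = A (scDelta x) x' := by
  rw [kkTr_apply, scPE_delta_some (j.eq_some_iff.2 hx), scPE_apply_some j _ hx']

theorem kkTr_delta_none (j : X ≃. Y) (A : ScL2 X →L[ℂ] ScL2 X) {y : Y} (hy : j.symm y = none) :
    kkTr j A (scDelta y) = 0 := by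
  rw [kkTr_apply, scPE_delta_none hy, map_zero, map_zero]

theorem kkTr_apply_none (j : X ≃. Y) (A : ScL2 X →L[ℂ] ScL2 X) (η : ScL2 Y) {y : Y}
    (hy : j.symm y = none) : kkTr j A η y = 0 := by
  rw [kkTr_apply, scPE_apply_none j _ hy]

theorem kkTr_trans (p : X ≃. Y) (j : Y ≃. Z) (A : ScL2 X →L[ℂ] ScL2 X) :
    kkTr (p.trans j) A = kkTr j (kkTr p A) := by
  have h : (p.trans j).symm = j.symm.trans p.symm := rfl
  rw [kkTr, h, scPE_trans, scPE_trans]
  rfl

theorem kkTr_bot (A : ScL2 X →L[ℂ] ScL2 X) : kkTr (⊥ : X ≃. Y) A = 0 := by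
  rw [kkTr, scPE_bot]; simp

/-- transport by a bijection whose operator commutes with `A`. -/
theorem kkTr_of_comm (e : X ≃ X) (A : ScL2 X →L[ℂ] ScL2 X)
    (h : scPE e.toPEquiv * A = A * scPE e.toPEquiv) : kkTr e.toPEquiv A = A := by
  have h1 : kkTr e.toPEquiv A = (scPE e.toPEquiv * A) * scPE e.toPEquiv.symm := rfl
  rw [h1, h, mul_assoc, scPE_mul, PEquiv.symm_trans_self]
  have h2 : PEquiv.ofSet {a : X | (e.toPEquiv.symm a).isSome} = PEquiv.refl X := by
    refine scPEquiv_ext fun x y => ?_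
    rw [PEquiv.ofSet_eq_some_iff, PEquiv.refl_apply]
    constructor
    · rintro ⟨rfl, _⟩; rfl
    · intro h
      have h' : x = y := Option.some.inj h
      refine ⟨h'.symm, ?_⟩
      subst h'
      simp [← Equiv.toPEquiv_symm, Equiv.toPEquiv_apply]
  rw [h2, scPE_refl, mul_one]

theorem sc_restr_comm_of_entries (A : ScL2 X →L[ℂ] ScL2 X) (C : Set X)
    (h : ∀ x y, A (scDelta y) x ≠ 0 → (x ∈ C ↔ y ∈ C)) : scRestr C * A = A * scRestr C := by
  refine scOp_ext fun y => ?_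
  ext x
  change scRestr C (A (scDelta y)) x = A (scRestr C (scDelta y)) x
  by_cases h0 : A (scDelta y) x = 0
  · by_cases hx : x ∈ C
    · rw [scRestr_apply_mem _ hx, h0]
      by_cases hy : y ∈ C
      · rw [scRestr_delta_mem hy, h0]
      · rw [scRestr_delta_not_mem hy, map_zero]; rfl
    · rw [scRestr_apply_not_mem _ hx]
      by_cases hy : y ∈ C
      · rw [scRestr_delta_mem hy, h0]
      · rw [scRestr_delta_not_mem hy, map_zero]; rfl
  · by_cases hx : x ∈ C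
    · rw [scRestr_apply_mem _ hx, scRestr_delta_mem ((h x y h0).1 hx)]
    · rw [scRestr_apply_not_mem _ hx, scRestr_delta_not_mem (fun hy => hx ((h x y h0).2 hy)),
        map_zero]; rfl

end Tr

section Rho

variable {G : Type} [Group G] {I : Type}

/-- right translation by `h⁻¹` of the group coordinate -/
def kkRhoE (h : G) : G × I ≃ G × I where
  toFun p := (p.1 * h⁻¹, p.2)
  invFun p := (p.1 * h, p.2)
  left_inv p := by simp
  right_inv p := by simp

theorem specRho_eq_scPE (h : G) :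
    (specRho h : ScL2 (G × I) →L[ℂ] ScL2 (G × I)) = scPE (kkRhoE h).toPEquiv := by
  refine scOp_ext fun p => ?_
  obtain ⟨x, i⟩ := p
  rw [specRho_delta, scPE_delta_some (y := (x * h⁻¹, i))]
  rfl

theorem sc_rho_comm_of_entries (A : ScL2 (G × I) →L[ℂ] ScL2 (G × I))
    (h : ∀ (f y : G) (k : I) (x : G) (i : I),
      A (scDelta (y * f, k)) (x * f, i) = A (scDelta (y, k)) (x, i)) (f : G) :
    specRho f * A = A * specRho f := by
  refine scOp_ext fun p => ?_
  obtain ⟨y, k⟩ := p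
  ext ⟨x, i⟩
  change specRho f (A (scDelta (y, k))) (x, i) = A (specRho f (scDelta (y, k))) (x, i)
  rw [specRho_apply, specRho_delta, ← h f (y * f⁻¹) k x i, inv_mul_cancel_right]

end Rho

end Claimed.Agent.R300
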