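import Claimed.Agent.R300.KkAdapt
import Claimed.Agent.R300.GeoKKTower

/-!
# Row 300, KK paper: the dictionary between `KkModel` (edges, voltages `z`, weights `W`) and the
geometry (`Shell.VGraph`, refined alphabet)

For `𝕋 : KkTower l ε`, `z : 𝕋.toGraph.E0 → F`, `W : 𝕋.toGraph.E0 → Matrix J J ℂ` with values in a
finite set `WW`:
* `𝕋.kkVol z` : voltages in the format of `KkTower.gkGraph`;
* `𝕋.kkTag W hW` : the tag (matrix weight) of the positive edge issued from `a` with the letter `σ`;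
* `𝕋.kkYv z W hW` : the refined graph with voltages; its group is the KK group.
-/

set_option autoImplicit false

namespace Claimed.Agent.R300

open Shell

namespace KkTower

variable {l : ℕ} {ε : ℝ} (𝕋 : KkTower l ε)

open Classical in
/-- the positive edge issued from `a` with the letter `σ` -/
noncomputable def outE (a : 𝕋.V0) (σ : 𝕋.S) : Option 𝕋.toGraph.E0 :=
  if h : ∃ b, 𝕋.E0 a σ b then some ⟨(a, σ, h.choose), h.choose_spec⟩ else none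

open Classical in
/-- the positive edge arriving at `b` with the letter `σ` -/
noncomputable def inE (b : 𝕋.V0) (σ : 𝕋.S) : Option 𝕋.toGraph.E0 :=
  if h : ∃ a, 𝕋.E0 a σ b then some ⟨(h.choose, σ, b), h.choose_spec⟩ else none

theorem outE_eq {a b : 𝕋.V0} {σ : 𝕋.S} (he : 𝕋.E0 a σ b) : 𝕋.outE a σ = some ⟨(a, σ, b), he⟩ := by
  have h : ∃ b, 𝕋.E0 a σ b := ⟨b, he⟩
  unfold outE
  rw [dif_pos h]
  have hb : h.choose = b := 𝕋.fold_src _ _ _ _ h.choose_spec he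
  congr 2
  rw [hb]

theorem inE_eq {a b : 𝕋.V0} {σ : 𝕋.S} (he : 𝕋.E0 a σ b) : 𝕋.inE b σ = some ⟨(a, σ, b), he⟩ := by
  have h : ∃ a, 𝕋.E0 a σ b := ⟨a, he⟩
  unfold inE
  rw [dif_pos h]
  have hb : h.choose = a := 𝕋.fold_tgt _ _ _ _ h.choose_spec he
  congr 2
  rw [hb]

variable {F : Type} [Group F]

/-- the voltages: `z e` along a positive edge, `(z e)⁻¹` backwards -/
noncomputable def kkVol (z : 𝕋.toGraph.E0 → F) : 𝕋.V0 → 𝕋.S × Bool → F := fun v lt =>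
  if lt.2 then ((𝕋.outE v lt.1).map z).getD 1 else ((𝕋.inE v lt.1).map fun e => (z e)⁻¹).getD 1

theorem kkVol_true (z : 𝕋.toGraph.E0 → F) {a b : 𝕋.V0} {σ : 𝕋.S} (he : 𝕋.E0 a σ b) :
    𝕋.kkVol z a (σ, true) = z ⟨(a, σ, b), he⟩ := by
  unfold kkVol
  rw [if_pos rfl, 𝕋.outE_eq he]
  rfl

theorem kkVol_false (z : 𝕋.toGraph.E0 → F) {a b : 𝕋.V0} {σ : 𝕋.S} (he : 𝕋.E0 a σ b) :
    𝕋.kkVol z b (σ, false) = (z ⟨(a, σ, b), he⟩)⁻¹ := by
  unfold kkVol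
  rw [if_neg (by simp), 𝕋.inE_eq he]
  rfl

theorem kkVol_inv (z : 𝕋.toGraph.E0 → F) (a : 𝕋.V0) (lt : 𝕋.S × Bool) (b : 𝕋.V0)
    (h : 𝕋.EY a lt b) : 𝕋.kkVol z b (linv lt) = (𝕋.kkVol z a lt)⁻¹ := by
  obtain ⟨σ, β⟩ := lt
  obtain ⟨_, _, h⟩ := h
  rcases h with ⟨hb, he⟩ | ⟨hb, he⟩
  · obtain rfl : β = true := hb
    change 𝕋.kkVol z b (σ, false) = _
    rw [𝕋.kkVol_true z he, 𝕋.kkVol_false z he]
  · obtain rfl : β = false := hb
    change 𝕋.kkVol z b (σ, true) = _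
    rw [𝕋.kkVol_true z he, 𝕋.kkVol_false z he, inv_inv]

variable {J : Type}

/-- the tag of the positive edge issued from `a` with the letter `σ` -/
noncomputable def kkTag (W : 𝕋.toGraph.E0 → Matrix J J ℂ) {WW : Finset (Matrix J J ℂ)}
    (hW : ∀ e, W e ∈ WW) : 𝕋.V0 → 𝕋.S → Option {w // w ∈ WW} :=
  fun a σ => (𝕋.outE a σ).map fun e => ⟨W e, hW e⟩

theorem kkTag_eq (W : 𝕋.toGraph.E0 → Matrix J J ℂ) {WW : Finset (Matrix J J ℂ)}
    (hW : ∀ e, W e ∈ WW) {a b : 𝕋.V0} {σ : 𝕋.S} (he : 𝕋.E0 a σ b) :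
    𝕋.kkTag W hW a σ = some ⟨W ⟨(a, σ, b), he⟩, hW _⟩ := by
  unfold kkTag
  rw [𝕋.outE_eq he]
  rfl

/-- the base graph with voltages, unrefined -/
noncomputable def kkY0 (z : 𝕋.toGraph.E0 → F) : VGraph 𝕋.S 𝕋.V0 F :=
  𝕋.gkGraph (𝕋.kkVol z) (𝕋.kkVol_inv z)

/-- the final alphabet -/
abbrev KkLet (z : 𝕋.toGraph.E0 → F) (W : 𝕋.toGraph.E0 → Matrix J J ℂ)
    {WW : Finset (Matrix J J ℂ)} (hW : ∀ e, W e ∈ WW) : Type :=
  VGraph.RLet (𝕋.kkY0 z) (𝕋.kkTag W hW)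

/-- the base graph with voltages, labelled by the final alphabet -/
noncomputable def kkYv (z : 𝕋.toGraph.E0 → F) (W : 𝕋.toGraph.E0 → Matrix J J ℂ)
    {WW : Finset (Matrix J J ℂ)} (hW : ∀ e, W e ∈ WW) : VGraph (𝕋.KkLet z W hW) 𝕋.V0 F :=
  (𝕋.kkY0 z).refine (𝕋.kkTag W hW)

variable (z : 𝕋.toGraph.E0 → F) (W : 𝕋.toGraph.E0 → Matrix J J ℂ)
  {WW : Finset (Matrix J J ℂ)} (hW : ∀ e, W e ∈ WW)

instance : Finite (𝕋.KkLet z W hW) := by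
  have := 𝕋.finS
  exact Subtype.finite

/-- positive edges of the refined graph -/
theorem kkYv_E_iff (a b : 𝕋.V0) (s : 𝕋.KkLet z W hW) :
    (𝕋.kkYv z W hW).E a (s, true) b ↔
      ∃ he : 𝕋.E0 a s.let b, a ∈ 𝕋.keep ∧ b ∈ 𝕋.keep ∧
        s.tag = some ⟨W ⟨(a, s.let, b), he⟩, hW _⟩ := by
  constructor
  · rintro ⟨⟨ha, hb, h⟩, h2⟩
    rcases h with ⟨_, he⟩ | ⟨h0, _⟩
    · have he' : 𝕋.E0 a s.let b := he
      refine ⟨he', ha, hb, ?_⟩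
      have h3 : 𝕋.kkTag W hW a s.let = s.tag := h2
      rw [← h3, 𝕋.kkTag_eq W hW he']
    · exact absurd h0 (by simp [VGraph.rproj])
  · rintro ⟨he, ha, hb, h2⟩
    refine ⟨⟨ha, hb, Or.inl ⟨rfl, he⟩⟩, ?_⟩
    change 𝕋.kkTag W hW a s.let = s.tag
    rw [h2, 𝕋.kkTag_eq W hW he]

theorem kkYv_vol (a b : 𝕋.V0) (s : 𝕋.KkLet z W hW) (he : 𝕋.E0 a s.let b) :
    (𝕋.kkYv z W hW).vol a (s, true) = z ⟨(a, s.let, b), he⟩ :=
  𝕋.kkVol_true z he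

/-- the refined letter of a kept edge -/
noncomputable def letOf (e : 𝕋.toGraph.E0) (hk : 𝕋.toGraph.keepE e) : 𝕋.KkLet z W hW :=
  ⟨(𝕋.labE e, some ⟨W e, hW e⟩), e.1.1, e.1.2.2, ⟨hk.1, hk.2, Or.inl ⟨rfl, e.2⟩⟩,
    𝕋.kkTag_eq W hW e.2⟩

theorem card_KkLet_le : Nat.card (𝕋.KkLet z W hW) ≤ kkM l * (WW.card + 1) := by
  have := 𝕋.finS
  have h1 : Nat.card (𝕋.KkLet z W hW) ≤ Nat.card (𝕋.S × Option {w // w ∈ WW}) :=
    Nat.card_le_card_of_injective _ Subtype.val_injective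
  have h2 : Nat.card (𝕋.S × Option {w // w ∈ WW}) = Nat.card 𝕋.S * (WW.card + 1) := by
    rw [Nat.card_prod]
    congr 1
    rw [Nat.card_eq_fintype_card, Fintype.card_option, Fintype.card_coe]
  rw [h2] at h1
  exact h1.trans (Nat.mul_le_mul_right _ 𝕋.cardS)

end KkTower

end Claimed.Agent.R300
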