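import Claimed.Agent.R300.KkTopDefs

/-!
# Row 300, KK paper: the girth of the voltage cover, from the dart language to the word language

LEAF `KK-TOP-GIRTH`.  Plan: `VGraph.cpath_fst` gives a path of `𝕋.EY`; `KkTower.exists_walk_of_path`
(KkAdapt) a dart walk `w'` of kept edges with `𝕋.wordOf w' = w`; `wordOf_cycRed` transfers cyclic
reducedness; by induction on `w'` (lemma `hol_of_path` below) the end point of the lifted path is
`f * hol z w'`, so the holonomy is trivial; `CoverGirth 2000` then gives `2000 H < 4 l |w|`.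
-/

set_option autoImplicit false

namespace Claimed.Agent.R300

open Shell HeisLaw

namespace KkTower

variable {l : ℕ} {ε : ℝ} (𝕋 : KkTower l ε) {F : Type} [Group F]

/-- the lift of a dart walk to the voltage cover ends at `f * hol z w`. -/
theorem hol_of_path (z : 𝕋.toGraph.E0 → F) (w : List (𝕋.toGraph.E0 × Bool)) (v x : 𝕋.V0) (f f' : F)
    (hw : 𝕋.toGraph.darts.IsWalk v w x)
    (hp : Shell.Path (𝕋.kkY0 z).cE (v, f) (𝕋.wordOf w) (x, f')) :
    f' = f * 𝕋.toGraph.hol z w := by
  induction w generalizing v f with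
  | nil =>
    have hp' : Shell.Path (𝕋.kkY0 z).cE (v, f) [] (x, f') := hp
    cases hp'
    simp [KkGraph.hol]
  | cons d w ih =>
    obtain ⟨h1, h2⟩ := hw
    have hp' : Shell.Path (𝕋.kkY0 z).cE (v, f) ((𝕋.labE d.1, !d.2) :: 𝕋.wordOf w) (x, f') := hp
    cases hp' with
    | @cons _ bg _ _ _ e hp2 =>
      obtain ⟨b, g⟩ := bg
      obtain ⟨hE, hg⟩ := e
      have hE' : 𝕋.EY v (𝕋.labE d.1, !d.2) b := hE
      have hg' : g = f * 𝕋.kkVol z v (𝕋.labE d.1, !d.2) := hg
      obtain ⟨⟨⟨a', σ, b'⟩, he⟩, t⟩ := d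
      obtain ⟨_, _, hor⟩ := hE'
      cases t with
      | false =>
        have hv : a' = v := h1
        subst hv
        rcases hor with ⟨_, h0⟩ | ⟨hc, _⟩
        · have h0' : 𝕋.E0 a' σ b := h0
          obtain rfl : b' = b := 𝕋.fold_src _ _ _ _ he h0'
          have hvol : 𝕋.kkVol z a' (σ, true) = z ⟨(a', σ, b'), he⟩ := 𝕋.kkVol_true z he
          have hg'' : g = f * 𝕋.kkVol z a' (σ, true) := hg'
          rw [hvol] at hg''
          have := ih b' g h2 hp2
          rw [this, hg'']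
          simp [KkGraph.hol, mul_assoc]
        · exact absurd hc (by simp)
      | true =>
        have hv : b' = v := h1
        subst hv
        rcases hor with ⟨hc, _⟩ | ⟨_, h0⟩
        · exact absurd hc (by simp)
        · have h0' : 𝕋.E0 b σ b' := h0
          obtain rfl : a' = b := 𝕋.fold_tgt _ _ _ _ he h0'
          have hvol : 𝕋.kkVol z b' (σ, false) = (z ⟨(a', σ, b'), he⟩)⁻¹ := 𝕋.kkVol_false z he
          have hg'' : g = f * 𝕋.kkVol z b' (σ, false) := hg'
          rw [hvol] at hg''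
          have := ih a' g h2 hp2
          rw [this, hg'']
          simp [KkGraph.hol, mul_assoc]

/-- hypothesis `hgirth` of `KkTower.gk_main` from `CoverGirth 2000`. -/
theorem kk_top_girth (z : 𝕋.toGraph.E0 → F) (h : 𝕋.toGraph.CoverGirth 2000 z) (a : 𝕋.V0)
    (w : List (𝕋.S × Bool)) (hne : w ≠ []) (hc : FreeGroup.IsCyclicallyReduced w)
    (hp : Shell.Path (𝕋.kkY0 z).cE (a, 1) w (a, 1)) :
    500 * kkH l (𝕋.lay a) < l * w.length := by
  have hp1 : Shell.Path 𝕋.EY a w a := VGraph.cpath_fst hp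
  obtain ⟨w', hw', hk, rfl⟩ := 𝕋.exists_walk_of_path a a w hp1
  have hcr : 𝕋.toGraph.darts.CycRed w' := (𝕋.wordOf_cycRed a w' hw').1 hc
  have hne' : w' ≠ [] := by
    rintro rfl
    exact hne rfl
  have hhol : 𝕋.toGraph.hol z w' = 1 := by
    have := 𝕋.hol_of_path z w' a a 1 1 hw' hp
    rw [one_mul] at this
    exact this.symm
  have hcyc : 𝕋.toGraph.IsCyc a w' := ⟨hne', hw', hcr, hk⟩
  have hlt : ¬ (4 * l * w'.length ≤ 2000 * kkH l (𝕋.toGraph.lay a)) := fun hle => h a w' hcyc hle hhol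
  have hlay : 𝕋.toGraph.lay a = 𝕋.lay a := rfl
  rw [hlay] at hlt
  rw [wordOf_length]
  have e : 4 * l * w'.length = 4 * (l * w'.length) := by ring
  omega

end KkTower

end Claimed.Agent.R300
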