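import Claimed.Agent.R300.KkIface

/-!
# Row 300, KK paper: the numerics of the forest error

LEAF `KK-TOP-NUM`.  `d = 2^(4l)`, `D = 2^(8l)`, `kkM l = 27 (320 l)² d 2^(7l+2)`, so
`kkM l / (d D) = 27·320²·4·l²·2^(-l)`; from `n^32 ≤ A^32 2^(4l)` one gets `n^8 ≤ A^8 2^l`; hence
`(l² 2^(-l) (n+1))^8 ≤ C l^16 (A^8 + 1) 2^(-7l) → 0`
(`tendsto_pow_const_div_const_pow_of_one_lt`).
-/

set_option autoImplicit false

namespace Claimed.Agent.R300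

/-- polynomial against exponential, in the form used below -/
theorem kk_top_num_aux (C δ : ℝ) (hC : 0 ≤ C) (hδ : 0 < δ) :
    ∃ l₁ : ℕ, 1 ≤ l₁ ∧ ∀ l ≥ l₁, C * (1 + (l : ℝ)) ^ 24 ≤ δ * 2 ^ (7 * l) := by
  have ht := tendsto_pow_const_div_const_pow_of_one_lt 24 (one_lt_two : (1 : ℝ) < 2)
  have hη : 0 < δ / (2 ^ 24 * (C + 1)) := by positivity
  obtain ⟨l₁, hl₁⟩ := Filter.eventually_atTop.1 ((tendsto_order.1 ht).2 _ hη)
  refine ⟨max l₁ 1, le_max_right _ _, fun l hl => ?_⟩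
  have h1 : 1 ≤ l := le_trans (le_max_right _ _) hl
  have h2 := hl₁ l (le_trans (le_max_left _ _) hl)
  have hl1 : (1 : ℝ) ≤ l := by exact_mod_cast h1
  have hp : (0 : ℝ) < 2 ^ l := by positivity
  rw [div_lt_div_iff₀ hp (by positivity)] at h2
  have h3 : (1 + (l : ℝ)) ^ 24 ≤ 2 ^ 24 * (l : ℝ) ^ 24 := by
    rw [← mul_pow]
    exact pow_le_pow_left₀ (by positivity) (by linarith) _
  have h4 : (2 : ℝ) ^ l ≤ 2 ^ (7 * l) := pow_le_pow_right₀ (by norm_num) (by omega)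
  have hl24 : (0 : ℝ) ≤ (l : ℝ) ^ 24 := by positivity
  calc C * (1 + (l : ℝ)) ^ 24 ≤ C * (2 ^ 24 * (l : ℝ) ^ 24) := mul_le_mul_of_nonneg_left h3 hC
    _ ≤ (l : ℝ) ^ 24 * (2 ^ 24 * (C + 1)) := by nlinarith
    _ ≤ δ * 2 ^ l := h2.le
    _ ≤ δ * 2 ^ (7 * l) := mul_le_mul_of_nonneg_left h4 hδ.le

/-- the forest error `4 w₁ √#S` tends to zero. -/
theorem kk_top_num (Cw τ : ℝ) (hCw : 0 ≤ Cw) (hτ : 0 < τ) :
    ∃ l₁ : ℕ, ∀ l ≥ l₁, ∀ n c : ℕ, (n : ℝ) ^ 32 ≤ (Cw * (1 + l)) ^ 32 * kkd l →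
      c ≤ kkM l * (n + 1) →
      4 * (Cw / Real.sqrt ((kkd l : ℝ) * kkD l / 2)) * Real.sqrt c ≤ τ := by
  set C0 : ℝ := 353894400 with hC0
  obtain ⟨l₁, -, hl₁⟩ := kk_top_num_aux ((C0 * Cw ^ 2) ^ 8 * (256 * Cw ^ 8 + 1)) (τ ^ 16)
    (by positivity) (by positivity)
  refine ⟨l₁, fun l hl n c hn hc => ?_⟩
  have hmain := hl₁ l hl
  have hd : (kkd l : ℝ) = 2 ^ (4 * l) := by
    unfold kkd; push_cast; rfl
  have hD : (kkD l : ℝ) = 2 ^ (8 * l) := by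
    unfold kkD kkd; push_cast; rw [← pow_mul]; congr 1; ring
  have hM : (kkM l : ℝ) = 11059200 * (l : ℝ) ^ 2 * 2 ^ (11 * l) := by
    unfold kkM kkd
    push_cast
    have : (2 : ℝ) ^ (11 * l) = 2 ^ (4 * l) * 2 ^ (7 * l) := by
      rw [← pow_add]; congr 1; ring
    rw [this, pow_add]
    ring
  set A : ℝ := Cw * (1 + l) with hA
  have hA0 : 0 ≤ A := by positivity
  -- `n^8 ≤ A^8 2^l`
  have hn8 : (n : ℝ) ^ 8 ≤ A ^ 8 * 2 ^ l := by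
    have : ((n : ℝ) ^ 8) ^ 4 ≤ (A ^ 8 * 2 ^ l) ^ 4 := by
      rw [← pow_mul, mul_pow, ← pow_mul, ← pow_mul]
      rw [hd] at hn
      have e : l * 4 = 4 * l := by ring
      rw [e]
      exact hn
    exact (pow_le_pow_iff_left₀ (by positivity) (by positivity) (by norm_num)).1 this
  -- `(n+1)^8 ≤ (256 A^8 + 1) 2^l`
  have h2l : (1 : ℝ) ≤ 2 ^ l := one_le_pow₀ (by norm_num)
  have hn18 : ((n : ℝ) + 1) ^ 8 ≤ (256 * A ^ 8 + 1) * 2 ^ l := by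
    rcases Nat.eq_zero_or_pos n with rfl | hpos
    · have : (0 : ℝ) ≤ 256 * A ^ 8 * 2 ^ l := by positivity
      simp only [Nat.cast_zero, zero_add, one_pow]
      nlinarith
    · have h1 : (1 : ℝ) ≤ n := by exact_mod_cast hpos
      have : ((n : ℝ) + 1) ^ 8 ≤ (2 * (n : ℝ)) ^ 8 :=
        pow_le_pow_left₀ (by positivity) (by linarith) _
      rw [mul_pow] at this
      nlinarith
  -- the key inequality
  have hl0 : (0 : ℝ) ≤ l := Nat.cast_nonneg l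
  have hkey8 : (C0 * Cw ^ 2 * (l : ℝ) ^ 2 * ((n : ℝ) + 1)) ^ 8 ≤ (τ ^ 2 * 2 ^ l) ^ 8 := by
    have e1 : (C0 * Cw ^ 2 * (l : ℝ) ^ 2 * ((n : ℝ) + 1)) ^ 8
        = (C0 * Cw ^ 2) ^ 8 * (l : ℝ) ^ 16 * ((n : ℝ) + 1) ^ 8 := by ring
    have e2 : (τ ^ 2 * 2 ^ l) ^ 8 = τ ^ 16 * 2 ^ (7 * l) * 2 ^ l := by
      have : (2 : ℝ) ^ (7 * l) * 2 ^ l = (2 ^ l) ^ 8 := by
        rw [← pow_add, ← pow_mul]; congr 1; ring
      rw [mul_assoc, this]; ring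
    rw [e1, e2]
    have h16 : (l : ℝ) ^ 16 ≤ (1 + (l : ℝ)) ^ 16 := pow_le_pow_left₀ hl0 (by linarith) _
    have hA8 : 256 * A ^ 8 + 1 ≤ (256 * Cw ^ 8 + 1) * (1 + (l : ℝ)) ^ 8 := by
      have : (1 : ℝ) ≤ (1 + (l : ℝ)) ^ 8 := one_le_pow₀ (by linarith)
      rw [hA, mul_pow]
      nlinarith
    calc (C0 * Cw ^ 2) ^ 8 * (l : ℝ) ^ 16 * ((n : ℝ) + 1) ^ 8
        ≤ (C0 * Cw ^ 2) ^ 8 * (1 + (l : ℝ)) ^ 16 * ((256 * A ^ 8 + 1) * 2 ^ l) :=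
          mul_le_mul (mul_le_mul_of_nonneg_left h16 (by positivity)) hn18 (by positivity)
            (by positivity)
      _ ≤ (C0 * Cw ^ 2) ^ 8 * (1 + (l : ℝ)) ^ 16
            * (((256 * Cw ^ 8 + 1) * (1 + (l : ℝ)) ^ 8) * 2 ^ l) :=
          mul_le_mul_of_nonneg_left (mul_le_mul_of_nonneg_right hA8 (by positivity))
            (by positivity)
      _ = ((C0 * Cw ^ 2) ^ 8 * (256 * Cw ^ 8 + 1) * (1 + (l : ℝ)) ^ 24) * 2 ^ l := by ring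
      _ ≤ (τ ^ 16 * 2 ^ (7 * l)) * 2 ^ l := mul_le_mul_of_nonneg_right hmain (by positivity)
  have hkey : C0 * Cw ^ 2 * (l : ℝ) ^ 2 * ((n : ℝ) + 1) ≤ τ ^ 2 * 2 ^ l :=
    (pow_le_pow_iff_left₀ (by positivity) (by positivity) (by norm_num)).1 hkey8
  -- back to the square roots
  set S : ℝ := (kkd l : ℝ) * kkD l / 2 with hS
  have hSe : S = 2 ^ (12 * l) / 2 := by
    rw [hS, hd, hD, ← pow_add]; congr 2; ring
  have hSpos : 0 < S := by rw [hSe]; positivity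
  have hc' : (c : ℝ) ≤ kkM l * ((n : ℝ) + 1) := by exact_mod_cast hc
  have hsq : 16 * Cw ^ 2 * c ≤ τ ^ 2 * S := by
    have h12 : (2 : ℝ) ^ (12 * l) = 2 ^ (11 * l) * 2 ^ l := by
      rw [← pow_add]; congr 1; ring
    have h11 : (0 : ℝ) < 2 ^ (11 * l) := by positivity
    calc 16 * Cw ^ 2 * c ≤ 16 * Cw ^ 2 * (kkM l * ((n : ℝ) + 1)) :=
          mul_le_mul_of_nonneg_left hc' (by positivity)
      _ = (C0 * Cw ^ 2 * (l : ℝ) ^ 2 * ((n : ℝ) + 1)) * (2 ^ (11 * l) / 2) := by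
          rw [hM, hC0]; ring
      _ ≤ (τ ^ 2 * 2 ^ l) * (2 ^ (11 * l) / 2) :=
          mul_le_mul_of_nonneg_right hkey (by positivity)
      _ = τ ^ 2 * S := by rw [hSe, h12]; ring
  have hsS : 0 < Real.sqrt S := Real.sqrt_pos.2 hSpos
  have e : 4 * (Cw / Real.sqrt S) * Real.sqrt c = (4 * Cw * Real.sqrt c) / Real.sqrt S := by ring
  rw [e, div_le_iff₀ hsS]
  have h1 : (4 * Cw * Real.sqrt c) ^ 2 ≤ (τ * Real.sqrt S) ^ 2 := by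
    rw [mul_pow, mul_pow, mul_pow, Real.sq_sqrt (Nat.cast_nonneg c), Real.sq_sqrt hSpos.le]
    linarith
  exact (pow_le_pow_iff_left₀ (by positivity) (by positivity) (by norm_num)).1 h1

end Claimed.Agent.R300
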