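import Claimed.Agent.R300.KkTopDefs
import Claimed.Agent.R300.KkGlueMain

/-!
# Row 300, KK paper: the entries of `T_P` over the final alphabet

* `kkMatOp e w`: the operator on `ℓ²(Fin N)` of a matrix `w : Matrix J J ℂ`, `e : J ≃ Fin N`;
* `𝕋.kkM z W hW e s`: the weight operator of a letter `s` of the final alphabet;
* `𝕋.kk_TP_entry`: the entries of `𝕋.toGraph.TP z W` in the form required by `KkCoverOps`.
-/

set_option autoImplicit false

namespace Claimed.Agent.R300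

open Shell
open scoped ENNReal ComplexConjugate InnerProductSpace Matrix.Norms.L2Operator

theorem smp_hasKer_fintype {X Y : Type} [Fintype X] [Fintype Y] (k : X → Y → ℂ) :
    SmpHasKer (smpKer k) k := by
  refine SmpSchur.hasKer (R := ∑ x, ∑ y, ‖k x y‖) ⟨fun x => ⟨(hasSum_fintype _).summable, ?_⟩,
    fun y => ⟨(hasSum_fintype _).summable, ?_⟩⟩
  · rw [tsum_fintype]
    exact Finset.single_le_sum (f := fun x => ∑ y, ‖k x y‖)
      (fun x _ => Finset.sum_nonneg fun y _ => norm_nonneg _) (Finset.mem_univ x)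
  · rw [tsum_fintype, Finset.sum_comm]
    exact Finset.single_le_sum (f := fun y => ∑ x, ‖k x y‖)
      (fun y _ => Finset.sum_nonneg fun x _ => norm_nonneg _) (Finset.mem_univ y)

section matop

variable {J : Type} {N : ℕ} (e : J ≃ Fin N)

/-- the operator on `ℓ²(Fin N)` of a matrix indexed by `J ≃ Fin N` -/
noncomputable def kkMatOp (w : Matrix J J ℂ) : ScL2 (Fin N) →L[ℂ] ScL2 (Fin N) :=
  smpKer fun x y => w (e.symm x) (e.symm y)

theorem kkMatOp_entry (w : Matrix J J ℂ) (k j : J) : kkMatOp e w (scDelta (e k)) (e j) = w j k := by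
  have := smp_hasKer_fintype (fun x y : Fin N => w (e.symm x) (e.symm y)) (e j) (e k)
  simpa [kkMatOp] using this

theorem kkMatOp_norm_le [Fintype J] [DecidableEq J] (w : Matrix J J ℂ) : ‖kkMatOp e w‖ ≤ ‖w‖ := by
  have h := SmpHasKer.norm_le_matrix_inj
    (smp_hasKer_fintype (fun x y : Fin N => w (e.symm x) (e.symm y))) e e e.injective e.injective
    (fun x y hxy => absurd ⟨e.surjective x, e.surjective y⟩ hxy)
  have h2 : (Matrix.of fun i j : J => w (e.symm (e i)) (e.symm (e j))) = w := by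
    ext i j; simp
  rw [h2] at h
  exact h

end matop

namespace KkTower

variable {l : ℕ} {ε : ℝ} (𝕋 : KkTower l ε) {F : Type} [Group F] {J : Type}
  (z : 𝕋.toGraph.E0 → F) (W : 𝕋.toGraph.E0 → Matrix J J ℂ)
  {WW : Finset (Matrix J J ℂ)} (hW : ∀ e, W e ∈ WW)

/-- the matrix of a tag -/
def tagMat (t : Option {w // w ∈ WW}) : Matrix J J ℂ :=
  match t with
  | some w => w.1
  | none => 0

variable {N : ℕ} (e : J ≃ Fin N)

/-- the weight operator of a letter of the final alphabet -/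
noncomputable def kkMw (s : 𝕋.KkLet z W hW) : ScL2 (Fin N) →L[ℂ] ScL2 (Fin N) :=
  (((Real.sqrt (kkd l * 𝕋.dfac s.let))⁻¹ : ℝ) : ℂ) • kkMatOp e (tagMat s.tag)

theorem kkMw_entry (s : 𝕋.KkLet z W hW) (k j : J) :
    𝕋.kkMw z W hW e s (scDelta (e k)) (e j) =
      (((Real.sqrt (kkd l * 𝕋.dfac s.let))⁻¹ : ℝ) : ℂ) * tagMat s.tag j k := by
  unfold kkMw
  rw [← kkMatOp_entry e (tagMat s.tag) k j]
  rfl

/-- the edge of a positive edge of the refined graph -/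
noncomputable def edgeOf {a b : 𝕋.V0} {s : 𝕋.KkLet z W hW} (h : (𝕋.kkYv z W hW).E a (s, true) b) :
    𝕋.toGraph.E0 :=
  ⟨(a, s.let, b), ((𝕋.kkYv_E_iff z W hW a b s).1 h).choose⟩

theorem edgeOf_keep {a b : 𝕋.V0} {s : 𝕋.KkLet z W hW} (h : (𝕋.kkYv z W hW).E a (s, true) b) :
    𝕋.toGraph.keepE (𝕋.edgeOf z W hW h) :=
  ⟨((𝕋.kkYv_E_iff z W hW a b s).1 h).choose_spec.1,
    ((𝕋.kkYv_E_iff z W hW a b s).1 h).choose_spec.2.1⟩

theorem edgeOf_tag {a b : 𝕋.V0} {s : 𝕋.KkLet z W hW} (h : (𝕋.kkYv z W hW).E a (s, true) b) :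
    tagMat s.tag = W (𝕋.edgeOf z W hW h) := by
  rw [((𝕋.kkYv_E_iff z W hW a b s).1 h).choose_spec.2.2]
  rfl

theorem edgeOf_vol {a b : 𝕋.V0} {s : 𝕋.KkLet z W hW} (h : (𝕋.kkYv z W hW).E a (s, true) b) :
    (𝕋.kkYv z W hW).vol a (s, true) = z (𝕋.edgeOf z W hW h) :=
  𝕋.kkYv_vol z W hW a b s _

theorem edgeOf_nrm {a b : 𝕋.V0} {s : 𝕋.KkLet z W hW} (h : (𝕋.kkYv z W hW).E a (s, true) b) :
    kkNrm l (𝕋.toGraph.lay (𝕋.toGraph.src (𝕋.edgeOf z W hW h)))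
      (𝕋.toGraph.lay (𝕋.toGraph.tgt (𝕋.edgeOf z W hW h))) = Real.sqrt (kkd l * 𝕋.dfac s.let) :=
  𝕋.toGraph_nrm _

open Classical in
/-- a sum over the kept edges from `a` to `b` is a sum over the final alphabet -/
theorem hasSum_edges [Fintype (𝕋.KkLet z W hW)] (a b : 𝕋.V0) (t : 𝕋.toGraph.E0 → ℂ)
    (ht : ∀ e', t e' ≠ 0 → 𝕋.toGraph.src e' = a ∧ 𝕋.toGraph.tgt e' = b ∧ 𝕋.toGraph.keepE e') :
    HasSum t (∑ s : 𝕋.KkLet z W hW,
      if h : (𝕋.kkYv z W hW).E a (s, true) b then t (𝕋.edgeOf z W hW h) else 0) := by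
  set P : 𝕋.KkLet z W hW → Prop := fun s => (𝕋.kkYv z W hW).E a (s, true) b with hP
  set g : {s // P s} → 𝕋.toGraph.E0 := fun s => 𝕋.edgeOf z W hW s.2 with hg
  set T' : 𝕋.KkLet z W hW → ℂ :=
    fun s => if h : (𝕋.kkYv z W hW).E a (s, true) b then t (𝕋.edgeOf z W hW h) else 0 with hT'
  have hinj : Function.Injective g := by
    rintro ⟨s, hs⟩ ⟨s', hs'⟩ h
    have h1 : s.let = s'.let := congrArg (fun e' : 𝕋.toGraph.E0 => e'.1.2.1) h
    have h2 := ((𝕋.kkYv_E_iff z W hW a b s).1 hs).choose_spec.2.2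
    have h3 := ((𝕋.kkYv_E_iff z W hW a b s').1 hs').choose_spec.2.2
    have h4 : s.tag = s'.tag := by
      have e1 : 𝕋.kkTag W hW a s.let = s.tag := hs.2
      have e2 : 𝕋.kkTag W hW a s'.let = s'.tag := hs'.2
      rw [← e1, ← e2, h1]
    exact Subtype.ext (VGraph.RLet.ext' h1 h4)
  have hsupp : ∀ e', e' ∉ Set.range g → t e' = 0 := by
    intro e' he'
    by_contra hne
    obtain ⟨h1, h2, h3⟩ := ht e' hne
    apply he'
    have hE : (𝕋.kkYv z W hW).E a (𝕋.letOf z W hW e' h3, true) b := by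
      rw [kkYv_E_iff]
      subst h1 h2
      exact ⟨e'.2, h3.1, h3.2, rfl⟩
    refine ⟨⟨𝕋.letOf z W hW e' h3, hE⟩, ?_⟩
    subst h1 h2
    rfl
  have h1 : HasSum (t ∘ g) (∑ s : {s // P s}, t (g s)) := hasSum_fintype _
  have h2 := (hinj.hasSum_iff hsupp).1 h1
  have h3 : ∑ s : {s // P s}, t (g s) = ∑ s, T' s := by
    have e1 : ∀ s : {s // P s}, t (g s) = T' s.1 := by
      intro s
      simp only [hT']
      rw [dif_pos s.2]
    rw [Finset.sum_congr rfl fun s _ => e1 s,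
      ← Finset.sum_subtype (Finset.univ.filter P) (by simp) T']
    refine Finset.sum_filter_of_ne fun s _ hs => ?_
    by_contra hn
    apply hs
    simp only [hT']
    rw [dif_neg hn]
  rw [h3] at h2
  exact h2

open Classical in
/-- **the entries of `T_P` over the final alphabet** -/
theorem kk_TP_entry [Fintype (𝕋.KkLet z W hW)]
    (hker : SmpHasKer (𝕋.toGraph.TP z W) (smpLConvK (𝕋.toGraph.coef z W)))
    (φ' : F) (b : 𝕋.V0) (k : J) (φ : F) (a : 𝕋.V0) (j : J) :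
    𝕋.toGraph.TP z W (scDelta (φ', (b, k))) (φ, (a, j)) =
      ∑ s : 𝕋.KkLet z W hW,
        ((if (𝕋.kkYv z W hW).E a (s, true) b ∧ φ = (𝕋.kkYv z W hW).vol a (s, true) * φ' then
            𝕋.kkMw z W hW e s (scDelta (e k)) (e j) else 0)
        + (if (𝕋.kkYv z W hW).E b (s, true) a ∧ φ' = (𝕋.kkYv z W hW).vol b (s, true) * φ then
            conj (𝕋.kkMw z W hW e s (scDelta (e j)) (e k)) else 0)) := by
  rw [hker (φ, (a, j)) (φ', (b, k))]
  set t₁ : 𝕋.toGraph.E0 → ℂ := fun e' =>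
    if 𝕋.toGraph.src e' = a ∧ 𝕋.toGraph.tgt e' = b ∧ 𝕋.toGraph.keepE e' ∧ z e' = φ * φ'⁻¹ then
      ((kkNrm l (𝕋.toGraph.lay (𝕋.toGraph.src e')) (𝕋.toGraph.lay (𝕋.toGraph.tgt e')))⁻¹ : ℝ) * W e' j k else 0 with ht₁
  set t₂ : 𝕋.toGraph.E0 → ℂ := fun e' =>
    if 𝕋.toGraph.tgt e' = a ∧ 𝕋.toGraph.src e' = b ∧ 𝕋.toGraph.keepE e' ∧ (z e')⁻¹ = φ * φ'⁻¹ then
      ((kkNrm l (𝕋.toGraph.lay (𝕋.toGraph.src e')) (𝕋.toGraph.lay (𝕋.toGraph.tgt e')))⁻¹ : ℝ) * conj (W e' k j) else 0 with ht₂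
  have hcoef : smpLConvK (𝕋.toGraph.coef z W) (φ, (a, j)) (φ', (b, k)) = ∑' e', (t₁ e' + t₂ e') := rfl
  have H1 := 𝕋.hasSum_edges z W hW a b t₁ (by
    intro e' he'
    by_contra hcon
    apply he'
    simp only [ht₁]
    rw [if_neg]
    rintro ⟨h1, h2, h3, _⟩
    exact hcon ⟨h1, h2, h3⟩)
  have H2 := 𝕋.hasSum_edges z W hW b a t₂ (by
    intro e' he'
    by_contra hcon
    apply he'
    simp only [ht₂]
    rw [if_neg]
    rintro ⟨h1, h2, h3, _⟩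
    exact hcon ⟨h2, h1, h3⟩)
  rw [hcoef, (H1.add H2).tsum_eq, ← Finset.sum_add_distrib]
  refine Finset.sum_congr rfl fun s _ => ?_
  congr 1
  · by_cases h : (𝕋.kkYv z W hW).E a (s, true) b
    · rw [dif_pos h]
      have hz : z (𝕋.edgeOf z W hW h) = φ * φ'⁻¹ ↔ φ = (𝕋.kkYv z W hW).vol a (s, true) * φ' := by
        rw [𝕋.edgeOf_vol z W hW h, eq_mul_inv_iff_mul_eq, eq_comm]
      by_cases hφ : φ = (𝕋.kkYv z W hW).vol a (s, true) * φ'
      · rw [if_pos ⟨h, hφ⟩]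
        simp only [ht₁]
        rw [if_pos ⟨rfl, rfl, 𝕋.edgeOf_keep z W hW h, hz.2 hφ⟩, 𝕋.edgeOf_nrm z W hW h, kkMw_entry,
          𝕋.edgeOf_tag z W hW h]
      · rw [if_neg (fun hh => hφ hh.2)]
        simp only [ht₁]
        rw [if_neg (fun hh => hφ (hz.1 hh.2.2.2))]
    · rw [dif_neg h, if_neg (fun hh => h hh.1)]
  · by_cases h : (𝕋.kkYv z W hW).E b (s, true) a
    · rw [dif_pos h]
      have hz : (z (𝕋.edgeOf z W hW h))⁻¹ = φ * φ'⁻¹ ↔
          φ' = (𝕋.kkYv z W hW).vol b (s, true) * φ := by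
        rw [𝕋.edgeOf_vol z W hW h]
        constructor
        · intro hh
          have : z (𝕋.edgeOf z W hW h) = φ' * φ⁻¹ := by
            rw [← inv_inv (z (𝕋.edgeOf z W hW h)), hh]; group
          rw [this]; group
        · intro hh
          rw [hh]; group
      by_cases hφ : φ' = (𝕋.kkYv z W hW).vol b (s, true) * φ
      · rw [if_pos ⟨h, hφ⟩]
        simp only [ht₂]
        rw [if_pos ⟨rfl, rfl, 𝕋.edgeOf_keep z W hW h, hz.2 hφ⟩, 𝕋.edgeOf_nrm z W hW h, kkMw_entry,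
          𝕋.edgeOf_tag z W hW h, map_mul, Complex.conj_ofReal]
      · rw [if_neg (fun hh => hφ hh.2)]
        simp only [ht₂]
        rw [if_neg (fun hh => hφ (hz.1 hh.2.2.2))]
    · rw [dif_neg h, if_neg (fun hh => h hh.1)]

theorem dfac_ge (s : 𝕋.KkLet z W hW) : kkD l ≤ 2 * 𝕋.dfac s.let := by
  obtain ⟨a, b, ⟨_, _, h⟩, _⟩ := s.2
  have he : 𝕋.E0 a s.let b := by
    rcases h with ⟨_, he⟩ | ⟨h0, _⟩
    · exact he
    · exact absurd h0 (by simp)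
  have h1 := 𝕋.dfac_spec a s.let b he
  have h2 := (𝕋.E0_side a s.let b he).2.2
  have h3 : (𝕋.lay b).natAbs ≤ (𝕋.lay a).natAbs + 1 := by
    rw [abs_le] at h2
    omega
  have h4 : 2 ^ (𝕋.lay b).natAbs ≤ 2 * 2 ^ (𝕋.lay a).natAbs := by
    calc 2 ^ (𝕋.lay b).natAbs ≤ 2 ^ ((𝕋.lay a).natAbs + 1) := Nat.pow_le_pow_right (by norm_num) h3
      _ = 2 * 2 ^ (𝕋.lay a).natAbs := by rw [pow_succ]; ring
  have h5 : kkD l * 2 ^ (𝕋.lay a).natAbs ≤ 2 * 𝕋.dfac s.let * 2 ^ (𝕋.lay a).natAbs := by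
    calc kkD l * 2 ^ (𝕋.lay a).natAbs = 𝕋.dfac s.let * 2 ^ (𝕋.lay b).natAbs := h1.symm
      _ ≤ 𝕋.dfac s.let * (2 * 2 ^ (𝕋.lay a).natAbs) := Nat.mul_le_mul_left _ h4
      _ = 2 * 𝕋.dfac s.let * 2 ^ (𝕋.lay a).natAbs := by ring
  exact Nat.le_of_mul_le_mul_right h5 (by positivity)

theorem kkMw_norm_le [Fintype J] [DecidableEq J] (Cw : ℝ) (hCw : 0 ≤ Cw) (hWW : ∀ w ∈ WW, ‖w‖ ≤ Cw)
    (s : 𝕋.KkLet z W hW) :
    ‖𝕋.kkMw z W hW e s‖ ≤ Cw / Real.sqrt ((kkd l : ℝ) * kkD l / 2) := by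
  have hd : (0 : ℝ) < kkd l := by unfold kkd; positivity
  have hD : (0 : ℝ) < kkD l := by unfold kkD kkd; positivity
  have h1 : ‖kkMatOp e (tagMat s.tag)‖ ≤ Cw := by
    refine (kkMatOp_norm_le e _).trans ?_
    rcases s.tag with _ | w
    · simpa [tagMat] using hCw
    · exact hWW w.1 w.2
  have h2 : (kkD l : ℝ) ≤ 2 * 𝕋.dfac s.let := by exact_mod_cast 𝕋.dfac_ge z W hW s
  have h3 : Real.sqrt ((kkd l : ℝ) * kkD l / 2) ≤ Real.sqrt (kkd l * 𝕋.dfac s.let) := by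
    apply Real.sqrt_le_sqrt
    nlinarith
  have h4 : 0 < Real.sqrt ((kkd l : ℝ) * kkD l / 2) := Real.sqrt_pos.2 (by positivity)
  unfold kkMw
  rw [norm_smul, Complex.norm_real, Real.norm_of_nonneg (by positivity), div_eq_inv_mul]
  exact mul_le_mul (inv_anti₀ h4 h3) h1 (norm_nonneg _) (by positivity)

end KkTower

end Claimed.Agent.R300
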