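import Claimed.Agent.R300.KkTopStmt
import Claimed.Agent.R300.KkCovF

/-!
# Row 300, KK paper: `KkCoverSpec` (Theorem A for the KK cover), proved by helper47 in `KkCovF`
-/

set_option autoImplicit false

namespace Claimed.Agent.R300

theorem kk_cover_spec (Cbul : ℕ) : KkCoverSpec Cbul := kkv_cover_spec Cbul

end Claimed.Agent.R300
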