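import Mathlib

/-!
# KK Section 8 (nilpotent deck group): basic algebra

Coordinates: `Idx m` = positions `(i,j)`, `i < j`.  `x : Idx m → A` is a strictly upper triangular
matrix, `umat x = 1 + toMat x` the corresponding unitriangular matrix.
`EBar m A` is the quotient group (paper: E bar) with the inverse-free law
`(lam,b)(mu,b') = (lam + mu ∘ R_b, b b')`, `R_b x = x b`, cocycle `coc = <mu, b - 1>`.
`Deck m A` is the central product (paper: F for `A = ℤ`).
-/

set_option autoImplicit false

namespace Claimed.Agent.R300.Nil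

open Finset Matrix

/-- positions strictly above the diagonal -/
abbrev Idx (m : ℕ) := {p : Fin m × Fin m // p.1 < p.2}

section Alg

variable {m : ℕ} {A : Type*} [CommRing A]

/-- strictly upper triangular matrix with given coordinates -/
def toMat (x : Idx m → A) : Matrix (Fin m) (Fin m) A :=
  fun i j => if h : i < j then x ⟨(i, j), h⟩ else 0

/-- coordinates above the diagonal of a matrix -/
def ofMat (M : Matrix (Fin m) (Fin m) A) : Idx m → A := fun p => M p.1.1 p.1.2

/-- strictly upper triangular -/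
def SU (M : Matrix (Fin m) (Fin m) A) : Prop := ∀ i j, ¬ i < j → M i j = 0

lemma toMat_apply_lt (x : Idx m → A) {i j : Fin m} (h : i < j) :
    toMat x i j = x ⟨(i, j), h⟩ := by simp [toMat, h]

lemma toMat_apply_not_lt (x : Idx m → A) {i j : Fin m} (h : ¬ i < j) :
    toMat x i j = 0 := by simp [toMat, h]

lemma toMat_idx (x : Idx m → A) (p : Idx m) : toMat x p.1.1 p.1.2 = x p := by
  rw [toMat_apply_lt x p.2]

lemma su_toMat (x : Idx m → A) : SU (toMat x) := fun _ _ h => toMat_apply_not_lt x h

@[simp] lemma ofMat_toMat (x : Idx m → A) : ofMat (toMat x) = x := by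
  funext p; exact toMat_idx x p

lemma toMat_ofMat {M : Matrix (Fin m) (Fin m) A} (h : SU M) : toMat (ofMat M) = M := by
  ext i j
  by_cases hij : i < j
  · rw [toMat_apply_lt _ hij]; rfl
  · rw [toMat_apply_not_lt _ hij, h i j hij]

lemma toMat_injective : Function.Injective (toMat : (Idx m → A) → Matrix (Fin m) (Fin m) A) :=
  fun x y h => by rw [← ofMat_toMat x, h, ofMat_toMat]

@[simp] lemma toMat_zero : toMat (0 : Idx m → A) = 0 := by
  ext i j; by_cases h : i < j <;> simp [toMat, h]

lemma toMat_add (x y : Idx m → A) : toMat (x + y) = toMat x + toMat y := by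
  ext i j; by_cases h : i < j <;> simp [toMat, h]

lemma toMat_neg (x : Idx m → A) : toMat (-x) = -toMat x := by
  ext i j; by_cases h : i < j <;> simp [toMat, h]

lemma toMat_sub (x y : Idx m → A) : toMat (x - y) = toMat x - toMat y := by
  ext i j; by_cases h : i < j <;> simp [toMat, h]

lemma toMat_smul (a : A) (x : Idx m → A) : toMat (a • x) = a • toMat x := by
  ext i j; by_cases h : i < j <;> simp [toMat, h]

lemma SU.zero : SU (0 : Matrix (Fin m) (Fin m) A) := fun _ _ _ => rfl

lemma SU.add {M N : Matrix (Fin m) (Fin m) A} (hM : SU M) (hN : SU N) : SU (M + N) :=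
  fun i j h => by simp [hM i j h, hN i j h]

lemma SU.neg {M : Matrix (Fin m) (Fin m) A} (hM : SU M) : SU (-M) :=
  fun i j h => by simp [hM i j h]

lemma SU.sum {ι : Type*} (s : Finset ι) {M : ι → Matrix (Fin m) (Fin m) A}
    (hM : ∀ k ∈ s, SU (M k)) : SU (∑ k ∈ s, M k) := fun i j h => by
  rw [Matrix.sum_apply]
  exact Finset.sum_eq_zero fun k hk => hM k hk i j h

/-- a power of a strictly upper triangular matrix vanishes below the `k`-th superdiagonal -/
lemma SU.pow_apply {M : Matrix (Fin m) (Fin m) A} (hM : SU M) (k : ℕ) (i j : Fin m)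
    (h : (j : ℕ) < i + k) : (M ^ k) i j = 0 := by
  induction k generalizing j with
  | zero =>
    have : i ≠ j := by
      rintro rfl; simp at h
    have hlt : (j : ℕ) < i := by simpa using h
    simp [this]
  | succ k ih =>
    rw [pow_succ, Matrix.mul_apply]
    refine Finset.sum_eq_zero fun l _ => ?_
    by_cases hl : (l : ℕ) < i + k
    · rw [ih l hl, zero_mul]
    · have : ¬ l < j := by
        intro hlj
        have : (l : ℕ) < j := hlj
        omega
      rw [hM l j this, mul_zero]

lemma SU.mul_left {M N : Matrix (Fin m) (Fin m) A} (hM : SU M)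
    (hN : ∀ i j : Fin m, j < i → N i j = 0) : SU (M * N) := fun i j h => by
  rw [Matrix.mul_apply]
  refine Finset.sum_eq_zero fun l _ => ?_
  by_cases hl : i < l
  · have : j < l := lt_of_le_of_lt (not_lt.mp h) hl
    rw [hN l j this, mul_zero]
  · rw [hM i l hl, zero_mul]

lemma SU.mul {M N : Matrix (Fin m) (Fin m) A} (hM : SU M) (hN : SU N) : SU (M * N) :=
  hM.mul_left fun i j h => hN i j (not_lt.mpr h.le)

lemma SU.pow {M : Matrix (Fin m) (Fin m) A} (hM : SU M) {k : ℕ} (hk : k ≠ 0) : SU (M ^ k) :=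
  fun i j h => hM.pow_apply k i j (by
    have : (j : ℕ) ≤ i := not_lt.mp h
    omega)

lemma SU.pow_card {M : Matrix (Fin m) (Fin m) A} (hM : SU M) : M ^ m = 0 := by
  ext i j
  exact hM.pow_apply m i j (by have := j.2; omega)

/-- product of strictly upper triangular matrices, in coordinates -/
def nmul (x y : Idx m → A) : Idx m → A := ofMat (toMat x * toMat y)

lemma toMat_nmul (x y : Idx m → A) : toMat (nmul x y) = toMat x * toMat y :=
  toMat_ofMat ((su_toMat x).mul (su_toMat y))

lemma nmul_assoc (x y z : Idx m → A) : nmul (nmul x y) z = nmul x (nmul y z) :=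
  toMat_injective (by simp only [toMat_nmul, Matrix.mul_assoc])

lemma nmul_add (x y z : Idx m → A) : nmul x (y + z) = nmul x y + nmul x z :=
  toMat_injective (by simp only [toMat_nmul, toMat_add, Matrix.mul_add])

lemma add_nmul (x y z : Idx m → A) : nmul (x + y) z = nmul x z + nmul y z :=
  toMat_injective (by simp only [toMat_nmul, toMat_add, Matrix.add_mul])

@[simp] lemma nmul_zero (x : Idx m → A) : nmul x 0 = 0 :=
  toMat_injective (by simp only [toMat_nmul, toMat_zero, Matrix.mul_zero])

@[simp] lemma zero_nmul (x : Idx m → A) : nmul 0 x = 0 :=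
  toMat_injective (by simp only [toMat_nmul, toMat_zero, Matrix.zero_mul])

lemma nmul_neg (x y : Idx m → A) : nmul x (-y) = -nmul x y :=
  toMat_injective (by simp only [toMat_nmul, toMat_neg, Matrix.mul_neg])

lemma neg_nmul (x y : Idx m → A) : nmul (-x) y = -nmul x y :=
  toMat_injective (by simp only [toMat_nmul, toMat_neg, Matrix.neg_mul])

/-- the unitriangular matrix `1 + x` -/
def umat (x : Idx m → A) : Matrix (Fin m) (Fin m) A := 1 + toMat x

lemma umat_injective : Function.Injective (umat : (Idx m → A) → Matrix (Fin m) (Fin m) A) :=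
  fun _ _ h => toMat_injective (add_left_cancel h)

@[simp] lemma umat_zero : umat (0 : Idx m → A) = 1 := by simp [umat]

/-- circle product: `1 + circ x y = (1 + x)(1 + y)` -/
def circ (x y : Idx m → A) : Idx m → A := x + y + nmul x y

lemma umat_circ (x y : Idx m → A) : umat (circ x y) = umat x * umat y := by
  simp only [umat, circ, toMat_add, toMat_nmul]
  noncomm_ring

/-- circle inverse: `1 + ninv x = (1 + x)⁻¹ = ∑_{k<m} (-x)^k` -/
def ninv (x : Idx m → A) : Idx m → A := ofMat (∑ k ∈ Finset.range m, (-toMat x) ^ k)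

lemma umat_ninv (x : Idx m → A) : umat (ninv x) = ∑ k ∈ Finset.range m, (-toMat x) ^ k := by
  have hsu : SU (∑ k ∈ Finset.range m, (-toMat x) ^ k - 1) := by
    rcases Nat.eq_zero_or_pos m with rfl | hm
    · intro i; exact i.elim0
    · obtain ⟨n, rfl⟩ : ∃ n, m = n + 1 := ⟨m - 1, by omega⟩
      rw [Finset.sum_range_succ', pow_zero, add_sub_cancel_right]
      exact SU.sum _ fun k _ => (su_toMat x).neg.pow (Nat.succ_ne_zero k)
  have h1 : ninv x = ofMat (∑ k ∈ Finset.range m, (-toMat x) ^ k - 1) := by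
    funext p
    have : p.1.1 ≠ p.1.2 := ne_of_lt p.2
    simp [ninv, ofMat, Matrix.sub_apply, this]
  rw [umat, h1, toMat_ofMat hsu]; abel

lemma umat_mul_umat_ninv (x : Idx m → A) : umat x * umat (ninv x) = 1 := by
  rw [umat_ninv]
  have := mul_neg_geom_sum (-toMat x) m
  rw [(su_toMat x).neg.pow_card, sub_zero, sub_neg_eq_add] at this
  exact this

lemma umat_ninv_mul_umat (x : Idx m → A) : umat (ninv x) * umat x = 1 := by
  rw [umat_ninv]
  have := geom_sum_mul_neg (-toMat x) m
  rw [(su_toMat x).neg.pow_card, sub_zero, sub_neg_eq_add] at this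
  exact this

lemma circ_assoc (x y z : Idx m → A) : circ (circ x y) z = circ x (circ y z) :=
  umat_injective (by simp only [umat_circ, Matrix.mul_assoc])

@[simp] lemma circ_zero (x : Idx m → A) : circ x 0 = x := by simp [circ]

@[simp] lemma zero_circ (x : Idx m → A) : circ 0 x = x := by simp [circ]

@[simp] lemma circ_ninv (x : Idx m → A) : circ x (ninv x) = 0 :=
  umat_injective (by rw [umat_circ, umat_mul_umat_ninv, umat_zero])

@[simp] lemma ninv_circ (x : Idx m → A) : circ (ninv x) x = 0 :=
  umat_injective (by rw [umat_circ, umat_ninv_mul_umat, umat_zero])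

@[simp] lemma ninv_zero : ninv (0 : Idx m → A) = 0 := by
  have := circ_ninv (0 : Idx m → A)
  rwa [zero_circ] at this

/-- the pairing `<l, x> = ∑_p l_p x_p` -/
def pr (l x : Idx m → A) : A := ∑ p, l p * x p

lemma pr_add_left (l l' x : Idx m → A) : pr (l + l') x = pr l x + pr l' x := by
  simp [pr, add_mul, Finset.sum_add_distrib]

lemma pr_add_right (l x x' : Idx m → A) : pr l (x + x') = pr l x + pr l x' := by
  simp [pr, mul_add, Finset.sum_add_distrib]

@[simp] lemma pr_zero_left (x : Idx m → A) : pr 0 x = 0 := by simp [pr]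

@[simp] lemma pr_zero_right (l : Idx m → A) : pr l 0 = 0 := by simp [pr]

lemma pr_neg_left (l x : Idx m → A) : pr (-l) x = -pr l x := by simp [pr]

lemma pr_neg_right (l x : Idx m → A) : pr l (-x) = -pr l x := by simp [pr]

lemma pr_comm (l x : Idx m → A) : pr l x = pr x l := by simp [pr, mul_comm]

lemma pr_single (l : Idx m → A) (p : Idx m) : pr l (Pi.single p 1) = l p := by
  classical
  simp [pr, Pi.single_apply]

lemma pr_ext {l l' : Idx m → A} (h : ∀ x, pr l x = pr l' x) : l = l' := by
  funext p; rw [← pr_single l p, h, pr_single]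

/-- sum over `Idx m` as a double sum over all matrix positions -/
lemma sum_idx_eq (P : Matrix (Fin m) (Fin m) A) (x : Idx m → A) :
    ∑ p, ofMat P p * x p = ∑ i, ∑ j, P i j * toMat x i j := by
  classical
  have h1 : ∑ i, ∑ j, P i j * toMat x i j
      = ∑ q : Fin m × Fin m, P q.1 q.2 * toMat x q.1 q.2 :=
    (Fintype.sum_prod_type (fun q : Fin m × Fin m => P q.1 q.2 * toMat x q.1 q.2)).symm
  have h2 : ∑ q : Fin m × Fin m, P q.1 q.2 * toMat x q.1 q.2
      = ∑ q ∈ Finset.univ.filter (fun q : Fin m × Fin m => q.1 < q.2),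
          P q.1 q.2 * toMat x q.1 q.2 := by
    symm
    apply Finset.sum_filter_of_ne
    intro q _ hq
    by_contra h
    exact hq (by rw [toMat_apply_not_lt x h, mul_zero])
  rw [h1, h2, Finset.sum_subtype (p := fun q : Fin m × Fin m => q.1 < q.2) _ (by simp)]
  refine Finset.sum_congr rfl fun p _ => ?_
  rw [toMat_idx]; rfl

lemma pr_eq_sum (l x : Idx m → A) : pr l x = ∑ i, ∑ j, toMat l i j * toMat x i j := by
  rw [← sum_idx_eq, ofMat_toMat]; rfl

/-- `ract mu bet` is the functional `x ↦ <mu, x * bet>` -/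
def ract (mu bet : Idx m → A) : Idx m → A := ofMat (toMat mu * (toMat bet)ᵀ)

lemma pr_ract (mu bet x : Idx m → A) : pr (ract mu bet) x = pr mu (nmul x bet) := by
  rw [pr_eq_sum mu, toMat_nmul]
  unfold pr ract
  rw [sum_idx_eq]
  simp only [Matrix.mul_apply, Matrix.transpose_apply, Finset.sum_mul, Finset.mul_sum]
  refine Finset.sum_congr rfl fun i _ => ?_
  rw [Finset.sum_comm]
  refine Finset.sum_congr rfl fun j _ => Finset.sum_congr rfl fun k _ => ?_
  ring

/-- `lact mu bet = mu ∘ R_b`, `b = 1 + bet` -/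
def lact (mu bet : Idx m → A) : Idx m → A := mu + ract mu bet

lemma pr_lact (mu bet x : Idx m → A) : pr (lact mu bet) x = pr mu (x + nmul x bet) := by
  rw [lact, pr_add_left, pr_ract, pr_add_right]

lemma lact_lact (nu bet' bet : Idx m → A) :
    lact (lact nu bet') bet = lact nu (circ bet bet') := by
  refine pr_ext fun x => ?_
  simp only [pr_lact, circ, nmul_add, add_nmul, nmul_assoc]
  congr 1; abel

@[simp] lemma lact_zero (mu : Idx m → A) : lact mu 0 = mu :=
  pr_ext fun x => by simp [pr_lact]

@[simp] lemma zero_lact (bet : Idx m → A) : lact 0 bet = 0 :=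
  pr_ext fun x => by simp [pr_lact]

lemma lact_add (mu nu bet : Idx m → A) : lact (mu + nu) bet = lact mu bet + lact nu bet :=
  pr_ext fun x => by simp [pr_lact, pr_add_left]

lemma lact_neg (mu bet : Idx m → A) : lact (-mu) bet = -lact mu bet :=
  pr_ext fun x => by simp [pr_lact, pr_neg_left]

lemma eq_ninv_of_circ_eq_zero {x y : Idx m → A} (h : circ x y = 0) : y = ninv x := by
  calc y = circ (circ (ninv x) x) y := by simp
    _ = ninv x := by rw [circ_assoc, h, circ_zero]

@[simp] lemma ninv_ninv (x : Idx m → A) : ninv (ninv x) = x :=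
  (eq_ninv_of_circ_eq_zero (ninv_circ x)).symm

/-! ### functoriality -/

section Map

variable {B : Type*} [CommRing B] (f : A →+* B)

/-- apply a ring homomorphism to all coordinates -/
def cmap (x : Idx m → A) : Idx m → B := fun p => f (x p)

@[simp] lemma cmap_apply (x : Idx m → A) (p : Idx m) : cmap f x p = f (x p) := rfl

lemma toMat_cmap (x : Idx m → A) : toMat (cmap f x) = (toMat x).map f := by
  ext i j; by_cases h : i < j <;> simp [toMat, h]

lemma cmap_ofMat (M : Matrix (Fin m) (Fin m) A) : cmap f (ofMat M) = ofMat (M.map f) := rfl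

@[simp] lemma cmap_zero : cmap f (0 : Idx m → A) = 0 := by funext p; simp

lemma cmap_add (x y : Idx m → A) : cmap f (x + y) = cmap f x + cmap f y := by
  funext p; simp

lemma cmap_neg (x : Idx m → A) : cmap f (-x) = -cmap f x := by funext p; simp

lemma cmap_nmul (x y : Idx m → A) : cmap f (nmul x y) = nmul (cmap f x) (cmap f y) := by
  rw [nmul, cmap_ofMat, Matrix.map_mul, nmul, toMat_cmap, toMat_cmap]

lemma cmap_circ (x y : Idx m → A) : cmap f (circ x y) = circ (cmap f x) (cmap f y) := by
  simp only [circ, cmap_add, cmap_nmul]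

lemma cmap_ninv (x : Idx m → A) : cmap f (ninv x) = ninv (cmap f x) :=
  eq_ninv_of_circ_eq_zero (by rw [← cmap_circ, circ_ninv, cmap_zero])

lemma pr_cmap (l x : Idx m → A) : pr (cmap f l) (cmap f x) = f (pr l x) := by
  simp [pr, map_sum]

lemma cmap_ract (mu bet : Idx m → A) : cmap f (ract mu bet) = ract (cmap f mu) (cmap f bet) := by
  rw [ract, cmap_ofMat, Matrix.map_mul, ract, toMat_cmap, toMat_cmap, Matrix.transpose_map]

lemma cmap_lact (mu bet : Idx m → A) : cmap f (lact mu bet) = lact (cmap f mu) (cmap f bet) := by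
  simp only [lact, cmap_add, cmap_ract]

lemma cmap_injective (hf : Function.Injective f) :
    Function.Injective (cmap f : (Idx m → A) → Idx m → B) :=
  fun _ _ h => funext fun p => hf (congrFun h p)

end Map

/-! ### weights and dilations -/

/-- weight of the coordinate `bet_p`: `j - i` -/
def wtB (p : Idx m) : ℕ := (p.1.2 : ℕ) - (p.1.1 : ℕ)

/-- weight of the coordinate `lam_p`: `m - (j - i)` -/
def wtL (p : Idx m) : ℕ := m - wtB p

lemma wtB_pos (p : Idx m) : 0 < wtB p := by
  have : (p.1.1 : ℕ) < p.1.2 := p.2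
  unfold wtB; omega

lemma wtB_lt (p : Idx m) : wtB p < m := by
  have := p.1.2.2
  unfold wtB; omega

lemma wtL_pos (p : Idx m) : 0 < wtL p := by
  have := wtB_lt p
  unfold wtL; omega

lemma wtL_lt (p : Idx m) : wtL p < m := by
  have := wtB_pos p
  have := wtB_lt p
  unfold wtL; omega

lemma wtL_add_wtB (p : Idx m) : wtL p + wtB p = m := by
  have := wtB_lt p
  unfold wtL; omega

/-- dilation of the `bet` coordinates -/
def dB (y : A) (x : Idx m → A) : Idx m → A := fun p => y ^ wtB p * x p

/-- dilation of the `lam` coordinates -/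
def dL (y : A) (l : Idx m → A) : Idx m → A := fun p => y ^ wtL p * l p

lemma toMat_dB (y : A) (x : Idx m → A) (i j : Fin m) :
    toMat (dB y x) i j = y ^ ((j : ℕ) - (i : ℕ)) * toMat x i j := by
  by_cases h : i < j
  · rw [toMat_apply_lt _ h, toMat_apply_lt _ h]; rfl
  · rw [toMat_apply_not_lt _ h, toMat_apply_not_lt _ h, mul_zero]

lemma toMat_dL (y : A) (x : Idx m → A) (i j : Fin m) :
    toMat (dL y x) i j = y ^ (m - ((j : ℕ) - (i : ℕ))) * toMat x i j := by
  by_cases h : i < j
  · rw [toMat_apply_lt _ h, toMat_apply_lt _ h]; rfl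
  · rw [toMat_apply_not_lt _ h, toMat_apply_not_lt _ h, mul_zero]

@[simp] lemma dB_zero (y : A) : dB y (0 : Idx m → A) = 0 := by funext p; simp [dB]
@[simp] lemma dL_zero (y : A) : dL y (0 : Idx m → A) = 0 := by funext p; simp [dL]

lemma dB_add (y : A) (x x' : Idx m → A) : dB y (x + x') = dB y x + dB y x' := by
  funext p; simp [dB, mul_add]

lemma dL_add (y : A) (x x' : Idx m → A) : dL y (x + x') = dL y x + dL y x' := by
  funext p; simp [dL, mul_add]

lemma dL_neg (y : A) (x : Idx m → A) : dL y (-x) = -dL y x := by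
  funext p; simp [dL]

lemma dB_nmul (y : A) (x x' : Idx m → A) : dB y (nmul x x') = nmul (dB y x) (dB y x') := by
  funext p
  obtain ⟨⟨i, j⟩, hij⟩ := p
  show y ^ ((j : ℕ) - (i : ℕ)) * (toMat x * toMat x') i j = (toMat (dB y x) * toMat (dB y x')) i j
  rw [Matrix.mul_apply, Matrix.mul_apply, Finset.mul_sum]
  refine Finset.sum_congr rfl fun k _ => ?_
  rw [toMat_dB, toMat_dB]
  by_cases h1 : i < k
  · by_cases h2 : k < j
    · have e : (j : ℕ) - i = ((k : ℕ) - i) + ((j : ℕ) - k) := by
        have : (i : ℕ) < k := h1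
        have : (k : ℕ) < j := h2
        omega
      rw [e, pow_add]; ring
    · rw [toMat_apply_not_lt x' h2]; ring
  · rw [toMat_apply_not_lt x h1]; ring

lemma dB_circ (y : A) (x x' : Idx m → A) : dB y (circ x x') = circ (dB y x) (dB y x') := by
  simp only [circ, dB_add, dB_nmul]

lemma dB_ninv (y : A) (x : Idx m → A) : dB y (ninv x) = ninv (dB y x) :=
  eq_ninv_of_circ_eq_zero (by rw [← dB_circ, circ_ninv, dB_zero])

lemma pr_dL_dB (y : A) (l x : Idx m → A) : pr (dL y l) (dB y x) = y ^ m * pr l x := by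
  unfold pr dL dB
  rw [Finset.mul_sum]
  refine Finset.sum_congr rfl fun p _ => ?_
  have e : y ^ m = y ^ wtL p * y ^ wtB p := by rw [← pow_add, wtL_add_wtB]
  rw [e]; ring

lemma dL_ract (y : A) (mu bet : Idx m → A) :
    dL y (ract mu bet) = ract (dL y mu) (dB y bet) := by
  funext p
  obtain ⟨⟨i, k⟩, hik⟩ := p
  show y ^ (m - ((k : ℕ) - (i : ℕ))) * (toMat mu * (toMat bet)ᵀ) i k
    = (toMat (dL y mu) * (toMat (dB y bet))ᵀ) i k
  rw [Matrix.mul_apply, Matrix.mul_apply, Finset.mul_sum]
  refine Finset.sum_congr rfl fun j _ => ?_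
  rw [Matrix.transpose_apply, Matrix.transpose_apply, toMat_dL, toMat_dB]
  by_cases h2 : k < j
  · have e : m - ((k : ℕ) - i) = (m - ((j : ℕ) - i)) + ((j : ℕ) - k) := by
      have : (i : ℕ) < k := hik
      have : (k : ℕ) < j := h2
      have := j.2
      omega
    rw [e, pow_add]; ring
  · rw [toMat_apply_not_lt bet h2]; ring

lemma dL_lact (y : A) (mu bet : Idx m → A) :
    dL y (lact mu bet) = lact (dL y mu) (dB y bet) := by
  simp only [lact, dL_add, dL_ract]


end Alg

/-- the quotient group (paper: E bar) over a commutative ring -/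
@[ext] structure EBar (m : ℕ) (A : Type*) where
  lam : Idx m → A
  bet : Idx m → A

namespace EBar

instance {m : ℕ} {A : Type*} [DecidableEq A] : DecidableEq (EBar m A) := fun a b =>
  decidable_of_iff (a.lam = b.lam ∧ a.bet = b.bet)
    ⟨fun h => EBar.ext h.1 h.2, fun h => ⟨congrArg _ h, congrArg _ h⟩⟩

variable {m : ℕ} {A : Type*} [CommRing A]

instance : Mul (EBar m A) := ⟨fun a b => ⟨a.lam + lact b.lam a.bet, circ a.bet b.bet⟩⟩
instance : One (EBar m A) := ⟨⟨0, 0⟩⟩
instance : Inv (EBar m A) := ⟨fun a => ⟨-lact a.lam (ninv a.bet), ninv a.bet⟩⟩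

@[simp] lemma mul_lam (a b : EBar m A) : (a * b).lam = a.lam + lact b.lam a.bet := rfl
@[simp] lemma mul_bet (a b : EBar m A) : (a * b).bet = circ a.bet b.bet := rfl
@[simp] lemma one_lam : (1 : EBar m A).lam = 0 := rfl
@[simp] lemma one_bet : (1 : EBar m A).bet = 0 := rfl
@[simp] lemma inv_lam (a : EBar m A) : a⁻¹.lam = -lact a.lam (ninv a.bet) := rfl
@[simp] lemma inv_bet (a : EBar m A) : a⁻¹.bet = ninv a.bet := rfl

instance : Group (EBar m A) :=
  Group.ofLeftAxioms
    (fun a b c => by
      ext1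
      · simp only [mul_lam, mul_bet, lact_add, lact_lact, add_assoc]
      · simp only [mul_bet, circ_assoc])
    (fun a => by ext1 <;> simp)
    (fun a => by ext1 <;> simp)

/-- the 2-cocycle `c(a,b) = <b.lam, a.bet>` -/
def coc (a b : EBar m A) : A := pr b.lam a.bet

lemma coc_cocycle (a b c : EBar m A) :
    coc a b + coc (a * b) c = coc b c + coc a (b * c) := by
  simp only [coc, mul_lam, mul_bet, pr_add_left, pr_lact, circ, pr_add_right]
  ring

@[simp] lemma coc_one_left (a : EBar m A) : coc 1 a = 0 := by simp [coc]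
@[simp] lemma coc_one_right (a : EBar m A) : coc a 1 = 0 := by simp [coc]

lemma coc_inv_self (a : EBar m A) : coc a⁻¹ a = coc a a⁻¹ := by
  have := coc_cocycle a a⁻¹ a
  simpa using this.symm

/-- the homomorphism onto unitriangular matrices -/
def toU : EBar m A →* Matrix (Fin m) (Fin m) A where
  toFun a := umat a.bet
  map_one' := by simp
  map_mul' a b := by simp [umat_circ]

/-- functoriality in the coefficient ring -/
def map {B : Type*} [CommRing B] (f : A →+* B) : EBar m A →* EBar m B where
  toFun a := ⟨cmap f a.lam, cmap f a.bet⟩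
  map_one' := by ext1 <;> simp
  map_mul' a b := by ext1 <;> simp [cmap_add, cmap_lact, cmap_circ]

@[simp] lemma map_lam {B : Type*} [CommRing B] (f : A →+* B) (a : EBar m A) :
    (map f a).lam = cmap f a.lam := rfl
@[simp] lemma map_bet {B : Type*} [CommRing B] (f : A →+* B) (a : EBar m A) :
    (map f a).bet = cmap f a.bet := rfl

lemma coc_map {B : Type*} [CommRing B] (f : A →+* B) (a b : EBar m A) :
    coc (map f a) (map f b) = f (coc a b) := pr_cmap f _ _

lemma map_injective {B : Type*} [CommRing B] (f : A →+* B) (hf : Function.Injective f) :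
    Function.Injective (map f : EBar m A → EBar m B) := fun a b h => by
  ext1
  · exact cmap_injective f hf (congrArg EBar.lam h)
  · exact cmap_injective f hf (congrArg EBar.bet h)

/-- the graded dilation (paper: Delta_y) -/
def dil (y : A) : EBar m A →* EBar m A where
  toFun a := ⟨dL y a.lam, dB y a.bet⟩
  map_one' := by ext1 <;> simp
  map_mul' a b := by ext1 <;> simp [dL_add, dL_lact, dB_circ]

@[simp] lemma dil_lam (y : A) (a : EBar m A) : (dil y a).lam = dL y a.lam := rfl
@[simp] lemma dil_bet (y : A) (a : EBar m A) : (dil y a).bet = dB y a.bet := rfl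

lemma coc_dil (y : A) (a b : EBar m A) : coc (dil y a) (dil y b) = y ^ m * coc a b :=
  pr_dL_dB y _ _


end EBar

/-- the central product (paper: `F` for `A = ℤ`) -/
@[ext] structure Deck (m : ℕ) (A : Type*) where
  gX : EBar m A
  gY : EBar m A
  z : A

namespace Deck

open EBar

instance {m : ℕ} {A : Type*} [DecidableEq A] : DecidableEq (Deck m A) := fun a b =>
  decidable_of_iff (a.gX = b.gX ∧ a.gY = b.gY ∧ a.z = b.z)
    ⟨fun h => Deck.ext h.1 h.2.1 h.2.2, fun h => ⟨congrArg _ h, congrArg _ h, congrArg _ h⟩⟩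

variable {m : ℕ} {A : Type*} [CommRing A]

instance : Mul (Deck m A) :=
  ⟨fun a b => ⟨a.gX * b.gX, a.gY * b.gY, a.z + b.z + coc a.gX b.gX + coc a.gY b.gY⟩⟩
instance : One (Deck m A) := ⟨⟨1, 1, 0⟩⟩
instance : Inv (Deck m A) :=
  ⟨fun a => ⟨a.gX⁻¹, a.gY⁻¹, -a.z - coc a.gX⁻¹ a.gX - coc a.gY⁻¹ a.gY⟩⟩

@[simp] lemma mul_gX (a b : Deck m A) : (a * b).gX = a.gX * b.gX := rfl
@[simp] lemma mul_gY (a b : Deck m A) : (a * b).gY = a.gY * b.gY := rfl
@[simp] lemma mul_z (a b : Deck m A) :
    (a * b).z = a.z + b.z + coc a.gX b.gX + coc a.gY b.gY := rfl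
@[simp] lemma one_gX : (1 : Deck m A).gX = 1 := rfl
@[simp] lemma one_gY : (1 : Deck m A).gY = 1 := rfl
@[simp] lemma one_z : (1 : Deck m A).z = 0 := rfl
@[simp] lemma inv_gX (a : Deck m A) : a⁻¹.gX = a.gX⁻¹ := rfl
@[simp] lemma inv_gY (a : Deck m A) : a⁻¹.gY = a.gY⁻¹ := rfl
@[simp] lemma inv_z (a : Deck m A) :
    a⁻¹.z = -a.z - coc a.gX⁻¹ a.gX - coc a.gY⁻¹ a.gY := rfl

instance : Group (Deck m A) :=
  Group.ofLeftAxioms
    (fun a b c => by
      ext1
      · simp only [mul_gX, mul_assoc]
      · simp only [mul_gY, mul_assoc]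
      · simp only [mul_z, mul_gX, mul_gY]
        have h1 := coc_cocycle a.gX b.gX c.gX
        have h2 := coc_cocycle a.gY b.gY c.gY
        linear_combination h1 + h2)
    (fun a => by ext1 <;> simp)
    (fun a => by
      ext1
      · simp
      · simp
      · simp only [mul_z, inv_z, inv_gX, inv_gY, one_z]; ring)

/-- section of the first factor -/
def sigX (g : EBar m A) : Deck m A := ⟨g, 1, 0⟩
/-- section of the second factor -/
def sigY (g : EBar m A) : Deck m A := ⟨1, g, 0⟩
/-- central elements -/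
def cen (z : A) : Deck m A := ⟨1, 1, z⟩

@[simp] lemma sigX_gX (g : EBar m A) : (sigX g).gX = g := rfl
@[simp] lemma sigX_gY (g : EBar m A) : (sigX g).gY = 1 := rfl
@[simp] lemma sigX_z (g : EBar m A) : (sigX g).z = 0 := rfl
@[simp] lemma sigY_gX (g : EBar m A) : (sigY g).gX = 1 := rfl
@[simp] lemma sigY_gY (g : EBar m A) : (sigY g).gY = g := rfl
@[simp] lemma sigY_z (g : EBar m A) : (sigY g).z = 0 := rfl
@[simp] lemma cen_gX (z : A) : (cen z : Deck m A).gX = 1 := rfl
@[simp] lemma cen_gY (z : A) : (cen z : Deck m A).gY = 1 := rfl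
@[simp] lemma cen_z (z : A) : (cen z : Deck m A).z = z := rfl

lemma cen_mul (z : A) (a : Deck m A) : cen z * a = ⟨a.gX, a.gY, z + a.z⟩ := by
  ext1 <;> simp

lemma cen_comm (z : A) (a : Deck m A) : cen z * a = a * cen z := by
  ext1 <;> simp [add_comm]

lemma cen_add (z w : A) : (cen (z + w) : Deck m A) = cen z * cen w := by
  ext1 <;> simp

@[simp] lemma cen_zero : (cen 0 : Deck m A) = 1 := rfl

lemma sigX_mul (g h : EBar m A) : sigX g * sigX h = cen (coc g h) * sigX (g * h) := by
  ext1 <;> simp

lemma sigY_mul (g h : EBar m A) : sigY g * sigY h = cen (coc g h) * sigY (g * h) := by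
  ext1 <;> simp

lemma sigX_sigY_comm (g h : EBar m A) : sigX g * sigY h = sigY h * sigX g := by
  ext1 <;> simp

/-- normal form -/
lemma eq_cen_sigX_sigY (a : Deck m A) : a = cen a.z * (sigX a.gX * sigY a.gY) := by
  ext1 <;> simp

/-- central elements as a homomorphism from the additive group -/
def cenHom : Multiplicative A →* Deck m A where
  toFun z := cen z.toAdd
  map_one' := rfl
  map_mul' _ _ := cen_add _ _

/-- projection to the first factor -/
def prX : Deck m A →* EBar m A where
  toFun a := a.gX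
  map_one' := rfl
  map_mul' _ _ := rfl

/-- projection to the second factor -/
def prY : Deck m A →* EBar m A where
  toFun a := a.gY
  map_one' := rfl
  map_mul' _ _ := rfl

/-- the generator of the common centre (paper: z_0) -/
def z0 : Deck m A := cen 1

lemma z0_zpow (n : ℤ) : (z0 : Deck m ℤ) ^ n = cen n := by
  have h : ∀ k : ℕ, (z0 : Deck m ℤ) ^ k = cen (k : ℤ) := by
    intro k
    induction k with
    | zero => simp
    | succ k ih => rw [pow_succ, ih, z0, ← cen_add]; push_cast; rfl
  obtain ⟨k, rfl | rfl⟩ := n.eq_nat_or_neg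
  · rw [zpow_natCast, h]
  · rw [_root_.zpow_neg, zpow_natCast, h, inv_eq_iff_mul_eq_one, ← cen_add]; simp


end Deck

end Claimed.Agent.R300.Nil
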