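import Claimed.Agent.R300.NilFrame

/-!
# KK Section 8, leaf NIL-FRAME-H: the painless frame identity

Plan: header of `NilFrame.lean`.
-/

set_option autoImplicit false

namespace Claimed.Agent.R300.Nil

open MeasureTheory

variable {m : ℕ}

/-- `f · φ(· ∘ β)` -/
noncomputable def frF (w : Win m) (f : VV m → ℂ) (b : VV m) : VV m → ℂ :=
  fun x => f x * (w.φ (circ x b) : ℂ)

lemma frF_continuous (w : Win m) {f : VV m → ℂ} (hf : Continuous f) (b : VV m) :
    Continuous (frF w f b) := by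
  unfold frF
  refine hf.mul (Complex.continuous_ofReal.comp (w.continuous.comp ?_))
  exact continuous_circ.comp (continuous_id.prodMk continuous_const)

/-- pairing against `rep a φ` as a box coefficient -/
lemma ip_rep_eq_boxCoeff (w : Win m) (f : VV m → ℂ) (s : Idx m → ℝ) (n : Idx m → ℤ) (a : EBar m ℝ)
    (ha : ∀ p, a.lam p = s p * (n p : ℝ)) :
    ip f (rep a w.c) = boxCoeff s (frF w f a.bet) n := by
  unfold ip boxCoeff frF rep Win.c pr
  refine integral_congr_ae (Filter.Eventually.of_forall fun x => ?_)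
  simp only [map_mul, Complex.conj_ofReal, ← ee_neg, ha]
  ring

lemma win_ne_zero (w : Win m) {x : VV m} (h : w.φ x ≠ 0) : ‖x‖ ≤ 1 := by
  by_contra hx
  exact h (w.supp x (not_le.mp hx))

lemma pow_wt_le {y : ℝ} (hy0 : 0 < y) (hy1 : y ≤ 1) {k : ℕ} (hk : 0 < k) : y ^ k ≤ y := by
  calc y ^ k ≤ y ^ 1 := pow_le_pow_of_le_one hy0.le hy1 hk
    _ = y := pow_one y

/-- the fibre sum over the `lam` lattice -/
lemma frame_fibre (w : Win m) (R0 R1 : ℝ)
    (hR0 : ∀ x b : VV m, ‖x‖ ≤ 1 → ‖circ x b‖ ≤ 1 → ‖b‖ ≤ R0)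
    (hR1 : ∀ x b : VV m, ‖b‖ ≤ R0 → ‖circ x b‖ ≤ 1 → ‖x‖ ≤ R1)
    (y : ℝ) (hy0 : 0 < y) (hy1 : y ≤ 1) (hyR : y * max R1 1 < 1 / 2)
    (f g : VV m → ℂ) (hf : Continuous f) (hg : Continuous g) (hfs : ∀ x, 1 < ‖x‖ → f x = 0)
    (b : VV m) :
    HasSum (fun n : Idx m → ℤ => boxCoeff (fun p => y ^ wtL p) (frF w f b) n *
        (starRingEnd ℂ) (boxCoeff (fun p => y ^ wtL p) (frF w g b) n))
      (((∏ p : Idx m, y ^ wtL p : ℝ) : ℂ)⁻¹ *
        ∫ x, frF w f b x * (starRingEnd ℂ) (frF w g b x)) := by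
  have hbox : ∀ x : VV m, ‖x‖ ≤ max R1 1 → ∀ p, y ^ wtL p * |x p| < 1 / 2 := by
    intro x hx p
    have h1 : |x p| ≤ max R1 1 := (norm_le_pi_norm x p).trans hx
    have h2 : y ^ wtL p ≤ y := pow_wt_le hy0 hy1 (wtL_pos p)
    calc y ^ wtL p * |x p| ≤ y * max R1 1 :=
          mul_le_mul h2 h1 (abs_nonneg _) hy0.le
      _ < 1 / 2 := hyR
  by_cases hex : ∃ x, frF w f b x ≠ 0
  · obtain ⟨x0, hx0⟩ := hex
    have hx0f : f x0 ≠ 0 := fun h => hx0 (by simp [frF, h])
    have hx0p : w.φ (circ x0 b) ≠ 0 := fun h => hx0 (by simp [frF, h])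
    have hx01 : ‖x0‖ ≤ 1 := by
      by_contra h; exact hx0f (hfs x0 (not_le.mp h))
    have hb : ‖b‖ ≤ R0 := hR0 x0 b hx01 (win_ne_zero w hx0p)
    refine nil_parseval (frF w f b) (frF w g b) (frF_continuous w hf b) (frF_continuous w hg b)
      (fun p => y ^ wtL p) (fun p => pow_pos hy0 _) ?_ ?_
    · intro x hx
      have hxf : f x ≠ 0 := fun h => hx (by simp [frF, h])
      have : ‖x‖ ≤ 1 := by
        by_contra h; exact hxf (hfs x (not_le.mp h))
      exact hbox x (this.trans (le_max_right _ _))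
    · intro x hx
      have hxp : w.φ (circ x b) ≠ 0 := fun h => hx (by simp [frF, h])
      exact hbox x ((hR1 x b hb (win_ne_zero w hxp)).trans (le_max_left _ _))
  · push Not at hex
    have h0 : ∀ n, boxCoeff (fun p => y ^ wtL p) (frF w f b) n = 0 := by
      intro n; simp [boxCoeff, hex]
    simp only [h0, zero_mul, hex, integral_zero, mul_zero]
    exact hasSum_zero

/-- gluing fibres: finitely many `bet` contribute -/
lemma hasSum_ebar_of_fibres (T : EBar m ℤ → ℂ) (B : Finset (Idx m → ℤ)) (S : (Idx m → ℤ) → ℂ)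
    (hT : ∀ γ : EBar m ℤ, γ.bet ∉ B → T γ = 0)
    (hS : ∀ nB ∈ B, HasSum (fun nL : Idx m → ℤ => T ⟨nL, nB⟩) (S nB)) :
    HasSum T (∑ nB ∈ B, S nB) := by
  classical
  have h1 : ∀ nB ∈ B, HasSum (fun γ : EBar m ℤ => if γ.bet = nB then T γ else 0) (S nB) := by
    intro nB hnB
    have hinj : Function.Injective (fun nL : Idx m → ℤ => (⟨nL, nB⟩ : EBar m ℤ)) := by
      intro a a' h
      exact congrArg EBar.lam h
    refine (hinj.hasSum_iff ?_).mp ?_
    · intro γ hγ
      have : γ.bet ≠ nB := by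
        rintro rfl
        exact hγ ⟨γ.lam, rfl⟩
      simp [this]
    · simpa [Function.comp_def] using hS nB hnB
  have h2 := hasSum_sum h1
  refine h2.congr_fun ?_ |> fun h => h
  intro γ
  by_cases hγ : γ.bet ∈ B
  · rw [Finset.sum_ite_eq B γ.bet]; simp [hγ]
  · rw [hT γ hγ]
    symm
    refine Finset.sum_eq_zero fun nB hnB => ?_
    have : γ.bet ≠ nB := fun h => hγ (h ▸ hnB)
    simp [this]

/-- (F2) the frame identity -/
theorem frame_hasSum (w : Win m) : ∃ y1 : ℝ, 0 < y1 ∧ y1 ≤ 1 ∧ ∀ (y : ℝ) (f g : VV m → ℂ), 0 < y → y ≤ y1 →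
    Continuous f → Continuous g → (∀ x, 1 < ‖x‖ → f x = 0) →
    HasSum (fun γ : EBar m ℤ => ip f (rep (sc y γ) w.c) * (starRingEnd ℂ) (ip g (rep (sc y γ) w.c)))
      (((nu m y : ℝ) : ℂ)⁻¹ * ∫ x, f x * (starRingEnd ℂ) (g x) * (ss w y x : ℂ)) := by
  classical
  obtain ⟨R0, hR00, hR0⟩ := nil_R0 m
  obtain ⟨R1, hR10, hR1⟩ := nil_R1 m R0
  have hM : 0 < max R1 1 := lt_of_lt_of_le one_pos (le_max_right _ _)
  refine ⟨1 / (2 * max R1 1 + 2), by positivity, ?_, ?_⟩
  · rw [div_le_one (by positivity)]; linarith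
  intro y f g hy0 hy1' hf hg hfs
  have hy1 : y ≤ 1 := hy1'.trans (by rw [div_le_one (by positivity)]; linarith)
  have hyR : y * max R1 1 < 1 / 2 := by
    have h1 : y * max R1 1 ≤ 1 / (2 * max R1 1 + 2) * max R1 1 :=
      mul_le_mul_of_nonneg_right hy1' hM.le
    refine lt_of_le_of_lt h1 ?_
    rw [div_mul_eq_mul_div, one_mul, div_lt_div_iff₀ (by positivity) (by norm_num)]
    linarith
  set sB : Idx m → ℝ := fun p => y ^ wtB p with hsB
  have hsB0 : ∀ p, 0 < sB p := fun p => pow_pos hy0 _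
  -- the finite set of relevant `bet`
  have hfin := nil_lattice_finite R0 sB hsB0
  set B : Finset (Idx m → ℤ) := hfin.toFinset with hB
  have hmemB : ∀ n : Idx m → ℤ, ‖(fun p => sB p * (n p : ℝ))‖ ≤ R0 → n ∈ B := by
    intro n hn
    rw [hB, Set.Finite.mem_toFinset]
    intro p
    exact (norm_le_pi_norm (fun p => sB p * (n p : ℝ)) p).trans hn
  -- vanishing outside `B`
  have hvan : ∀ (n : Idx m → ℤ) (x : VV m), n ∉ B → f x * (w.φ (circ x (fun p => sB p * (n p : ℝ))) : ℂ) = 0 := by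
    intro n x hn
    by_contra h
    have hxf : f x ≠ 0 := fun h' => h (by simp [h'])
    have hxp : w.φ (circ x (fun p => sB p * (n p : ℝ))) ≠ 0 := fun h' => h (by simp [h'])
    have hx1 : ‖x‖ ≤ 1 := by
      by_contra h'; exact hxf (hfs x (not_le.mp h'))
    exact hn (hmemB n (hR0 x _ hx1 (win_ne_zero w hxp)))
  set S : (Idx m → ℤ) → ℂ := fun nB => ((∏ p : Idx m, y ^ wtL p : ℝ) : ℂ)⁻¹ *
        ∫ x, frF w f (fun p => sB p * (nB p : ℝ)) x *
          (starRingEnd ℂ) (frF w g (fun p => sB p * (nB p : ℝ)) x) with hS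
  have hkey : HasSum (fun γ : EBar m ℤ => ip f (rep (sc y γ) w.c) *
      (starRingEnd ℂ) (ip g (rep (sc y γ) w.c))) (∑ nB ∈ B, S nB) := by
    refine hasSum_ebar_of_fibres _ B S ?_ ?_
    · intro γ hγ
      rw [ip_rep_eq_boxCoeff w f (fun p => y ^ wtL p) γ.lam (sc y γ) (fun p => sc_lam y γ p)]
      have : frF w f (sc y γ).bet = fun _ => 0 := by
        funext x
        exact hvan γ.bet x hγ
      simp [boxCoeff, this]
    · intro nB _
      have := frame_fibre w R0 R1 hR0 hR1 y hy0 hy1 hyR f g hf hg hfs (fun p => sB p * (nB p : ℝ))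
      refine this.congr_fun ?_ |> fun h => h
      intro nL
      rw [ip_rep_eq_boxCoeff w f (fun p => y ^ wtL p) nL (sc y ⟨nL, nB⟩) (fun p => sc_lam y _ p),
        ip_rep_eq_boxCoeff w g (fun p => y ^ wtL p) nL (sc y ⟨nL, nB⟩) (fun p => sc_lam y _ p)]
      rfl
  convert hkey using 1
  -- identify the sums
  have hcs : HasCompactSupport f := by
    refine HasCompactSupport.intro (isCompact_closedBall (0 : VV m) 1) fun x hx => ?_
    apply hfs
    simpa [Metric.mem_closedBall, dist_zero_right] using hx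
  have hint : ∀ nB ∈ B, Integrable (fun x => frF w f (fun p => sB p * (nB p : ℝ)) x *
          (starRingEnd ℂ) (frF w g (fun p => sB p * (nB p : ℝ)) x)) := by
    intro nB _
    refine Continuous.integrable_of_hasCompactSupport ?_ ?_
    · exact (frF_continuous w hf _).mul (Complex.continuous_conj.comp (frF_continuous w hg _))
    · exact (hcs.mul_right (f' := fun x => (w.φ (circ x (fun p => sB p * (nB p : ℝ))) : ℂ))).mul_right
  have hss : ∀ x, f x * (starRingEnd ℂ) (g x) * (ss w y x : ℂ)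
      = ((∏ p : Idx m, y ^ wtB p : ℝ) : ℂ) * ∑ nB ∈ B, frF w f (fun p => sB p * (nB p : ℝ)) x *
          (starRingEnd ℂ) (frF w g (fun p => sB p * (nB p : ℝ)) x) := by
    intro x
    by_cases hx : f x = 0
    · simp [frF, hx]
    · have hts : ∑' n : Idx m → ℤ, w.φ (circ x (fun p => y ^ wtB p * (n p : ℝ))) ^ 2
          = ∑ n ∈ B, w.φ (circ x (fun p => y ^ wtB p * (n p : ℝ))) ^ 2 := by
        refine tsum_eq_sum fun n hn => ?_
        have := hvan n x hn
        have h0 : w.φ (circ x (fun p => sB p * (n p : ℝ))) = 0 := by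
          rcases mul_eq_zero.mp this with h | h
          · exact absurd h hx
          · exact_mod_cast h
        show w.φ (circ x (fun p => sB p * (n p : ℝ))) ^ 2 = 0
        rw [h0]; norm_num
      unfold ss
      rw [hts]
      push_cast
      rw [Finset.mul_sum, Finset.mul_sum, Finset.mul_sum]
      refine Finset.sum_congr rfl fun n _ => ?_
      simp only [frF, map_mul, Complex.conj_ofReal, hsB]
      ring
  simp only [hss]
  rw [integral_const_mul, integral_finsetSum B hint, hS, ← Finset.mul_sum, ← mul_assoc]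
  congr 1
  rw [nu_eq]
  have h1 : ((∏ p : Idx m, y ^ wtB p : ℝ) : ℂ) ≠ 0 := by
    exact_mod_cast (Finset.prod_pos fun p _ => pow_pos hy0 (wtB p)).ne'
  have h2 : ((∏ p : Idx m, y ^ wtL p : ℝ) : ℂ) ≠ 0 := by
    exact_mod_cast (Finset.prod_pos fun p _ => pow_pos hy0 (wtL p)).ne'
  push_cast at h1 h2 ⊢
  field_simp

end Claimed.Agent.R300.Nil
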