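import Claimed.Agent.R300.NilFrameS
import Claimed.Agent.R300.NilFrameH

/-!
# KK Section 8, leaf NIL-FRAME-C: consequences of the frame identity

Plan: header of `NilFrame.lean`.  `dd w y h = nu * ip ((ss - 1) φ) (rep (sc y h) φ)`; apply `frame_hasSum` with `f = g`.
-/

set_option autoImplicit false

namespace Claimed.Agent.R300.Nil

open MeasureTheory

variable {m : ℕ}

lemma Win.c_continuous (w : Win m) : Continuous w.c :=
  Complex.continuous_ofReal.comp w.continuous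

lemma Win.c_supp (w : Win m) (x : VV m) (hx : 1 < ‖x‖) : w.c x = 0 := by
  simp [Win.c, w.supp x hx]

lemma rep_continuous (a : EBar m ℝ) {f : VV m → ℂ} (hf : Continuous f) : Continuous (rep a f) := by
  unfold rep
  refine (continuous_ee.comp (continuous_pr.comp (continuous_const.prodMk continuous_id))).mul ?_
  exact hf.comp (continuous_circ.comp (continuous_id.prodMk continuous_const))

lemma hasCompactSupport_of_supp {f : VV m → ℂ} (hfs : ∀ x, 1 < ‖x‖ → f x = 0) :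
    HasCompactSupport f := by
  refine HasCompactSupport.intro (isCompact_closedBall (0 : VV m) 1) fun x hx => ?_
  apply hfs
  simpa [Metric.mem_closedBall, dist_zero_right] using hx

/-- `ss · φ` as a complex function -/
noncomputable def ssc (w : Win m) (y : ℝ) : VV m → ℂ := fun x => (ss w y x : ℂ) * w.c x

lemma ssc_continuous (w : Win m) {y : ℝ} (hy : 0 < y) : Continuous (ssc w y) := by
  have := Complex.continuous_ofReal.comp (continuous_ss_mul w y hy)
  refine this.congr fun x => ?_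
  simp [ssc, Win.c]

lemma ssc_supp (w : Win m) (y : ℝ) (x : VV m) (hx : 1 < ‖x‖) : ssc w y x = 0 := by
  simp [ssc, w.c_supp x hx]

/-- the term of `kk * kk` -/
lemma kk_term (w : Win m) (y : ℝ) (g h : EBar m ℤ) :
    kk w y g * kk w y (g⁻¹ * h) * om (y ^ m) g (g⁻¹ * h)
      = (nu m y : ℂ) ^ 2 * (ip w.c (rep (sc y g) w.c) *
          (starRingEnd ℂ) (ip (rep (sc y h) w.c) (rep (sc y g) w.c))) := by
  have h1 : JJ w (sc y (g⁻¹ * h)) * ee (EBar.coc (sc y g) (sc y (g⁻¹ * h)))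
      = ip (rep (sc y g) w.c) (rep (sc y h) w.c) := by
    rw [JJ_mul, ← map_mul, mul_inv_cancel_left]
  rw [ip_conj, ← h1, coc_sc]
  unfold kk om JJ
  ring

/-- (F3) `kk * kk` at the matched parameter -/
theorem tconv_kk (w : Win m) : ∃ y1 : ℝ, 0 < y1 ∧ y1 ≤ 1 ∧ ∀ (y : ℝ) (h : EBar m ℤ), 0 < y → y ≤ y1 →
    tconv (om (y ^ m)) (kk w y) (kk w y) h
      = (nu m y : ℂ) * ip (fun x => (ss w y x : ℂ) * w.c x) (rep (sc y h) w.c) := by
  obtain ⟨y1, hy10, hy11, hfr⟩ := frame_hasSum w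
  refine ⟨y1, hy10, hy11, fun y h hy0 hy1 => ?_⟩
  have hs := hfr y w.c (rep (sc y h) w.c) hy0 hy1 w.c_continuous (rep_continuous _ w.c_continuous)
    w.c_supp
  have hnu : (nu m y : ℂ) ≠ 0 := by
    exact_mod_cast (pow_pos hy0 _).ne'
  unfold tconv
  simp only [kk_term]
  rw [tsum_mul_left, hs.tsum_eq, ip]
  have : ∀ x, w.c x * (starRingEnd ℂ) (rep (sc y h) w.c x) * (ss w y x : ℂ)
      = (ss w y x : ℂ) * w.c x * (starRingEnd ℂ) (rep (sc y h) w.c x) := fun x => by ring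
  simp only [this]
  field_simp

/-- the defect as a pairing -/
lemma dd_eq (w : Win m) : ∃ y1 : ℝ, 0 < y1 ∧ y1 ≤ 1 ∧ ∀ (y : ℝ) (h : EBar m ℤ), 0 < y → y ≤ y1 →
    dd w y h = (nu m y : ℂ) * ip (fun x => ssc w y x - w.c x) (rep (sc y h) w.c) := by
  obtain ⟨y1, hy10, hy11, hc⟩ := tconv_kk w
  refine ⟨y1, hy10, hy11, fun y h hy0 hy1 => ?_⟩
  unfold dd
  rw [hc y h hy0 hy1]
  unfold kk JJ ip
  rw [← mul_sub, ← integral_sub]
  · congr 2
    funext x
    simp only [ssc]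
    ring
  · refine Continuous.integrable_of_hasCompactSupport ?_ ?_
    · exact (ssc_continuous w hy0).mul
        (Complex.continuous_conj.comp (rep_continuous _ w.c_continuous))
    · exact (hasCompactSupport_of_supp (ssc_supp w y)).mul_right
  · refine Continuous.integrable_of_hasCompactSupport ?_ ?_
    · exact w.c_continuous.mul (Complex.continuous_conj.comp (rep_continuous _ w.c_continuous))
    · exact (hasCompactSupport_of_supp w.c_supp).mul_right

/-- real form of the frame identity with `f = g = r · φ`, `r` real -/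
lemma frame_sq (w : Win m) : ∃ y1 : ℝ, 0 < y1 ∧ y1 ≤ 1 ∧ ∀ (y : ℝ) (r : VV m → ℝ), 0 < y → y ≤ y1 →
    Continuous r → (∀ x, 1 < ‖x‖ → r x = 0) →
    HasSum (fun γ : EBar m ℤ => ‖(nu m y : ℂ) * ip (fun x => (r x : ℂ)) (rep (sc y γ) w.c)‖ ^ 2)
      (nu m y * ∫ x, r x ^ 2 * ss w y x) := by
  obtain ⟨y1, hy10, hy11, hfr⟩ := frame_hasSum w
  refine ⟨y1, hy10, hy11, fun y r hy0 hy1 hr hrs => ?_⟩
  have hs := hfr y (fun x => (r x : ℂ)) (fun x => (r x : ℂ)) hy0 hy1
    (Complex.continuous_ofReal.comp hr) (Complex.continuous_ofReal.comp hr)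
    (fun x hx => by simp [hrs x hx])
  have hnu : 0 < nu m y := pow_pos hy0 _
  have h1 : ∀ x, (r x : ℂ) * (starRingEnd ℂ) (r x : ℂ) * (ss w y x : ℂ)
      = ((r x ^ 2 * ss w y x : ℝ) : ℂ) := fun x => by
    rw [Complex.conj_ofReal]; push_cast; ring
  have hI : ∫ x, (r x : ℂ) * (starRingEnd ℂ) (r x : ℂ) * (ss w y x : ℂ)
      = ((∫ x, r x ^ 2 * ss w y x : ℝ) : ℂ) := by
    simp only [h1]
    exact integral_ofReal
  rw [hI] at hs
  have h2 := (Complex.hasSum_re hs).mul_left (nu m y ^ 2)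
  have h3 : nu m y ^ 2 * (((nu m y : ℝ) : ℂ)⁻¹ * ((∫ x, r x ^ 2 * ss w y x : ℝ) : ℂ)).re
      = nu m y * ∫ x, r x ^ 2 * ss w y x := by
    rw [← Complex.ofReal_inv, ← Complex.ofReal_mul, Complex.ofReal_re]
    field_simp
  rw [h3] at h2
  refine h2.congr_fun ?_ |> fun h => h
  intro γ
  rw [norm_mul, mul_pow, Complex.norm_real, Real.norm_of_nonneg hnu.le, Complex.mul_conj']
  congr 1
  norm_cast

lemma ss_nonneg (w : Win m) {y : ℝ} (hy : 0 < y) (x : VV m) : 0 ≤ ss w y x := by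
  unfold ss
  exact mul_nonneg (Finset.prod_nonneg fun p _ => (pow_pos hy _).le)
    (tsum_nonneg fun n => sq_nonneg _)

lemma win_sq_integrable (w : Win m) : Integrable (fun x => w.φ x ^ 2) := by
  refine Continuous.integrable_of_hasCompactSupport (w.continuous.pow 2) ?_
  refine HasCompactSupport.intro (isCompact_closedBall (0 : VV m) 1) fun x hx => ?_
  have : 1 < ‖x‖ := by simpa [Metric.mem_closedBall, dist_zero_right] using hx
  simp [w.supp x this]

/-- (F4) consequences: `ℓ²` size of `kk`, `ℓ²` and sup size of the defect -/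
theorem kk_l2 (w : Win m) : ∃ (C y1 : ℝ), 0 ≤ C ∧ 0 < y1 ∧ y1 ≤ 1 ∧ ∀ y : ℝ, 0 < y → y ≤ y1 →
    Summable (fun γ => ‖kk w y γ‖ ^ 2) ∧
    |∑' γ, ‖kk w y γ‖ ^ 2 - nu m y| ≤ C * y * nu m y := by
  obtain ⟨y1, hy10, hy11, hfr⟩ := frame_sq w
  obtain ⟨Cs, hCs0, hCs⟩ := ss_estimate w
  refine ⟨Cs, y1, hCs0, hy10, hy11, fun y hy0 hy1 => ?_⟩
  have hs := hfr y w.φ hy0 hy1 w.continuous w.supp
  have hnu : 0 < nu m y := pow_pos hy0 _
  refine ⟨hs.summable, ?_⟩
  have ht : ∑' γ, ‖kk w y γ‖ ^ 2 = nu m y * ∫ x, w.φ x ^ 2 * ss w y x := hs.tsum_eq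
  rw [ht]
  have hint : Integrable (fun x => w.φ x ^ 2 * ss w y x) := by
    refine Continuous.integrable_of_hasCompactSupport ?_ ?_
    · refine (w.continuous.mul (continuous_ss_mul w y hy0)).congr fun x => ?_
      simp only [Pi.mul_apply]
      ring
    · refine HasCompactSupport.intro (isCompact_closedBall (0 : VV m) 1) fun x hx => ?_
      have : 1 < ‖x‖ := by simpa [Metric.mem_closedBall, dist_zero_right] using hx
      simp [w.supp x this]
  have h1 : nu m y * (∫ x, w.φ x ^ 2 * ss w y x) - nu m y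
      = nu m y * ∫ x, (w.φ x ^ 2 * ss w y x - w.φ x ^ 2) := by
    rw [integral_sub hint (win_sq_integrable w), w.nrm]; ring
  rw [h1, abs_mul, abs_of_pos hnu, mul_comm]
  refine mul_le_mul_of_nonneg_right ?_ hnu.le
  have h2 : ‖∫ x, (w.φ x ^ 2 * ss w y x - w.φ x ^ 2)‖ ≤ ∫ x, Cs * y * w.φ x ^ 2 := by
    refine norm_integral_le_of_norm_le ((win_sq_integrable w).const_mul _)
      (Filter.Eventually.of_forall fun x => ?_)
    by_cases hx : ‖x‖ ≤ 1
    · have := hCs y x hy0 (hy1.trans hy11) hx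
      have e : w.φ x ^ 2 * ss w y x - w.φ x ^ 2 = (ss w y x - 1) * w.φ x ^ 2 := by ring
      rw [e, norm_mul, Real.norm_eq_abs, Real.norm_of_nonneg (sq_nonneg _)]
      exact mul_le_mul_of_nonneg_right this (sq_nonneg _)
    · simp [w.supp x (not_le.mp hx)]
  rw [integral_const_mul, w.nrm, mul_one, Real.norm_eq_abs] at h2
  exact h2

theorem dd_l2 (w : Win m) : ∃ (C y1 : ℝ), 0 ≤ C ∧ 0 < y1 ∧ y1 ≤ 1 ∧ ∀ y : ℝ, 0 < y → y ≤ y1 →
    Summable (fun γ => ‖dd w y γ‖ ^ 2) ∧ ∑' γ, ‖dd w y γ‖ ^ 2 ≤ (C * y) ^ 2 * nu m y := by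
  obtain ⟨y1, hy10, hy11, hfr⟩ := frame_sq w
  obtain ⟨y2, hy20, hy21, hdd⟩ := dd_eq w
  obtain ⟨Cs, hCs0, hCs⟩ := ss_estimate w
  refine ⟨Cs * (1 + Cs), min y1 y2, by positivity, lt_min hy10 hy20, (min_le_left _ _).trans hy11,
    fun y hy0 hy1 => ?_⟩
  have hyy1 : y ≤ 1 := (hy1.trans (min_le_left _ _)).trans hy11
  have hnu : 0 < nu m y := pow_pos hy0 _
  have hr : Continuous fun x => ss w y x * w.φ x - w.φ x :=
    (continuous_ss_mul w y hy0).sub w.continuous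
  have hs := hfr y (fun x => ss w y x * w.φ x - w.φ x) hy0 (hy1.trans (min_le_left _ _)) hr
    (fun x hx => by simp [w.supp x hx])
  have he : (fun γ : EBar m ℤ => ‖dd w y γ‖ ^ 2) = fun γ => ‖(nu m y : ℂ) *
      ip (fun x => ((ss w y x * w.φ x - w.φ x : ℝ) : ℂ)) (rep (sc y γ) w.c)‖ ^ 2 := by
    funext γ
    rw [hdd y γ hy0 (hy1.trans (min_le_right _ _))]
    congr 4
    funext x
    simp [ssc, Win.c]
  rw [he]
  refine ⟨hs.summable, ?_⟩
  rw [hs.tsum_eq, mul_comm]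
  refine mul_le_mul_of_nonneg_right ?_ hnu.le
  have h2 : ∫ x, (ss w y x * w.φ x - w.φ x) ^ 2 * ss w y x
      ≤ ∫ x, (Cs * (1 + Cs) * y) ^ 2 * w.φ x ^ 2 := by
    refine integral_mono_of_nonneg (Filter.Eventually.of_forall fun x => ?_)
      ((win_sq_integrable w).const_mul _) (Filter.Eventually.of_forall fun x => ?_)
    · exact mul_nonneg (sq_nonneg _) (ss_nonneg w hy0 x)
    · show (ss w y x * w.φ x - w.φ x) ^ 2 * ss w y x ≤ (Cs * (1 + Cs) * y) ^ 2 * w.φ x ^ 2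
      by_cases hx : ‖x‖ ≤ 1
      · have h := hCs y x hy0 hyy1 hx
        have hsq : (ss w y x - 1) ^ 2 ≤ (Cs * y) ^ 2 := by
          rw [← sq_abs (ss w y x - 1)]
          exact pow_le_pow_left₀ (abs_nonneg _) h 2
        have hle : ss w y x ≤ 1 + Cs := by
          have := (abs_le.mp h).2
          have : Cs * y ≤ Cs := mul_le_of_le_one_right hCs0 hyy1
          linarith
        have e : (ss w y x * w.φ x - w.φ x) ^ 2 * ss w y x
            = ((ss w y x - 1) ^ 2 * ss w y x) * w.φ x ^ 2 := by ring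
        rw [e]
        refine mul_le_mul_of_nonneg_right ?_ (sq_nonneg _)
        calc (ss w y x - 1) ^ 2 * ss w y x ≤ (Cs * y) ^ 2 * (1 + Cs) :=
              mul_le_mul hsq hle (ss_nonneg w hy0 x) (sq_nonneg _)
          _ ≤ (Cs * y) ^ 2 * (1 + Cs) ^ 2 := by
              refine mul_le_mul_of_nonneg_left ?_ (sq_nonneg _)
              nlinarith
          _ = (Cs * (1 + Cs) * y) ^ 2 := by ring
      · simp [w.supp x (not_le.mp hx)]
  rw [integral_const_mul, w.nrm, mul_one] at h2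
  exact h2

theorem dd_sup (w : Win m) : ∃ (C y1 : ℝ), 0 ≤ C ∧ 0 < y1 ∧ y1 ≤ 1 ∧
    ∀ (y : ℝ) (h : EBar m ℤ), 0 < y → y ≤ y1 → ‖dd w y h‖ ≤ C * y * nu m y := by
  obtain ⟨y2, hy20, hy21, hdd⟩ := dd_eq w
  obtain ⟨Cs, hCs0, hCs⟩ := ss_estimate w
  obtain ⟨Ci, hCi0, hCi⟩ := ip_rep_bound w
  obtain ⟨M, hM0, hM⟩ := w.exists_bound
  refine ⟨Ci * (Cs * M), y2, by positivity, hy20, hy21, fun y h hy0 hy1 => ?_⟩
  have hnu : 0 < nu m y := pow_pos hy0 _
  rw [hdd y h hy0 hy1, norm_mul, Complex.norm_real, Real.norm_of_nonneg hnu.le, mul_comm]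
  refine mul_le_mul_of_nonneg_right ?_ hnu.le
  have := hCi (fun x => ssc w y x - w.c x) (Cs * y * M) (sc y h)
    ((ssc_continuous w hy0).sub w.c_continuous) ?_
    (fun x hx => by simp [ssc_supp w y x hx, w.c_supp x hx])
  · calc _ ≤ Ci * (Cs * y * M) := this
      _ = Ci * (Cs * M) * y := by ring
  · intro x
    have e : ssc w y x - w.c x = ((ss w y x - 1 : ℝ) : ℂ) * (w.φ x : ℂ) := by
      simp [ssc, Win.c]; ring
    rw [e, norm_mul, Complex.norm_real, Complex.norm_real, Real.norm_eq_abs, Real.norm_eq_abs]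
    by_cases hx : ‖x‖ ≤ 1
    · exact mul_le_mul (hCs y x hy0 (hy1.trans hy21) hx) (hM x) (abs_nonneg _) (by positivity)
    · rw [w.supp x (not_le.mp hx)]; simp; positivity

end Claimed.Agent.R300.Nil
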