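import Claimed.Agent.R300.NilFrame

/-!
# KK Section 8, leaf NIL-FRAME-S: the frame symbol `ss` is `1 + O(y)` on the unit ball

Plan: header of `NilFrame.lean`.  For `‖x‖ ≤ 1` only lattice points with `‖β‖ ≤ R0` contribute (`nil_R0`), so
`ss w y x * φ x` equals a finite sum of continuous functions times `φ x` everywhere.
-/

set_option autoImplicit false

namespace Claimed.Agent.R300.Nil

open MeasureTheory

variable {m : ℕ}

/-- (F1) the frame symbol is `1 + O(y)` on the unit ball -/
theorem ss_estimate (w : Win m) : ∃ C : ℝ, 0 ≤ C ∧ ∀ (y : ℝ) (x : VV m), 0 < y → y ≤ 1 → ‖x‖ ≤ 1 →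
    |ss w y x - 1| ≤ C * y := by
  obtain ⟨M, hM0, hM⟩ := w.exists_bound
  obtain ⟨K0, hK0⟩ := w.exists_lipschitz
  obtain ⟨R0, hR0, hR⟩ := nil_R0 m
  set K : NNReal := Real.toNNReal (2 * M * K0 * (1 + m)) with hK
  have hKc : (K : ℝ) = 2 * M * K0 * (1 + m) := Real.coe_toNNReal _ (by positivity)
  refine ⟨K * (2 * R0 + 2) ^ Fintype.card (Idx m), by positivity, ?_⟩
  intro y x hy0 hy1 hx
  have hlip : LipschitzWith K (fun b : VV m => w.φ (circ x b) ^ 2) := by
    refine LipschitzWith.of_dist_le_mul fun b b' => ?_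
    rw [Real.dist_eq, dist_eq_norm]
    have h1 : |w.φ (circ x b) - w.φ (circ x b')| ≤ K0 * ‖circ x b - circ x b'‖ := by
      have := hK0.dist_le_mul (circ x b) (circ x b')
      rwa [Real.dist_eq, dist_eq_norm] at this
    have h2 := norm_circ_sub_circ_le x b b'
    have h3 : |w.φ (circ x b) + w.φ (circ x b')| ≤ 2 * M := by
      calc _ ≤ |w.φ (circ x b)| + |w.φ (circ x b')| := abs_add_le _ _
        _ ≤ _ := by linarith [hM (circ x b), hM (circ x b')]
    have h4 : (1 + (m : ℝ) * ‖x‖) ≤ 1 + m := by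
      have : (m : ℝ) * ‖x‖ ≤ m * 1 := mul_le_mul_of_nonneg_left hx (Nat.cast_nonneg m)
      linarith
    have e : w.φ (circ x b) ^ 2 - w.φ (circ x b') ^ 2
        = (w.φ (circ x b) + w.φ (circ x b')) * (w.φ (circ x b) - w.φ (circ x b')) := by ring
    rw [e, abs_mul]
    calc |w.φ (circ x b) + w.φ (circ x b')| * |w.φ (circ x b) - w.φ (circ x b')|
        ≤ (2 * M) * (K0 * ((1 + m) * ‖b - b'‖)) := by
          refine mul_le_mul h3 (h1.trans ?_) (abs_nonneg _) (by positivity)
          refine mul_le_mul_of_nonneg_left (h2.trans ?_) K0.2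
          exact mul_le_mul_of_nonneg_right h4 (norm_nonneg _)
      _ = K * ‖b - b'‖ := by rw [hKc]; ring
  have hint : ∫ b, w.φ (circ x b) ^ 2 = 1 := by
    have hmp := nil_mp_circ_left x
    have h1 := integral_map (μ := (volume : Measure (VV m))) hmp.measurable.aemeasurable
      (f := fun u => w.φ u ^ 2) (by
        rw [hmp.map_eq]; exact (w.continuous.pow 2).aestronglyMeasurable)
    rw [hmp.map_eq] at h1
    rw [← h1]; exact w.nrm
  have hmain := nil_riemann (fun b : VV m => w.φ (circ x b) ^ 2) K hlip R0 hR0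
    (fun b hb => by
      have h1 : 1 < ‖circ x b‖ := by
        by_contra hcon
        exact absurd (hR x b hx (not_lt.1 hcon)) (not_le.2 hb)
      show w.φ (circ x b) ^ 2 = 0
      rw [w.supp _ h1]; simp)
    (fun p => y ^ wtB p) y (fun p => pow_pos hy0 _)
    (fun p => by
      calc y ^ wtB p ≤ y ^ 1 := pow_le_pow_of_le_one hy0.le hy1 (wtB_pos p)
        _ = y := pow_one y)
    hy0.le hy1
  rw [hint] at hmain
  unfold ss
  calc _ ≤ _ := hmain
    _ = _ := by ring

/-- (F1') continuity after multiplication by the window -/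
theorem continuous_ss_mul (w : Win m) (y : ℝ) (hy : 0 < y) :
    Continuous fun x => ss w y x * w.φ x := by
  classical
  obtain ⟨R0, hR0, hR⟩ := nil_R0 m
  have hfin := nil_lattice_finite R0 (fun p : Idx m => y ^ wtB p) (fun p => pow_pos hy _)
  set F : Finset (Idx m → ℤ) := hfin.toFinset with hF
  have hEq : (fun x => ss w y x * w.φ x) = fun x =>
      ((∏ p : Idx m, y ^ wtB p) *
        ∑ n ∈ F, w.φ (circ x (fun p => y ^ wtB p * (n p : ℝ))) ^ 2) * w.φ x := by
    funext x
    by_cases hx : ‖x‖ ≤ 1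
    · unfold ss
      congr 2
      refine tsum_eq_sum fun n hn => ?_
      have h1 : 1 < ‖circ x (fun p => y ^ wtB p * (n p : ℝ))‖ := by
        by_contra hcon
        apply hn
        rw [hF, Set.Finite.mem_toFinset]
        have h2 := hR x _ hx (not_lt.1 hcon)
        rw [pi_norm_le_iff_of_nonneg hR0] at h2
        exact fun p => by simpa [Real.norm_eq_abs] using h2 p
      rw [w.supp _ h1]; simp
    · rw [w.supp x (not_le.1 hx), mul_zero, mul_zero]
  rw [hEq]
  refine (continuous_const.mul (continuous_finsetSum _ fun n _ => ?_)).mul w.continuous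
  refine (w.continuous.comp ?_).pow 2
  exact continuous_circ.comp (continuous_id.prodMk continuous_const)

end Claimed.Agent.R300.Nil
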