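import Claimed.Agent.R300.NilDefs

/-!
# KK Section 8, leaf NIL-MAGNUS: short reduced words are not laws of `U_m(ℤ)`; degree bound

`cprod l` = product of a list in the circle group (`1 + cprod l = ∏ (1 + x)`).

PLAN for `nil_magnus` (paper Lemma 8.2, Magnus expansion, syllable form).  Cut `w` into maximal blocks
(syllables) of equal UNDIRECTED letters; because `w` is reduced all letters of a syllable are the same dart,
so syllable `s` is `d_s ^ a_s` with `a_s ≥ 1`, `d_{s+1} ∉ {d_s, inv d_s}`, number of syllables `k ≤ |w| < m`.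
Choose an orientation (e.g. `Classical.choice` of one dart in each pair `{d, inv d}`), put
`Z_e = ∑_{s : edge of d_s = e} ± E_{s,s+1}` (strictly upper, `Z_e ^ 2 = 0` since adjacent syllables differ), so
`z d = Z`, `z (inv d) = -Z = ninv Z`.  Row vector invariant: with `v_t = e_0ᵀ ∏_{τ ≤ t} (1 + z (w τ))`,
`σ` = index of the current syllable, `a` = number of its letters read so far:
`v_t (σ) = A_σ`, `v_t (σ+1) = ± A_σ a`, `v_t (p) = 0` for `p > σ + 1`, `A_σ = ∏_{σ' < σ} (± a_σ')`.
Hence the `(0,k)` entry of the product is `± ∏ a_s ≠ 0`.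
A recursion on the list (reading from the right, shifting indices) may be more convenient.

`Gr`: entry `p` has total degree `≤ wtB p`; closed under `circ` and `ninv`
(`ninv x = -x - nmul x (ninv x)`, induction on `wtB p`; or via `∑ (-x)^k`).
-/

set_option autoImplicit false

namespace Claimed.Agent.R300.Nil

variable {m : ℕ}

/-- product of a list in the circle group -/
def cprod {A : Type*} [CommRing A] (l : List (Idx m → A)) : Idx m → A := l.foldr circ 0

@[simp] lemma cprod_nil {A : Type*} [CommRing A] : cprod ([] : List (Idx m → A)) = 0 := rfl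

@[simp] lemma cprod_cons {A : Type*} [CommRing A] (x : Idx m → A) (l : List (Idx m → A)) :
    cprod (x :: l) = circ x (cprod l) := rfl

lemma cprod_append {A : Type*} [CommRing A] (l l' : List (Idx m → A)) :
    cprod (l ++ l') = circ (cprod l) (cprod l') := by
  induction l with
  | nil => simp
  | cons x l ih => simp [ih, circ_assoc]

lemma cmap_cprod {A B : Type*} [CommRing A] [CommRing B] (f : A →+* B) (l : List (Idx m → A)) :
    cmap f (cprod l) = cprod (l.map (cmap f)) := by
  induction l with
  | nil => simp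
  | cons x l ih => simp [ih, cmap_circ]

section Magnus

variable {D : Type*}


/-- `c i` = dart of the `i`-th syllable counted from the END of the word.
`NmFit c l r`: the word `l` consists of the syllables `c (r-1), ..., c 0`. -/
inductive NmFit (c : ℕ → Option D) : List D → ℕ → Prop
  | nil : NmFit c [] 0
  | new (d : D) (l : List D) (r : ℕ) : NmFit c l r → c r = some d → NmFit c (d :: l) (r + 1)
  | same (d : D) (l : List D) (r : ℕ) : NmFit c (d :: l) (r + 1) → NmFit c (d :: d :: l) (r + 1)

theorem NmFit.head {c : ℕ → Option D} {l : List D} {r' : ℕ} (h : NmFit c l r') :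
    ∀ (d : D) (l' : List D), l = d :: l' → ∃ r, r' = r + 1 ∧ c r = some d := by
  induction h with
  | nil => intro d l' h; cases h
  | new d l r _ hc _ =>
    intro d' l' h
    cases h
    exact ⟨r, rfl, hc⟩
  | same d l r _ ih =>
    intro d' l' h
    cases h
    exact ih d l rfl

theorem NmFit.congr {c c' : ℕ → Option D} {l : List D} {r : ℕ} (h : NmFit c l r) :
    (∀ i < r, c i = c' i) → NmFit c' l r := by
  induction h with
  | nil => intro _; exact NmFit.nil
  | new d l r _ hc ih =>
    intro hcc
    exact NmFit.new d l r (ih fun i hi => hcc i (by omega)) (by rw [← hcc r (by omega)]; exact hc)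
  | same d l r _ ih =>
    intro hcc
    exact NmFit.same d l r (ih hcc)

theorem NmFit.le_length {c : ℕ → Option D} {l : List D} {r : ℕ} (h : NmFit c l r) :
    r ≤ l.length := by
  induction h with
  | nil => simp
  | new d l r _ _ ih => simp only [List.length_cons]; omega
  | same d l r _ ih => simp only [List.length_cons] at ih ⊢; omega

/-- adjacent syllables are different undirected letters -/
def NmAlt (inv : D → D) (c : ℕ → Option D) : Prop :=
  ∀ i a b, c i = some a → c (i + 1) = some b → b ≠ a ∧ b ≠ inv a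

theorem nm_exists_fit (inv : D → D) (hinv : ∀ d, inv (inv d) = d)
    (w : List D) (hred : w.IsChain (fun d d' => d' ≠ inv d)) :
    ∃ (c : ℕ → Option D) (r : ℕ), NmAlt inv c ∧ NmFit c w r ∧ ∀ i, r ≤ i → c i = none := by
  classical
  induction w with
  | nil =>
    refine ⟨fun _ => none, 0, ?_, NmFit.nil, fun _ _ => rfl⟩
    intro i a b h
    cases h
  | cons d w ih =>
    obtain ⟨c, r, hA, hF, hN⟩ := ih hred.tail
    cases w with
    | nil =>
      cases hF
      refine ⟨Function.update c 0 (some d), 1, ?_, ?_, ?_⟩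
      · intro i a b _ h2
        rw [Function.update_of_ne (by omega), hN _ (by omega)] at h2
        cases h2
      · exact NmFit.new d [] 0 NmFit.nil (by simp)
      · intro i hi
        rw [Function.update_of_ne (by omega), hN _ (by omega)]
    | cons d' w =>
      obtain ⟨r0, rfl, hc0⟩ := hF.head d' w rfl
      by_cases hdd : d = d'
      · subst hdd
        exact ⟨c, r0 + 1, hA, NmFit.same d w r0 hF, hN⟩
      · have hd' : d' ≠ inv d := by
          have := hred
          rw [List.isChain_cons_cons] at this
          exact this.1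
        refine ⟨Function.update c (r0 + 1) (some d), r0 + 1 + 1, ?_, ?_, ?_⟩
        · intro i a b h1 h2
          by_cases hi : i + 1 = r0 + 1
          · have hi' : i = r0 := by omega
            subst hi'
            rw [Function.update_self] at h2
            rw [Function.update_of_ne (by omega), hc0] at h1
            cases h1
            cases h2
            refine ⟨hdd, ?_⟩
            intro h
            apply hd'
            rw [h, hinv]
          · rw [Function.update_of_ne hi] at h2
            by_cases hi2 : i = r0 + 1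
            · rw [hN _ (by omega)] at h2
              cases h2
            · rw [Function.update_of_ne hi2] at h1
              exact hA i a b h1 h2
        · refine NmFit.new d (d' :: w) (r0 + 1) (hF.congr fun i hi => ?_) (by simp)
          rw [Function.update_of_ne (by omega)]
        · intro i hi
          rw [Function.update_of_ne (by omega), hN _ (by omega)]

open Classical in
/-- coefficient of the dart `d` on the syllable `i` -/
noncomputable def nmCoef (inv : D → D) (c : ℕ → Option D) (d : D) (i : ℕ) : ℤ :=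
  (if c i = some d then 1 else 0) - (if c i = some (inv d) then 1 else 0)

theorem nmCoef_self (inv : D → D) (hne : ∀ d, inv d ≠ d) (c : ℕ → Option D) (d : D) (i : ℕ)
    (h : c i = some d) : nmCoef inv c d i = 1 := by
  unfold nmCoef
  rw [if_pos h, if_neg]
  · simp
  · rw [h]
    intro e
    exact hne d (Option.some.inj e).symm

theorem nmCoef_inv (inv : D → D) (hinv : ∀ d, inv (inv d) = d) (c : ℕ → Option D) (d : D) (i : ℕ) :
    nmCoef inv c (inv d) i = -nmCoef inv c d i := by
  unfold nmCoef
  rw [hinv]
  ring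

theorem nmCoef_eq_zero (inv : D → D) (c : ℕ → Option D) (d : D) (i : ℕ)
    (h1 : c i ≠ some d) (h2 : c i ≠ some (inv d)) : nmCoef inv c d i = 0 := by
  unfold nmCoef
  rw [if_neg h1, if_neg h2, sub_zero]

/-- the syllable after (towards the end) a `d` syllable -/
theorem nmCoef_prev (inv : D → D) (hinv : ∀ d, inv (inv d) = d) (c : ℕ → Option D)
    (hA : NmAlt inv c) (d : D) (i : ℕ) (h : c (i + 1) = some d ∨ c (i + 1) = some (inv d)) :
    nmCoef inv c d i = 0 := by
  apply nmCoef_eq_zero
  · intro h1
    rcases h with h | h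
    · exact (hA i d d h1 h).1 rfl
    · exact (hA i d (inv d) h1 h).2 rfl
  · intro h1
    rcases h with h | h
    · exact (hA i (inv d) d h1 h).2 (hinv d).symm
    · exact (hA i (inv d) (inv d) h1 h).1 rfl

/-- the syllable before a `d` syllable -/
theorem nmCoef_next (inv : D → D) (hinv : ∀ d, inv (inv d) = d) (c : ℕ → Option D)
    (hA : NmAlt inv c) (d : D) (i : ℕ) (h : c i = some d ∨ c i = some (inv d)) :
    nmCoef inv c d (i + 1) = 0 := by
  apply nmCoef_eq_zero
  · intro h1
    rcases h with h | h
    · exact (hA i d d h h1).1 rfl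
    · exact (hA i (inv d) d h h1).2 (hinv d).symm
  · intro h1
    rcases h with h | h
    · exact (hA i d (inv d) h h1).2 rfl
    · exact (hA i (inv d) (inv d) h h1).1 rfl

theorem nmCoef_mul (inv : D → D) (hinv : ∀ d, inv (inv d) = d) (c : ℕ → Option D)
    (hA : NmAlt inv c) (d : D) (i : ℕ) : nmCoef inv c d (i + 1) * nmCoef inv c d i = 0 := by
  by_cases h : c i = some d ∨ c i = some (inv d)
  · rw [nmCoef_next inv hinv c hA d i h, zero_mul]
  · push Not at h
    rw [nmCoef_eq_zero inv c d i h.1 h.2, mul_zero]

/-- the last column of the product, indexed from the bottom -/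
noncomputable def nmV (inv : D → D) (c : ℕ → Option D) : List D → ℕ → ℤ
  | [], i => if i = 0 then 1 else 0
  | _ :: l, 0 => nmV inv c l 0
  | d :: l, i + 1 => nmV inv c l (i + 1) + nmCoef inv c d i * nmV inv c l i

theorem nmV_fit (inv : D → D) (hinv : ∀ d, inv (inv d) = d) (hne : ∀ d, inv d ≠ d)
    (c : ℕ → Option D) (hA : NmAlt inv c) {l : List D} {r : ℕ} (h : NmFit c l r) :
    (∀ i, r < i → nmV inv c l i = 0) ∧ 0 < nmV inv c l r ∧ (∀ r', r = r' + 1 → 0 < nmV inv c l r') := by
  induction h with
  | nil =>
    refine ⟨fun i hi => ?_, ?_, fun r' h => by omega⟩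
    · simp only [nmV]; rw [if_neg (by omega)]
    · simp [nmV]
  | new d l r _ hc ih =>
    obtain ⟨ih1, ih2, ih3⟩ := ih
    refine ⟨fun i hi => ?_, ?_, fun r' h => ?_⟩
    · obtain ⟨i', rfl⟩ : ∃ i', i = i' + 1 := ⟨i - 1, by omega⟩
      simp only [nmV]
      rw [ih1 _ (by omega), ih1 _ (by omega)]
      simp
    · simp only [nmV]
      rw [ih1 _ (by omega), nmCoef_self inv hne c d r hc]
      simpa using ih2
    · obtain rfl : r' = r := by omega
      cases r' with
      | zero => simpa only [nmV] using ih2
      | succ r'' =>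
        simp only [nmV]
        rw [nmCoef_prev inv hinv c hA d r'' (Or.inl hc)]
        simpa using ih2
  | same d l r hF ih =>
    obtain ⟨ih1, ih2, ih3⟩ := ih
    obtain ⟨r0, hr0, hc⟩ := hF.head d l rfl
    obtain rfl : r0 = r := by omega
    have ih3' := ih3 r0 rfl
    refine ⟨fun i hi => ?_, ?_, fun r' h => ?_⟩
    · obtain ⟨i', rfl⟩ : ∃ i', i = i' + 1 := ⟨i - 1, by omega⟩
      rw [nmV, ih1 _ hi]
      by_cases hi' : i' = r0 + 1
      · subst hi'
        rw [nmCoef_next inv hinv c hA d r0 (Or.inl hc)]
        simp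
      · rw [ih1 _ (by omega)]
        simp
    · rw [nmV, nmCoef_self inv hne c d r0 hc]
      omega
    · obtain rfl : r' = r0 := by omega
      cases r' with
      | zero => rw [nmV]; exact ih3'
      | succ r'' =>
        rw [nmV, nmCoef_prev inv hinv c hA d r'' (Or.inl hc)]
        simpa using ih3'

/-- the matrices: only the first superdiagonal, syllable `m - 1 - j` at the position `(j - 1, j)` -/
noncomputable def nmZ (inv : D → D) (c : ℕ → Option D) (d : D) : Idx m → ℤ :=
  fun p => if (p.1.2 : ℕ) = p.1.1 + 1 then nmCoef inv c d (m - 1 - p.1.2) else 0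

theorem toMat_nmZ (inv : D → D) (c : ℕ → Option D) (d : D) (i j : Fin m) :
    toMat (nmZ inv c d) i j = if (j : ℕ) = i + 1 then nmCoef inv c d (m - 1 - j) else 0 := by
  by_cases h : i < j
  · rw [toMat_apply_lt _ h]; rfl
  · rw [toMat_apply_not_lt _ h, if_neg]
    intro e
    apply h
    exact Fin.lt_def.2 (by omega)

theorem nmZ_sq (inv : D → D) (hinv : ∀ d, inv (inv d) = d) (c : ℕ → Option D)
    (hA : NmAlt inv c) (d : D) : nmul (nmZ (m := m) inv c d) (nmZ inv c d) = 0 := by
  apply toMat_injective
  rw [toMat_nmul, toMat_zero]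
  ext i l
  rw [Matrix.mul_apply, Matrix.zero_apply]
  refine Finset.sum_eq_zero fun j _ => ?_
  rw [toMat_nmZ, toMat_nmZ]
  by_cases h1 : (j : ℕ) = i + 1
  · by_cases h2 : (l : ℕ) = j + 1
    · rw [if_pos h1, if_pos h2]
      have e : m - 1 - (j : ℕ) = (m - 1 - (l : ℕ)) + 1 := by
        have := l.2
        omega
      rw [e]
      exact nmCoef_mul inv hinv c hA d _
    · rw [if_neg h2, mul_zero]
  · rw [if_neg h1, zero_mul]

theorem nmZ_inv (inv : D → D) (hinv : ∀ d, inv (inv d) = d) (c : ℕ → Option D) (d : D) :
    nmZ (m := m) inv c (inv d) = -nmZ inv c d := by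
  funext p
  simp only [nmZ, Pi.neg_apply]
  split_ifs
  · exact nmCoef_inv inv hinv c d _
  · simp

theorem nmZ_ninv (inv : D → D) (hinv : ∀ d, inv (inv d) = d) (c : ℕ → Option D)
    (hA : NmAlt inv c) (d : D) : nmZ (m := m) inv c (inv d) = ninv (nmZ inv c d) := by
  apply eq_ninv_of_circ_eq_zero
  rw [nmZ_inv inv hinv, circ, nmul_neg, nmZ_sq inv hinv c hA]
  simp


theorem nm_col (inv : D → D) (c : ℕ → Option D) (hm : 0 < m) (l : List D) (i : Fin m) :
    umat (cprod (l.map (nmZ inv c))) i ⟨m - 1, by omega⟩ = nmV inv c l (m - 1 - i) := by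
  induction l generalizing i with
  | nil =>
    simp only [List.map_nil, cprod_nil, umat_zero, nmV, Matrix.one_apply]
    by_cases h : i = ⟨m - 1, by omega⟩
    · rw [if_pos h, if_pos]
      rw [h]; simp
    · rw [if_neg h, if_neg]
      intro e
      apply h
      apply Fin.ext
      have := i.2
      simp only
      omega
  | cons d l ih =>
    rw [List.map_cons, cprod_cons, umat_circ]
    conv_lhs => rw [umat]
    rw [Matrix.add_mul, Matrix.one_mul, Matrix.add_apply, Matrix.mul_apply, ih]
    by_cases h : (i : ℕ) + 1 < m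
    · rw [Finset.sum_eq_single (⟨(i : ℕ) + 1, h⟩ : Fin m)]
      · rw [toMat_nmZ, if_pos rfl, ih]
        have e : m - 1 - (i : ℕ) = (m - 1 - ((i : ℕ) + 1)) + 1 := by omega
        simp only
        rw [e, nmV]
      · intro j _ hj
        rw [toMat_nmZ, if_neg, zero_mul]
        intro e
        apply hj
        exact Fin.ext e
      · intro h'
        exact absurd (Finset.mem_univ _) h'
    · rw [Finset.sum_eq_zero]
      · have e : m - 1 - (i : ℕ) = 0 := by omega
        rw [e, nmV, add_zero]
      · intro j _
        rw [toMat_nmZ, if_neg, zero_mul]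
        intro e
        have := j.2
        omega

end Magnus

/-- **Magnus**: a nonempty reduced word of length `< m` in letters `D` (with a fixed point free
involution `inv`) is not a law of `U_m(ℤ)`. -/
theorem nil_magnus {D : Type*} (inv : D → D) (hinv : ∀ d, inv (inv d) = d) (hne : ∀ d, inv d ≠ d)
    (w : List D) (hw : w ≠ []) (hred : w.IsChain (fun d d' => d' ≠ inv d)) (hlen : w.length < m) :
    ∃ z : D → Idx m → ℤ, (∀ d, z (inv d) = ninv (z d)) ∧ cprod (w.map z) ≠ 0 := by
  obtain ⟨c, r, hA, hF, _⟩ := nm_exists_fit inv hinv w hred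
  have hm : 0 < m := by omega
  refine ⟨nmZ inv c, fun d => nmZ_ninv inv hinv c hA d, ?_⟩
  intro h0
  have hr1 : 1 ≤ r := by
    cases w with
    | nil => exact absurd rfl hw
    | cons d l =>
      obtain ⟨r0, rfl, _⟩ := hF.head d l rfl
      omega
  have hr2 : r ≤ w.length := hF.le_length
  have hpos := (nmV_fit inv hinv hne c hA hF).2.1
  have hcol := nm_col inv c hm w ⟨m - 1 - r, by omega⟩
  rw [h0, umat_zero, Matrix.one_apply, if_neg] at hcol
  · have e : m - 1 - (m - 1 - r) = r := by omega
    simp only [e] at hcol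
    omega
  · intro e
    have := congrArg Fin.val e
    simp only at this
    omega

/-- graded polynomial coordinates -/
def Gr {σ : Type*} (x : Idx m → MvPolynomial σ ℤ) : Prop := ∀ p, (x p).totalDegree ≤ wtB p

theorem Gr.zero {σ : Type*} : Gr (0 : Idx m → MvPolynomial σ ℤ) := by
  intro p; simp

theorem Gr.const {σ : Type*} (x : Idx m → ℤ) :
    Gr (cmap (MvPolynomial.C : ℤ →+* MvPolynomial σ ℤ) x) := by
  intro p
  rw [cmap_apply, MvPolynomial.totalDegree_C]
  exact Nat.zero_le _

/-- graded upper triangular matrices -/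
def GrM {σ : Type*} (M : Matrix (Fin m) (Fin m) (MvPolynomial σ ℤ)) : Prop :=
  ∀ i j, (j < i → M i j = 0) ∧ (M i j).totalDegree ≤ (j : ℕ) - (i : ℕ)

theorem GrM.one {σ : Type*} : GrM (1 : Matrix (Fin m) (Fin m) (MvPolynomial σ ℤ)) := by
  intro i j
  constructor
  · intro h
    rw [Matrix.one_apply, if_neg h.ne']
  · rw [Matrix.one_apply]
    split_ifs <;> simp

theorem GrM.zero {σ : Type*} : GrM (0 : Matrix (Fin m) (Fin m) (MvPolynomial σ ℤ)) := by
  intro i j
  simp

theorem GrM.add {σ : Type*} {M N : Matrix (Fin m) (Fin m) (MvPolynomial σ ℤ)} (hM : GrM M)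
    (hN : GrM N) : GrM (M + N) := by
  intro i j
  constructor
  · intro h
    rw [Matrix.add_apply, (hM i j).1 h, (hN i j).1 h, add_zero]
  · rw [Matrix.add_apply]
    exact (MvPolynomial.totalDegree_add _ _).trans (max_le (hM i j).2 (hN i j).2)

theorem GrM.neg {σ : Type*} {M : Matrix (Fin m) (Fin m) (MvPolynomial σ ℤ)} (hM : GrM M) :
    GrM (-M) := by
  intro i j
  constructor
  · intro h
    rw [Matrix.neg_apply, (hM i j).1 h, neg_zero]
  · rw [Matrix.neg_apply, MvPolynomial.totalDegree_neg]
    exact (hM i j).2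

theorem GrM.mul {σ : Type*} {M N : Matrix (Fin m) (Fin m) (MvPolynomial σ ℤ)} (hM : GrM M)
    (hN : GrM N) : GrM (M * N) := by
  intro i j
  constructor
  · intro h
    rw [Matrix.mul_apply]
    refine Finset.sum_eq_zero fun k _ => ?_
    by_cases hk : k < i
    · rw [(hM i k).1 hk, zero_mul]
    · rw [(hN k j).1 (lt_of_lt_of_le h (not_lt.1 hk)), mul_zero]
  · rw [Matrix.mul_apply]
    refine MvPolynomial.totalDegree_finsetSum_le fun k _ => ?_
    by_cases hk : k < i
    · rw [(hM i k).1 hk, zero_mul]; simp
    · by_cases hk2 : j < k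
      · rw [(hN k j).1 hk2, mul_zero]; simp
      · refine (MvPolynomial.totalDegree_mul _ _).trans ?_
        have h1 := (hM i k).2
        have h2 := (hN k j).2
        have h3 : (i : ℕ) ≤ k := not_lt.1 hk
        have h4 : (k : ℕ) ≤ j := not_lt.1 hk2
        omega

theorem GrM.pow {σ : Type*} {M : Matrix (Fin m) (Fin m) (MvPolynomial σ ℤ)} (hM : GrM M) (k : ℕ) :
    GrM (M ^ k) := by
  induction k with
  | zero => rw [pow_zero]; exact GrM.one
  | succ k ih => rw [pow_succ]; exact ih.mul hM

theorem GrM.sum {σ ι : Type*} (s : Finset ι) {M : ι → Matrix (Fin m) (Fin m) (MvPolynomial σ ℤ)}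
    (hM : ∀ k ∈ s, GrM (M k)) : GrM (∑ k ∈ s, M k) := by
  classical
  induction s using Finset.induction_on with
  | empty => rw [Finset.sum_empty]; exact GrM.zero
  | insert a s ha ih =>
    rw [Finset.sum_insert ha]
    exact (hM a (by simp)).add (ih fun k hk => hM k (by simp [hk]))

theorem Gr.toMat {σ : Type*} {x : Idx m → MvPolynomial σ ℤ} (hx : Gr x) : GrM (toMat x) := by
  intro i j
  constructor
  · intro h
    exact toMat_apply_not_lt x (not_lt.2 h.le)
  · by_cases h : i < j
    · rw [toMat_apply_lt x h]
      exact hx ⟨(i, j), h⟩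
    · rw [toMat_apply_not_lt x h]; simp

theorem GrM.ofMat {σ : Type*} {M : Matrix (Fin m) (Fin m) (MvPolynomial σ ℤ)} (hM : GrM M) :
    Gr (ofMat M) := fun p => (hM p.1.1 p.1.2).2

theorem Gr.circ {σ : Type*} {x y : Idx m → MvPolynomial σ ℤ} (hx : Gr x) (hy : Gr y) :
    Gr (circ x y) := by
  have h : GrM (Nil.toMat x + Nil.toMat y + Nil.toMat x * Nil.toMat y) :=
    (hx.toMat.add hy.toMat).add (hx.toMat.mul hy.toMat)
  have e : Nil.circ x y = Nil.ofMat (Nil.toMat x + Nil.toMat y + Nil.toMat x * Nil.toMat y) := by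
    apply toMat_injective
    rw [toMat_ofMat (((su_toMat x).add (su_toMat y)).add ((su_toMat x).mul (su_toMat y))), Nil.circ,
      toMat_add, toMat_add, toMat_nmul]
  rw [e]
  exact h.ofMat

theorem Gr.ninv {σ : Type*} {x : Idx m → MvPolynomial σ ℤ} (hx : Gr x) : Gr (ninv x) := by
  exact (GrM.sum _ fun k _ => hx.toMat.neg.pow k).ofMat

theorem Gr.cprod {σ : Type*} {l : List (Idx m → MvPolynomial σ ℤ)} (hl : ∀ x ∈ l, Gr x) :
    Gr (cprod l) := by
  induction l with
  | nil => exact Gr.zero
  | cons x l ih =>
    exact Gr.circ (hl x (by simp)) (ih fun y hy => hl y (by simp [hy]))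

end Claimed.Agent.R300.Nil
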