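import Claimed.Agent.R300.NilChart

/-!
# KK Section 9.a: oscillatory integrals in the chart `b`

`oscI = ∫_{c-2}^{c+2} t'(b) e(-n t(b)) Φ(b) db`  (the Fourier coefficient of the mask `Φ ∘ b(t)`).
Two integrations by parts in the variable `b`:  `D² oscI = ∫ (Φ'' r + Φ' r') e(-n t(b)) db`, `D = -2π i n`,
`r = 1/t' = (2 + 2^(κ b) + 2^(-κ b)) / (κ ln 2 δ)`.
-/

set_option autoImplicit false

namespace Claimed.Agent.R300.Nil

open Real MeasureTheory intervalIntegral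

/-- derivative of the chart -/
noncomputable def tchD (δ κ b : ℝ) : ℝ := κ * Real.log 2 * (δ * (sg (κ * b) * sg (-(κ * b))))

/-- reciprocal of the derivative of the chart -/
noncomputable def tchR (δ κ b : ℝ) : ℝ :=
  (2 + (2 : ℝ) ^ (κ * b) + (2 : ℝ) ^ (-(κ * b))) / (κ * Real.log 2 * δ)

/-- derivative of `tchR` -/
noncomputable def tchR' (δ κ b : ℝ) : ℝ := ((2 : ℝ) ^ (κ * b) - (2 : ℝ) ^ (-(κ * b))) / δ

/-- the phase `e(-n t(b))` -/
noncomputable def oscE (δ κ : ℝ) (n : ℤ) (b : ℝ) : ℂ :=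
  Complex.exp ((-(2 * π * n : ℝ) : ℝ) * Complex.I * (tch δ κ b : ℝ))

section

variable {δ κ : ℝ}

lemma log_two_pos' : 0 < Real.log 2 := Real.log_pos one_lt_two

lemma tchD_pos (hδ : 0 < δ) (hκ : 0 < κ) (b : ℝ) : 0 < tchD δ κ b := by
  have := sg_pos (κ * b)
  have := sg_pos (-(κ * b))
  have := log_two_pos'
  unfold tchD
  positivity

lemma tchR_mul_tchD (hδ : 0 < δ) (hκ : 0 < κ) (b : ℝ) : tchR δ κ b * tchD δ κ b = 1 := by
  have h := two_rpow_pos (κ * b)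
  have hl := log_two_pos'
  unfold tchR tchD
  rw [sg_neg]
  unfold sg
  rw [Real.rpow_neg two_pos.le]
  field_simp
  ring

lemma tchD_le (hδ : 0 < δ) (hκ : 0 < κ) (b : ℝ) :
    tchD δ κ b ≤ κ * Real.log 2 * (δ * (2 : ℝ) ^ (-(κ * |b|))) := by
  have h := sg_mul_sg_neg_le (κ * b)
  rw [abs_mul, abs_of_pos hκ] at h
  have hl := log_two_pos'
  unfold tchD
  exact mul_le_mul_of_nonneg_left (mul_le_mul_of_nonneg_left h hδ.le) (by positivity)

lemma two_rpow_le_abs (x : ℝ) : (2 : ℝ) ^ x ≤ (2 : ℝ) ^ |x| :=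
  Real.rpow_le_rpow_of_exponent_le one_le_two (le_abs_self x)

lemma abs_tchR_le (hδ : 0 < δ) (hκ : 0 < κ) (b : ℝ) :
    |tchR δ κ b| ≤ 4 * (2 : ℝ) ^ (κ * |b|) / (κ * Real.log 2 * δ) := by
  have hl := log_two_pos'
  have h1 := two_rpow_le_abs (κ * b)
  have h2 := two_rpow_le_abs (-(κ * b))
  rw [abs_neg] at h2
  rw [abs_mul, abs_of_pos hκ] at h1 h2
  have h3 : 1 ≤ (2 : ℝ) ^ (κ * |b|) := Real.one_le_rpow one_le_two (by positivity)
  have p1 := two_rpow_pos (κ * b)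
  have p2 := two_rpow_pos (-(κ * b))
  unfold tchR
  rw [abs_of_nonneg (by positivity)]
  exact div_le_div_of_nonneg_right (by linarith) (by positivity)

lemma abs_tchR'_le (hδ : 0 < δ) (hκ : 0 < κ) (b : ℝ) :
    |tchR' δ κ b| ≤ (2 : ℝ) ^ (κ * |b|) / δ := by
  have h1 := two_rpow_le_abs (κ * b)
  have h2 := two_rpow_le_abs (-(κ * b))
  rw [abs_neg] at h2
  rw [abs_mul, abs_of_pos hκ] at h1 h2
  have p1 := two_rpow_pos (κ * b)
  have p2 := two_rpow_pos (-(κ * b))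
  unfold tchR'
  rw [abs_div, abs_of_pos hδ]
  refine div_le_div_of_nonneg_right ?_ hδ.le
  rw [abs_le]
  constructor <;> linarith

lemma hasDerivAt_two_rpow_mul (κ b : ℝ) :
    HasDerivAt (fun b : ℝ => (2 : ℝ) ^ (κ * b)) (κ * Real.log 2 * (2 : ℝ) ^ (κ * b)) b := by
  have h1 : HasDerivAt (fun b : ℝ => κ * b) κ b := by
    simpa using (hasDerivAt_id b).const_mul κ
  have := h1.const_rpow (a := (2 : ℝ)) two_pos
  have e : κ * Real.log 2 * (2 : ℝ) ^ (κ * b) = Real.log 2 * κ * (2 : ℝ) ^ (κ * b) := by ring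
  rw [e]
  exact this

lemma tchR_hasDerivAt (hδ : 0 < δ) (hκ : 0 < κ) (b : ℝ) :
    HasDerivAt (tchR δ κ) (tchR' δ κ b) b := by
  have hl := log_two_pos'
  have h1 := hasDerivAt_two_rpow_mul κ b
  have h2 := hasDerivAt_two_rpow_mul (-κ) b
  have h3 := (((h1.const_add 2).add h2).div_const (κ * Real.log 2 * δ))
  have e : tchR' δ κ b = (κ * Real.log 2 * (2 : ℝ) ^ (κ * b)
      + -κ * Real.log 2 * (2 : ℝ) ^ (-κ * b)) / (κ * Real.log 2 * δ) := by
    unfold tchR'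
    rw [neg_mul κ b]
    field_simp
    ring
  rw [e]
  refine h3.congr_of_eventuallyEq (Filter.Eventually.of_forall fun x => ?_)
  simp only [tchR, neg_mul, Pi.add_apply]

lemma tchD_continuous : Continuous (tchD δ κ) := by
  unfold tchD
  have h1 : Continuous fun b : ℝ => sg (κ * b) := sg_continuous.comp (by fun_prop)
  have h2 : Continuous fun b : ℝ => sg (-(κ * b)) := sg_continuous.comp (by fun_prop)
  fun_prop

lemma tchR_continuous (hδ : 0 < δ) (hκ : 0 < κ) : Continuous (tchR δ κ) :=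
  continuous_iff_continuousAt.mpr fun b => (tchR_hasDerivAt hδ hκ b).continuousAt

lemma tchR'_continuous : Continuous (tchR' δ κ) := by
  unfold tchR'
  have h1 : Continuous fun b : ℝ => (2 : ℝ) ^ (κ * b) :=
    continuous_iff_continuousAt.mpr fun b => (hasDerivAt_two_rpow_mul κ b).continuousAt
  have h2 : Continuous fun b : ℝ => (2 : ℝ) ^ (-(κ * b)) := by
    have := continuous_iff_continuousAt.mpr fun b => (hasDerivAt_two_rpow_mul (-κ) b).continuousAt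
    simpa only [neg_mul] using this
  fun_prop

lemma norm_oscE (n : ℤ) (b : ℝ) : ‖oscE δ κ n b‖ = 1 := by
  unfold oscE
  have : ((-(2 * π * n : ℝ) : ℝ) : ℂ) * Complex.I * (tch δ κ b : ℝ)
      = ((-(2 * π * n) * tch δ κ b : ℝ) : ℂ) * Complex.I := by
    push_cast; ring
  rw [this, Complex.norm_exp_ofReal_mul_I]

lemma oscE_hasDerivAt (n : ℤ) (b : ℝ) :
    HasDerivAt (oscE δ κ n)
      (((-(2 * π * n : ℝ) : ℝ) * Complex.I) * ((tchD δ κ b : ℝ) * oscE δ κ n b)) b := by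
  have h1 : HasDerivAt (fun b : ℝ => ((tch δ κ b : ℝ) : ℂ)) ((tchD δ κ b : ℝ) : ℂ) b :=
    (tch_hasDerivAt b).ofReal_comp
  have h2 := (h1.const_mul (((-(2 * π * n : ℝ) : ℝ) : ℂ) * Complex.I)).cexp
  have e : (((-(2 * π * n : ℝ) : ℝ) : ℂ) * Complex.I) * ((tchD δ κ b : ℝ) * oscE δ κ n b)
      = Complex.exp (((-(2 * π * n : ℝ) : ℝ) : ℂ) * Complex.I * (tch δ κ b : ℝ))
        * (((-(2 * π * n : ℝ) : ℝ) : ℂ) * Complex.I * (tchD δ κ b : ℝ)) := by
    unfold oscE; ring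
  rw [e]
  exact h2

lemma oscE_continuous (n : ℤ) : Continuous (oscE δ κ n) :=
  continuous_iff_continuousAt.mpr fun b => (oscE_hasDerivAt n b).continuousAt

end

/-- the oscillatory integral -/
noncomputable def oscI (δ κ : ℝ) (n : ℤ) (Φ : ℝ → ℝ) (c : ℝ) : ℂ :=
  ∫ b in (c - 2)..(c + 2), ((tchD δ κ b : ℝ) : ℂ) * (oscE δ κ n b * (Φ b : ℝ))

section bounds

variable {δ κ c A : ℝ} {Φ Φ1 Φ2 : ℝ → ℝ}

lemma abs_le_of_mem_uIoc {b : ℝ} (hb : b ∈ Set.uIoc (c - 2) (c + 2)) : |b| ≤ |c| + 2 := by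
  rw [Set.uIoc_of_le (by linarith)] at hb
  have h1 : |b - c| ≤ 2 := abs_le.mpr ⟨by linarith [hb.1], by linarith [hb.2]⟩
  calc |b| = |c + (b - c)| := by ring_nf
    _ ≤ |c| + |b - c| := abs_add_le _ _
    _ ≤ _ := by linarith

lemma abs_ge_of_mem_uIoc {b : ℝ} (hb : b ∈ Set.uIoc (c - 2) (c + 2)) : |c| - 2 ≤ |b| := by
  rw [Set.uIoc_of_le (by linarith)] at hb
  have h1 : |c - b| ≤ 2 := abs_le.mpr ⟨by linarith [hb.2], by linarith [hb.1]⟩
  have : |c| ≤ |b| + |c - b| := by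
    calc |c| = |b + (c - b)| := by ring_nf
      _ ≤ _ := abs_add_le _ _
  linarith

/-- trivial bound -/
theorem norm_oscI_le (hδ : 0 < δ) (hκ : 0 < κ) (n : ℤ) (hA : ∀ b, |Φ b| ≤ A) :
    ‖oscI δ κ n Φ c‖ ≤ 4 * (κ * Real.log 2 * (2 : ℝ) ^ (2 * κ) * A) * (δ * (2 : ℝ) ^ (-(κ * |c|))) := by
  have hl := log_two_pos'
  have hA0 : 0 ≤ A := (abs_nonneg _).trans (hA 0)
  have key : ∀ b ∈ Set.uIoc (c - 2) (c + 2),
      ‖((tchD δ κ b : ℝ) : ℂ) * (oscE δ κ n b * (Φ b : ℝ))‖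
        ≤ κ * Real.log 2 * (2 : ℝ) ^ (2 * κ) * A * (δ * (2 : ℝ) ^ (-(κ * |c|))) := by
    intro b hb
    rw [norm_mul, norm_mul, norm_oscE, one_mul, Complex.norm_real, Complex.norm_real,
      Real.norm_eq_abs, Real.norm_eq_abs, abs_of_pos (tchD_pos hδ hκ b)]
    have h1 := tchD_le hδ hκ b
    have h2 : (2 : ℝ) ^ (-(κ * |b|)) ≤ (2 : ℝ) ^ (2 * κ) * (2 : ℝ) ^ (-(κ * |c|)) := by
      rw [← Real.rpow_add two_pos]
      refine Real.rpow_le_rpow_of_exponent_le one_le_two ?_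
      have := abs_ge_of_mem_uIoc hb
      nlinarith
    calc tchD δ κ b * |Φ b|
        ≤ (κ * Real.log 2 * (δ * ((2 : ℝ) ^ (2 * κ) * (2 : ℝ) ^ (-(κ * |c|))))) * A := by
          refine mul_le_mul (h1.trans ?_) (hA b) (abs_nonneg _) (by positivity)
          exact mul_le_mul_of_nonneg_left (mul_le_mul_of_nonneg_left h2 hδ.le) (by positivity)
      _ = _ := by ring
  have := intervalIntegral.norm_integral_le_of_norm_le_const key
  have e : |c + 2 - (c - 2)| = 4 := by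
    rw [show c + 2 - (c - 2) = 4 by ring]; norm_num
  rw [e] at this
  unfold oscI
  linarith

/-- two integrations by parts -/
theorem oscI_ibp (hδ : 0 < δ) (hκ : 0 < κ) (n : ℤ)
    (h1 : ∀ b, HasDerivAt Φ (Φ1 b) b) (h2 : ∀ b, HasDerivAt Φ1 (Φ2 b) b) (hc2 : Continuous Φ2)
    (ha : Φ (c - 2) = 0) (hb : Φ (c + 2) = 0) (ha1 : Φ1 (c - 2) = 0) (hb1 : Φ1 (c + 2) = 0) :
    (((-(2 * π * n : ℝ) : ℝ) : ℂ) * Complex.I) ^ 2 * oscI δ κ n Φ c
      = ∫ b in (c - 2)..(c + 2),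
          ((Φ2 b * tchR δ κ b + Φ1 b * tchR' δ κ b : ℝ) : ℂ) * oscE δ κ n b := by
  set D : ℂ := ((-(2 * π * n : ℝ) : ℝ) : ℂ) * Complex.I with hD
  have hc1 : Continuous Φ1 := continuous_iff_continuousAt.mpr fun b => (h2 b).continuousAt
  have hc0 : Continuous Φ := continuous_iff_continuousAt.mpr fun b => (h1 b).continuousAt
  have hE := oscE_continuous (δ := δ) (κ := κ) n
  have hTD := tchD_continuous (δ := δ) (κ := κ)
  have hTR := tchR_continuous hδ hκ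
  have hTR' := tchR'_continuous (δ := δ) (κ := κ)
  have cR : ∀ {f : ℝ → ℝ}, Continuous f → Continuous fun b => ((f b : ℝ) : ℂ) :=
    fun hf => Complex.continuous_ofReal.comp hf
  -- first integration by parts
  have s1 : D * oscI δ κ n Φ c = -∫ b in (c - 2)..(c + 2), ((Φ1 b : ℝ) : ℂ) * oscE δ κ n b := by
    have := intervalIntegral.integral_mul_deriv_eq_deriv_mul (a := c - 2) (b := c + 2)
      (u := fun b => ((Φ b : ℝ) : ℂ)) (u' := fun b => ((Φ1 b : ℝ) : ℂ))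
      (v := oscE δ κ n) (v' := fun b => D * ((tchD δ κ b : ℝ) * oscE δ κ n b))
      (fun x _ => (h1 x).ofReal_comp) (fun x _ => oscE_hasDerivAt n x)
      ((cR hc1).intervalIntegrable _ _)
      ((continuous_const.mul ((cR hTD).mul hE)).intervalIntegrable _ _)
    rw [ha, hb] at this
    simp only [Complex.ofReal_zero, zero_mul, sub_zero, zero_sub] at this
    rw [← this, oscI, ← intervalIntegral.integral_const_mul]
    refine intervalIntegral.integral_congr fun b _ => ?_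
    ring
  -- second integration by parts
  have s2 : D * ∫ b in (c - 2)..(c + 2), ((Φ1 b : ℝ) : ℂ) * oscE δ κ n b
      = -∫ b in (c - 2)..(c + 2),
          ((Φ2 b * tchR δ κ b + Φ1 b * tchR' δ κ b : ℝ) : ℂ) * oscE δ κ n b := by
    have hu : ∀ x, HasDerivAt (fun b => ((Φ1 b * tchR δ κ b : ℝ) : ℂ))
        ((Φ2 x * tchR δ κ x + Φ1 x * tchR' δ κ x : ℝ) : ℂ) x :=
      fun x => ((h2 x).mul (tchR_hasDerivAt hδ hκ x)).ofReal_comp
    have := intervalIntegral.integral_mul_deriv_eq_deriv_mul (a := c - 2) (b := c + 2)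
      (u := fun b => ((Φ1 b * tchR δ κ b : ℝ) : ℂ))
      (u' := fun b => ((Φ2 b * tchR δ κ b + Φ1 b * tchR' δ κ b : ℝ) : ℂ))
      (v := oscE δ κ n) (v' := fun b => D * ((tchD δ κ b : ℝ) * oscE δ κ n b))
      (fun x _ => hu x) (fun x _ => oscE_hasDerivAt n x)
      ((cR ((hc2.mul hTR).add (hc1.mul hTR'))).intervalIntegrable _ _)
      ((continuous_const.mul ((cR hTD).mul hE)).intervalIntegrable _ _)
    rw [ha1, hb1] at this
    simp only [zero_mul, Complex.ofReal_zero, sub_zero, zero_sub] at this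
    rw [← this, ← intervalIntegral.integral_const_mul]
    refine intervalIntegral.integral_congr fun b _ => ?_
    have e : ((tchR δ κ b : ℝ) : ℂ) * ((tchD δ κ b : ℝ) : ℂ) = 1 := by
      rw [← Complex.ofReal_mul, tchR_mul_tchD hδ hκ, Complex.ofReal_one]
    rw [Complex.ofReal_mul]
    linear_combination (-(D * (Φ1 b : ℂ) * oscE δ κ n b)) * e
  rw [sq, mul_assoc, s1, mul_neg, s2, neg_neg]

/-- decay bound -/
theorem sq_mul_norm_oscI_le (hδ : 0 < δ) (hκ : 0 < κ) (n : ℤ)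
    (h1 : ∀ b, HasDerivAt Φ (Φ1 b) b) (h2 : ∀ b, HasDerivAt Φ1 (Φ2 b) b) (hc2 : Continuous Φ2)
    (ha : Φ (c - 2) = 0) (hb : Φ (c + 2) = 0) (ha1 : Φ1 (c - 2) = 0) (hb1 : Φ1 (c + 2) = 0)
    (hA1 : ∀ b, |Φ1 b| ≤ A) (hA2 : ∀ b, |Φ2 b| ≤ A) :
    (n : ℝ) ^ 2 * ‖oscI δ κ n Φ c‖
      ≤ 4 * (A * (4 / (κ * Real.log 2) + 1) * (2 : ℝ) ^ (2 * κ)) / (δ * (2 : ℝ) ^ (-(κ * |c|))) := by
  have hl := log_two_pos'
  have hA0 : 0 ≤ A := (abs_nonneg _).trans (hA1 0)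
  have hibp := oscI_ibp hδ hκ n h1 h2 hc2 ha hb ha1 hb1
  have key : ∀ b ∈ Set.uIoc (c - 2) (c + 2),
      ‖((Φ2 b * tchR δ κ b + Φ1 b * tchR' δ κ b : ℝ) : ℂ) * oscE δ κ n b‖
        ≤ (A * (4 / (κ * Real.log 2) + 1) * (2 : ℝ) ^ (2 * κ)) / (δ * (2 : ℝ) ^ (-(κ * |c|))) := by
    intro b hb
    rw [norm_mul, norm_oscE, mul_one, Complex.norm_real, Real.norm_eq_abs]
    have hp : (2 : ℝ) ^ (κ * |b|) ≤ (2 : ℝ) ^ (2 * κ) * (2 : ℝ) ^ (κ * |c|) := by
      rw [← Real.rpow_add two_pos]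
      refine Real.rpow_le_rpow_of_exponent_le one_le_two ?_
      have := abs_le_of_mem_uIoc hb
      nlinarith
    have r1 := abs_tchR_le hδ hκ b
    have r2 := abs_tchR'_le hδ hκ b
    have e : (A * (4 / (κ * Real.log 2) + 1) * (2 : ℝ) ^ (2 * κ)) / (δ * (2 : ℝ) ^ (-(κ * |c|)))
        = A * (4 * ((2 : ℝ) ^ (2 * κ) * (2 : ℝ) ^ (κ * |c|)) / (κ * Real.log 2 * δ))
          + A * (((2 : ℝ) ^ (2 * κ) * (2 : ℝ) ^ (κ * |c|)) / δ) := by
      rw [Real.rpow_neg two_pos.le]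
      have := two_rpow_pos (κ * |c|)
      field_simp
    rw [e]
    calc |Φ2 b * tchR δ κ b + Φ1 b * tchR' δ κ b|
        ≤ |Φ2 b| * |tchR δ κ b| + |Φ1 b| * |tchR' δ κ b| := by
          rw [← abs_mul, ← abs_mul]; exact abs_add_le _ _
      _ ≤ _ := by
          refine add_le_add (mul_le_mul (hA2 b) (r1.trans ?_) (abs_nonneg _) hA0)
            (mul_le_mul (hA1 b) (r2.trans ?_) (abs_nonneg _) hA0)
          · exact div_le_div_of_nonneg_right (by linarith) (by positivity)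
          · exact div_le_div_of_nonneg_right hp hδ.le
  have hint := intervalIntegral.norm_integral_le_of_norm_le_const key
  have e4 : |c + 2 - (c - 2)| = 4 := by
    rw [show c + 2 - (c - 2) = 4 by ring]; norm_num
  rw [e4, ← hibp, norm_mul, norm_pow, norm_mul, Complex.norm_I, mul_one, Complex.norm_real,
    Real.norm_eq_abs, sq_abs] at hint
  have hpi : (1 : ℝ) ≤ (2 * π) ^ 2 := by
    have := Real.pi_gt_three
    nlinarith
  have hn : (n : ℝ) ^ 2 ≤ (-(2 * π * n)) ^ 2 := by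
    have : (-(2 * π * (n : ℝ))) ^ 2 = (2 * π) ^ 2 * (n : ℝ) ^ 2 := by ring
    rw [this]
    nlinarith [sq_nonneg (n : ℝ)]
  calc (n : ℝ) ^ 2 * ‖oscI δ κ n Φ c‖ ≤ (-(2 * π * n)) ^ 2 * ‖oscI δ κ n Φ c‖ :=
        mul_le_mul_of_nonneg_right hn (norm_nonneg _)
    _ ≤ _ := by
        refine hint.trans (le_of_eq ?_)
        ring

end bounds

end Claimed.Agent.R300.Nil
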