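import Claimed.Agent.R300.NilMaskA
import Claimed.Agent.R300.KkCalc

/-!
# KK Section 9.a: masks on the circle and their Fourier coefficients

For `Φ : ℝ → ℝ` of class `C²` supported in `[c-1, c+1]` the mask `f = Φ ∘ b(t)` (zero off the window `(0,δ)`) is a
continuous function on the circle, `f (t(b)) = Φ b`, and with `w = δ 2^(-κ|c|)`
`|fhat(n)| ≤ C w`,  `n² |fhat(n)| ≤ C / w`.
-/

set_option autoImplicit false

namespace Claimed.Agent.R300.Nil

open Real MeasureTheory intervalIntegral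

/-- the inverse chart -/
noncomputable def binv (δ κ x : ℝ) : ℝ := Real.logb 2 (x / δ / (1 - x / δ)) / κ

/-- clamp to the image of `[c-2, c+2]` -/
noncomputable def clampW (δ κ c x : ℝ) : ℝ := max (tch δ κ (c - 2)) (min x (tch δ κ (c + 2)))

/-- the mask on the line -/
noncomputable def msk0 (δ κ c : ℝ) (Φ : ℝ → ℝ) (x : ℝ) : ℝ := Φ (binv δ κ (clampW δ κ c x))

section

variable {δ κ c : ℝ} {Φ : ℝ → ℝ}

lemma tch_binv (hδ : 0 < δ) (hκ : 0 < κ) {x : ℝ} (h0 : 0 < x) (h1 : x < δ) :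
    tch δ κ (binv δ κ x) = x := by
  unfold tch binv
  rw [mul_div_cancel₀ _ hκ.ne', sg_logb (div_pos h0 hδ) ((div_lt_one hδ).mpr h1)]
  field_simp

lemma binv_tch (hδ : 0 < δ) (hκ : 0 < κ) (b : ℝ) : binv δ κ (tch δ κ b) = b :=
  (tch_strictMono hδ hκ).injective (tch_binv hδ hκ (tch_pos hδ b) (tch_lt hδ b))

lemma binv_continuousOn (hδ : 0 < δ) : ContinuousOn (binv δ κ) (Set.Ioo 0 δ) := by
  unfold binv
  refine ContinuousOn.div_const ?_ κ
  unfold Real.logb
  refine ContinuousOn.div_const ?_ _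
  refine ContinuousOn.log ?_ ?_
  · refine ContinuousOn.div (by fun_prop) (by fun_prop) ?_
    intro x hx
    have : x / δ < 1 := (div_lt_one hδ).mpr hx.2
    linarith
  · intro x hx
    have h1 : x / δ < 1 := (div_lt_one hδ).mpr hx.2
    have h0 : 0 < x / δ := div_pos hx.1 hδ
    exact (div_pos h0 (by linarith)).ne'

lemma clampW_mem (hδ : 0 < δ) (x : ℝ) : clampW δ κ c x ∈ Set.Ioo 0 δ := by
  unfold clampW
  constructor
  · exact lt_of_lt_of_le (tch_pos hδ _) (le_max_left _ _)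
  · exact max_lt (tch_lt hδ _) (lt_of_le_of_lt (min_le_right _ _) (tch_lt hδ _))

lemma clampW_continuous : Continuous (clampW δ κ c) := by
  unfold clampW
  fun_prop

lemma msk0_continuous (hδ : 0 < δ) (hκ : 0 < κ) (hΦ : Continuous Φ) :
    Continuous (msk0 δ κ c Φ) :=
  hΦ.comp ((binv_continuousOn hδ).comp_continuous clampW_continuous (clampW_mem hδ))

lemma msk0_of_le (hδ : 0 < δ) (hκ : 0 < κ) (h : Φ (c - 2) = 0) {x : ℝ}
    (hx : x ≤ tch δ κ (c - 2)) : msk0 δ κ c Φ x = 0 := by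
  have : clampW δ κ c x = tch δ κ (c - 2) := by
    unfold clampW
    exact max_eq_left ((min_le_left _ _).trans hx)
  rw [msk0, this, binv_tch hδ hκ, h]

lemma msk0_of_ge (hδ : 0 < δ) (hκ : 0 < κ) (h : Φ (c + 2) = 0) {x : ℝ}
    (hx : tch δ κ (c + 2) ≤ x) : msk0 δ κ c Φ x = 0 := by
  have hm : tch δ κ (c - 2) ≤ tch δ κ (c + 2) :=
    (tch_strictMono hδ hκ).monotone (by linarith)
  have : clampW δ κ c x = tch δ κ (c + 2) := by
    unfold clampW
    rw [min_eq_right hx, max_eq_right hm]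
  rw [msk0, this, binv_tch hδ hκ, h]

lemma msk0_tch (hδ : 0 < δ) (hκ : 0 < κ) (hs : ∀ b, 1 < |b - c| → Φ b = 0) (b : ℝ) :
    msk0 δ κ c Φ (tch δ κ b) = Φ b := by
  have hmono := (tch_strictMono (κ := κ) hδ hκ).monotone
  have ha : Φ (c - 2) = 0 := hs _ (by rw [show c - 2 - c = -2 by ring]; norm_num)
  have hb : Φ (c + 2) = 0 := hs _ (by rw [show c + 2 - c = 2 by ring]; norm_num)
  rcases le_total b (c - 2) with h | h
  · rw [msk0_of_le hδ hκ ha (hmono h), hs]
    rw [lt_abs]; right; linarith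
  rcases le_total (c + 2) b with h' | h'
  · rw [msk0_of_ge hδ hκ hb (hmono h'), hs]
    rw [lt_abs]; left; linarith
  have : clampW δ κ c (tch δ κ b) = tch δ κ b := by
    unfold clampW
    rw [min_eq_left (hmono h'), max_eq_right (hmono h)]
  rw [msk0, this, binv_tch hδ hκ]

/-- change of variables -/
theorem integral_msk0 (hδ : 0 < δ) (hδ1 : δ ≤ 1) (hκ : 0 < κ) (hΦ : Continuous Φ)
    (hs : ∀ b, 1 < |b - c| → Φ b = 0) (n : ℤ) :
    ∫ x in (0 : ℝ)..1, Complex.exp ((-(2 * π * n : ℝ) : ℝ) * Complex.I * (x : ℝ))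
        * ((msk0 δ κ c Φ x : ℝ) : ℂ) = oscI δ κ n Φ c := by
  have ha : Φ (c - 2) = 0 := hs _ (by rw [show c - 2 - c = -2 by ring]; norm_num)
  have hb : Φ (c + 2) = 0 := hs _ (by rw [show c + 2 - c = 2 by ring]; norm_num)
  set G : ℝ → ℂ := fun x => Complex.exp ((-(2 * π * n : ℝ) : ℝ) * Complex.I * (x : ℝ))
        * ((msk0 δ κ c Φ x : ℝ) : ℂ) with hG
  have hGc : Continuous G := by
    have := msk0_continuous (c := c) hδ hκ hΦ
    have h2 : Continuous fun x : ℝ => ((msk0 δ κ c Φ x : ℝ) : ℂ) :=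
      Complex.continuous_ofReal.comp this
    have h3 : Continuous fun x : ℝ => ((x : ℝ) : ℂ) := Complex.continuous_ofReal
    exact (Complex.continuous_exp.comp (continuous_const.mul h3)).mul h2
  have i1 : ∫ x in (0 : ℝ)..(tch δ κ (c - 2)), G x = 0 := by
    have : ∀ x ∈ Set.uIcc 0 (tch δ κ (c - 2)), G x = 0 := by
      intro x hx
      rw [Set.uIcc_of_le (tch_pos hδ _).le] at hx
      simp only [hG, msk0_of_le hδ hκ ha hx.2, Complex.ofReal_zero, mul_zero]
    rw [intervalIntegral.integral_congr this, intervalIntegral.integral_zero]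
  have i3 : ∫ x in (tch δ κ (c + 2))..(1 : ℝ), G x = 0 := by
    have : ∀ x ∈ Set.uIcc (tch δ κ (c + 2)) 1, G x = 0 := by
      intro x hx
      rw [Set.uIcc_of_le ((tch_lt hδ _).le.trans hδ1)] at hx
      simp only [hG, msk0_of_ge hδ hκ hb hx.1, Complex.ofReal_zero, mul_zero]
    rw [intervalIntegral.integral_congr this, intervalIntegral.integral_zero]
  have i2 : ∫ x in (tch δ κ (c - 2))..(tch δ κ (c + 2)), G x = oscI δ κ n Φ c := by
    have := intervalIntegral.integral_deriv_smul_comp (a := c - 2) (b := c + 2)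
      (f := tch δ κ) (f' := tchD δ κ) (g := G) (fun x _ => tch_hasDerivAt x)
      tchD_continuous.continuousOn hGc
    rw [← this, oscI]
    refine intervalIntegral.integral_congr fun b _ => ?_
    simp only [Function.comp, hG, msk0_tch hδ hκ hs, Complex.real_smul, oscE]
  have hint : ∀ a b : ℝ, IntervalIntegrable G volume a b := fun a b => hGc.intervalIntegrable a b
  rw [← intervalIntegral.integral_add_adjacent_intervals (hint 0 (tch δ κ (c - 2))) (hint _ 1),
    ← intervalIntegral.integral_add_adjacent_intervals (hint (tch δ κ (c - 2)) (tch δ κ (c + 2)))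
      (hint _ 1), i1, i2, i3]
  ring

/-- the mask on the circle -/
noncomputable def mskC (hδ : 0 < δ) (hδ1 : δ ≤ 1) (hκ : 0 < κ) (hΦ : Continuous Φ)
    (hs : ∀ b, 1 < |b - c| → Φ b = 0) : C(UnitAddCircle, ℝ) :=
  ⟨AddCircle.liftIco 1 0 (msk0 δ κ c Φ), AddCircle.liftIco_zero_continuous (by
    have ha : Φ (c - 2) = 0 := hs _ (by rw [show c - 2 - c = -2 by ring]; norm_num)
    have hb : Φ (c + 2) = 0 := hs _ (by rw [show c + 2 - c = 2 by ring]; norm_num)
    rw [msk0_of_le hδ hκ ha (tch_pos hδ _).le, msk0_of_ge hδ hκ hb ((tch_lt hδ _).le.trans hδ1)])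
    (msk0_continuous hδ hκ hΦ).continuousOn⟩

lemma mskC_coe (hδ : 0 < δ) (hδ1 : δ ≤ 1) (hκ : 0 < κ) (hΦ : Continuous Φ)
    (hs : ∀ b, 1 < |b - c| → Φ b = 0) {x : ℝ} (hx : x ∈ Set.Icc (0 : ℝ) 1) :
    mskC hδ hδ1 hκ hΦ hs (x : UnitAddCircle) = msk0 δ κ c Φ x := by
  have ha : Φ (c - 2) = 0 := hs _ (by rw [show c - 2 - c = -2 by ring]; norm_num)
  have hb : Φ (c + 2) = 0 := hs _ (by rw [show c + 2 - c = 2 by ring]; norm_num)
  rcases hx.2.lt_or_eq with h | h
  · exact AddCircle.liftIco_zero_coe_apply (f := msk0 δ κ c Φ) (p := (1 : ℝ)) ⟨hx.1, h⟩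
  · subst h
    have e : ((1 : ℝ) : UnitAddCircle) = ((0 : ℝ) : UnitAddCircle) := by
      rw [AddCircle.coe_period]; rfl
    rw [e]
    have : mskC hδ hδ1 hκ hΦ hs ((0 : ℝ) : UnitAddCircle) = msk0 δ κ c Φ 0 :=
      AddCircle.liftIco_zero_coe_apply (f := msk0 δ κ c Φ) (p := (1 : ℝ)) ⟨le_rfl, one_pos⟩
    rw [this, msk0_of_le hδ hκ ha (tch_pos hδ _).le,
      msk0_of_ge hδ hκ hb ((tch_lt hδ _).le.trans hδ1)]

theorem fourierCoeff_mskC (hδ : 0 < δ) (hδ1 : δ ≤ 1) (hκ : 0 < κ) (hΦ : Continuous Φ)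
    (hs : ∀ b, 1 < |b - c| → Φ b = 0) (n : ℤ) :
    fourierCoeff (kkC (mskC hδ hδ1 hκ hΦ hs)) n = oscI δ κ n Φ c := by
  rw [fourierCoeff_eq_intervalIntegral _ n 0, ← integral_msk0 hδ hδ1 hκ hΦ hs n]
  simp only [div_one, one_smul, zero_add]
  refine intervalIntegral.integral_congr fun x hx => ?_
  rw [Set.uIcc_of_le zero_le_one] at hx
  simp only [kkC, ContinuousMap.coe_mk, mskC_coe hδ hδ1 hκ hΦ hs hx, fourier_coe_apply, smul_eq_mul]
  congr 2
  push_cast
  ring

end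

end Claimed.Agent.R300.Nil
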