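import Claimed.Agent.R300.NilDefs

/-!
# KK Section 8, leaf NIL-MEAS: translations of the real unitriangular group preserve Lebesgue measure

PLAN.  `circ x β = β + (x + nmul x β)`: a translation after the linear map `1 + N`, `N x = nmul x β`,
`N` nilpotent (`N^[m] = 0`, from `SU.pow_card` / `toMat_nmul`), hence `LinearMap.det (1 + N) = 1`
(e.g. charpoly of a nilpotent map is `X ^ n`, or `IsNilpotent` + `LinearMap.det` of a unipotent map,
or an explicit triangular matrix).  Then `Real.map_linearMap_volume_pi_eq_smul_volume_pi` and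
translation invariance.  Same for the other variable.
-/

set_option autoImplicit false

namespace Claimed.Agent.R300.Nil

open MeasureTheory

variable {m : ℕ}

/-- determinant of a unipotent map -/
theorem nilm_det_one_add {ι : Type*} [Fintype ι] (N : (ι → ℝ) →ₗ[ℝ] (ι → ℝ))
    (hN : IsNilpotent N) : LinearMap.det (1 + N) = 1 := by
  have h1 : IsNilpotent (-N) := hN.neg
  have h2 := IsNilpotent.charpoly_eq_X_pow_finrank h1
  have h3 := LinearMap.eval_charpoly (-N) (1 : ℝ)
  rw [h2] at h3
  simp only [Polynomial.eval_pow, Polynomial.eval_X, one_pow, map_one, sub_neg_eq_add] at h3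
  exact h3.symm

/-- a unipotent linear map followed by a translation preserves Lebesgue measure -/
theorem nilm_mp_affine {ι : Type*} [Fintype ι] (N : (ι → ℝ) →ₗ[ℝ] (ι → ℝ))
    (hN : IsNilpotent N) (c : ι → ℝ) :
    MeasurePreserving (fun x : ι → ℝ => c + (x + N x)) volume volume := by
  classical
  have hdet := nilm_det_one_add N hN
  have h1 : MeasurePreserving (fun x : ι → ℝ => (1 + N) x) volume volume := by
    refine ⟨(LinearMap.continuous_of_finiteDimensional (1 + N)).measurable, ?_⟩
    have := Real.map_linearMap_volume_pi_eq_smul_volume_pi (f := 1 + N) (by rw [hdet]; exact one_ne_zero)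
    rw [hdet] at this
    simp only [inv_one, abs_one, ENNReal.ofReal_one, one_smul] at this
    exact this
  have h2 : MeasurePreserving (fun y : ι → ℝ => c + y) volume volume :=
    measurePreserving_add_left volume c
  exact h2.comp h1

/-- right multiplication as a linear map -/
def nilmR (β : Idx m → ℝ) : (Idx m → ℝ) →ₗ[ℝ] (Idx m → ℝ) where
  toFun x := nmul x β
  map_add' x y := add_nmul x y β
  map_smul' a x := toMat_injective (by
    simp only [toMat_nmul, toMat_smul, RingHom.id_apply, Matrix.smul_mul])

/-- left multiplication as a linear map -/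
def nilmL (x : Idx m → ℝ) : (Idx m → ℝ) →ₗ[ℝ] (Idx m → ℝ) where
  toFun β := nmul x β
  map_add' y z := nmul_add x y z
  map_smul' a y := toMat_injective (by
    simp only [toMat_nmul, toMat_smul, RingHom.id_apply, Matrix.mul_smul])

theorem nilmR_pow (β : Idx m → ℝ) (k : ℕ) (x : Idx m → ℝ) :
    toMat ((nilmR β ^ k) x) = toMat x * toMat β ^ k := by
  induction k with
  | zero => simp
  | succ k ih =>
    rw [pow_succ', Module.End.mul_apply]
    change toMat (nmul _ β) = _
    rw [toMat_nmul, ih, pow_succ, Matrix.mul_assoc]

theorem nilmL_pow (x : Idx m → ℝ) (k : ℕ) (β : Idx m → ℝ) :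
    toMat ((nilmL x ^ k) β) = toMat x ^ k * toMat β := by
  induction k with
  | zero => simp
  | succ k ih =>
    rw [pow_succ', Module.End.mul_apply]
    change toMat (nmul x _) = _
    rw [toMat_nmul, ih, pow_succ', Matrix.mul_assoc]

theorem nilmR_nilpotent (β : Idx m → ℝ) : IsNilpotent (nilmR β) := by
  refine ⟨m, LinearMap.ext fun x => toMat_injective ?_⟩
  rw [nilmR_pow, (su_toMat β).pow_card]
  simp

theorem nilmL_nilpotent (x : Idx m → ℝ) : IsNilpotent (nilmL x) := by
  refine ⟨m, LinearMap.ext fun β => toMat_injective ?_⟩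
  rw [nilmL_pow, (su_toMat x).pow_card]
  simp

/-- `x ↦ (1+x)(1+β) - 1` preserves Lebesgue measure. -/
theorem nil_mp_circ_right (β : Idx m → ℝ) :
    MeasurePreserving (fun x : Idx m → ℝ => circ x β) volume volume := by
  have h := nilm_mp_affine (nilmR β) (nilmR_nilpotent β) β
  have e : (fun x : Idx m → ℝ => circ x β) = fun x => β + (x + nilmR β x) := by
    funext x
    change x + β + nmul x β = β + (x + nmul x β)
    abel
  rw [e]
  exact h

/-- `β ↦ (1+x)(1+β) - 1` preserves Lebesgue measure. -/
theorem nil_mp_circ_left (x : Idx m → ℝ) :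
    MeasurePreserving (fun β : Idx m → ℝ => circ x β) volume volume := by
  have h := nilm_mp_affine (nilmL x) (nilmL_nilpotent x) x
  have e : (fun β : Idx m → ℝ => circ x β) = fun β => x + (β + nilmL x β) := by
    funext β
    change x + β + nmul x β = x + (β + nmul x β)
    abel
  rw [e]
  exact h

end Claimed.Agent.R300.Nil
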