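import Claimed.Agent.R300.NilDefs

/-!
# KK Section 8, leaf NIL-NORM: sup-norm estimates for the real group operations

`VV m = Idx m → ℝ` with the sup norm.  Elementary inequalities (entrywise: a sum of at most `m` products),
continuity of the operations, and the three "geometric constants" used by the frame computation.

PLAN.  `‖nmul x y‖ ≤ m ‖x‖ ‖y‖` by `pi_norm_le_iff_of_nonneg`, `Matrix.mul_apply`, `|toMat x i j| ≤ ‖x‖`.
Continuity of `ninv`: entries of `∑ (-toMat x)^k` (`Continuous.matrix_elem`, `continuous_finsetSum`,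
`Continuous.pow` in the topological ring of matrices), or recursion `ninv x = -x - nmul x (ninv x)`.
`nil_ninv_bound`: continuous image of the compact ball.  `nil_R0`: `β = ninv x ∘ (x ∘ β)`.
`nil_R1`: `x = (x ∘ β) ∘ ninv β`.
-/

set_option autoImplicit false

namespace Claimed.Agent.R300.Nil

variable {m : ℕ}

/-- real coordinates -/
abbrev VV (m : ℕ) := Idx m → ℝ

theorem abs_toMat_le (x : VV m) (i j : Fin m) : |toMat x i j| ≤ ‖x‖ := by
  by_cases h : i < j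
  · rw [toMat_apply_lt x h, ← Real.norm_eq_abs]
    exact norm_le_pi_norm x _
  · rw [toMat_apply_not_lt x h, abs_zero]
    exact norm_nonneg x

/-- entries of a product of two matrices with bounded entries -/
theorem nn_abs_mul_apply_le (M N : Matrix (Fin m) (Fin m) ℝ) {a b : ℝ}
    (hM : ∀ i j, |M i j| ≤ a) (hN : ∀ i j, |N i j| ≤ b) (i j : Fin m) :
    |(M * N) i j| ≤ m * a * b := by
  rw [Matrix.mul_apply]
  calc |∑ k, M i k * N k j| ≤ ∑ k, |M i k * N k j| := Finset.abs_sum_le_sum_abs _ _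
    _ ≤ ∑ _k : Fin m, a * b := by
        refine Finset.sum_le_sum fun k _ => ?_
        rw [abs_mul]
        exact mul_le_mul (hM i k) (hN k j) (abs_nonneg _) ((abs_nonneg _).trans (hM i k))
    _ = m * a * b := by simp [mul_assoc]

theorem norm_nmul_le (x y : VV m) : ‖nmul x y‖ ≤ m * ‖x‖ * ‖y‖ := by
  rw [pi_norm_le_iff_of_nonneg (by positivity)]
  intro p
  rw [Real.norm_eq_abs]
  exact nn_abs_mul_apply_le _ _ (abs_toMat_le x) (abs_toMat_le y) _ _

theorem norm_ract_le (mu bet : VV m) : ‖ract mu bet‖ ≤ m * ‖mu‖ * ‖bet‖ := by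
  rw [pi_norm_le_iff_of_nonneg (by positivity)]
  intro p
  rw [Real.norm_eq_abs]
  exact nn_abs_mul_apply_le _ _ (abs_toMat_le mu) (fun i j => abs_toMat_le bet j i) _ _

theorem norm_circ_le (x y : VV m) : ‖circ x y‖ ≤ ‖x‖ + ‖y‖ + m * ‖x‖ * ‖y‖ := by
  unfold circ
  exact (norm_add_le _ _).trans (add_le_add (norm_add_le _ _) (norm_nmul_le x y))

theorem norm_lact_le (mu bet : VV m) : ‖lact mu bet‖ ≤ ‖mu‖ * (1 + m * ‖bet‖) := by
  unfold lact
  have h := (norm_add_le mu (ract mu bet)).trans (add_le_add le_rfl (norm_ract_le mu bet))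
  calc ‖mu + ract mu bet‖ ≤ ‖mu‖ + m * ‖mu‖ * ‖bet‖ := h
    _ = ‖mu‖ * (1 + m * ‖bet‖) := by ring

theorem abs_pr_le (l x : VV m) : |pr l x| ≤ Fintype.card (Idx m) * ‖l‖ * ‖x‖ := by
  unfold pr
  calc |∑ p, l p * x p| ≤ ∑ p, |l p * x p| := Finset.abs_sum_le_sum_abs _ _
    _ ≤ ∑ _p : Idx m, ‖l‖ * ‖x‖ := by
        refine Finset.sum_le_sum fun p _ => ?_
        rw [abs_mul, ← Real.norm_eq_abs, ← Real.norm_eq_abs]
        exact mul_le_mul (norm_le_pi_norm l p) (norm_le_pi_norm x p) (norm_nonneg _) (norm_nonneg _)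
    _ = Fintype.card (Idx m) * ‖l‖ * ‖x‖ := by simp [mul_assoc]

/-- `x ∘ β - x ∘ β' = (β - β') + x (β - β')` -/
theorem norm_circ_sub_circ_le (x b b' : VV m) :
    ‖circ x b - circ x b'‖ ≤ (1 + m * ‖x‖) * ‖b - b'‖ := by
  have e : circ x b - circ x b' = (b - b') + nmul x (b - b') := by
    rw [sub_eq_add_neg b b', nmul_add, nmul_neg]
    unfold circ
    abel
  rw [e]
  calc ‖(b - b') + nmul x (b - b')‖ ≤ ‖b - b'‖ + m * ‖x‖ * ‖b - b'‖ :=
        (norm_add_le _ _).trans (add_le_add le_rfl (norm_nmul_le _ _))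
    _ = (1 + m * ‖x‖) * ‖b - b'‖ := by ring

theorem norm_circ_sub_circ_le' (x x' b : VV m) :
    ‖circ x b - circ x' b‖ ≤ (1 + m * ‖b‖) * ‖x - x'‖ := by
  have e : circ x b - circ x' b = (x - x') + nmul (x - x') b := by
    rw [sub_eq_add_neg x x', add_nmul, neg_nmul]
    unfold circ
    abel
  rw [e]
  calc ‖(x - x') + nmul (x - x') b‖ ≤ ‖x - x'‖ + m * ‖x - x'‖ * ‖b‖ :=
        (norm_add_le _ _).trans (add_le_add le_rfl (norm_nmul_le _ _))
    _ = (1 + m * ‖b‖) * ‖x - x'‖ := by ring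

theorem nn_contDiff_toMat_apply (i j : Fin m) :
    ContDiff ℝ ((⊤ : ℕ∞) : WithTop ℕ∞) fun x : VV m => toMat x i j := by
  by_cases h : i < j
  · simp only [toMat_apply_lt _ h]
    exact contDiff_apply ℝ ℝ _
  · simp only [toMat_apply_not_lt _ h]
    exact contDiff_const

theorem nn_continuous_toMat_apply (i j : Fin m) : Continuous fun x : VV m => toMat x i j :=
  (nn_contDiff_toMat_apply i j).continuous

theorem nn_contDiff_nmul :
    ContDiff ℝ ((⊤ : ℕ∞) : WithTop ℕ∞) fun p : VV m × VV m => nmul p.1 p.2 := by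
  rw [contDiff_pi]
  intro q
  show ContDiff ℝ _ fun p : VV m × VV m => (toMat p.1 * toMat p.2) q.1.1 q.1.2
  simp only [Matrix.mul_apply]
  refine ContDiff.sum fun k _ => ?_
  exact ((nn_contDiff_toMat_apply _ _).comp contDiff_fst).mul
    ((nn_contDiff_toMat_apply _ _).comp contDiff_snd)

theorem continuous_nmul : Continuous fun p : VV m × VV m => nmul p.1 p.2 :=
  nn_contDiff_nmul.continuous

theorem contDiff_circ : ContDiff ℝ ((⊤ : ℕ∞) : WithTop ℕ∞) fun p : VV m × VV m => circ p.1 p.2 := by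
  unfold circ
  exact (contDiff_fst.add contDiff_snd).add nn_contDiff_nmul

theorem continuous_circ : Continuous fun p : VV m × VV m => circ p.1 p.2 :=
  contDiff_circ.continuous

theorem continuous_pr : Continuous fun p : VV m × VV m => pr p.1 p.2 := by
  unfold pr
  refine continuous_finsetSum _ fun q _ => ?_
  exact ((continuous_apply q).comp continuous_fst).mul ((continuous_apply q).comp continuous_snd)

theorem nn_continuous_toMat : Continuous (toMat : VV m → Matrix (Fin m) (Fin m) ℝ) :=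
  continuous_matrix fun i j => nn_continuous_toMat_apply i j

theorem continuous_ninv : Continuous (ninv : VV m → VV m) := by
  rw [continuous_pi_iff]
  intro q
  show Continuous fun x : VV m => (∑ k ∈ Finset.range m, (-toMat x) ^ k) q.1.1 q.1.2
  have h : Continuous fun x : VV m => ∑ k ∈ Finset.range m, (-toMat x) ^ k :=
    continuous_finsetSum _ fun k _ => (nn_continuous_toMat.neg).pow k
  exact h.matrix_elem _ _

/-- `ninv` is bounded on balls -/
theorem nil_ninv_bound (m : ℕ) (R : ℝ) : ∃ R' : ℝ, 0 ≤ R' ∧ ∀ x : VV m, ‖x‖ ≤ R → ‖ninv x‖ ≤ R' := by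
  obtain ⟨C, hC⟩ := (isCompact_closedBall (0 : VV m) R).exists_bound_of_continuousOn
    (continuous_ninv (m := m)).continuousOn
  refine ⟨max C 0, le_max_right _ _, fun x hx => ?_⟩
  exact (hC x (by simpa using hx)).trans (le_max_left _ _)

/-- if `x` and `x ∘ β` lie in the unit ball then `β` is bounded -/
theorem nil_R0 (m : ℕ) : ∃ R0 : ℝ, 0 ≤ R0 ∧ ∀ x b : VV m, ‖x‖ ≤ 1 → ‖circ x b‖ ≤ 1 → ‖b‖ ≤ R0 := by
  obtain ⟨R', hR', h⟩ := nil_ninv_bound m 1
  refine ⟨R' + 1 + m * R' * 1, by positivity, fun x b hx hxb => ?_⟩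
  have e : b = circ (ninv x) (circ x b) := by
    rw [← circ_assoc, ninv_circ, zero_circ]
  rw [e]
  refine (norm_circ_le _ _).trans ?_
  have h1 := h x hx
  gcongr

/-- if `‖β‖ ≤ R` and `x ∘ β` lies in the unit ball then `x` is bounded -/
theorem nil_R1 (m : ℕ) (R : ℝ) : ∃ R1 : ℝ, 0 ≤ R1 ∧
    ∀ x b : VV m, ‖b‖ ≤ R → ‖circ x b‖ ≤ 1 → ‖x‖ ≤ R1 := by
  obtain ⟨R', hR', h⟩ := nil_ninv_bound m R
  refine ⟨1 + R' + m * 1 * R', by positivity, fun x b hb hxb => ?_⟩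
  have e : x = circ (circ x b) (ninv b) := by
    rw [circ_assoc, circ_ninv, circ_zero]
  rw [e]
  refine (norm_circ_le _ _).trans ?_
  have h1 := h b hb
  gcongr

theorem nn_norm_dil_le (w : Idx m → ℕ) (hw : ∀ p, 0 < w p) (y : ℝ) (hy0 : 0 ≤ y) (hy1 : y ≤ 1)
    (x : VV m) : ‖(fun p => y ^ w p * x p : VV m)‖ ≤ y * ‖x‖ := by
  rw [pi_norm_le_iff_of_nonneg (by positivity)]
  intro p
  rw [norm_mul, Real.norm_eq_abs, abs_of_nonneg (pow_nonneg hy0 _)]
  have h1 : y ^ w p ≤ y := by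
    calc y ^ w p ≤ y ^ 1 := pow_le_pow_of_le_one hy0 hy1 (hw p)
      _ = y := pow_one y
  exact mul_le_mul h1 (norm_le_pi_norm x p) (norm_nonneg _) hy0

/-- dilations with `0 ≤ y ≤ 1` contract -/
theorem norm_dB_le (y : ℝ) (hy0 : 0 ≤ y) (hy1 : y ≤ 1) (x : VV m) : ‖dB y x‖ ≤ y * ‖x‖ :=
  nn_norm_dil_le wtB wtB_pos y hy0 hy1 x

theorem norm_dL_le (y : ℝ) (hy0 : 0 ≤ y) (hy1 : y ≤ 1) (x : VV m) : ‖dL y x‖ ≤ y * ‖x‖ :=
  nn_norm_dil_le wtL wtL_pos y hy0 hy1 x

theorem nn_abs_pow_sub_one_le (m : ℕ) {w : ℕ} (hw : w < m) {r : ℝ} (h0 : 1 / 3 ≤ r) (h3 : r ≤ 3) :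
    |r ^ w - 1| ≤ (m * 3 ^ m : ℝ) * |r - 1| := by
  have hr0 : 0 ≤ r := by linarith
  rw [← geom_sum_mul, abs_mul]
  refine mul_le_mul_of_nonneg_right ?_ (abs_nonneg _)
  rw [abs_of_nonneg (Finset.sum_nonneg fun k _ => pow_nonneg hr0 k)]
  calc ∑ k ∈ Finset.range w, r ^ k ≤ ∑ _k ∈ Finset.range w, (3 : ℝ) ^ m := by
        refine Finset.sum_le_sum fun k hk => ?_
        have hk' : k ≤ m := by
          have := Finset.mem_range.1 hk
          omega
        calc r ^ k ≤ 3 ^ k := pow_le_pow_left₀ hr0 h3 k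
          _ ≤ 3 ^ m := pow_le_pow_right₀ (by norm_num) hk'
    _ = w * 3 ^ m := by simp
    _ ≤ m * 3 ^ m := by
        have : (w : ℝ) ≤ m := by exact_mod_cast hw.le
        gcongr

theorem nn_norm_dil_sub_le (w : Idx m → ℕ) (hw : ∀ p, w p < m) (r : ℝ) (x : VV m)
    (h0 : 1 / 3 ≤ r) (h3 : r ≤ 3) :
    ‖(fun p => r ^ w p * x p : VV m) - x‖ ≤ (m * 3 ^ m : ℝ) * |r - 1| * ‖x‖ := by
  rw [pi_norm_le_iff_of_nonneg (by positivity)]
  intro p
  have e : ((fun p => r ^ w p * x p : VV m) - x) p = (r ^ w p - 1) * x p := by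
    simp only [Pi.sub_apply]
    ring
  rw [e, norm_mul, Real.norm_eq_abs]
  exact mul_le_mul (nn_abs_pow_sub_one_le m (hw p) h0 h3) (norm_le_pi_norm x p) (norm_nonneg _)
    (by positivity)

/-- dilations close to `1` move points of a ball by little -/
theorem norm_dB_sub_le (m : ℕ) : ∃ C : ℝ, ∀ (r : ℝ) (x : VV m), 1 / 3 ≤ r → r ≤ 3 →
    ‖dB r x - x‖ ≤ C * |r - 1| * ‖x‖ :=
  ⟨m * 3 ^ m, fun r x h0 h3 => nn_norm_dil_sub_le wtB wtB_lt r x h0 h3⟩

theorem norm_dL_sub_le (m : ℕ) : ∃ C : ℝ, ∀ (r : ℝ) (x : VV m), 1 / 3 ≤ r → r ≤ 3 →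
    ‖dL r x - x‖ ≤ C * |r - 1| * ‖x‖ :=
  ⟨m * 3 ^ m, fun r x h0 h3 => nn_norm_dil_sub_le wtL wtL_lt r x h0 h3⟩

end Claimed.Agent.R300.Nil
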