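import Claimed.Agent.R300.NilNorm
import Claimed.Agent.R300.NilEe
import Claimed.Agent.R300.NilMeas

/-!
# KK Section 8: the projective representation `rep`, the window, the coefficient function `JJ`

`rep a f x = e(<a.lam, x>) f ((1+x)(1+a.bet) - 1)`  (paper: pi_+, inverse-free convention).
`ip f g = ∫ f conj g`.   `JJ w a = ip φ (rep a φ)`  (paper: J_+; J_- is its complex conjugate).
The window `φ` is a smooth real function supported in the unit ball (sup norm) with `∫ φ² = 1`.

Leaves:  NIL-REP-A (algebra + unitarity: `rep_rep`, `ip_rep_rep`, `JJ_mul`, `JJ_inv`, `exists_win`),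
         NIL-REP-B (`JJ_bound`, `JJ_supp`, `JJ_lipschitz`),  NIL-REP-C (`JJ_decay`).
PLANS.
* `ip_rep_rep`: phases cancel; `nil_mp_circ_right` + `MeasurePreserving.integral_comp'` (the map is a
  measurable equivalence / use `integral_map` with AEStronglyMeasurable; or `MeasurePreserving.integral_comp` with a
  `MeasurableEmbedding` obtained from the inverse `x ↦ circ x (ninv β)`).  No integrability is needed.
* `JJ_mul`: `rep (a*a') φ = conj (e c) • rep a (rep a' φ)` and `ip_rep_rep`.
* `JJ_lipschitz`: `|J(a) - J(a')| ≤ ∫_{‖x‖≤1} |φ x| (|φ(x∘β) - φ(x∘β')| + |φ(x∘β')| |e(-λx) - e(-λ'x)|)`.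
* `JJ_decay`: `JJ w ⟨λ,β⟩` is the Fourier integral of `Φ_β x = φ x * φ (x ∘ β)` for the pairing `pr`;
  `VectorFourier.pow_mul_norm_iteratedFDeriv_fourierIntegral_le` (with `k = 0`, `n = 2 * card`, `v` = coordinate vector)
  or repeated integration by parts in one coordinate gives `|λ_p|^n |J| ≤ C_n`, where
  `C_n = 2^n ∑_{j ≤ n} sup_β ∫ ‖D^j Φ_β‖`, finite because `(x,β) ↦ Φ_β x` is smooth with compact support on
  `VV × VV` (`nil_R0`).  Then `∏_p (1+|λ_p|)^2 ≤ (1 + ‖λ‖)^(2 card)`.
-/

set_option autoImplicit false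

namespace Claimed.Agent.R300.Nil

open MeasureTheory

variable {m : ℕ}

/-- the projective representation on functions on `VV m` -/
noncomputable def rep (a : EBar m ℝ) (f : VV m → ℂ) : VV m → ℂ :=
  fun x => ee (pr a.lam x) * f (circ x a.bet)

/-- the `L²` pairing, linear in the first variable -/
noncomputable def ip (f g : VV m → ℂ) : ℂ := ∫ x, f x * (starRingEnd ℂ) (g x)

/-- windows -/
structure Win (m : ℕ) where
  φ : VV m → ℝ
  smooth : ContDiff ℝ ((⊤ : ℕ∞) : WithTop ℕ∞) φ
  supp : ∀ x, 1 < ‖x‖ → φ x = 0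
  nrm : ∫ x, φ x ^ 2 = 1

/-- the window as a complex function -/
noncomputable def Win.c (w : Win m) : VV m → ℂ := fun x => (w.φ x : ℂ)

/-- the coefficient function (paper: `J_+`) -/
noncomputable def JJ (w : Win m) (a : EBar m ℝ) : ℂ := ip w.c (rep a w.c)

theorem exists_win (m : ℕ) : Nonempty (Win m) := by
  let f : ContDiffBump (0 : VV m) := ⟨1 / 2, 1, by norm_num, by norm_num⟩
  have hfs : ContDiff ℝ ((⊤ : ℕ∞) : WithTop ℕ∞) (f : VV m → ℝ) := f.contDiff
  have hcs : HasCompactSupport (f : VV m → ℝ) := f.hasCompactSupport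
  have hsq_cont : Continuous fun x : VV m => f x ^ 2 := (f.continuous).pow 2
  have hsq_cs : HasCompactSupport fun x : VV m => f x ^ 2 := by
    have : (fun x : VV m => f x ^ 2) = fun x => f x * f x := by funext x; ring
    rw [this]
    exact hcs.mul_left
  have hI : 0 < ∫ x : VV m, f x ^ 2 := by
    refine hsq_cont.integral_pos_of_hasCompactSupport_nonneg_nonzero hsq_cs
      (fun x => by positivity) (x := 0) ?_
    have : f (0 : VV m) = 1 := f.one_of_mem_closedBall (by simp [f])
    rw [this]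
    norm_num
  refine ⟨⟨fun x => (Real.sqrt (∫ x : VV m, f x ^ 2))⁻¹ * f x, contDiff_const.mul hfs, ?_, ?_⟩⟩
  · intro x hx
    have : f x = 0 := f.zero_of_le_dist (by simpa [f] using hx.le)
    rw [this, mul_zero]
  · simp only [mul_pow]
    rw [integral_const_mul, inv_pow, Real.sq_sqrt hI.le, inv_mul_cancel₀ hI.ne']

/-- multiplier identity -/
theorem rep_rep (a b : EBar m ℝ) (f : VV m → ℂ) (x : VV m) :
    rep a (rep b f) x = ee (EBar.coc a b) * rep (a * b) f x := by
  unfold rep
  rw [EBar.mul_lam, EBar.mul_bet, circ_assoc, ← mul_assoc, ← mul_assoc, ← ee_add, ← ee_add]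
  congr 2
  rw [EBar.coc, pr_add_left, pr_lact, circ, pr_add_right, pr_add_right, pr_add_right]
  ring

theorem rep_one (f : VV m → ℂ) : rep (1 : EBar m ℝ) f = f := by
  funext x
  simp [rep]

theorem ip_conj (f g : VV m → ℂ) : (starRingEnd ℂ) (ip f g) = ip g f := by
  unfold ip
  rw [← integral_conj]
  refine integral_congr_ae (Filter.Eventually.of_forall fun x => ?_)
  simp only [map_mul, Complex.conj_conj]
  ring

/-- unitarity -/
theorem ip_rep_rep (a : EBar m ℝ) (f g : VV m → ℂ) : ip (rep a f) (rep a g) = ip f g := by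
  unfold ip rep
  have hemb : MeasurableEmbedding fun x : VV m => circ x a.bet := by
    have hc : Continuous fun x : VV m => circ x a.bet :=
      continuous_circ.comp (continuous_id.prodMk continuous_const)
    refine hc.measurableEmbedding ?_
    intro x y hxy
    have := congrArg (fun t => circ t (ninv a.bet)) hxy
    simpa [circ_assoc] using this
  have h := (nil_mp_circ_right a.bet).integral_comp hemb (fun y => f y * (starRingEnd ℂ) (g y))
  rw [← h]
  refine integral_congr_ae (Filter.Eventually.of_forall fun x => ?_)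
  simp only [map_mul]
  have e := ee_conj_mul_self (pr a.lam x)
  calc ee (pr a.lam x) * f (circ x a.bet)
        * ((starRingEnd ℂ) (ee (pr a.lam x)) * (starRingEnd ℂ) (g (circ x a.bet)))
      = ((starRingEnd ℂ) (ee (pr a.lam x)) * ee (pr a.lam x))
        * (f (circ x a.bet) * (starRingEnd ℂ) (g (circ x a.bet))) := by ring
    _ = f (circ x a.bet) * (starRingEnd ℂ) (g (circ x a.bet)) := by rw [e, one_mul]

/-- `J(a') e(c(a,a')) = <pi(a) φ, pi(a a') φ>` -/
theorem JJ_mul (w : Win m) (a a' : EBar m ℝ) :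
    JJ w a' * ee (EBar.coc a a') = ip (rep a w.c) (rep (a * a') w.c) := by
  have h1 : rep (a * a') w.c = fun x => (starRingEnd ℂ) (ee (EBar.coc a a')) * rep a (rep a' w.c) x := by
    funext x
    rw [rep_rep, ← mul_assoc, ee_conj_mul_self, one_mul]
  have h2 : ip (rep a w.c) (rep (a * a') w.c)
      = ee (EBar.coc a a') * ip (rep a w.c) (rep a (rep a' w.c)) := by
    rw [h1]
    unfold ip
    rw [← integral_const_mul]
    refine integral_congr_ae (Filter.Eventually.of_forall fun x => ?_)
    simp only [map_mul, Complex.conj_conj]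
    ring
  rw [h2, ip_rep_rep, JJ, mul_comm]

/-- `J* = J` -/
theorem JJ_inv (w : Win m) (a : EBar m ℝ) :
    JJ w a⁻¹ = (starRingEnd ℂ) (ee (EBar.coc a a⁻¹) * JJ w a) := by
  have h := JJ_mul w a a⁻¹
  rw [mul_inv_cancel, rep_one, ← ip_conj] at h
  have h2 : JJ w a⁻¹ = JJ w a⁻¹ * ee (EBar.coc a a⁻¹) * (starRingEnd ℂ) (ee (EBar.coc a a⁻¹)) := by
    rw [mul_assoc, mul_comm (ee _), ee_conj_mul_self, mul_one]
  rw [h2, h, map_mul, JJ, mul_comm]

theorem JJ_one (w : Win m) : JJ w 1 = 1 := by
  unfold JJ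
  rw [rep_one]
  unfold ip Win.c
  have : ∀ x : VV m, (w.φ x : ℂ) * (starRingEnd ℂ) (w.φ x : ℂ) = ((w.φ x ^ 2 : ℝ) : ℂ) := by
    intro x
    rw [Complex.conj_ofReal]
    push_cast
    ring
  simp only [this]
  rw [integral_complex_ofReal, w.nrm]
  simp

end Claimed.Agent.R300.Nil
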