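import Claimed.Agent.R300.NilRep

/-!
# KK Section 8, leaf NIL-REP-B: the coefficient function `JJ` is bounded, Lipschitz, compactly supported in `bet`

Plans: see the header of `NilRep.lean`.  Window: continuous with compact support (closed unit ball of a finite dimensional
space), `ContDiff.lipschitzWith_of_hasCompactSupport`.
-/

set_option autoImplicit false

namespace Claimed.Agent.R300.Nil

open MeasureTheory

variable {m : ℕ}

theorem Win.hasCompactSupport (w : Win m) : HasCompactSupport w.φ := by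
  refine HasCompactSupport.intro (isCompact_closedBall (0 : VV m) 1) fun x hx => ?_
  apply w.supp
  simpa using hx

/-- a function vanishing off the unit ball: bound of the integral -/
theorem nrb_integral_le (F : VV m → ℂ) (C : ℝ) (hF : ∀ x, 1 < ‖x‖ → F x = 0)
    (hC : ∀ x, ‖x‖ ≤ 1 → ‖F x‖ ≤ C) :
    ‖∫ x, F x‖ ≤ C * (volume : Measure (VV m)).real (Metric.closedBall 0 1) := by
  have h1 : ∫ x in Metric.closedBall (0 : VV m) 1, F x = ∫ x, F x := by
    refine setIntegral_eq_integral_of_forall_compl_eq_zero fun x hx => ?_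
    apply hF
    simpa using hx
  rw [← h1]
  refine norm_setIntegral_le_of_norm_le_const ?_ fun x hx => hC x (by simpa using hx)
  exact (isCompact_closedBall (0 : VV m) 1).measure_lt_top

/-- the window is bounded and Lipschitz -/
theorem Win.exists_bound (w : Win m) : ∃ M : ℝ, 0 ≤ M ∧ ∀ x, |w.φ x| ≤ M := by
  obtain ⟨C, hC⟩ := w.smooth.continuous.bounded_above_of_compact_support w.hasCompactSupport
  refine ⟨max C 0, le_max_right _ _, fun x => ?_⟩
  rw [← Real.norm_eq_abs]
  exact (hC x).trans (le_max_left _ _)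

theorem Win.exists_lipschitz (w : Win m) : ∃ K : NNReal, LipschitzWith K w.φ := by
  exact ContDiff.lipschitzWith_of_hasCompactSupport w.hasCompactSupport w.smooth (by simp)

theorem Win.continuous (w : Win m) : Continuous w.φ := w.smooth.continuous

/-- general bound for pairings against the window -/
theorem ip_rep_bound (w : Win m) : ∃ C : ℝ, 0 ≤ C ∧ ∀ (f : VV m → ℂ) (M : ℝ) (a : EBar m ℝ),
    Continuous f → (∀ x, ‖f x‖ ≤ M) → (∀ x, 1 < ‖x‖ → f x = 0) → ‖ip f (rep a w.c)‖ ≤ C * M := by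
  obtain ⟨Mφ, hMφ0, hMφ⟩ := w.exists_bound
  refine ⟨Mφ * (volume : Measure (VV m)).real (Metric.closedBall 0 1), by positivity, ?_⟩
  intro f M a _ hfM hfs
  unfold ip
  have h := nrb_integral_le (fun x => f x * (starRingEnd ℂ) (rep a w.c x)) (M * Mφ)
    (fun x hx => by simp only [hfs x hx, zero_mul]) (fun x _ => ?_)
  · refine h.trans (le_of_eq ?_)
    ring
  · have hM0 : 0 ≤ M := (norm_nonneg _).trans (hfM x)
    rw [norm_mul, RCLike.norm_conj]
    refine mul_le_mul (hfM x) ?_ (norm_nonneg _) hM0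
    unfold rep Win.c
    rw [norm_mul, norm_ee, one_mul, Complex.norm_real, Real.norm_eq_abs]
    exact hMφ _

theorem JJ_bound (w : Win m) : ∃ C : ℝ, 0 ≤ C ∧ ∀ a, ‖JJ w a‖ ≤ C := by
  obtain ⟨Mφ, hMφ0, hMφ⟩ := w.exists_bound
  obtain ⟨C, hC0, hC⟩ := ip_rep_bound w
  refine ⟨C * Mφ, by positivity, fun a => ?_⟩
  refine hC w.c Mφ a ?_ ?_ ?_
  · exact Complex.continuous_ofReal.comp w.continuous
  · intro x
    unfold Win.c
    rw [Complex.norm_real, Real.norm_eq_abs]
    exact hMφ x
  · intro x hx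
    unfold Win.c
    rw [w.supp x hx]
    simp

/-- support in the `bet` variable -/
theorem JJ_supp (w : Win m) (R0 : ℝ)
    (hR0 : ∀ x b : VV m, ‖x‖ ≤ 1 → ‖circ x b‖ ≤ 1 → ‖b‖ ≤ R0) (a : EBar m ℝ) (ha : R0 < ‖a.bet‖) :
    JJ w a = 0 := by
  unfold JJ ip
  have : ∀ x : VV m, w.c x * (starRingEnd ℂ) (rep a w.c x) = 0 := by
    intro x
    by_cases h1 : 1 < ‖x‖
    · unfold Win.c
      rw [w.supp x h1]
      simp
    · by_cases h2 : 1 < ‖circ x a.bet‖
      · unfold rep Win.c
        rw [w.supp _ h2]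
        simp
      · exact absurd (hR0 x a.bet (not_lt.1 h1) (not_lt.1 h2)) (not_le.2 ha)
  simp only [this, integral_zero]

theorem JJ_lipschitz (w : Win m) : ∃ K : ℝ, 0 ≤ K ∧ ∀ a a' : EBar m ℝ,
    ‖JJ w a - JJ w a'‖ ≤ K * (‖a.lam - a'.lam‖ + ‖a.bet - a'.bet‖) := by
  obtain ⟨Mφ, hMφ0, hMφ⟩ := w.exists_bound
  obtain ⟨Kφ, hKφ⟩ := w.exists_lipschitz
  set vol : ℝ := (volume : Measure (VV m)).real (Metric.closedBall 0 1) with hvol
  have hvol0 : 0 ≤ vol := by positivity
  set K1 : ℝ := Mφ * (Mφ * (2 * Real.pi * Fintype.card (Idx m))) with hK1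
  set K2 : ℝ := Mφ * (Kφ * (1 + m)) with hK2
  have hK10 : 0 ≤ K1 := by positivity
  have hK20 : 0 ≤ K2 := by positivity
  refine ⟨(K1 + K2) * vol, by positivity, fun a a' => ?_⟩
  have hcont : ∀ b : EBar m ℝ, Continuous fun x => w.c x * (starRingEnd ℂ) (rep b w.c x) := by
    intro b
    have h1 : Continuous w.c := Complex.continuous_ofReal.comp w.continuous
    have h2 : Continuous fun x : VV m => circ x b.bet :=
      continuous_circ.comp (continuous_id.prodMk continuous_const)
    have h3 : Continuous fun x : VV m => pr b.lam x :=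
      continuous_pr.comp (continuous_const.prodMk continuous_id)
    have h4 : Continuous (rep b w.c) := (continuous_ee.comp h3).mul (h1.comp h2)
    exact h1.mul (Complex.continuous_conj.comp h4)
  have hint : ∀ b : EBar m ℝ, Integrable fun x => w.c x * (starRingEnd ℂ) (rep b w.c x) := by
    intro b
    refine (hcont b).integrable_of_hasCompactSupport ?_
    refine HasCompactSupport.intro (isCompact_closedBall (0 : VV m) 1) fun x hx => ?_
    have : 1 < ‖x‖ := by simpa using hx
    unfold Win.c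
    rw [w.supp x this]
    simp
  unfold JJ ip
  rw [← integral_sub (hint a) (hint a')]
  have h := nrb_integral_le
    (fun x => w.c x * (starRingEnd ℂ) (rep a w.c x) - w.c x * (starRingEnd ℂ) (rep a' w.c x))
    (K1 * ‖a.lam - a'.lam‖ + K2 * ‖a.bet - a'.bet‖) (fun x hx => ?_) (fun x hx => ?_)
  · refine h.trans ?_
    have h1 := norm_nonneg (a.lam - a'.lam)
    have h2 := norm_nonneg (a.bet - a'.bet)
    have : K1 * ‖a.lam - a'.lam‖ + K2 * ‖a.bet - a'.bet‖
        ≤ (K1 + K2) * (‖a.lam - a'.lam‖ + ‖a.bet - a'.bet‖) := by nlinarith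
    calc (K1 * ‖a.lam - a'.lam‖ + K2 * ‖a.bet - a'.bet‖) * vol
        ≤ (K1 + K2) * (‖a.lam - a'.lam‖ + ‖a.bet - a'.bet‖) * vol :=
          mul_le_mul_of_nonneg_right this hvol0
      _ = (K1 + K2) * vol * (‖a.lam - a'.lam‖ + ‖a.bet - a'.bet‖) := by ring
  · unfold Win.c
    rw [w.supp x hx]
    simp
  · rw [← mul_sub, ← map_sub, norm_mul, RCLike.norm_conj]
    have hφx : ‖w.c x‖ ≤ Mφ := by
      unfold Win.c
      rw [Complex.norm_real, Real.norm_eq_abs]
      exact hMφ x
    have hdiff : ‖rep a w.c x - rep a' w.c x‖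
        ≤ Mφ * (2 * Real.pi * Fintype.card (Idx m)) * ‖a.lam - a'.lam‖
          + Kφ * (1 + m) * ‖a.bet - a'.bet‖ := by
      unfold rep Win.c
      have e : ee (pr a.lam x) * ((w.φ (circ x a.bet) : ℝ) : ℂ)
            - ee (pr a'.lam x) * ((w.φ (circ x a'.bet) : ℝ) : ℂ)
          = ee (pr a.lam x) * (((w.φ (circ x a.bet) - w.φ (circ x a'.bet) : ℝ)) : ℂ)
            + (ee (pr a.lam x) - ee (pr a'.lam x)) * ((w.φ (circ x a'.bet) : ℝ) : ℂ) := by
        push_cast
        ring
      rw [e]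
      refine (norm_add_le _ _).trans ?_
      rw [norm_mul, norm_mul, norm_ee, one_mul, Complex.norm_real, Complex.norm_real, add_comm]
      refine add_le_add ?_ ?_
      · have h1 : ‖ee (pr a.lam x) - ee (pr a'.lam x)‖
            ≤ 2 * Real.pi * (Fintype.card (Idx m) * ‖a.lam - a'.lam‖) := by
          refine (norm_ee_sub_ee_le _ _).trans ?_
          have e2 : pr a.lam x - pr a'.lam x = pr (a.lam - a'.lam) x := by
            rw [sub_eq_add_neg a.lam, pr_add_left, pr_neg_left]
            ring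
          rw [e2]
          have h3 := abs_pr_le (a.lam - a'.lam) x
          have h4 : (Fintype.card (Idx m) : ℝ) * ‖a.lam - a'.lam‖ * ‖x‖
              ≤ Fintype.card (Idx m) * ‖a.lam - a'.lam‖ * 1 := by gcongr
          have hpi : 0 ≤ 2 * Real.pi := by positivity
          exact mul_le_mul_of_nonneg_left (by linarith) hpi
        have h2 : ‖w.φ (circ x a'.bet)‖ ≤ Mφ := by
          rw [Real.norm_eq_abs]; exact hMφ _
        calc ‖ee (pr a.lam x) - ee (pr a'.lam x)‖ * ‖w.φ (circ x a'.bet)‖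
            ≤ (2 * Real.pi * (Fintype.card (Idx m) * ‖a.lam - a'.lam‖)) * Mφ :=
              mul_le_mul h1 h2 (norm_nonneg _) (by positivity)
          _ = Mφ * (2 * Real.pi * Fintype.card (Idx m)) * ‖a.lam - a'.lam‖ := by ring
      · have h1 := hKφ.dist_le_mul (circ x a.bet) (circ x a'.bet)
        rw [dist_eq_norm, dist_eq_norm] at h1
        refine h1.trans ?_
        have h2 := norm_circ_sub_circ_le x a.bet a'.bet
        have h3 : (1 + (m : ℝ) * ‖x‖) * ‖a.bet - a'.bet‖ ≤ (1 + (m : ℝ) * 1) * ‖a.bet - a'.bet‖ := by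
          gcongr
        calc (Kφ : ℝ) * ‖circ x a.bet - circ x a'.bet‖
            ≤ Kφ * ((1 + (m : ℝ) * 1) * ‖a.bet - a'.bet‖) := by
              apply mul_le_mul_of_nonneg_left (h2.trans h3) (by positivity)
          _ = Kφ * (1 + m) * ‖a.bet - a'.bet‖ := by ring
    calc ‖w.c x‖ * ‖rep a w.c x - rep a' w.c x‖
        ≤ Mφ * (Mφ * (2 * Real.pi * Fintype.card (Idx m)) * ‖a.lam - a'.lam‖
          + Kφ * (1 + m) * ‖a.bet - a'.bet‖) :=
          mul_le_mul hφx hdiff (norm_nonneg _) hMφ0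
      _ = K1 * ‖a.lam - a'.lam‖ + K2 * ‖a.bet - a'.bet‖ := by rw [hK1, hK2]; ring

end Claimed.Agent.R300.Nil
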