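import Claimed.Agent.R300.NilRepB

/-!
# KK Section 8, leaf NIL-REP-C: decay of `JJ` in the `lam` variable

Plan: see the header of `NilRep.lean` (item `JJ_decay`).
-/

set_option autoImplicit false

namespace Claimed.Agent.R300.Nil

open MeasureTheory

variable {m : ℕ}

/-- the pairing `pr` as a continuous bilinear map -/
noncomputable def nrcL (m : ℕ) : VV m →L[ℝ] VV m →L[ℝ] ℝ :=
  ∑ p : Idx m, (ContinuousLinearMap.proj (R := ℝ) (φ := fun _ : Idx m => ℝ) p).smulRight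
    (ContinuousLinearMap.proj (R := ℝ) (φ := fun _ : Idx m => ℝ) p)

theorem nrcL_apply (x y : VV m) : nrcL m x y = pr x y := by
  simp [nrcL, pr]

/-- volume of the unit ball -/
noncomputable def nrcVol (m : ℕ) : ℝ := (volume : Measure (VV m)).real (Metric.closedBall (0 : VV m) 1)

theorem nrcVol_nonneg (m : ℕ) : 0 ≤ nrcVol m := measureReal_nonneg

/-- integral of a bounded function supported in the unit ball -/
theorem nrc_integral_le (g : VV m → ℝ) (M : ℝ) (hs : ∀ x, 1 < ‖x‖ → g x = 0)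
    (hM : ∀ x, |g x| ≤ M) : ∫ x, g x ≤ M * nrcVol m := by
  have h1 : ∫ x in Metric.closedBall (0 : VV m) 1, g x = ∫ x, g x := by
    apply setIntegral_eq_integral_of_forall_compl_eq_zero
    intro x hx
    apply hs
    simpa using hx
  rw [← h1]
  refine (le_abs_self _).trans ?_
  have := norm_setIntegral_le_of_norm_le_const (μ := (volume : Measure (VV m)))
    (s := Metric.closedBall (0 : VV m) 1) (f := g) (C := M)
    (isCompact_closedBall _ _).measure_lt_top (fun x _ => hM x)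
  simpa [nrcVol] using this

theorem nrc_tsupport (f : VV m → ℂ) (hs : ∀ x, 1 < ‖x‖ → f x = 0) :
    tsupport f ⊆ Metric.closedBall (0 : VV m) 1 := by
  apply closure_minimal _ Metric.isClosed_closedBall
  intro x hx
  by_contra h
  apply hx
  apply hs
  simpa using h

theorem nrc_iter_zero (f : VV m → ℂ) (hs : ∀ x, 1 < ‖x‖ → f x = 0) (j : ℕ) (x : VV m)
    (hx : 1 < ‖x‖) : iteratedFDeriv ℝ j f x = 0 := by
  by_contra h
  have h1 : x ∈ Function.support (iteratedFDeriv ℝ j f) := h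
  have h2 := nrc_tsupport f hs (support_iteratedFDeriv_subset (𝕜 := ℝ) j h1)
  simp at h2
  linarith

theorem nrc_fourier_eq (f : VV m → ℂ) (l : VV m) :
    VectorFourier.fourierIntegral Real.fourierChar volume (nrcL m).toLinearMap₁₂ f l
      = ∫ x, ee (-pr l x) * f x := by
  rw [VectorFourier.fourierIntegral]
  refine integral_congr_ae (Filter.Eventually.of_forall fun x => ?_)
  have h : ((nrcL m).toLinearMap₁₂ x) l = pr l x := by
    rw [pr_comm]; exact nrcL_apply x l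
  simp only [h, ee_eq_fourierChar]
  rfl

theorem nrc_fourier_bound (f : VV m → ℂ) (hf : ContDiff ℝ ((⊤ : ℕ∞) : WithTop ℕ∞) f)
    (hs : ∀ x, 1 < ‖x‖ → f x = 0) (n : ℕ) (M : ℝ)
    (hM : ∀ j ≤ n, ∀ x, ‖iteratedFDeriv ℝ j f x‖ ≤ M) (l : VV m) (p : Idx m) :
    |l p| ^ n * ‖∫ x, ee (-pr l x) * f x‖ ≤ 2 ^ n * ((n + 1) * (M * nrcVol m)) := by
  classical
  have hcs : HasCompactSupport f :=
    HasCompactSupport.intro (isCompact_closedBall (0 : VV m) 1) (fun x hx => hs x (by simpa using hx))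
  have h'f : ∀ (k n : ℕ), (k : ℕ∞) ≤ (⊤ : ℕ∞) → (n : ℕ∞) ≤ (⊤ : ℕ∞) →
      Integrable (fun v : VV m ↦ ‖v‖ ^ k * ‖iteratedFDeriv ℝ n f v‖) volume := by
    intro k n _ _
    apply Continuous.integrable_of_hasCompactSupport
    · have := hf.continuous_iteratedFDeriv (m := n) (by exact_mod_cast le_top)
      fun_prop
    · exact ((hcs.iteratedFDeriv (𝕜 := ℝ) n).norm).mul_left
  have key := VectorFourier.pow_mul_norm_iteratedFDeriv_fourierIntegral_le (nrcL m) (μ := volume)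
    (K := ⊤) (N := ⊤) hf h'f (k := 0) (n := n) le_top le_top (Pi.single p 1) l
  rw [norm_iteratedFDeriv_zero, nrc_fourier_eq, nrcL_apply, pr_comm, pr_single] at key
  refine key.trans ?_
  have hn1 : ‖(Pi.single p 1 : VV m)‖ = 1 := by
    rw [Pi.norm_single]; simp
  rw [hn1]
  simp only [one_pow, pow_zero, mul_one, one_mul, Nat.cast_zero, mul_zero, zero_add]
  gcongr
  calc ∑ q ∈ Finset.range 1 ×ˢ Finset.range (n + 1),
        ∫ v : VV m, ‖v‖ ^ q.1 * ‖iteratedFDeriv ℝ q.2 f v‖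
      ≤ ∑ q ∈ Finset.range 1 ×ˢ Finset.range (n + 1), M * nrcVol m := by
        apply Finset.sum_le_sum
        intro q hq
        simp only [Finset.mem_product, Finset.mem_range] at hq
        have hq1 : q.1 = 0 := by omega
        apply nrc_integral_le
        · intro x hx
          rw [nrc_iter_zero f hs _ x hx]; simp
        · intro x
          rw [hq1, pow_zero, one_mul, abs_of_nonneg (norm_nonneg _)]
          exact hM _ (by omega) x
    _ = (n + 1) * (M * nrcVol m) := by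
        simp

theorem nrc_fourier_bound0 (f : VV m → ℂ)
    (hs : ∀ x, 1 < ‖x‖ → f x = 0) (M : ℝ)
    (hM : ∀ x, ‖f x‖ ≤ M) (l : VV m) :
    ‖∫ x, ee (-pr l x) * f x‖ ≤ M * nrcVol m := by
  refine (norm_integral_le_integral_norm _).trans ?_
  apply nrc_integral_le
  · intro x hx
    rw [hs x hx]; simp
  · intro x
    rw [abs_of_nonneg (norm_nonneg _), norm_mul, norm_ee, one_mul]
    exact hM x

/-- the joint function `(x, β) ↦ φ x * φ (x ∘ β)` -/
noncomputable def nrcF (w : Win m) : VV m × VV m → ℂ :=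
  fun q => ((w.φ q.1 * w.φ (circ q.1 q.2) : ℝ) : ℂ)

theorem nrcF_contDiff (w : Win m) : ContDiff ℝ ((⊤ : ℕ∞) : WithTop ℕ∞) (nrcF w) := by
  have h1 : ContDiff ℝ ((⊤ : ℕ∞) : WithTop ℕ∞)
      fun q : VV m × VV m => w.φ q.1 * w.φ (circ q.1 q.2) :=
    (w.smooth.comp contDiff_fst).mul (w.smooth.comp contDiff_circ)
  exact Complex.ofRealCLM.contDiff.comp h1

theorem nrcF_compact (w : Win m) : HasCompactSupport (nrcF w) := by
  obtain ⟨R0, hR0, h⟩ := nil_R0 m
  apply HasCompactSupport.intro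
    ((isCompact_closedBall (0 : VV m) 1).prod (isCompact_closedBall (0 : VV m) R0))
  intro q hq
  by_cases h1 : ‖q.1‖ ≤ 1
  · by_cases h2 : ‖circ q.1 q.2‖ ≤ 1
    · exact absurd ⟨by simpa using h1, by simpa using h _ _ h1 h2⟩ hq
    · simp [nrcF, w.supp _ (not_le.mp h2)]
  · simp [nrcF, w.supp _ (not_le.mp h1)]

theorem nrcF_bound (w : Win m) (n : ℕ) :
    ∃ M : ℝ, 0 ≤ M ∧ ∀ j ≤ n, ∀ q, ‖iteratedFDeriv ℝ j (nrcF w) q‖ ≤ M := by
  have h : ∀ j : ℕ, ∃ C : ℝ, ∀ q, ‖iteratedFDeriv ℝ j (nrcF w) q‖ ≤ C := fun j =>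
    ((nrcF_contDiff w).continuous_iteratedFDeriv (m := j)
      (by exact_mod_cast le_top)).bounded_above_of_compact_support
      ((nrcF_compact w).iteratedFDeriv (𝕜 := ℝ) j)
  choose C hC using h
  refine ⟨∑ j ∈ Finset.range (n + 1), |C j|, Finset.sum_nonneg fun _ _ => abs_nonneg _, ?_⟩
  intro j hj q
  refine ((hC j q).trans (le_abs_self _)).trans ?_
  exact Finset.single_le_sum (f := fun j => |C j|) (fun _ _ => abs_nonneg _)
    (Finset.mem_range.mpr (by omega))

theorem nrc_slice_contDiff (w : Win m) (b : VV m) :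
    ContDiff ℝ ((⊤ : ℕ∞) : WithTop ℕ∞) (fun x : VV m => nrcF w (x, b)) :=
  (nrcF_contDiff w).comp (contDiff_id.prodMk contDiff_const)

theorem nrc_slice (w : Win m) (b : VV m) (j : ℕ) (x : VV m) :
    ‖iteratedFDeriv ℝ j (fun x : VV m => nrcF w (x, b)) x‖
      ≤ ‖iteratedFDeriv ℝ j (nrcF w) (x, b)‖ := by
  have e : (fun x : VV m => nrcF w (x, b))
      = (fun z => nrcF w (z + (0, b))) ∘ (ContinuousLinearMap.inl ℝ (VV m) (VV m)) := by
    funext x; simp
  have hc : ContDiff ℝ ((⊤ : ℕ∞) : WithTop ℕ∞) (fun z => nrcF w (z + (0, b))) :=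
    (nrcF_contDiff w).comp (contDiff_id.add contDiff_const)
  rw [e, ContinuousLinearMap.iteratedFDeriv_comp_right _ hc x (i := j) (by exact_mod_cast le_top),
    iteratedFDeriv_comp_add_right]
  refine (ContinuousMultilinearMap.norm_compContinuousLinearMap_le _ _).trans ?_
  have h1 : ∏ _i : Fin j, ‖ContinuousLinearMap.inl ℝ (VV m) (VV m)‖ ≤ 1 := by
    apply Finset.prod_le_one
    · intro _ _; exact norm_nonneg _
    · intro _ _; exact ContinuousLinearMap.norm_inl_le_one _ _ _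
  have h2 : (ContinuousLinearMap.inl ℝ (VV m) (VV m)) x + (0, b) = (x, b) := by simp
  rw [h2]
  exact mul_le_of_le_one_right (norm_nonneg _) h1

theorem nrc_JJ_eq (w : Win m) (a : EBar m ℝ) :
    JJ w a = ∫ x, ee (-pr a.lam x) * nrcF w (x, a.bet) := by
  unfold JJ ip
  refine integral_congr_ae (Filter.Eventually.of_forall fun x => ?_)
  simp only [Win.c, rep, nrcF, ee_neg, map_mul, Complex.conj_ofReal, Complex.ofReal_mul]
  ring

theorem nrc_slice_supp (w : Win m) (b : VV m) (x : VV m) (hx : 1 < ‖x‖) : nrcF w (x, b) = 0 := by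
  simp [nrcF, w.supp x hx]

/-- decay in the `lam` variable -/
theorem JJ_decay (w : Win m) : ∃ C : ℝ, 0 ≤ C ∧ ∀ a : EBar m ℝ,
    ‖JJ w a‖ * ∏ p, (1 + |a.lam p|) ^ 2 ≤ C := by
  set d := Fintype.card (Idx m) with hd
  obtain ⟨M, hM0, hM⟩ := nrcF_bound w (2 * d)
  have hV := nrcVol_nonneg m
  set B : ℝ := 2 ^ (2 * d) * (((2 * d : ℕ) + 1) * (M * nrcVol m)) with hB
  have hB0 : 0 ≤ B := by positivity
  have hMV : M * nrcVol m ≤ B := by
    have h1 : (1 : ℝ) ≤ 2 ^ (2 * d) := one_le_pow₀ (by norm_num)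
    have h2 : (1 : ℝ) ≤ ((2 * d : ℕ) + 1) := by
      have : (0 : ℝ) ≤ ((2 * d : ℕ) : ℝ) := Nat.cast_nonneg _
      linarith
    have h3 : 0 ≤ M * nrcVol m := by positivity
    calc M * nrcVol m = 1 * (1 * (M * nrcVol m)) := by ring
      _ ≤ B := by rw [hB]; gcongr
  refine ⟨2 ^ (2 * d) * B, by positivity, ?_⟩
  intro a
  have hJ0 : ‖JJ w a‖ ≤ B := by
    rw [nrc_JJ_eq]
    refine (nrc_fourier_bound0 (fun x => nrcF w (x, a.bet)) (nrc_slice_supp w a.bet) M ?_ a.lam).trans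
      hMV
    intro x
    have := hM 0 (Nat.zero_le _) (x, a.bet)
    rwa [norm_iteratedFDeriv_zero] at this
  have hJn : ∀ p, |a.lam p| ^ (2 * d) * ‖JJ w a‖ ≤ B := by
    intro p
    rw [nrc_JJ_eq]
    exact nrc_fourier_bound (fun x => nrcF w (x, a.bet)) (nrc_slice_contDiff w a.bet)
      (nrc_slice_supp w a.bet) (2 * d) M
      (fun j hj x => (nrc_slice w a.bet j x).trans (hM j hj _)) a.lam p
  have hprod : ∏ p, (1 + |a.lam p|) ^ 2 ≤ (1 + ‖a.lam‖) ^ (2 * d) := by
    calc ∏ p, (1 + |a.lam p|) ^ 2 ≤ ∏ _p : Idx m, (1 + ‖a.lam‖) ^ 2 := by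
          apply Finset.prod_le_prod
          · intro p _; positivity
          · intro p _
            have : |a.lam p| ≤ ‖a.lam‖ := norm_le_pi_norm a.lam p
            gcongr
      _ = (1 + ‖a.lam‖) ^ (2 * d) := by
          rw [Finset.prod_const, Finset.card_univ, ← pow_mul]
  have hJnn := norm_nonneg (JJ w a)
  by_cases h1 : ‖a.lam‖ ≤ 1
  · calc ‖JJ w a‖ * ∏ p, (1 + |a.lam p|) ^ 2 ≤ B * (1 + 1) ^ (2 * d) := by
          refine mul_le_mul hJ0 (hprod.trans ?_) (Finset.prod_nonneg fun _ _ => by positivity) hB0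
          gcongr
      _ = 2 ^ (2 * d) * B := by norm_num [mul_comm]
  · have h1' : 1 < ‖a.lam‖ := not_le.mp h1
    obtain ⟨p, hp⟩ : ∃ p, ‖a.lam‖ ≤ ‖a.lam p‖ := by
      by_contra h
      push Not at h
      exact lt_irrefl _ ((pi_norm_lt_iff (by linarith)).2 h)
    rw [Real.norm_eq_abs] at hp
    calc ‖JJ w a‖ * ∏ p, (1 + |a.lam p|) ^ 2 ≤ ‖JJ w a‖ * (2 * |a.lam p|) ^ (2 * d) := by
          refine mul_le_mul_of_nonneg_left (hprod.trans ?_) hJnn
          gcongr
          linarith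
      _ = 2 ^ (2 * d) * (|a.lam p| ^ (2 * d) * ‖JJ w a‖) := by rw [mul_pow]; ring
      _ ≤ 2 ^ (2 * d) * B := by gcongr; exact hJn p

end Claimed.Agent.R300.Nil
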