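import Claimed.Agent.R300.NilDefs

/-!
# KK Section 8, leaf NIL-TF: the deck group is countable and torsion free; polynomial size bounds

PLAN (torsion).  (1) `umat x ^ n = 1`, `n > 0`, over `ℤ` => `x = 0`: if `x ≠ 0` take a position `p` with
`x p ≠ 0` and `wtB p` minimal; the `p` entry of `umat x ^ n` is `n * x p` (induction on `n`; products
`nmul x y` only see smaller weights).  Alternatively cast to `ℚ`: `(1+X)^n - 1 = X * (n + nilpotent)`.
(2) `g : EBar m ℤ`, `g ^ n = 1` => `toU g ^ n = 1` => `g.bet = 0`; then `g ^ n = ⟨n • g.lam, 0⟩`.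
(3) `g : Deck m ℤ`: project by `prX`, `prY`, then `g = cen z`, `g ^ n = cen (n * z)`.
-/

set_option autoImplicit false

namespace Claimed.Agent.R300.Nil

variable {m : ℕ}

instance : Countable (EBar m ℤ) := by
  have h : Function.Injective fun g : EBar m ℤ => (g.lam, g.bet) := by
    intro a b hab
    exact EBar.ext (congrArg Prod.fst hab) (congrArg Prod.snd hab)
  exact h.countable

instance : Countable (Deck m ℤ) := by
  have h : Function.Injective fun g : Deck m ℤ => (g.gX, g.gY, g.z) := by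
    intro a b hab
    exact Deck.ext (congrArg Prod.fst hab) (congrArg (fun t => t.2.1) hab)
      (congrArg (fun t => t.2.2) hab)
  exact h.countable

/-- first order expansion of a unipotent power on the last two nonzero layers -/
theorem niltf_pow_mul (X : Matrix (Fin m) (Fin m) ℤ) (k : ℕ) (hk : X ^ (k + 2) = 0) (n : ℕ) :
    (1 + X) ^ n * X ^ k = X ^ k + (n : ℤ) • X ^ (k + 1) := by
  induction n with
  | zero => simp
  | succ n ih =>
    rw [pow_succ', Matrix.mul_assoc, ih, Matrix.mul_add, Matrix.mul_smul, Matrix.add_mul,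
      Matrix.add_mul, Matrix.one_mul, Matrix.one_mul, ← pow_succ', ← pow_succ', hk]
    push_cast
    rw [add_smul, one_smul, add_zero]
    abel

theorem niltf_descend (X : Matrix (Fin m) (Fin m) ℤ) (n : ℕ) (hn : 0 < n) (h : (1 + X) ^ n = 1)
    (k : ℕ) (hk : X ^ (k + 2) = 0) : X ^ (k + 1) = 0 := by
  have h1 := niltf_pow_mul X k hk n
  rw [h, Matrix.one_mul] at h1
  have h2 : (n : ℤ) • X ^ (k + 1) = 0 := by
    have := h1.symm
    rwa [add_eq_left] at this
  have hn' : (n : ℤ) ≠ 0 := by exact_mod_cast hn.ne'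
  exact (smul_eq_zero.1 h2).resolve_left hn'

theorem niltf_mat (X : Matrix (Fin m) (Fin m) ℤ) (n : ℕ) (hn : 0 < n) (h : (1 + X) ^ n = 1)
    (d : ℕ) (hd : X ^ (d + 1) = 0) : X = 0 := by
  induction d with
  | zero => simpa using hd
  | succ d ih => exact ih (niltf_descend X n hn h d hd)

theorem niltf_umat (x : Idx m → ℤ) (n : ℕ) (hn : 0 < n) (h : umat x ^ n = 1) : x = 0 := by
  have h0 : toMat x ^ (m + 1) = 0 := by rw [pow_succ, (su_toMat x).pow_card, Matrix.zero_mul]
  have := niltf_mat (toMat x) n hn h m h0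
  exact toMat_injective (by rw [this, toMat_zero])

theorem niltf_ebar_pow (l : Idx m → ℤ) (n : ℕ) :
    (⟨l, 0⟩ : EBar m ℤ) ^ n = ⟨(n : ℤ) • l, 0⟩ := by
  induction n with
  | zero => simp only [pow_zero, Nat.cast_zero, zero_smul]; rfl
  | succ n ih =>
    rw [pow_succ, ih]
    ext1
    · simp only [EBar.mul_lam, lact_zero]
      push_cast
      rw [add_smul, one_smul]
    · simp

theorem nil_ebar_torsionFree (g : EBar m ℤ) (h : IsOfFinOrder g) : g = 1 := by
  obtain ⟨n, hn, hg⟩ := isOfFinOrder_iff_pow_eq_one.1 h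
  have h1 : umat g.bet ^ n = 1 := by
    have := congrArg EBar.toU hg
    rw [map_pow, map_one] at this
    exact this
  have hb : g.bet = 0 := niltf_umat g.bet n hn h1
  have hg' : g = ⟨g.lam, 0⟩ := EBar.ext rfl hb
  rw [hg', niltf_ebar_pow] at hg
  have h2 : (n : ℤ) • g.lam = 0 := congrArg EBar.lam hg
  have hn' : (n : ℤ) ≠ 0 := by exact_mod_cast hn.ne'
  have hl : g.lam = 0 := (smul_eq_zero.1 h2).resolve_left hn'
  exact EBar.ext hl hb

theorem niltf_cen_pow (z : ℤ) (n : ℕ) : (Deck.cen z : Deck m ℤ) ^ n = Deck.cen ((n : ℤ) * z) := by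
  induction n with
  | zero => simp
  | succ n ih =>
    rw [pow_succ, ih, ← Deck.cen_add]
    congr 1
    push_cast
    ring

theorem nil_deck_torsionFree (g : Deck m ℤ) (h : IsOfFinOrder g) : g = 1 := by
  have hX : g.gX = 1 := nil_ebar_torsionFree _ (Deck.prX.isOfFinOrder h)
  have hY : g.gY = 1 := nil_ebar_torsionFree _ (Deck.prY.isOfFinOrder h)
  obtain ⟨n, hn, hg⟩ := isOfFinOrder_iff_pow_eq_one.1 h
  have hg' : g = Deck.cen g.z := Deck.ext hX hY rfl
  rw [hg', niltf_cen_pow] at hg
  have h2 : (n : ℤ) * g.z = 0 := congrArg Deck.z hg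
  have hn' : (n : ℤ) ≠ 0 := by exact_mod_cast hn.ne'
  have hz : g.z = 0 := (mul_eq_zero.1 h2).resolve_left hn'
  exact Deck.ext hX hY hz

end Claimed.Agent.R300.Nil
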