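/-
R300, IT black box (c): Osajda-type labelling.  Part 1: the local lemma in the variable model with
weights `p * 2 ^ |scope|`, and counting lemmas on finite colouring spaces.  Owner: helper185.
-/
import Claimed.Agent.R300.ExpLLL

set_option autoImplicit false

namespace Claimed.Agent.R300

open Finset

/-- Weierstrass product inequality. -/
theorem osa_one_sub_sum_le_prod {ι : Type*} (s : Finset ι) (x : ι → ℝ)
    (h0 : ∀ i ∈ s, 0 ≤ x i) (h1 : ∀ i ∈ s, x i ≤ 1) :
    1 - ∑ i ∈ s, x i ≤ ∏ i ∈ s, (1 - x i) := by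
  classical
  induction s using Finset.induction_on with
  | empty => simp
  | insert a s ha ih =>
    have ih' := ih (fun i hi => h0 i (Finset.mem_insert_of_mem hi))
      (fun i hi => h1 i (Finset.mem_insert_of_mem hi))
    rw [Finset.sum_insert ha, Finset.prod_insert ha]
    have hx0 := h0 a (Finset.mem_insert_self _ _)
    have hx1 := h1 a (Finset.mem_insert_self _ _)
    have hs : 0 ≤ ∑ i ∈ s, x i :=
      Finset.sum_nonneg fun i hi => h0 i (Finset.mem_insert_of_mem hi)
    have : (1 - x a) * (1 - ∑ i ∈ s, x i) ≤ (1 - x a) * ∏ i ∈ s, (1 - x i) :=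
      mul_le_mul_of_nonneg_left ih' (by linarith)
    nlinarith

/-- A product of numbers in `[0,1]` over a set covered by a family of sets dominates the iterated
product. -/
theorem osa_prod_prod_le_prod {ι K : Type*} [DecidableEq ι] (s : Finset K) (T : K → Finset ι)
    (N : Finset ι) (f : ι → ℝ) (h0 : ∀ i, 0 ≤ f i) (h1 : ∀ i, f i ≤ 1)
    (hN : ∀ i ∈ N, ∃ κ ∈ s, i ∈ T κ) :
    ∏ κ ∈ s, ∏ i ∈ T κ, f i ≤ ∏ i ∈ N, f i := by
  classical
  have key : ∀ s : Finset K, ∏ κ ∈ s, ∏ i ∈ T κ, f i ≤ ∏ i ∈ s.biUnion T, f i := by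
    intro s
    induction s using Finset.induction_on with
    | empty => simp
    | insert a s ha ih' =>
      rw [Finset.prod_insert ha, Finset.biUnion_insert]
      have hu := Finset.prod_union_inter (s₁ := T a) (s₂ := s.biUnion T) (f := f)
      have hi1 : ∏ i ∈ T a ∩ s.biUnion T, f i ≤ 1 :=
        Finset.prod_le_one (fun i _ => h0 i) (fun i _ => h1 i)
      have hU0 : 0 ≤ ∏ i ∈ T a ∪ s.biUnion T, f i := Finset.prod_nonneg fun i _ => h0 i
      have hA0 : 0 ≤ ∏ i ∈ T a, f i := Finset.prod_nonneg fun i _ => h0 i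
      calc (∏ i ∈ T a, f i) * ∏ κ ∈ s, ∏ i ∈ T κ, f i
          ≤ (∏ i ∈ T a, f i) * ∏ i ∈ s.biUnion T, f i := mul_le_mul_of_nonneg_left ih' hA0
        _ = (∏ i ∈ T a ∪ s.biUnion T, f i) * ∏ i ∈ T a ∩ s.biUnion T, f i := hu.symm
        _ ≤ (∏ i ∈ T a ∪ s.biUnion T, f i) * 1 := mul_le_mul_of_nonneg_left hi1 hU0
        _ = _ := mul_one _
  refine (key s).trans ?_
  have hsub : N ⊆ s.biUnion T := fun i hi => by
    obtain ⟨κ, hκ, hiκ⟩ := hN i hi
    exact Finset.mem_biUnion.2 ⟨κ, hκ, hiκ⟩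
  exact Finset.prod_le_prod_of_subset_of_le_one hsub (fun i _ => h0 i) (fun i _ _ => h1 i)

section lll

variable {K ι C : Type*} [Fintype K] [DecidableEq K] [Fintype ι] [DecidableEq ι] [Fintype C]
  [Nonempty C]

/-- **Local lemma, variable model.**  Events `E i` on the space of colourings `K → C`, each
depending only on the coordinates in its (nonempty) scope; if for every coordinate the weights
`p i * 2 ^ |scope i|` of the events through it sum to at most `1/2`, all events can be avoided. -/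
theorem osa_lll (E : ι → (K → C) → Prop) (sc : ι → Finset K)
    (hdep : ∀ i (ω ω' : K → C), (∀ κ ∈ sc i, ω κ = ω' κ) → (E i ω ↔ E i ω'))
    (hne : ∀ i, (sc i).Nonempty) (p : ι → ℝ) (hp0 : ∀ i, 0 ≤ p i)
    (hp : ∀ i, expCnt (Ωk := fun _ : K => C) (E i) ≤ p i * (Fintype.card (K → C) : ℝ))
    (hsum : ∀ κ, ∑ i ∈ univ.filter (fun i => κ ∈ sc i), p i * 2 ^ (sc i).card ≤ 1 / 2) :
    ∃ ω : K → C, ∀ i, ¬ E i ω := by
  classical
  set x : ι → ℝ := fun i => p i * 2 ^ (sc i).card with hx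
  have hx0 : ∀ i, 0 ≤ x i := fun i => mul_nonneg (hp0 i) (by positivity)
  have hxh : ∀ i, x i ≤ 1 / 2 := by
    intro i
    obtain ⟨κ, hκ⟩ := hne i
    refine le_trans ?_ (hsum κ)
    exact Finset.single_le_sum (f := x) (fun j _ => hx0 j)
      (Finset.mem_filter.2 ⟨Finset.mem_univ _, hκ⟩)
  have hx1 : ∀ i, x i < 1 := fun i => lt_of_le_of_lt (hxh i) (by norm_num)
  have hprod : ∀ i, (1 / 2 : ℝ) ^ (sc i).card ≤ ∏ j ∈ expNb sc i, (1 - x j) := by
    intro i
    have h1 : ∏ κ ∈ sc i, ∏ j ∈ univ.filter (fun j => κ ∈ sc j), (1 - x j)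
        ≤ ∏ j ∈ expNb sc i, (1 - x j) := by
      refine osa_prod_prod_le_prod (sc i) (fun κ => univ.filter (fun j => κ ∈ sc j)) _ _
        (fun j => by linarith [hx1 j]) (fun j => by linarith [hx0 j]) ?_
      intro j hj
      have hj' := (Finset.mem_filter.1 hj).2.2
      rw [Finset.not_disjoint_iff] at hj'
      obtain ⟨κ, h1, h2⟩ := hj'
      exact ⟨κ, h2, Finset.mem_filter.2 ⟨Finset.mem_univ _, h1⟩⟩
    refine le_trans ?_ h1
    rw [← Finset.prod_const]
    refine Finset.prod_le_prod (fun _ _ => by norm_num) fun κ _ => ?_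
    have := osa_one_sub_sum_le_prod (univ.filter (fun j => κ ∈ sc j)) x (fun j _ => hx0 j)
      (fun j _ => (hx1 j).le)
    have h2 := hsum κ
    linarith
  have hN : (0 : ℝ) ≤ (Fintype.card (K → C) : ℝ) := by positivity
  have hp' : ∀ i, expCnt (Ωk := fun _ : K => C) (E i) ≤ (x i * ∏ j ∈ expNb sc i, (1 - x j)) *
      (Fintype.card (K → C) : ℝ) := by
    intro i
    refine (hp i).trans (mul_le_mul_of_nonneg_right ?_ hN)
    calc p i = x i * (1 / 2 : ℝ) ^ (sc i).card := by
          simp only [hx]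
          rw [mul_assoc, ← mul_pow]
          norm_num
      _ ≤ x i * ∏ j ∈ expNb sc i, (1 - x j) := mul_le_mul_of_nonneg_left (hprod i) (hx0 i)
  have hpos := (exp_lll_product (Ωk := fun _ : K => C) E sc hdep x hx0 hx1 hp').1
  by_contra hcon
  push Not at hcon
  have : expCnt (Ωk := fun _ : K => C) (expAvoid E univ) = 0 := by
    unfold expCnt
    refine expMass_false_of _ _ fun ω hω => ?_
    obtain ⟨i, hi⟩ := hcon ω
    exact hω i (Finset.mem_univ _) hi
  linarith

end lll

end Claimed.Agent.R300
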