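/-
R300, IT black box (c): Osajda-type labelling.  Part 2: counting colourings with prescribed
coincidences.  Owner: helper185.
-/
import Claimed.Agent.R300.OsaLLL

set_option autoImplicit false

namespace Claimed.Agent.R300

open Finset

section count

variable {K C : Type*} [Fintype K] [DecidableEq K] [Fintype C]

open Classical in
/-- Number of colourings with a property. -/
noncomputable def osaCnt (S : (K → C) → Prop) : ℕ := (univ.filter S).card

theorem osaCnt_eq_card (S : (K → C) → Prop) [DecidablePred S] :
    osaCnt S = (univ.filter S).card := by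
  unfold osaCnt
  congr

theorem osa_expCnt_eq (S : (K → C) → Prop) :
    expCnt (Ωk := fun _ : K => C) S = (osaCnt S : ℝ) := by
  classical
  unfold expCnt expMass osaCnt
  rw [Finset.card_filter]
  push_cast
  rfl

theorem osaCnt_mono {S T : (K → C) → Prop} (h : ∀ c, S c → T c) : osaCnt S ≤ osaCnt T := by
  classical
  unfold osaCnt
  exact Finset.card_le_card fun c hc => by
    simp only [Finset.mem_filter, Finset.mem_univ, true_and] at hc ⊢
    exact h c hc

theorem osaCnt_eq_zero {S : (K → C) → Prop} (h : ∀ c, ¬ S c) : osaCnt S = 0 := by
  classical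
  unfold osaCnt
  rw [Finset.card_eq_zero, Finset.filter_eq_empty_iff]
  exact fun c _ => h c

theorem osaCnt_le_card (S : (K → C) → Prop) : osaCnt S ≤ Fintype.card (K → C) := by
  classical
  unfold osaCnt
  exact Finset.card_le_univ _

/-- Fixing one coordinate `a` to a value that does not depend on the coordinate `a` divides the
number of colourings by the number of colours. -/
theorem osaCnt_fix (a : K) (S : (K → C) → Prop) (val : (K → C) → C)
    (hS : ∀ c v, S (Function.update c a v) ↔ S c)
    (hval : ∀ c v, val (Function.update c a v) = val c) :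
    osaCnt (fun c => S c ∧ c a = val c) * Fintype.card C = osaCnt S := by
  classical
  unfold osaCnt
  rw [← Finset.card_univ, ← Finset.card_product]
  refine Finset.card_nbij' (fun z => Function.update z.1 a z.2)
    (fun c => (Function.update c a (val c), c a)) ?_ ?_ ?_ ?_
  · intro z hz
    simp only [Finset.coe_product, Finset.coe_filter, Finset.mem_univ, true_and, Finset.coe_univ,
      Set.mem_prod, Set.mem_ofPred_eq, Set.mem_univ, and_true] at hz ⊢
    exact (hS _ _).2 hz.1
  · intro c hc
    simp only [Finset.coe_product, Finset.coe_filter, Finset.mem_univ, true_and, Finset.coe_univ,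
      Set.mem_prod, Set.mem_ofPred_eq, Set.mem_univ, and_true] at hc ⊢
    exact ⟨(hS _ _).2 hc, by rw [Function.update_self, hval]⟩
  · intro z hz
    simp only [Finset.coe_product, Finset.coe_filter, Finset.mem_univ, true_and, Finset.coe_univ,
      Set.mem_prod, Set.mem_ofPred_eq, Set.mem_univ, and_true] at hz
    ext1
    · simp only [hval, Function.update_idem]
      rw [← hz.2, Function.update_eq_self]
    · simp
  · intro c _
    simp

/-- A colour word prescribed along a list of distinct coordinates. -/
theorem osaCnt_word (es : List K) (hes : es.Nodup) (f : List C) :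
    osaCnt (fun c : K → C => es.map c = f) * Fintype.card C ^ es.length
      ≤ Fintype.card (K → C) := by
  classical
  induction es generalizing f with
  | nil => simpa using osaCnt_le_card _
  | cons a es ih =>
    rw [List.nodup_cons] at hes
    cases f with
    | nil =>
      have : osaCnt (fun c : K → C => (a :: es).map c = []) = 0 := by
        unfold osaCnt
        simp
      rw [this]; simp
    | cons v f =>
      have h1 : osaCnt (fun c : K → C => (a :: es).map c = v :: f)
          = osaCnt (fun c : K → C => es.map c = f ∧ c a = v) := by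
        congr 1
        funext c
        simp only [List.map_cons, List.cons.injEq, eq_iff_iff]
        exact and_comm
      have h2 := osaCnt_fix a (fun c : K → C => es.map c = f) (fun _ => v)
        (fun c w => by
          have : es.map (Function.update c a w) = es.map c := by
            refine List.map_congr_left fun b hb => ?_
            rw [Function.update_of_ne]
            rintro rfl
            exact hes.1 hb
          rw [this]) (fun _ _ => rfl)
      rw [h1, List.length_cons, pow_succ', ← mul_assoc, h2]
      exact ih hes.2 f

/-- The colour word along distinct coordinates lies in a prescribed finite set. -/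
theorem osaCnt_word_mem (es : List K) (hes : es.Nodup) (F : Finset (List C)) :
    osaCnt (fun c : K → C => es.map c ∈ F) * Fintype.card C ^ es.length
      ≤ F.card * Fintype.card (K → C) := by
  classical
  have h1 : osaCnt (fun c : K → C => es.map c ∈ F)
      ≤ ∑ f ∈ F, osaCnt (fun c : K → C => es.map c = f) := by
    simp only [osaCnt_eq_card]
    have : (univ.filter fun c : K → C => es.map c ∈ F)
        ⊆ F.biUnion fun f => univ.filter fun c : K → C => es.map c = f := by
      intro c hc
      simp only [Finset.mem_filter, Finset.mem_univ, true_and, Finset.mem_biUnion] at hc ⊢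
      exact ⟨_, hc, rfl⟩
    exact (Finset.card_le_card this).trans Finset.card_biUnion_le
  calc osaCnt (fun c : K → C => es.map c ∈ F) * Fintype.card C ^ es.length
      ≤ (∑ f ∈ F, osaCnt (fun c : K → C => es.map c = f)) * Fintype.card C ^ es.length :=
        Nat.mul_le_mul_right _ h1
    _ = ∑ f ∈ F, osaCnt (fun c : K → C => es.map c = f) * Fintype.card C ^ es.length :=
        Finset.sum_mul _ _ _
    _ ≤ ∑ _f ∈ F, Fintype.card (K → C) := Finset.sum_le_sum fun f _ => osaCnt_word es hes f
    _ = F.card * Fintype.card (K → C) := by simp

/-- Coincidence constraints `c (e t) = c (e' t)`, `t ∈ T`, with `e`, `e'` injective and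
`e t ≠ e' t`: at least a third of them are independent. -/
theorem osaCnt_pairs {τ : Type*} [DecidableEq τ] (e e' : τ → K) (he : Function.Injective e)
    (he' : Function.Injective e') (hne : ∀ t, e t ≠ e' t) (m : ℕ) :
    ∀ T : Finset τ, 3 * m ≤ T.card + 2 →
      osaCnt (fun c : K → C => ∀ t ∈ T, c (e t) = c (e' t)) * Fintype.card C ^ m
        ≤ Fintype.card (K → C) := by
  classical
  induction m with
  | zero => intro T _; simpa using osaCnt_le_card _
  | succ m ih =>
    intro T hT
    have hTne : T.Nonempty := by
      rw [← Finset.card_pos]; omega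
    obtain ⟨t0, ht0⟩ := hTne
    obtain ⟨R, hR⟩ : ∃ R : Finset τ,
        R = ({t0} ∪ T.filter (fun t => e t = e' t0)) ∪ T.filter (fun t => e' t = e t0) := ⟨_, rfl⟩
    have hc1 : (T.filter (fun t => e t = e' t0)).card ≤ 1 := by
      rw [Finset.card_le_one]
      intro a ha b hb
      exact he ((Finset.mem_filter.1 ha).2.trans (Finset.mem_filter.1 hb).2.symm)
    have hc2 : (T.filter (fun t => e' t = e t0)).card ≤ 1 := by
      rw [Finset.card_le_one]
      intro a ha b hb
      exact he' ((Finset.mem_filter.1 ha).2.trans (Finset.mem_filter.1 hb).2.symm)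
    have hRc : R.card ≤ 3 := by
      have h1 := Finset.card_union_le ({t0} ∪ T.filter (fun t => e t = e' t0))
        (T.filter (fun t => e' t = e t0))
      have h2 := Finset.card_union_le ({t0} : Finset τ) (T.filter (fun t => e t = e' t0))
      have h3 : ({t0} : Finset τ).card = 1 := Finset.card_singleton _
      rw [hR]
      omega
    obtain ⟨T', hT'⟩ : ∃ T' : Finset τ, T' = T \ R := ⟨_, rfl⟩
    have hT'c : 3 * m ≤ T'.card + 2 := by
      have := Finset.le_card_sdiff R T
      rw [hT']
      omega
    have hmem : ∀ t ∈ T', t ∈ T ∧ t ≠ t0 ∧ e t ≠ e' t0 ∧ e' t ≠ e t0 := by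
      intro t ht
      rw [hT', Finset.mem_sdiff] at ht
      refine ⟨ht.1, ?_, ?_, ?_⟩
      · rintro rfl; exact ht.2 (by simp [hR])
      · intro h; exact ht.2 (by simp [hR, ht.1, h])
      · intro h; exact ht.2 (by simp [hR, ht.1, h])
    have hfix := osaCnt_fix (e t0) (fun c : K → C => ∀ t ∈ T', c (e t) = c (e' t))
      (fun c => c (e' t0))
      (fun c v => by
        refine forall₂_congr fun t ht => ?_
        obtain ⟨_, h1, _, h3⟩ := hmem t ht
        rw [Function.update_of_ne (fun h => h1 (he h)), Function.update_of_ne h3])
      (fun c v => by rw [Function.update_of_ne (hne t0).symm])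
    have hmono : osaCnt (fun c : K → C => ∀ t ∈ T, c (e t) = c (e' t))
        ≤ osaCnt (fun c : K → C => (∀ t ∈ T', c (e t) = c (e' t)) ∧ c (e t0) = c (e' t0)) :=
      osaCnt_mono fun c hc => ⟨fun t ht => hc t (hmem t ht).1, hc t0 ht0⟩
    calc osaCnt (fun c : K → C => ∀ t ∈ T, c (e t) = c (e' t)) * Fintype.card C ^ (m + 1)
        ≤ osaCnt (fun c : K → C => (∀ t ∈ T', c (e t) = c (e' t)) ∧ c (e t0) = c (e' t0))
            * Fintype.card C ^ (m + 1) := Nat.mul_le_mul_right _ hmono
      _ = osaCnt (fun c : K → C => ∀ t ∈ T', c (e t) = c (e' t)) * Fintype.card C ^ m := by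
          rw [pow_succ', ← mul_assoc, hfix]
      _ ≤ _ := ih T' hT'c

end count

end Claimed.Agent.R300
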