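/-
R300, IT black box (c): Osajda-type labelling.  Part 4: colouring one graph, given finitely many
finite sets of forbidden colour words (those read on the earlier graphs).  Owner: helper185.
-/
import Claimed.Agent.R300.OsaCount
import Claimed.Agent.R300.OsaWord

set_option autoImplicit false

namespace Claimed.Agent.R300

open Finset

section step

variable {J V C : Type*}

/-- The colour word read along the path from `x` with shape `w`. -/
def osaCW (π : J → Equiv.Perm V) (c : J × V → C) (w : List (J × Bool)) (x : V) : List C :=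
  (osaEdges π w x).map c

theorem osaCW_congr (π : J → Equiv.Perm V) (c c' : J × V → C) (w : List (J × Bool)) (x : V)
    (h : ∀ e ∈ osaEdges π w x, c e = c' e) : osaCW π c w x = osaCW π c' w x :=
  List.map_congr_left h

theorem osaCW_take (π : J → Equiv.Perm V) (c : J × V → C) (w : List (J × Bool)) (x : V) (m : ℕ) :
    osaCW π c (w.take m) x = (osaCW π c w x).take m := by
  unfold osaCW
  rw [osaEdges_take, List.map_take]

variable [Fintype J] [DecidableEq J] [Fintype V] [DecidableEq V] [Fintype C] [Nonempty C]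

omit [Fintype J] in
/-- Sum over origins of an indicator of "the path passes through `κ`". -/
theorem osa_sum_origins (π : J → Equiv.Perm V) (w : List (J × Bool)) (κ : J × V) (a : ℝ)
    (ha : 0 ≤ a) : ∑ x : V, (if κ ∈ osaEdges π w x then a else 0) ≤ w.length * a := by
  rw [← Finset.sum_filter, Finset.sum_const, nsmul_eq_mul]
  exact mul_le_mul_of_nonneg_right (by exact_mod_cast osa_card_origins_le π w κ) ha

/-- Probability bound for a forbidden-word event. -/
theorem osa_cnt_B (π : J → Equiv.Perm V) {L : ℕ} (hg : OsaGirth π L) (w : List (J × Bool))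
    (hl : w.length ≤ L) (x : V) (F : Finset (List C)) (N : ℕ) (hF : F.card ≤ N) :
    expCnt (Ωk := fun _ : J × V => C)
        (fun c => FreeGroup.IsReduced w ∧ osaCW π c w x ∈ F)
      ≤ ((N : ℝ) / (Fintype.card C : ℝ) ^ w.length) * (Fintype.card (J × V → C) : ℝ) := by
  classical
  have hq : (0 : ℝ) < (Fintype.card C : ℝ) ^ w.length := by
    have : 0 < Fintype.card C := Fintype.card_pos
    positivity
  rw [osa_expCnt_eq]
  by_cases hw : FreeGroup.IsReduced w
  · have h1 := osaCnt_word_mem (C := C) (osaEdges π w x) (hg.nodup_edges w hw hl x) F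
    rw [osaEdges_length] at h1
    have h2 : osaCnt (fun c : J × V → C => FreeGroup.IsReduced w ∧ osaCW π c w x ∈ F)
        ≤ osaCnt (fun c : J × V → C => (osaEdges π w x).map c ∈ F) :=
      osaCnt_mono fun c hc => hc.2
    have h3 : (osaCnt (fun c : J × V → C => FreeGroup.IsReduced w ∧ osaCW π c w x ∈ F) : ℝ)
        * (Fintype.card C : ℝ) ^ w.length ≤ (N : ℝ) * (Fintype.card (J × V → C) : ℝ) := by
      have : osaCnt (fun c : J × V → C => FreeGroup.IsReduced w ∧ osaCW π c w x ∈ F)
          * Fintype.card C ^ w.length ≤ N * Fintype.card (J × V → C) :=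
        (Nat.mul_le_mul_right _ h2).trans (h1.trans (Nat.mul_le_mul_right _ hF))
      exact_mod_cast this
    rw [div_mul_eq_mul_div, le_div_iff₀ hq]
    exact h3
  · have : osaCnt (fun c : J × V → C => FreeGroup.IsReduced w ∧ osaCW π c w x ∈ F) = 0 :=
      osaCnt_eq_zero fun c hc => hw hc.1
    rw [this, Nat.cast_zero]
    positivity

/-- Probability bound for a coincidence event. -/
theorem osa_cnt_A (π : J → Equiv.Perm V) {L : ℕ} (hg : OsaGirth π L) (w : List (J × Bool))
    (hl : w.length ≤ L) (x y : V) :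
    expCnt (Ωk := fun _ : J × V => C)
        (fun c => x ≠ y ∧ FreeGroup.IsReduced w ∧ osaCW π c w x = osaCW π c w y)
      ≤ (1 / (Fintype.card C : ℝ) ^ ((w.length + 2) / 3)) * (Fintype.card (J × V → C) : ℝ) := by
  classical
  have hq : (0 : ℝ) < (Fintype.card C : ℝ) ^ ((w.length + 2) / 3) := by
    have : 0 < Fintype.card C := Fintype.card_pos
    positivity
  rw [osa_expCnt_eq]
  by_cases hw : x ≠ y ∧ FreeGroup.IsReduced w
  · obtain ⟨hxy, hw⟩ := hw
    have hlx : (osaEdges π w x).length = w.length := osaEdges_length π w x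
    have hly : (osaEdges π w y).length = w.length := osaEdges_length π w y
    set e : Fin w.length → J × V := fun t => (osaEdges π w x)[(t : ℕ)]'(by rw [hlx]; exact t.2)
      with he
    set e' : Fin w.length → J × V := fun t => (osaEdges π w y)[(t : ℕ)]'(by rw [hly]; exact t.2)
      with he'
    have hinj : Function.Injective e := by
      intro s t hst
      have := (List.Nodup.getElem_inj_iff (hg.nodup_edges w hw hl x)).1 hst
      exact Fin.ext this
    have hinj' : Function.Injective e' := by
      intro s t hst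
      have := (List.Nodup.getElem_inj_iff (hg.nodup_edges w hw hl y)).1 hst
      exact Fin.ext this
    have hne : ∀ t, e t ≠ e' t := fun t => osaEdges_getElem_ne π w hxy t _ _
    have h1 := osaCnt_pairs (C := C) e e' hinj hinj' hne ((w.length + 2) / 3) univ
      (by rw [Finset.card_univ, Fintype.card_fin]; omega)
    have h2 : osaCnt (fun c : J × V → C =>
          x ≠ y ∧ FreeGroup.IsReduced w ∧ osaCW π c w x = osaCW π c w y)
        ≤ osaCnt (fun c : J × V → C => ∀ t ∈ (univ : Finset (Fin w.length)), c (e t) = c (e' t)) := by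
      refine osaCnt_mono fun c hc t _ => ?_
      have h3 := hc.2.2
      unfold osaCW at h3
      have h4 : ((osaEdges π w x).map c)[(t : ℕ)]'(by simp) =
          ((osaEdges π w y).map c)[(t : ℕ)]'(by simp) := by
        simp only [h3]
      simpa [he, he'] using h4
    have h3 : (osaCnt (fun c : J × V → C =>
          x ≠ y ∧ FreeGroup.IsReduced w ∧ osaCW π c w x = osaCW π c w y) : ℝ)
        * (Fintype.card C : ℝ) ^ ((w.length + 2) / 3) ≤ (Fintype.card (J × V → C) : ℝ) := by
      exact_mod_cast (Nat.mul_le_mul_right _ h2).trans h1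
    rw [div_mul_eq_mul_div, one_mul, le_div_iff₀ hq]
    exact h3
  · have : osaCnt (fun c : J × V → C =>
        x ≠ y ∧ FreeGroup.IsReduced w ∧ osaCW π c w x = osaCW π c w y) = 0 :=
      osaCnt_eq_zero fun c hc => hw ⟨hc.1, hc.2.1⟩
    rw [this, Nat.cast_zero]
    positivity

/-- Sum over shapes and origins of the indicator of "the path passes through `κ`". -/
theorem osa_sum_vec (π : J → Equiv.Perm V) (ℓ : ℕ) (κ : J × V) (a : ℝ) (ha : 0 ≤ a) :
    ∑ v : List.Vector (J × Bool) ℓ, ∑ x : V, (if κ ∈ osaEdges π v.1 x then a else 0)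
      ≤ (Fintype.card (J × Bool) : ℝ) ^ ℓ * (ℓ * a) := by
  calc ∑ v : List.Vector (J × Bool) ℓ, ∑ x : V, (if κ ∈ osaEdges π v.1 x then a else 0)
      ≤ ∑ _v : List.Vector (J × Bool) ℓ, (ℓ * a) := by
        refine Finset.sum_le_sum fun v _ => ?_
        have := osa_sum_origins π v.1 κ a ha
        rwa [v.2] at this
    _ = (Fintype.card (J × Bool) : ℝ) ^ ℓ * (ℓ * a) := by
        rw [Finset.sum_const, Finset.card_univ, card_vector, nsmul_eq_mul]
        push_cast
        ring

/-- **One step of the labelling.**  Given a graph in permutation form without short reduced closed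
paths and finitely many families of forbidden colour words, there is a colouring of its edges such
that paths of length `ℓ` with the same shape and different origins have different colour words, and
no reduced path of length `ℓ' j` reads a forbidden word of the family `j`. -/
theorem osa_one_step (π : J → Equiv.Perm V) (ℓ : ℕ) (hℓ : 1 ≤ ℓ) (hg : OsaGirth π ℓ)
    {I : Type*} [Fintype I] (ℓ' : I → ℕ) (hℓ1 : ∀ j, 1 ≤ ℓ' j) (hℓ2 : ∀ j, ℓ' j ≤ ℓ)
    (Forb : ∀ _j : I, List (J × Bool) → Finset (List C)) (N : I → ℕ)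
    (hN : ∀ j w, (Forb j w).card ≤ N j)
    (hnum : (∑ j, ((Fintype.card (J × Bool) : ℝ) ^ ℓ' j *
          (ℓ' j * ((N j : ℝ) / (Fintype.card C : ℝ) ^ ℓ' j * 2 ^ ℓ' j))))
        + 2 * ((Fintype.card V : ℝ) * ((Fintype.card (J × Bool) : ℝ) ^ ℓ *
          (ℓ * (1 / (Fintype.card C : ℝ) ^ ((ℓ + 2) / 3) * 2 ^ (2 * ℓ))))) ≤ 1 / 2) :
    ∃ c : J × V → C,
      (∀ x y, x ≠ y → ∀ w, FreeGroup.IsReduced w → w.length = ℓ →
        osaCW π c w x ≠ osaCW π c w y) ∧
      (∀ j x w, FreeGroup.IsReduced w → w.length = ℓ' j → osaCW π c w x ∉ Forb j w) := by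
  classical
  have hq0 : (0 : ℝ) < (Fintype.card C : ℝ) := by
    have : 0 < Fintype.card C := Fintype.card_pos
    exact_mod_cast this
  set pA : ℝ := 1 / (Fintype.card C : ℝ) ^ ((ℓ + 2) / 3) with hpA
  have hpA0 : 0 ≤ pA := by positivity
  let E : ((V × V × List.Vector (J × Bool) ℓ) ⊕ (Σ j : I, V × List.Vector (J × Bool) (ℓ' j))) →
      (J × V → C) → Prop :=
    Sum.elim (fun z c => z.1 ≠ z.2.1 ∧ FreeGroup.IsReduced z.2.2.1 ∧
        osaCW π c z.2.2.1 z.1 = osaCW π c z.2.2.1 z.2.1)
      (fun z c => FreeGroup.IsReduced z.2.2.1 ∧ osaCW π c z.2.2.1 z.2.1 ∈ Forb z.1 z.2.2.1)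
  let sc : ((V × V × List.Vector (J × Bool) ℓ) ⊕ (Σ j : I, V × List.Vector (J × Bool) (ℓ' j))) →
      Finset (J × V) :=
    Sum.elim (fun z => (osaEdges π z.2.2.1 z.1).toFinset ∪ (osaEdges π z.2.2.1 z.2.1).toFinset)
      (fun z => (osaEdges π z.2.2.1 z.2.1).toFinset)
  let p : ((V × V × List.Vector (J × Bool) ℓ) ⊕ (Σ j : I, V × List.Vector (J × Bool) (ℓ' j))) → ℝ :=
    Sum.elim (fun _ => pA) (fun z => (N z.1 : ℝ) / (Fintype.card C : ℝ) ^ ℓ' z.1)
  have hdep : ∀ i (ω ω' : J × V → C), (∀ κ ∈ sc i, ω κ = ω' κ) → (E i ω ↔ E i ω') := by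
    rintro (⟨x, y, v⟩ | ⟨j, x, v⟩) ω ω' h
    · simp only [sc, Sum.elim_inl, Finset.mem_union, List.mem_toFinset] at h
      simp only [E, Sum.elim_inl]
      rw [osaCW_congr π ω ω' v.1 x (fun e he => h e (Or.inl he)),
        osaCW_congr π ω ω' v.1 y (fun e he => h e (Or.inr he))]
    · simp only [sc, Sum.elim_inr, List.mem_toFinset] at h
      simp only [E, Sum.elim_inr]
      rw [osaCW_congr π ω ω' v.1 x h]
  have hnonempty : ∀ (m : ℕ) (_ : 1 ≤ m) (v : List.Vector (J × Bool) m) (x : V),
      (osaEdges π v.1 x).toFinset.Nonempty := by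
    intro m hm v x
    have hlen : (osaEdges π v.1 x).length = m := by rw [osaEdges_length, v.2]
    cases hl : osaEdges π v.1 x with
    | nil => rw [hl] at hlen; simp at hlen; omega
    | cons a l => exact ⟨a, by simp⟩
  have hne : ∀ i, (sc i).Nonempty := by
    rintro (⟨x, y, v⟩ | ⟨j, x, v⟩)
    · exact (hnonempty ℓ hℓ v x).mono Finset.subset_union_left
    · exact hnonempty _ (hℓ1 j) v x
  have hp0 : ∀ i, 0 ≤ p i := by
    rintro (⟨x, y, v⟩ | ⟨j, x, v⟩)
    · exact hpA0
    · simp only [p, Sum.elim_inr]; positivity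
  have hp : ∀ i, expCnt (Ωk := fun _ : J × V => C) (E i)
      ≤ p i * (Fintype.card (J × V → C) : ℝ) := by
    rintro (⟨x, y, v⟩ | ⟨j, x, v⟩)
    · have := osa_cnt_A (C := C) π hg v.1 (le_of_eq v.2) x y
      rw [v.2] at this
      exact this
    · have := osa_cnt_B (C := C) π hg v.1 (by rw [v.2]; exact hℓ2 j) x (Forb j v.1) (N j)
        (hN j v.1)
      rw [v.2] at this
      exact this
  have hsum : ∀ κ, ∑ i ∈ univ.filter (fun i => κ ∈ sc i), p i * 2 ^ (sc i).card ≤ 1 / 2 := by
    intro κ
    refine le_trans ?_ hnum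
    rw [Finset.sum_filter, Fintype.sum_sum_type, add_comm]
    refine add_le_add ?_ ?_
    · -- forbidden-word events
      rw [Fintype.sum_sigma]
      refine Finset.sum_le_sum fun j _ => ?_
      set a : ℝ := (N j : ℝ) / (Fintype.card C : ℝ) ^ ℓ' j * 2 ^ ℓ' j with ha
      have ha0 : 0 ≤ a := by positivity
      refine le_trans ?_ (osa_sum_vec π (ℓ' j) κ a ha0)
      rw [Fintype.sum_prod_type, Finset.sum_comm]
      refine Finset.sum_le_sum fun v _ => Finset.sum_le_sum fun x _ => ?_
      simp only [sc, p, Sum.elim_inr, List.mem_toFinset]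
      split_ifs with h
      · rw [ha]
        refine mul_le_mul_of_nonneg_left ?_ (by positivity)
        refine pow_le_pow_right₀ (by norm_num) ?_
        refine (List.toFinset_card_le _).trans ?_
        rw [osaEdges_length, v.2]
      · exact le_refl _
    · -- coincidence events
      set a : ℝ := pA * 2 ^ (2 * ℓ) with ha
      have ha0 : 0 ≤ a := by positivity
      have h1 : ∀ z : V × V × List.Vector (J × Bool) ℓ,
          (if κ ∈ sc (Sum.inl z) then p (Sum.inl z) * 2 ^ (sc (Sum.inl z)).card else 0)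
            ≤ (if κ ∈ osaEdges π z.2.2.1 z.1 then a else 0)
              + (if κ ∈ osaEdges π z.2.2.1 z.2.1 then a else 0) := by
        rintro ⟨x, y, v⟩
        simp only [sc, p, Sum.elim_inl, Finset.mem_union, List.mem_toFinset]
        have hcard : ((osaEdges π v.1 x).toFinset ∪ (osaEdges π v.1 y).toFinset).card ≤ 2 * ℓ := by
          refine (Finset.card_union_le _ _).trans ?_
          have h1 := List.toFinset_card_le (osaEdges π v.1 x)
          have h2 := List.toFinset_card_le (osaEdges π v.1 y)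
          rw [osaEdges_length, v.2] at h1 h2
          omega
        have hle : pA * 2 ^ ((osaEdges π v.1 x).toFinset ∪ (osaEdges π v.1 y).toFinset).card
            ≤ a := by
          rw [ha]
          exact mul_le_mul_of_nonneg_left (pow_le_pow_right₀ (by norm_num) hcard) hpA0
        by_cases hx : κ ∈ osaEdges π v.1 x <;> by_cases hy : κ ∈ osaEdges π v.1 y <;>
          simp only [hx, hy, or_true, true_or, or_self, if_true, if_false] <;> linarith
      refine (Finset.sum_le_sum fun z _ => h1 z).trans ?_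
      rw [Finset.sum_add_distrib]
      have hX : ∑ z : V × V × List.Vector (J × Bool) ℓ,
          (if κ ∈ osaEdges π z.2.2.1 z.1 then a else 0)
          ≤ (Fintype.card V : ℝ) * ((Fintype.card (J × Bool) : ℝ) ^ ℓ * (ℓ * a)) := by
        rw [Fintype.sum_prod_type, Finset.sum_comm]
        simp only [Fintype.sum_prod_type]
        calc ∑ y : V, ∑ v : List.Vector (J × Bool) ℓ, ∑ x : V,
              (if κ ∈ osaEdges π v.1 x then a else 0)
            ≤ ∑ _y : V, ((Fintype.card (J × Bool) : ℝ) ^ ℓ * (ℓ * a)) := by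
              refine Finset.sum_le_sum fun y _ => ?_
              exact osa_sum_vec π ℓ κ a ha0
          _ = _ := by rw [Finset.sum_const, Finset.card_univ, nsmul_eq_mul]
      have hY : ∑ z : V × V × List.Vector (J × Bool) ℓ,
          (if κ ∈ osaEdges π z.2.2.1 z.2.1 then a else 0)
          ≤ (Fintype.card V : ℝ) * ((Fintype.card (J × Bool) : ℝ) ^ ℓ * (ℓ * a)) := by
        simp only [Fintype.sum_prod_type]
        calc ∑ x : V, ∑ y : V, ∑ v : List.Vector (J × Bool) ℓ,
              (if κ ∈ osaEdges π v.1 y then a else 0)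
            ≤ ∑ _x : V, ((Fintype.card (J × Bool) : ℝ) ^ ℓ * (ℓ * a)) := by
              refine Finset.sum_le_sum fun x _ => ?_
              rw [Finset.sum_comm]
              exact osa_sum_vec π ℓ κ a ha0
          _ = _ := by rw [Finset.sum_const, Finset.card_univ, nsmul_eq_mul]
      linarith
  obtain ⟨c, hc⟩ := osa_lll E sc hdep hne p hp0 hp hsum
  refine ⟨c, ?_, ?_⟩
  · intro x y hxy w hw hl h
    exact hc (Sum.inl (x, y, ⟨w, hl⟩)) ⟨hxy, hw, h⟩
  · intro j x w hw hl h
    exact hc (Sum.inr ⟨j, x, ⟨w, hl⟩⟩) ⟨hw, h⟩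

end step

end Claimed.Agent.R300
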