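/-
R300, IT black box (c): Osajda-type labelling.  Part 5: numerics, the recursion over the sequence of
graphs, and the labelling theorem.  Owner: helper185.
-/
import Claimed.Agent.R300.OsaStep

set_option autoImplicit false

namespace Claimed.Agent.R300

open Finset

/-- Existence of a sequence chosen step by step, each step depending only on the earlier terms. -/
theorem osa_exists_seq {α : ℕ → Type*} [∀ i, Nonempty (α i)]
    (P : ∀ i, (∀ j, α j) → α i → Prop)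
    (hcongr : ∀ i (c c' : ∀ j, α j) (a : α i), (∀ j < i, c j = c' j) → P i c a → P i c' a)
    (hex : ∀ i (c : ∀ j, α j), ∃ a, P i c a) : ∃ c : ∀ i, α i, ∀ i, P i c (c i) := by
  classical
  let c0 : ∀ j, α j := fun j => Classical.arbitrary (α j)
  let seq : ℕ → (∀ j, α j) := fun n =>
    Nat.rec c0 (fun i s => Function.update s i (Classical.choose (hex i s))) n
  have hsucc : ∀ i, seq (i + 1) = Function.update (seq i) i (Classical.choose (hex i (seq i))) :=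
    fun i => rfl
  have hstab : ∀ i j, j < i → seq i j = seq (j + 1) j := by
    intro i
    induction i with
    | zero => intro j hj; omega
    | succ i ih =>
      intro j hj
      rcases Nat.lt_succ_iff_lt_or_eq.1 hj with h | rfl
      · rw [hsucc i, Function.update_of_ne (Nat.ne_of_lt h), ih j h]
      · rfl
  refine ⟨fun j => seq (j + 1) j, fun i => ?_⟩
  have h1 : seq (i + 1) i = Classical.choose (hex i (seq i)) := by
    rw [hsucc i, Function.update_self]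
  have h2 := Classical.choose_spec (hex i (seq i))
  show P i (fun j => seq (j + 1) j) (seq (i + 1) i)
  rw [h1]
  exact hcongr i (seq i) _ _ (fun j hj => hstab i j hj) h2

/-- Numerics of a forbidden-word level. -/
theorem osa_num_B (D K N ℓ : ℕ) (q : ℝ) (hN : N ≤ K ^ ℓ) (hq : (32 : ℝ) * D * K ≤ q) (hq0 : 0 < q) :
    (D : ℝ) ^ ℓ * (ℓ * ((N : ℝ) / q ^ ℓ * 2 ^ ℓ)) ≤ (1 / 8 : ℝ) ^ ℓ := by
  have hl : (ℓ : ℝ) ≤ 2 ^ ℓ := by exact_mod_cast (Nat.lt_two_pow_self (n := ℓ)).le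
  have hN' : (N : ℝ) ≤ (K : ℝ) ^ ℓ := by exact_mod_cast hN
  have hqℓ : 0 < q ^ ℓ := by positivity
  have h1 : (D : ℝ) ^ ℓ * (ℓ * ((N : ℝ) / q ^ ℓ * 2 ^ ℓ))
      = ((D : ℝ) ^ ℓ * ℓ * N * 2 ^ ℓ) / q ^ ℓ := by ring
  have h2 : (D : ℝ) ^ ℓ * ℓ * N * 2 ^ ℓ ≤ (4 * D * K : ℝ) ^ ℓ := by
    have : (4 * D * K : ℝ) ^ ℓ = (D : ℝ) ^ ℓ * 2 ^ ℓ * (K : ℝ) ^ ℓ * 2 ^ ℓ := by
      rw [← mul_pow, ← mul_pow, ← mul_pow]; ring_nf
    rw [this]
    gcongr
  rw [h1]
  calc ((D : ℝ) ^ ℓ * ℓ * N * 2 ^ ℓ) / q ^ ℓ ≤ (4 * D * K : ℝ) ^ ℓ / q ^ ℓ := by gcongr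
    _ = ((4 * D * K : ℝ) / q) ^ ℓ := (div_pow _ _ _).symm
    _ ≤ (1 / 8 : ℝ) ^ ℓ := by
        refine pow_le_pow_left₀ (by positivity) ?_ ℓ
        rw [div_le_iff₀ hq0]
        linarith

/-- Numerics of the coincidence level. -/
theorem osa_num_A (D K n ℓ Q : ℕ) (hℓ : 1 ≤ ℓ) (hn : n ≤ K ^ ℓ) (hQ : 128 * D * K + 1 ≤ Q) :
    2 * ((n : ℝ) * ((D : ℝ) ^ ℓ * (ℓ * (1 / ((Q ^ 3 : ℕ) : ℝ) ^ ((ℓ + 2) / 3) * 2 ^ (2 * ℓ)))))
      ≤ 1 / 8 := by
  have hl : (ℓ : ℝ) ≤ 2 ^ ℓ := by exact_mod_cast (Nat.lt_two_pow_self (n := ℓ)).le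
  have hn' : (n : ℝ) ≤ (K : ℝ) ^ ℓ := by exact_mod_cast hn
  have hQ1 : (1 : ℝ) ≤ Q := by
    have : 1 ≤ Q := by omega
    exact_mod_cast this
  have hQ' : (128 : ℝ) * D * K ≤ Q := by
    have : 128 * D * K ≤ Q := by omega
    exact_mod_cast this
  have hQ0 : (0 : ℝ) < Q := by linarith
  have hpow : (Q : ℝ) ^ ℓ ≤ ((Q ^ 3 : ℕ) : ℝ) ^ ((ℓ + 2) / 3) := by
    push_cast
    rw [← pow_mul]
    exact pow_le_pow_right₀ hQ1 (by omega)
  have hinv : 1 / ((Q ^ 3 : ℕ) : ℝ) ^ ((ℓ + 2) / 3) ≤ 1 / (Q : ℝ) ^ ℓ :=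
    one_div_le_one_div_of_le (by positivity) hpow
  have h4 : (2 : ℝ) ^ (2 * ℓ) = 4 ^ ℓ := by rw [pow_mul]; norm_num
  calc 2 * ((n : ℝ) * ((D : ℝ) ^ ℓ * (ℓ * (1 / ((Q ^ 3 : ℕ) : ℝ) ^ ((ℓ + 2) / 3) * 2 ^ (2 * ℓ)))))
      ≤ 2 * ((K : ℝ) ^ ℓ * ((D : ℝ) ^ ℓ * (2 ^ ℓ * (1 / (Q : ℝ) ^ ℓ * 4 ^ ℓ)))) := by
        rw [h4]; gcongr
    _ = 2 * ((8 * D * K : ℝ) / Q) ^ ℓ := by
        rw [div_pow]
        have : (8 * D * K : ℝ) ^ ℓ = (K : ℝ) ^ ℓ * (D : ℝ) ^ ℓ * 2 ^ ℓ * 4 ^ ℓ := by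
          rw [← mul_pow, ← mul_pow, ← mul_pow]; ring_nf
        rw [this]; ring
    _ ≤ 2 * (1 / 16 : ℝ) ^ ℓ := by
        have : (8 * D * K : ℝ) / Q ≤ 1 / 16 := by
          rw [div_le_iff₀ hQ0]
          linarith
        have h5 : ((8 * D * K : ℝ) / Q) ^ ℓ ≤ (1 / 16 : ℝ) ^ ℓ :=
          pow_le_pow_left₀ (by positivity) this ℓ
        linarith
    _ ≤ 2 * (1 / 16 : ℝ) ^ 1 := by
        gcongr 2 * ?_
        exact pow_le_pow_of_le_one (by norm_num) (by norm_num) hℓ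
    _ = 1 / 8 := by norm_num

/-- A geometric sum. -/
theorem osa_geom (i : ℕ) : ∑ j : Fin i, (1 / 8 : ℝ) ^ ((j : ℕ) + 1) ≤ 1 / 7 := by
  rw [Fin.sum_univ_eq_sum_range (fun j => (1 / 8 : ℝ) ^ (j + 1)) i]
  have h : ∀ i : ℕ, ∑ j ∈ Finset.range i, (1 / 8 : ℝ) ^ (j + 1) = 1 / 7 - (1 / 7) * (1 / 8 : ℝ) ^ i := by
    intro i
    induction i with
    | zero => simp
    | succ i ih => rw [Finset.sum_range_succ, ih]; ring
  rw [h]
  have : (0 : ℝ) ≤ (1 / 7) * (1 / 8 : ℝ) ^ i := by positivity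
  linarith

section main

variable {J : Type*} [Fintype J] {V : ℕ → Type*} [∀ i, Fintype (V i)]

/-- **Osajda-type labelling theorem** (permutation form).  `V i` are finite vertex sets,
`π i : J → Perm (V i)` the graphs; `ℓ i` is the piece threshold of the `i`-th graph.  There are a
finite set of colours `Fin q` and colourings `c i` of the edges such that a reduced path of length at
least `ℓ (min i j)` is determined, among all paths of the family, by its shape and its colour word. -/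
theorem osa_labelling (π : ∀ i, J → Equiv.Perm (V i)) (ℓ : ℕ → ℕ) (hmono : StrictMono ℓ)
    (h0 : 1 ≤ ℓ 0) (K : ℕ) (hK : ∀ i, Fintype.card (V i) ≤ K ^ ℓ i)
    (hg : ∀ i, OsaGirth (π i) (ℓ i)) :
    ∃ (q : ℕ) (c : ∀ i, J × V i → Fin q),
      ∀ (i j : ℕ) (x : V i) (y : V j) (w : List (J × Bool)), FreeGroup.IsReduced w →
        ℓ (min i j) ≤ w.length → osaCW (π i) (c i) w x = osaCW (π j) (c j) w y →
        (⟨i, x⟩ : Σ i, V i) = ⟨j, y⟩ := by
  classical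
  set D : ℕ := Fintype.card (J × Bool) with hD
  obtain ⟨Q, hQ⟩ : ∃ Q : ℕ, Q = 128 * D * K + 1 := ⟨_, rfl⟩
  have hQpos : 0 < Q ^ 3 := by
    have : 0 < Q := by omega
    positivity
  have : NeZero (Q ^ 3) := ⟨hQpos.ne'⟩
  have hℓ : ∀ i, i + 1 ≤ ℓ i := by
    intro i
    induction i with
    | zero => exact h0
    | succ i ih => exact Nat.succ_le_of_lt (lt_of_le_of_lt ih (hmono (Nat.lt_succ_self i)))
  let P : ∀ i, (∀ j, J × V j → Fin (Q ^ 3)) → (J × V i → Fin (Q ^ 3)) → Prop := fun i c ci =>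
    (∀ x y, x ≠ y → ∀ w, FreeGroup.IsReduced w → w.length = ℓ i →
      osaCW (π i) ci w x ≠ osaCW (π i) ci w y) ∧
    (∀ j, j < i → ∀ x w, FreeGroup.IsReduced w → w.length = ℓ j → ∀ y : V j,
      osaCW (π i) ci w x ≠ osaCW (π j) (c j) w y)
  have hcongr : ∀ i (c c' : ∀ j, J × V j → Fin (Q ^ 3)) (a : J × V i → Fin (Q ^ 3)),
      (∀ j < i, c j = c' j) → P i c a → P i c' a := by
    intro i c c' a h hP
    refine ⟨hP.1, fun j hj x w hw hl y => ?_⟩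
    rw [← h j hj]
    exact hP.2 j hj x w hw hl y
  have hex : ∀ i (c : ∀ j, J × V j → Fin (Q ^ 3)), ∃ a, P i c a := by
    intro i c
    have hqcard : (Fintype.card (Fin (Q ^ 3)) : ℝ) = ((Q ^ 3 : ℕ) : ℝ) := by
      rw [Fintype.card_fin]
    have hQle : (32 : ℝ) * D * K ≤ ((Q ^ 3 : ℕ) : ℝ) := by
      have h1 : Q ≤ Q ^ 3 := Nat.le_self_pow (by norm_num) Q
      have h2 : 32 * D * K ≤ Q ^ 3 := by
        refine le_trans ?_ h1
        rw [hQ]
        nlinarith [Nat.zero_le (D * K)]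
      exact_mod_cast h2
    have hnum : (∑ j : Fin i, ((Fintype.card (J × Bool) : ℝ) ^ ℓ j *
          (ℓ j * ((Fintype.card (V j) : ℝ) / (Fintype.card (Fin (Q ^ 3)) : ℝ) ^ ℓ j * 2 ^ ℓ j))))
        + 2 * ((Fintype.card (V i) : ℝ) * ((Fintype.card (J × Bool) : ℝ) ^ ℓ i *
          (ℓ i * (1 / (Fintype.card (Fin (Q ^ 3)) : ℝ) ^ ((ℓ i + 2) / 3) * 2 ^ (2 * ℓ i)))))
        ≤ 1 / 2 := by
      rw [hqcard]
      have hA := osa_num_A D K (Fintype.card (V i)) (ℓ i) Q (le_trans (by omega) (hℓ i)) (hK i)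
        (le_of_eq hQ.symm)
      have hB : ∑ j : Fin i, ((Fintype.card (J × Bool) : ℝ) ^ ℓ j *
          (ℓ j * ((Fintype.card (V j) : ℝ) / ((Q ^ 3 : ℕ) : ℝ) ^ ℓ j * 2 ^ ℓ j))) ≤ 1 / 7 := by
        refine le_trans (Finset.sum_le_sum fun j _ => ?_) (osa_geom i)
        refine (osa_num_B D K (Fintype.card (V j)) (ℓ j) _ (hK j) hQle
          (by exact_mod_cast hQpos)).trans ?_
        exact pow_le_pow_of_le_one (by norm_num) (by norm_num) (hℓ j)
      have : (1 / 7 : ℝ) + 1 / 8 ≤ 1 / 2 := by norm_num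
      linarith
    obtain ⟨a, ha1, ha2⟩ := osa_one_step (C := Fin (Q ^ 3)) (π i) (ℓ i) (le_trans (by omega) (hℓ i))
      (hg i) (I := Fin i) (fun j => ℓ j) (fun j => le_trans (by omega) (hℓ j))
      (fun j => (hmono j.2).le)
      (fun j w => univ.image fun y : V j => osaCW (π j) (c j) w y)
      (fun j => Fintype.card (V j)) (fun j w => Finset.card_image_le) hnum
    refine ⟨a, ha1, fun j hj x w hw hl y h => ?_⟩
    exact ha2 ⟨j, hj⟩ x w hw hl (Finset.mem_image.2 ⟨y, Finset.mem_univ _, h.symm⟩)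
  obtain ⟨c, hc⟩ := osa_exists_seq P hcongr hex
  refine ⟨Q ^ 3, c, ?_⟩
  have hlt : ∀ (i j : ℕ), i < j → ∀ (x : V i) (y : V j) (w : List (J × Bool)),
      FreeGroup.IsReduced w → ℓ i ≤ w.length →
      osaCW (π i) (c i) w x ≠ osaCW (π j) (c j) w y := by
    intro i j hij x y w hw hl h
    refine (hc j).2 i hij y (w.take (ℓ i)) (List.IsChain.take hw _)
      (by rw [List.length_take]; omega) x ?_
    rw [osaCW_take, osaCW_take, h]
  intro i j x y w hw hl h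
  rcases lt_trichotomy i j with hij | rfl | hij
  · rw [min_eq_left hij.le] at hl
    exact absurd h (hlt i j hij x y w hw hl)
  · rw [min_self] at hl
    by_contra hne
    have hxy : x ≠ y := fun hxy => hne (by rw [hxy])
    refine (hc i).1 x y hxy (w.take (ℓ i)) (List.IsChain.take hw _)
      (by rw [List.length_take]; omega) ?_
    rw [osaCW_take, osaCW_take, h]
  · rw [min_eq_right hij.le] at hl
    exact absurd h.symm (hlt j i hij y x w hw hl)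

end main

end Claimed.Agent.R300
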