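import Claimed.Agent.R300.ShellBase

/-!
# Shelling library, part 1: relator systems, pieces, the hypothesis `C6`
-/

namespace Claimed.Agent.R300.Shell

universe u v w

variable {S : Type u} {T : Type v} {Q : Type w}

/-- A relator system: one deterministic symmetric labelled graph on `T` (the disjoint union of all
relator graphs) together with a `position` map `pos`.  Two vertices with the same position are
related by a label preserving isomorphism of their components; this is expressed through words by
`pos_step` and `pos_close`.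
(IT: `pos = id`.  INJ: `T = V(X) × H` a voltage cover, `pos = Prod.fst`.) -/
structure RelSys (S : Type u) (T : Type v) (Q : Type w) where
  E : T → S × Bool → T → Prop
  pos : T → Q
  sym : GSym E
  det : GDet E
  pos_step : ∀ ⦃x x' : T⦄ ⦃l : S × Bool⦄ ⦃z : T⦄, pos x = pos x' → E x l z →
    ∃ z', E x' l z' ∧ pos z' = pos z
  pos_close : ∀ ⦃x x' : T⦄ ⦃w : List (S × Bool)⦄, pos x = pos x' → Path E x w x → Path E x' w x'

variable (Θ : RelSys S T Q)

/-- `Piece x p z`: `p` is a reduced word read from `x` to `z` which can also be read from a vertex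
with another position. -/
def Piece (x : T) (p : List (S × Bool)) (z : T) : Prop :=
  Path Θ.E x p z ∧ FreeGroup.IsReduced p ∧ ∃ x' z', Θ.pos x' ≠ Θ.pos x ∧ Path Θ.E x' p z'

/-- `PChain k x w z`: the path from `x` to `z` reading `w` is a concatenation of at most `k`
pieces. -/
inductive PChain : ℕ → T → List (S × Bool) → T → Prop
  | nil (x : T) : PChain 0 x [] x
  | cons {k : ℕ} {x y z : T} {p w : List (S × Bool)} :
      Piece Θ x p y → PChain k y w z → PChain (k + 1) x (p ++ w) z
  | skip {k : ℕ} {x z : T} {w : List (S × Bool)} : PChain k x w z → PChain (k + 1) x w z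

/-- The only small cancellation hypothesis of the library: a closed walk which is a concatenation
of at most five pieces is freely trivial. -/
def C6 : Prop := ∀ ⦃x : T⦄ ⦃w : List (S × Bool)⦄, PChain Θ 5 x w x → FreeGroup.mk w = 1

/-- every signed letter occurs on some edge -/
def AllLetters : Prop := ∀ l : S × Bool, ∃ x z, Θ.E x l z

/-- the relators: words of closed walks -/
def rels : Set (FreeGroup S) := {r | ∃ x w, Path Θ.E x w x ∧ r = FreeGroup.mk w}

/-- the group defined by the relator system -/
abbrev Gam : Type u := PresentedGroup (rels Θ)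

/-- the element of the group represented by a word -/
def gw (w : List (S × Bool)) : Gam Θ := PresentedGroup.mk (rels Θ) (FreeGroup.mk w)

variable {Θ}

/-! ### transport along equal positions -/

theorem pos_path {x x' z : T} {w : List (S × Bool)} (h : Θ.pos x = Θ.pos x')
    (hp : Path Θ.E x w z) : ∃ z', Path Θ.E x' w z' ∧ Θ.pos z' = Θ.pos z := by
  induction hp generalizing x' with
  | nil a => exact ⟨x', Path.nil _, h.symm⟩
  | cons e _ ih =>
    obtain ⟨b', e', hb⟩ := Θ.pos_step h e
    obtain ⟨z', hz, hz'⟩ := ih hb.symm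
    exact ⟨z', Path.cons e' hz, hz'⟩

/-- backwards transport -/
theorem pos_path_left {x z z' : T} {w : List (S × Bool)} (h : Θ.pos z = Θ.pos z')
    (hp : Path Θ.E x w z) : ∃ x', Path Θ.E x' w z' ∧ Θ.pos x' = Θ.pos x := by
  obtain ⟨x', h1, h2⟩ := pos_path h (hp.inv Θ.sym)
  refine ⟨x', ?_, h2⟩
  simpa using h1.inv Θ.sym

/-- two words with the same end point from `x` have the same end point from `x'`. -/
theorem pos_same_end {x x' z z₁ z₂ : T} {w₁ w₂ : List (S × Bool)} (h : Θ.pos x = Θ.pos x')
    (h1 : Path Θ.E x w₁ z) (h2 : Path Θ.E x w₂ z) (h1' : Path Θ.E x' w₁ z₁)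
    (h2' : Path Θ.E x' w₂ z₂) : z₁ = z₂ := by
  have hc : Path Θ.E x (w₁ ++ FreeGroup.invRev w₂) x := h1.append (h2.inv Θ.sym)
  have hc' := Θ.pos_close h hc
  obtain ⟨b, hb1, hb2⟩ := path_append_iff.1 hc'
  have : b = z₁ := hb1.det Θ.det h1'
  subst this
  have h3 : Path Θ.E x' w₂ b := by simpa using hb2.inv Θ.sym
  exact h3.det Θ.det h2'

/-- positions propagate backwards along a common word -/
theorem pos_eq_of_path_left {x x' z z' : T} {w : List (S × Bool)} (h : Θ.pos z = Θ.pos z')
    (hp : Path Θ.E x w z) (hp' : Path Θ.E x' w z') : Θ.pos x = Θ.pos x' := by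
  obtain ⟨x'', h1, h2⟩ := pos_path_left h hp
  have : x'' = x' := h1.det_left Θ.sym Θ.det hp'
  subst this
  exact h2.symm

theorem pos_eq_of_path {x x' z z' : T} {w : List (S × Bool)} (h : Θ.pos x = Θ.pos x')
    (hp : Path Θ.E x w z) (hp' : Path Θ.E x' w z') : Θ.pos z = Θ.pos z' := by
  obtain ⟨z'', h1, h2⟩ := pos_path h hp
  have : z'' = z' := h1.det Θ.det hp'
  subst this
  exact h2.symm

end Claimed.Agent.R300.Shell
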