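/-
R300, IT black box (c): Osajda-type labelling.  Part 6: the labelled family as a relator system of
the shelling library; pieces are short; hypothesis `C6`; all letters occur.  Owner: helper185.
-/
import Claimed.Agent.R300.OsaMain
import Claimed.Agent.R300.ShellRel

set_option autoImplicit false

namespace Claimed.Agent.R300

open Shell

section rel

universe u v

variable {J : Type u} {V : ℕ → Type v} {q : ℕ}

/-- The letters in use: pairs (generator, colour) carried by at least one edge of the family. -/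
def OsaLetter (c : ∀ i, J × V i → Fin q) : Type u :=
  {s : J × Fin q // ∃ (i : ℕ) (x : V i), c i (s.1, x) = s.2}

instance osaLetterFinite [Finite J] (c : ∀ i, J × V i → Fin q) : Finite (OsaLetter c) :=
  Subtype.finite

variable (π : ∀ i, J → Equiv.Perm (V i)) (c : ∀ i, J × V i → Fin q)

/-- The edge relation of the labelled family: `x ⟶ π j x` carries the letter `(j, c (j, x))`. -/
def osaE (a : Σ i, V i) (l : OsaLetter c × Bool) (b : Σ i, V i) : Prop :=
  if l.2 then c a.1 (l.1.1.1, a.2) = l.1.1.2 ∧ b = ⟨a.1, π a.1 l.1.1.1 a.2⟩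
  else c b.1 (l.1.1.1, b.2) = l.1.1.2 ∧ a = ⟨b.1, π b.1 l.1.1.1 b.2⟩

theorem osaE_sym : GSym (osaE π c) := by
  rintro a ⟨s, b⟩ z h
  cases b <;> simpa [osaE, linv] using h

theorem osaE_det : GDet (osaE π c) := by
  rintro a ⟨s, b⟩ ⟨i, y⟩ ⟨i', z⟩ h h'
  cases b
  · simp only [osaE, Bool.false_eq_true, if_false] at h h'
    have h2 := h.2.symm.trans h'.2
    rw [Sigma.mk.inj_iff] at h2
    obtain ⟨rfl, h3⟩ := h2
    have := (π i s.1.1).injective (eq_of_heq h3)
    rw [this]
  · simp only [osaE, if_true] at h h'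
    rw [h.2, h'.2]

/-- The labelled family as a relator system (positions = vertices). -/
def osaRelSys : RelSys (OsaLetter c) (Σ i, V i) (Σ i, V i) where
  E := osaE π c
  pos := id
  sym := osaE_sym π c
  det := osaE_det π c
  pos_step := by
    rintro x x' l z h he
    obtain rfl : x = x' := h
    exact ⟨z, he, rfl⟩
  pos_close := by
    rintro x x' w h hp
    obtain rfl : x = x' := h
    exact hp

theorem osa_allLetters : AllLetters (osaRelSys π c) := by
  rintro ⟨⟨s, i, x, hx⟩, b⟩
  cases b
  · exact ⟨⟨i, π i s.1 x⟩, ⟨i, x⟩, by simp [osaRelSys, osaE, hx]⟩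
  · exact ⟨⟨i, x⟩, ⟨i, π i s.1 x⟩, by simp [osaRelSys, osaE, hx]⟩

/-- shape of a word over the letters in use -/
def osaShape (w : List (OsaLetter c × Bool)) : List (J × Bool) := w.map fun l => (l.1.1.1, l.2)

/-- colours of a word over the letters in use -/
def osaCol (w : List (OsaLetter c × Bool)) : List (Fin q) := w.map fun l => l.1.1.2

@[simp] theorem osaShape_length (w : List (OsaLetter c × Bool)) :
    (osaShape c w).length = w.length := by simp [osaShape]

theorem osaE_iff (i : ℕ) (x : V i) (l : OsaLetter c × Bool) (b : Σ i, V i) :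
    osaE π c ⟨i, x⟩ l b ↔
      b = ⟨i, osaStep (π i) (l.1.1.1, l.2) x⟩ ∧
        c i (osaEdge (π i) (l.1.1.1, l.2) x) = l.1.1.2 := by
  obtain ⟨s, d⟩ := l
  cases d
  · simp only [osaE, Bool.false_eq_true, if_false, osaStep, osaEdge]
    constructor
    · rintro ⟨h1, h2⟩
      obtain ⟨i', y⟩ := b
      rw [Sigma.mk.inj_iff] at h2
      obtain ⟨rfl, h3⟩ := h2
      have h4 : x = π i s.1.1 y := eq_of_heq h3
      have h5 : (π i s.1.1)⁻¹ x = y := by rw [h4]; simp
      rw [h5]
      exact ⟨rfl, h1⟩
    · rintro ⟨rfl, h2⟩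
      exact ⟨h2, by simp⟩
  · simp only [osaE, if_true, osaStep, osaEdge]
    exact and_comm

/-- Paths of the relator system are runs with prescribed colour word. -/
theorem osa_path_iff (i : ℕ) (x : V i) (w : List (OsaLetter c × Bool)) (b : Σ i, V i) :
    Path (osaE π c) ⟨i, x⟩ w b ↔
      b = ⟨i, osaRun (π i) (osaShape c w) x⟩ ∧
        osaCW (π i) (c i) (osaShape c w) x = osaCol c w := by
  induction w generalizing x with
  | nil => simp [osaShape, osaCol, osaCW, eq_comm]
  | cons l w ih =>
    rw [path_cons_iff]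
    constructor
    · rintro ⟨z, h1, h2⟩
      rw [osaE_iff] at h1
      obtain ⟨rfl, h3⟩ := h1
      rw [ih] at h2
      obtain ⟨rfl, h4⟩ := h2
      refine ⟨rfl, ?_⟩
      simp only [osaCW, osaShape, osaCol, List.map_cons, osaEdges_cons] at h4 ⊢
      rw [h3, h4]
    · rintro ⟨rfl, h4⟩
      simp only [osaCW, osaShape, osaCol, List.map_cons, osaEdges_cons, List.cons.injEq] at h4
      refine ⟨⟨i, osaStep (π i) (l.1.1.1, l.2) x⟩, (osaE_iff π c i x l _).2 ⟨rfl, h4.1⟩, ?_⟩
      rw [ih]
      exact ⟨rfl, h4.2⟩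

/-- The shape of a reduced readable word is reduced. -/
theorem osa_shape_reduced (a b : Σ i, V i) (w : List (OsaLetter c × Bool))
    (hp : Path (osaE π c) a w b) (hw : FreeGroup.IsReduced w) :
    FreeGroup.IsReduced (osaShape c w) := by
  induction w generalizing a with
  | nil => simp [osaShape]
  | cons l w ih =>
    rw [path_cons_iff] at hp
    obtain ⟨z, h1, h2⟩ := hp
    cases w with
    | nil => simp [osaShape]
    | cons l' w =>
      rw [FreeGroup.isReduced_cons_cons] at hw
      have ih' := ih z h2 hw.2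
      simp only [osaShape, List.map_cons] at ih' ⊢
      rw [FreeGroup.isReduced_cons_cons]
      refine ⟨fun hj => ?_, ih'⟩
      simp only at hj ⊢
      by_contra hne
      apply hne
      apply hw.1
      -- the path backtracks, hence the two letters carry the same colour
      rw [path_cons_iff] at h2
      obtain ⟨z', h3, -⟩ := h2
      obtain ⟨i, x⟩ := a
      rw [osaE_iff] at h1
      obtain ⟨rfl, h1c⟩ := h1
      rw [osaE_iff] at h3
      obtain ⟨-, h3c⟩ := h3
      apply Subtype.ext
      apply Prod.ext hj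
      rw [← h1c, ← h3c, ← hj]
      congr 1
      obtain ⟨s, d⟩ := l
      obtain ⟨s', d'⟩ := l'
      simp only at hne hj ⊢
      cases d <;> cases d' <;> simp_all [osaEdge, osaStep]

theorem osa_path_fst (a b : Σ i, V i) (w : List (OsaLetter c × Bool))
    (hp : Path (osaE π c) a w b) : b.1 = a.1 := by
  obtain ⟨i, x⟩ := a
  rw [osa_path_iff] at hp
  rw [hp.1]

variable {π c}

/-- The conclusion of the labelling theorem. -/
def OsaPC (π : ∀ i, J → Equiv.Perm (V i)) (c : ∀ i, J × V i → Fin q) (ℓ : ℕ → ℕ) : Prop :=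
  ∀ (i j : ℕ) (x : V i) (y : V j) (w : List (J × Bool)), FreeGroup.IsReduced w →
    ℓ (min i j) ≤ w.length → osaCW (π i) (c i) w x = osaCW (π j) (c j) w y →
    (⟨i, x⟩ : Σ i, V i) = ⟨j, y⟩

/-- Pieces are short. -/
theorem OsaPC.piece_lt {ℓ : ℕ → ℕ} (hPC : OsaPC π c ℓ) (hmono : Monotone ℓ) {x z : Σ i, V i}
    {p : List (OsaLetter c × Bool)} (hp : Piece (osaRelSys π c) x p z) : p.length < ℓ x.1 := by
  obtain ⟨h1, hred, x', z', hne, h2⟩ := hp
  by_contra hlt
  push Not at hlt
  obtain ⟨i, x⟩ := x
  obtain ⟨j, y⟩ := x'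
  have hs := osa_shape_reduced π c _ _ p h1 hred
  have e1 := ((osa_path_iff π c i x p z).1 h1).2
  have e2 := ((osa_path_iff π c j y p z').1 h2).2
  refine hne (hPC j i y x (osaShape c p) hs ?_ (e2.trans e1.symm))
  rw [osaShape_length]
  exact le_trans (hmono (min_le_right _ _)) hlt

theorem osa_pchain_path {k : ℕ} {x z : Σ i, V i} {w : List (OsaLetter c × Bool)}
    (h : PChain (osaRelSys π c) k x w z) : Path (osaE π c) x w z := by
  induction h with
  | nil x => exact Path.nil _
  | cons hp _ ih => exact Path.append hp.1 ih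
  | skip _ ih => exact ih

theorem OsaPC.pchain_length {ℓ : ℕ → ℕ} (hPC : OsaPC π c ℓ) (hmono : Monotone ℓ) {k : ℕ}
    {x z : Σ i, V i} {w : List (OsaLetter c × Bool)} (h : PChain (osaRelSys π c) k x w z) :
    w.length ≤ k * ℓ x.1 := by
  induction h with
  | nil x => simp
  | @cons k x y z p w hp _ ih =>
    have h1 := hPC.piece_lt hmono hp
    have h2 : y.1 = x.1 := osa_path_fst π c x y p hp.1
    rw [h2] at ih
    rw [List.length_append, Nat.succ_mul]
    omega
  | @skip k x z w _ ih =>
    rw [Nat.succ_mul]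
    omega

/-- A closed path shorter than the girth is freely trivial. -/
theorem osa_closed_trivial {L : ℕ} (a : Σ i, V i) (hg : OsaGirth (π a.1) L)
    (w : List (OsaLetter c × Bool)) (hp : Path (osaE π c) a w a) (hl : w.length ≤ L) :
    FreeGroup.mk w = 1 := by
  classical
  have hr : FreeGroup.Red w (FreeGroup.reduce w) := FreeGroup.reduce.red
  have hp' := hp.of_red (osaE_sym π c) (osaE_det π c) hr
  have hred : FreeGroup.IsReduced (FreeGroup.reduce w) :=
    FreeGroup.IsReduced.of_reduce_eq FreeGroup.reduce.idem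
  have hs := osa_shape_reduced π c _ _ _ hp' hred
  obtain ⟨i, x⟩ := a
  have h1 := ((osa_path_iff π c i x _ _).1 hp').1
  rw [Sigma.mk.inj_iff] at h1
  have h2 : x = osaRun (π i) (osaShape c (FreeGroup.reduce w)) x := eq_of_heq h1.2
  by_cases hnil : FreeGroup.reduce w = []
  · rw [← FreeGroup.reduce.self, hnil]
    rfl
  · exfalso
    refine hg (osaShape c (FreeGroup.reduce w)) hs ?_ ?_ x h2.symm
    · intro h
      apply hnil
      have := congrArg List.length h
      rw [osaShape_length] at this
      exact List.length_eq_zero_iff.1 (by simpa using this)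
    · rw [osaShape_length]
      exact hr.length_le.trans hl

/-- **Hypothesis `C6` of the shelling library** for the labelled family. -/
theorem OsaPC.c6 {ℓ : ℕ → ℕ} (hPC : OsaPC π c ℓ) (hmono : Monotone ℓ)
    (hg : ∀ i, OsaGirth (π i) (5 * ℓ i)) : C6 (osaRelSys π c) := by
  intro x w h
  exact osa_closed_trivial x (hg x.1) w (osa_pchain_path h) (hPC.pchain_length hmono h)

end rel

end Claimed.Agent.R300
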