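/-
Row 300, INJ paper, Section 03_pruning: the ABSTRACT probabilistic machine.
* `SeqLaw`: finite level spaces `Ω t`; for every history a nonempty set `G t τ` of admissible
  next levels (the law is: choose the levels one after the other, uniformly in `G t τ`).
  No measure on the infinite product is used.
* `SeqLaw.rank_bound` = Lemma `lem:pruning-rank-process` (predictable accumulated rank), in
  "projection form": the test at level `t` is "the history can still be extended to the event".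
* `SeqLaw.select` = method of conditional expectations (replaces Markov + positive probability
  in `prop:pruning`).
* `pr_fresh`, `pr_tests`: values of distinct uniform permutation tables at known arguments.
Owner: helper59.
-/
import Mathlib

set_option autoImplicit false

namespace Claimed.Agent.R300.PrProb

open scoped ENNReal
open Finset

universe u

/-- `f` depends only on the levels `< T`. -/
def DepBelow {Ω : ℕ → Type u} {β : Sort*} (T : ℕ) (f : (∀ j, Ω j) → β) : Prop :=
  ∀ τ τ' : ∀ j, Ω j, (∀ j, j < T → τ j = τ' j) → f τ = f τ'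

/-- A sequential law. -/
structure SeqLaw (Ω : ℕ → Type u) where
  G : (t : ℕ) → (∀ j, Ω j) → Finset (Ω t)
  dep : ∀ t, DepBelow t (G t)
  ne : ∀ t τ, (G t τ).Nonempty

variable {Ω : ℕ → Type u}

lemma DepBelow.mono {β : Sort*} {T T' : ℕ} {f : (∀ j, Ω j) → β} (h : DepBelow T f) (hT : T ≤ T') :
    DepBelow T' f := fun τ τ' hτ => h τ τ' (fun j hj => hτ j (lt_of_lt_of_le hj hT))

lemma DepBelow.update {β : Sort*} {T t : ℕ} {f : (∀ j, Ω j) → β} (h : DepBelow T f) (hT : T ≤ t)
    (τ : ∀ j, Ω j) (ω : Ω t) : f (Function.update τ t ω) = f τ := by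
  apply h
  intro j hj
  rw [Function.update_of_ne (by omega)]

namespace SeqLaw

variable (L : SeqLaw Ω)

/-- conditional expectation over level `t` -/
noncomputable def E (t : ℕ) (f : (∀ j, Ω j) → ℝ≥0∞) (τ : ∀ j, Ω j) : ℝ≥0∞ :=
  (∑ ω ∈ L.G t τ, f (Function.update τ t ω)) / ((L.G t τ).card : ℝ≥0∞)

/-- expectation over the levels `t, …, t+n-1` -/
noncomputable def Eit : ℕ → ℕ → ((∀ j, Ω j) → ℝ≥0∞) → (∀ j, Ω j) → ℝ≥0∞
  | _, 0, f => f
  | t, n + 1, f => L.E t (Eit (t + 1) n f)

lemma card_ne_zero (t : ℕ) (τ : ∀ j, Ω j) : ((L.G t τ).card : ℝ≥0∞) ≠ 0 := by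
  have := (L.ne t τ).card_pos
  exact_mod_cast this.ne'

lemma card_ne_top (t : ℕ) (τ : ∀ j, Ω j) : ((L.G t τ).card : ℝ≥0∞) ≠ ⊤ :=
  ENNReal.natCast_ne_top _

lemma E_mono (t : ℕ) {f g : (∀ j, Ω j) → ℝ≥0∞} (h : ∀ τ, f τ ≤ g τ) (τ : ∀ j, Ω j) :
    L.E t f τ ≤ L.E t g τ := by
  unfold E
  exact ENNReal.div_le_div_right (Finset.sum_le_sum fun ω _ => h _) _

lemma E_mul_left (t : ℕ) (c f : (∀ j, Ω j) → ℝ≥0∞) (τ : ∀ j, Ω j)
    (hc : ∀ ω, c (Function.update τ t ω) = c τ) :
    L.E t (fun σ => c σ * f σ) τ = c τ * L.E t f τ := by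
  unfold E
  simp only [hc]
  rw [← Finset.mul_sum, mul_div_assoc]

lemma E_of_indep (t : ℕ) (f : (∀ j, Ω j) → ℝ≥0∞) (τ : ∀ j, Ω j)
    (hf : ∀ ω, f (Function.update τ t ω) = f τ) : L.E t f τ = f τ := by
  unfold E
  simp only [hf, Finset.sum_const, nsmul_eq_mul]
  rw [mul_comm, mul_div_assoc, ENNReal.div_self (L.card_ne_zero t τ) (L.card_ne_top t τ), mul_one]

lemma E_tsum {ι : Type*} (t : ℕ) (g : ι → (∀ j, Ω j) → ℝ≥0∞) (τ : ∀ j, Ω j) :
    L.E t (fun σ => ∑' c, g c σ) τ = ∑' c, L.E t (g c) τ := by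
  unfold E
  simp only [div_eq_mul_inv]
  rw [ENNReal.tsum_mul_right]
  congr 1
  rw [Summable.tsum_finsetSum (fun _ _ => ENNReal.summable)]

lemma exists_le_E (t : ℕ) (f : (∀ j, Ω j) → ℝ≥0∞) (τ : ∀ j, Ω j) :
    ∃ ω ∈ L.G t τ, f (Function.update τ t ω) ≤ L.E t f τ := by
  by_contra hcon
  push Not at hcon
  have h1 : ∑ ω ∈ L.G t τ, L.E t f τ < ∑ ω ∈ L.G t τ, f (Function.update τ t ω) := by
    apply ENNReal.sum_lt_sum_of_nonempty (L.ne t τ)
    exact hcon
  rw [Finset.sum_const, nsmul_eq_mul] at h1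
  unfold E at h1
  rw [ENNReal.mul_div_cancel (L.card_ne_zero t τ) (L.card_ne_top t τ)] at h1
  exact lt_irrefl _ h1

lemma Eit_mono (t n : ℕ) {f g : (∀ j, Ω j) → ℝ≥0∞} (h : ∀ τ, f τ ≤ g τ) (τ : ∀ j, Ω j) :
    L.Eit t n f τ ≤ L.Eit t n g τ := by
  induction n generalizing t τ with
  | zero => exact h τ
  | succ n ih => exact L.E_mono t (fun σ => ih (t + 1) σ) τ

lemma Eit_const_mul (t n : ℕ) (C : ℝ≥0∞) (f : (∀ j, Ω j) → ℝ≥0∞) (τ : ∀ j, Ω j) :
    L.Eit t n (fun σ => C * f σ) τ = C * L.Eit t n f τ := by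
  induction n generalizing t τ with
  | zero => rfl
  | succ n ih =>
    simp only [Eit]
    have : L.Eit (t + 1) n (fun σ => C * f σ) = fun σ => C * L.Eit (t + 1) n f σ := by
      funext σ; exact ih (t + 1) σ
    rw [this]
    exact L.E_mul_left t (fun _ => C) _ τ (fun _ => rfl)

/-- the martingale of conditional expectations of a function depending on the levels `< T` -/
noncomputable def mart (T : ℕ) (f : (∀ j, Ω j) → ℝ≥0∞) (t : ℕ) : (∀ j, Ω j) → ℝ≥0∞ :=
  L.Eit t (T - t) f

lemma mart_step (T : ℕ) (f : (∀ j, Ω j) → ℝ≥0∞) (hf : DepBelow T f) (t : ℕ) (τ : ∀ j, Ω j) :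
    L.mart T f t τ = L.E t (L.mart T f (t + 1)) τ := by
  unfold mart
  by_cases h : t < T
  · obtain ⟨n, hn⟩ : ∃ n, T - t = n + 1 := ⟨T - t - 1, by omega⟩
    have h2 : T - (t + 1) = n := by omega
    rw [hn, h2]
    rfl
  · have h1 : T - t = 0 := by omega
    have h2 : T - (t + 1) = 0 := by omega
    rw [h1, h2]
    simp only [Eit]
    rw [L.E_of_indep t f τ (fun ω => hf.update (by omega) τ ω)]

/-- the greedy sequence of configurations -/
noncomputable def greedy (Φ : ℕ → (∀ j, Ω j) → ℝ≥0∞) (τ₀ : ∀ j, Ω j) : ℕ → (∀ j, Ω j)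
  | 0 => τ₀
  | t + 1 => Function.update (greedy Φ τ₀ t) t
      (Classical.choose (L.exists_le_E t (Φ (t + 1)) (greedy Φ τ₀ t)))

lemma greedy_mem (Φ : ℕ → (∀ j, Ω j) → ℝ≥0∞) (τ₀ : ∀ j, Ω j) (t : ℕ) :
    L.greedy Φ τ₀ (t + 1) t ∈ L.G t (L.greedy Φ τ₀ t) := by
  simp only [greedy, Function.update_self]
  exact (Classical.choose_spec (L.exists_le_E t (Φ (t + 1)) (L.greedy Φ τ₀ t))).1

lemma greedy_le (Φ : ℕ → (∀ j, Ω j) → ℝ≥0∞) (τ₀ : ∀ j, Ω j) (t : ℕ) :
    Φ (t + 1) (L.greedy Φ τ₀ (t + 1)) ≤ L.E t (Φ (t + 1)) (L.greedy Φ τ₀ t) := by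
  simp only [greedy]
  exact (Classical.choose_spec (L.exists_le_E t (Φ (t + 1)) (L.greedy Φ τ₀ t))).2

lemma greedy_stable (Φ : ℕ → (∀ j, Ω j) → ℝ≥0∞) (τ₀ : ∀ j, Ω j) (j n : ℕ) :
    L.greedy Φ τ₀ (j + 1 + n) j = L.greedy Φ τ₀ (j + 1) j := by
  induction n with
  | zero => rfl
  | succ n ih =>
    rw [← Nat.add_assoc]
    simp only [greedy]
    rw [Function.update_of_ne (by omega)]
    exact ih

/-- **Selection by conditional expectations.**  Countably (or arbitrarily) many nonnegative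
functions, each depending on finitely many levels: some admissible configuration makes their sum
at most the sum of their expectations. -/
theorem select {ι : Type*} (f : ι → (∀ j, Ω j) → ℝ≥0∞) (T : ι → ℕ)
    (hf : ∀ c, DepBelow (T c) (f c)) (τ₀ : ∀ j, Ω j) :
    ∃ τ : ∀ j, Ω j, (∀ t, τ t ∈ L.G t τ) ∧ ∑' c, f c τ ≤ ∑' c, L.Eit 0 (T c) (f c) τ₀ := by
  classical
  set Φ : ℕ → (∀ j, Ω j) → ℝ≥0∞ := fun t σ => ∑' c, L.mart (T c) (f c) t σ with hΦ
  have hstep : ∀ t σ, Φ t σ = L.E t (Φ (t + 1)) σ := by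
    intro t σ
    simp only [hΦ]
    rw [L.E_tsum]
    exact tsum_congr fun c => L.mart_step (T c) (f c) (hf c) t σ
  set γ := L.greedy Φ τ₀ with hγ
  set τ : ∀ j, Ω j := fun j => γ (j + 1) j with hτ
  have hagree : ∀ t j, j < t → τ j = γ t j := by
    intro t j hj
    obtain ⟨n, rfl⟩ : ∃ n, t = j + 1 + n := ⟨t - (j + 1), by omega⟩
    exact (L.greedy_stable Φ τ₀ j n).symm
  have hdecr : ∀ t, Φ t (γ t) ≤ Φ 0 τ₀ := by
    intro t
    induction t with
    | zero => exact le_refl _
    | succ t ih =>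
      calc Φ (t + 1) (γ (t + 1)) ≤ L.E t (Φ (t + 1)) (γ t) := L.greedy_le Φ τ₀ t
        _ = Φ t (γ t) := (hstep t _).symm
        _ ≤ _ := ih
  refine ⟨τ, ?_, ?_⟩
  · intro t
    have h1 : L.G t τ = L.G t (γ t) := L.dep t τ (γ t) (fun j hj => hagree t j hj)
    rw [h1]
    exact L.greedy_mem Φ τ₀ t
  · have h0 : Φ 0 τ₀ = ∑' c, L.Eit 0 (T c) (f c) τ₀ := by
      simp only [hΦ, mart, Nat.sub_zero]
    rw [← h0, ENNReal.tsum_eq_iSup_sum]
    apply iSup_le
    intro F
    set T' := F.sup T with hT'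
    calc ∑ c ∈ F, f c τ = ∑ c ∈ F, L.mart (T c) (f c) T' (γ T') := by
          apply Finset.sum_congr rfl
          intro c hc
          have hle : T c ≤ T' := Finset.le_sup hc
          have h1 : T c - T' = 0 := by omega
          simp only [mart, h1, Eit]
          exact hf c τ (γ T') (fun j hj => hagree T' j (by omega))
      _ ≤ Φ T' (γ T') := ENNReal.sum_le_tsum F
      _ ≤ Φ 0 τ₀ := hdecr T'

/-- the history below `t` can be extended to a configuration in `A` -/
def Proj (A : (∀ j, Ω j) → Prop) (t : ℕ) (τ : ∀ j, Ω j) : Prop :=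
  ∃ τ', A τ' ∧ ∀ j, j < t → τ' j = τ j

open Classical in
/-- indicator -/
noncomputable def ind (A : (∀ j, Ω j) → Prop) (τ : ∀ j, Ω j) : ℝ≥0∞ := if A τ then 1 else 0

omit L in
lemma ind_le_one (A : (∀ j, Ω j) → Prop) (τ : ∀ j, Ω j) : ind A τ ≤ 1 := by
  unfold ind; split_ifs <;> simp

/-- **Predictable accumulated rank** (`lem:pruning-rank-process`), projection form.
`c t τ` is a bound, depending only on the history below `t`, for the conditional probability that
the history can still be extended to `A` after level `t` has been exposed. -/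
theorem rank_bound (A : (∀ j, Ω j) → Prop) (T : ℕ) (c : ℕ → (∀ j, Ω j) → ℝ≥0∞)
    (hcdep : ∀ t, DepBelow t (c t)) (hc0 : ∀ t τ, c t τ ≠ 0) (hctop : ∀ t τ, c t τ ≠ ⊤)
    (htest : ∀ t, t < T → ∀ τ, L.E t (ind (Proj A (t + 1))) τ ≤ c t τ)
    (C : ℝ≥0∞) (hC : ∀ τ, A τ → ∏ t ∈ Finset.range T, c t τ ≤ C) (τ₀ : ∀ j, Ω j) :
    L.Eit 0 T (ind A) τ₀ ≤ C := by
  classical
  set W : ℕ → (∀ j, Ω j) → ℝ≥0∞ := fun t τ => ∏ j ∈ Finset.range t, (c j τ)⁻¹ with hW
  have hWdep : ∀ t, DepBelow t (W t) := by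
    intro t τ τ' h
    simp only [hW]
    apply Finset.prod_congr rfl
    intro j hj
    rw [Finset.mem_range] at hj
    rw [hcdep j τ τ' (fun i hi => h i (by omega))]
  have key : ∀ n t, t + n = T → ∀ τ,
      L.Eit t n (fun σ => ind A σ * W T σ) τ ≤ ind (Proj A t) τ * W t τ := by
    intro n
    induction n with
    | zero =>
      intro t ht τ
      have : t = T := by omega
      subst this
      simp only [Eit]
      apply mul_le_mul_left
      unfold ind
      by_cases hA : A τ
      · have : Proj A t τ := ⟨τ, hA, fun _ _ => rfl⟩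
        simp [hA, this]
      · simp [hA]
    | succ n ih =>
      intro t ht τ
      simp only [Eit]
      have h1 : L.E t (L.Eit (t + 1) n (fun σ => ind A σ * W T σ)) τ
          ≤ L.E t (fun σ => W (t + 1) σ * ind (Proj A (t + 1)) σ) τ := by
        apply L.E_mono
        intro σ
        rw [mul_comm (W (t + 1) σ)]
        exact ih (t + 1) (by omega) σ
      have h2 : ∀ ω, W (t + 1) (Function.update τ t ω) = W (t + 1) τ := by
        intro ω
        simp only [hW]
        apply Finset.prod_congr rfl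
        intro j hj
        rw [Finset.mem_range] at hj
        rw [(hcdep j).update (by omega) τ ω]
      rw [L.E_mul_left t (W (t + 1)) _ τ h2] at h1
      refine le_trans h1 ?_
      by_cases hP : Proj A t τ
      · have h3 : ind (Proj A t) τ = 1 := by simp [ind, hP]
        rw [h3, one_mul]
        have h4 : W (t + 1) τ = W t τ * (c t τ)⁻¹ := by
          simp only [hW, Finset.prod_range_succ]
        rw [h4, mul_assoc]
        calc W t τ * ((c t τ)⁻¹ * L.E t (ind (Proj A (t + 1))) τ)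
            ≤ W t τ * ((c t τ)⁻¹ * c t τ) := by
              gcongr
              exact htest t (by omega) τ
          _ = W t τ := by
              rw [ENNReal.inv_mul_cancel (hc0 t τ) (hctop t τ), mul_one]
      · have h3 : L.E t (ind (Proj A (t + 1))) τ = 0 := by
          unfold E
          rw [ENNReal.div_eq_zero_iff]
          left
          apply Finset.sum_eq_zero
          intro ω _
          unfold ind
          rw [if_neg]
          rintro ⟨τ', hA, hag⟩
          apply hP
          refine ⟨τ', hA, fun j hj => ?_⟩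
          rw [hag j (by omega), Function.update_of_ne (by omega)]
        rw [h3, mul_zero]
        exact zero_le
  have hfin : ∀ σ, ind A σ ≤ C * (ind A σ * W T σ) := by
    intro σ
    unfold ind
    by_cases hA : A σ
    · simp only [hA, if_true, one_mul]
      have h1 := hC σ hA
      have h2 : W T σ = (∏ t ∈ Finset.range T, c t σ)⁻¹ := by
        simp only [hW]
        rw [ENNReal.prod_inv_distrib]
        intro i _ j _ _
        left
        exact hc0 i σ
      have h3 : (∏ t ∈ Finset.range T, c t σ) ≠ 0 := by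
        rw [Finset.prod_ne_zero_iff]
        intro t _
        exact hc0 t σ
      have h4 : (∏ t ∈ Finset.range T, c t σ) ≠ ⊤ :=
        ENNReal.prod_ne_top (fun t _ => hctop t σ)
      rw [h2]
      calc (1 : ℝ≥0∞) = (∏ t ∈ Finset.range T, c t σ) * (∏ t ∈ Finset.range T, c t σ)⁻¹ :=
            (ENNReal.mul_inv_cancel h3 h4).symm
        _ ≤ _ := by gcongr
    · simp [hA]
  calc L.Eit 0 T (ind A) τ₀ ≤ L.Eit 0 T (fun σ => C * (ind A σ * W T σ)) τ₀ :=
        L.Eit_mono 0 T hfin τ₀
    _ = C * L.Eit 0 T (fun σ => ind A σ * W T σ) τ₀ := L.Eit_const_mul 0 T C _ τ₀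
    _ ≤ C * (ind (Proj A 0) τ₀ * W 0 τ₀) := by
        gcongr
        exact key T 0 (by omega) τ₀
    _ ≤ C * (1 * 1) := by
        gcongr
        · exact ind_le_one _ _
        · simp [hW]
    _ = C := by simp

end SeqLaw

/-! ### Values of distinct uniform permutation tables at known arguments -/

section tables

variable {I : Type*} [Fintype I] [DecidableEq I] {C : I → Type*} [∀ i, Fintype (C i)]
  [∀ i, DecidableEq (C i)]

/-- **One fresh table.**  `F` and the set `A ω` of allowed values do not depend on the table `i₀`;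
the value of the table `i₀` at the argument `x` is uniform. -/
theorem pr_fresh (i₀ : I) (x : C i₀) (F : (∀ i, Equiv.Perm (C i)) → Prop) [DecidablePred F]
    (A : (∀ i, Equiv.Perm (C i)) → Finset (C i₀))
    (hF : ∀ ω π, F (Function.update ω i₀ π) ↔ F ω)
    (hA : ∀ ω π, A (Function.update ω i₀ π) = A ω) (m : ℕ)
    (hm : ∀ ω, (A ω).card * m ≤ Fintype.card (C i₀)) :
    (univ.filter fun ω => F ω ∧ ω i₀ x ∈ A ω).card * m ≤ (univ.filter fun ω => F ω).card := by
  classical
  -- injection (ω, c) ↦ (ω with value c at x, old value)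
  set S := univ.filter fun ω : ∀ i, Equiv.Perm (C i) => F ω ∧ ω i₀ x ∈ A ω with hS
  set R := (univ.filter fun ω : ∀ i, Equiv.Perm (C i) => F ω).sigma (fun ω => A ω) with hR
  have hinj : (S ×ˢ (univ : Finset (C i₀))).card ≤ R.card := by
    apply Finset.card_le_card_of_injOn
      (fun z => (⟨Function.update z.1 i₀ (Equiv.swap (z.1 i₀ x) z.2 * z.1 i₀), z.1 i₀ x⟩ :
        Σ _ : (∀ i, Equiv.Perm (C i)), C i₀))
    · intro z hz
      simp only [hS, Finset.coe_product, Set.mem_prod, Finset.mem_coe, Finset.mem_filter,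
        Finset.mem_univ, true_and, and_true] at hz
      simp only [hR, Finset.coe_sigma, Finset.mem_coe, Set.mem_sigma_iff, Finset.mem_filter,
        Finset.mem_univ, true_and]
      exact ⟨(hF _ _).2 hz.1, by rw [hA]; exact hz.2⟩
    · intro z _ z' _ hzz
      simp only [Sigma.mk.injEq, heq_eq_eq] at hzz
      obtain ⟨h1, h2⟩ := hzz
      have h3 : ∀ i, i ≠ i₀ → z.1 i = z'.1 i := by
        intro i hi
        have := congrFun h1 i
        rwa [Function.update_of_ne hi, Function.update_of_ne hi] at this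
      have h4 : Equiv.swap (z.1 i₀ x) z.2 * z.1 i₀ = Equiv.swap (z'.1 i₀ x) z'.2 * z'.1 i₀ := by
        have := congrFun h1 i₀
        rwa [Function.update_self, Function.update_self] at this
      have h5 : z.2 = z'.2 := by
        have := congrArg (fun π : Equiv.Perm (C i₀) => π x) h4
        simpa using this
      have h6 : z.1 i₀ = z'.1 i₀ := by
        rw [h2, h5] at h4
        exact mul_left_cancel h4
      apply Prod.ext _ h5
      funext i
      by_cases hi : i = i₀
      · subst hi; exact h6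
      · exact h3 i hi
  rw [Finset.card_product, Finset.card_univ, Finset.card_sigma] at hinj
  have hpos : 0 < Fintype.card (C i₀) := Fintype.card_pos_iff.2 ⟨x⟩
  have h7 : (∑ ω ∈ univ.filter fun ω : ∀ i, Equiv.Perm (C i) => F ω, (A ω).card) * m
      ≤ (univ.filter fun ω : ∀ i, Equiv.Perm (C i) => F ω).card * Fintype.card (C i₀) := by
    rw [Finset.sum_mul, Finset.card_eq_sum_ones, Finset.sum_mul]
    apply Finset.sum_le_sum
    intro ω _
    rw [one_mul]
    exact hm ω
  have h8 : S.card * m * Fintype.card (C i₀)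
      ≤ (univ.filter fun ω : ∀ i, Equiv.Perm (C i) => F ω).card * Fintype.card (C i₀) := by
    calc S.card * m * Fintype.card (C i₀) = S.card * Fintype.card (C i₀) * m := by ring
      _ ≤ (∑ ω ∈ univ.filter fun ω : ∀ i, Equiv.Perm (C i) => F ω, (A ω).card) * m :=
          Nat.mul_le_mul_right _ hinj
      _ ≤ _ := h7
  exact Nat.le_of_mul_le_mul_right h8 hpos

/-- **A family of tests with pairwise distinct fresh tables.**  Test `n` asks that the value of
the table `key n` at `arg n` lies in `A n ω`, where `A n ω` depends on none of the fresh tables. -/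
theorem pr_tests {J : Type*} [DecidableEq J] (N : Finset J) (key : J → I)
    (hkey : ∀ n ∈ N, ∀ n' ∈ N, key n = key n' → n = n') (arg : ∀ n, C (key n))
    (A : ∀ n, (∀ i, Equiv.Perm (C i)) → Finset (C (key n)))
    (hA : ∀ n ∈ N, ∀ n' ∈ N, ∀ ω π, A n (Function.update ω (key n') π) = A n ω)
    (r : J → ℕ) (hr : ∀ n ∈ N, ∀ ω, (A n ω).card * 2 ^ r n ≤ Fintype.card (C (key n))) :
    (univ.filter fun ω : ∀ i, Equiv.Perm (C i) => ∀ n ∈ N, ω (key n) (arg n) ∈ A n ω).card
        * 2 ^ (∑ n ∈ N, r n) ≤ Fintype.card (∀ i, Equiv.Perm (C i)) := by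
  classical
  induction N using Finset.induction_on with
  | empty => simp
  | insert n₀ N hn₀ ih =>
    have ih' := ih (fun n hn n' hn' => hkey n (Finset.mem_insert_of_mem hn) n'
        (Finset.mem_insert_of_mem hn'))
      (fun n hn n' hn' => hA n (Finset.mem_insert_of_mem hn) n' (Finset.mem_insert_of_mem hn'))
      (fun n hn => hr n (Finset.mem_insert_of_mem hn))
    have hfr := pr_fresh (key n₀) (arg n₀)
      (fun ω : ∀ i, Equiv.Perm (C i) => ∀ n ∈ N, ω (key n) (arg n) ∈ A n ω) (A n₀)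
      (by
        intro ω π
        apply forall₂_congr
        intro n hn
        have hne : key n ≠ key n₀ := by
          intro h
          have := hkey n (Finset.mem_insert_of_mem hn) n₀ (Finset.mem_insert_self _ _) h
          exact hn₀ (this ▸ hn)
        rw [Function.update_of_ne hne,
          hA n (Finset.mem_insert_of_mem hn) n₀ (Finset.mem_insert_self _ _)])
      (fun ω π => hA n₀ (Finset.mem_insert_self _ _) n₀ (Finset.mem_insert_self _ _) ω π)
      (2 ^ r n₀) (hr n₀ (Finset.mem_insert_self _ _))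
    have heq : (univ.filter fun ω : ∀ i, Equiv.Perm (C i) =>
          ∀ n ∈ insert n₀ N, ω (key n) (arg n) ∈ A n ω)
        = univ.filter fun ω : ∀ i, Equiv.Perm (C i) =>
          (∀ n ∈ N, ω (key n) (arg n) ∈ A n ω) ∧ ω (key n₀) (arg n₀) ∈ A n₀ ω := by
      apply Finset.filter_congr
      intro ω _
      rw [Finset.forall_mem_insert, and_comm]
    rw [heq, Finset.sum_insert hn₀, pow_add, ← mul_assoc]
    calc _ ≤ (univ.filter fun ω : ∀ i, Equiv.Perm (C i) =>
          ∀ n ∈ N, ω (key n) (arg n) ∈ A n ω).card * 2 ^ (∑ n ∈ N, r n) :=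
          Nat.mul_le_mul_right _ hfr
      _ ≤ _ := ih'

end tables

/-! ### Sequential laws on permutation tables with the domination property -/

section keylaw

variable (I : ℕ → Type u) [∀ t, Fintype (I t)] [∀ t, DecidableEq (I t)]
  (C : ∀ t, I t → Type u) [∀ t i, Fintype (C t i)] [∀ t i, DecidableEq (C t i)]

/-- A sequential law on systems of permutation tables such that, at every level and for every
history, an event depending on the tables in `S` has conditional probability at most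
`exp (ε |S|)` times its probability under the uniform product law
(`prop:sequential-law`, `eq:pruning-current-domination`). -/
structure KeyLaw (ε : ℝ) where
  seq : SeqLaw (fun t => ∀ i : I t, Equiv.Perm (C t i))
  dom : ∀ (t : ℕ) (τ : ∀ j, ∀ i : I j, Equiv.Perm (C j i)) (S : Finset (I t))
    (F : (∀ i : I t, Equiv.Perm (C t i)) → Prop) [DecidablePred F],
    (∀ ω ω', (∀ i ∈ S, ω i = ω' i) → (F ω ↔ F ω')) →
    (((seq.G t τ).filter F).card : ℝ) * (Fintype.card (∀ i : I t, Equiv.Perm (C t i)) : ℝ)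
      ≤ Real.exp (ε * S.card) * (((univ.filter F).card : ℝ) * ((seq.G t τ).card : ℝ))

variable {I C}

/-- Bound for one conditional probability: the event `B` (after exposing level `t`) implies an
event `F` on the tables in `S`, whose uniform probability is at most `2^-R`. -/
theorem KeyLaw.test_bound {ε : ℝ} (L : KeyLaw I C ε) (t : ℕ)
    (τ : ∀ j, ∀ i : I j, Equiv.Perm (C j i)) (B : (∀ j, ∀ i : I j, Equiv.Perm (C j i)) → Prop)
    (S : Finset (I t)) (F : (∀ i : I t, Equiv.Perm (C t i)) → Prop) [DecidablePred F]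
    (hF : ∀ ω ω', (∀ i ∈ S, ω i = ω' i) → (F ω ↔ F ω'))
    (hBF : ∀ ω ∈ L.seq.G t τ, B (Function.update τ t ω) → F ω) (R : ℕ)
    (hR : (univ.filter F).card * 2 ^ R ≤ Fintype.card (∀ i : I t, Equiv.Perm (C t i))) :
    L.seq.E t (SeqLaw.ind B) τ ≤ ENNReal.ofReal (Real.exp (ε * S.card) / 2 ^ R) := by
  classical
  have hG : 0 < ((L.seq.G t τ).card : ℝ) := by exact_mod_cast (L.seq.ne t τ).card_pos
  have hΩ : 0 < (Fintype.card (∀ i : I t, Equiv.Perm (C t i)) : ℝ) := by
    exact_mod_cast Fintype.card_pos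
  have h1 : ∑ ω ∈ L.seq.G t τ, SeqLaw.ind B (Function.update τ t ω)
      ≤ (((L.seq.G t τ).filter F).card : ℝ≥0∞) := by
    rw [Finset.card_filter]
    push_cast
    apply Finset.sum_le_sum
    intro ω hω
    unfold SeqLaw.ind
    by_cases hB : B (Function.update τ t ω)
    · simp [hB, hBF ω hω hB]
    · simp [hB]
  have h2 : (((L.seq.G t τ).filter F).card : ℝ) / ((L.seq.G t τ).card : ℝ)
      ≤ Real.exp (ε * S.card) / 2 ^ R := by
    have hd := L.dom t τ S F hF
    have hR' : ((univ.filter F).card : ℝ) * 2 ^ R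
        ≤ (Fintype.card (∀ i : I t, Equiv.Perm (C t i)) : ℝ) := by exact_mod_cast hR
    rw [div_le_div_iff₀ hG (by positivity)]
    have he : 0 ≤ Real.exp (ε * S.card) := (Real.exp_pos _).le
    have h3 : (((L.seq.G t τ).filter F).card : ℝ) * 2 ^ R *
        (Fintype.card (∀ i : I t, Equiv.Perm (C t i)) : ℝ)
        ≤ Real.exp (ε * S.card) * ((L.seq.G t τ).card : ℝ) *
          (Fintype.card (∀ i : I t, Equiv.Perm (C t i)) : ℝ) := by
      calc (((L.seq.G t τ).filter F).card : ℝ) * 2 ^ R *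
            (Fintype.card (∀ i : I t, Equiv.Perm (C t i)) : ℝ)
          = ((((L.seq.G t τ).filter F).card : ℝ) *
            (Fintype.card (∀ i : I t, Equiv.Perm (C t i)) : ℝ)) * 2 ^ R := by ring
        _ ≤ (Real.exp (ε * S.card) * (((univ.filter F).card : ℝ) * ((L.seq.G t τ).card : ℝ)))
            * 2 ^ R := by gcongr
        _ = Real.exp (ε * S.card) * ((L.seq.G t τ).card : ℝ) *
            (((univ.filter F).card : ℝ) * 2 ^ R) := by ring
        _ ≤ _ := by gcongr
    exact le_of_mul_le_mul_right h3 hΩ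
  unfold SeqLaw.E
  calc (∑ ω ∈ L.seq.G t τ, SeqLaw.ind B (Function.update τ t ω)) / ((L.seq.G t τ).card : ℝ≥0∞)
      ≤ (((L.seq.G t τ).filter F).card : ℝ≥0∞) / ((L.seq.G t τ).card : ℝ≥0∞) :=
        ENNReal.div_le_div_right h1 _
    _ = ENNReal.ofReal ((((L.seq.G t τ).filter F).card : ℝ) / ((L.seq.G t τ).card : ℝ)) := by
        rw [ENNReal.ofReal_div_of_pos hG, ENNReal.ofReal_natCast, ENNReal.ofReal_natCast]
    _ ≤ _ := ENNReal.ofReal_le_ofReal h2

/-- **A level with a family of tests.**  Test `n` asks that the value of the fresh table `keyF n` at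
`arg n` lies in a set `Al n ω` which depends only on the tables in `keyO n`; no fresh table occurs
in any `keyO`.  If the event `B` implies all tests then its conditional probability is at most
`exp (ε k₁ |N|) / 2 ^ (∑ r)`. -/
theorem KeyLaw.tests_bound {ε : ℝ} (L : KeyLaw I C ε) (hε : 0 ≤ ε) (t : ℕ)
    (τ : ∀ j, ∀ i : I j, Equiv.Perm (C j i)) (B : (∀ j, ∀ i : I j, Equiv.Perm (C j i)) → Prop)
    {J : Type*} [DecidableEq J] (N : Finset J) (keyF : J → I t)
    (hkey : ∀ n ∈ N, ∀ n' ∈ N, keyF n = keyF n' → n = n') (arg : ∀ n, C t (keyF n))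
    (Al : ∀ n, (∀ i : I t, Equiv.Perm (C t i)) → Finset (C t (keyF n)))
    (keyO : J → Finset (I t))
    (hdep : ∀ n ∈ N, ∀ ω ω' : ∀ i : I t, Equiv.Perm (C t i),
      (∀ i ∈ keyO n, ω i = ω' i) → Al n ω = Al n ω')
    (hfresh : ∀ n ∈ N, ∀ n' ∈ N, keyF n' ∉ keyO n)
    (r : J → ℕ) (hr : ∀ n ∈ N, ∀ ω, (Al n ω).card * 2 ^ r n ≤ Fintype.card (C t (keyF n)))
    (hB : ∀ ω ∈ L.seq.G t τ, B (Function.update τ t ω) → ∀ n ∈ N, ω (keyF n) (arg n) ∈ Al n ω)
    (k₁ : ℕ) (hk : ∀ n ∈ N, (keyO n).card + 1 ≤ k₁) :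
    L.seq.E t (SeqLaw.ind B) τ
      ≤ ENNReal.ofReal (Real.exp (ε * ((k₁ * N.card : ℕ) : ℝ)) / 2 ^ (∑ n ∈ N, r n)) := by
  classical
  set S : Finset (I t) := N.biUnion fun n => insert (keyF n) (keyO n) with hS
  have hScard : S.card ≤ k₁ * N.card := by
    calc S.card ≤ ∑ n ∈ N, (insert (keyF n) (keyO n)).card := Finset.card_biUnion_le
      _ ≤ ∑ n ∈ N, k₁ := by
          apply Finset.sum_le_sum
          intro n hn
          exact le_trans (Finset.card_insert_le _ _) (hk n hn)
      _ = k₁ * N.card := by rw [Finset.sum_const, smul_eq_mul, Nat.mul_comm]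
  have h1 := L.test_bound t τ B S
    (fun ω : ∀ i : I t, Equiv.Perm (C t i) => ∀ n ∈ N, ω (keyF n) (arg n) ∈ Al n ω)
    (by
      intro ω ω' hω
      apply forall₂_congr
      intro n hn
      have e1 : ω (keyF n) = ω' (keyF n) :=
        hω _ (Finset.mem_biUnion.2 ⟨n, hn, Finset.mem_insert_self _ _⟩)
      have e2 : Al n ω = Al n ω' := hdep n hn ω ω' (fun i hi =>
        hω _ (Finset.mem_biUnion.2 ⟨n, hn, Finset.mem_insert_of_mem hi⟩))
      rw [e1, e2])
    hB (∑ n ∈ N, r n)
    (pr_tests N keyF hkey arg Al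
      (by
        intro n hn n' hn' ω π
        apply hdep n hn
        intro i hi
        rw [Function.update_of_ne]
        rintro rfl
        exact hfresh n hn n' hn' hi)
      r hr)
  refine le_trans h1 (ENNReal.ofReal_le_ofReal ?_)
  apply div_le_div_of_nonneg_right _ (by positivity)
  apply Real.exp_le_exp.2
  apply mul_le_mul_of_nonneg_left _ hε
  exact_mod_cast hScard

/-- `lem:pruning-rank-process` with natural-number valued predictable ranks `R t τ` and numbers of
tables `k t τ`. -/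
theorem KeyLaw.rank_bound_nat {ε : ℝ} (L : KeyLaw I C ε) (hε : 0 ≤ ε)
    (A : (∀ j, ∀ i : I j, Equiv.Perm (C j i)) → Prop) (T : ℕ)
    (k R : ℕ → (∀ j, ∀ i : I j, Equiv.Perm (C j i)) → ℕ)
    (hk : ∀ t, DepBelow t (k t)) (hR : ∀ t, DepBelow t (R t))
    (htest : ∀ t, t < T → ∀ τ, L.seq.E t (SeqLaw.ind (SeqLaw.Proj A (t + 1))) τ
      ≤ ENNReal.ofReal (Real.exp (ε * (k t τ : ℝ)) / 2 ^ (R t τ)))
    (K R₀ : ℕ)
    (hA : ∀ τ, A τ → ∑ t ∈ Finset.range T, k t τ ≤ K ∧ R₀ ≤ ∑ t ∈ Finset.range T, R t τ)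
    (τ₀ : ∀ j, ∀ i : I j, Equiv.Perm (C j i)) :
    L.seq.Eit 0 T (SeqLaw.ind A) τ₀ ≤ ENNReal.ofReal (Real.exp (ε * (K : ℝ)) / 2 ^ R₀) := by
  apply L.seq.rank_bound A T
    (fun t τ => ENNReal.ofReal (Real.exp (ε * (k t τ : ℝ)) / 2 ^ (R t τ)))
  · intro t τ τ' h
    simp only
    rw [hk t τ τ' h, hR t τ τ' h]
  · intro t τ
    simp only [ne_eq, ENNReal.ofReal_eq_zero, not_le]
    positivity
  · intro t τ
    exact ENNReal.ofReal_ne_top
  · exact htest
  · intro τ hτ
    obtain ⟨h1, h2⟩ := hA τ hτ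
    rw [← ENNReal.ofReal_prod_of_nonneg (fun t _ => by positivity)]
    apply ENNReal.ofReal_le_ofReal
    rw [Finset.prod_div_distrib, ← Real.exp_sum, Finset.prod_pow_eq_pow_sum, ← Finset.mul_sum]
    apply div_le_div₀ (Real.exp_pos _).le _ (by positivity)
    · exact pow_le_pow_right₀ (by norm_num) h2
    · apply Real.exp_le_exp.2
      apply mul_le_mul_of_nonneg_left _ hε
      exact_mod_cast h1

end keylaw

end Claimed.Agent.R300.PrProb
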