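import Claimed.Agent.R300.ScAlg

/-!
# Row 300: the ping-pong lower bound of the scalar compression (KK Prop. 2.2)

`ScPingPong Γ K N` records the only facts about `K = Γ * F_N` that the analytic argument uses.
-/

set_option autoImplicit false

namespace Claimed.Agent.R300

open scoped ENNReal ComplexConjugate InnerProductSpace

/-- The combinatorial input of the scalar compression: a group `K ⊇ Γ` with a transversal
(`φ : K ≃ Y × Γ`, left `Γ`-equivariant) and elements `t j` which play ping-pong. -/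
structure ScPingPong (Γ K : Type) [Group Γ] [Group K] (N : ℕ) where
  ι : Γ →* K
  Y : Type
  φ : K ≃ Y × Γ
  φ_mul : ∀ g k, φ (ι g * k) = ((φ k).1, g * (φ k).2)
  φ_one : (φ 1).2 = 1
  t : Fin N → K
  Bad : Fin N → Set K
  bad_snd : ∀ j x, x ∈ Bad j → (φ x).2 = 1
  bad_unique : ∀ j j' x, x ∈ Bad j → x ∈ Bad j' → j = j'
  good_inj : ∀ j j' x x', x ∉ Bad j → x' ∉ Bad j' → t j * x = t j' * x' → j = j'

theorem sc_real_bound {a E g b R : ℝ} (ha0 : 0 ≤ a) (ha : a < 1 / 2) (hE : 0 ≤ E)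
    (hg : (1 - a) * E ≤ g ^ 2) (hg0 : 0 ≤ g) (hb : b ^ 2 ≤ a * E)
    (hR : g - b ≤ R) : (√(1 - a) - √a) ^ 2 * E ≤ R ^ 2 := by
  have h1 : √(1 - a) * √E ≤ g := by
    rw [← Real.sqrt_mul (by linarith)]
    exact (Real.sqrt_le_sqrt hg).trans (by rw [Real.sqrt_sq hg0])
  have h2 : b ≤ √a * √E := by
    rw [← Real.sqrt_mul ha0]
    exact Real.le_sqrt_of_sq_le hb
  have h3 : √a ≤ √(1 - a) := Real.sqrt_le_sqrt (by linarith)
  have h4 : 0 ≤ (√(1 - a) - √a) * √E := mul_nonneg (sub_nonneg.mpr h3) (Real.sqrt_nonneg _)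
  have h5 : (√(1 - a) - √a) * √E ≤ R := by nlinarith
  calc (√(1 - a) - √a) ^ 2 * E = ((√(1 - a) - √a) * √E) ^ 2 := by
        rw [mul_pow, Real.sq_sqrt hE]
    _ ≤ R ^ 2 := pow_le_pow_left₀ h4 h5 2

theorem sc_real_pos {a : ℝ} (ha0 : 0 ≤ a) (ha : a < 1 / 2) : 0 < (√(1 - a) - √a) ^ 2 := by
  have h3 : √a < √(1 - a) := Real.sqrt_lt_sqrt ha0 (by linarith)
  have : 0 < √(1 - a) - √a := sub_pos.mpr h3
  positivity

section Gamma

variable {Γ : Type} [Group Γ] {N : ℕ} {p : Fin N → Fin N → ScL2 Γ →L[ℂ] ScL2 Γ}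

theorem sc_diag_trace (hpstar : ∀ j k, star (p j k) = p k j)
    (hpp : ∀ j k, ∑ l, p j l * p l k = p j k) (j : Fin N) :
    scTr (p j j) = ((∑ k, ‖p k j (scDelta 1)‖ ^ 2 : ℝ) : ℂ) := by
  rw [scTr_eq_inner, ← hpp j j, Complex.ofReal_sum]
  simp only [FunLike.coe_sum, Finset.sum_apply, inner_sum]
  refine Finset.sum_congr rfl fun k _ => ?_
  change ⟪scDelta 1, p j k (p k j (scDelta 1))⟫_ℂ = _
  rw [← ContinuousLinearMap.adjoint_inner_left, ← ContinuousLinearMap.star_eq_adjoint, hpstar,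
    inner_self_eq_norm_sq_to_K]
  simp

theorem sc_point_bound (hpstar : ∀ j k, star (p j k) = p k j) (j : Fin N)
    (η : Fin N → ScL2 Γ) :
    ‖(∑ k, p j k (η k)) 1‖ ^ 2 ≤ (∑ k, ‖p k j (scDelta 1)‖ ^ 2) * ∑ k, ‖η k‖ ^ 2 := by
  have h1 : (∑ k, p j k (η k)) 1 = ∑ k, ⟪p k j (scDelta 1), η k⟫_ℂ := by
    rw [← sc_inner_delta_left, inner_sum]
    refine Finset.sum_congr rfl fun k _ => ?_
    rw [← ContinuousLinearMap.adjoint_inner_left, ← ContinuousLinearMap.star_eq_adjoint, hpstar]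
  rw [h1]
  have h2 : ‖∑ k, ⟪p k j (scDelta 1), η k⟫_ℂ‖ ≤ ∑ k, ‖p k j (scDelta 1)‖ * ‖η k‖ :=
    (norm_sum_le _ _).trans (Finset.sum_le_sum fun k _ => norm_inner_le_norm _ _)
  exact (pow_le_pow_left₀ (norm_nonneg _) h2 2).trans (Finset.sum_mul_sq_le_sq_mul_sq _ _ _)

end Gamma

section Main

variable {Γ K : Type} [Group Γ] [Group K] {N : ℕ} (D : ScPingPong Γ K N)
  {p : Fin N → Fin N → ScL2 Γ →L[ℂ] ScL2 Γ}

/-- The set of transversal points that are bad for `j`. -/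
def ScPingPong.badY (j : Fin N) : Set D.Y := {y | D.φ.symm (y, 1) ∈ D.Bad j}

/-- The mass of the tuple `ξ` on the coset `y`. -/
noncomputable def ScPingPong.mass (ξ : Fin N → ScL2 K) (y : D.Y) : ℝ :=
  ∑ k, ‖scSlice D.φ y (ξ k)‖ ^ 2

theorem ScPingPong.mass_nonneg (ξ : Fin N → ScL2 K) (y : D.Y) : 0 ≤ D.mass ξ y :=
  Finset.sum_nonneg fun _ _ => by positivity

theorem ScPingPong.mass_hasSum (ξ : Fin N → ScL2 K) :
    HasSum (D.mass ξ) (∑ k, ‖ξ k‖ ^ 2) :=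
  hasSum_sum fun k _ => scSlice_hasSum_sq D.φ (ξ k)

theorem ScPingPong.slice_bad_norm_sq (j : Fin N) (ζ : ScL2 K) (y : D.Y) :
    ‖scSlice D.φ y (scRestr (D.Bad j) ζ)‖ ^ 2 =
      (D.badY j).indicator (fun y => ‖ζ (D.φ.symm (y, 1))‖ ^ 2) y := by
  rw [scL2_norm_sq, tsum_eq_single (1 : Γ)]
  · rw [scSlice_apply]
    by_cases hy : y ∈ D.badY j
    · rw [Set.indicator_of_mem hy,
        scRestr_apply_mem _ (show D.φ.symm (y, 1) ∈ D.Bad j from hy)]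
    · rw [Set.indicator_of_notMem hy,
        scRestr_apply_not_mem _ (show D.φ.symm (y, 1) ∉ D.Bad j from hy)]
      simp
  · intro γ hγ
    rw [scSlice_apply, scRestr_apply_not_mem]
    · simp
    · intro hbad
      have := D.bad_snd j _ hbad
      simp at this
      exact hγ this

theorem ScPingPong.point_bound (hpstar : ∀ j k, star (p j k) = p k j)
    (ξ : Fin N → ScL2 K) (hξ : ∀ j, ∑ l, scAmp D.φ (p j l) (ξ l) = ξ j) (j : Fin N) (y : D.Y) :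
    ‖ξ j (D.φ.symm (y, 1))‖ ^ 2 ≤ (∑ k, ‖p k j (scDelta 1)‖ ^ 2) * D.mass ξ y := by
  have h1 : ξ j (D.φ.symm (y, 1)) = (∑ l, p j l (scSlice D.φ y (ξ l))) 1 := by
    rw [← scSlice_apply, ← hξ j, map_sum]
    simp only [scSlice_amp]
  rw [h1]
  exact sc_point_bound hpstar j _

theorem ScPingPong.bad_norm_sq_le (hpstar : ∀ j k, star (p j k) = p k j)
    (ξ : Fin N → ScL2 K) (hξ : ∀ j, ∑ l, scAmp D.φ (p j l) (ξ l) = ξ j) (j : Fin N) :
    ‖scRestr (D.Bad j) (ξ j)‖ ^ 2 ≤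
      (∑ k, ‖p k j (scDelta 1)‖ ^ 2) * ∑' y, (D.badY j).indicator (D.mass ξ) y := by
  refine hasSum_le (fun y => ?_) (scSlice_hasSum_sq D.φ (scRestr (D.Bad j) (ξ j)))
    (((D.mass_hasSum ξ).summable.indicator (D.badY j)).hasSum.mul_left _)
  rw [D.slice_bad_norm_sq]
  by_cases hy : y ∈ D.badY j
  · rw [Set.indicator_of_mem hy, Set.indicator_of_mem hy]
    exact D.point_bound hpstar ξ hξ j y
  · rw [Set.indicator_of_notMem hy, Set.indicator_of_notMem hy, mul_zero]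

theorem ScPingPong.sum_bad_mass_le (ξ : Fin N → ScL2 K) :
    ∑ j, ∑' y, (D.badY j).indicator (D.mass ξ) y ≤ ∑ k, ‖ξ k‖ ^ 2 := by
  have hs : ∀ j ∈ Finset.univ, Summable ((D.badY j).indicator (D.mass ξ)) := fun j _ =>
    (D.mass_hasSum ξ).summable.indicator (D.badY j)
  rw [← Summable.tsum_finsetSum hs, ← (D.mass_hasSum ξ).tsum_eq]
  refine Summable.tsum_le_tsum (fun y => ?_) (summable_sum hs) (D.mass_hasSum ξ).summable
  by_cases h : ∃ j, y ∈ D.badY j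
  · obtain ⟨j0, hj0⟩ := h
    rw [Finset.sum_eq_single j0]
    · rw [Set.indicator_of_mem hj0]
    · intro j _ hj
      refine Set.indicator_of_notMem (fun hy => hj ?_) _
      exact D.bad_unique _ _ _ hy hj0
    · intro h; exact absurd (Finset.mem_univ _) h
  · have : ∀ j ∈ Finset.univ, (D.badY j).indicator (D.mass ξ) y = 0 := fun j _ =>
      Set.indicator_of_notMem (fun hy => h ⟨j, hy⟩) _
    rw [Finset.sum_eq_zero this]
    exact D.mass_nonneg ξ y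

theorem ScPingPong.good_norm_sq (ξ : Fin N → ScL2 K) :
    ‖∑ j, scLam (D.t j) (scRestr (D.Bad j)ᶜ (ξ j))‖ ^ 2 =
      ∑ j, ‖scRestr (D.Bad j)ᶜ (ξ j)‖ ^ 2 := by
  rw [sc_norm_sq_sum_of_disjoint]
  · exact Finset.sum_congr rfl fun j _ => by rw [scLam_norm]
  · intro i _ j _ hij x
    by_contra hcon
    rw [not_or] at hcon
    obtain ⟨h1, h2⟩ := hcon
    rw [scLam_apply] at h1 h2
    have g1 : (D.t i)⁻¹ * x ∉ D.Bad i := fun hb =>
      h1 (scRestr_apply_not_mem _ (by simpa using hb))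
    have g2 : (D.t j)⁻¹ * x ∉ D.Bad j := fun hb =>
      h2 (scRestr_apply_not_mem _ (by simpa using hb))
    exact hij (D.good_inj i j _ _ g1 g2 (by simp))

/-- **The ping-pong lower bound.** -/
theorem ScPingPong.lower_bound (hpstar : ∀ j k, star (p j k) = p k j)
    {a : ℝ} (ha : a = ∑ j, ∑ k, ‖p k j (scDelta 1)‖ ^ 2) (ha2 : a < 1 / 2)
    (ξ : Fin N → ScL2 K) (hξ : ∀ j, ∑ l, scAmp D.φ (p j l) (ξ l) = ξ j) :
    (√(1 - a) - √a) ^ 2 * ∑ j, ‖ξ j‖ ^ 2 ≤ ‖∑ j, scLam (D.t j) (ξ j)‖ ^ 2 := by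
  set aj : Fin N → ℝ := fun j => ∑ k, ‖p k j (scDelta 1)‖ ^ 2 with haj
  set M : Fin N → ℝ := fun j => ∑' y, (D.badY j).indicator (D.mass ξ) y with hM
  set E : ℝ := ∑ j, ‖ξ j‖ ^ 2 with hE
  have haj0 : ∀ j, 0 ≤ aj j := fun j => Finset.sum_nonneg fun _ _ => by positivity
  have hM0 : ∀ j, 0 ≤ M j := fun j =>
    tsum_nonneg fun y => Set.indicator_nonneg (fun y _ => D.mass_nonneg ξ y) y
  have ha0 : 0 ≤ a := ha ▸ Finset.sum_nonneg fun j _ => haj0 j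
  have hE0 : 0 ≤ E := Finset.sum_nonneg fun _ _ => by positivity
  have hajle : ∀ j, aj j ≤ a := fun j => by
    rw [ha]; exact Finset.single_le_sum (f := aj) (fun i _ => haj0 i) (Finset.mem_univ j)
  have hMsum : ∑ j, M j ≤ E := D.sum_bad_mass_le ξ
  have hbad : ∀ j, ‖scRestr (D.Bad j) (ξ j)‖ ^ 2 ≤ aj j * M j := D.bad_norm_sq_le hpstar ξ hξ
  -- the bad part
  have hb1 : ∑ j, ‖scRestr (D.Bad j) (ξ j)‖ ^ 2 ≤ a * E := by
    calc ∑ j, ‖scRestr (D.Bad j) (ξ j)‖ ^ 2 ≤ ∑ j, a * M j :=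
          Finset.sum_le_sum fun j _ => (hbad j).trans
            (mul_le_mul_of_nonneg_right (hajle j) (hM0 j))
      _ = a * ∑ j, M j := by rw [Finset.mul_sum]
      _ ≤ a * E := mul_le_mul_of_nonneg_left hMsum ha0
  have hb2 : (∑ j, ‖scRestr (D.Bad j) (ξ j)‖) ^ 2 ≤ a * E := by
    calc (∑ j, ‖scRestr (D.Bad j) (ξ j)‖) ^ 2 ≤ (∑ j, aj j) * ∑ j, M j :=
          Finset.sum_sq_le_sum_mul_sum_of_sq_le_mul _ (fun j _ => haj0 j) (fun j _ => hM0 j)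
            (fun j _ => hbad j)
      _ = a * ∑ j, M j := by rw [ha]
      _ ≤ a * E := mul_le_mul_of_nonneg_left hMsum ha0
  -- the good part
  have hg : (1 - a) * E ≤ ‖∑ j, scLam (D.t j) (scRestr (D.Bad j)ᶜ (ξ j))‖ ^ 2 := by
    rw [D.good_norm_sq]
    have : ∑ j, ‖scRestr (D.Bad j) (ξ j)‖ ^ 2 + ∑ j, ‖scRestr (D.Bad j)ᶜ (ξ j)‖ ^ 2 = E := by
      rw [← Finset.sum_add_distrib]
      exact Finset.sum_congr rfl fun j _ => scRestr_norm_sq_add _ _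
    linarith
  -- triangle inequality
  have hR : ‖∑ j, scLam (D.t j) (scRestr (D.Bad j)ᶜ (ξ j))‖ - ∑ j, ‖scRestr (D.Bad j) (ξ j)‖ ≤
      ‖∑ j, scLam (D.t j) (ξ j)‖ := by
    have h1 : ∑ j, scLam (D.t j) (ξ j) = ∑ j, scLam (D.t j) (scRestr (D.Bad j)ᶜ (ξ j)) +
        ∑ j, scLam (D.t j) (scRestr (D.Bad j) (ξ j)) := by
      rw [← Finset.sum_add_distrib]
      refine Finset.sum_congr rfl fun j _ => ?_
      rw [← map_add, add_comm, scRestr_add_compl]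
    have h2 : ‖∑ j, scLam (D.t j) (scRestr (D.Bad j) (ξ j))‖ ≤
        ∑ j, ‖scRestr (D.Bad j) (ξ j)‖ :=
      (norm_sum_le _ _).trans (Finset.sum_le_sum fun j _ => (scLam_norm _ _).le)
    have h3 := norm_sub_le_norm_add (∑ j, scLam (D.t j) (scRestr (D.Bad j)ᶜ (ξ j)))
      (∑ j, scLam (D.t j) (scRestr (D.Bad j) (ξ j)))
    rw [h1]
    linarith
  exact sc_real_bound ha0 ha2 hE0 hg (norm_nonneg _) hb2 hR

end Main

end Claimed.Agent.R300
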