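import Mathlib

/-!
# Row 300: the operator-theoretic core of the scalar compression (KK Prop. 2.2)

Abstract Hilbert space statement.  `P = (P j k)` is a projection matrix over a closed star
subalgebra `𝒜 ⊆ B(H)`, `T = (T j)` a row over `𝒜` which is bounded below by `√c` on the range of
`P`.  Then `X = T P T*` has a spectral gap `(0, c)`, its support projection `e` lies in `𝒜` and
`e = ∑ S_k (S_k* W)`, `S_j* W S_k = P j k` for suitable `S_k, W ∈ 𝒜`: this is all one needs to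
compute any trace of `e`.
-/

set_option autoImplicit false
set_option linter.unusedSectionVars false

namespace Claimed.Agent.R300

open scoped ComplexConjugate InnerProductSpace

variable {H : Type*} [NormedAddCommGroup H] [InnerProductSpace ℂ H] [CompleteSpace H]

/-- A continuous function that vanishes at `0` and equals `1/μ` on `[c, ∞)`. -/
noncomputable def scInvFun (c : ℝ) (μ : ℝ) : ℝ := μ / (max μ c) ^ 2

theorem scInvFun_continuous {c : ℝ} (hc : 0 < c) : Continuous (scInvFun c) := by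
  unfold scInvFun
  refine continuous_id.div (by fun_prop) fun μ => ?_
  have : 0 < max μ c := lt_max_of_lt_right hc
  positivity

theorem scInvFun_zero (c : ℝ) : scInvFun c 0 = 0 := by simp [scInvFun]

theorem scInvFun_of_le {c μ : ℝ} (hc : 0 < c) (h : c ≤ μ) : μ * scInvFun c μ = 1 := by
  have hμ : 0 < μ := lt_of_lt_of_le hc h
  rw [scInvFun, max_eq_left h]
  field_simp

theorem sc_gap_spectrum {X : H →L[ℂ] H} (hX : 0 ≤ X) {c : ℝ} (hgap : c • X ≤ X * X) :
    ∀ μ ∈ spectrum ℝ X, μ = 0 ∨ c ≤ μ := by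
  have hsa : IsSelfAdjoint X := IsSelfAdjoint.of_nonneg hX
  have h1 : cfc (fun μ : ℝ => μ * μ - c * μ) X = X * X - c • X := by
    rw [cfc_sub (fun μ : ℝ => μ * μ) (fun μ : ℝ => c * μ) X,
      cfc_mul (fun μ : ℝ => μ) (fun μ : ℝ => μ) X, cfc_const_mul c (fun μ : ℝ => μ) X,
      cfc_id' ℝ X]
  have h2 : 0 ≤ cfc (fun μ : ℝ => μ * μ - c * μ) X := by
    rw [h1]; exact sub_nonneg.mpr hgap
  rw [cfc_nonneg_iff (fun μ : ℝ => μ * μ - c * μ) X] at h2
  intro μ hμ
  have h3 := h2 μ hμ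
  have h4 : 0 ≤ μ := spectrum_nonneg_of_nonneg hX hμ
  rcases h4.eq_or_lt with h5 | h5
  · exact Or.inl h5.symm
  · right
    by_contra hlt
    have hlt' : μ < c := not_le.mp hlt
    nlinarith

theorem sc_gap_calculus {X : H →L[ℂ] H} (hX : 0 ≤ X) {c : ℝ} (hc : 0 < c)
    (hgap : c • X ≤ X * X) :
    IsStarProjection (X * cfc (scInvFun c) X) ∧ (X * cfc (scInvFun c) X) * X = X := by
  have hsa : IsSelfAdjoint X := IsSelfAdjoint.of_nonneg hX
  have hsp := sc_gap_spectrum hX hgap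
  have hcont : ContinuousOn (scInvFun c) (spectrum ℝ X) := (scInvFun_continuous hc).continuousOn
  have he : X * cfc (scInvFun c) X = cfc (fun μ : ℝ => μ * scInvFun c μ) X := by
    rw [cfc_mul (fun μ : ℝ => μ) (scInvFun c) X, cfc_id' ℝ X]
  have hcont2 : ContinuousOn (fun μ : ℝ => μ * scInvFun c μ) (spectrum ℝ X) :=
    continuousOn_id.mul hcont
  refine ⟨⟨?_, ?_⟩, ?_⟩
  · rw [IsIdempotentElem, he, ← cfc_mul _ _ X hcont2 hcont2]
    refine cfc_congr fun μ hμ => ?_
    rcases hsp μ hμ with rfl | h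
    · simp
    · simp [scInvFun_of_le hc h]
  · rw [he]; exact cfc_predicate _ X
  · conv_lhs => rw [he]; rhs; rw [← cfc_id' ℝ X]
    rw [← cfc_mul (fun μ : ℝ => μ * scInvFun c μ) (fun μ : ℝ => μ) X hcont2 continuousOn_id]
    conv_rhs => rw [← cfc_id' ℝ X]
    refine cfc_congr fun μ hμ => ?_
    rcases hsp μ hμ with rfl | h
    · simp
    · simp [scInvFun_of_le hc h]

/-! ### The compression -/

section Compress

variable {N : ℕ} (P : Fin N → Fin N → H →L[ℂ] H) (T : Fin N → H →L[ℂ] H)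

/-- The row `S = T P`. -/
noncomputable def scRow (k : Fin N) : H →L[ℂ] H := ∑ j, T j * P j k

/-- The operator `X = S S* = T P T*`. -/
noncomputable def scX : H →L[ℂ] H := ∑ k, scRow P T k * star (scRow P T k)

variable {P T}

theorem scRow_apply (k : Fin N) (η : H) : scRow P T k η = ∑ j, T j (P j k η) := by
  simp [scRow]

theorem scRow_star_apply (hPstar : ∀ j k, star (P j k) = P k j) (k : Fin N) (η : H) :
    star (scRow P T k) η = ∑ j, P k j (star (T j) η) := by
  simp [scRow, star_sum, hPstar]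

theorem scP_apply (hPP : ∀ j k, ∑ l, P j l * P l k = P j k) (j k : Fin N) (η : H) :
    ∑ l, P j l (P l k η) = P j k η := by
  rw [← hPP j k]
  simp

theorem scRow_star_fixed (hPstar : ∀ j k, star (P j k) = P k j)
    (hPP : ∀ j k, ∑ l, P j l * P l k = P j k) (η : H) (j : Fin N) :
    ∑ l, P j l (star (scRow P T l) η) = star (scRow P T j) η := by
  simp only [scRow_star_apply hPstar, map_sum]
  rw [Finset.sum_comm]
  exact Finset.sum_congr rfl fun i _ => scP_apply hPP j i _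

theorem scRow_sum_apply_of_fixed (ξ : Fin N → H) (hξ : ∀ j, ∑ l, P j l (ξ l) = ξ j) :
    ∑ k, scRow P T k (ξ k) = ∑ j, T j (ξ j) := by
  simp only [scRow_apply]
  rw [Finset.sum_comm]
  refine Finset.sum_congr rfl fun j _ => ?_
  rw [← map_sum, hξ]

theorem scRow_mul_P (hPP : ∀ j k, ∑ l, P j l * P l k = P j k) (k : Fin N) (η : H) :
    ∑ j, scRow P T j (P j k η) = scRow P T k η := by
  simp only [scRow_apply]
  rw [Finset.sum_comm]
  refine Finset.sum_congr rfl fun j _ => ?_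
  rw [← map_sum, scP_apply hPP]

theorem scX_apply (η : H) : scX P T η = ∑ k, scRow P T k (star (scRow P T k) η) := by
  simp [scX]

theorem scX_apply' (hPstar : ∀ j k, star (P j k) = P k j)
    (hPP : ∀ j k, ∑ l, P j l * P l k = P j k) (η : H) :
    scX P T η = ∑ j, T j (star (scRow P T j) η) := by
  rw [scX_apply]
  exact scRow_sum_apply_of_fixed _ (scRow_star_fixed hPstar hPP η)

theorem scX_nonneg : 0 ≤ scX P T :=
  Finset.sum_nonneg fun _ _ => mul_star_self_nonneg _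

theorem scX_inner (η : H) :
    ⟪scX P T η, η⟫_ℂ = ((∑ k, ‖star (scRow P T k) η‖ ^ 2 : ℝ) : ℂ) := by
  rw [scX_apply, sum_inner, Complex.ofReal_sum]
  refine Finset.sum_congr rfl fun k _ => ?_
  rw [← ContinuousLinearMap.adjoint_inner_right, ← ContinuousLinearMap.star_eq_adjoint,
    inner_self_eq_norm_sq_to_K]
  simp

theorem scX_gap (hPstar : ∀ j k, star (P j k) = P k j)
    (hPP : ∀ j k, ∑ l, P j l * P l k = P j k) {c : ℝ}
    (hbound : ∀ ξ : Fin N → H, (∀ j, ∑ l, P j l (ξ l) = ξ j) →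
      c * ∑ j, ‖ξ j‖ ^ 2 ≤ ‖∑ j, T j (ξ j)‖ ^ 2) :
    c • scX P T ≤ scX P T * scX P T := by
  have hsa : IsSelfAdjoint (scX P T) := IsSelfAdjoint.of_nonneg scX_nonneg
  rw [ContinuousLinearMap.le_def, ContinuousLinearMap.isPositive_def']
  have hsa2 : IsSelfAdjoint (scX P T * scX P T) := by rw [← sq]; exact hsa.pow 2
  have hsa3 : IsSelfAdjoint (c • scX P T) := by
    rw [IsSelfAdjoint, star_smul, hsa.star_eq]; simp
  refine ⟨hsa2.sub hsa3, fun η => ?_⟩
  rw [ContinuousLinearMap.reApplyInnerSelf_apply]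
  have h1 : ⟪scX P T (scX P T η), η⟫_ℂ = ((‖scX P T η‖ ^ 2 : ℝ) : ℂ) := by
    rw [← ContinuousLinearMap.adjoint_inner_right,
      ← ContinuousLinearMap.star_eq_adjoint, hsa.star_eq, inner_self_eq_norm_sq_to_K]
    simp
  have h2 := hbound _ (scRow_star_fixed (T := T) hPstar hPP η)
  rw [← scX_apply' hPstar hPP] at h2
  change 0 ≤ RCLike.re ⟪scX P T (scX P T η) - c • scX P T η, η⟫_ℂ
  rw [inner_sub_left, h1, RCLike.real_smul_eq_coe_smul (K := ℂ) c, inner_smul_left, scX_inner]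
  simp only [map_sub, RCLike.re_to_complex, Complex.ofReal_re, Complex.mul_re, Complex.ofReal_im,
    mul_zero, sub_zero, Complex.conj_re, Complex.coe_algebraMap]
  linarith

/-- If `X ζ = 0` then every `S_k* ζ = 0`. -/
theorem scRow_star_eq_zero_of_scX {ζ : H} (h : scX P T ζ = 0) (k : Fin N) :
    star (scRow P T k) ζ = 0 := by
  have h1 := scX_inner (P := P) (T := T) ζ
  rw [h, inner_zero_left] at h1
  have h2 : (∑ k, ‖star (scRow P T k) ζ‖ ^ 2 : ℝ) = 0 := by exact_mod_cast h1.symm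
  have h3 := (Finset.sum_eq_zero_iff_of_nonneg (fun _ _ => by positivity)).1 h2 k (Finset.mem_univ k)
  simpa using h3

/-- **Scalar compression, operator part.** -/
theorem sc_compress (𝒜 : StarSubalgebra ℂ (H →L[ℂ] H)) (hcl : IsClosed (𝒜 : Set (H →L[ℂ] H)))
    (hP𝒜 : ∀ j k, P j k ∈ 𝒜) (hT𝒜 : ∀ j, T j ∈ 𝒜)
    (hPstar : ∀ j k, star (P j k) = P k j)
    (hPP : ∀ j k, ∑ l, P j l * P l k = P j k) {c : ℝ} (hc : 0 < c)
    (hbound : ∀ ξ : Fin N → H, (∀ j, ∑ l, P j l (ξ l) = ξ j) →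
      c * ∑ j, ‖ξ j‖ ^ 2 ≤ ‖∑ j, T j (ξ j)‖ ^ 2) :
    ∃ e ∈ 𝒜, IsStarProjection e ∧ ∃ (S : Fin N → H →L[ℂ] H) (W : H →L[ℂ] H),
      (∀ k, S k ∈ 𝒜) ∧ W ∈ 𝒜 ∧ e = ∑ k, S k * (star (S k) * W) ∧
        ∀ j k, (star (S j) * W) * S k = P j k := by
  have hS𝒜 : ∀ k, scRow P T k ∈ 𝒜 := fun k =>
    sum_mem fun j _ => mul_mem (hT𝒜 j) (hP𝒜 j k)
  have hX𝒜 : scX P T ∈ 𝒜 := sum_mem fun k _ => mul_mem (hS𝒜 k) (star_mem (hS𝒜 k))
  have hX0 : 0 ≤ scX P T := scX_nonneg
  have hsa : IsSelfAdjoint (scX P T) := IsSelfAdjoint.of_nonneg hX0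
  have hgap := scX_gap hPstar hPP hbound
  obtain ⟨hproj, heX⟩ := sc_gap_calculus hX0 hc hgap
  set W : H →L[ℂ] H := cfc (scInvFun c) (scX P T) with hW
  have hW𝒜 : W ∈ 𝒜 := by
    have : IsClosed (𝒜 : Set (H →L[ℂ] H)) := hcl
    exact cfc_mem (𝕜 := ℝ) (𝕜' := ℂ) (scInvFun c) hX𝒜
  set e : H →L[ℂ] H := scX P T * W with he
  -- `X e = X`
  have hXe : scX P T * e = scX P T := by
    have := congrArg star heX
    rwa [star_mul, hsa.star_eq, hproj.isSelfAdjoint.star_eq] at this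
  -- `e S_k = S_k`
  have heS : ∀ k, e * scRow P T k = scRow P T k := by
    intro k
    have h1 : star (scRow P T k) * (1 - e) = 0 := by
      ext η
      refine scRow_star_eq_zero_of_scX ?_ k
      have : scX P T * (1 - e) = 0 := by rw [mul_sub, mul_one, hXe, sub_self]
      exact congrArg (fun A : H →L[ℂ] H => A η) this
    have h2 := congrArg star h1
    rw [star_mul, star_star, star_sub, star_one, hproj.isSelfAdjoint.star_eq, star_zero, sub_mul,
      one_mul, sub_eq_zero] at h2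
    exact h2.symm
  refine ⟨e, mul_mem hX𝒜 hW𝒜, hproj, scRow P T, W, hS𝒜, hW𝒜, ?_, ?_⟩
  · rw [he, scX, Finset.sum_mul]
    exact Finset.sum_congr rfl fun k _ => mul_assoc _ _ _
  · intro j k
    ext η
    set ξ : Fin N → H := fun j => star (scRow P T j) (W (scRow P T k η)) - P j k η with hξ
    have hfix : ∀ j, ∑ l, P j l (ξ l) = ξ j := by
      intro j
      simp only [hξ, map_sub, Finset.sum_sub_distrib]
      rw [scRow_star_fixed hPstar hPP, scP_apply hPP]
    have hzero : ∑ j, T j (ξ j) = 0 := by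
      rw [← scRow_sum_apply_of_fixed ξ hfix]
      simp only [hξ, map_sub, Finset.sum_sub_distrib]
      rw [← scX_apply, scRow_mul_P hPP, sub_eq_zero]
      exact congrArg (fun A : H →L[ℂ] H => A η) (heS k)
    have h3 := hbound ξ hfix
    rw [hzero, norm_zero] at h3
    have h4 : ∑ j, ‖ξ j‖ ^ 2 ≤ 0 := by
      by_contra hpos
      have hpos' : 0 < ∑ j, ‖ξ j‖ ^ 2 := not_le.mp hpos
      nlinarith
    have h5 : ∑ j, ‖ξ j‖ ^ 2 = 0 := le_antisymm h4 (Finset.sum_nonneg fun _ _ => by positivity)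
    have h6 := (Finset.sum_eq_zero_iff_of_nonneg (fun _ _ => by positivity)).1 h5 j
      (Finset.mem_univ j)
    have h7 : ξ j = 0 := by simpa using h6
    exact sub_eq_zero.mp h7

end Compress

end Claimed.Agent.R300
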