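import Claimed.Agent.R300.ScBound
import Claimed.Agent.R300.ScProj

/-!
# Row 300: the scalar compression (KK Prop. 2.2) for an abstract ping-pong pair `Γ ≤ K`
-/

set_option autoImplicit false

namespace Claimed.Agent.R300

open scoped ENNReal ComplexConjugate InnerProductSpace

variable {Γ K : Type} [Group Γ] [Group K] {N : ℕ}

/-- **Scalar compression.**  A projection matrix over `C*_r(Γ)` of trace `< 1/2` is compressed to
a projection of `C*_r(K)` with the same trace. -/
theorem sc_scalar_compression (D : ScPingPong Γ K N)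
    (p : Fin N → Fin N → ScL2 Γ →L[ℂ] ScL2 Γ) (hmem : ∀ j k, p j k ∈ scRed Γ)
    (hpstar : ∀ j k, star (p j k) = p k j) (hpp : ∀ j k, ∑ l, p j l * p l k = p j k)
    (ha : (∑ j, scTr (p j j)).re < 1 / 2) :
    ∃ e ∈ scRed K, IsStarProjection e ∧ scTr e = ∑ j, scTr (p j j) := by
  set a : ℝ := ∑ j, ∑ k, ‖p k j (scDelta 1)‖ ^ 2 with ha_def
  have htr : ∑ j, scTr (p j j) = (a : ℂ) := by
    rw [ha_def, Complex.ofReal_sum]
    exact Finset.sum_congr rfl fun j _ => sc_diag_trace hpstar hpp j
  have ha2 : a < 1 / 2 := by rw [htr] at ha; simpa using ha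
  have ha0 : 0 ≤ a := Finset.sum_nonneg fun _ _ => Finset.sum_nonneg fun _ _ => by positivity
  obtain ⟨e, he, hproj, S, W, hS, hW, heq, hSWS⟩ :=
    sc_compress (P := fun j k => scAmp D.φ (p j k)) (T := fun j => scLam (D.t j)) (scRed K)
      (scRed_isClosed K) (fun j k => scAmp_mem D.ι D.φ D.φ_mul (hmem j k))
      (fun j => scLam_mem _) (fun j k => by rw [← scAmp_star, hpstar])
      (fun j k => by
        rw [← hpp j k, ← scAmpHom_apply, map_sum]
        exact Finset.sum_congr rfl fun l _ => (scAmp_mul D.φ _ _).symm)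
      (sc_real_pos ha0 ha2) (fun ξ hξ => D.lower_bound hpstar ha_def ha2 ξ hξ)
  refine ⟨e, he, hproj, ?_⟩
  rw [heq, scTr_sum]
  refine Finset.sum_congr rfl fun k _ => ?_
  rw [scTr_mul_comm (hS k) (mul_mem (star_mem (hS k)) hW), hSWS, scTr_amp D.φ D.φ_one]

end Claimed.Agent.R300
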