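import Mathlib

/-!
# Row 300: a finite free product of finitely generated groups is finitely generated
-/

set_option autoImplicit false

namespace Claimed.Agent.R300

theorem sc_coprodI_fg {I : Type*} [Finite I] {M : I → Type*} [∀ i, Group (M i)]
    (h : ∀ i, Group.FG (M i)) : Group.FG (Monoid.CoprodI M) := by
  have h' : ∀ i, ∃ S : Set (M i), Subgroup.closure S = ⊤ ∧ S.Finite := fun i =>
    (Group.fg_iff (G := M i)).1 (h i)
  choose S hS hfin using h'
  rw [Group.fg_iff]
  refine ⟨⋃ i, (Monoid.CoprodI.of : M i →* Monoid.CoprodI M) '' S i, ?_,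
    Set.finite_iUnion fun i => (hfin i).image _⟩
  rw [eq_top_iff]
  intro x hx0
  clear hx0
  induction x using Monoid.CoprodI.induction_on with
  | one => exact one_mem _
  | @of i m =>
    have h1 : m ∈ Subgroup.closure (S i) := by rw [hS i]; trivial
    have h2 : (Monoid.CoprodI.of : M i →* Monoid.CoprodI M) m ∈
        (Subgroup.closure (S i)).map (Monoid.CoprodI.of : M i →* Monoid.CoprodI M) :=
      Subgroup.mem_map_of_mem _ h1
    rw [MonoidHom.map_closure] at h2
    exact Subgroup.closure_mono (Set.subset_iUnion
      (fun i => (Monoid.CoprodI.of : M i →* Monoid.CoprodI M) '' S i) i) h2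
  | mul x y hx hy => exact mul_mem hx hy

end Claimed.Agent.R300
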