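import Claimed.Agent.R300.ScBound

/-!
# Row 300: free products play ping-pong

For a family of groups `M i`, a distinguished index `i₀` and nontrivial elements `t j` of pairwise
different factors `M (σ j)`, `σ j ≠ i₀`, the free product `Monoid.CoprodI M` carries the structure
`ScPingPong (M i₀) (Monoid.CoprodI M) N`.
-/

set_option autoImplicit false

namespace Claimed.Agent.R300

open Monoid.CoprodI

variable {I : Type} (M : I → Type) [∀ i, Group (M i)]

/-- A pair (head, tail) as an element of a product type. -/
def scPairEquiv (i₀ : I) : Word.Pair M i₀ ≃ {w : Word M // w.fstIdx ≠ some i₀} × M i₀ where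
  toFun p := (⟨p.tail, p.fstIdx_ne⟩, p.head)
  invFun q := ⟨q.2, q.1.1, q.1.2⟩
  left_inv _ := rfl
  right_inv _ := rfl

variable {M}

theorem scWord_equiv_mul [DecidableEq I] [∀ i, DecidableEq (M i)] (a b : Monoid.CoprodI M) :
    Word.equiv (a * b) = a • Word.equiv b := by
  change (a * b) • (Word.empty : Word M) = a • (b • (Word.empty : Word M))
  rw [mul_smul]

theorem scWord_equiv_one [DecidableEq I] [∀ i, DecidableEq (M i)] :
    Word.equiv (1 : Monoid.CoprodI M) = Word.empty := by
  change (1 : Monoid.CoprodI M) • (Word.empty : Word M) = Word.empty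
  rw [one_smul]

/-- The ping-pong structure of a free product. -/
noncomputable def scFreePP (i₀ : I) {N : ℕ} (σ : Fin N → I) (hσ : Function.Injective σ)
    (hσ0 : ∀ j, σ j ≠ i₀) (t : ∀ j, M (σ j)) (ht : ∀ j, t j ≠ 1) :
    ScPingPong (M i₀) (Monoid.CoprodI M) N := by
  classical
  exact
  { ι := Monoid.CoprodI.of
    Y := {w : Word M // w.fstIdx ≠ some i₀}
    φ := Word.equiv.trans ((Word.equivPair i₀).trans (scPairEquiv M i₀))
    φ_mul := by
      intro g k
      simp only [Equiv.trans_apply, scWord_equiv_mul, Word.equivPair_smul_same]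
      rfl
    φ_one := by
      simp only [Equiv.trans_apply, scWord_equiv_one]
      rw [Word.equivPair_eq_of_fstIdx_ne (by simp [Word.fstIdx, Word.empty])]
      rfl
    t := fun j => Monoid.CoprodI.of (t j)
    Bad := fun j => {x | (Word.equiv x).fstIdx = some (σ j)}
    bad_snd := by
      intro j x hx
      have h : (Word.equiv x).fstIdx ≠ some i₀ := by
        rw [Set.mem_ofPred_eq] at hx
        rw [hx]
        exact fun h => hσ0 j (Option.some.inj h)
      simp only [Equiv.trans_apply]
      rw [Word.equivPair_eq_of_fstIdx_ne h]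
      rfl
    bad_unique := by
      intro j j' x hx hx'
      rw [Set.mem_ofPred_eq] at hx hx'
      exact hσ (Option.some.inj (hx.symm.trans hx'))
    good_inj := by
      intro j j' x x' hx hx' h
      have key : ∀ (j : Fin N) (x : Monoid.CoprodI M), (Word.equiv x).fstIdx ≠ some (σ j) →
          (Word.equiv (Monoid.CoprodI.of (t j) * x)).fstIdx = some (σ j) := by
        intro j x hx
        rw [scWord_equiv_mul, ← Word.cons_eq_smul (h1 := hx) (h2 := ht j), Word.fstIdx_cons]
      have h1 := key j x hx
      have h2 := key j' x' hx'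
      rw [h] at h1
      exact hσ (Option.some.inj (h1.symm.trans h2)) }

end Claimed.Agent.R300
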