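import Claimed.Agent.R300.ScMat

/-!
# Row 300: operators of partial bijections (`PEquiv`) on `ℓ²`

`scPE p : ℓ²(X) → ℓ²(Y)` sends `δ_x` to `δ_{p x}` (or to `0` if `p x = none`).  All cut-offs,
translations, pull-backs and push-forwards are of this form, and identities between their products
become identities between partial bijections.

* `scPE_trans`, `scPE_adjoint`, `scPE_ofSet`, `scPE_refl`, `scPE_bot`, `scPE_apply`;
* `scRelPE`: the partial bijection of a relation which is functional in both directions;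
* `scLiftPE p : X × I ≃. Y × I`, and `scW m = 1 ⊗ m` commutes with `scPE (scLiftPE p)`.
-/

set_option autoImplicit false

namespace Claimed.Agent.R300

open scoped ENNReal ComplexConjugate InnerProductSpace

variable {X Y Z I : Type}

section Basic

/-- the domain of a partial bijection, as a type -/
abbrev ScDom (p : X ≃. Y) : Type := {x : X // (p x).isSome}

/-- the value of a partial bijection on its domain -/
def scDomVal (p : X ≃. Y) (d : ScDom p) : Y := (p d.1).get d.2

theorem scDomVal_spec (p : X ≃. Y) (d : ScDom p) : p d.1 = some (scDomVal p d) := by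
  simp [scDomVal]

theorem scDomVal_inj (p : X ≃. Y) : Function.Injective (scDomVal p) := by
  intro d d' h
  have h1 := scDomVal_spec p d
  have h2 := scDomVal_spec p d'
  rw [h] at h1
  exact Subtype.ext (p.inj h1 h2)

/-- The operator of a partial bijection. -/
noncomputable def scPE (p : X ≃. Y) : ScL2 X →L[ℂ] ScL2 Y :=
  scPush (scDomVal p) (scDomVal_inj p) ∘L scPull (Subtype.val : ScDom p → X) Subtype.val_injective

theorem scPE_delta_some {p : X ≃. Y} {x : X} {y : Y} (h : p x = some y) :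
    scPE p (scDelta x) = scDelta y := by
  have hs : (p x).isSome := by rw [h]; rfl
  have h1 : scPull (Subtype.val : ScDom p → X) Subtype.val_injective (scDelta x) =
      scDelta (⟨x, hs⟩ : ScDom p) :=
    scPull_delta (Subtype.val : ScDom p → X) Subtype.val_injective ⟨x, hs⟩
  change scPush (scDomVal p) (scDomVal_inj p) (scPull _ _ (scDelta x)) = _
  rw [h1, scPush_delta]
  congr 1
  have := scDomVal_spec p ⟨x, hs⟩
  rw [h] at this
  exact (Option.some.inj this).symm

theorem scPE_delta_none {p : X ≃. Y} {x : X} (h : p x = none) : scPE p (scDelta x) = 0 := by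
  have h1 : scPull (Subtype.val : ScDom p → X) Subtype.val_injective (scDelta x) = 0 := by
    refine scPull_delta_of_not_mem _ _ x ?_
    rintro ⟨x', hx'⟩ rfl
    rw [h] at hx'
    exact absurd hx' (by simp)
  change scPush (scDomVal p) (scDomVal_inj p) (scPull _ _ (scDelta x)) = _
  rw [h1, map_zero]

theorem scPE_norm_le (p : X ≃. Y) (ξ : ScL2 X) : ‖scPE p ξ‖ ≤ ‖ξ‖ := by
  change ‖scPush (scDomVal p) (scDomVal_inj p) (scPull _ _ ξ)‖ ≤ _
  rw [scPush_norm]
  exact scPull_norm_le _ _ ξ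

theorem scPE_opNorm_le (p : X ≃. Y) : ‖scPE p‖ ≤ 1 :=
  ContinuousLinearMap.opNorm_le_bound _ zero_le_one fun ξ => by
    rw [one_mul]; exact scPE_norm_le p ξ

theorem scPE_trans (p : X ≃. Y) (q : Y ≃. Z) : scPE (p.trans q) = scPE q ∘L scPE p := by
  refine scOp_ext fun x => ?_
  change _ = scPE q (scPE p (scDelta x))
  rcases hp : p x with _ | y
  · rw [scPE_delta_none hp, map_zero, scPE_delta_none]
    rw [PEquiv.trans_eq_none]
    intro b c
    left
    rw [Option.mem_def, hp]
    simp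
  · rw [scPE_delta_some hp]
    rcases hq : q y with _ | z
    · rw [scPE_delta_none hq, scPE_delta_none]
      rw [PEquiv.trans_eq_none]
      intro b c
      by_cases hb : b ∈ p x
      · right
        rw [Option.mem_def, hp] at hb
        have : y = b := Option.some.inj hb
        subst this
        rw [Option.mem_def, hq]
        simp
      · exact Or.inl hb
    · rw [scPE_delta_some hq, scPE_delta_some]
      rw [PEquiv.trans_eq_some]
      exact ⟨y, hp, hq⟩

theorem scPE_mul (p q : X ≃. X) : scPE q * scPE p = scPE (p.trans q) := (scPE_trans p q).symm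

theorem scPE_delta_apply (p : X ≃. Y) (x : X) (y : Y) [Decidable (p x = some y)] :
    scPE p (scDelta x) y = if p x = some y then 1 else 0 := by
  by_cases h : p x = some y
  · rw [if_pos h, scPE_delta_some h, scDelta_self]
  · rw [if_neg h]
    rcases hp : p x with _ | y'
    · rw [scPE_delta_none hp]; rfl
    · rw [scPE_delta_some hp, scDelta_ne]
      rintro rfl
      exact h hp

theorem scPE_adjoint (p : X ≃. Y) : ContinuousLinearMap.adjoint (scPE p) = scPE p.symm := by
  classical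
  refine scOp_ext fun y => ?_
  ext x
  rw [sc_adjoint_delta_apply, scPE_delta_apply, scPE_delta_apply]
  by_cases h : p x = some y
  · rw [if_pos h, if_pos (p.eq_some_iff.2 h)]; simp
  · rw [if_neg h, if_neg (fun h' => h (p.eq_some_iff.1 h'))]; simp

theorem scPE_star (p : X ≃. X) : star (scPE p) = scPE p.symm := scPE_adjoint p

theorem scPE_apply_some (p : X ≃. Y) (ξ : ScL2 X) {x : X} {y : Y} (h : p x = some y) :
    scPE p ξ y = ξ x := by
  rw [← sc_inner_delta_left, ← ContinuousLinearMap.adjoint_inner_left, scPE_adjoint,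
    scPE_delta_some (p.eq_some_iff.2 h), sc_inner_delta_left]

theorem scPE_apply_none (p : X ≃. Y) (ξ : ScL2 X) {y : Y} (h : p.symm y = none) :
    scPE p ξ y = 0 := by
  rw [← sc_inner_delta_left, ← ContinuousLinearMap.adjoint_inner_left, scPE_adjoint,
    scPE_delta_none h, inner_zero_left]

theorem scPE_refl : scPE (PEquiv.refl X) = 1 :=
  scOp_ext fun x => by rw [scPE_delta_some (PEquiv.refl_apply x)]; rfl

theorem scPE_bot : scPE (⊥ : X ≃. Y) = 0 :=
  scOp_ext fun x => by rw [scPE_delta_none (PEquiv.bot_apply x)]; rfl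

theorem scRestr_delta_mem {B : Set X} {x : X} (h : x ∈ B) : scRestr B (scDelta x) = scDelta x := by
  ext y
  by_cases hy : y ∈ B
  · rw [scRestr_apply_mem _ hy]
  · rw [scRestr_apply_not_mem _ hy, scDelta_ne]
    rintro rfl; exact hy h

theorem scRestr_delta_not_mem {B : Set X} {x : X} (h : x ∉ B) : scRestr B (scDelta x) = 0 := by
  ext y
  by_cases hy : y ∈ B
  · rw [scRestr_apply_mem _ hy, scDelta_ne]
    · rfl
    · rintro rfl; exact h hy
  · rw [scRestr_apply_not_mem _ hy]; rfl

theorem scPE_ofSet (B : Set X) [DecidablePred (· ∈ B)] : scPE (PEquiv.ofSet B) = scRestr B := by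
  refine scOp_ext fun x => ?_
  by_cases hx : x ∈ B
  · rw [scPE_delta_some (PEquiv.ofSet_eq_some_self_iff.2 hx), scRestr_delta_mem hx]
  · rw [scRestr_delta_not_mem hx, scPE_delta_none]
    simp [PEquiv.ofSet, hx]

theorem scPE_toPEquiv_norm (e : X ≃ Y) (ξ : ScL2 X) : ‖scPE e.toPEquiv ξ‖ = ‖ξ‖ := by
  refine le_antisymm (scPE_norm_le _ ξ) ?_
  have h : scPE e.toPEquiv.symm (scPE e.toPEquiv ξ) = ξ := by
    change (scPE e.toPEquiv.symm ∘L scPE e.toPEquiv) ξ = ξ
    rw [← scPE_trans, ← Equiv.toPEquiv_symm, ← Equiv.toPEquiv_trans, Equiv.self_trans_symm,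
      Equiv.toPEquiv_refl, scPE_refl]
    rfl
  calc ‖ξ‖ = ‖scPE e.toPEquiv.symm (scPE e.toPEquiv ξ)‖ := by rw [h]
    _ ≤ ‖scPE e.toPEquiv ξ‖ := scPE_norm_le _ _

end Basic

/-! ### Partial bijections from relations -/

section Rel

open Classical in
/-- The partial bijection of a relation which is functional in both directions. -/
noncomputable def scRelPE (R : X → Y → Prop) (h1 : ∀ x y y', R x y → R x y' → y = y')
    (h2 : ∀ x x' y, R x y → R x' y → x = x') : X ≃. Y where
  toFun x := if h : ∃ y, R x y then some h.choose else none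
  invFun y := if h : ∃ x, R x y then some h.choose else none
  inv x y := by
    constructor
    · intro h
      change (if h : ∃ x, R x y then some h.choose else none) = some x at h
      split_ifs at h with hy
      have hx : hy.choose = x := Option.some.inj h
      have hR : R x y := hx ▸ hy.choose_spec
      have hex : ∃ y, R x y := ⟨y, hR⟩
      rw [dif_pos hex]
      exact congrArg some (h1 x _ _ hex.choose_spec hR)
    · intro h
      change (if h : ∃ y, R x y then some h.choose else none) = some y at h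
      split_ifs at h with hx
      have hy : hx.choose = y := Option.some.inj h
      have hR : R x y := hy ▸ hx.choose_spec
      have hex : ∃ x, R x y := ⟨x, hR⟩
      rw [dif_pos hex]
      exact congrArg some (h2 _ _ y hex.choose_spec hR)

theorem scRelPE_eq_some {R : X → Y → Prop} {h1 : ∀ x y y', R x y → R x y' → y = y'}
    {h2 : ∀ x x' y, R x y → R x' y → x = x'} {x : X} {y : Y} :
    scRelPE R h1 h2 x = some y ↔ R x y := by
  classical
  change (if h : ∃ y, R x y then some h.choose else none) = some y ↔ _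
  constructor
  · intro h
    split_ifs at h with hx
    exact (Option.some.inj h) ▸ hx.choose_spec
  · intro hR
    have hex : ∃ y, R x y := ⟨y, hR⟩
    rw [dif_pos hex]
    exact congrArg some (h1 x _ _ hex.choose_spec hR)

theorem scRelPE_symm_eq_some {R : X → Y → Prop} {h1 : ∀ x y y', R x y → R x y' → y = y'}
    {h2 : ∀ x x' y, R x y → R x' y → x = x'} {x : X} {y : Y} :
    (scRelPE R h1 h2).symm y = some x ↔ R x y := by
  rw [PEquiv.eq_some_iff, scRelPE_eq_some]

/-- Two partial bijections are equal if they have the same graph. -/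
theorem scPEquiv_ext {p q : X ≃. Y} (h : ∀ x y, p x = some y ↔ q x = some y) : p = q :=
  PEquiv.ext fun x => Option.ext fun y => h x y

end Rel

/-! ### Lifting to `X × I` and the matrix weights -/

section Lift

/-- The partial bijection `p × id`. -/
def scLiftPE (p : X ≃. Y) : (X × I) ≃. (Y × I) where
  toFun a := (p a.1).map fun y => (y, a.2)
  invFun b := (p.symm b.1).map fun x => (x, b.2)
  inv := by
    rintro ⟨x, i⟩ ⟨y, j⟩
    simp only [Option.map_eq_some_iff, Prod.mk.injEq]
    constructor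
    · rintro ⟨x', h1, rfl, rfl⟩
      exact ⟨y, p.eq_some_iff.1 h1, rfl, rfl⟩
    · rintro ⟨y', h1, rfl, rfl⟩
      exact ⟨x, p.eq_some_iff.2 h1, rfl, rfl⟩

theorem scLiftPE_eq_some {p : X ≃. Y} {x : X} {y : Y} {i j : I} :
    scLiftPE p (x, i) = some (y, j) ↔ p x = some y ∧ i = j := by
  change (p x).map (fun y => (y, i)) = some (y, j) ↔ _
  simp only [Option.map_eq_some_iff, Prod.mk.injEq]
  constructor
  · rintro ⟨y', h1, rfl, rfl⟩; exact ⟨h1, rfl⟩
  · rintro ⟨h1, rfl⟩; exact ⟨y, h1, rfl, rfl⟩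

theorem scLiftPE_symm (p : X ≃. Y) : (scLiftPE p : (X × I) ≃. (Y × I)).symm = scLiftPE p.symm := rfl

theorem scLiftPE_trans (p : X ≃. Y) (q : Y ≃. Z) :
    (scLiftPE (p.trans q) : (X × I) ≃. (Z × I)) = (scLiftPE p).trans (scLiftPE q) := by
  refine scPEquiv_ext ?_
  rintro ⟨x, i⟩ ⟨z, k⟩
  rw [scLiftPE_eq_some, PEquiv.trans_eq_some, PEquiv.trans_eq_some]
  constructor
  · rintro ⟨⟨y, h1, h2⟩, rfl⟩
    exact ⟨(y, i), scLiftPE_eq_some.2 ⟨h1, rfl⟩, scLiftPE_eq_some.2 ⟨h2, rfl⟩⟩
  · rintro ⟨⟨y, j⟩, h1, h2⟩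
    obtain ⟨h1', rfl⟩ := scLiftPE_eq_some.1 h1
    obtain ⟨h2', rfl⟩ := scLiftPE_eq_some.1 h2
    exact ⟨⟨y, h1', h2'⟩, rfl⟩

theorem scLiftPE_refl : (scLiftPE (PEquiv.refl X) : (X × I) ≃. (X × I)) = PEquiv.refl _ := by
  refine scPEquiv_ext ?_
  rintro ⟨x, i⟩ ⟨y, j⟩
  rw [scLiftPE_eq_some, PEquiv.refl_apply, PEquiv.refl_apply]
  simp [Prod.ext_iff]

/-- The operator `p ⊗ 1` on `ℓ²(X × I)`. -/
noncomputable def scPL (p : X ≃. Y) : ScL2 (X × I) →L[ℂ] ScL2 (Y × I) := scPE (scLiftPE p)

theorem scPL_trans (p : X ≃. Y) (q : Y ≃. Z) :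
    (scPL (p.trans q) : ScL2 (X × I) →L[ℂ] ScL2 (Z × I)) = scPL q ∘L scPL p := by
  unfold scPL; rw [scLiftPE_trans, scPE_trans]

theorem scPL_adjoint (p : X ≃. Y) :
    ContinuousLinearMap.adjoint (scPL p : ScL2 (X × I) →L[ℂ] ScL2 (Y × I)) = scPL p.symm := by
  unfold scPL; rw [scPE_adjoint, scLiftPE_symm]

theorem scPL_refl : (scPL (PEquiv.refl X) : ScL2 (X × I) →L[ℂ] ScL2 (X × I)) = 1 := by
  unfold scPL; rw [scLiftPE_refl, scPE_refl]

theorem scPL_norm_le (p : X ≃. Y) (ξ : ScL2 (X × I)) : ‖scPL p ξ‖ ≤ ‖ξ‖ := scPE_norm_le _ ξ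

theorem scPL_delta_some {p : X ≃. Y} {x : X} {y : Y} (h : p x = some y) (i : I) :
    scPL p (scDelta (x, i)) = scDelta (y, i) :=
  scPE_delta_some (scLiftPE_eq_some.2 ⟨h, rfl⟩)

theorem scPL_delta_none {p : X ≃. Y} {x : X} (h : p x = none) (i : I) :
    scPL p (scDelta (x, i)) = 0 := by
  refine scPE_delta_none ?_
  change (p x).map (fun y => (y, i)) = none
  rw [h]; rfl

theorem scPL_apply_some (p : X ≃. Y) (ξ : ScL2 (X × I)) {x : X} {y : Y} (h : p x = some y) (i : I) :
    scPL p ξ (y, i) = ξ (x, i) :=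
  scPE_apply_some _ ξ (scLiftPE_eq_some.2 ⟨h, rfl⟩)

theorem scPL_apply_none (p : X ≃. Y) (ξ : ScL2 (X × I)) {y : Y} (h : p.symm y = none) (i : I) :
    scPL p ξ (y, i) = 0 := by
  refine scPE_apply_none _ ξ ?_
  change (p.symm y).map (fun x => (x, i)) = none
  rw [h]; rfl

/-- The operator `1 ⊗ m` on `ℓ²(X × I)`. -/
noncomputable def scW (X : Type) (m : ScL2 I →L[ℂ] ScL2 I) : ScL2 (X × I) →L[ℂ] ScL2 (X × I) :=
  scAmp (Equiv.refl (X × I)) m

/-- the fibre of a vector over a point of `X` -/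
noncomputable def scFib (x : X) : ScL2 (X × I) →L[ℂ] ScL2 I := scSlice (Equiv.refl (X × I)) x

@[simp] theorem scFib_apply (x : X) (ξ : ScL2 (X × I)) (i : I) : scFib x ξ i = ξ (x, i) := rfl

theorem scFib_ext {ξ η : ScL2 (X × I)} (h : ∀ x, scFib x ξ = scFib x η) : ξ = η :=
  scSlice_ext (Equiv.refl (X × I)) h

@[simp] theorem scFib_W (x : X) (m : ScL2 I →L[ℂ] ScL2 I) (ξ : ScL2 (X × I)) :
    scFib x (scW X m ξ) = m (scFib x ξ) := scSlice_amp _ m x ξ

theorem scFib_hasSum_sq (ξ : ScL2 (X × I)) : HasSum (fun x => ‖scFib x ξ‖ ^ 2) (‖ξ‖ ^ 2) :=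
  scSlice_hasSum_sq _ ξ

theorem scW_norm_le (m : ScL2 I →L[ℂ] ScL2 I) : ‖scW X m‖ ≤ ‖m‖ := scAmp_norm_le _ m

theorem scW_star (m : ScL2 I →L[ℂ] ScL2 I) : star (scW X m) = scW X (star m) :=
  (scAmp_star _ m).symm

theorem scFib_PL_some (p : X ≃. Y) (ξ : ScL2 (X × I)) {x : X} {y : Y} (h : p x = some y) :
    scFib y (scPL p ξ) = scFib x ξ := by
  ext i
  rw [scFib_apply, scFib_apply, scPL_apply_some p ξ h]

theorem scFib_PL_none (p : X ≃. Y) (ξ : ScL2 (X × I)) {y : Y} (h : p.symm y = none) :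
    scFib y (scPL p ξ) = 0 := by
  ext i
  rw [scFib_apply, scPL_apply_none p ξ h]; rfl

/-- `1 ⊗ m` commutes with `p ⊗ 1`. -/
theorem scW_PL (p : X ≃. Y) (m : ScL2 I →L[ℂ] ScL2 I) (ξ : ScL2 (X × I)) :
    scW Y m (scPL p ξ) = scPL p (scW X m ξ) := by
  refine scFib_ext fun y => ?_
  rw [scFib_W]
  rcases h : p.symm y with _ | x
  · rw [scFib_PL_none p _ h, scFib_PL_none p _ h, map_zero]
  · have h' := p.eq_some_iff.1 h
    rw [scFib_PL_some p _ h', scFib_PL_some p _ h', scFib_W]

theorem scW_comp_PL (p : X ≃. Y) (m : ScL2 I →L[ℂ] ScL2 I) :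
    scW Y m ∘L scPL p = scPL p ∘L scW X m := by
  ext1 ξ; exact scW_PL p m ξ

end Lift

end Claimed.Agent.R300
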