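import Mathlib

/-!
# Row 300: a free product of torsion-free groups is torsion-free
-/

set_option autoImplicit false
set_option linter.unusedSectionVars false

namespace Claimed.Agent.R300

open Monoid.CoprodI

variable {I : Type*} {M : I → Type*} [∀ i, Group (M i)]

/-- The product of a list of letters in the free product. -/
def scLP (l : List (Σ i, M i)) : Monoid.CoprodI M := (l.map fun x => of x.2).prod

/-- Reduced lists of letters. -/
def ScRedList (l : List (Σ i, M i)) : Prop :=
  (∀ x ∈ l, x.2 ≠ 1) ∧ l.IsChain fun a b => a.1 ≠ b.1

theorem scLP_append (l l' : List (Σ i, M i)) : scLP (l ++ l') = scLP l * scLP l' := by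
  simp [scLP]

theorem scLP_cons (x : Σ i, M i) (l : List (Σ i, M i)) : scLP (x :: l) = of x.2 * scLP l := by
  simp [scLP]

theorem scLP_singleton (x : Σ i, M i) : scLP [x] = of x.2 := by
  simp [scLP]

theorem scLP_ne_one {l : List (Σ i, M i)} (h : ScRedList l) (hne : l ≠ []) : scLP l ≠ 1 := by
  classical
  intro h1
  let w : Word M := ⟨l, h.1, h.2⟩
  have h2 : w.prod = (Word.empty : Word M).prod := h1
  have h3 : w = Word.empty := Word.equiv.symm.injective h2
  exact hne (congrArg Word.toList h3)

/-- The `n`-fold concatenation. -/
def scListPow (l : List (Σ i, M i)) : ℕ → List (Σ i, M i)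
  | 0 => []
  | n + 1 => l ++ scListPow l n

theorem scLP_listPow (l : List (Σ i, M i)) (n : ℕ) : scLP (scListPow l n) = scLP l ^ n := by
  induction n with
  | zero => simp [scListPow, scLP]
  | succ n ih => rw [scListPow, scLP_append, ih, pow_succ']

theorem scListPow_head (l : List (Σ i, M i)) (n : ℕ) :
    ∀ y ∈ (scListPow l n).head?, y ∈ l.head? := by
  induction n with
  | zero => simp [scListPow]
  | succ n ih =>
    intro y hy
    rw [scListPow] at hy
    cases l with
    | nil => simpa using ih y (by simpa using hy)
    | cons a l => simpa using hy

theorem scListPow_red {l : List (Σ i, M i)} (h : ScRedList l)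
    (hcyc : ∀ x ∈ l.getLast?, ∀ y ∈ l.head?, x.1 ≠ y.1) (n : ℕ) : ScRedList (scListPow l n) := by
  induction n with
  | zero => exact ⟨by simp [scListPow], by simp [scListPow]⟩
  | succ n ih =>
    refine ⟨?_, ?_⟩
    · intro x hx
      rw [scListPow, List.mem_append] at hx
      rcases hx with hx | hx
      · exact h.1 x hx
      · exact ih.1 x hx
    · rw [scListPow, List.isChain_append]
      exact ⟨h.2, ih.2, fun x hx y hy => hcyc x hx y (scListPow_head l n y hy)⟩

theorem scLP_pow_ne_one (hM : ∀ i (g : M i), IsOfFinOrder g → g = 1) :
    ∀ (k : ℕ) (l : List (Σ i, M i)), l.length ≤ k → ScRedList l → l ≠ [] →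
      ∀ n, 0 < n → scLP l ^ n ≠ 1 := by
  intro k
  induction k with
  | zero =>
    intro l hl _ hne
    exact absurd (List.length_eq_zero_iff.mp (Nat.le_zero.mp hl)) hne
  | succ k ih =>
    intro l hl hred hne n hn
    cases l with
    | nil => exact absurd rfl hne
    | cons x t =>
      obtain ⟨i, a⟩ := x
      rcases List.eq_nil_or_concat t with rfl | ⟨m, y, rfl⟩
      · -- a single letter
        rw [scLP_singleton, ← map_pow]
        intro h1
        have h2 : a ^ n = 1 := of_injective i (by rw [h1, map_one])
        exact hred.1 ⟨i, a⟩ (by simp) (hM i a (isOfFinOrder_iff_pow_eq_one.mpr ⟨n, hn, h2⟩))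
      · obtain ⟨j, b⟩ := y
        rw [List.concat_eq_append] at hl hred hne ⊢
        by_cases hij : i = j
        · subst hij
          -- conjugate by the first letter
          have hchain := hred.2
          rw [List.isChain_cons, List.isChain_append] at hchain
          obtain ⟨hhead, hm, _, hlast⟩ := hchain
          have hmne : ∀ x ∈ m, x.2 ≠ 1 := fun x hx => hred.1 x (by simp [hx])
          have hconj : scLP (⟨i, a⟩ :: (m ++ [⟨i, b⟩])) =
              of a * (scLP m * of (b * a)) * (of a)⁻¹ := by
            rw [scLP_cons, scLP_append, scLP_singleton, map_mul]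
            group
          rw [hconj, conj_pow]
          intro h1
          have h2 : (scLP m * of (b * a)) ^ n = 1 := by
            have := congrArg (fun z => (of a)⁻¹ * z * of a) h1
            simpa [mul_assoc] using this
          have hlen : m.length + 1 ≤ k := by
            simp only [List.length_cons, List.length_append, List.length_nil] at hl
            omega
          by_cases hba : b * a = 1
          · rw [hba, map_one, mul_one] at h2
            have hmnil : m ≠ [] := by
              rintro rfl
              exact hhead ⟨i, b⟩ (by simp) rfl
            exact ih m (by omega) ⟨hmne, hm⟩ hmnil n hn h2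
          · have hred' : ScRedList (m ++ [(⟨i, b * a⟩ : Σ i, M i)]) := by
              refine ⟨?_, ?_⟩
              · intro x hx
                rw [List.mem_append, List.mem_singleton] at hx
                rcases hx with hx | rfl
                · exact hmne x hx
                · exact hba
              · rw [List.isChain_append]
                refine ⟨hm, by simp, fun x hx y hy => ?_⟩
                have hy' : y = ⟨i, b * a⟩ := by simpa using hy.symm
                rw [hy']
                exact hlast x hx ⟨i, b⟩ (by simp)
            refine ih (m ++ [(⟨i, b * a⟩ : Σ i, M i)]) (by simpa using hlen) hred' (by simp) n hn ?_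
            rw [scLP_append, scLP_singleton]
            exact h2
        · -- cyclically reduced
          rw [← scLP_listPow]
          refine scLP_ne_one (scListPow_red hred ?_ n) ?_
          · intro x hx y hy
            have hx' : x = ⟨j, b⟩ := by
              have : (⟨i, a⟩ :: (m ++ [(⟨j, b⟩ : Σ i, M i)])).getLast? = some ⟨j, b⟩ := by
                rw [← List.cons_append, List.getLast?_append]; simp
              rw [this] at hx
              simpa using hx.symm
            have hy' : y = ⟨i, a⟩ := by simpa using hy.symm
            rw [hx', hy']
            exact fun h => hij h.symm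
          · obtain ⟨n', rfl⟩ : ∃ n', n = n' + 1 := ⟨n - 1, by omega⟩
            simp [scListPow]

/-- **A free product of torsion-free groups is torsion-free.** -/
theorem sc_coprodI_torsionFree (h : ∀ i (g : M i), IsOfFinOrder g → g = 1) :
    ∀ x : Monoid.CoprodI M, IsOfFinOrder x → x = 1 := by
  classical
  intro x hx
  obtain ⟨n, hn, hxn⟩ := isOfFinOrder_iff_pow_eq_one.mp hx
  set w : Word M := Word.equiv x with hw
  have hprod : scLP w.toList = x := Word.equiv.symm_apply_apply x
  by_contra hne
  have hnil : w.toList ≠ [] := by
    intro h0
    rw [h0] at hprod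
    exact hne (hprod.symm.trans (by simp [scLP]))
  refine scLP_pow_ne_one h _ w.toList le_rfl ⟨w.ne_one, w.chain_ne⟩ hnil n hn ?_
  rw [hprod, hxn]

end Claimed.Agent.R300
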