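import Claimed.Agent.R300.ShellNext

/-!
# Shelling library, part 5b: the union of the stages
-/

namespace Claimed.Agent.R300.Shell

universe u v w

variable {S : Type u} {T : Type v} {Q : Type w} {Θ : RelSys S T Q}

/-- vertices of the union -/
def YW (Θ : RelSys S T Q) (z : Raw S T) : Prop := ∃ n, (stg Θ n).W z
/-- edges of the union -/
def YE (Θ : RelSys S T Q) (a : Raw S T) (l : S × Bool) (b : Raw S T) : Prop := ∃ n, (stg Θ n).E a l b
/-- official incidences of the union -/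
def YOff (Θ : RelSys S T Q) (z : Raw S T) (x : T) : Prop := ∃ n, (stg Θ n).Off z x

@[simp] theorem stg_n (n : ℕ) : (stg Θ n).n = n := by
  induction n with
  | zero => rfl
  | succ n ih => show (stg Θ n).n + 1 = n + 1; rw [ih]

theorem stg_W_mono {m n : ℕ} (hmn : m ≤ n) {z : Raw S T} (h : (stg Θ m).W z) : (stg Θ n).W z := by
  induction hmn with
  | refl => exact h
  | step _ ih => exact Or.inl ih

theorem stg_E_mono {m n : ℕ} (hmn : m ≤ n) {a b : Raw S T} {l : S × Bool}
    (h : (stg Θ m).E a l b) : (stg Θ n).E a l b := by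
  induction hmn with
  | refl => exact h
  | step _ ih => exact Or.inl ih

theorem stg_Off_mono {m n : ℕ} (hmn : m ≤ n) {z : Raw S T} {x : T} (h : (stg Θ m).Off z x) :
    (stg Θ n).Off z x := by
  induction hmn with
  | refl => exact h
  | step _ ih => exact Or.inl ih

/-- a finite path of the union lies in one stage -/
theorem YE_path {a b : Raw S T} {w : List (S × Bool)} (h : Path (YE Θ) a w b) :
    ∃ n, ∀ m, n ≤ m → Path (stg Θ m).E a w b := by
  induction h with
  | nil a => exact ⟨0, fun _ _ => Path.nil _⟩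
  | cons e _ ih =>
    obtain ⟨n₁, e₁⟩ := e
    obtain ⟨n₂, h₂⟩ := ih
    refine ⟨max n₁ n₂, fun m hm => Path.cons (stg_E_mono (le_trans (le_max_left _ _) hm) e₁)
      (h₂ m (le_trans (le_max_right _ _) hm))⟩

theorem path_YE {n : ℕ} {a b : Raw S T} {w : List (S × Bool)} (h : Path (stg Θ n).E a w b) :
    Path (YE Θ) a w b := h.mono fun _ _ _ e => ⟨n, e⟩

/-- a vertex exists from its own level on -/
theorem stg_W_level (hC : C6 Θ) {n : ℕ} {z : Raw S T} (h : (stg Θ n).W z) :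
    (stg Θ z.length).W z := by
  induction n with
  | zero =>
    have : z = [] := h
    subst this
    exact h
  | succ n ih =>
    rcases h with h | ⟨p, x', hp, hl⟩
    · exact ih h
    · rcases loc_cases (inv_stg hC n) hp hl with ⟨-, hv⟩ | ⟨-, -, hlen⟩
      · exact ih hv.1
      · rw [stg_n] at hlen
        rw [hlen]
        exact Or.inr ⟨p, x', hp, hl⟩

theorem YW_nil : YW Θ ([] : Raw S T) := ⟨0, rfl⟩

theorem YE_sym (hC : C6 Θ) : GSym (YE Θ) := by
  rintro a l b ⟨n, e⟩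
  exact ⟨n, (inv_stg hC n).sym e⟩

theorem YE_det (hC : C6 Θ) : GDet (YE Θ) := by
  rintro a l b c ⟨n₁, e₁⟩ ⟨n₂, e₂⟩
  exact (inv_stg hC (max n₁ n₂)).det (stg_E_mono (le_max_left _ _) e₁)
    (stg_E_mono (le_max_right _ _) e₂)

theorem YE_W (hC : C6 Θ) {a b : Raw S T} {l : S × Bool} (h : YE Θ a l b) : YW Θ a ∧ YW Θ b := by
  obtain ⟨n, e⟩ := h
  exact ⟨⟨n, (inv_stg hC n).E_W e⟩, ⟨n, (inv_stg hC n).E_W ((inv_stg hC n).sym e)⟩⟩

theorem YW_conn (hC : C6 Θ) {z : Raw S T} (h : YW Θ z) : ∃ w, Path (YE Θ) [] w z := by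
  obtain ⟨n, hn⟩ := h
  obtain ⟨w, hw⟩ := (inv_stg hC n).conn hn
  exact ⟨w, path_YE hw⟩

/-- every position is officially realised at every vertex, one level later -/
theorem stg_Off_all (hC : C6 Θ) {z : Raw S T} (h : YW Θ z) (x : T) :
    (stg Θ (z.length + 1)).Off z x := by
  obtain ⟨n, hn⟩ := h
  have h1 : (stg Θ (z.length + 1)).W z := stg_W_mono (Nat.le_succ _) (stg_W_level hC hn)
  exact (inv_stg hC (z.length + 1)).sat h1 (by rw [stg_n]; exact Nat.lt_succ_self _) x

/-- no copy attached before level `z.length` passes through `z` -/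
theorem stg_Off_level (hC : C6 Θ) {n : ℕ} {z : Raw S T} {x : T} (h : (stg Θ n).Off z x) :
    z.length ≤ n ∧ 0 < n := by
  refine ⟨?_, ?_⟩
  · have := (inv_stg hC n).W_len ((inv_stg hC n).Off_W h)
    rwa [stg_n] at this
  · cases n with
    | zero => exact h.elim
    | succ n => exact Nat.succ_pos n

/-- official copies are present in the union -/
theorem Y_run (hC : C6 Θ) {z : Raw S T} (h : YW Θ z) {x x' : T} {w : List (S × Bool)}
    (hx : Path Θ.E x w x') : ∃ z', Path (YE Θ) z w z' := by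
  obtain ⟨z', hz', -⟩ := (inv_stg hC (z.length + 1)).off_run (stg_Off_all hC h x) hx
  exact ⟨z', path_YE hz'⟩

/-- relators close everywhere, and copies embed -/
theorem Y_iff (hC : C6 Θ) {z z' : Raw S T} (h : YW Θ z) {x x' : T} {w : List (S × Bool)}
    (hx : Path Θ.E x w x') (hz : Path (YE Θ) z w z') : (z' = z ↔ x' = x) := by
  obtain ⟨n, hn⟩ := YE_path hz
  have ho : (stg Θ (max n (z.length + 1))).Off z x :=
    stg_Off_mono (le_max_right _ _) (stg_Off_all hC h x)
  exact (inv_stg hC (max n (z.length + 1))).Off_iff ho hx (hn _ (le_max_left _ _))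

/-- the union is complete -/
theorem YE_total (hC : C6 Θ) (hL : AllLetters Θ) {z : Raw S T} (h : YW Θ z) (l : S × Bool) :
    ∃ z', YE Θ z l z' := by
  obtain ⟨x, x', e⟩ := hL l
  obtain ⟨z', hz'⟩ := Y_run hC h (path_single_iff.2 e)
  exact ⟨z', path_single_iff.1 hz'⟩

theorem Y_path_total (hC : C6 Θ) (hL : AllLetters Θ) {z : Raw S T} (h : YW Θ z)
    (w : List (S × Bool)) : ∃ z', Path (YE Θ) z w z' := by
  induction w generalizing z with
  | nil => exact ⟨z, Path.nil _⟩
  | cons l w ih =>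
    obtain ⟨b, e⟩ := YE_total hC hL h l
    obtain ⟨z', hz'⟩ := ih (YE_W hC e).2
    exact ⟨z', Path.cons e hz'⟩

/-- the stage in which the sheet through `z` at `x` is attached:
`slevR z x = n` means that it is a new copy of `next (stg n)`. -/
noncomputable def slevR (Θ : RelSys S T Q) (z : Raw S T) (x : T) : ℕ :=
  sInf {n | (stg Θ (n + 1)).Off z x}

/-- the defining property of `slevR` -/
theorem slevR_spec (hC : C6 Θ) {z : Raw S T} (h : YW Θ z) (x : T) :
    ∃ p x₀, Canon Θ (stg Θ (slevR Θ z x)) p ∧ Loc Θ (stg Θ (slevR Θ z x)) p x₀ z ∧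
      Θ.pos x₀ = Θ.pos x := by
  have hne : {n | (stg Θ (n + 1)).Off z x}.Nonempty := ⟨z.length, stg_Off_all hC h x⟩
  have hmem : (stg Θ (slevR Θ z x + 1)).Off z x := Nat.sInf_mem hne
  rcases hmem with h0 | ⟨p, x₀, hp, hl, hx⟩
  · exfalso
    obtain ⟨-, hpos⟩ := stg_Off_level hC h0
    obtain ⟨k, hk⟩ := Nat.exists_eq_succ_of_ne_zero hpos.ne'
    have hk' : k ∈ {n | (stg Θ (n + 1)).Off z x} := by
      show (stg Θ (k + 1)).Off z x
      rw [← Nat.succ_eq_add_one, ← hk]; exact h0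
    have : slevR Θ z x ≤ k := Nat.sInf_le hk'
    omega
  · exact ⟨p, x₀, hp, hl, hx⟩

/-- uniqueness of the stage -/
theorem slevR_unique (hC : C6 Θ) {n : ℕ} {z : Raw S T} {x x₀ : T} {p : Raw S T × T}
    (hp : Canon Θ (stg Θ n) p) (hl : Loc Θ (stg Θ n) p x₀ z) (hx : Θ.pos x₀ = Θ.pos x) :
    slevR Θ z x = n := by
  have hmem : n ∈ {n | (stg Θ (n + 1)).Off z x} := Or.inr ⟨p, x₀, hp, hl, hx⟩
  apply le_antisymm (Nat.sInf_le hmem)
  by_contra hlt
  rw [not_le] at hlt
  have h0 : (stg Θ (slevR Θ z x + 1)).Off z x := Nat.sInf_mem ⟨n, hmem⟩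
  have h1 : (stg Θ n).Off z x := stg_Off_mono hlt h0
  rcases loc_cases (inv_stg hC n) hp hl with ⟨ho, -⟩ | ⟨-, hw, -⟩
  · exact (locOld_task (inv_stg hC n) hp ho).2 ((inv_stg hC n).Off_pos h1 hx.symm)
  · exact hw ((inv_stg hC n).Off_W h1)

end Claimed.Agent.R300.Shell
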