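import Claimed.Agent.R300.ShellPsi
import Claimed.Agent.R300.ShellUnion

/-!
# Shelling library, part 5c: the union of the stages is the Cayley graph

The group acts on the vertices of the union (complete, deterministic, all relators close), hence
the developing map is a bijection.
-/

namespace Claimed.Agent.R300.Shell

universe u v w

variable {S : Type u} {T : Type v} {Q : Type w} {Θ : RelSys S T Q}

theorem psi_YE {a b : Raw S T} {l : S × Bool} (h : YE Θ a l b) :
    psi Θ b = psi Θ a * gw Θ [l] := by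
  obtain ⟨n, e⟩ := h
  exact psiOK_stg n e

theorem psi_Ypath {a b : Raw S T} {w : List (S × Bool)} (h : Path (YE Θ) a w b) :
    psi Θ b = psi Θ a * gw Θ w := by
  induction h with
  | nil a => simp
  | @cons a b c l w e _ ih => rw [ih, psi_YE e, gw_cons l w, mul_assoc]

theorem Ypath_W (hC : C6 Θ) {a b : Raw S T} {w : List (S × Bool)} (ha : YW Θ a)
    (h : Path (YE Θ) a w b) : YW Θ b := by
  induction h with
  | nil a => exact ha
  | cons e _ ih => exact ih (YE_W hC e).2

/-- a closed path can be replaced by any path reading a word with the same image in the free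
group -/
theorem Y_close_transfer (hC : C6 Θ) {z z' : Raw S T} {u v : List (S × Bool)}
    (hv : Path (YE Θ) z v z) (he : FreeGroup.mk v = FreeGroup.mk u) (hu : Path (YE Θ) z u z') :
    z' = z := by
  obtain ⟨u', hr, hm, hp⟩ := hu.exists_reduced (YE_sym hC) (YE_det hC)
  have h2 : Path (YE Θ) z u' z := hv.of_mk_eq (YE_sym hC) (YE_det hC) hr (he.trans hm.symm)
  exact hp.det (YE_det hC) h2

/-- the elements of the free group all of whose words close up at every vertex of the union -/
def closeSub (hC : C6 Θ) (hL : AllLetters Θ) : Subgroup (FreeGroup S) where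
  carrier := {g | ∀ u, FreeGroup.mk u = g → ∀ z z', YW Θ z → Path (YE Θ) z u z' → z' = z}
  one_mem' := by
    intro u hu z z' _ hp
    exact Y_close_transfer hC (Path.nil z) hu.symm hp
  mul_mem' := by
    intro g k hg hk u hu z z' hz hp
    obtain ⟨a, rfl⟩ := Quot.exists_rep g
    obtain ⟨b, rfl⟩ := Quot.exists_rep k
    obtain ⟨z₁, p₁⟩ := Y_path_total hC hL hz a
    have e₁ : z₁ = z := hg a rfl z z₁ hz p₁
    subst e₁
    obtain ⟨z₂, p₂⟩ := Y_path_total hC hL hz b
    have e₂ : z₂ = z₁ := hk b rfl z₁ z₂ hz p₂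
    subst e₂
    exact Y_close_transfer hC (p₁.append p₂) (by rw [hu]; rfl) hp
  inv_mem' := by
    intro g hg u hu z z' hz hp
    obtain ⟨a, rfl⟩ := Quot.exists_rep g
    obtain ⟨z₁, p₁⟩ := Y_path_total hC hL hz a
    have e₁ : z₁ = z := hg a rfl z z₁ hz p₁
    subst e₁
    exact Y_close_transfer hC (p₁.inv (YE_sym hC)) (by rw [hu]; rfl) hp

instance closeSub_normal (hC : C6 Θ) (hL : AllLetters Θ) : (closeSub hC hL).Normal where
  conj_mem := by
    intro n hn g u hu z z' hz hp
    obtain ⟨a, rfl⟩ := Quot.exists_rep g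
    obtain ⟨b, rfl⟩ := Quot.exists_rep n
    obtain ⟨z₁, p₁⟩ := Y_path_total hC hL hz a
    have hz₁ : YW Θ z₁ := Ypath_W hC hz p₁
    obtain ⟨z₂, p₂⟩ := Y_path_total hC hL hz₁ b
    have e₂ : z₂ = z₁ := hn b rfl z₁ z₂ hz₁ p₂
    subst e₂
    exact Y_close_transfer hC ((p₁.append p₂).append (p₁.inv (YE_sym hC))) (by rw [hu]; rfl) hp

theorem rels_le_closeSub (hC : C6 Θ) (hL : AllLetters Θ) :
    rels Θ ⊆ (closeSub hC hL : Set (FreeGroup S)) := by
  rintro r ⟨x, w, hw, rfl⟩ u hu z z' hz hp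
  obtain ⟨z₁, p₁⟩ := Y_run hC hz hw
  have e₁ : z₁ = z := (Y_iff hC hz hw p₁).2 rfl
  subst e₁
  exact Y_close_transfer hC p₁ hu.symm hp

/-- Words which are trivial in the group close up at every vertex of the union.
(Route: the letters act as permutations of `{z // YW Θ z}`; `FreeGroup.lift`, the relators are in
the kernel by `Y_iff`, `PresentedGroup.toGroup`.) -/
theorem Y_closes_of_gw_eq_one (hC : C6 Θ) (hL : AllLetters Θ) {z z' : Raw S T} (h : YW Θ z)
    {w : List (S × Bool)} (hw : gw Θ w = 1) (hp : Path (YE Θ) z w z') : z' = z := by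
  have h1 : FreeGroup.mk w ∈ Subgroup.normalClosure (rels Θ) := PresentedGroup.mk_eq_one_iff.1 hw
  have h2 : FreeGroup.mk w ∈ closeSub hC hL :=
    Subgroup.normalClosure_le_normal (rels_le_closeSub hC hL) h1
  exact h2 w rfl z z' h hp

theorem psi_injOn (hC : C6 Θ) (hL : AllLetters Θ) {z z' : Raw S T} (h : YW Θ z) (h' : YW Θ z')
    (he : psi Θ z = psi Θ z') : z = z' := by
  obtain ⟨w, pw⟩ := YW_conn hC h
  obtain ⟨w', pw'⟩ := YW_conn hC h'
  have e1 := psi_Ypath pw
  have e2 := psi_Ypath pw'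
  have hp : Path (YE Θ) z (FreeGroup.invRev w ++ w') z' := (pw.inv (YE_sym hC)).append pw'
  have hg : gw Θ (FreeGroup.invRev w ++ w') = 1 := by
    rw [gw_append, gw_invRev]
    have : gw Θ w = gw Θ w' := by
      have h3 : psi Θ ([] : Raw S T) = 1 := rfl
      rw [h3, one_mul] at e1 e2
      rw [← e1, ← e2, he]
    rw [this, inv_mul_cancel]
  exact (Y_closes_of_gw_eq_one hC hL h hg hp).symm

theorem psi_surj (hC : C6 Θ) (hL : AllLetters Θ) (g : Gam Θ) : ∃ z, YW Θ z ∧ psi Θ z = g := by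
  obtain ⟨w, rfl⟩ := gw_surjective g
  obtain ⟨z, pz⟩ := Y_path_total hC hL YW_nil w
  refine ⟨z, Ypath_W hC YW_nil pz, ?_⟩
  rw [psi_Ypath pz]
  have h3 : psi Θ ([] : Raw S T) = 1 := rfl
  rw [h3, one_mul]

/-- the inverse of the developing map -/
noncomputable def phi (hC : C6 Θ) (hL : AllLetters Θ) (g : Gam Θ) : Raw S T :=
  (psi_surj hC hL g).choose

theorem phi_W (hC : C6 Θ) (hL : AllLetters Θ) (g : Gam Θ) : YW Θ (phi hC hL g) :=
  (psi_surj hC hL g).choose_spec.1

@[simp] theorem psi_phi (hC : C6 Θ) (hL : AllLetters Θ) (g : Gam Θ) :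
    psi Θ (phi hC hL g) = g := (psi_surj hC hL g).choose_spec.2

theorem phi_psi (hC : C6 Θ) (hL : AllLetters Θ) {z : Raw S T} (h : YW Θ z) :
    phi hC hL (psi Θ z) = z :=
  psi_injOn hC hL (phi_W hC hL _) h (psi_phi hC hL _)

theorem phi_one (hC : C6 Θ) (hL : AllLetters Θ) : phi hC hL (1 : Gam Θ) = [] := by
  apply psi_injOn hC hL (phi_W hC hL _) YW_nil
  rw [psi_phi]
  rfl

/-- paths of the union = right multiplication in the group -/
theorem phi_path (hC : C6 Θ) (hL : AllLetters Θ) (g : Gam Θ) (w : List (S × Bool)) :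
    Path (YE Θ) (phi hC hL g) w (phi hC hL (g * gw Θ w)) := by
  obtain ⟨z', pz⟩ := Y_path_total hC hL (phi_W hC hL g) w
  have h1 : psi Θ z' = g * gw Θ w := by rw [psi_Ypath pz, psi_phi]
  have h2 : phi hC hL (g * gw Θ w) = z' := by
    rw [← h1]
    exact phi_psi hC hL (Ypath_W hC (phi_W hC hL g) pz)
  rw [h2]
  exact pz

end Claimed.Agent.R300.Shell
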