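import Claimed.Agent.R300.ShellT0

/-!
# Shelling library, part 3f: classes of tasks, canonical tasks (T6)
-/

namespace Claimed.Agent.R300.Shell

universe u v w

variable {S : Type u} {T : Type v} {Q : Type w} {Θ : RelSys S T Q} {s : Stg S T}

/-! ### T6: classes of tasks and canonical tasks -/

theorem Eqv.refl (p : Raw S T × T) : Eqv Θ s p p := ⟨p.2, Tr.refl _ _, rfl⟩

theorem Eqv.symm (h : Inv Θ s) {p q : Raw S T × T} (hpq : Eqv Θ s p q) : Eqv Θ s q p := by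
  obtain ⟨x'', ⟨w, h1, h2⟩, hx⟩ := hpq
  obtain ⟨z, hz, hz'⟩ := pos_path hx (h2.inv Θ.sym)
  exact ⟨z, ⟨_, h1.inv h.sym, hz⟩, hz'⟩

theorem Eqv.trans (h : Inv Θ s) {p q r : Raw S T × T} (hpq : Eqv Θ s p q) (hqr : Eqv Θ s q r) :
    Eqv Θ s p r := by
  obtain ⟨x₁, ⟨w, h1, h2⟩, hx⟩ := hpq
  obtain ⟨x₂, ⟨w', k1, k2⟩, hx'⟩ := hqr
  obtain ⟨z, hz, hz'⟩ := pos_path hx.symm k2
  exact ⟨z, ⟨w ++ w', h1.append k1, h2.append hz⟩, hz'.trans hx'⟩

theorem task_of_eqv (h : Inv Θ s) {p q : Raw S T × T} (ht : Task s p.1 p.2)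
    (hpq : Eqv Θ s p q) : Task s q.1 q.2 := by
  obtain ⟨x'', htr, hx⟩ := hpq
  exact task_pos h (task_of_tr h ht htr) hx

theorem pick_mem {α : Type*} {C : Set α} (d : α) (hC : C.Nonempty) : pick C d ∈ C := by
  unfold pick
  rw [dif_pos hC]
  exact hC.some_mem

theorem pick_congr {α : Type*} {C : Set α} (d d' : α) (hC : C.Nonempty) :
    pick C d = pick C d' := by
  unfold pick
  rw [dif_pos hC, dif_pos hC]

theorem eqv_rep (p : Raw S T × T) : Eqv Θ s p (rep Θ s p) :=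
  pick_mem (C := cls Θ s p) p ⟨p, Eqv.refl p⟩

theorem cls_eq_of_eqv (h : Inv Θ s) {p q : Raw S T × T} (hpq : Eqv Θ s p q) :
    cls Θ s p = cls Θ s q := by
  ext r
  exact ⟨fun hr => (hpq.symm h).trans h hr, fun hr => hpq.trans h hr⟩

theorem rep_eq_of_eqv (h : Inv Θ s) {p q : Raw S T × T} (hpq : Eqv Θ s p q) :
    rep Θ s p = rep Θ s q := by
  unfold rep
  rw [cls_eq_of_eqv h hpq]
  exact pick_congr _ _ ⟨q, Eqv.refl q⟩

theorem canon_rep (h : Inv Θ s) {p : Raw S T × T} (ht : Task s p.1 p.2) :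
    Canon Θ s (rep Θ s p) :=
  ⟨task_of_eqv h ht (eqv_rep p), (rep_eq_of_eqv h (eqv_rep p)).symm⟩

theorem canon_eq_of_eqv (h : Inv Θ s) {p q : Raw S T × T} (hp : Canon Θ s p) (hq : Canon Θ s q)
    (hpq : Eqv Θ s p q) : p = q := by
  rw [← hp.2, ← hq.2]
  exact rep_eq_of_eqv h hpq

end Claimed.Agent.R300.Shell
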