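import Claimed.Agent.R300.ShellTwo

/-!
# Shelling library, part 3e: second injectivity (T5)
-/

namespace Claimed.Agent.R300.Shell

universe u v w

variable {S : Type u} {T : Type v} {Q : Type w} {Θ : RelSys S T Q} {s : Stg S T}

/- PROOF OF `tr_closed_nil`.  Suppose `w ≠ []`.  Take `w = w₁ ++ w₂`, `t₁` from `tr_two` (greedy).
`w₁ ≠ []` (the first edge lies in an official copy by `Inv.E_Off`, so maximality excludes `w₁ = []`).
Q1: `s.Off y x₁`, `x₁` reads `w₁` up to `x₁'`.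
Case `w₂ = []`: `Path s.E y w₁ y`, so `x₁' = x₁` by `Inv.Off_iff`; `w₁` is one piece at `x₁`
  (second reading from `x`, `task_off_pos_ne`), closed: `C6` gives `mk w₁ = 1`, so `w₁ = []`.
Case `w₂ ≠ []`: Q2: `s.Off t₁ x₂`, `x₂` reads `w₂` up to `x₂'`, `s.Off y x₂'`.
  (a) `pos x₁' ≠ pos x₂` by maximality (as in `no_three`).
  (b) `pos x₁ ≠ pos x₂'`: otherwise `x₂'` reads `w₁` up to some `x~` with `pos x~ = pos x₁'`;
      `Path s.E t₁ (w₂ ++ w₁) t₁` and `Inv.Off_iff` give `x~ = x₂`, against (a).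
  (c) so `y = br b₀ :: y₀` and `t₁ = br b₁ :: y₁` (`Inv.shared`); `branch_geodesic` in Q1 with `v = w₁`:
      `y₀ = y₁`, `b₀ = c ++ d₀`, `b₁ = c ++ d₁`, `w₁ = invRev d₀ ++ d₁`.
  (d) in Q2: `Inv.br_off` gives `Path a₀' b₀ x₂'` and `Path a₁' b₁ x₂`.  The word
      `w₂ ++ invRev b₀ ++ b₁` is closed at `t₁` in the stage, so closed at `x₂` by `Inv.Off_iff`; hence
      `a₀'` reads `b₁` up to `x₂`, and `a₀' = a₁'` (`Path.det_left`).  Therefore `x₂'` reads
      `invRev d₀ ++ d₁ = w₁` up to `x₂`, and then `w₂`: `In1 y (w₁ ++ w₂)`, against maximality. -/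
/-- a reduced traced path which is closed in the stage is empty -/
theorem tr_closed_nil (h : Inv Θ s) (hC : C6 Θ) {y : Raw S T} {x x' : T} {w : List (S × Bool)}
    (ht : Task s y x) (hred : FreeGroup.IsReduced w) (hy : Path s.E y w y)
    (hx : Path Θ.E x w x') : w = [] := by
  by_contra hne
  obtain ⟨w₁, w₂, t₁, rfl, p1, p2, c1, c2, mx⟩ := tr_two h hC ht hred hy hx
  -- `w₁ ≠ []`
  have hw1 : w₁ ≠ [] := by
    rintro rfl
    obtain rfl : y = t₁ := path_nil_iff.1 p1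
    cases w₂ with
    | nil => exact hne rfl
    | cons l r =>
      obtain ⟨z, e, -⟩ := path_cons_iff.1 p2
      obtain ⟨x0, x0', ho, e0⟩ := h.E_Off e
      exact mx [l] r rfl (by simp) ⟨x0, ho, x0', by simpa using path_single_iff.2 e0⟩
  obtain ⟨x₁, ho1, x₁', px1⟩ := c1.resolve_left hw1
  obtain ⟨xm, hx1, hx2⟩ := path_append_iff.1 hx
  have htm : Task s t₁ xm := task_of_tr h ht ⟨w₁, p1, hx1⟩
  have ho1' : s.Off t₁ x₁' := h.off_path ho1 p1 px1
  have hpos1 : Θ.pos x ≠ Θ.pos x₁ := (task_off_pos_ne h ht ho1).symm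
  have hpc1 : Piece Θ x₁ w₁ x₁' := Piece.mk' (isReduced_left hred) px1 hx1 hpos1
  by_cases hw2 : w₂ = []
  · subst hw2
    obtain rfl : t₁ = y := path_nil_iff.1 p2
    obtain rfl : x₁' = x₁ := (h.Off_iff ho1 px1 p1).1 rfl
    have hmk := hC ((PChain.of_piece hpc1).mono (by norm_num : 1 ≤ 5))
    exact hw1 (eq_nil_of_isReduced_of_mk_eq_one (isReduced_left hred) hmk)
  · obtain ⟨x₂, ho2, x₂', px2⟩ := c2.resolve_left hw2
    have ho2' : s.Off y x₂' := h.off_path ho2 p2 px2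
    have hmax : ¬ In1 Θ s y (w₁ ++ w₂) := mx w₂ [] (by simp) hw2
    -- (a)
    have ha : Θ.pos x₁' ≠ Θ.pos x₂ := by
      intro he
      obtain ⟨z', hz', -⟩ := pos_path he.symm px2
      exact hmax ⟨x₁, ho1, z', px1.append hz'⟩
    -- (b)
    have hb : Θ.pos x₁ ≠ Θ.pos x₂' := by
      intro he
      obtain ⟨xt, hxt, hpt⟩ := pos_path he px1
      have : xt = x₂ := (h.Off_iff ho2 (px2.append hxt) (p2.append p1)).1 rfl
      subst this
      exact ha hpt.symm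
    -- (c)
    obtain ⟨y₀, b₀, rfl⟩ := h.shared ht.1 ho1 ho2' hb
    obtain ⟨y₁, b₁, rfl⟩ := h.shared htm.1 ho1' ho2 ha
    obtain ⟨rfl, c, d₀, d₁, rfl, rfl, hw⟩ := branch_geodesic h hC ht.1 htm.1 ho1 hpc1 p1
      ⟨x₂', ho2', hb.symm⟩ ⟨x₂, ho2, ha.symm⟩ (by
        intro v₁ v₂ t e pt
        rw [e] at hx1
        obtain ⟨b, hb1, -⟩ := path_append_iff.1 hx1
        exact (task_of_tr h ht ⟨v₁, pt, hb1⟩).1.2)
    -- (d)
    obtain ⟨a₀, pa0, -⟩ := h.br_off ht.1 ho2'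
    obtain ⟨a₁, pa1, hoa1⟩ := h.br_off htm.1 ho2
    have P0 := h.br_path_full ht.1
    have P1 := h.br_path_full htm.1
    have hclosed : a₀ = a₁ :=
      (h.Off_iff hoa1 (pa1.append (px2.append (pa0.inv Θ.sym)))
        (P1.append (p2.append (P0.inv h.sym)))).1 rfl
    subst hclosed
    obtain ⟨m, hm1, hm2⟩ := path_append_iff.1 pa0
    obtain ⟨m', hm1', hm2'⟩ := path_append_iff.1 pa1
    obtain rfl : m = m' := hm1.det Θ.det hm1'
    refine hmax ⟨x₂', ho2', x₂', ?_⟩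
    rw [hw]
    exact ((hm2.inv Θ.sym).append hm2').append px2

theorem tr_inj_right (h : Inv Θ s) (hC : C6 Θ) {y y' : Raw S T} {x x' x'' : T} (ht : Task s y x)
    (h1 : Tr Θ s y x y' x') (h2 : Tr Θ s y x y' x'') : x' = x'' := by
  have ht' : Task s y' x' := task_of_tr h ht h1
  obtain ⟨w, hw, q1, q2⟩ := Tr.exists_reduced h ((Tr.symm h h1).trans h2)
  obtain rfl := tr_closed_nil h hC ht' hw q1 q2
  exact path_nil_iff.1 q2

end Claimed.Agent.R300.Shell
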