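import Claimed.Agent.R300.ShellLocU

/-!
# Shelling library, part 4c: the successor stage is symmetric and deterministic
-/

namespace Claimed.Agent.R300.Shell

universe u v w

variable {S : Type u} {T : Type v} {Q : Type w} {Θ : RelSys S T Q} {s : Stg S T}

/- PROOFS.
`next_det_old_new`: `z` is old (`Inv.E_W`), so `LocOld p x' z` (`locOld_of_W`); extend the trace by the edge:
  `LocOld p x'' z₁`; `loc_fun`.
`next_det_new_new`: if `p = q`: `loc_inj`, `Θ.det`, `loc_fun`.  Otherwise `pos x₁ ≠ pos x₂` (`loc_copy_eq`).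
  * `z` old: `(z,x₁)`, `(z,x₂)` are tasks.  If `l` is present at `z` in `s.E` use `next_det_old_new` twice.
    Otherwise `BrV z [l]`, both targets are `br [l] :: z` (`LocBr`, `loc_fun`).
  * `z = br w :: y` (`LocBr` for both, same `(y,w)`): feet `a₁`, `a₂` with different positions, tasks at `y`.
    If `w ++ [l]` is reduced: `BrV y (w ++ [l])`, both targets are `br (w ++ [l]) :: y`.
    Otherwise `w = w' ++ [linv l]`, the targets are the locations of `a₁·w'`, `a₂·w'`: `bnode y w'`.
  * `z` private: the name determines `p`, so `p = q`. -/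
theorem next_sym (h : Inv Θ s) : GSym (next Θ s).E := by
  rintro a l b (e | ⟨p, x', x'', hp, e, h1, h2⟩)
  · exact Or.inl (h.sym e)
  · exact Or.inr ⟨p, x'', x', hp, Θ.sym e, h2, h1⟩

/-- an old edge and an edge of a new copy with the same origin and letter -/
theorem next_det_old_new (h : Inv Θ s) (hC : C6 Θ) {p : Raw S T × T} {x' x'' : T}
    {z z₁ z₂ : Raw S T} {l : S × Bool} (hp : Canon Θ s p) (e : s.E z l z₁) (e' : Θ.E x' l x'')
    (h1 : Loc Θ s p x' z) (h2 : Loc Θ s p x'' z₂) : z₁ = z₂ := by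
  obtain ⟨w, q1, q2⟩ := locOld_of_W h hp h1 (h.E_W e)
  have h3 : LocOld Θ s p x'' z₁ := ⟨w ++ [l], q1.concat e, q2.concat e'⟩
  exact loc_fun h hC hp (Or.inl h3) h2

/-- edges of two different new copies with the same origin and letter -/
theorem next_det_new_new (h : Inv Θ s) (hC : C6 Θ) {p q : Raw S T × T} {x₁ x₁' x₂ x₂' : T}
    {z z₁ z₂ : Raw S T} {l : S × Bool} (hp : Canon Θ s p) (hq : Canon Θ s q)
    (e₁ : Θ.E x₁ l x₁') (a₁ : Loc Θ s p x₁ z) (b₁ : Loc Θ s p x₁' z₁)
    (e₂ : Θ.E x₂ l x₂') (a₂ : Loc Θ s q x₂ z) (b₂ : Loc Θ s q x₂' z₂) : z₁ = z₂ := by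
  by_cases hpq : p = q
  · subst hpq
    obtain rfl := loc_inj h hC hp a₁ a₂
    obtain rfl := Θ.det e₁ e₂
    exact loc_fun h hC hp b₁ b₂
  have hpos : Θ.pos x₁ ≠ Θ.pos x₂ := fun he => hpq (loc_copy_eq h hC hp hq a₁ a₂ he)
  by_cases hz : s.W z
  · -- `z` is old
    have o₁ := locOld_of_W h hp a₁ hz
    have o₂ := locOld_of_W h hq a₂ hz
    have T₁ := locOld_task h hp o₁
    have T₂ := locOld_task h hq o₂
    by_cases hl : ∃ z', s.E z l z'
    · obtain ⟨z', e⟩ := hl
      rw [← next_det_old_new h hC hp e e₁ a₁ b₁, ← next_det_old_new h hC hq e e₂ a₂ b₂]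
    · have hb : BrV Θ s z [l] := BrV.intro T₁ T₂ hpos (by simp) FreeGroup.IsReduced.singleton
        (by
          intro k hk z' e
          simp only [List.head?_cons, Option.mem_def, Option.some.injEq] at hk
          subst hk
          exact hl ⟨z', e⟩)
        (path_single_iff.2 e₁) (path_single_iff.2 e₂)
      have c₁ : LocBr Θ s p x₁' (Mv.br [l] :: z) := ⟨z, x₁, [l], o₁, path_single_iff.2 e₁, hb, rfl⟩
      have c₂ : LocBr Θ s q x₂' (Mv.br [l] :: z) := ⟨z, x₂, [l], o₂, path_single_iff.2 e₂, hb, rfl⟩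
      rw [loc_fun h hC hp b₁ (Or.inr (Or.inl c₁)), loc_fun h hC hq b₂ (Or.inr (Or.inl c₂))]
  · -- `z` is new
    have n₁ : ¬ LocOld Θ s p x₁ z := fun o => hz (locOld_task h hp o).1.1
    have n₂ : ¬ LocOld Θ s q x₂ z := fun o => hz (locOld_task h hq o).1.1
    rcases a₁ with o | ⟨y, a, w, tr, pa, hbr, rfl⟩ | ⟨-, -, -, rfl⟩
    · exact absurd o n₁
    · rcases a₂ with o | ⟨y', a', w', tr', pa', hbr', heq⟩ | ⟨-, -, -, heq⟩
      · exact absurd o n₂
      · simp only [List.cons.injEq, Mv.br.injEq] at heq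
        obtain ⟨rfl, rfl⟩ := heq
        have Ta : Task s y a := task_of_tr h hp.1 tr
        have Ta' : Task s y a' := task_of_tr h hq.1 tr'
        have hne : Θ.pos a ≠ Θ.pos a' := fun he => hpos (pos_eq_of_path he pa pa')
        obtain ⟨-, hw0, hwr, hwh, -⟩ := id hbr
        rcases List.eq_nil_or_concat w with rfl | ⟨w₀, k, hwk⟩
        · exact absurd rfl hw0
        rw [List.concat_eq_append] at hwk
        subst hwk
        by_cases hlk : l = linv k
        · -- backtracking
          subst hlk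
          obtain ⟨m, pm, em⟩ := path_append_iff.1 pa
          obtain ⟨m', pm', em'⟩ := path_append_iff.1 pa'
          obtain rfl := Θ.det e₁ (Θ.sym (path_single_iff.1 em))
          obtain rfl := Θ.det e₂ (Θ.sym (path_single_iff.1 em'))
          by_cases hw₀ : w₀ = []
          · subst hw₀
            obtain rfl := path_nil_iff.1 pm
            obtain rfl := path_nil_iff.1 pm'
            rw [loc_fun h hC hp b₁ (Or.inl tr), loc_fun h hC hq b₂ (Or.inl tr')]
          · have hb := hbr.prefix hw₀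
            have c₁ : LocBr Θ s p x₁' (Mv.br w₀ :: y) := ⟨y, a, w₀, tr, pm, hb, rfl⟩
            have c₂ : LocBr Θ s q x₂' (Mv.br w₀ :: y) := ⟨y, a', w₀, tr', pm', hb, rfl⟩
            rw [loc_fun h hC hp b₁ (Or.inr (Or.inl c₁)), loc_fun h hC hq b₂ (Or.inr (Or.inl c₂))]
        · -- the branch goes on
          have hr : FreeGroup.IsReduced ((w₀ ++ [k]) ++ [l]) :=
            isReduced_append hwr FreeGroup.IsReduced.singleton (by
              intro c hc d hd
              simp only [List.getLast?_append, List.getLast?_singleton, Option.some_or,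
                Option.mem_def, Option.some.injEq, List.head?_cons] at hc hd
              subst hc hd
              exact hlk)
          have hb : BrV Θ s y ((w₀ ++ [k]) ++ [l]) := BrV.intro Ta Ta' hne (by simp) hr
            (by
              intro c hc
              apply hwh c
              rw [List.head?_append_of_ne_nil _ (by simp)] at hc
              exact hc)
            (pa.concat e₁) (pa'.concat e₂)
          have c₁ : LocBr Θ s p x₁' (Mv.br ((w₀ ++ [k]) ++ [l]) :: y) :=
            ⟨y, a, _, tr, pa.concat e₁, hb, rfl⟩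
          have c₂ : LocBr Θ s q x₂' (Mv.br ((w₀ ++ [k]) ++ [l]) :: y) :=
            ⟨y, a', _, tr', pa'.concat e₂, hb, rfl⟩
          rw [loc_fun h hC hp b₁ (Or.inr (Or.inl c₁)), loc_fun h hC hq b₂ (Or.inr (Or.inl c₂))]
      · simp at heq
    · rcases a₂ with o | ⟨y', a', w', tr', pa', hbr', heq⟩ | ⟨-, -, -, heq⟩
      · exact absurd o n₂
      · simp at heq
      · simp only [List.cons.injEq, Mv.pv.injEq] at heq
        exact absurd (Prod.ext heq.2 heq.1.1) hpq

/-- N5 -/
theorem next_det (h : Inv Θ s) (hC : C6 Θ) : GDet (next Θ s).E := by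
  rintro a l b c (e | ⟨p, x', x'', hp, e, h1, h2⟩) (e' | ⟨q, y', y'', hq, e', h1', h2'⟩)
  · exact h.det e e'
  · exact next_det_old_new h hC hq e e' h1' h2'
  · exact (next_det_old_new h hC hp e' e h1 h2).symm
  · exact next_det_new_new h hC hp hq e h1 h2 e' h1' h2'

end Claimed.Agent.R300.Shell
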