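import Claimed.Agent.R300.DomShell

/-!
# R300: the interface between the shelling construction (`Shell*`) and its consequences (`Dom*`)

`DomSys` describes a group `Γ` with letters `sig : S → Γ`, a labelled base graph
`(VB, EB, src, tgt, lab)` (`VB` = positions, `EB` = positive base edges) and a `Γ`-set `Sh` of
sheets; `sh v` is the sheet through the vertex `1` of the Cayley graph in which `1` has position `v`.

* formal Cayley graph: vertices `Γ`, edges `Γ × S`, `(g, a) : g ⟶ g * sig a`;
* disjoint union of all sheets: vertices (incidences) `Γ × VB`, edges `Γ × EB`,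
  `(g, e) : (g, src e) ⟶ (g * sig (lab e), tgt e)`; the sheet of `(g, v)` is `g • sh v`.

`DomSys.Shelled` is the output of the shelling construction: a well-order on the sheets such that
the part of every sheet shared with earlier sheets is connected and has a forest as its star.
-/

namespace Claimed.Agent.R300

open Finsupp
open scoped Classical

section
variable {Γ S : Type*} [Group Γ] (sig : S → Γ)

/-- source of a Cayley edge -/
def domCs : Γ × S → Γ := fun p => p.1
/-- target of a Cayley edge -/
def domCt : Γ × S → Γ := fun p => p.1 * sig p.2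

end

/-- A system of sheets over the Cayley graph of `Γ`. -/
structure DomSys (Γ S VB EB Sh : Type*) [Group Γ] [MulAction Γ Sh] where
  sig : S → Γ
  src : EB → VB
  tgt : EB → VB
  lab : EB → S
  sh : VB → Sh
  sh_edge : ∀ e, sig (lab e) • sh (tgt e) = sh (src e)
  sh_inj : Function.Injective sh
  fold_src : ∀ e e', src e = src e' → lab e = lab e' → e = e'

namespace DomSys

variable {Γ S VB EB Sh : Type*} [Group Γ] [MulAction Γ Sh] (Y : DomSys Γ S VB EB Sh)

/-- source of an edge of the union of all sheets -/
def xs : Γ × EB → Γ × VB := fun p => (p.1, Y.src p.2)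
/-- target of an edge of the union of all sheets -/
def xt : Γ × EB → Γ × VB := fun p => (p.1 * Y.sig (Y.lab p.2), Y.tgt p.2)
/-- the projection of the sheets to the Cayley graph, on edges -/
def pE : Γ × EB → Γ × S := fun p => (p.1, Y.lab p.2)
/-- the sheet of an incidence -/
def sheet : Γ × VB → Sh := fun p => p.1 • Y.sh p.2

theorem sheet_xt (p : Γ × EB) : Y.sheet (Y.xt p) = Y.sheet (Y.xs p) := by
  obtain ⟨g, e⟩ := p
  simp only [sheet, xt, xs]
  rw [mul_smul, Y.sh_edge]

theorem sheet_inj {g : Γ} {v w : VB} (h : Y.sheet (g, v) = Y.sheet (g, w)) : v = w :=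
  Y.sh_inj (MulAction.injective g h)

theorem sheet_smul (γ g : Γ) (v : VB) : Y.sheet (γ * g, v) = γ • Y.sheet (g, v) := by
  simp only [sheet, mul_smul]

/-- The shelling data attached to an injective map of the sheets to a linear order. -/
def toShell {I : Type*} [LinearOrder I] (ord : Sh → I)
    (hord : Function.Injective ord) : DomShell (Γ × VB) (Γ × EB) Γ (Γ × S) I where
  sX := Y.xs
  tX := Y.xt
  s := domCs
  t := domCt Y.sig
  pV := Prod.fst
  pE := Y.pE
  comp := fun x => ord (Y.sheet x)
  hs := fun _ => rfl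
  ht := fun _ => rfl
  hcomp := fun e => by rw [Y.sheet_xt]
  injV := by
    rintro ⟨g, v⟩ ⟨g', w⟩ h1 h2
    have h2' : g = g' := h2
    subst h2'
    rw [Y.sheet_inj (hord h1)]
  injE := by
    rintro ⟨g, e⟩ ⟨g', e'⟩ h1 h2
    have h2' : g = g' := congrArg Prod.fst h2
    have h3 : Y.lab e = Y.lab e' := congrArg Prod.snd h2
    subst h2'
    have h4 : Y.src e = Y.src e' := Y.sheet_inj (hord h1)
    rw [Y.fold_src e e' h4 h3]

/-- The output of the shelling construction. -/
structure Shelled (I : Type*) [LinearOrder I] where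
  ord : Sh → I
  ord_inj : Function.Injective ord
  SC : (Y.toShell ord ord_inj).SC
  SF : (Y.toShell ord ord_inj).SF
  cover : ∀ a : S, ∃ e, Y.lab e = a

variable {Y} {I : Type*} [LinearOrder I]

/-- the `DomShell` of a shelled system -/
def Shelled.shell (h : Y.Shelled I) : DomShell (Γ × VB) (Γ × EB) Γ (Γ × S) I :=
  Y.toShell h.ord h.ord_inj

/-- An incidence is *removed* if an earlier sheet passes through the same physical vertex. -/
def Shelled.Removed (h : Y.Shelled I) (x : Γ × VB) : Prop := h.shell.TV x

theorem Shelled.removed_iff (h : Y.Shelled I) (g : Γ) (v : VB) :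
    h.Removed (g, v) ↔ ∃ w, h.ord (Y.sheet (g, w)) < h.ord (Y.sheet (g, v)) := by
  constructor
  · rintro ⟨⟨g', w⟩, h1, h2⟩
    have h2' : g' = g := h2
    subst h2'
    exact ⟨w, h1⟩
  · rintro ⟨w, h1⟩
    exact ⟨(g, w), h1, rfl⟩

/-- Disjoint domains: a physical vertex is retained in at most one sheet. -/
theorem Shelled.retained_unique (h : Y.Shelled I) {g : Γ} {v w : VB}
    (hv : ¬ h.Removed (g, v)) (hw : ¬ h.Removed (g, w)) : v = w :=
  congrArg Prod.snd (h.shell.retained_injective hv hw rfl)

/-- Uniqueness of cycle coordinates. -/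
theorem Shelled.cycle_injective (h : Y.Shelled I) (ζ : Γ × EB →₀ ℤ)
    (hb : domBd Y.xs Y.xt ζ = 0) (hp : ζ.mapDomain Y.pE = 0) : ζ = 0 :=
  h.shell.cycle_injective h.SF ζ hb hp

/-- The internal edges: Cayley edges which are edges of a sheet with both ends retained. -/
def Shelled.Internal (h : Y.Shelled I) : Set (Γ × S) :=
  {ε | ∃ e, Y.lab e = ε.2 ∧ ¬ h.Removed (ε.1, Y.src e) ∧
    ¬ h.Removed (ε.1 * Y.sig ε.2, Y.tgt e)}

/-- The residual Cayley edges form a forest. -/
theorem Shelled.residual_forest [WellFoundedLT I] (h : Y.Shelled I) :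
    DomForest domCs (domCt Y.sig) (h.Internal)ᶜ := by
  have hcov : Function.Surjective h.shell.pE := by
    rintro ⟨g, a⟩
    obtain ⟨e, he⟩ := h.cover a
    exact ⟨(g, e), by change (g, Y.lab e) = (g, a); rw [he]⟩
  refine (h.shell.residual_forest h.SC h.SF hcov).mono ?_
  rintro ⟨g, a⟩ hε ⟨⟨g', e⟩, h1, h2, h3⟩
  have h1a : g' = g := congrArg Prod.fst h1
  have h1b : Y.lab e = a := congrArg Prod.snd h1
  subst h1a
  apply hε
  refine ⟨e, h1b, h2, ?_⟩
  have : (g' * Y.sig a, Y.tgt e) = Y.xt (g', e) := by simp only [xt, h1b]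
  simp only [this]
  exact h3

end DomSys

end Claimed.Agent.R300
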