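import Claimed.Agent.R300.ShellDet

/-!
# Shelling library, part 4d: invariants of the successor stage, first half
-/

namespace Claimed.Agent.R300.Shell

universe u v w

variable {S : Type u} {T : Type v} {Q : Type w} {Θ : RelSys S T Q} {s : Stg S T}

theorem next_E_W (h : Inv Θ s) ⦃a : Raw S T⦄ ⦃l : S × Bool⦄ ⦃b : Raw S T⦄
    (e : (next Θ s).E a l b) : (next Θ s).W a := by
  rcases e with e | ⟨p, x', x'', hp, -, h1, -⟩
  · exact Or.inl (h.E_W e)
  · exact Or.inr ⟨p, x', hp, h1⟩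

theorem next_W_len (h : Inv Θ s) ⦃z : Raw S T⦄ (hz : (next Θ s).W z) :
    z.length ≤ (next Θ s).n := by
  change z.length ≤ s.n + 1
  rcases hz with hz | ⟨p, x', hp, h1⟩
  · have := h.W_len hz; omega
  · rcases loc_cases h hp h1 with h2 | h2
    · have := h2.2.2; omega
    · omega

/-- the base point of a new copy -/
theorem loc_base (p : Raw S T × T) : Loc Θ s p p.2 p.1 := Or.inl (Tr.refl _ _)

theorem next_conn (h : Inv Θ s) (hC : C6 Θ) ⦃z : Raw S T⦄ (hz : (next Θ s).W z) :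
    ∃ w, Path (next Θ s).E [] w z := by
  rcases hz with hz | ⟨p, x', hp, h1⟩
  · obtain ⟨w, hw⟩ := h.conn hz
    exact ⟨w, hw.mono fun _ _ _ e => next_E_mono e⟩
  · obtain ⟨w, hw⟩ := h.conn hp.1.1.1
    obtain ⟨u, hu⟩ := loc_conn h1
    obtain ⟨z', hz', pz'⟩ := loc_path hp (loc_base p) hu
    have := loc_fun h hC hp hz' h1
    subst this
    exact ⟨w ++ u, (hw.mono fun _ _ _ e => next_E_mono e).append pz'⟩

theorem next_Off_W (h : Inv Θ s) ⦃z : Raw S T⦄ ⦃x : T⦄ (ho : (next Θ s).Off z x) :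
    (next Θ s).W z := by
  rcases ho with ho | ⟨p, x', hp, h1, -⟩
  · exact Or.inl (h.Off_W ho)
  · exact Or.inr ⟨p, x', hp, h1⟩

theorem next_Off_pos (h : Inv Θ s) ⦃z : Raw S T⦄ ⦃x x' : T⦄ (ho : (next Θ s).Off z x)
    (hx : Θ.pos x = Θ.pos x') : (next Θ s).Off z x' := by
  rcases ho with ho | ⟨p, x₀, hp, h1, h2⟩
  · exact Or.inl (h.Off_pos ho hx)
  · exact Or.inr ⟨p, x₀, hp, h1, h2.trans hx⟩

theorem next_Off_step (h : Inv Θ s) ⦃z : Raw S T⦄ ⦃x : T⦄ ⦃l : S × Bool⦄ ⦃x' : T⦄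
    (ho : (next Θ s).Off z x) (e : Θ.E x l x') :
    ∃ z', (next Θ s).E z l z' ∧ (next Θ s).Off z' x' := by
  rcases ho with ho | ⟨p, x₀, hp, h1, h2⟩
  · obtain ⟨z', e', o'⟩ := h.Off_step ho e
    exact ⟨z', Or.inl e', Or.inl o'⟩
  · obtain ⟨x₀', e₀, hx₀⟩ := Θ.pos_step h2.symm e
    obtain ⟨z', hz', ez'⟩ := loc_step hp h1 e₀
    exact ⟨z', ez', Or.inr ⟨p, x₀', hp, hz', hx₀⟩⟩

theorem next_Off_iff (h : Inv Θ s) (hC : C6 Θ) ⦃z : Raw S T⦄ ⦃x : T⦄ ⦃w : List (S × Bool)⦄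
    ⦃x' : T⦄ ⦃z' : Raw S T⦄ (ho : (next Θ s).Off z x) (hx : Path Θ.E x w x')
    (hz : Path (next Θ s).E z w z') : (z' = z ↔ x' = x) := by
  rcases ho with ho | ⟨p, x₀, hp, h1, h2⟩
  · obtain ⟨z'', p'', -⟩ := h.off_run ho hx
    have := (p''.mono fun _ _ _ e => next_E_mono (Θ := Θ) e).det (next_det h hC) hz
    subst this
    exact h.Off_iff ho hx p''
  · obtain ⟨x₀', hx₀, hpos⟩ := pos_path h2.symm hx
    obtain ⟨z'', hz'', pz''⟩ := loc_path hp h1 hx₀
    have := pz''.det (next_det h hC) hz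
    subst this
    constructor
    · rintro rfl
      have e0 : x₀' = x₀ := loc_inj h hC hp hz'' h1
      subst e0
      have := Θ.pos_close h2 hx₀
      exact hx.det Θ.det this
    · rintro rfl
      have := Θ.pos_close h2.symm hx
      have e0 : x₀' = x₀ := hx₀.det Θ.det this
      subst e0
      exact loc_fun h hC hp hz'' h1

theorem next_sat (h : Inv Θ s) ⦃z : Raw S T⦄ (hz : (next Θ s).W z)
    (hl : z.length < (next Θ s).n) (x : T) : (next Θ s).Off z x := by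
  change z.length < s.n + 1 at hl
  have hW : s.W z := by
    rcases hz with hz | ⟨p, x', hp, h1⟩
    · exact hz
    · rcases loc_cases h hp h1 with h2 | h2
      · exact h2.2.1
      · omega
  by_cases ho : s.Off z x
  · exact Or.inl ho
  · by_cases hlt : z.length < s.n
    · exact Or.inl (h.sat hW hlt x)
    · have ht : Task s z x := ⟨⟨hW, by omega⟩, ho⟩
      have hc := canon_rep (Θ := Θ) h (p := (z, x)) ht
      obtain ⟨x'', htr, hx⟩ := (eqv_rep (Θ := Θ) (s := s) (z, x)).symm h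
      exact Or.inr ⟨_, x'', hc, Or.inl htr, hx⟩

theorem next_E_Off (h : Inv Θ s) ⦃z : Raw S T⦄ ⦃l : S × Bool⦄ ⦃z' : Raw S T⦄
    (e : (next Θ s).E z l z') : ∃ x x', (next Θ s).Off z x ∧ Θ.E x l x' := by
  rcases e with e | ⟨p, x', x'', hp, e', h1, -⟩
  · obtain ⟨x, x', ho, e'⟩ := h.E_Off e
    exact ⟨x, x', Or.inl ho, e'⟩
  · exact ⟨x', x'', Or.inr ⟨p, x', hp, h1, rfl⟩, e'⟩

end Claimed.Agent.R300.Shell
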