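import Claimed.Agent.R300.ShellDet

/-!
# Shelling library, part 4e: invariants of the successor stage, second half
-/

namespace Claimed.Agent.R300.Shell

universe u v w

variable {S : Type u} {T : Type v} {Q : Type w} {Θ : RelSys S T Q} {s : Stg S T}

/-- an official incidence of the successor stage at a new vertex comes from a new copy -/
theorem next_Off_new (h : Inv Θ s) {z : Raw S T} {x : T} (hz : z.length = s.n + 1)
    (ho : (next Θ s).Off z x) : ∃ p x', Canon Θ s p ∧ Loc Θ s p x' z ∧ Θ.pos x' = Θ.pos x := by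
  rcases ho with ho | ho
  · have := h.W_len (h.Off_W ho); omega
  · exact ho

/-- a traced path consists of top level vertices -/
theorem tr_path_elow (h : Inv Θ s) {y y' : Raw S T} {x x' : T} {g : List (S × Bool)}
    (ht : Task s y x) (hy : Path s.E y g y') (hx : Path Θ.E x g x') :
    Path (next Θ s).Elow y g y' := by
  induction hy generalizing x with
  | nil => exact Path.nil _
  | @cons a b c l w e _ ih =>
    obtain ⟨x₁, e₁, hx₁⟩ := path_cons_iff.1 hx
    have ht' : Task s b x₁ := task_of_tr h ht ⟨[l], path_single_iff.2 e, path_single_iff.2 e₁⟩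
    refine Path.cons ⟨Or.inl e, ?_, ?_⟩ (ih ht' hx₁)
    · change a.length < s.n + 1
      have := ht.1.2; omega
    · change b.length < s.n + 1
      have := ht'.1.2; omega

/- PROOF OF `next_att`.  `t` has length `n+1`, so `ho` comes from a new copy: `Loc p x₀ t`, `pos x₀ = pos xt`.
Transport `u₁`, `u₂` to `x₀` (`pos_path`): end points `â₁`, `â₂`.  By `loc_path` and `next_det`:
`Loc p âᵢ yᵢ`, and `yᵢ` is old by its length (`loc_cases`), so `LocOld`.  Hence `Tr y₁ â₁ y₂ â₂`; take a reduced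
word `g`; `tr_pchain` gives 2 pieces; all vertices of the path are tasks, so of length `n < n+1`: `Elow`.
Transport the chain back to `a₁` (`PChain.transport`); its end is `a₂` by `pos_same_end`. -/
theorem next_att (h : Inv Θ s) (hC : C6 Θ) ⦃t : Raw S T⦄ ⦃xt : T⦄ ⦃u₁ : List (S × Bool)⦄ ⦃a₁ : T⦄
    ⦃y₁ : Raw S T⦄ ⦃u₂ : List (S × Bool)⦄ ⦃a₂ : T⦄ ⦃y₂ : Raw S T⦄
    (ht : (next Θ s).V t) (ho : (next Θ s).Off t xt)
    (hx1 : Path Θ.E xt u₁ a₁) (hy1 : Path (next Θ s).E t u₁ y₁) (hl1 : y₁.length < (next Θ s).n)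
    (hx2 : Path Θ.E xt u₂ a₂) (hy2 : Path (next Θ s).E t u₂ y₂) (hl2 : y₂.length < (next Θ s).n) :
    ∃ g, FreeGroup.IsReduced g ∧ PChain Θ 2 a₁ g a₂ ∧ Path (next Θ s).Elow y₁ g y₂ := by
  change y₁.length < s.n + 1 at hl1
  change y₂.length < s.n + 1 at hl2
  obtain ⟨p, x₀, hp, hloc, hpos⟩ := next_Off_new h ht.2 ho
  obtain ⟨â₁, q1, e1⟩ := pos_path hpos.symm hx1
  obtain ⟨â₂, q2, e2⟩ := pos_path hpos.symm hx2
  obtain ⟨z₁, l1, p1⟩ := loc_path hp hloc q1
  obtain ⟨z₂, l2, p2⟩ := loc_path hp hloc q2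
  have d1 := p1.det (next_det h hC) hy1
  have d2 := p2.det (next_det h hC) hy2
  subst d1 d2
  have o1 : LocOld Θ s p â₁ z₁ := by
    rcases loc_cases h hp l1 with h2 | h2
    · exact h2.1
    · omega
  have o2 : LocOld Θ s p â₂ z₂ := by
    rcases loc_cases h hp l2 with h2 | h2
    · exact h2.1
    · omega
  have t1 : Task s z₁ â₁ := locOld_task h hp o1
  obtain ⟨g, hg, gy, gx⟩ := (Tr.trans (Tr.symm h o1) o2).exists_reduced h
  have cg := tr_pchain h hC t1 hg gy gx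
  obtain ⟨a₂', cg', -⟩ := cg.transport e1
  refine ⟨g, hg, ?_, tr_path_elow h t1 gy gx⟩
  -- the end point of the transported chain is `a₂`
  have : a₂' = a₂ :=
    pos_same_end hpos (q1.append gx) q2 (hx1.append cg'.path) hx2
  subst this
  exact cg'

theorem next_shared (h : Inv Θ s) ⦃z : Raw S T⦄ ⦃x₁ x₂ : T⦄ (hz : (next Θ s).V z)
    (h1 : (next Θ s).Off z x₁) (h2 : (next Θ s).Off z x₂) (hne : Θ.pos x₁ ≠ Θ.pos x₂) :
    ∃ y w, z = Mv.br w :: y := by
  obtain ⟨p, a₁, hp, l1, e1⟩ := next_Off_new h hz.2 h1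
  obtain ⟨q, a₂, hq, l2, e2⟩ := next_Off_new h hz.2 h2
  have hzl : z.length = s.n + 1 := hz.2
  rcases l1 with o1 | ⟨y, a, w, -, -, -, rfl⟩ | ⟨-, -, -, rfl⟩
  · have := (locOld_task h hp o1).1.2; omega
  · exact ⟨y, w, rfl⟩
  · exfalso
    rcases l2 with o2 | ⟨y, a, w, -, -, -, hh⟩ | ⟨-, -, -, hh⟩
    · have := (locOld_task h hq o2).1.2; omega
    · simp at hh
    · simp only [List.cons.injEq, Mv.pv.injEq] at hh
      apply hne
      rw [← e1, ← e2, hh.1.2]

/-- a branch name is a vertex of the successor stage iff it is a shared branch -/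
theorem next_V_br (h : Inv Θ s) {y : Raw S T} {w : List (S × Bool)}
    (hz : (next Θ s).V (Mv.br w :: y)) : BrV Θ s y w := by
  have hzl : (Mv.br w :: y : Raw S T).length = s.n + 1 := hz.2
  rcases hz.1 with hW | ⟨p, x', hp, hl⟩
  · have := h.W_len hW; omega
  · rcases hl with o1 | ⟨y', a, w', -, -, hb, hh⟩ | ⟨-, -, -, hh⟩
    · have := (locOld_task h hp o1).1.2; omega
    · simp only [List.cons.injEq, Mv.br.injEq] at hh
      obtain ⟨rfl, rfl⟩ := hh
      exact hb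
    · simp at hh

theorem next_br_red (h : Inv Θ s) ⦃y : Raw S T⦄ ⦃w : List (S × Bool)⦄
    (hz : (next Θ s).V (Mv.br w :: y)) : FreeGroup.IsReduced w :=
  (next_V_br h hz).2.2.1

/-- the location of a node of a shared branch in a new copy containing the branch -/
theorem loc_bnode {p : Raw S T × T} {y : Raw S T} {a x' : T} {w₁ w₂ : List (S × Bool)}
    (htr : Tr Θ s p.1 p.2 y a) (hb : BrV Θ s y (w₁ ++ w₂)) (hx : Path Θ.E a w₁ x') :
    Loc Θ s p x' (bnode y w₁) := by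
  cases w₁ with
  | nil =>
    have := path_nil_iff.1 hx
    subst this
    exact Or.inl htr
  | cons l w =>
    exact Or.inr (Or.inl ⟨y, a, l :: w, htr, hx, hb.prefix (by simp), rfl⟩)

/-- a shared branch lies in a new copy -/
theorem BrV.exists_copy (h : Inv Θ s) {y : Raw S T} {w : List (S × Bool)} (hb : BrV Θ s y w) :
    ∃ p a x', Canon Θ s p ∧ Tr Θ s p.1 p.2 y a ∧ Path Θ.E a w x' := by
  obtain ⟨-, -, -, -, x₁, -, t1, -, -, ⟨z₁, p1⟩, -⟩ := hb
  have hc := canon_rep (Θ := Θ) h (p := (y, x₁)) t1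
  obtain ⟨x'', htr, hx⟩ := (eqv_rep (Θ := Θ) (s := s) (y, x₁)).symm h
  obtain ⟨z', hz', -⟩ := pos_path hx.symm p1
  exact ⟨_, x'', z', hc, htr, hz'⟩

theorem next_V_of_brV (h : Inv Θ s) {y : Raw S T} {w : List (S × Bool)} (hb : BrV Θ s y w) :
    (next Θ s).V (Mv.br w :: y) := by
  obtain ⟨p, a, x', hp, htr, hx⟩ := hb.exists_copy h
  refine ⟨Or.inr ⟨p, x', hp, Or.inr (Or.inl ⟨y, a, w, htr, hx, hb, rfl⟩)⟩, ?_⟩
  change (Mv.br w :: y : Raw S T).length = s.n + 1
  have := hb.1.2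
  simp [this]

theorem next_br_edge (h : Inv Θ s) ⦃y : Raw S T⦄ ⦃w : List (S × Bool)⦄
    (hz : (next Θ s).V (Mv.br w :: y)) : ∃ w' l, w = w' ++ [l] ∧
      (next Θ s).E (bnode y w') l (Mv.br w :: y) ∧ (w' ≠ [] → (next Θ s).V (Mv.br w' :: y)) := by
  have hb := next_V_br h hz
  obtain ⟨p, a, x', hp, htr, hx⟩ := hb.exists_copy h
  rcases List.eq_nil_or_concat w with rfl | ⟨w', l, hw⟩
  · exact absurd rfl hb.2.1
  · rw [List.concat_eq_append] at hw
    subst hw
    obtain ⟨x'', q1, q2⟩ := path_append_iff.1 hx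
    refine ⟨w', l, rfl, ?_, fun hne => next_V_of_brV h (hb.prefix hne)⟩
    refine Or.inr ⟨p, x'', x', hp, path_single_iff.1 q2, loc_bnode htr hb q1, ?_⟩
    exact Or.inr (Or.inl ⟨y, a, w' ++ [l], htr, hx, hb, rfl⟩)

theorem next_br_off (h : Inv Θ s) ⦃y : Raw S T⦄ ⦃w : List (S × Bool)⦄ ⦃x : T⦄
    (hz : (next Θ s).V (Mv.br w :: y)) (ho : (next Θ s).Off (Mv.br w :: y) x) :
    ∃ a, Path Θ.E a w x ∧ (next Θ s).Off y a := by
  have hzl : (Mv.br w :: y : Raw S T).length = s.n + 1 := hz.2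
  obtain ⟨p, x', hp, hl, hpos⟩ := next_Off_new h hz.2 ho
  rcases hl with o1 | ⟨y', a, w', htr, hx, -, hh⟩ | ⟨-, -, -, hh⟩
  · have := (locOld_task h hp o1).1.2; omega
  · simp only [List.cons.injEq, Mv.br.injEq] at hh
    obtain ⟨rfl, rfl⟩ := hh
    obtain ⟨a', ha', hpa⟩ := pos_path_left hpos hx
    exact ⟨a', ha', Or.inr ⟨p, a, hp, Or.inl htr, hpa.symm⟩⟩
  · simp at hh

end Claimed.Agent.R300.Shell
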