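import Claimed.Agent.R300.ShellT0

/-!
# Shelling library, part 3b: the key lemma on branches (5 pieces)
-/

namespace Claimed.Agent.R300.Shell

universe u v w

variable {S : Type u} {T : Type v} {Q : Type w} {Θ : RelSys S T Q} {s : Stg S T}

/-! ### the key lemma -/

theorem elow_first {y y' : Raw S T} {k : S × Bool} {g : List (S × Bool)}
    (hp : Path s.Elow y (k :: g) y') : ∃ y'', s.E y k y'' ∧ y''.length < s.n := by
  obtain ⟨b, e, _⟩ := path_cons_iff.1 hp
  exact ⟨b, e.1, e.2.2⟩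

theorem elow_last {y y' : Raw S T} {k : S × Bool} {g : List (S × Bool)}
    (hp : Path s.Elow y (g ++ [k]) y') : ∃ y'', s.E y'' k y' ∧ y''.length < s.n := by
  obtain ⟨b, _, e⟩ := path_append_iff.1 hp
  have e' := path_single_iff.1 e
  exact ⟨b, e'.1, e'.2.1⟩

/-- the whole branch as a path -/
theorem Inv.br_path_full (h : Inv Θ s) {y : Raw S T} {b : List (S × Bool)}
    (hv : s.V (Mv.br b :: y)) : Path s.E y b (Mv.br b :: y) := by
  have := (h.br_path (y := y) (w₁ := []) (w₂ := b) (by simpa using hv)).2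
  simpa [bnode] using this

/-- the first edge of a branch leads to the top level -/
theorem Inv.br_first_edge (h : Inv Θ s) {y : Raw S T} {l : S × Bool} {b : List (S × Bool)}
    (hv : s.V (Mv.br (l :: b) :: y)) :
    s.E y l (Mv.br [l] :: y) ∧ (Mv.br [l] :: y : Raw S T).length = s.n := by
  have hv' : s.V (Mv.br ([l] ++ b) :: y) := by simpa using hv
  have h1 := (h.br_path hv').1
  have h2 := h.br_prefix hv' (by simp)
  refine ⟨?_, h2.2⟩
  have : Path s.E y [l] (Mv.br [l] :: y) := by simpa [bnode] using h1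
  exact path_single_iff.1 this

/-- a branch of the top level is a piece of a copy through its end, as soon as a second copy
passes through its end -/
theorem Inv.br_piece (h : Inv Θ s) {y : Raw S T} {b : List (S × Bool)} {x a : T}
    (hv : s.V (Mv.br b :: y)) (pa : Path Θ.E a b x)
    (hb : ∃ x', s.Off (Mv.br b :: y) x' ∧ Θ.pos x' ≠ Θ.pos x) : Piece Θ a b x := by
  obtain ⟨x', ho', hne⟩ := hb
  obtain ⟨a', pa', _⟩ := h.br_off hv ho'
  refine Piece.mk' (h.br_red hv) pa pa' ?_
  intro he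
  exact hne (pos_eq_of_path he pa' pa)

/-- KEY LEMMA.  Let `v` be a reduced word read in one top level copy (position `x₂` at the start)
between two branch vertices, all of whose vertices are of top level, such that `v`, the first
branch and the second branch are pieces of that copy.  Then both branches hang at the same vertex
and `v` goes up the first branch and down the second one.
Proof: `att` gives `g` (two pieces) between the feet; the closed walk
`invRev b₁ ++ g ++ b₂ ++ invRev v` has 5 pieces, so it is freely trivial by `C6`;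
if `g ≠ []` the word `invRev b₁ ++ g ++ b₂` is reduced (the first edge of a branch leads to the top
level, the edges of `g` stay in lower levels, determinism), so it is `v`, which then passes through
the foot `y₁`: contradiction with `htop`. -/
theorem branch_geodesic (h : Inv Θ s) (hC : C6 Θ) {y₁ y₂ : Raw S T} {b₁ b₂ v : List (S × Bool)}
    {x₂ x₂' : T} (hv1 : s.V (Mv.br b₁ :: y₁)) (hv2 : s.V (Mv.br b₂ :: y₂))
    (ho : s.Off (Mv.br b₁ :: y₁) x₂) (hpv : Piece Θ x₂ v x₂')
    (hyv : Path s.E (Mv.br b₁ :: y₁) v (Mv.br b₂ :: y₂))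
    (hb1 : ∃ x', s.Off (Mv.br b₁ :: y₁) x' ∧ Θ.pos x' ≠ Θ.pos x₂)
    (hb2 : ∃ x', s.Off (Mv.br b₂ :: y₂) x' ∧ Θ.pos x' ≠ Θ.pos x₂')
    (htop : ∀ v₁ v₂ t, v = v₁ ++ v₂ → Path s.E (Mv.br b₁ :: y₁) v₁ t → t.length = s.n) :
    y₁ = y₂ ∧ ∃ c d₁ d₂, b₁ = c ++ d₁ ∧ b₂ = c ++ d₂ ∧ v = FreeGroup.invRev d₁ ++ d₂ := by
  have ho' : s.Off (Mv.br b₂ :: y₂) x₂' := h.off_path ho hyv hpv.1
  obtain ⟨a₁, pa1, -⟩ := h.br_off hv1 ho
  obtain ⟨a₂, pa2, -⟩ := h.br_off hv2 ho'
  have P1 := h.br_path_full hv1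
  have P2 := h.br_path_full hv2
  have pc1 : Piece Θ a₁ b₁ x₂ := h.br_piece hv1 pa1 hb1
  have pc2 : Piece Θ a₂ b₂ x₂' := h.br_piece hv2 pa2 hb2
  have hr1 := h.br_red hv1
  have hr2 := h.br_red hv2
  obtain ⟨g, hg, cg, pg⟩ := h.att hv1 ho (pa1.inv Θ.sym) (P1.inv h.sym) (h.br_low hv1).2
    (hpv.1.append (pa2.inv Θ.sym)) (hyv.append (P2.inv h.sym)) (h.br_low hv2).2
  have chain : PChain Θ 5 x₂ (FreeGroup.invRev b₁ ++ (g ++ (b₂ ++ FreeGroup.invRev v))) x₂ :=
    (PChain.of_piece pc1.inv).append (cg.append ((PChain.of_piece pc2).append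
      (PChain.of_piece hpv.inv)))
  have hmk := hC chain
  have hmk' : FreeGroup.mk v = FreeGroup.mk (FreeGroup.invRev b₁ ++ (g ++ b₂)) := by
    have e1 : FreeGroup.invRev b₁ ++ (g ++ (b₂ ++ FreeGroup.invRev v)) =
        (FreeGroup.invRev b₁ ++ (g ++ b₂)) ++ FreeGroup.invRev v := by simp
    rw [e1, ← FreeGroup.mul_mk, ← FreeGroup.inv_mk] at hmk
    exact (mul_inv_eq_one.1 hmk).symm
  rcases List.eq_nil_or_concat g with rfl | ⟨g', k, hgk⟩
  · -- `g = []`
    have hy : y₁ = y₂ := path_nil_iff.1 pg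
    refine ⟨hy, ?_⟩
    obtain ⟨c, d₁, d₂, e1, e2, hd⟩ := exists_common_prefix b₁ b₂
    refine ⟨c, d₁, d₂, e1, e2, ?_⟩
    have hd1 : FreeGroup.IsReduced d₁ := isReduced_right (u := c) (e1 ▸ hr1)
    have hd2 : FreeGroup.IsReduced d₂ := isReduced_right (u := c) (e2 ▸ hr2)
    apply eq_of_isReduced_of_mk_eq hpv.2.1 (isReduced_invRev_append hd1 hd2 hd)
    rw [hmk', List.nil_append, e1, e2, mk_invRev_append_cancel]
  · -- `g ≠ []`: contradiction
    exfalso
    rw [List.concat_eq_append] at hgk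
    subst hgk
    have hne1 := h.br_ne_nil hv1
    have hne2 := h.br_ne_nil hv2
    obtain ⟨l₁, b₁', rfl⟩ := List.exists_cons_of_ne_nil hne1
    obtain ⟨l₂, b₂', rfl⟩ := List.exists_cons_of_ne_nil hne2
    have J2 : ∀ a ∈ (g' ++ [k]).getLast?, ∀ b ∈ (l₂ :: b₂').head?, b ≠ linv a := by
      intro a ha b hb hab
      simp at ha hb
      subst ha hb
      obtain ⟨y', e, hl⟩ := elow_last pg
      have e' := h.sym e
      rw [← hab] at e'
      obtain ⟨e2, hl2⟩ := h.br_first_edge hv2
      have := h.det e' e2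
      rw [this, hl2] at hl
      exact lt_irrefl _ hl
    have R2 : FreeGroup.IsReduced ((g' ++ [k]) ++ (l₂ :: b₂')) := isReduced_append hg hr2 J2
    have J1 : ∀ a ∈ (FreeGroup.invRev (l₁ :: b₁')).getLast?,
        ∀ b ∈ ((g' ++ [k]) ++ (l₂ :: b₂')).head?, b ≠ linv a := by
      intro a ha b hb hab
      rw [invRev_cons'] at ha
      simp at ha
      subst ha
      rw [linv_linv] at hab
      obtain ⟨k₀, g₀, hg0⟩ := List.exists_cons_of_ne_nil (l := g' ++ [k]) (by simp)
      rw [hg0] at hb pg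
      simp at hb
      subst hb
      obtain ⟨y', e, hl⟩ := elow_first pg
      rw [hab] at e
      obtain ⟨e2, hl2⟩ := h.br_first_edge hv1
      have := h.det e e2
      rw [this, hl2] at hl
      exact lt_irrefl _ hl
    have R : FreeGroup.IsReduced (FreeGroup.invRev (l₁ :: b₁') ++ ((g' ++ [k]) ++ (l₂ :: b₂'))) :=
      isReduced_append (isReduced_invRev hr1) R2 J1
    have hv := eq_of_isReduced_of_mk_eq hpv.2.1 R hmk'
    have := htop _ _ y₁ hv (P1.inv h.sym)
    exact absurd (h.br_low hv1).2 (by omega)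

end Claimed.Agent.R300.Shell
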