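import Claimed.Agent.R300.ShellCanon

/-!
# Shelling library, part 4a: shared branches, the location relation (elementary part)
-/

namespace Claimed.Agent.R300.Shell

universe u v w

variable {S : Type u} {T : Type v} {Q : Type w} {Θ : RelSys S T Q} {s : Stg S T}

/-! ### shared branches -/

theorem BrV.prefix {y : Raw S T} {w₁ w₂ : List (S × Bool)} (hb : BrV Θ s y (w₁ ++ w₂))
    (h1 : w₁ ≠ []) : BrV Θ s y w₁ := by
  obtain ⟨hV, -, hr, hh, x₁, x₂, t1, t2, hne, ⟨z₁, p1⟩, ⟨z₂, p2⟩⟩ := hb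
  obtain ⟨b₁, q1, -⟩ := path_append_iff.1 p1
  obtain ⟨b₂, q2, -⟩ := path_append_iff.1 p2
  refine ⟨hV, h1, isReduced_left hr, ?_, x₁, x₂, t1, t2, hne, ⟨b₁, q1⟩, ⟨b₂, q2⟩⟩
  obtain ⟨l, w', rfl⟩ := List.exists_cons_of_ne_nil h1
  simpa using hh

/-- a shared branch is a piece of every copy in which it can be read -/
theorem BrV.piece {y : Raw S T} {w : List (S × Bool)} {a x' : T} (hb : BrV Θ s y w)
    (ha : Path Θ.E a w x') : Piece Θ a w x' := by
  obtain ⟨-, -, hr, -, x₁, x₂, -, -, hne, ⟨z₁, p1⟩, ⟨z₂, p2⟩⟩ := hb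
  by_cases h1 : Θ.pos x₁ = Θ.pos a
  · exact Piece.mk' hr ha p2 (fun h2 => hne (h1.trans h2.symm))
  · exact Piece.mk' hr ha p1 h1

/-- two different tasks at `y` reading the same reduced word which leaves the old graph at once -/
theorem BrV.intro {y : Raw S T} {w : List (S × Bool)} {a₁ a₂ z₁ z₂ : T} (h1 : Task s y a₁)
    (h2 : Task s y a₂) (hne : Θ.pos a₁ ≠ Θ.pos a₂) (hw : w ≠ []) (hr : FreeGroup.IsReduced w)
    (hh : ∀ l ∈ w.head?, ∀ z, ¬ s.E y l z) (p1 : Path Θ.E a₁ w z₁) (p2 : Path Θ.E a₂ w z₂) :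
    BrV Θ s y w :=
  ⟨h1.1, hw, hr, hh, a₁, a₂, h1, h2, hne, ⟨z₁, p1⟩, ⟨z₂, p2⟩⟩

/-! ### the location relation of a new copy -/

theorem locOld_task (h : Inv Θ s) {p : Raw S T × T} {x' : T} {z : Raw S T} (hp : Canon Θ s p)
    (hl : LocOld Θ s p x' z) : Task s z x' := task_of_tr h hp.1 hl

theorem loc_conn {p : Raw S T × T} {x' : T} {z : Raw S T} (hl : Loc Θ s p x' z) :
    ∃ u, Path Θ.E p.2 u x' := by
  rcases hl with ⟨w, -, h2⟩ | ⟨y, a, w, ⟨u, -, h2⟩, h3, -, -⟩ | ⟨hu, -⟩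
  · exact ⟨w, h2⟩
  · exact ⟨u ++ w, h2.append h3⟩
  · exact hu

/-- a location is an old top level vertex (and then `LocOld`) or a new name of length `n + 1` -/
theorem loc_cases (h : Inv Θ s) {p : Raw S T × T} {x' : T} {z : Raw S T} (hp : Canon Θ s p)
    (hl : Loc Θ s p x' z) :
    (LocOld Θ s p x' z ∧ s.V z) ∨ (¬ LocOld Θ s p x' z ∧ ¬ s.W z ∧ z.length = s.n + 1) := by
  have key : z.length = s.n + 1 →
      (¬ LocOld Θ s p x' z ∧ ¬ s.W z ∧ z.length = s.n + 1) := by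
    intro hz
    have hW : ¬ s.W z := fun hW => by have := h.W_len hW; omega
    exact ⟨fun ho => hW (locOld_task h hp ho).1.1, hW, hz⟩
  rcases hl with ho | ⟨y, a, w, -, -, hb, rfl⟩ | ⟨-, -, -, rfl⟩
  · exact Or.inl ⟨ho, (locOld_task h hp ho).1⟩
  · right
    apply key
    have := hb.1.2
    simp [this]
  · right
    apply key
    have := hp.1.1.2
    simp [this]

theorem locOld_of_W (h : Inv Θ s) {p : Raw S T × T} {x' : T} {z : Raw S T} (hp : Canon Θ s p)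
    (hl : Loc Θ s p x' z) (hz : s.W z) : LocOld Θ s p x' z := by
  rcases loc_cases h hp hl with h1 | h1
  · exact h1.1
  · exact absurd hz h1.2.1

/-- N2 -/
theorem loc_total {p : Raw S T × T} {x' : T} (hu : ∃ u, Path Θ.E p.2 u x') :
    ∃ z, Loc Θ s p x' z := by
  by_cases h1 : ∃ z', LocOld Θ s p x' z'
  · obtain ⟨z, hz⟩ := h1
    exact ⟨z, Or.inl hz⟩
  · by_cases h2 : ∃ z', LocBr Θ s p x' z'
    · obtain ⟨z, hz⟩ := h2
      exact ⟨z, Or.inr (Or.inl hz)⟩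
    · exact ⟨_, Or.inr (Or.inr ⟨hu, h1, h2, rfl⟩)⟩

/-- one step in a new copy -/
theorem loc_step {p : Raw S T × T} {x' x'' : T} {z : Raw S T} {l : S × Bool}
    (hp : Canon Θ s p) (h1 : Loc Θ s p x' z) (e : Θ.E x' l x'') :
    ∃ z', Loc Θ s p x'' z' ∧ (next Θ s).E z l z' := by
  obtain ⟨u, hu⟩ := loc_conn h1
  obtain ⟨z', hz'⟩ := loc_total (s := s) (p := p) ⟨u ++ [l], hu.concat e⟩
  exact ⟨z', hz', Or.inr ⟨p, x', x'', hp, e, h1, hz'⟩⟩

/-- the location relation is a morphism of labelled graphs -/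
theorem loc_path {p : Raw S T × T} {x' x'' : T} {z : Raw S T} {w : List (S × Bool)}
    (hp : Canon Θ s p) (h1 : Loc Θ s p x' z) (e : Path Θ.E x' w x'') :
    ∃ z', Loc Θ s p x'' z' ∧ Path (next Θ s).E z w z' := by
  induction e generalizing z with
  | nil => exact ⟨z, h1, Path.nil _⟩
  | cons e _ ih =>
    obtain ⟨z₁, l₁, e₁⟩ := loc_step hp h1 e
    obtain ⟨z', l', p'⟩ := ih l₁
    exact ⟨z', l', Path.cons e₁ p'⟩

theorem next_E_mono {a b : Raw S T} {l : S × Bool} (e : s.E a l b) : (next Θ s).E a l b :=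
  Or.inl e

end Claimed.Agent.R300.Shell
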