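import Claimed.Agent.R300.ShellLoc
import Claimed.Agent.R300.ShellClosed

/-!
# Shelling library, part 4b: the location relation is a function, injective; copies are determined by one incidence (Claim 2)
-/

namespace Claimed.Agent.R300.Shell

universe u v w

variable {S : Type u} {T : Type v} {Q : Type w} {Θ : RelSys S T Q} {s : Stg S T}

/- PROOFS.
`locOld_locBr_false`: `Tr p y a`, `Path a w x'`, `BrV y w`, `Tr p z x'`.  So `Tr y a z x'` by a reduced word
  `u` (`Tr.symm`, `Tr.trans`, `Tr.exists_reduced`), a chain of 2 pieces at `a` (`tr_pchain`, `(y,a)` is a task).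
  `w` is a piece (`BrV.piece`).  `u ++ invRev w` closed, 3 pieces, `C6`: `u = w`.  Then the first letter of
  `w` is present at `y` in `s.E`: against `BrV`.
`locBr_unique`: data `(y,a,w)`, `(y',a',w')`.  `Tr y a y' a'` by a reduced `g`, 2 pieces.
  `g ++ w' ++ invRev w` closed, 4 pieces: `mk (g ++ w') = mk w`.  If `g ≠ []` then `g ++ w'` is reduced (the
  inverse of the last letter of `g` is present at `y'`, the first letter of `w'` is not), so `w = g ++ w'`
  starts with a letter present at `y`: contradiction.  So `g = []`, `y = y'`, `a = a'`, `w = w'`.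
`loc_fun`: cases; Old/Old = `tr_inj_left`; Pv excludes the others by definition.
`loc_inj`: Old = `tr_inj_right`; Br: same name gives same `(y,w)`, `tr_inj_right` gives `a = a'`, `Path.det`;
  Pv: read off the name.  Mixed cases: lengths / shape of the name (`loc_cases`).
`loc_copy_eq`: show `Eqv p q`, then `canon_eq_of_eqv`.  Old: compose the traces.  Br: positions propagate
  backwards along `w` (`pos_eq_of_path_left`).  Pv: the name contains `p`. -/
theorem mk_eq_of_append_invRev {u w : List (S × Bool)}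
    (h : FreeGroup.mk (u ++ FreeGroup.invRev w) = 1) : FreeGroup.mk u = FreeGroup.mk w := by
  rw [← FreeGroup.mul_mk, ← FreeGroup.inv_mk, mul_inv_eq_one] at h
  exact h

/-- a traced point is not on a shared branch (3 pieces) -/
theorem locOld_locBr_false (h : Inv Θ s) (hC : C6 Θ) {p : Raw S T × T} {x' : T} {z z' : Raw S T}
    (hp : Canon Θ s p) (h1 : LocOld Θ s p x' z) (h2 : LocBr Θ s p x' z') : False := by
  obtain ⟨y, a, w, htr, pw, hb, -⟩ := h2
  have hta : Task s y a := task_of_tr h hp.1 htr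
  obtain ⟨u, hu, pu, pu'⟩ := Tr.exists_reduced h ((Tr.symm h htr).trans h1)
  have c1 : PChain Θ 2 a u x' := tr_pchain h hC hta hu pu pu'
  have c2 : PChain Θ 1 x' (FreeGroup.invRev w) a := PChain.of_piece (hb.piece pw).inv
  have c3 : PChain Θ 5 a (u ++ FreeGroup.invRev w) a := (c1.append c2).mono (by norm_num)
  have e : u = w := eq_of_isReduced_of_mk_eq hu hb.2.2.1 (mk_eq_of_append_invRev (hC c3))
  subst e
  obtain ⟨-, hne, -, hh, -⟩ := hb
  cases u with
  | nil => exact hne rfl
  | cons l u =>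
    obtain ⟨b, e, -⟩ := path_cons_iff.1 pu
    exact hh l (by simp) b e

/-- the data of a normal form are unique (4 pieces) -/
theorem locBr_data_unique (h : Inv Θ s) (hC : C6 Θ) {p : Raw S T × T} {x' : T}
    (hp : Canon Θ s p) {y y' : Raw S T} {a a' : T} {w w' : List (S × Bool)}
    (htr : Tr Θ s p.1 p.2 y a) (pw : Path Θ.E a w x') (hb : BrV Θ s y w)
    (htr' : Tr Θ s p.1 p.2 y' a') (pw' : Path Θ.E a' w' x') (hb' : BrV Θ s y' w') :
    y = y' ∧ a = a' ∧ w = w' := by
  have hta : Task s y a := task_of_tr h hp.1 htr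
  obtain ⟨g, hg, pg, pg'⟩ := Tr.exists_reduced h ((Tr.symm h htr).trans htr')
  have c1 : PChain Θ 2 a g a' := tr_pchain h hC hta hg pg pg'
  have c2 : PChain Θ 1 a' w' x' := PChain.of_piece (hb'.piece pw')
  have c3 : PChain Θ 1 x' (FreeGroup.invRev w) a := PChain.of_piece (hb.piece pw).inv
  have c4 : PChain Θ 5 a ((g ++ w') ++ FreeGroup.invRev w) a :=
    ((c1.append c2).append c3).mono (by norm_num)
  have e : FreeGroup.mk (g ++ w') = FreeGroup.mk w := mk_eq_of_append_invRev (hC c4)
  have hgnil : g = [] := by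
    by_contra hgne
    have hred : FreeGroup.IsReduced (g ++ w') := by
      refine isReduced_append hg hb'.2.2.1 ?_
      intro k hk b hbm hbk
      -- `k` is the last letter of `g`
      obtain ⟨g0, rfl⟩ : ∃ g0, g = g0 ++ [k] := by
        exact List.getLast?_eq_some_iff.1 (Option.mem_def.1 hk)
      obtain ⟨c, -, ek⟩ := path_append_iff.1 pg
      have ek' := h.sym (path_single_iff.1 ek)
      rw [← hbk] at ek'
      exact hb'.2.2.2.1 b hbm c ek'
    have e2 : g ++ w' = w := eq_of_isReduced_of_mk_eq hred hb.2.2.1 e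
    cases g with
    | nil => exact hgne rfl
    | cons l g =>
      obtain ⟨b, eb, -⟩ := path_cons_iff.1 pg
      refine hb.2.2.2.1 l ?_ b eb
      rw [← e2]; simp
  subst hgnil
  have e1 : y = y' := path_nil_iff.1 pg
  have e2 : a = a' := path_nil_iff.1 pg'
  refine ⟨e1, e2, ?_⟩
  exact (eq_of_isReduced_of_mk_eq hb'.2.2.1 hb.2.2.1 (by simpa using e)).symm

/-- uniqueness of the normal form (4 pieces) -/
theorem locBr_unique (h : Inv Θ s) (hC : C6 Θ) {p : Raw S T × T} {x' : T} {z z' : Raw S T}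
    (hp : Canon Θ s p) (h1 : LocBr Θ s p x' z) (h2 : LocBr Θ s p x' z') : z = z' := by
  obtain ⟨y, a, w, htr, pw, hb, rfl⟩ := h1
  obtain ⟨y', a', w', htr', pw', hb', rfl⟩ := h2
  obtain ⟨e1, -, e3⟩ := locBr_data_unique h hC hp htr pw hb htr' pw' hb'
  rw [e1, e3]

/-- N1 -/
theorem loc_fun (h : Inv Θ s) (hC : C6 Θ) {p : Raw S T × T} {x' : T} {z z' : Raw S T}
    (hp : Canon Θ s p) (h1 : Loc Θ s p x' z) (h2 : Loc Θ s p x' z') : z = z' := by
  rcases h1 with h1 | h1 | h1 <;> rcases h2 with h2 | h2 | h2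
  · exact tr_inj_left h hC hp.1 h1 h2
  · exact (locOld_locBr_false h hC hp h1 h2).elim
  · exact (h2.2.1 ⟨_, h1⟩).elim
  · exact (locOld_locBr_false h hC hp h2 h1).elim
  · exact locBr_unique h hC hp h1 h2
  · exact (h2.2.2.1 ⟨_, h1⟩).elim
  · exact (h1.2.1 ⟨_, h2⟩).elim
  · exact (h1.2.2.1 ⟨_, h2⟩).elim
  · rw [h1.2.2.2, h2.2.2.2]

/-- N3 -/
theorem loc_inj (h : Inv Θ s) (hC : C6 Θ) {p : Raw S T × T} {x' x'' : T} {z : Raw S T}
    (hp : Canon Θ s p) (h1 : Loc Θ s p x' z) (h2 : Loc Θ s p x'' z) : x' = x'' := by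
  rcases loc_cases h hp h1 with ⟨o1, v1⟩ | ⟨n1, w1, -⟩ <;>
    rcases loc_cases h hp h2 with ⟨o2, v2⟩ | ⟨n2, w2, -⟩
  · exact tr_inj_right h hC hp.1 o1 o2
  · exact (w2 v1.1).elim
  · exact (w1 v2.1).elim
  · rcases h1 with h1 | h1 | h1
    · exact (n1 h1).elim
    · rcases h2 with h2 | h2 | h2
      · exact (n2 h2).elim
      · obtain ⟨y, a, w, htr, pw, hb, e⟩ := h1
        obtain ⟨y', a', w', htr', pw', hb', e'⟩ := h2
        rw [e] at e'
        simp only [List.cons.injEq, Mv.br.injEq] at e'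
        obtain ⟨rfl, rfl⟩ := e'
        have : a = a' := tr_inj_right h hC hp.1 htr htr'
        subst this
        exact pw.det Θ.det pw'
      · obtain ⟨y, a, w, htr, pw, hb, e⟩ := h1
        have e' := h2.2.2.2
        rw [e] at e'
        simp at e'
    · rcases h2 with h2 | h2 | h2
      · exact (n2 h2).elim
      · obtain ⟨y, a, w, htr, pw, hb, e⟩ := h2
        have e' := h1.2.2.2
        rw [e] at e'
        simp at e'
      · have e := h1.2.2.2
        rw [h2.2.2.2] at e
        simp only [List.cons.injEq, Mv.pv.injEq, true_and, and_true] at e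
        exact e.symm

/-- two traces ending at the same old vertex at the same position give equivalent tasks -/
theorem eqv_of_tr (h : Inv Θ s) {p q : Raw S T × T} {x' x'' : T} {z : Raw S T}
    (h1 : Tr Θ s p.1 p.2 z x') (h2 : Tr Θ s q.1 q.2 z x'') (hpos : Θ.pos x' = Θ.pos x'') :
    Eqv Θ s p q := by
  obtain ⟨v, pv, pv'⟩ := Tr.symm h h2
  obtain ⟨x3, px3, hx3⟩ := pos_path hpos.symm pv'
  exact ⟨x3, h1.trans ⟨v, pv, px3⟩, hx3⟩

/-- N4: two new copies through the same vertex at the same position are equal -/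
theorem loc_copy_eq (h : Inv Θ s) (hC : C6 Θ) {p q : Raw S T × T} {x' x'' : T} {z : Raw S T}
    (hp : Canon Θ s p) (hq : Canon Θ s q) (h1 : Loc Θ s p x' z) (h2 : Loc Θ s q x'' z)
    (hpos : Θ.pos x' = Θ.pos x'') : p = q := by
  rcases loc_cases h hp h1 with ⟨o1, v1⟩ | ⟨n1, w1, -⟩ <;>
    rcases loc_cases h hq h2 with ⟨o2, v2⟩ | ⟨n2, w2, -⟩
  · exact canon_eq_of_eqv h hp hq (eqv_of_tr h o1 o2 hpos)
  · exact (w2 v1.1).elim
  · exact (w1 v2.1).elim
  · rcases h1 with h1 | h1 | h1
    · exact (n1 h1).elim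
    · rcases h2 with h2 | h2 | h2
      · exact (n2 h2).elim
      · obtain ⟨y, a, w, htr, pw, hb, e⟩ := h1
        obtain ⟨y', a', w', htr', pw', hb', e'⟩ := h2
        rw [e] at e'
        simp only [List.cons.injEq, Mv.br.injEq] at e'
        obtain ⟨rfl, rfl⟩ := e'
        exact canon_eq_of_eqv h hp hq (eqv_of_tr h htr htr' (pos_eq_of_path_left hpos pw pw'))
      · obtain ⟨y, a, w, htr, pw, hb, e⟩ := h1
        have e' := h2.2.2.2
        rw [e] at e'
        simp at e'
    · rcases h2 with h2 | h2 | h2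
      · exact (n2 h2).elim
      · obtain ⟨y, a, w, htr, pw, hb, e⟩ := h2
        have e' := h1.2.2.2
        rw [e] at e'
        simp at e'
      · have e := h1.2.2.2
        rw [h2.2.2.2] at e
        simp only [List.cons.injEq, Mv.pv.injEq] at e
        exact Prod.ext e.2.symm e.1.1.symm

end Claimed.Agent.R300.Shell
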