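import Claimed.Agent.R300.ShellInvA
import Claimed.Agent.R300.ShellInvB

/-!
# Shelling library, part 4f: all stages satisfy the invariants
-/

namespace Claimed.Agent.R300.Shell

universe u v w

variable {S : Type u} {T : Type v} {Q : Type w} {Θ : RelSys S T Q} {s : Stg S T}

/-! ### conclusion -/

theorem inv_next (h : Inv Θ s) (hC : C6 Θ) : Inv Θ (next Θ s) where
  sym := next_sym h
  det := next_det h hC
  E_W := next_E_W h
  W_len := next_W_len h
  conn := next_conn h hC
  Off_W := next_Off_W h
  Off_pos := next_Off_pos h
  Off_step := next_Off_step h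
  Off_iff := next_Off_iff h hC
  sat := next_sat h
  E_Off := next_E_Off h
  att := next_att h hC
  shared := next_shared h
  br_red := next_br_red h
  br_edge := next_br_edge h
  br_off := next_br_off h

theorem inv_stg0 : Inv Θ (stg0 : Stg S T) where
  sym := fun _ _ _ e => e.elim
  det := fun _ _ _ _ e => e.elim
  E_W := fun _ _ _ e => e.elim
  W_len := fun z hz => by
    have : z = [] := hz
    subst this
    exact le_refl _
  conn := fun z hz => by
    have : z = [] := hz
    subst this
    exact ⟨[], Path.nil _⟩
  Off_W := fun _ _ o => o.elim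
  Off_pos := fun _ _ _ o => o.elim
  Off_step := fun _ _ _ _ o => o.elim
  Off_iff := fun _ _ _ _ _ o => o.elim
  sat := fun _ _ hl => absurd hl (Nat.not_lt_zero _)
  E_Off := fun _ _ _ e => e.elim
  att := fun _ _ _ _ _ _ _ _ _ o => o.elim
  shared := fun _ _ _ _ o => o.elim
  br_red := fun _ _ hv => by
    have := hv.1
    exact absurd this (List.cons_ne_nil _ _)
  br_edge := fun _ _ hv => by
    have := hv.1
    exact absurd this (List.cons_ne_nil _ _)
  br_off := fun _ _ _ _ o => o.elim

theorem inv_stg (hC : C6 Θ) (n : ℕ) : Inv Θ (stg Θ n) := by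
  induction n with
  | zero => exact inv_stg0
  | succ n ih => exact inv_next ih hC

end Claimed.Agent.R300.Shell
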