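import Claimed.Agent.R300.ShellRel

/-!
# Shelling library, part 2: raw names, stages, the successor stage, the invariants

The Cayley graph of `Gam Θ` is built level by level.  All stages are relations on ONE fixed type
of raw names `Raw S T = List (Mv S T)`; the level of a vertex is the length of its name.

* root: `[]`
* `Mv.br w :: y`   : the end of the *shared branch* `w` issued from the vertex `y` of the previous
                     level (a vertex lying on at least two new copies through `y`)
* `Mv.pv x x' :: y`: the point `x'` of the new copy pinned by `x ↦ y`, where `(y, x)` is the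
                     chosen (canonical) task of that copy, and `x'` is neither traced in the old
                     graph nor on a shared branch.
-/

namespace Claimed.Agent.R300.Shell

universe u v w

variable {S : Type u} {T : Type v} {Q : Type w}

/-- moves: one more level in a raw name -/
inductive Mv (S : Type u) (T : Type v) : Type (max u v)
  | br (w : List (S × Bool)) : Mv S T
  | pv (x x' : T) : Mv S T

/-- raw names of vertices -/
abbrev Raw (S : Type u) (T : Type v) : Type (max u v) := List (Mv S T)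

/-- A stage of the construction. `n`: its level; `W`: the vertices so far; `E`: the edges so far;
`Off z x`: some official copy (attached so far) passes through `z` at the position of `x`. -/
structure Stg (S : Type u) (T : Type v) where
  n : ℕ
  W : Raw S T → Prop
  E : Raw S T → S × Bool → Raw S T → Prop
  Off : Raw S T → T → Prop

/-- top level vertices -/
def Stg.V (s : Stg S T) (z : Raw S T) : Prop := s.W z ∧ z.length = s.n

/-- edges between vertices of lower level -/
def Stg.Elow (s : Stg S T) (a : Raw S T) (l : S × Bool) (b : Raw S T) : Prop :=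
  s.E a l b ∧ a.length < s.n ∧ b.length < s.n

variable (Θ : RelSys S T Q) (s : Stg S T)

/-- a task: a position that is not yet officially realised at a top level vertex -/
def Task (y : Raw S T) (x : T) : Prop := s.V y ∧ ¬ s.Off y x

/-- `(y', x')` lies in the component of `(y, x)` in the fibre product of the stage and `Θ` -/
def Tr (y : Raw S T) (x : T) (y' : Raw S T) (x' : T) : Prop :=
  ∃ w, Path s.E y w y' ∧ Path Θ.E x w x'

/-- two tasks define the same new copy -/
def Eqv (p q : Raw S T × T) : Prop := ∃ x'', Tr Θ s p.1 p.2 q.1 x'' ∧ Θ.pos x'' = Θ.pos q.2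

/-- the class of a task -/
def cls (p : Raw S T × T) : Set (Raw S T × T) := {q | Eqv Θ s p q}

open Classical in
/-- choice of an element in a set (with a default value) -/
noncomputable def pick {α : Type*} (C : Set α) (d : α) : α := if h : C.Nonempty then h.some else d

/-- the chosen representative of the class of a task -/
noncomputable def rep (p : Raw S T × T) : Raw S T × T := pick (cls Θ s p) p

/-- canonical tasks: they index the new copies -/
def Canon (p : Raw S T × T) : Prop := Task s p.1 p.2 ∧ rep Θ s p = p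

/-- `(y, w)` is a shared branch: `w` leaves the old graph at once and is readable in two different
new copies through `y`. -/
def BrV (y : Raw S T) (w : List (S × Bool)) : Prop :=
  s.V y ∧ w ≠ [] ∧ FreeGroup.IsReduced w ∧ (∀ l ∈ w.head?, ∀ z, ¬ s.E y l z) ∧
  ∃ x₁ x₂, Task s y x₁ ∧ Task s y x₂ ∧ Θ.pos x₁ ≠ Θ.pos x₂ ∧
    (∃ z, Path Θ.E x₁ w z) ∧ (∃ z, Path Θ.E x₂ w z)

/-- the point `x'` of the copy pinned by `p` is the old vertex `z` -/
def LocOld (p : Raw S T × T) (x' : T) (z : Raw S T) : Prop := Tr Θ s p.1 p.2 z x'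

/-- the point `x'` of the copy pinned by `p` is the branch vertex `z` -/
def LocBr (p : Raw S T × T) (x' : T) (z : Raw S T) : Prop :=
  ∃ y a w, Tr Θ s p.1 p.2 y a ∧ Path Θ.E a w x' ∧ BrV Θ s y w ∧ z = Mv.br w :: y

/-- the point `x'` of the copy pinned by `p` is a private vertex, named `z` -/
def LocPv (p : Raw S T × T) (x' : T) (z : Raw S T) : Prop :=
  (∃ u, Path Θ.E p.2 u x') ∧ (¬ ∃ z', LocOld Θ s p x' z') ∧ (¬ ∃ z', LocBr Θ s p x' z') ∧
    z = Mv.pv p.2 x' :: p.1

/-- the location map of the copy pinned by `p`, as a relation -/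
def Loc (p : Raw S T × T) (x' : T) (z : Raw S T) : Prop :=
  LocOld Θ s p x' z ∨ LocBr Θ s p x' z ∨ LocPv Θ s p x' z

/-- the successor stage -/
def next : Stg S T where
  n := s.n + 1
  W z := s.W z ∨ ∃ p x', Canon Θ s p ∧ Loc Θ s p x' z
  E z l z' := s.E z l z' ∨ ∃ p x' x'', Canon Θ s p ∧ Θ.E x' l x'' ∧ Loc Θ s p x' z ∧ Loc Θ s p x'' z'
  Off z x := s.Off z x ∨ ∃ p x', Canon Θ s p ∧ Loc Θ s p x' z ∧ Θ.pos x' = Θ.pos x

/-- the initial stage: one vertex, no edge, no copy -/
def stg0 : Stg S T where
  n := 0
  W z := z = []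
  E _ _ _ := False
  Off _ _ := False

/-- the stages -/
def stg : ℕ → Stg S T
  | 0 => stg0
  | n + 1 => next Θ (stg n)

/-- node of the branch `w` over `y` (`y` itself for the empty word) -/
def bnode (y : Raw S T) (w : List (S × Bool)) : Raw S T :=
  match w with
  | [] => y
  | _ :: _ => Mv.br w :: y

/-- The invariants of a stage. -/
structure Inv : Prop where
  sym : GSym s.E
  det : GDet s.E
  E_W : ∀ ⦃a l b⦄, s.E a l b → s.W a
  W_len : ∀ ⦃z⦄, s.W z → z.length ≤ s.n
  conn : ∀ ⦃z⦄, s.W z → ∃ w, Path s.E [] w z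
  Off_W : ∀ ⦃z x⦄, s.Off z x → s.W z
  Off_pos : ∀ ⦃z x x'⦄, s.Off z x → Θ.pos x = Θ.pos x' → s.Off z x'
  /-- official copies are completely present -/
  Off_step : ∀ ⦃z x l x'⦄, s.Off z x → Θ.E x l x' → ∃ z', s.E z l z' ∧ s.Off z' x'
  /-- official copies close up and embed -/
  Off_iff : ∀ ⦃z x w x' z'⦄, s.Off z x → Path Θ.E x w x' → Path s.E z w z' → (z' = z ↔ x' = x)
  /-- all positions are realised at the vertices of lower level -/
  sat : ∀ ⦃z⦄, s.W z → z.length < s.n → ∀ x, s.Off z x
  /-- every edge lies on an official copy -/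
  E_Off : ∀ ⦃z l z'⦄, s.E z l z' → ∃ x x', s.Off z x ∧ Θ.E x l x'
  /-- the attaching set of a top level copy is connected by paths of at most two pieces -/
  att : ∀ ⦃t xt u₁ a₁ y₁ u₂ a₂ y₂⦄, s.V t → s.Off t xt →
    Path Θ.E xt u₁ a₁ → Path s.E t u₁ y₁ → y₁.length < s.n →
    Path Θ.E xt u₂ a₂ → Path s.E t u₂ y₂ → y₂.length < s.n →
    ∃ g, FreeGroup.IsReduced g ∧ PChain Θ 2 a₁ g a₂ ∧ Path s.Elow y₁ g y₂
  /-- a top level vertex on two different copies is a branch vertex -/
  shared : ∀ ⦃z x₁ x₂⦄, s.V z → s.Off z x₁ → s.Off z x₂ → Θ.pos x₁ ≠ Θ.pos x₂ →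
    ∃ y w, z = Mv.br w :: y
  /-- branch words are reduced -/
  br_red : ∀ ⦃y w⦄, s.V (Mv.br w :: y) → FreeGroup.IsReduced w
  /-- the parent edge of a branch vertex -/
  br_edge : ∀ ⦃y w⦄, s.V (Mv.br w :: y) → ∃ w' l, w = w' ++ [l] ∧
    s.E (bnode y w') l (Mv.br w :: y) ∧ (w' ≠ [] → s.V (Mv.br w' :: y))
  /-- the whole branch lies in every copy through its end -/
  br_off : ∀ ⦃y w x⦄, s.V (Mv.br w :: y) → s.Off (Mv.br w :: y) x →
    ∃ a, Path Θ.E a w x ∧ s.Off y a

end Claimed.Agent.R300.Shell
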