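import Claimed.Agent.R300.ShellStage
import Claimed.Agent.R300.ShellWord

/-!
# Shelling library, part 3a: elementary consequences of the invariants, tasks, branches (T0-T2)
-/

namespace Claimed.Agent.R300.Shell

universe u v w

variable {S : Type u} {T : Type v} {Q : Type w} {Θ : RelSys S T Q} {s : Stg S T}

/-! ### T0: elementary consequences of the invariants -/

theorem Inv.E_W' (h : Inv Θ s) {a b : Raw S T} {l : S × Bool} (e : s.E a l b) : s.W b :=
  h.E_W (h.sym e)

theorem Inv.path_W (h : Inv Θ s) {a b : Raw S T} {w : List (S × Bool)} (ha : s.W a)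
    (hp : Path s.E a w b) : s.W b := by
  induction hp with
  | nil => exact ha
  | cons e _ ih => exact ih (h.E_W' e)

/-- official copies are present (paths) -/
theorem Inv.off_run (h : Inv Θ s) {z : Raw S T} {x x' : T} {w : List (S × Bool)}
    (ho : s.Off z x) (hx : Path Θ.E x w x') : ∃ z', Path s.E z w z' ∧ s.Off z' x' := by
  induction hx generalizing z with
  | nil => exact ⟨z, Path.nil _, ho⟩
  | cons e _ ih =>
    obtain ⟨z₁, e₁, o₁⟩ := h.Off_step ho e
    obtain ⟨z', p', o'⟩ := ih o₁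
    exact ⟨z', Path.cons e₁ p', o'⟩

/-- propagation of official incidences along common paths -/
theorem Inv.off_path (h : Inv Θ s) {z z' : Raw S T} {x x' : T} {w : List (S × Bool)}
    (ho : s.Off z x) (hp : Path s.E z w z') (hx : Path Θ.E x w x') : s.Off z' x' := by
  obtain ⟨z'', p, o⟩ := h.off_run ho hx
  have := p.det h.det hp
  subst this
  exact o

theorem Tr.refl (y : Raw S T) (x : T) : Tr Θ s y x y x := ⟨[], Path.nil _, Path.nil _⟩

theorem Tr.symm (h : Inv Θ s) {y y' : Raw S T} {x x' : T} (ht : Tr Θ s y x y' x') :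
    Tr Θ s y' x' y x := by
  obtain ⟨w, h1, h2⟩ := ht
  exact ⟨_, h1.inv h.sym, h2.inv Θ.sym⟩

theorem Tr.trans {y y' y'' : Raw S T} {x x' x'' : T} (h1 : Tr Θ s y x y' x')
    (h2 : Tr Θ s y' x' y'' x'') : Tr Θ s y x y'' x'' := by
  obtain ⟨w, a1, a2⟩ := h1
  obtain ⟨w', b1, b2⟩ := h2
  exact ⟨w ++ w', a1.append b1, a2.append b2⟩

/-- a traced pair can be traced by a reduced word -/
theorem Tr.exists_reduced (h : Inv Θ s) {y y' : Raw S T} {x x' : T} (ht : Tr Θ s y x y' x') :
    ∃ w, FreeGroup.IsReduced w ∧ Path s.E y w y' ∧ Path Θ.E x w x' := by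
  obtain ⟨w, h1, h2⟩ := ht
  obtain ⟨w', hr, he, h1'⟩ := h1.exists_reduced h.sym h.det
  exact ⟨w', hr, h1', h2.of_mk_eq Θ.sym Θ.det hr he.symm⟩

/-! ### T1, T2: tasks -/

theorem task_pos (h : Inv Θ s) {y : Raw S T} {x x' : T} (ht : Task s y x)
    (hx : Θ.pos x = Θ.pos x') : Task s y x' :=
  ⟨ht.1, fun ho => ht.2 (h.Off_pos ho hx.symm)⟩

/-- T1: the component of a task consists of tasks (in particular of top level vertices) -/
theorem task_of_tr (h : Inv Θ s) {y y' : Raw S T} {x x' : T} (ht : Task s y x)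
    (htr : Tr Θ s y x y' x') : Task s y' x' := by
  obtain ⟨w, h1, h2⟩ := htr
  have hno : ¬ s.Off y' x' := fun ho =>
    ht.2 (h.off_path ho (h1.inv h.sym) (h2.inv Θ.sym))
  have hW : s.W y' := h.path_W ht.1.1 h1
  refine ⟨⟨hW, ?_⟩, hno⟩
  by_contra hne
  have hlt : y'.length < s.n := lt_of_le_of_ne (h.W_len hW) hne
  exact hno (h.sat hW hlt x')

/-- T2 -/
theorem task_off_pos_ne (h : Inv Θ s) {y : Raw S T} {x x₁ : T} (ht : Task s y x)
    (ho : s.Off y x₁) : Θ.pos x₁ ≠ Θ.pos x :=
  fun he => ht.2 (h.Off_pos ho he)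

/-! ### branches of the top level -/

theorem Inv.br_ne_nil (h : Inv Θ s) {y : Raw S T} {w : List (S × Bool)}
    (hv : s.V (Mv.br w :: y)) : w ≠ [] := by
  obtain ⟨w', l, e, -, -⟩ := h.br_edge hv
  rw [e]; simp

/-- prefixes of branches are branches -/
theorem Inv.br_prefix (h : Inv Θ s) {y : Raw S T} {w₁ w₂ : List (S × Bool)}
    (hv : s.V (Mv.br (w₁ ++ w₂) :: y)) (h1 : w₁ ≠ []) : s.V (Mv.br w₁ :: y) := by
  induction w₂ using List.reverseRecOn with
  | nil => simpa using hv
  | append_singleton w₂ l ih =>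
    apply ih
    obtain ⟨w', l', e, -, hw'⟩ := h.br_edge hv
    rw [← List.append_assoc] at e
    obtain ⟨e1, -⟩ := List.append_inj' e rfl
    rw [e1]
    apply hw'
    rw [← e1]
    simp [h1]

theorem bnode_of_ne_nil (y : Raw S T) {w : List (S × Bool)} (hw : w ≠ []) :
    bnode y w = Mv.br w :: y := by
  cases w with
  | nil => exact absurd rfl hw
  | cons _ _ => rfl

/-- the branch from its foot to one of its nodes -/
theorem Inv.br_path_aux (h : Inv Θ s) {y : Raw S T} (w : List (S × Bool))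
    (hv : w ≠ [] → s.V (Mv.br w :: y)) : Path s.E y w (bnode y w) := by
  induction w using List.reverseRecOn with
  | nil => exact Path.nil _
  | append_singleton w l ih =>
    have hv' := hv (by simp)
    obtain ⟨w', l', e, he, hw'⟩ := h.br_edge hv'
    obtain ⟨e1, e2⟩ := List.append_inj' e rfl
    have e3 : l = l' := by simpa using e2
    subst e1 e3
    rw [bnode_of_ne_nil y (by simp)]
    exact (ih hw').concat he

/-- the branch as a path, cut at an arbitrary point -/
theorem Inv.br_path (h : Inv Θ s) {y : Raw S T} {w₁ w₂ : List (S × Bool)}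
    (hv : s.V (Mv.br (w₁ ++ w₂) :: y)) :
    Path s.E y w₁ (bnode y w₁) ∧ Path s.E (bnode y w₁) w₂ (Mv.br (w₁ ++ w₂) :: y) := by
  have p1 : Path s.E y w₁ (bnode y w₁) := h.br_path_aux w₁ (fun h1 => h.br_prefix hv h1)
  refine ⟨p1, ?_⟩
  have p : Path s.E y (w₁ ++ w₂) (bnode y (w₁ ++ w₂)) := h.br_path_aux _ (fun _ => hv)
  rw [bnode_of_ne_nil y (h.br_ne_nil hv)] at p
  obtain ⟨b, q1, q2⟩ := path_append_iff.1 p
  have := q1.det h.det p1
  subst this
  exact q2

theorem Inv.br_low (h : Inv Θ s) {y : Raw S T} {w : List (S × Bool)} (hv : s.V (Mv.br w :: y)) :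
    s.W y ∧ y.length < s.n := by
  constructor
  · have p : Path s.E y w (bnode y w) := h.br_path_aux _ (fun _ => hv)
    obtain ⟨l, w', rfl⟩ := List.exists_cons_of_ne_nil (h.br_ne_nil hv)
    obtain ⟨b, e, -⟩ := path_cons_iff.1 p
    exact h.E_W e
  · have := hv.2
    simp only [List.length_cons] at this
    omega

/-- `In1 y w`: the path from `y` reading `w` lies in one official copy -/
def In1 (Θ : RelSys S T Q) (s : Stg S T) (y : Raw S T) (w : List (S × Bool)) : Prop :=
  ∃ x₁, s.Off y x₁ ∧ ∃ z, Path Θ.E x₁ w z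

end Claimed.Agent.R300.Shell
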