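import Claimed.Agent.R300.ShellKey

/-!
# Shelling library, part 3c: three greedy segments are impossible
-/

namespace Claimed.Agent.R300.Shell

universe u v w

variable {S : Type u} {T : Type v} {Q : Type w} {Θ : RelSys S T Q} {s : Stg S T}

/-! ### T3: at most two pieces -/

/- PROOF OF `no_three` (paper proof, all steps checked by hand).
Let Q1: `s.Off y x₁`, `x₁` reads `w₁` up to `x₁'` (so `s.Off t₁ x₁'` by `Inv.off_path`).
Let Q2: `s.Off t₁ x₂`, `x₂` reads `w₂` up to `x₂'` (so `s.Off t₂ x₂'`).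
Let Q3: `s.Off t₂ x₃`, `x₃` reads `[l]` (from `Inv.E_Off` applied to `e3`).
(a) `pos x₁' ≠ pos x₂`: otherwise `x₁'` reads `w₂` (`pos_path`), so `In1 y (w₁ ++ w₂)`, against `m1`.
(b) `pos x₂' ≠ pos x₃`: otherwise `x₂'` reads `[l]`, so `In1 t₁ (w₂ ++ [l])`, against `m2`.
(c) `t₁`, `t₂` are tasks at the positions `x·w₁`, `x·w₁w₂` (`task_of_tr`), in particular `s.V`.
    By `Inv.shared`: `t₁ = br b₁ :: y₁`, `t₂ = br b₂ :: y₂`.
(d) `w₂` is a piece at `x₂` (second reading from `x·w₁`, position different by `task_off_pos_ne`).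
    All vertices of the path `t₁ -w₂-> t₂` are of top level (`task_of_tr`).
    `branch_geodesic` gives `y₁ = y₂`, `b₁ = c ++ d₁`, `b₂ = c ++ d₂`, `w₂ = invRev d₁ ++ d₂`.
(e) if `d₁ ≠ []`, say `d₁ = d ++ [k]`: `w₂` starts with `linv k`; by `Inv.br_off` for `s.Off t₁ x₁'`
    there is `a` with `Path a b₁ x₁'`, hence `x₁'` reads `[linv k]`, so `In1 y (w₁ ++ [linv k])`,
    against `m1` (with `r₁ = [linv k]`).
(f) if `d₁ = []`: `b₂ = b₁ ++ w₂`.  By `Inv.br_off` for `s.Off t₂ x₃`: `Path a₃ (b₁ ++ w₂) x₃`,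
    `s.Off y₂ a₃`.  Let `x₃'' = a₃·b₁`.  Then `s.Off t₁ x₃''` (`Inv.off_path` along the branch,
    `Inv.br_path`) and `x₃''` reads `w₂ ++ [l]`: against `m2`. -/
/-- three consecutive greedy segments are impossible -/
theorem no_three (h : Inv Θ s) (hC : C6 Θ) {y t₁ t₂ t₃ : Raw S T} {x x' : T}
    {w₁ w₂ : List (S × Bool)} {l : S × Bool} (ht : Task s y x)
    (hred : FreeGroup.IsReduced (w₁ ++ (w₂ ++ [l])))
    (p1 : Path s.E y w₁ t₁) (p2 : Path s.E t₁ w₂ t₂) (e3 : s.E t₂ l t₃)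
    (hx : Path Θ.E x (w₁ ++ (w₂ ++ [l])) x')
    (h1 : In1 Θ s y w₁) (h2 : In1 Θ s t₁ w₂) (hw2 : w₂ ≠ [])
    (m1 : ∀ r₁ r₂, w₂ ++ [l] = r₁ ++ r₂ → r₁ ≠ [] → ¬ In1 Θ s y (w₁ ++ r₁))
    (m2 : ¬ In1 Θ s t₁ (w₂ ++ [l])) : False := by
  obtain ⟨x₁, o1, x₁', q1⟩ := h1
  obtain ⟨x₂, o2, x₂', q2⟩ := h2
  obtain ⟨x₃, x₃', o3, q3⟩ := h.E_Off e3
  have o1' : s.Off t₁ x₁' := h.off_path o1 p1 q1
  have o2' : s.Off t₂ x₂' := h.off_path o2 p2 q2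
  obtain ⟨xa, hxa, hx2⟩ := path_append_iff.1 hx
  obtain ⟨xb, hxb, -⟩ := path_append_iff.1 hx2
  -- (a)
  have ha : Θ.pos x₁' ≠ Θ.pos x₂ := by
    intro he
    obtain ⟨z', hz', -⟩ := pos_path he.symm q2
    exact m1 w₂ [l] rfl hw2 ⟨x₁, o1, z', q1.append hz'⟩
  -- (b)
  have hb : Θ.pos x₂' ≠ Θ.pos x₃ := by
    intro he
    obtain ⟨z', hz', -⟩ := Θ.pos_step he.symm q3
    exact m2 ⟨x₂, o2, z', q2.concat hz'⟩
  -- (c)
  have T1 : Task s t₁ xa := task_of_tr h ht ⟨w₁, p1, hxa⟩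
  have T2 : Task s t₂ xb := task_of_tr h T1 ⟨w₂, p2, hxb⟩
  obtain ⟨y₁, b₁, rfl⟩ := h.shared T1.1 o1' o2 ha
  obtain ⟨y₂, b₂, rfl⟩ := h.shared T2.1 o2' o3 hb
  -- (d)
  have hr2 : FreeGroup.IsReduced w₂ := isReduced_left (isReduced_right hred)
  have pc : Piece Θ x₂ w₂ x₂' := Piece.mk' hr2 q2 hxb (task_off_pos_ne h T1 o2).symm
  have htop : ∀ v₁ v₂ t, w₂ = v₁ ++ v₂ → Path s.E (Mv.br b₁ :: y₁) v₁ t → t.length = s.n := by
    intro v₁ v₂ t hv hp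
    rw [hv] at hxb
    obtain ⟨c, hc, -⟩ := path_append_iff.1 hxb
    exact (task_of_tr h T1 ⟨v₁, hp, hc⟩).1.2
  obtain ⟨rfl, c, d₁, d₂, rfl, rfl, hw⟩ := branch_geodesic h hC T1.1 T2.1 o2 pc p2
    ⟨x₁', o1', ha⟩ ⟨x₃, o3, hb.symm⟩ htop
  rcases List.eq_nil_or_concat d₁ with rfl | ⟨d, k, hdk⟩
  · -- (f)
    simp only [List.append_nil, FreeGroup.invRev_empty, List.nil_append] at *
    subst hw
    obtain ⟨a₃, pa3, oa3⟩ := h.br_off T2.1 o3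
    obtain ⟨x₃'', r1, r2⟩ := path_append_iff.1 pa3
    have o4 : s.Off (Mv.br c :: y₁) x₃'' := h.off_path oa3 (h.br_path_full T1.1) r1
    exact m2 ⟨x₃'', o4, x₃', r2.concat q3⟩
  · -- (e)
    rw [List.concat_eq_append] at hdk
    subst hdk
    obtain ⟨a, pa, -⟩ := h.br_off T1.1 o1'
    rw [← List.append_assoc] at pa
    obtain ⟨m, -, em⟩ := path_append_iff.1 pa
    have em' := Θ.sym (path_single_iff.1 em)
    refine m1 [linv k] (FreeGroup.invRev d ++ d₂ ++ [l]) ?_ (by simp) ⟨x₁, o1, m, q1.concat em'⟩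
    rw [hw, invRev_concat]
    simp

end Claimed.Agent.R300.Shell
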