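import Claimed.Agent.R300.ShellThree

/-!
# Shelling library, part 3d: traced paths have at most two pieces; first injectivity (T3, T4)
-/

namespace Claimed.Agent.R300.Shell

universe u v w

variable {S : Type u} {T : Type v} {Q : Type w} {Θ : RelSys S T Q} {s : Stg S T}

/- PROOFS.
`greedy_rest`: suppose `r ≠ []`.  `In1 t₁ []` holds (`Inv.off_path` from `h1`).  Let `w₂` be the longest
  prefix of `r` with `In1 t₁ w₂` (`exists_longest_prefix`), `r = w₂ ++ r'`.  `w₂ ≠ []` since the first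
  edge of `r` lies in an official copy (`Inv.E_Off`).  If `r' = l :: r''`, apply `no_three` to
  `w₁ ++ (w₂ ++ [l])`.
`tr_two`: if `w = []` trivial.  Otherwise `In1 y []` holds by `Inv.E_Off`; take the longest prefix.
`tr_pchain`: each of the two segments is a piece at its start in the copy of the task
  (`task_of_tr`, `task_off_pos_ne`, `Piece.mk'`).
`tr_inj_left`: reduce both words; `w ++ invRev w'` is a closed chain of 4 pieces at `x`; `C6`; equal
  reduced words; `Path.det`. -/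
/-- T3 (greedy form): after the longest prefix lying in one official copy, the rest lies in one
official copy. -/
theorem greedy_rest (h : Inv Θ s) (hC : C6 Θ) {y t₁ y' : Raw S T} {x x' : T}
    {w₁ r : List (S × Bool)} (ht : Task s y x) (hred : FreeGroup.IsReduced (w₁ ++ r))
    (p1 : Path s.E y w₁ t₁) (p2 : Path s.E t₁ r y') (hx : Path Θ.E x (w₁ ++ r) x')
    (h1 : In1 Θ s y w₁)
    (m1 : ∀ r₁ r₂, r = r₁ ++ r₂ → r₁ ≠ [] → ¬ In1 Θ s y (w₁ ++ r₁)) :
    r = [] ∨ In1 Θ s t₁ r := by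
  by_cases hr : r = []
  · exact Or.inl hr
  right
  obtain ⟨x₁, o1, x₁', q1⟩ := id h1
  have h0 : In1 Θ s t₁ [] := ⟨x₁', h.off_path o1 p1 q1, x₁', Path.nil _⟩
  obtain ⟨w₂, r', rfl, h2, hmax⟩ := exists_longest_prefix (In1 Θ s t₁) r h0
  have hw2 : w₂ ≠ [] := by
    rintro rfl
    obtain ⟨l, r'', rfl⟩ := List.exists_cons_of_ne_nil (l := r') (by simpa using hr)
    simp only [List.nil_append] at p2
    obtain ⟨b, e, -⟩ := path_cons_iff.1 p2
    obtain ⟨x₀, x₀', o, e'⟩ := h.E_Off e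
    exact hmax [l] r'' rfl (by simp) ⟨x₀, o, x₀', by simpa using path_single_iff.2 e'⟩
  rcases r' with _ | ⟨l, r''⟩
  · simpa using h2
  exfalso
  obtain ⟨t₂, p2a, p2b⟩ := path_append_iff.1 p2
  obtain ⟨t₃, e3, -⟩ := path_cons_iff.1 p2b
  have e1 : w₁ ++ (w₂ ++ l :: r'') = (w₁ ++ (w₂ ++ [l])) ++ r'' := by simp
  rw [e1] at hred hx
  obtain ⟨x'', hx'', -⟩ := path_append_iff.1 hx
  refine no_three h hC ht (isReduced_left hred) p1 p2a e3 hx'' h1 h2 hw2 ?_ ?_
  · intro r₁ r₂ he hne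
    refine m1 r₁ (r₂ ++ r'') ?_ hne
    rw [← List.append_assoc, ← he]
    simp
  · exact hmax [l] r'' rfl (by simp)

/-- T3: a reduced traced path is covered by two official copies (greedy decomposition). -/
theorem tr_two (h : Inv Θ s) (hC : C6 Θ) {y y' : Raw S T} {x x' : T} {w : List (S × Bool)}
    (ht : Task s y x) (hred : FreeGroup.IsReduced w) (hy : Path s.E y w y')
    (hx : Path Θ.E x w x') :
    ∃ w₁ w₂ t₁, w = w₁ ++ w₂ ∧ Path s.E y w₁ t₁ ∧ Path s.E t₁ w₂ y' ∧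
      (w₁ = [] ∨ In1 Θ s y w₁) ∧ (w₂ = [] ∨ In1 Θ s t₁ w₂) ∧
      (∀ r₁ r₂, w₂ = r₁ ++ r₂ → r₁ ≠ [] → ¬ In1 Θ s y (w₁ ++ r₁)) := by
  rcases w with _ | ⟨l, w'⟩
  · refine ⟨[], [], y, rfl, Path.nil _, hy, Or.inl rfl, Or.inl rfl, ?_⟩
    intro r₁ r₂ he hne
    exact absurd (List.append_eq_nil_iff.1 he.symm).1 hne
  obtain ⟨b, e, -⟩ := path_cons_iff.1 hy
  obtain ⟨x₀, x₀', o, -⟩ := h.E_Off e
  have h0 : In1 Θ s y [] := ⟨x₀, o, x₀, Path.nil _⟩
  obtain ⟨w₁, r, he, h1, hmax⟩ := exists_longest_prefix (In1 Θ s y) (l :: w') h0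
  rw [he] at hy hx hred
  obtain ⟨t₁, p1, p2⟩ := path_append_iff.1 hy
  exact ⟨w₁, r, t₁, he, p1, p2, Or.inr h1, greedy_rest h hC ht hred p1 p2 hx h1 hmax, hmax⟩

/-- T3: a reduced traced path is a concatenation of at most two pieces. -/
theorem tr_pchain (h : Inv Θ s) (hC : C6 Θ) {y y' : Raw S T} {x x' : T} {w : List (S × Bool)}
    (ht : Task s y x) (hred : FreeGroup.IsReduced w) (hy : Path s.E y w y')
    (hx : Path Θ.E x w x') : PChain Θ 2 x w x' := by
  obtain ⟨w₁, w₂, t₁, rfl, p1, p2, a1, a2, -⟩ := tr_two h hC ht hred hy hx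
  obtain ⟨xa, hxa, hxb⟩ := path_append_iff.1 hx
  have T1 : Task s t₁ xa := task_of_tr h ht ⟨w₁, p1, hxa⟩
  have c1 : PChain Θ 1 x w₁ xa := by
    rcases a1 with rfl | ⟨x₁, o1, z, q1⟩
    · obtain rfl := path_nil_iff.1 hxa
      exact PChain.skip (PChain.nil _)
    · exact PChain.of_piece (Piece.mk' (isReduced_left hred) hxa q1 (task_off_pos_ne h ht o1))
  have c2 : PChain Θ 1 xa w₂ x' := by
    rcases a2 with rfl | ⟨x₁, o1, z, q1⟩
    · obtain rfl := path_nil_iff.1 hxb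
      exact PChain.skip (PChain.nil _)
    · exact PChain.of_piece (Piece.mk' (isReduced_right hred) hxb q1 (task_off_pos_ne h T1 o1))
  exact c1.append c2

/-! ### T4, T5: the two projections of the component are injective -/

theorem tr_inj_left (h : Inv Θ s) (hC : C6 Θ) {y y' y'' : Raw S T} {x x' : T} (ht : Task s y x)
    (h1 : Tr Θ s y x y' x') (h2 : Tr Θ s y x y'' x') : y' = y'' := by
  obtain ⟨w, hw, py, px⟩ := h1.exists_reduced h
  obtain ⟨w', hw', py', px'⟩ := h2.exists_reduced h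
  have c1 := tr_pchain h hC ht hw py px
  have c2 := tr_pchain h hC ht hw' py' px'
  have hmk := hC ((c1.append c2.inv).mono (by norm_num))
  rw [← FreeGroup.mul_mk, ← FreeGroup.inv_mk] at hmk
  have he : w = w' := eq_of_isReduced_of_mk_eq hw hw' (mul_inv_eq_one.1 hmk)
  subst he
  exact py.det h.det py'

end Claimed.Agent.R300.Shell
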