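import Claimed.Agent.R300.SpecHilb

/-!
# Row 300, KK Section 10: block decomposition (owner: helper236, prefix `spec`)

Abstract form of Lemma "copy-cut" and Proposition "global-gap": an operator `T` which is `f`-close to
a block diagonal operator `TD`, whose blocks are compressions `J q * Tq q * J q` of operators with a
separated upper band `Eq q`, has a spectral gap; together with the form bound used for the trace.
-/

namespace Claimed.Agent.R300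

set_option linter.unusedSectionVars false

open scoped InnerProductSpace ComplexOrder

variable {H : Type*} [NormedAddCommGroup H] [InnerProductSpace ℂ H] [CompleteSpace H]

/-- compression keeps the form close to one on almost invariant vectors. -/
theorem spec_compress_lower {T J : H →L[ℂ] H} {a ε : ℝ} {x : H} (hT : ‖T‖ ≤ 2)
    (hnear : ‖T x - x‖ ≤ a * ‖x‖) (hcut : ‖x - J x‖ ≤ ε * ‖x‖) :
    (1 - a - 4 * ε - 2 * ε ^ 2) * ‖x‖ ^ 2 ≤ (⟪T (J x), J x⟫_ℂ).re := by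
  set r : H := x - J x with hr
  have hJ : J x = x - r := by simp [hr]
  have hε : 0 ≤ ε * ‖x‖ := (norm_nonneg _).trans hcut
  have hTle : ∀ u : H, ‖T u‖ ≤ 2 * ‖u‖ := fun u =>
    (T.le_opNorm u).trans (mul_le_mul_of_nonneg_right hT (norm_nonneg _))
  have e1 : (⟪T x, x⟫_ℂ).re = (⟪T x - x, x⟫_ℂ).re + ‖x‖ ^ 2 := by
    rw [inner_sub_left, Complex.sub_re, spec_re_inner_self]; ring
  have b1 : -(a * ‖x‖ * ‖x‖) ≤ (⟪T x - x, x⟫_ℂ).re := by
    have h1 : |(⟪T x - x, x⟫_ℂ).re| ≤ ‖T x - x‖ * ‖x‖ :=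
      (Complex.abs_re_le_norm _).trans (norm_inner_le_norm _ _)
    have h2 : ‖T x - x‖ * ‖x‖ ≤ a * ‖x‖ * ‖x‖ := mul_le_mul_of_nonneg_right hnear (norm_nonneg _)
    have := (abs_le.mp h1).1
    linarith
  have b2 : (⟪T x, r⟫_ℂ).re ≤ 2 * ‖x‖ * (ε * ‖x‖) := by
    have h1 : (⟪T x, r⟫_ℂ).re ≤ ‖T x‖ * ‖r‖ := (Complex.re_le_norm _).trans (norm_inner_le_norm _ _)
    have h2 : ‖T x‖ * ‖r‖ ≤ (2 * ‖x‖) * (ε * ‖x‖) :=
      mul_le_mul (hTle x) hcut (norm_nonneg _) (by positivity)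
    linarith
  have b3 : (⟪T r, x⟫_ℂ).re ≤ 2 * (ε * ‖x‖) * ‖x‖ := by
    have h1 : (⟪T r, x⟫_ℂ).re ≤ ‖T r‖ * ‖x‖ := (Complex.re_le_norm _).trans (norm_inner_le_norm _ _)
    have h2 : ‖T r‖ ≤ 2 * (ε * ‖x‖) := (hTle r).trans (by linarith)
    have h3 : ‖T r‖ * ‖x‖ ≤ 2 * (ε * ‖x‖) * ‖x‖ := mul_le_mul_of_nonneg_right h2 (norm_nonneg _)
    linarith
  have b4 : -(2 * (ε * ‖x‖) * (ε * ‖x‖)) ≤ (⟪T r, r⟫_ℂ).re := by
    have h1 : |(⟪T r, r⟫_ℂ).re| ≤ ‖T r‖ * ‖r‖ :=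
      (Complex.abs_re_le_norm _).trans (norm_inner_le_norm _ _)
    have h2 : ‖T r‖ ≤ 2 * (ε * ‖x‖) := (hTle r).trans (by linarith)
    have h3 : ‖T r‖ * ‖r‖ ≤ 2 * (ε * ‖x‖) * (ε * ‖x‖) := mul_le_mul h2 hcut (norm_nonneg _) (by positivity)
    have := (abs_le.mp h1).1
    linarith
  have e2 : (⟪T (J x), J x⟫_ℂ).re
      = (⟪T x, x⟫_ℂ).re - (⟪T x, r⟫_ℂ).re - (⟪T r, x⟫_ℂ).re + (⟪T r, r⟫_ℂ).re := by
    rw [hJ]
    simp only [map_sub, inner_sub_left, inner_sub_right, Complex.sub_re]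
    ring
  rw [e2, e1]
  nlinarith [b1, b2, b3, b4]

section Blocks

variable {ι : Type*} {J Tq Eq : ι → H →L[ℂ] H} {T TD : H →L[ℂ] H}

/-- Parseval for an orthogonal resolution of the identity. -/
theorem spec_hasSum_norm_sq (hJ : ∀ q, IsStarProjection (J q)) (hJsum : ∀ y, HasSum (fun q => J q y) y)
    (y : H) : HasSum (fun q => ‖J q y‖ ^ 2) (‖y‖ ^ 2) := by
  have h1 : HasSum (fun q => ⟪J q y, y⟫_ℂ) ⟪y, y⟫_ℂ := by
    have := (hJsum y).mapL (innerSL ℂ y)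
    have h2 : HasSum (fun q => (starRingEnd ℂ) (⟪y, J q y⟫_ℂ)) ((starRingEnd ℂ) ⟪y, y⟫_ℂ) := by
      have h3 : HasSum (fun q => ⟪y, J q y⟫_ℂ) ⟪y, y⟫_ℂ := by simpa using this
      exact h3.map (starRingEnd ℂ) Complex.continuous_conj
    simpa [inner_conj_symm] using h2
  have h2 := Complex.hasSum_re h1
  rw [spec_re_inner_self] at h2
  have e : (fun q => (⟪J q y, y⟫_ℂ).re) = fun q => ‖J q y‖ ^ 2 := by
    funext q; exact spec_proj_inner (hJ q) y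
  rw [e] at h2
  exact h2

/-- the quadratic form of a block diagonal operator. -/
theorem spec_hasSum_form (hJ : ∀ q, IsStarProjection (J q)) (hJsum : ∀ y, HasSum (fun q => J q y) y)
    (hblock : ∀ q, TD * J q = J q * Tq q * J q) (y : H) :
    HasSum (fun q => (⟪Tq q (J q y), J q y⟫_ℂ).re) (⟪TD y, y⟫_ℂ).re := by
  have h0 : HasSum (fun q => TD (J q y)) (TD y) := (hJsum y).mapL TD
  have h1 : HasSum (fun q => ⟪y, TD (J q y)⟫_ℂ) ⟪y, TD y⟫_ℂ := by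
    simpa using h0.mapL (innerSL ℂ y)
  have h2 : HasSum (fun q => (⟪y, TD (J q y)⟫_ℂ).re) (⟪y, TD y⟫_ℂ).re := Complex.hasSum_re h1
  have e1 : (⟪y, TD y⟫_ℂ).re = (⟪TD y, y⟫_ℂ).re := by
    rw [← inner_conj_symm]; exact Complex.conj_re _
  have e2 : ∀ q, (⟪y, TD (J q y)⟫_ℂ).re = (⟪Tq q (J q y), J q y⟫_ℂ).re := by
    intro q
    have hb : TD (J q y) = J q (Tq q (J q y)) := by
      have := congrArg (fun S : H →L[ℂ] H => S y) (hblock q)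
      simpa using this
    have hsym := ContinuousLinearMap.isSelfAdjoint_iff_isSymmetric.mp (hJ q).isSelfAdjoint
    have h3 : ⟪y, J q (Tq q (J q y))⟫_ℂ = ⟪J q y, Tq q (J q y)⟫_ℂ := (hsym y _).symm
    rw [hb, h3, ← inner_conj_symm]
    exact Complex.conj_re _
  rw [← e1]
  simpa [e2] using h2

theorem spec_form_sub_le {f : ℝ} (hf : ‖T - TD‖ ≤ f) (y : H) :
    |(⟪T y, y⟫_ℂ).re - (⟪TD y, y⟫_ℂ).re| ≤ f * ‖y‖ ^ 2 := by
  have e : (⟪T y, y⟫_ℂ).re - (⟪TD y, y⟫_ℂ).re = (⟪(T - TD) y, y⟫_ℂ).re := by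
    simp
  rw [e]
  have h1 : |(⟪(T - TD) y, y⟫_ℂ).re| ≤ ‖(T - TD) y‖ * ‖y‖ :=
    (Complex.abs_re_le_norm _).trans (norm_inner_le_norm _ _)
  have h2 : ‖(T - TD) y‖ ≤ f * ‖y‖ :=
    ((T - TD).le_opNorm y).trans (mul_le_mul_of_nonneg_right hf (norm_nonneg _))
  have h3 : ‖(T - TD) y‖ * ‖y‖ ≤ f * ‖y‖ * ‖y‖ := mul_le_mul_of_nonneg_right h2 (norm_nonneg _)
  calc _ ≤ _ := h1
    _ ≤ _ := h3
    _ = _ := by ring

theorem spec_summable_proj (hJ : ∀ q, IsStarProjection (J q))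
    (hJsum : ∀ y, HasSum (fun q => J q y) y) (hE : ∀ q, IsStarProjection (Eq q)) (y : H) :
    Summable (fun q => ‖Eq q (J q y)‖ ^ 2) := by
  refine Summable.of_nonneg_of_le (fun q => by positivity) (fun q => ?_)
    (spec_hasSum_norm_sq hJ hJsum y).summable
  exact pow_le_pow_left₀ (norm_nonneg _) (spec_proj_norm_le (hE q) _) 2

/-- **Form bound** (paper: proof of Lemma kernel-form). -/
theorem spec_blocks_form (hJ : ∀ q, IsStarProjection (J q))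
    (hJsum : ∀ y, HasSum (fun q => J q y) y) (hE : ∀ q, IsStarProjection (Eq q))
    (hblock : ∀ q, TD * J q = J q * Tq q * J q) {f c χ : ℝ} (hf : ‖T - TD‖ ≤ f)
    (hform : ∀ q y, (⟪Tq q y, y⟫_ℂ).re ≤ c * ‖y‖ ^ 2 + χ * ‖Eq q y‖ ^ 2) (y : H) :
    (⟪T y, y⟫_ℂ).re ≤ (c + f) * ‖y‖ ^ 2 + χ * ∑' q, ‖Eq q (J q y)‖ ^ 2 := by
  have h1 := spec_hasSum_form hJ hJsum hblock y
  have h2 := spec_hasSum_norm_sq hJ hJsum y
  have h3 := (spec_summable_proj hJ hJsum hE y).hasSum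
  have h4 : HasSum (fun q => c * ‖J q y‖ ^ 2 + χ * ‖Eq q (J q y)‖ ^ 2)
      (c * ‖y‖ ^ 2 + χ * ∑' q, ‖Eq q (J q y)‖ ^ 2) := (h2.mul_left c).add (h3.mul_left χ)
  have h5 : (⟪TD y, y⟫_ℂ).re ≤ c * ‖y‖ ^ 2 + χ * ∑' q, ‖Eq q (J q y)‖ ^ 2 :=
    hasSum_le (fun q => hform q (J q y)) h1 h4
  have h6 := (abs_le.mp (spec_form_sub_le hf y)).2
  linarith

/-- the local upper space after cutting. -/
noncomputable def specLocal (J E : H →L[ℂ] H) : Submodule ℂ H :=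
  ((LinearMap.range (E : H →ₗ[ℂ] H)).map (J : H →ₗ[ℂ] H)).topologicalClosure

theorem specLocal_mem (J E : H →L[ℂ] H) (x : H) : J (E x) ∈ specLocal J E := by
  refine Submodule.le_topologicalClosure _ ?_
  exact ⟨E x, ⟨x, rfl⟩, rfl⟩

theorem specLocal_form {T₀ J₀ E₀ : H →L[ℂ] H} (hJ₀ : IsStarProjection J₀)
    (hE₀ : IsStarProjection E₀) {a ε : ℝ} (hT : ‖T₀‖ ≤ 2)
    (hnear : ∀ x, E₀ x = x → ‖T₀ x - x‖ ≤ a * ‖x‖) (hcut : ∀ x, E₀ x = x → ‖x - J₀ x‖ ≤ ε * ‖x‖)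
    (hpos : 0 ≤ 1 - a - 4 * ε - 2 * ε ^ 2) {m : H} (hm : m ∈ specLocal J₀ E₀) :
    (1 - a - 4 * ε - 2 * ε ^ 2) * ‖m‖ ^ 2 ≤ (⟪T₀ m, m⟫_ℂ).re := by
  have hclosed : IsClosed {m : H | (1 - a - 4 * ε - 2 * ε ^ 2) * ‖m‖ ^ 2 ≤ (⟪T₀ m, m⟫_ℂ).re} := by
    refine isClosed_le (by fun_prop) ?_
    exact Complex.continuous_re.comp (Continuous.inner T₀.continuous continuous_id)
  have hsub : (((LinearMap.range (E₀ : H →ₗ[ℂ] H)).map (J₀ : H →ₗ[ℂ] H) : Submodule ℂ H) : Set H)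
      ⊆ {m : H | (1 - a - 4 * ε - 2 * ε ^ 2) * ‖m‖ ^ 2 ≤ (⟪T₀ m, m⟫_ℂ).re} := by
    rintro _ ⟨_, ⟨x, rfl⟩, rfl⟩
    have hidem : E₀ (E₀ x) = E₀ x := by
      have := congrArg (fun S : H →L[ℂ] H => S x) hE₀.isIdempotentElem.eq
      simpa using this
    have h1 := spec_compress_lower (J := J₀) hT (hnear _ hidem) (hcut _ hidem)
    have h2 : ‖J₀ (E₀ x)‖ ^ 2 ≤ ‖E₀ x‖ ^ 2 :=
      pow_le_pow_left₀ (norm_nonneg _) (spec_proj_norm_le hJ₀ _) 2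
    have h3 := mul_le_mul_of_nonneg_left h2 hpos
    exact h3.trans h1
  exact closure_minimal hsub hclosed hm

/-- the global upper test space. -/
noncomputable def specGlobal (J Eq : ι → H →L[ℂ] H) : Submodule ℂ H :=
  ⨅ q, (specLocal (J q) (Eq q)).comap (J q : H →ₗ[ℂ] H)

theorem specGlobal_isClosed (J Eq : ι → H →L[ℂ] H) : IsClosed (specGlobal J Eq : Set H) := by
  unfold specGlobal
  rw [Submodule.coe_iInf]
  refine isClosed_iInter fun q => ?_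
  exact (Submodule.isClosed_topologicalClosure _).preimage (J q).continuous

theorem specGlobal_mem_iff {y : H} : y ∈ specGlobal J Eq ↔ ∀ q, J q y ∈ specLocal (J q) (Eq q) := by
  simp [specGlobal, Submodule.mem_iInf]

theorem specGlobal_mem (hJ : ∀ q, IsStarProjection (J q)) (hJJ : ∀ q q', q ≠ q' → J q * J q' = 0)
    (q : ι) (x : H) : J q (Eq q x) ∈ specGlobal J Eq := by
  rw [specGlobal_mem_iff]
  intro q'
  by_cases h : q' = q
  · subst h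
    have hidem : J q' (J q' (Eq q' x)) = J q' (Eq q' x) := by
      have := congrArg (fun S : H →L[ℂ] H => S (Eq q' x)) (hJ q').isIdempotentElem.eq
      simpa using this
    rw [hidem]
    exact specLocal_mem _ _ x
  · have : J q' (J q (Eq q x)) = 0 := by
      have := congrArg (fun S : H →L[ℂ] H => S (Eq q x)) (hJJ q' q h)
      simpa using this
    rw [this]
    exact Submodule.zero_mem _

/-- lower form bound on the global test space. -/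
theorem specGlobal_form_lower (hJ : ∀ q, IsStarProjection (J q))
    (hJsum : ∀ y, HasSum (fun q => J q y) y) (hE : ∀ q, IsStarProjection (Eq q))
    (hblock : ∀ q, TD * J q = J q * Tq q * J q) {f a ε : ℝ} (hf : ‖T - TD‖ ≤ f)
    (hnorm : ∀ q, ‖Tq q‖ ≤ 2)
    (hnear : ∀ q x, Eq q x = x → ‖Tq q x - x‖ ≤ a * ‖x‖)
    (hcut : ∀ q x, Eq q x = x → ‖x - J q x‖ ≤ ε * ‖x‖)
    (hpos : 0 ≤ 1 - a - 4 * ε - 2 * ε ^ 2) {y : H} (hy : y ∈ specGlobal J Eq) :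
    (1 - a - 4 * ε - 2 * ε ^ 2 - f) * ‖y‖ ^ 2 ≤ (⟪T y, y⟫_ℂ).re := by
  rw [specGlobal_mem_iff] at hy
  have h1 := spec_hasSum_form hJ hJsum hblock y
  have h2 := (spec_hasSum_norm_sq hJ hJsum y).mul_left (1 - a - 4 * ε - 2 * ε ^ 2)
  have h5 : (1 - a - 4 * ε - 2 * ε ^ 2) * ‖y‖ ^ 2 ≤ (⟪TD y, y⟫_ℂ).re :=
    hasSum_le (fun q => specLocal_form (hJ q) (hE q) (hnorm q) (hnear q) (hcut q) hpos (hy q)) h2 h1
  have h6 := (abs_le.mp (spec_form_sub_le hf y)).1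
  linarith

/-- vectors orthogonal to the global test space are killed by all `Eq q * J q`. -/
theorem specGlobal_orth (hJ : ∀ q, IsStarProjection (J q)) (hJJ : ∀ q q', q ≠ q' → J q * J q' = 0)
    (hE : ∀ q, IsStarProjection (Eq q)) {y : H} (hy : y ∈ (specGlobal J Eq)ᗮ) (q : ι) :
    Eq q (J q y) = 0 := by
  have hsJ := ContinuousLinearMap.isSelfAdjoint_iff_isSymmetric.mp (hJ q).isSelfAdjoint
  have hsE := ContinuousLinearMap.isSelfAdjoint_iff_isSymmetric.mp (hE q).isSelfAdjoint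
  have h1 : ∀ x, ⟪x, Eq q (J q y)⟫_ℂ = 0 := by
    intro x
    have h2 : ⟪J q (Eq q x), y⟫_ℂ = 0 :=
      Submodule.inner_right_of_mem_orthogonal (specGlobal_mem hJ hJJ q x) hy
    have h3 : ⟪J q (Eq q x), y⟫_ℂ = ⟪Eq q x, J q y⟫_ℂ := hsJ _ _
    have h4 : ⟪Eq q x, J q y⟫_ℂ = ⟪x, Eq q (J q y)⟫_ℂ := hsE _ _
    rw [← h4, ← h3, h2]
  have := h1 (Eq q (J q y))
  exact inner_self_eq_zero.mp this

/-- **Gap theorem for block decompositions** (paper: Proposition global-gap). -/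
theorem spec_blocks_gap (hT : IsSelfAdjoint T) (hJ : ∀ q, IsStarProjection (J q))
    (hJJ : ∀ q q', q ≠ q' → J q * J q' = 0)
    (hJsum : ∀ y, HasSum (fun q => J q y) y) (hE : ∀ q, IsStarProjection (Eq q))
    (hblock : ∀ q, TD * J q = J q * Tq q * J q) {f c χ a ε : ℝ} (hf : ‖T - TD‖ ≤ f)
    (hform : ∀ q y, (⟪Tq q y, y⟫_ℂ).re ≤ c * ‖y‖ ^ 2 + χ * ‖Eq q y‖ ^ 2)
    (hnorm : ∀ q, ‖Tq q‖ ≤ 2)
    (hnear : ∀ q x, Eq q x = x → ‖Tq q x - x‖ ≤ a * ‖x‖)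
    (hcut : ∀ q x, Eq q x = x → ‖x - J q x‖ ≤ ε * ‖x‖)
    (hpos : 0 ≤ 1 - a - 4 * ε - 2 * ε ^ 2) :
    SpecGap T (c + f) (1 - a - 4 * ε - 2 * ε ^ 2 - f) := by
  have := (specGlobal_isClosed J Eq).completeSpace_coe
  refine specGap_of_forms hT (specGlobal J Eq) ?_ ?_
  · intro y hy
    exact specGlobal_form_lower hJ hJsum hE hblock hf hnorm hnear hcut hpos hy
  · intro y hy
    have h1 := spec_blocks_form hJ hJsum hE hblock hf hform y
    have h2 : ∑' q, ‖Eq q (J q y)‖ ^ 2 = 0 := by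
      simp [specGlobal_orth hJ hJJ hE hy]
    rw [h2] at h1
    linarith

/-- upper bound of the spectrum. -/
theorem spec_blocks_upper (hT : IsSelfAdjoint T) (hJ : ∀ q, IsStarProjection (J q))
    (hJsum : ∀ y, HasSum (fun q => J q y) y) (hE : ∀ q, IsStarProjection (Eq q))
    (hblock : ∀ q, TD * J q = J q * Tq q * J q) {f c χ : ℝ} (hχ : 0 ≤ χ) (hf : ‖T - TD‖ ≤ f)
    (hform : ∀ q y, (⟪Tq q y, y⟫_ℂ).re ≤ c * ‖y‖ ^ 2 + χ * ‖Eq q y‖ ^ 2) :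
    ∀ z ∈ spectrum ℝ T, z ≤ c + f + χ := by
  intro z hz
  by_contra hcon
  refine spec_upper hT (c₂ := c + f + χ) ?_ (not_le.mp hcon) hz
  intro y
  have h1 := spec_blocks_form hJ hJsum hE hblock hf hform y
  have h2 : ∑' q, ‖Eq q (J q y)‖ ^ 2 ≤ ‖y‖ ^ 2 := by
    refine hasSum_le (fun q => ?_) (spec_summable_proj hJ hJsum hE y).hasSum
      (spec_hasSum_norm_sq hJ hJsum y)
    exact pow_le_pow_left₀ (norm_nonneg _) (spec_proj_norm_le (hE q) _) 2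
  nlinarith

/-- the band projection of `T` does not vanish if some local band projection does not vanish. -/
theorem spec_blocks_ne_zero (hT : IsSelfAdjoint T) (hJ : ∀ q, IsStarProjection (J q))
    (hJJ : ∀ q q', q ≠ q' → J q * J q' = 0)
    (hJsum : ∀ y, HasSum (fun q => J q y) y) (hE : ∀ q, IsStarProjection (Eq q))
    (hblock : ∀ q, TD * J q = J q * Tq q * J q) {f c χ a ε : ℝ} (hf : ‖T - TD‖ ≤ f)
    (hform : ∀ q y, (⟪Tq q y, y⟫_ℂ).re ≤ c * ‖y‖ ^ 2 + χ * ‖Eq q y‖ ^ 2)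
    (hnorm : ∀ q, ‖Tq q‖ ≤ 2)
    (hnear : ∀ q x, Eq q x = x → ‖Tq q x - x‖ ≤ a * ‖x‖)
    (hcut : ∀ q x, Eq q x = x → ‖x - J q x‖ ≤ ε * ‖x‖)
    (hpos : 0 ≤ 1 - a - 4 * ε - 2 * ε ^ 2) (hε : ε < 1)
    (h01 : c + f < 1 - a - 4 * ε - 2 * ε ^ 2 - f) {q : ι} (hq : Eq q ≠ 0) :
    specProj (c + f) (1 - a - 4 * ε - 2 * ε ^ 2 - f) T ≠ 0 := by
  have hgap := spec_blocks_gap hT hJ hJJ hJsum hE hblock hf hform hnorm hnear hcut hpos
  obtain ⟨x₀, hx₀⟩ : ∃ x₀, Eq q x₀ ≠ 0 := by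
    by_contra hcon
    push Not at hcon
    exact hq (ContinuousLinearMap.ext hcon)
  have hidem : Eq q (Eq q x₀) = Eq q x₀ := by
    have := congrArg (fun S : H →L[ℂ] H => S x₀) (hE q).isIdempotentElem.eq
    simpa using this
  have hne : J q (Eq q x₀) ≠ 0 := by
    intro h0
    have h1 := hcut q _ hidem
    rw [h0, sub_zero] at h1
    have h2 : 0 < ‖Eq q x₀‖ := norm_pos_iff.mpr hx₀
    nlinarith
  have hlow := specGlobal_form_lower (T := T) hJ hJsum hE hblock hf hnorm hnear hcut hpos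
    (specGlobal_mem hJ hJJ q x₀)
  refine specProj_ne_zero hT h01 hgap (x := J q (Eq q x₀)) ?_
  have h2 : 0 < ‖J q (Eq q x₀)‖ ^ 2 := by
    have := norm_pos_iff.mpr hne
    positivity
  nlinarith

end Blocks

end Claimed.Agent.R300
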