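import Claimed.Agent.R300.SpecBlock

/-!
# Row 300, KK Section 10: central partitions (owner: helper236, prefix `spec`)

* `specGap_lower`: quantitative form of a spectral gap: `‖(z - A) x‖ ≥ min (c₁ - z) (z - c₀) ‖x‖`.
* a family `cc α` of operators with `∑ ‖cc α x‖² = ‖x‖²` commuting with `B`: lower and upper bounds
  of `B` can be tested on the vectors `cc α x` (central localisation).
-/

set_option autoImplicit false

namespace Claimed.Agent.R300

open scoped InnerProductSpace ComplexOrder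

variable {H : Type*} [NormedAddCommGroup H] [InnerProductSpace ℂ H] [CompleteSpace H]

/-- quantitative form of a gap. -/
theorem specGap_lower {A : H →L[ℂ] H} (hA : IsSelfAdjoint A) {c₀ c₁ : ℝ} (h01 : c₀ < c₁)
    (hgap : SpecGap A c₀ c₁) (z : ℝ) (x : H) :
    min (c₁ - z) (z - c₀) * ‖x‖ ≤ ‖(z : ℂ) • x - A x‖ := by
  set E := specProj c₀ c₁ A with hE
  have hEp : IsStarProjection E := specProj_isStarProjection h01 hgap
  have hidem : ∀ y, E (E y) = E y := fun y => by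
    have := congrArg (fun T : H →L[ℂ] H => T y) hEp.isIdempotentElem.eq
    simpa using this
  set y₁ : H := E x with hy1
  set y₂ : H := x - E x with hy2
  have hsum : y₁ + y₂ = x := by simp [hy1, hy2]
  have hsym := ContinuousLinearMap.isSelfAdjoint_iff_isSymmetric.mp hEp.isSelfAdjoint
  have horth : ⟪y₁, y₂⟫_ℂ = 0 := by
    have h1 : ⟪E x, x - E x⟫_ℂ = ⟪x, E (x - E x)⟫_ℂ := hsym x (x - E x)
    rw [hy1, hy2, h1, map_sub, hidem, sub_self, inner_zero_right]
  have h1 : c₁ * ‖y₁‖ ^ 2 ≤ (⟪A y₁, y₁⟫_ℂ).re := specProj_form_lower hA h01 hgap (hidem x)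
  have h0 : (⟪A y₂, y₂⟫_ℂ).re ≤ c₀ * ‖y₂‖ ^ 2 :=
    specProj_form_upper hA h01 hgap (by rw [hy2, ← hE, map_sub, hidem, sub_self])
  have haux := spec_gap_aux hA (z := z) horth h1 h0
  rw [hsum] at haux
  have hpyth : ‖x‖ ^ 2 = ‖y₁‖ ^ 2 + ‖y₂‖ ^ 2 := by
    rw [← hsum, @norm_add_sq ℂ, horth]; simp
  have hlow : min (c₁ - z) (z - c₀) * ‖x‖ ^ 2 ≤ ‖(z : ℂ) • x - A x‖ * ‖x‖ := by
    refine le_trans ?_ haux
    rw [hpyth, mul_add]
    exact add_le_add (mul_le_mul_of_nonneg_right (min_le_left _ _) (by positivity))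
      (mul_le_mul_of_nonneg_right (min_le_right _ _) (by positivity))
  rcases eq_or_lt_of_le (norm_nonneg x) with h | h
  · rw [← h]; simp
  · have : (min (c₁ - z) (z - c₀) * ‖x‖) * ‖x‖ ≤ ‖(z : ℂ) • x - A x‖ * ‖x‖ := by
      calc _ = min (c₁ - z) (z - c₀) * ‖x‖ ^ 2 := by ring
        _ ≤ _ := hlow
    exact le_of_mul_le_mul_right this h

/-- a gap from lower bounds. -/
theorem specGap_of_lower {A : H →L[ℂ] H} (hA : IsSelfAdjoint A) {c₀ c₁ : ℝ}
    (h : ∀ z : ℝ, ∀ x : H, min (c₁ - z) (z - c₀) * ‖x‖ ≤ ‖(z : ℂ) • x - A x‖) :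
    SpecGap A c₀ c₁ := by
  intro z hz
  by_contra hcon
  rw [not_or, not_le, not_le] at hcon
  exact spec_not_mem_spectrum hA (lt_min (by linarith [hcon.2]) (by linarith [hcon.1])) (h z) hz

section Partition

variable {𝒜 : Type*} {cc : 𝒜 → H →L[ℂ] H}

omit [CompleteSpace H] in
/-- lower bounds can be tested locally. -/
theorem spec_partition_lower (hpart : ∀ x, HasSum (fun α => ‖cc α x‖ ^ 2) (‖x‖ ^ 2))
    {B : H →L[ℂ] H} (hcomm : ∀ α, Commute (cc α) B) {m : ℝ}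
    (hloc : ∀ α x, m * ‖cc α x‖ ≤ ‖B (cc α x)‖) (x : H) : m * ‖x‖ ≤ ‖B x‖ := by
  rcases le_or_gt m 0 with hm | hm
  · exact (mul_nonpos_of_nonpos_of_nonneg hm (norm_nonneg _)).trans (norm_nonneg _)
  have h1 := (hpart x).mul_left (m ^ 2)
  have h2 := hpart (B x)
  have h3 : m ^ 2 * ‖x‖ ^ 2 ≤ ‖B x‖ ^ 2 := by
    refine hasSum_le (fun α => ?_) h1 h2
    have e : cc α (B x) = B (cc α x) := by
      have := congrArg (fun T : H →L[ℂ] H => T x) (hcomm α).eq
      simpa using this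
    rw [e, ← mul_pow]
    exact pow_le_pow_left₀ (by positivity) (hloc α x) 2
  rw [← mul_pow] at h3
  exact (pow_le_pow_iff_left₀ (by positivity) (norm_nonneg _) two_ne_zero).mp h3

omit [CompleteSpace H] in
/-- upper bounds can be tested locally. -/
theorem spec_partition_upper (hpart : ∀ x, HasSum (fun α => ‖cc α x‖ ^ 2) (‖x‖ ^ 2))
    {B : H →L[ℂ] H} (hcomm : ∀ α, Commute (cc α) B) {m : ℝ} (hm : 0 ≤ m)
    (hloc : ∀ α x, ‖B (cc α x)‖ ≤ m * ‖cc α x‖) : ‖B‖ ≤ m := by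
  refine ContinuousLinearMap.opNorm_le_bound _ hm fun x => ?_
  have h1 := (hpart x).mul_left (m ^ 2)
  have h2 := hpart (B x)
  have h3 : ‖B x‖ ^ 2 ≤ m ^ 2 * ‖x‖ ^ 2 := by
    refine hasSum_le (fun α => ?_) h2 h1
    have e : cc α (B x) = B (cc α x) := by
      have := congrArg (fun T : H →L[ℂ] H => T x) (hcomm α).eq
      simpa using this
    rw [e, ← mul_pow]
    exact pow_le_pow_left₀ (norm_nonneg _) (hloc α x) 2
  rw [← mul_pow] at h3
  exact (pow_le_pow_iff_left₀ (norm_nonneg _) (by positivity) two_ne_zero).mp h3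

end Partition

end Claimed.Agent.R300
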