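import Mathlib

/-!
# Regular expanders of logarithmic girth: basic definitions

`k` permutations of a finite type `V` give a `2k`-regular Schreier multigraph.  Letters are pairs
`(i, b)`; `(i, true)` acts by `π i`, `(i, false)` by `(π i)⁻¹`.  Words are sequences
`ℕ → Letter k` of which only an initial segment matters.
-/

namespace Claimed.Agent.R300.Xp

open Equiv

/-- letters of the free group on `Fin k` -/
abbrev Letter (k : ℕ) : Type := Fin k × Bool

/-- inverse letter -/
def xp_inv {k : ℕ} (a : Letter k) : Letter k := (a.1, !a.2)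

@[simp] theorem xp_inv_inv {k : ℕ} (a : Letter k) : xp_inv (xp_inv a) = a := by
  simp [xp_inv]

theorem xp_inv_ne {k : ℕ} (a : Letter k) : xp_inv a ≠ a := by
  intro h
  have := congrArg Prod.snd h
  simp [xp_inv] at this

@[simp] theorem xp_inv_fst {k : ℕ} (a : Letter k) : (xp_inv a).1 = a.1 := rfl

theorem xp_inv_injective {k : ℕ} : Function.Injective (xp_inv (k := k)) := by
  intro a b h
  have := congrArg xp_inv h
  simpa using this

variable {k : ℕ} {V : Type*}

/-- action of a letter -/
def xp_act (π : Fin k → Perm V) (a : Letter k) : Perm V :=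
  if a.2 then π a.1 else (π a.1)⁻¹

@[simp] theorem xp_act_true (π : Fin k → Perm V) (i : Fin k) : xp_act π (i, true) = π i := rfl

@[simp] theorem xp_act_false (π : Fin k → Perm V) (i : Fin k) :
    xp_act π (i, false) = (π i)⁻¹ := rfl

theorem xp_act_inv (π : Fin k → Perm V) (a : Letter k) :
    xp_act π (xp_inv a) = (xp_act π a)⁻¹ := by
  obtain ⟨i, b⟩ := a
  cases b <;> simp [xp_inv]

theorem xp_act_inv_apply (π : Fin k → Perm V) (a : Letter k) (x : V) :
    xp_act π (xp_inv a) (xp_act π a x) = x := by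
  rw [xp_act_inv]; simp

theorem xp_act_apply_inv (π : Fin k → Perm V) (a : Letter k) (x : V) :
    xp_act π a (xp_act π (xp_inv a) x) = x := by
  rw [xp_act_inv]; simp

/-- trajectory of a point under a word -/
def xp_traj (π : Fin k → Perm V) (W : ℕ → Letter k) (z : V) : ℕ → V
  | 0 => z
  | j + 1 => xp_act π (W j) (xp_traj π W z j)

@[simp] theorem xp_traj_zero (π : Fin k → Perm V) (W : ℕ → Letter k) (z : V) :
    xp_traj π W z 0 = z := rfl

theorem xp_traj_succ (π : Fin k → Perm V) (W : ℕ → Letter k) (z : V) (j : ℕ) :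
    xp_traj π W z (j + 1) = xp_act π (W j) (xp_traj π W z j) := rfl

theorem xp_traj_congr (π : Fin k → Perm V) {W W' : ℕ → Letter k} (z : V) {j : ℕ}
    (h : ∀ i, i < j → W i = W' i) : xp_traj π W z j = xp_traj π W' z j := by
  induction j with
  | zero => rfl
  | succ j ih =>
    rw [xp_traj_succ, xp_traj_succ, ih (fun i hi => h i (by omega)), h j (by omega)]

theorem xp_traj_add (π : Fin k → Perm V) (W : ℕ → Letter k) (z : V) (a j : ℕ) :
    xp_traj π W z (a + j) = xp_traj π (fun i => W (a + i)) (xp_traj π W z a) j := by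
  induction j with
  | zero => rfl
  | succ j ih =>
    rw [← Nat.add_assoc, xp_traj_succ, xp_traj_succ, ih]

/-- a closed trajectory of a periodic word is periodic -/
theorem xp_traj_periodic (π : Fin k → Perm V) (W : ℕ → Letter k) (z : V) {l : ℕ}
    (hW : ∀ j, W (j + l) = W j) (hz : xp_traj π W z l = z) (j : ℕ) :
    xp_traj π W z (j + l) = xp_traj π W z j := by
  rw [Nat.add_comm, xp_traj_add, hz]
  apply xp_traj_congr
  intro i _
  rw [Nat.add_comm, hW]

/-- two systems of permutations which agree along the trajectory have the same trajectory -/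
theorem xp_traj_eq_of_agree (π π' : Fin k → Perm V) (W : ℕ → Letter k) (z : V) {j : ℕ}
    (h : ∀ i, i < j → xp_act π' (W i) (xp_traj π W z i) = xp_act π (W i) (xp_traj π W z i)) :
    xp_traj π' W z j = xp_traj π W z j := by
  induction j with
  | zero => rfl
  | succ j ih =>
    rw [xp_traj_succ, xp_traj_succ, ih (fun i hi => h i (by omega)), h j (by omega)]

/-- periodic extension of a word of length `l + 1` -/
def xp_ext {l : ℕ} (w : Fin (l + 1) → Letter k) : ℕ → Letter k :=
  fun j => w ⟨j % (l + 1), Nat.mod_lt _ (Nat.succ_pos l)⟩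

theorem xp_ext_periodic {l : ℕ} (w : Fin (l + 1) → Letter k) (j : ℕ) :
    xp_ext w (j + (l + 1)) = xp_ext w j := by
  simp [xp_ext]

theorem xp_ext_of_lt {l : ℕ} (w : Fin (l + 1) → Letter k) {j : ℕ} (hj : j < l + 1) :
    xp_ext w j = w ⟨j, hj⟩ := by
  simp [xp_ext, Nat.mod_eq_of_lt hj]

theorem xp_ext_injective {l : ℕ} : Function.Injective (xp_ext (k := k) (l := l)) := by
  intro w w' h
  funext j
  have := congrFun h j.1
  rwa [xp_ext_of_lt w j.2, xp_ext_of_lt w' j.2] at this

/-- cyclically reduced periodic word -/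
def xp_CycRed (W : ℕ → Letter k) : Prop := ∀ j, W (j + 1) ≠ xp_inv (W j)

/-- reduced on the first `l` letters -/
def xp_Red (W : ℕ → Letter k) (l : ℕ) : Prop := ∀ j, j + 1 < l → W (j + 1) ≠ xp_inv (W j)

theorem xp_CycRed.red {W : ℕ → Letter k} (h : xp_CycRed W) (l : ℕ) : xp_Red W l :=
  fun j _ => h j

theorem xp_CycRed.shift {W : ℕ → Letter k} (h : xp_CycRed W) (a : ℕ) :
    xp_CycRed (fun i => W (a + i)) := fun j => h (a + j)

end Claimed.Agent.R300.Xp
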