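import Claimed.Agent.R300.XpBasic

/-!
# E1: a reduced word rarely has a given fixed point

For a reduced word of length `l` and a point `z`, the number of `k`-tuples of permutations of `V`
for which the word fixes `z` is at most `l² / (n - l)` times the number of all tuples.
-/

namespace Claimed.Agent.R300.Xp

open Equiv Finset

set_option linter.unusedSectionVars false

variable {k : ℕ} {V : Type*} [DecidableEq V]

/-- multiply the action of the letter `a` on the left by `τ` -/
def xp_twist (π : Fin k → Perm V) (a : Letter k) (τ : Perm V) : Fin k → Perm V :=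
  Function.update π a.1 (if a.2 then τ * π a.1 else π a.1 * τ⁻¹)

theorem xp_act_twist_self (π : Fin k → Perm V) (a : Letter k) (τ : Perm V) :
    xp_act (xp_twist π a τ) a = τ * xp_act π a := by
  obtain ⟨i, b⟩ := a
  cases b <;> simp [xp_twist, xp_act]

theorem xp_act_twist_inv (π : Fin k → Perm V) (a : Letter k) (τ : Perm V) :
    xp_act (xp_twist π a τ) (xp_inv a) = xp_act π (xp_inv a) * τ⁻¹ := by
  rw [xp_act_inv, xp_act_twist_self, xp_act_inv, mul_inv_rev]

theorem xp_act_twist_of_ne (π : Fin k → Perm V) (a b : Letter k) (τ : Perm V)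
    (h : b.1 ≠ a.1) : xp_act (xp_twist π a τ) b = xp_act π b := by
  simp [xp_twist, xp_act, Function.update_of_ne h]

theorem xp_twist_twist (π : Fin k → Perm V) (a : Letter k) (τ : Perm V) :
    xp_twist (xp_twist π a τ) a τ⁻¹ = π := by
  obtain ⟨i, b⟩ := a
  funext j
  by_cases hj : j = i
  · subst hj
    cases b <;> simp [xp_twist, mul_assoc]
  · simp [xp_twist, Function.update_of_ne hj]

theorem xp_letter_cases (a b : Letter k) : b.1 ≠ a.1 ∨ b = a ∨ b = xp_inv a := by
  obtain ⟨i, c⟩ := a
  obtain ⟨j, e⟩ := b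
  by_cases h : j = i
  · subst h
    right
    cases c <;> cases e <;> simp [xp_inv]
  · left; exact h

/-- the twisted system has the same trajectory up to time `t` -/
theorem xp_traj_twist (π : Fin k → Perm V) (W : ℕ → Letter k) (z ζ : V) {t s : ℕ}
    (hred : xp_Red W (t + 1))
    (hinj : Set.InjOn (xp_traj π W z) (Set.Iic t))
    (hrep : xp_traj π W z (t + 1) = xp_traj π W z s)
    (hζ : ∀ j, j ≤ t → xp_traj π W z j ≠ ζ) {j : ℕ} (hj : j ≤ t) :
    xp_traj (xp_twist π (W t) (swap (xp_traj π W z s) ζ)) W z j = xp_traj π W z j := by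
  apply xp_traj_eq_of_agree
  intro i hi
  have hit : i < t := by omega
  rcases xp_letter_cases (W t) (W i) with h | h | h
  · rw [xp_act_twist_of_ne _ _ _ _ h]
  · rw [h, xp_act_twist_self, Perm.mul_apply]
    have e1 : xp_act π (W t) (xp_traj π W z i) = xp_traj π W z (i + 1) := by
      rw [xp_traj_succ, h]
    rw [e1]
    apply swap_apply_of_ne_of_ne
    · intro h2
      rw [← hrep, xp_traj_succ, xp_traj_succ, h] at h2
      have h3 := (xp_act π (W t)).injective h2
      have := hinj (show i ∈ Set.Iic t from by simp; omega) (show t ∈ Set.Iic t from by simp) h3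
      omega
    · exact hζ _ (by omega)
  · rw [h, xp_act_twist_inv, Perm.mul_apply, swap_inv]
    congr 1
    apply swap_apply_of_ne_of_ne
    · intro h2
      have e1 : xp_traj π W z (i + 1) = xp_traj π W z t := by
        rw [xp_traj_succ, h, h2, ← hrep, xp_traj_succ, xp_act_inv_apply]
      have := hinj (show i + 1 ∈ Set.Iic t from by simp; omega) (show t ∈ Set.Iic t from by simp) e1
      apply hred i (by omega)
      rw [this, h, xp_inv_inv]
    · exact hζ _ (by omega)

theorem xp_traj_twist_last (π : Fin k → Perm V) (W : ℕ → Letter k) (z ζ : V) {t s : ℕ}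
    (hred : xp_Red W (t + 1))
    (hinj : Set.InjOn (xp_traj π W z) (Set.Iic t))
    (hrep : xp_traj π W z (t + 1) = xp_traj π W z s)
    (hζ : ∀ j, j ≤ t → xp_traj π W z j ≠ ζ) :
    xp_traj (xp_twist π (W t) (swap (xp_traj π W z s) ζ)) W z (t + 1) = ζ := by
  rw [xp_traj_succ, xp_traj_twist π W z ζ hred hinj hrep hζ le_rfl, xp_act_twist_self,
    Perm.mul_apply, ← xp_traj_succ, hrep, swap_apply_left]

variable [Fintype V]

/-- the event "first repetition at time `t + 1`, equal to the point at time `s`" -/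
noncomputable def xp_B (W : ℕ → Letter k) (z : V) (t s : ℕ) : Finset (Fin k → Perm V) :=
  by
    classical
    exact univ.filter (fun π => Set.InjOn (xp_traj π W z) (Set.Iic t) ∧
      xp_traj π W z (t + 1) = xp_traj π W z s)

theorem xp_mem_B {W : ℕ → Letter k} {z : V} {t s : ℕ} {π : Fin k → Perm V} :
    π ∈ xp_B W z t s ↔ Set.InjOn (xp_traj π W z) (Set.Iic t) ∧
      xp_traj π W z (t + 1) = xp_traj π W z s := by
  classical
  simp [xp_B]

theorem xp_card_B_le (W : ℕ → Letter k) (z : V) {t s : ℕ} (hs : s ≤ t)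
    (hred : xp_Red W (t + 1)) :
    (Fintype.card V - (t + 1)) * (xp_B W z t s).card ≤ Fintype.card (Fin k → Perm V) := by
  classical
  set P : Finset (Σ _ : Fin k → Perm V, V) :=
    (xp_B W z t s).sigma (fun π => univ \ (range (t + 1)).image (xp_traj π W z)) with hP
  have hcard : P.card = (Fintype.card V - (t + 1)) * (xp_B W z t s).card := by
    rw [hP, card_sigma, mul_comm]
    rw [← smul_eq_mul, ← sum_const]
    apply sum_congr rfl
    intro π hπ
    rw [xp_mem_B] at hπ
    rw [card_sdiff_of_subset (subset_univ _), card_univ, card_image_of_injOn, card_range]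
    intro a ha b hb hab
    apply hπ.1 _ _ hab
    · simp at ha ⊢; omega
    · simp at hb ⊢; omega
  rw [← hcard, ← card_univ]
  apply card_le_card_of_injOn
    (fun p => xp_twist p.1 (W t) (swap (xp_traj p.1 W z s) p.2))
  · intro _ _; simp
  · rintro ⟨π₁, ζ₁⟩ h₁ ⟨π₂, ζ₂⟩ h₂ h
    simp only [hP, coe_sigma, Set.mem_sigma_iff, mem_coe, mem_sdiff, mem_univ, true_and,
      mem_image, mem_range, not_exists, not_and, xp_mem_B] at h₁ h₂
    simp only at h
    obtain ⟨⟨hi₁, hr₁⟩, hz₁⟩ := h₁
    obtain ⟨⟨hi₂, hr₂⟩, hz₂⟩ := h₂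
    have hz₁' : ∀ j, j ≤ t → xp_traj π₁ W z j ≠ ζ₁ := fun j hj => hz₁ j (by omega)
    have hz₂' : ∀ j, j ≤ t → xp_traj π₂ W z j ≠ ζ₂ := fun j hj => hz₂ j (by omega)
    have e1 := xp_traj_twist_last π₁ W z ζ₁ hred hi₁ hr₁ hz₁'
    have e2 := xp_traj_twist_last π₂ W z ζ₂ hred hi₂ hr₂ hz₂'
    have f1 := xp_traj_twist π₁ W z ζ₁ hred hi₁ hr₁ hz₁' hs
    have f2 := xp_traj_twist π₂ W z ζ₂ hred hi₂ hr₂ hz₂' hs
    rw [h] at e1 f1
    have hζ : ζ₁ = ζ₂ := e1.symm.trans e2
    have hx : xp_traj π₁ W z s = xp_traj π₂ W z s := f1.symm.trans f2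
    have g1 := xp_twist_twist π₁ (W t) (swap (xp_traj π₁ W z s) ζ₁)
    have g2 := xp_twist_twist π₂ (W t) (swap (xp_traj π₂ W z s) ζ₂)
    rw [h, hx, hζ, g2] at g1
    subst hζ
    rw [g1]

/-- **E1.**  A reduced word of length `l ≥ 1` fixes `z` for at most a fraction `l²/(n-l)` of all
systems of permutations. -/
theorem xp_card_closed_le (W : ℕ → Letter k) (z : V) {l : ℕ} (hl : 1 ≤ l) (hred : xp_Red W l) :
    (Fintype.card V - l) * (univ.filter (fun π : Fin k → Perm V => xp_traj π W z l = z)).card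
      ≤ l ^ 2 * Fintype.card (Fin k → Perm V) := by
  classical
  set C := univ.filter (fun π : Fin k → Perm V => xp_traj π W z l = z) with hC
  have hsub : C ⊆ (range l).biUnion (fun t => (range (t + 1)).biUnion (fun s => xp_B W z t s)) := by
    intro π hπ
    simp only [hC, mem_filter, mem_univ, true_and] at hπ
    have hex : ∃ j, 1 ≤ j ∧ j ≤ l ∧ ∃ s, s < j ∧ xp_traj π W z j = xp_traj π W z s :=
      ⟨l, hl, le_rfl, 0, by omega, by simpa using hπ⟩
    obtain ⟨h1, h2, s, hs, hrep⟩ := Nat.find_spec hex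
    have hmin := fun m (hm : m < Nat.find hex) => Nat.find_min hex hm
    generalize Nat.find hex = j at h1 h2 hs hrep hmin
    obtain ⟨t, rfl⟩ : ∃ t, j = t + 1 := ⟨j - 1, by omega⟩
    simp only [mem_biUnion, mem_range, xp_mem_B]
    refine ⟨t, by omega, s, hs, ?_, hrep⟩
    intro a ha b hb hab
    simp only [Set.mem_Iic] at ha hb
    by_contra hne
    rcases Nat.lt_or_gt_of_ne hne with h | h
    · exact hmin b (by omega) ⟨by omega, by omega, a, h, hab.symm⟩
    · exact hmin a (by omega) ⟨by omega, by omega, b, h, hab⟩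
  have h1 : C.card ≤ ∑ t ∈ range l, ∑ s ∈ range (t + 1), (xp_B W z t s).card := by
    refine (card_le_card hsub).trans (card_biUnion_le.trans ?_)
    exact sum_le_sum (fun t _ => card_biUnion_le)
  calc (Fintype.card V - l) * C.card
      ≤ (Fintype.card V - l) * ∑ t ∈ range l, ∑ s ∈ range (t + 1), (xp_B W z t s).card :=
        Nat.mul_le_mul_left _ h1
    _ = ∑ t ∈ range l, ∑ s ∈ range (t + 1), (Fintype.card V - l) * (xp_B W z t s).card := by
        rw [mul_sum]; exact sum_congr rfl (fun t _ => mul_sum _ _ _)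
    _ ≤ ∑ t ∈ range l, ∑ s ∈ range (t + 1), Fintype.card (Fin k → Perm V) := by
        apply sum_le_sum; intro t ht
        apply sum_le_sum; intro s hs
        simp only [mem_range] at ht hs
        refine le_trans (Nat.mul_le_mul_right _ (by omega)) (xp_card_B_le W z (t := t) (by omega) ?_)
        intro j hj; exact hred j (by omega)
    _ ≤ ∑ t ∈ range l, l * Fintype.card (Fin k → Perm V) := by
        apply sum_le_sum; intro t ht
        simp only [mem_range] at ht
        rw [sum_const, card_range, smul_eq_mul]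
        exact Nat.mul_le_mul_right _ (by omega)
    _ = l ^ 2 * Fintype.card (Fin k → Perm V) := by
        rw [sum_const, card_range, smul_eq_mul]; ring

end Claimed.Agent.R300.Xp
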