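import Claimed.Agent.R300.XpBasic

/-!
# E2: most systems of permutations expand

Counting lemma `#{σ | σ W ⊆ U} · n^w ≤ n! · u^w` and the two union bounds (small sets, large sets).
-/

namespace Claimed.Agent.R300.Xp

open Equiv Finset

set_option linter.unusedSectionVars false

variable {V : Type*} [DecidableEq V] [Fintype V]

/-- permutations mapping `W` into `U` -/
def xp_X (W U : Finset V) : Finset (Perm V) := univ.filter (fun σ => ∀ a ∈ W, σ a ∈ U)

theorem xp_mem_X {W U : Finset V} {σ : Perm V} : σ ∈ xp_X W U ↔ ∀ a ∈ W, σ a ∈ U := by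
  simp [xp_X]

theorem xp_card_X_insert (W U : Finset V) {a : V} (ha : a ∉ W) :
    (xp_X (insert a W) U).card * (Fintype.card V - W.card) ≤
      (xp_X W U).card * (U.card - W.card) := by
  set D : Finset (Σ _ : Perm V, V) :=
    (xp_X (insert a W) U).sigma (fun σ => univ \ W.image σ) with hD
  set R : Finset (Σ _ : Perm V, V) :=
    (xp_X W U).sigma (fun σ => U \ W.image σ) with hR
  have hDc : D.card = (xp_X (insert a W) U).card * (Fintype.card V - W.card) := by
    rw [hD, card_sigma, ← smul_eq_mul, ← sum_const]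
    apply sum_congr rfl
    intro σ _
    rw [card_sdiff_of_subset (subset_univ _), card_univ, card_image_of_injective _ σ.injective]
  have hRc : R.card = (xp_X W U).card * (U.card - W.card) := by
    rw [hR, card_sigma, ← smul_eq_mul, ← sum_const]
    apply sum_congr rfl
    intro σ hσ
    rw [xp_mem_X] at hσ
    rw [card_sdiff_of_subset, card_image_of_injective _ σ.injective]
    intro b hb
    obtain ⟨c, hc, rfl⟩ := mem_image.1 hb
    exact hσ c hc
  rw [← hDc, ← hRc]
  apply card_le_card_of_injOn (fun p => ⟨swap (p.1 a) p.2 * p.1, p.1 a⟩)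
  · rintro ⟨σ, z⟩ h
    simp only [hD, coe_sigma, Set.mem_sigma_iff, mem_coe, mem_sdiff, mem_univ, true_and,
      mem_image, not_exists, not_and, xp_mem_X] at h
    obtain ⟨hσ, hz⟩ := h
    have key : ∀ b ∈ W, (swap (σ a) z * σ) b = σ b := by
      intro b hb
      rw [Perm.mul_apply]
      apply swap_apply_of_ne_of_ne
      · intro h; exact ha (σ.injective h ▸ hb)
      · exact hz b hb
    simp only [hR, coe_sigma, Set.mem_sigma_iff, mem_coe, mem_sdiff, mem_image, not_exists,
      not_and, xp_mem_X]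
    refine ⟨fun b hb => ?_, hσ a (mem_insert_self _ _), fun b hb => ?_⟩
    · rw [key b hb]; exact hσ b (mem_insert_of_mem hb)
    · rw [key b hb]; intro h; exact ha (σ.injective h ▸ hb)
  · rintro ⟨σ₁, z₁⟩ _ ⟨σ₂, z₂⟩ _ h
    simp only [Sigma.mk.injEq, heq_eq_eq] at h
    obtain ⟨h1, h2⟩ := h
    have e1 : (swap (σ₁ a) z₁ * σ₁) a = z₁ := by simp
    have e2 : (swap (σ₂ a) z₂ * σ₂) a = z₂ := by simp
    have hz : z₁ = z₂ := by rw [← e1, ← e2, h1]
    subst hz
    rw [h2] at h1
    have := mul_left_cancel h1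
    subst this
    rfl

theorem xp_card_X_descFactorial (W U : Finset V) :
    (xp_X W U).card * (Fintype.card V).descFactorial W.card ≤
      (Fintype.card V).factorial * U.card.descFactorial W.card := by
  induction W using Finset.induction_on with
  | empty => simp [xp_X, Fintype.card_perm]
  | insert a W ha ih =>
    rw [card_insert_of_notMem ha, Nat.descFactorial_succ, Nat.descFactorial_succ]
    calc (xp_X (insert a W) U).card *
          ((Fintype.card V - W.card) * (Fintype.card V).descFactorial W.card)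
        = ((xp_X (insert a W) U).card * (Fintype.card V - W.card)) *
            (Fintype.card V).descFactorial W.card := by ring
      _ ≤ ((xp_X W U).card * (U.card - W.card)) * (Fintype.card V).descFactorial W.card :=
          Nat.mul_le_mul_right _ (xp_card_X_insert W U ha)
      _ = ((xp_X W U).card * (Fintype.card V).descFactorial W.card) * (U.card - W.card) := by ring
      _ ≤ ((Fintype.card V).factorial * U.card.descFactorial W.card) * (U.card - W.card) :=
          Nat.mul_le_mul_right _ ih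
      _ = _ := by ring

theorem xp_descFactorial_mul_pow_le {u n : ℕ} (h : u ≤ n) (w : ℕ) :
    u.descFactorial w * n ^ w ≤ n.descFactorial w * u ^ w := by
  induction w with
  | zero => simp
  | succ w ih =>
    rw [Nat.descFactorial_succ, Nat.descFactorial_succ, pow_succ, pow_succ]
    have h1 : (u - w) * n ≤ (n - w) * u := by
      rcases Nat.le_total w u with hw | hw
      · obtain ⟨a, rfl⟩ := Nat.exists_eq_add_of_le hw
        obtain ⟨b, rfl⟩ := Nat.exists_eq_add_of_le h
        have e1 : w + a - w = a := by omega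
        have e2 : w + a + b - w = a + b := by omega
        rw [e1, e2]
        nlinarith [Nat.zero_le (w * b), Nat.zero_le (a * b)]
      · simp [Nat.sub_eq_zero_of_le hw]
    calc (u - w) * u.descFactorial w * (n ^ w * n)
        = (u.descFactorial w * n ^ w) * ((u - w) * n) := by ring
      _ ≤ (n.descFactorial w * u ^ w) * ((n - w) * u) := Nat.mul_le_mul ih h1
      _ = _ := by ring

/-- `P(σ W ⊆ U) ≤ (u/n)^w` -/
theorem xp_card_X_le (W U : Finset V) :
    (xp_X W U).card * Fintype.card V ^ W.card ≤ (Fintype.card V).factorial * U.card ^ W.card := by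
  have hu : U.card ≤ Fintype.card V := card_le_univ U
  have hw : W.card ≤ Fintype.card V := card_le_univ W
  have hpos : 0 < (Fintype.card V).descFactorial W.card := Nat.descFactorial_pos.2 hw
  apply Nat.le_of_mul_le_mul_right _ hpos
  calc (xp_X W U).card * Fintype.card V ^ W.card * (Fintype.card V).descFactorial W.card
      = ((xp_X W U).card * (Fintype.card V).descFactorial W.card) * Fintype.card V ^ W.card := by
        ring
    _ ≤ ((Fintype.card V).factorial * U.card.descFactorial W.card) * Fintype.card V ^ W.card :=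
        Nat.mul_le_mul_right _ (xp_card_X_descFactorial W U)
    _ = (Fintype.card V).factorial * (U.card.descFactorial W.card * Fintype.card V ^ W.card) := by
        ring
    _ ≤ (Fintype.card V).factorial * ((Fintype.card V).descFactorial W.card * U.card ^ W.card) :=
        Nat.mul_le_mul_left _ (xp_descFactorial_mul_pow_le hu _)
    _ = _ := by ring

variable {k : ℕ}

/-- systems of permutations all of which map `W` into `U` -/
def xp_Q (k : ℕ) (W U : Finset V) : Finset (Fin k → Perm V) :=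
  Fintype.piFinset (fun _ => xp_X W U)

theorem xp_mem_Q {W U : Finset V} {π : Fin k → Perm V} :
    π ∈ xp_Q k W U ↔ ∀ i, ∀ a ∈ W, π i a ∈ U := by
  simp [xp_Q, xp_mem_X]

theorem xp_card_Omega : Fintype.card (Fin k → Perm V) = (Fintype.card V).factorial ^ k := by
  simp [Fintype.card_perm]

theorem xp_card_Q_le (W U : Finset V) :
    (xp_Q k W U).card * Fintype.card V ^ (k * W.card) ≤
      Fintype.card (Fin k → Perm V) * U.card ^ (k * W.card) := by
  rw [xp_card_Omega, xp_Q, Fintype.card_piFinset_const, mul_comm k, pow_mul, pow_mul,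
    ← mul_pow, ← mul_pow]
  exact Nat.pow_le_pow_left (xp_card_X_le W U) k

/-- forward neighbours of `W` -/
def xp_N (π : Fin k → Perm V) (W : Finset V) : Finset V := univ.biUnion (fun i => W.image (π i))

/-- number of oriented slots leaving `W` -/
def xp_out (π : Fin k → Perm V) (W : Finset V) : ℕ :=
  ∑ i, (W.filter (fun a => π i a ∉ W)).card

theorem xp_card_N_sdiff_le (π : Fin k → Perm V) (W : Finset V) :
    (xp_N π W \ W).card ≤ xp_out π W := by
  have hsub : xp_N π W \ W ⊆
      univ.biUnion (fun i => (W.filter (fun a => π i a ∉ W)).image (π i)) := by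
    intro b hb
    simp only [xp_N, mem_sdiff, mem_biUnion, mem_univ, true_and, mem_image] at hb
    obtain ⟨⟨i, a, ha, rfl⟩, hb⟩ := hb
    simp only [mem_biUnion, mem_univ, true_and, mem_image, mem_filter]
    exact ⟨i, a, ⟨ha, hb⟩, rfl⟩
  refine (card_le_card hsub).trans (card_biUnion_le.trans ?_)
  exact sum_le_sum (fun i _ => card_image_le)

theorem xp_mem_Q_of_N_subset {π : Fin k → Perm V} {W U : Finset V} (h : xp_N π W ⊆ U) :
    π ∈ xp_Q k W U := by
  rw [xp_mem_Q]
  intro i a ha
  apply h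
  simp only [xp_N, mem_biUnion, mem_univ, true_and, mem_image]
  exact ⟨i, a, ha, rfl⟩

/-! ### arithmetic -/

theorem xp_pow_self_le (m : ℕ) : m ^ m ≤ 3 ^ m * m.factorial := by
  have h := Real.pow_div_factorial_le_exp (x := (m : ℝ)) (Nat.cast_nonneg m) m
  have h3 : Real.exp (m : ℝ) ≤ 3 ^ m := by
    have : Real.exp (m : ℝ) = Real.exp 1 ^ m := by
      rw [← Real.exp_nat_mul]; simp
    rw [this]
    exact pow_le_pow_left₀ (Real.exp_pos 1).le Real.exp_one_lt_three.le m
  have hf : (0 : ℝ) < (m.factorial : ℝ) := by exact_mod_cast m.factorial_pos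
  have h4 : (m : ℝ) ^ m ≤ 3 ^ m * (m.factorial : ℝ) := by
    rw [div_le_iff₀ hf] at h
    exact h.trans (mul_le_mul_of_nonneg_right h3 hf.le)
  exact_mod_cast h4

theorem xp_choose_mul_pow_le (n m : ℕ) : n.choose m * m ^ m ≤ (3 * n) ^ m := by
  calc n.choose m * m ^ m ≤ n.choose m * (3 ^ m * m.factorial) :=
        Nat.mul_le_mul_left _ (xp_pow_self_le m)
    _ = 3 ^ m * (m.factorial * n.choose m) := by ring
    _ = 3 ^ m * n.descFactorial m := by rw [Nat.descFactorial_eq_factorial_mul_choose]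
    _ ≤ 3 ^ m * n ^ m := Nat.mul_le_mul_left _ (Nat.descFactorial_le_pow n m)
    _ = (3 * n) ^ m := by rw [mul_pow]

theorem xp_small_arith (n w r : ℕ) (h : 16 * w ≤ n) :
    n.choose w * n.choose (4 * w) * (4 * w) ^ ((10 + r) * w) * 4 ^ (r * w) ≤
      n ^ ((10 + r) * w) := by
  have e0 : (10 + r) * w = w + 4 * w + (5 + r) * w := by ring
  have h1 : n.choose w * (4 * w) ^ w ≤ (12 * n) ^ w := by
    calc n.choose w * (4 * w) ^ w = 4 ^ w * (n.choose w * w ^ w) := by rw [mul_pow]; ring
      _ ≤ 4 ^ w * (3 * n) ^ w := Nat.mul_le_mul_left _ (xp_choose_mul_pow_le n w)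
      _ = (12 * n) ^ w := by rw [← mul_pow]; ring_nf
  have h2 : n.choose (4 * w) * (4 * w) ^ (4 * w) ≤ (3 * n) ^ (4 * w) :=
    xp_choose_mul_pow_le n (4 * w)
  have h3 : (12 : ℕ) ^ w * 3 ^ (4 * w) * 4 ^ (r * w) ≤ 4 ^ ((5 + r) * w) := by
    have : (12 : ℕ) ^ w * 3 ^ (4 * w) ≤ 4 ^ (5 * w) := by
      rw [pow_mul, pow_mul, ← mul_pow]
      exact Nat.pow_le_pow_left (by norm_num) w
    calc (12 : ℕ) ^ w * 3 ^ (4 * w) * 4 ^ (r * w) ≤ 4 ^ (5 * w) * 4 ^ (r * w) :=
          Nat.mul_le_mul_right _ this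
      _ = 4 ^ ((5 + r) * w) := by rw [← pow_add]; ring_nf
  have h4 : 4 ^ ((5 + r) * w) * (4 * w) ^ ((5 + r) * w) ≤ n ^ ((5 + r) * w) := by
    rw [← mul_pow]
    exact Nat.pow_le_pow_left (by omega) _
  calc n.choose w * n.choose (4 * w) * (4 * w) ^ ((10 + r) * w) * 4 ^ (r * w)
      = (n.choose w * (4 * w) ^ w) * (n.choose (4 * w) * (4 * w) ^ (4 * w)) *
          ((4 * w) ^ ((5 + r) * w) * 4 ^ (r * w)) := by
        rw [e0, pow_add, pow_add]; ring
    _ ≤ (12 * n) ^ w * (3 * n) ^ (4 * w) * ((4 * w) ^ ((5 + r) * w) * 4 ^ (r * w)) :=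
        Nat.mul_le_mul_right _ (Nat.mul_le_mul h1 h2)
    _ = (12 ^ w * 3 ^ (4 * w) * 4 ^ (r * w)) * (4 * w) ^ ((5 + r) * w) * (n ^ w * n ^ (4 * w)) := by
        rw [mul_pow, mul_pow]; ring
    _ ≤ 4 ^ ((5 + r) * w) * (4 * w) ^ ((5 + r) * w) * (n ^ w * n ^ (4 * w)) :=
        Nat.mul_le_mul_right _ (Nat.mul_le_mul_right _ h3)
    _ ≤ n ^ ((5 + r) * w) * (n ^ w * n ^ (4 * w)) := Nat.mul_le_mul_right _ h4
    _ = n ^ ((10 + r) * w) := by rw [e0, pow_add, pow_add]; ring

theorem xp_geom_sum_le (a : ℕ → ℕ) (Om m : ℕ) (h : ∀ w, 1 ≤ w → w ≤ m → a w * 16 ^ w ≤ Om) :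
    8 * ∑ w ∈ Icc 1 m, a w ≤ Om := by
  have key : ∀ m', m' ≤ m → 15 * (∑ w ∈ Icc 1 m', a w) * 16 ^ m' + Om ≤ Om * 16 ^ m' := by
    intro m'
    induction m' with
    | zero => intro _; simp
    | succ j ih =>
      intro hj
      have ih' := ih (by omega)
      have hb := h (j + 1) (by omega) hj
      rw [Finset.sum_Icc_succ_top (by omega), pow_succ] at *
      nlinarith [ih', hb]
  have h1 := key m le_rfl
  have hpos : 0 < 16 ^ m := by positivity
  have h2 : 15 * (∑ w ∈ Icc 1 m, a w) * 16 ^ m ≤ Om * 16 ^ m := by omega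
  have h3 := Nat.le_of_mul_le_mul_right h2 hpos
  omega

/-! ### the union bounds -/

/-- systems for which some small set does not expand by the factor `3` -/
def xp_badSmall (k : ℕ) (V : Type*) [DecidableEq V] [Fintype V] : Finset (Fin k → Perm V) :=
  univ.filter (fun π => ∃ W : Finset V, 1 ≤ W.card ∧ 16 * W.card ≤ Fintype.card V ∧
    (xp_N π W \ W).card < 3 * W.card)

/-- systems for which some large set does not expand by the factor `1/4` -/
def xp_badLarge (k : ℕ) (V : Type*) [DecidableEq V] [Fintype V] : Finset (Fin k → Perm V) :=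
  univ.filter (fun π => ∃ W : Finset V, Fintype.card V < 16 * W.card ∧
    2 * W.card ≤ Fintype.card V ∧ 4 * (xp_N π W \ W).card < W.card)

theorem xp_small_level (r w : ℕ) (hw : 16 * w ≤ Fintype.card V) (hn : 0 < Fintype.card V) :
    (∑ W ∈ powersetCard w (univ : Finset V), ∑ U ∈ powersetCard (4 * w) (univ : Finset V),
      (xp_Q (10 + r) W U).card) * 4 ^ (r * w) ≤ Fintype.card (Fin (10 + r) → Perm V) := by
  set n := Fintype.card V with hn'
  set Om := Fintype.card (Fin (10 + r) → Perm V) with hOm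
  have hpos : 0 < n ^ ((10 + r) * w) := by positivity
  apply Nat.le_of_mul_le_mul_right _ hpos
  have h1 : (∑ W ∈ powersetCard w (univ : Finset V), ∑ U ∈ powersetCard (4 * w) (univ : Finset V),
      (xp_Q (10 + r) W U).card) * n ^ ((10 + r) * w) ≤
      n.choose w * n.choose (4 * w) * (Om * (4 * w) ^ ((10 + r) * w)) := by
    rw [sum_mul]
    calc ∑ W ∈ powersetCard w (univ : Finset V), (∑ U ∈ powersetCard (4 * w) (univ : Finset V),
          (xp_Q (10 + r) W U).card) * n ^ ((10 + r) * w)
        ≤ ∑ W ∈ powersetCard w (univ : Finset V),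
            n.choose (4 * w) * (Om * (4 * w) ^ ((10 + r) * w)) := by
          apply sum_le_sum
          intro W hW
          rw [mem_powersetCard] at hW
          rw [sum_mul]
          calc ∑ U ∈ powersetCard (4 * w) (univ : Finset V),
                (xp_Q (10 + r) W U).card * n ^ ((10 + r) * w)
              ≤ ∑ U ∈ powersetCard (4 * w) (univ : Finset V), Om * (4 * w) ^ ((10 + r) * w) := by
                apply sum_le_sum
                intro U hU
                rw [mem_powersetCard] at hU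
                have := xp_card_Q_le (k := 10 + r) W U
                rwa [hW.2, hU.2] at this
            _ = n.choose (4 * w) * (Om * (4 * w) ^ ((10 + r) * w)) := by
                rw [sum_const, card_powersetCard, card_univ, smul_eq_mul]
      _ = n.choose w * n.choose (4 * w) * (Om * (4 * w) ^ ((10 + r) * w)) := by
          rw [sum_const, card_powersetCard, card_univ, smul_eq_mul, mul_assoc]
  calc (∑ W ∈ powersetCard w (univ : Finset V), ∑ U ∈ powersetCard (4 * w) (univ : Finset V),
      (xp_Q (10 + r) W U).card) * 4 ^ (r * w) * n ^ ((10 + r) * w)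
      = ((∑ W ∈ powersetCard w (univ : Finset V), ∑ U ∈ powersetCard (4 * w) (univ : Finset V),
      (xp_Q (10 + r) W U).card) * n ^ ((10 + r) * w)) * 4 ^ (r * w) := by ring
    _ ≤ (n.choose w * n.choose (4 * w) * (Om * (4 * w) ^ ((10 + r) * w))) * 4 ^ (r * w) :=
        Nat.mul_le_mul_right _ h1
    _ = Om * (n.choose w * n.choose (4 * w) * (4 * w) ^ ((10 + r) * w) * 4 ^ (r * w)) := by ring
    _ ≤ Om * n ^ ((10 + r) * w) := Nat.mul_le_mul_left _ (xp_small_arith n w r hw)

theorem xp_card_badSmall_le (r : ℕ) (hr : 2 ≤ r) (hn : 0 < Fintype.card V) :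
    8 * (xp_badSmall (10 + r) V).card ≤ Fintype.card (Fin (10 + r) → Perm V) := by
  set n := Fintype.card V with hn'
  have hsub : xp_badSmall (10 + r) V ⊆ (Icc 1 (n / 16)).biUnion (fun w =>
      (powersetCard w (univ : Finset V)).biUnion (fun W =>
        (powersetCard (4 * w) (univ : Finset V)).biUnion (fun U => xp_Q (10 + r) W U))) := by
    intro π hπ
    simp only [xp_badSmall, mem_filter, mem_univ, true_and] at hπ
    obtain ⟨W, h1, h2, h3⟩ := hπ
    have hc : (W ∪ xp_N π W).card < 4 * W.card := by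
      have := card_union_le W (xp_N π W \ W)
      rw [union_sdiff_self_eq_union] at this
      omega
    obtain ⟨U, hU1, -, hU2⟩ := exists_subsuperset_card_eq (subset_univ (W ∪ xp_N π W))
      hc.le (by rw [card_univ]; omega)
    simp only [mem_biUnion, mem_Icc, mem_powersetCard, subset_univ, true_and]
    refine ⟨W.card, ⟨h1, ?_⟩, W, rfl, U, hU2, xp_mem_Q_of_N_subset (subset_union_right.trans hU1)⟩
    rw [Nat.le_div_iff_mul_le (by norm_num)]
    omega
  have h1 : (xp_badSmall (10 + r) V).card ≤ ∑ w ∈ Icc 1 (n / 16),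
      ∑ W ∈ powersetCard w (univ : Finset V), ∑ U ∈ powersetCard (4 * w) (univ : Finset V),
      (xp_Q (10 + r) W U).card := by
    refine (card_le_card hsub).trans (card_biUnion_le.trans ?_)
    apply sum_le_sum; intro w _
    refine card_biUnion_le.trans ?_
    apply sum_le_sum; intro W _
    exact card_biUnion_le
  refine le_trans (Nat.mul_le_mul_left 8 h1) ?_
  apply xp_geom_sum_le
  intro w hw1 hw2
  have hw : 16 * w ≤ n := by
    have := (Nat.le_div_iff_mul_le (by norm_num : 0 < 16)).1 hw2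
    omega
  refine le_trans (Nat.mul_le_mul_left _ ?_) (xp_small_level r w hw hn)
  calc 16 ^ w = 4 ^ (2 * w) := by rw [pow_mul]; norm_num
    _ ≤ 4 ^ (r * w) := Nat.pow_le_pow_right (by norm_num) (Nat.mul_le_mul_right _ hr)

theorem xp_large_arith {n : ℕ} (hn : 5 ≤ n) : 8 * (4 ^ n * 5 ^ (4 * n)) ≤ 8 ^ (4 * n) := by
  obtain ⟨m, rfl⟩ := Nat.exists_eq_add_of_le hn
  have e1 : 4 ^ (5 + m) * 5 ^ (4 * (5 + m)) = 2500 ^ 5 * 2500 ^ m := by
    rw [pow_mul, ← mul_pow, pow_add]; norm_num
  have e2 : 8 ^ (4 * (5 + m)) = 4096 ^ 5 * 4096 ^ m := by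
    rw [pow_mul, pow_add]; norm_num
  rw [e1, e2, ← mul_assoc]
  exact Nat.mul_le_mul (by norm_num) (Nat.pow_le_pow_left (by norm_num) m)

theorem xp_card_badLarge_le (hk : 64 ≤ k) (hn : 5 ≤ Fintype.card V) :
    8 * (xp_badLarge k V).card ≤ Fintype.card (Fin k → Perm V) := by
  set n := Fintype.card V with hn'
  set Om := Fintype.card (Fin k → Perm V) with hOm
  set T : Finset (Finset V × Finset V) :=
    univ.filter (fun p => n < 16 * p.1.card ∧ 8 * p.2.card ≤ 5 * n) with hT
  have hsub : xp_badLarge k V ⊆ T.biUnion (fun p => xp_Q k p.1 p.2) := by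
    intro π hπ
    simp only [xp_badLarge, mem_filter, mem_univ, true_and] at hπ
    obtain ⟨W, h1, h2, h3⟩ := hπ
    have hc : (W ∪ xp_N π W).card ≤ W.card + (xp_N π W \ W).card := by
      have := card_union_le W (xp_N π W \ W)
      rw [union_sdiff_self_eq_union] at this
      omega
    simp only [mem_biUnion, hT, mem_filter, mem_univ, true_and, Prod.exists]
    exact ⟨W, W ∪ xp_N π W, ⟨h1, by omega⟩, xp_mem_Q_of_N_subset subset_union_right⟩
  have hQ : ∀ p ∈ T, (xp_Q k p.1 p.2).card * 8 ^ (4 * n) ≤ Om * 5 ^ (4 * n) := by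
    intro p hp
    simp only [hT, mem_filter, mem_univ, true_and] at hp
    obtain ⟨h1, h2⟩ := hp
    set m := k * p.1.card with hm
    have hmn : 4 * n ≤ m := by
      have : 64 * p.1.card ≤ k * p.1.card := Nat.mul_le_mul_right _ hk
      omega
    have h3 := xp_card_Q_le (k := k) p.1 p.2
    rw [← hm, ← hn', ← hOm] at h3
    have h4 : (xp_Q k p.1 p.2).card * 8 ^ m ≤ Om * 5 ^ m := by
      have hpos : 0 < n ^ m := by positivity
      apply Nat.le_of_mul_le_mul_right _ hpos
      calc (xp_Q k p.1 p.2).card * 8 ^ m * n ^ m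
          = ((xp_Q k p.1 p.2).card * n ^ m) * 8 ^ m := by ring
        _ ≤ (Om * p.2.card ^ m) * 8 ^ m := Nat.mul_le_mul_right _ h3
        _ = Om * (8 * p.2.card) ^ m := by rw [mul_pow]; ring
        _ ≤ Om * (5 * n) ^ m := Nat.mul_le_mul_left _ (Nat.pow_le_pow_left h2 m)
        _ = Om * 5 ^ m * n ^ m := by rw [mul_pow]; ring
    obtain ⟨e, he⟩ := Nat.exists_eq_add_of_le hmn
    rw [he, pow_add, pow_add] at h4
    have hpos : 0 < 5 ^ e := by positivity
    apply Nat.le_of_mul_le_mul_right _ hpos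
    calc (xp_Q k p.1 p.2).card * 8 ^ (4 * n) * 5 ^ e
        ≤ (xp_Q k p.1 p.2).card * 8 ^ (4 * n) * 8 ^ e :=
          Nat.mul_le_mul_left _ (Nat.pow_le_pow_left (by norm_num) e)
      _ = (xp_Q k p.1 p.2).card * (8 ^ (4 * n) * 8 ^ e) := by ring
      _ ≤ Om * (5 ^ (4 * n) * 5 ^ e) := h4
      _ = Om * 5 ^ (4 * n) * 5 ^ e := by ring
  have hTc : T.card ≤ 4 ^ n := by
    calc T.card ≤ (univ : Finset (Finset V × Finset V)).card := card_le_card (filter_subset _ _)
      _ = 4 ^ n := by
        rw [card_univ, Fintype.card_prod, Fintype.card_finset, ← mul_pow, hn']; norm_num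
  have h5 : (xp_badLarge k V).card * 8 ^ (4 * n) ≤ 4 ^ n * (Om * 5 ^ (4 * n)) := by
    calc (xp_badLarge k V).card * 8 ^ (4 * n)
        ≤ (∑ p ∈ T, (xp_Q k p.1 p.2).card) * 8 ^ (4 * n) :=
          Nat.mul_le_mul_right _ ((card_le_card hsub).trans card_biUnion_le)
      _ = ∑ p ∈ T, (xp_Q k p.1 p.2).card * 8 ^ (4 * n) := sum_mul _ _ _
      _ ≤ ∑ p ∈ T, Om * 5 ^ (4 * n) := sum_le_sum hQ
      _ = T.card * (Om * 5 ^ (4 * n)) := by rw [sum_const, smul_eq_mul]
      _ ≤ 4 ^ n * (Om * 5 ^ (4 * n)) := Nat.mul_le_mul_right _ hTc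
  have hpos : 0 < 8 ^ (4 * n) := by positivity
  apply Nat.le_of_mul_le_mul_right _ hpos
  calc 8 * (xp_badLarge k V).card * 8 ^ (4 * n)
      = 8 * ((xp_badLarge k V).card * 8 ^ (4 * n)) := by ring
    _ ≤ 8 * (4 ^ n * (Om * 5 ^ (4 * n))) := Nat.mul_le_mul_left _ h5
    _ = Om * (8 * (4 ^ n * 5 ^ (4 * n))) := by ring
    _ ≤ Om * 8 ^ (4 * n) := Nat.mul_le_mul_left _ (xp_large_arith hn)

end Claimed.Agent.R300.Xp
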