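import Claimed.Agent.R300.XpSwitch
import Claimed.Agent.R300.XpExpand

/-!
# E3 continued: the set of short closed walks, and the switching process
-/

namespace Claimed.Agent.R300.Xp

open Equiv Finset

set_option linter.unusedSectionVars false

variable {k : ℕ} {V : Type*} [DecidableEq V] [Fintype V]

/-- index type of short closed walks: length `l + 1 ≤ G + 1`, word, base point -/
abbrev xp_Idx (k G : ℕ) (V : Type*) : Type _ :=
  Σ l : Fin (G + 1), (Fin (l.1 + 1) → Letter k) × V

/-- short cyclically reduced closed walks -/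
noncomputable def xp_S (π : Fin k → Perm V) (G : ℕ) : Finset (xp_Idx k G V) := by
  classical
  exact univ.filter (fun p => xp_CycRed (xp_ext p.2.1) ∧
    xp_traj π (xp_ext p.2.1) p.2.2 (p.1.1 + 1) = p.2.2)

theorem xp_mem_S {π : Fin k → Perm V} {G : ℕ} {p : xp_Idx k G V} :
    p ∈ xp_S π G ↔ xp_CycRed (xp_ext p.2.1) ∧
      xp_traj π (xp_ext p.2.1) p.2.2 (p.1.1 + 1) = p.2.2 := by
  classical
  simp [xp_S]

theorem xp_S_sw_card_lt (π : Fin k → Perm V) (i : Fin k) (u x : V) (G : ℕ)
    (H : xp_SwHyp π i u x (G + 1)) (p0 : xp_Idx k G V) (hp0 : p0 ∈ xp_S π G)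
    (hNS : xp_NS π i u x (xp_ext p0.2.1 0) p0.2.2) :
    (xp_S (xp_sw π i u x) G).card < (xp_S π G).card := by
  apply card_lt_card
  rw [ssubset_iff_of_subset]
  · refine ⟨p0, hp0, ?_⟩
    intro h
    rw [xp_mem_S] at h
    exact xp_no_NS π i u x (xp_ext p0.2.1) p0.2.2 H (Nat.succ_pos _) (by have := p0.1.2; omega)
      (xp_ext_periodic _) h.1 h.2 0 hNS
  · intro p hp
    rw [xp_mem_S] at hp ⊢
    exact ⟨hp.1, xp_closed_old π i u x (xp_ext p.2.1) p.2.2 H (Nat.succ_pos _)
      (by have := p.1.2; omega) (xp_ext_periodic _) hp.1 hp.2⟩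

/-! ### effect of a switching on the boundary -/

theorem xp_out_sw_le (π : Fin k → Perm V) (i : Fin k) (u x : V) (hxy : x ≠ π i x)
    (W : Finset V) :
    xp_out π W ≤ xp_out (xp_sw π i u x) W + (W ∩ {x, π i x}).card := by
  have hi : (W.filter (fun a => π i a ∉ W)).card ≤
      (W.filter (fun a => xp_sw π i u x i a ∉ W)).card + (W ∩ {x, π i x}).card := by
    set E : Finset V := (if π i x ∈ W then {u} else ∅) ∪ (if x ∈ W then {x} else ∅) with hE
    have hsub : W.filter (fun a => π i a ∉ W) ⊆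
        W.filter (fun a => xp_sw π i u x i a ∉ W) ∪ E := by
      intro a ha
      rw [mem_filter] at ha
      rw [mem_union, mem_filter]
      by_cases hax : a = x
      · right
        subst hax
        simp [hE, ha.1]
      · by_cases hau : a = u
        · subst hau
          by_cases hy : π i x ∈ W
          · right; simp [hE, hy]
          · left
            refine ⟨ha.1, ?_⟩
            simpa [xp_sw] using hy
        · left
          refine ⟨ha.1, ?_⟩
          have : xp_sw π i u x i a = π i a := by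
            simp [xp_sw, swap_apply_of_ne_of_ne hau hax]
          rw [this]; exact ha.2
    have hEc : E.card ≤ (W ∩ {x, π i x}).card := by
      by_cases h1 : π i x ∈ W <;> by_cases h2 : x ∈ W
      · have : W ∩ {x, π i x} = {x, π i x} := by
          apply inter_eq_right.2
          intro b hb
          simp only [mem_insert, mem_singleton] at hb
          rcases hb with rfl | rfl <;> assumption
        rw [this, card_pair hxy]
        simp only [hE, h1, h2, if_true]
        exact (card_union_le _ _).trans (by simp)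
      · have : π i x ∈ W ∩ {x, π i x} := by simp [h1]
        simp only [hE, h1, h2, if_true, if_false, union_empty, card_singleton]
        exact card_pos.2 ⟨_, this⟩
      · have : x ∈ W ∩ {x, π i x} := by simp [h2]
        simp only [hE, h1, h2, if_true, if_false, empty_union, card_singleton]
        exact card_pos.2 ⟨_, this⟩
      · simp [hE, h1, h2]
    calc (W.filter (fun a => π i a ∉ W)).card
        ≤ (W.filter (fun a => xp_sw π i u x i a ∉ W) ∪ E).card := card_le_card hsub
      _ ≤ (W.filter (fun a => xp_sw π i u x i a ∉ W)).card + E.card := card_union_le _ _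
      _ ≤ _ := Nat.add_le_add_left hEc _
  unfold xp_out
  rw [← add_sum_erase univ _ (mem_univ i), ← add_sum_erase univ
    (fun j => (W.filter (fun a => xp_sw π i u x j a ∉ W)).card) (mem_univ i)]
  have hrest : ∑ j ∈ univ.erase i, (W.filter (fun a => π j a ∉ W)).card =
      ∑ j ∈ univ.erase i, (W.filter (fun a => xp_sw π i u x j a ∉ W)).card := by
    apply sum_congr rfl
    intro j hj
    have hj' : j ≠ i := (mem_erase.1 hj).1
    simp [xp_sw, Function.update_of_ne hj']
  rw [hrest]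
  omega

/-! ### cyclic reduction -/

theorem xp_cyc_reduce (π : Fin k → Perm V) : ∀ (l : ℕ) (W : ℕ → Letter k) (p : V), 1 ≤ l →
    xp_Red W l → xp_traj π W p l = p →
    ∃ m L, m + L + 1 ≤ l ∧ W m ≠ xp_inv (W (m + L)) ∧
      xp_traj π W p (m + L + 1) = xp_traj π W p m := by
  intro l
  induction l using Nat.strong_induction_on with
  | _ l ih =>
    intro W p hl hred hcl
    by_cases h0 : W 0 = xp_inv (W (l - 1))
    · -- trim
      have hl1 : l ≠ 1 := by
        rintro rfl
        exact xp_inv_ne (W 0) h0.symm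
      have hl2 : l ≠ 2 := by
        rintro rfl
        apply hred 0 (by omega)
        have : W (2 - 1) = xp_inv (W 0) := by rw [h0, xp_inv_inv]
        simpa using this
      obtain ⟨l1, rfl⟩ : ∃ l1, l = l1 + 2 := ⟨l - 2, by omega⟩
      have e1 : l1 + 2 - 1 = l1 + 1 := by omega
      rw [e1] at h0
      have hcl1 : xp_traj π W p (l1 + 1) = xp_traj π W p 1 := by
        have : xp_traj π W p (l1 + 1 + 1) = p := hcl
        rw [xp_traj_succ] at this
        have h2 := congrArg (xp_act π (xp_inv (W (l1 + 1)))) this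
        rw [xp_act_inv_apply, ← h0] at h2
        rw [h2]; rfl
      obtain ⟨m1, L, h1, h2, h3⟩ := ih l1 (by omega) (fun j => W (1 + j)) (xp_traj π W p 1)
        (by omega) (fun j hj => by
          have := hred (1 + j) (by omega)
          simpa [Nat.add_assoc] using this)
        (by rw [← xp_traj_add, Nat.add_comm, hcl1])
      refine ⟨1 + m1, L, by omega, ?_, ?_⟩
      · simpa [Nat.add_assoc] using h2
      · rw [← xp_traj_add, ← xp_traj_add] at h3
        simpa [Nat.add_assoc] using h3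
    · refine ⟨0, l - 1, by omega, by simpa using h0, ?_⟩
      have : 0 + (l - 1) + 1 = l := by omega
      rw [this, hcl]; rfl

theorem xp_succ_mod (j L : ℕ) :
    (j + 1) % (L + 1) = if j % (L + 1) = L then 0 else j % (L + 1) + 1 := by
  have hr : j % (L + 1) < L + 1 := Nat.mod_lt _ (Nat.succ_pos L)
  split_ifs with h
  · rw [Nat.add_mod, h]
    rcases Nat.eq_zero_or_pos L with rfl | hL
    · simp
    · rw [Nat.mod_eq_of_lt (show 1 < L + 1 by omega), Nat.mod_self]
  · have hL : 0 < L := by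
      rcases Nat.eq_zero_or_pos L with rfl | hL
      · exfalso; apply h; omega
      · exact hL
    rw [Nat.add_mod, Nat.mod_eq_of_lt (show 1 < L + 1 by omega), Nat.mod_eq_of_lt (by omega)]

/-- a short reduced closed walk at `p` leads to an element of `xp_S` whose base point is reached
from `p` by a short walk -/
theorem xp_exists_mem_S (π : Fin k → Perm V) (G : ℕ) (W : ℕ → Letter k) (p : V) {l : ℕ}
    (hl : 1 ≤ l) (hlG : l ≤ G + 1) (hred : xp_Red W l) (hcl : xp_traj π W p l = p) :
    ∃ q ∈ xp_S π G, ∃ m, m ≤ G + 1 ∧ xp_traj π W p m = q.2.2 := by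
  obtain ⟨m, L, h1, h2, h3⟩ := xp_cyc_reduce π l W p hl hred hcl
  refine ⟨⟨⟨L, by omega⟩, fun j => W (m + j.1), xp_traj π W p m⟩, ?_, m, by omega, rfl⟩
  rw [xp_mem_S]
  constructor
  · intro j
    simp only [xp_ext]
    rw [xp_succ_mod]
    have hr : j % (L + 1) < L + 1 := Nat.mod_lt _ (Nat.succ_pos L)
    split_ifs with h
    · rw [h]; simpa using h2
    · have := hred (m + j % (L + 1)) (by omega)
      simpa [Nat.add_assoc] using this
  · simp only
    rw [xp_traj_congr π (W' := fun j => W (m + j)) _ (fun j hj => by rw [xp_ext_of_lt _ hj]),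
      ← xp_traj_add, ← Nat.add_assoc, h3]

/-! ### balls -/

/-- the permutation induced by the first `j` letters of a word -/
def xp_perm (π : Fin k → Perm V) (W : ℕ → Letter k) : ℕ → Perm V
  | 0 => 1
  | j + 1 => xp_act π (W j) * xp_perm π W j

theorem xp_perm_apply (π : Fin k → Perm V) (W : ℕ → Letter k) (j : ℕ) (z : V) :
    xp_perm π W j z = xp_traj π W z j := by
  induction j with
  | zero => rfl
  | succ j ih => rw [xp_perm, Perm.mul_apply, ih, xp_traj_succ]

/-- words of length `≤ G + 1` -/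
abbrev xp_Wd (k G : ℕ) : Type := (Fin (G + 1) → Letter k) × Fin (G + 2)

theorem xp_card_Wd (k G : ℕ) : Fintype.card (xp_Wd k G) = (2 * k) ^ (G + 1) * (G + 2) := by
  simp [mul_comm]

/-- points reached from `p` by a walk of length `≤ G + 1` -/
def xp_ball (π : Fin k → Perm V) (G : ℕ) (p : V) : Finset V :=
  univ.image (fun q : xp_Wd k G => xp_perm π (xp_ext q.1) q.2.1 p)

/-- points from which `p` is reached by a walk of length `≤ G + 1` -/
def xp_pre (π : Fin k → Perm V) (G : ℕ) (p : V) : Finset V :=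
  univ.image (fun q : xp_Wd k G => (xp_perm π (xp_ext q.1) q.2.1)⁻¹ p)

theorem xp_card_ball_le (π : Fin k → Perm V) (G : ℕ) (p : V) :
    (xp_ball π G p).card ≤ (2 * k) ^ (G + 1) * (G + 2) := by
  rw [← xp_card_Wd]; exact card_image_le

theorem xp_card_pre_le (π : Fin k → Perm V) (G : ℕ) (p : V) :
    (xp_pre π G p).card ≤ (2 * k) ^ (G + 1) * (G + 2) := by
  rw [← xp_card_Wd]; exact card_image_le

theorem xp_traj_eq_ext (π : Fin k → Perm V) (G : ℕ) (W : ℕ → Letter k) (p : V) {j : ℕ}
    (hj : j ≤ G + 1) :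
    xp_traj π W p j = xp_traj π (xp_ext (fun t : Fin (G + 1) => W t.1)) p j := by
  apply xp_traj_congr
  intro i hi
  rw [xp_ext_of_lt _ (show i < G + 1 by omega)]

theorem xp_mem_ball (π : Fin k → Perm V) (G : ℕ) (W : ℕ → Letter k) (p : V) {j : ℕ}
    (hj : j ≤ G + 1) : xp_traj π W p j ∈ xp_ball π G p := by
  rw [xp_ball, mem_image]
  refine ⟨(fun t : Fin (G + 1) => W t.1, ⟨j, by omega⟩), mem_univ _, ?_⟩
  rw [xp_perm_apply, xp_traj_eq_ext π G W p hj]

theorem xp_mem_pre (π : Fin k → Perm V) (G : ℕ) (W : ℕ → Letter k) (p : V) {j : ℕ}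
    (hj : j ≤ G + 1) : p ∈ xp_pre π G (xp_traj π W p j) := by
  rw [xp_pre, mem_image]
  refine ⟨(fun t : Fin (G + 1) => W t.1, ⟨j, by omega⟩), mem_univ _, ?_⟩
  rw [Perm.inv_eq_iff_eq, xp_perm_apply, xp_traj_eq_ext π G W p hj]

/-- the set of points excluded for the choice of `x` and of `π i x` -/
noncomputable def xp_Ex (π : Fin k → Perm V) (G : ℕ) (u v : V) (Fr : Finset V) : Finset V :=
  xp_ball π G u ∪ xp_ball π G v ∪ xp_pre π G u ∪ xp_pre π G v ∪
    (xp_S π G).biUnion (fun q => xp_pre π G q.2.2) ∪ Fr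

theorem xp_card_Ex_le (π : Fin k → Perm V) (G : ℕ) (u v : V) (Fr : Finset V) :
    (xp_Ex π G u v Fr).card ≤
      (4 + (xp_S π G).card) * ((2 * k) ^ (G + 1) * (G + 2)) + Fr.card := by
  set B := (2 * k) ^ (G + 1) * (G + 2) with hB
  have h5 : ((xp_S π G).biUnion (fun q => xp_pre π G q.2.2)).card ≤ (xp_S π G).card * B := by
    refine card_biUnion_le.trans ?_
    rw [← smul_eq_mul, ← sum_const]
    exact sum_le_sum (fun q _ => xp_card_pre_le π G _)
  have h1 := xp_card_ball_le π G u
  have h2 := xp_card_ball_le π G v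
  have h3 := xp_card_pre_le π G u
  have h4 := xp_card_pre_le π G v
  rw [← hB] at h1 h2 h3 h4
  unfold xp_Ex
  have a1 := card_union_le (xp_ball π G u ∪ xp_ball π G v ∪ xp_pre π G u ∪ xp_pre π G v ∪
    (xp_S π G).biUnion (fun q => xp_pre π G q.2.2)) Fr
  have a2 := card_union_le (xp_ball π G u ∪ xp_ball π G v ∪ xp_pre π G u ∪ xp_pre π G v)
    ((xp_S π G).biUnion (fun q => xp_pre π G q.2.2))
  have a3 := card_union_le (xp_ball π G u ∪ xp_ball π G v ∪ xp_pre π G u) (xp_pre π G v)
  have a4 := card_union_le (xp_ball π G u ∪ xp_ball π G v) (xp_pre π G u)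
  have a5 := card_union_le (xp_ball π G u) (xp_ball π G v)
  have : (4 + (xp_S π G).card) * B = 4 * B + (xp_S π G).card * B := by ring
  omega

theorem xp_SwHyp_of_notMem (π : Fin k → Perm V) (G : ℕ) (i : Fin k) (u x : V) (Fr : Finset V)
    (hx : x ∉ xp_Ex π G u (π i u) Fr) (hy : π i x ∉ xp_Ex π G u (π i u) Fr) :
    xp_SwHyp π i u x (G + 1) := by
  simp only [xp_Ex, mem_union, not_or, mem_biUnion, not_exists, not_and] at hx hy
  obtain ⟨⟨⟨⟨⟨hx1, hx2⟩, hx3⟩, hx4⟩, hx5⟩, -⟩ := hx
  obtain ⟨⟨⟨⟨⟨hy1, hy2⟩, hy3⟩, hy4⟩, hy5⟩, -⟩ := hy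
  refine ⟨?_, ?_, ?_, ?_, ?_, ?_, ?_, ?_, ?_, ?_⟩
  · intro W j hj h; exact hx1 (h ▸ xp_mem_ball π G W u hj)
  · intro W j hj h; exact hy1 (h ▸ xp_mem_ball π G W u hj)
  · intro W j hj h; exact hx2 (h ▸ xp_mem_ball π G W (π i u) hj)
  · intro W j hj h; exact hy2 (h ▸ xp_mem_ball π G W (π i u) hj)
  · intro W j hj h; exact hx3 (h ▸ xp_mem_pre π G W x hj)
  · intro W j hj h; exact hx4 (h ▸ xp_mem_pre π G W x hj)
  · intro W j hj h; exact hy3 (h ▸ xp_mem_pre π G W (π i x) hj)
  · intro W j hj h; exact hy4 (h ▸ xp_mem_pre π G W (π i x) hj)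
  · intro W l hl hlG hred hcl
    obtain ⟨q, hq, m, hm, hmq⟩ := xp_exists_mem_S π G W x hl hlG hred hcl
    exact hx5 q hq (hmq ▸ xp_mem_pre π G W x hm)
  · intro W l hl hlG hred hcl
    obtain ⟨q, hq, m, hm, hmq⟩ := xp_exists_mem_S π G W (π i x) hl hlG hred hcl
    exact hy5 q hq (hmq ▸ xp_mem_pre π G W (π i x) hm)

theorem xp_exists_x (σ : Perm V) (Ex : Finset V) (h : 2 * Ex.card < Fintype.card V) :
    ∃ x, x ∉ Ex ∧ σ x ∉ Ex := by
  by_contra hcon
  push Not at hcon
  have hsub : (univ : Finset V) ⊆ Ex ∪ Ex.image (fun a => σ⁻¹ a) := by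
    intro x _
    rw [mem_union]
    by_cases hx : x ∈ Ex
    · left; exact hx
    · right
      rw [mem_image]
      exact ⟨σ x, hcon x hx, by simp⟩
  have h1 := card_le_card hsub
  have h2 := card_union_le Ex (Ex.image (fun a => σ⁻¹ a))
  have h3 : (Ex.image (fun a => σ⁻¹ a)).card ≤ Ex.card := card_image_le
  rw [card_univ] at h1
  omega

/-- one switching step -/
theorem xp_step (π : Fin k → Perm V) (G : ℕ) (Fr : Finset V) (hS : (xp_S π G).Nonempty)
    (hn : 2 * ((4 + (xp_S π G).card) * ((2 * k) ^ (G + 1) * (G + 2)) + Fr.card)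
      < Fintype.card V) :
    ∃ (π' : Fin k → Perm V) (x y : V), x ≠ y ∧ x ∉ Fr ∧ y ∉ Fr ∧
      (xp_S π' G).card < (xp_S π G).card ∧
      ∀ W, xp_out π W ≤ xp_out π' W + (W ∩ {x, y}).card := by
  obtain ⟨p0, hp0⟩ := hS
  -- the slot used by the first step of `p0`
  obtain ⟨i, u, hNS0⟩ : ∃ (i : Fin k) (u : V), (xp_ext p0.2.1 0 = (i, true) ∧ p0.2.2 = u) ∨
      (xp_ext p0.2.1 0 = (i, false) ∧ p0.2.2 = π i u) := by
    rcases h : xp_ext p0.2.1 0 with ⟨i, b⟩
    cases b
    · exact ⟨i, (π i)⁻¹ p0.2.2, Or.inr ⟨rfl, by simp⟩⟩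
    · exact ⟨i, p0.2.2, Or.inl ⟨rfl, rfl⟩⟩
  obtain ⟨x, hx, hy⟩ := xp_exists_x (π i) (xp_Ex π G u (π i u) Fr)
    (lt_of_le_of_lt (Nat.mul_le_mul_left 2 (xp_card_Ex_le π G u (π i u) Fr)) hn)
  have H := xp_SwHyp_of_notMem π G i u x Fr hx hy
  have hxy : x ≠ π i x := by
    intro h
    apply H.nocyc_x (fun _ => (i, true)) 1 le_rfl (by omega) (fun j hj => by omega)
    rw [xp_traj_succ]; exact h.symm
  refine ⟨xp_sw π i u x, x, π i x, hxy, ?_, ?_, ?_, xp_out_sw_le π i u x hxy⟩
  · intro h; exact hx (by simp [xp_Ex, h])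
  · intro h; exact hy (by simp [xp_Ex, h])
  · apply xp_S_sw_card_lt π i u x G H p0 hp0
    rcases hNS0 with ⟨h1, h2⟩ | ⟨h1, h2⟩
    · exact Or.inl ⟨h1, Or.inl h2⟩
    · exact Or.inr ⟨h1, Or.inl h2⟩

/-- the switching process -/
theorem xp_process (G M : ℕ)
    (hn : 2 * ((4 + M) * ((2 * k) ^ (G + 1) * (G + 2)) + 2 * M) < Fintype.card V) :
    ∀ (m : ℕ) (π : Fin k → Perm V) (Fr : Finset V), (xp_S π G).card ≤ m → m ≤ M →
      Fr.card + 2 * m ≤ 2 * M →
      ∃ (π' : Fin k → Perm V) (Fr' : Finset V), xp_S π' G = ∅ ∧ Fr ⊆ Fr' ∧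
        Fr'.card ≤ Fr.card + 2 * m ∧
        ∀ W, xp_out π W ≤ xp_out π' W + (W ∩ (Fr' \ Fr)).card := by
  intro m
  induction m with
  | zero =>
    intro π Fr hS _ _
    exact ⟨π, Fr, card_eq_zero.1 (Nat.le_zero.1 hS), Subset.refl _, by omega, fun W => by omega⟩
  | succ m ih =>
    intro π Fr hS hm hFr
    rcases (xp_S π G).eq_empty_or_nonempty with hE | hne
    · exact ⟨π, Fr, hE, Subset.refl _, by omega, fun W => by omega⟩
    · have hn' : 2 * ((4 + (xp_S π G).card) * ((2 * k) ^ (G + 1) * (G + 2)) + Fr.card)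
          < Fintype.card V := by
        refine lt_of_le_of_lt ?_ hn
        apply Nat.mul_le_mul_left
        apply Nat.add_le_add
        · exact Nat.mul_le_mul_right _ (by omega)
        · omega
      obtain ⟨π1, x, y, hxy, hxF, hyF, hlt, hout⟩ := xp_step π G Fr hne hn'
      have hc1 : (insert x (insert y Fr)).card = Fr.card + 2 := by
        rw [card_insert_of_notMem, card_insert_of_notMem hyF]
        simp [hxy, hxF]
      obtain ⟨π', Fr', h1, h2, h3, h4⟩ := ih π1 (insert x (insert y Fr)) (by omega) (by omega)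
        (by omega)
      refine ⟨π', Fr', h1, ?_, by omega, ?_⟩
      · exact (subset_insert _ _).trans ((subset_insert _ _).trans h2)
      · intro W
        have hdisj : Disjoint (W ∩ {x, y}) (W ∩ (Fr' \ insert x (insert y Fr))) := by
          rw [disjoint_left]
          intro a ha hb
          simp only [mem_inter, mem_insert, mem_singleton, mem_sdiff, not_or] at ha hb
          rcases ha.2 with rfl | rfl
          · exact hb.2.2.1 rfl
          · exact hb.2.2.2.1 rfl
        have hsub : (W ∩ {x, y}) ∪ (W ∩ (Fr' \ insert x (insert y Fr))) ⊆ W ∩ (Fr' \ Fr) := by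
          intro a ha
          simp only [mem_union, mem_inter, mem_insert, mem_singleton, mem_sdiff, not_or] at ha ⊢
          rcases ha with ⟨haW, rfl | rfl⟩ | ⟨haW, haF, -, -, haF'⟩
          · exact ⟨haW, h2 (mem_insert_self _ _), hxF⟩
          · exact ⟨haW, h2 (mem_insert_of_mem (mem_insert_self _ _)), hyF⟩
          · exact ⟨haW, haF, haF'⟩
        have hc := card_le_card hsub
        rw [card_union_of_disjoint hdisj] at hc
        have := hout W
        have := h4 W
        omega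

end Claimed.Agent.R300.Xp
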