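import Claimed.Agent.R300.XpCount
import Claimed.Agent.R300.XpProcess

/-!
# Regular expanders of logarithmic girth: existence

`xp_exists` : for `n = 128 ^ (4 G + 5)` there are 64 permutations of `Fin n` such that no nonempty
reduced word of length `≤ G + 1` has a fixed point and every set `W` with `2 |W| ≤ n` has at least
`|W| / 8` outgoing slots.
-/

namespace Claimed.Agent.R300.Xp

open Equiv Finset

set_option linter.unusedSectionVars false

variable {k : ℕ} {V : Type*} [DecidableEq V] [Fintype V]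

theorem xp_card_Idx_le (k G : ℕ) (hk : 1 ≤ k) :
    Fintype.card (xp_Idx k G V) ≤ (G + 1) * (2 * k) ^ (G + 1) * Fintype.card V := by
  rw [Fintype.card_sigma]
  calc ∑ l : Fin (G + 1), Fintype.card ((Fin (l.1 + 1) → Letter k) × V)
      ≤ ∑ _l : Fin (G + 1), (2 * k) ^ (G + 1) * Fintype.card V := by
        apply sum_le_sum
        intro l _
        rw [Fintype.card_prod]
        apply Nat.mul_le_mul_right
        simp only [Fintype.card_pi, Fintype.card_prod, Fintype.card_fin, Fintype.card_bool,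
          prod_const, card_univ]
        rw [mul_comm k 2]
        exact Nat.pow_le_pow_right (by omega) (by have := l.2; omega)
    _ = (G + 1) * (2 * k) ^ (G + 1) * Fintype.card V := by
        rw [sum_const, card_univ, Fintype.card_fin, smul_eq_mul]; ring

theorem xp_sum_card_S_le (G : ℕ) (hk : 1 ≤ k) (hn : 2 * (G + 1) ≤ Fintype.card V) :
    ∑ π : Fin k → Perm V, (xp_S π G).card ≤
      2 * (G + 1) ^ 3 * (2 * k) ^ (G + 1) * Fintype.card (Fin k → Perm V) := by
  classical
  set n := Fintype.card V with hn'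
  set Om := Fintype.card (Fin k → Perm V) with hOm
  have h1 : ∑ π : Fin k → Perm V, (xp_S π G).card =
      ∑ p : xp_Idx k G V, (univ.filter (fun π : Fin k → Perm V => p ∈ xp_S π G)).card := by
    have := sum_card_bipartiteAbove_eq_sum_card_bipartiteBelow
      (s := (univ : Finset (Fin k → Perm V))) (t := (univ : Finset (xp_Idx k G V)))
      (fun π p => p ∈ xp_S π G)
    simp only [bipartiteAbove, bipartiteBelow] at this
    rw [← this]
    apply sum_congr rfl
    intro π _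
    congr 1
    ext p; simp
  have h2 : ∀ p : xp_Idx k G V,
      (n - (G + 1)) * (univ.filter (fun π : Fin k → Perm V => p ∈ xp_S π G)).card ≤
        (G + 1) ^ 2 * Om := by
    intro p
    have hl : p.1.1 + 1 ≤ G + 1 := by have := p.1.2; omega
    by_cases hred : xp_CycRed (xp_ext p.2.1)
    · have h3 := xp_card_closed_le (V := V) (xp_ext p.2.1) p.2.2 (l := p.1.1 + 1) (by omega)
        (hred.red _)
      have h4 : univ.filter (fun π : Fin k → Perm V => p ∈ xp_S π G) =
          univ.filter (fun π : Fin k → Perm V =>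
            xp_traj π (xp_ext p.2.1) p.2.2 (p.1.1 + 1) = p.2.2) := by
        ext π; simp [xp_mem_S, hred]
      rw [h4]
      calc (n - (G + 1)) * _ ≤ (n - (p.1.1 + 1)) * _ := Nat.mul_le_mul_right _ (by omega)
        _ ≤ (p.1.1 + 1) ^ 2 * Om := h3
        _ ≤ (G + 1) ^ 2 * Om := Nat.mul_le_mul_right _ (Nat.pow_le_pow_left hl 2)
    · have h4 : univ.filter (fun π : Fin k → Perm V => p ∈ xp_S π G) = ∅ := by
        ext π; simp [xp_mem_S, hred]
      rw [h4]; simp
  have hpos : 0 < n - (G + 1) := by omega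
  apply Nat.le_of_mul_le_mul_left _ hpos
  rw [h1, mul_sum]
  calc ∑ p : xp_Idx k G V,
        (n - (G + 1)) * (univ.filter (fun π : Fin k → Perm V => p ∈ xp_S π G)).card
      ≤ ∑ _p : xp_Idx k G V, (G + 1) ^ 2 * Om := sum_le_sum (fun p _ => h2 p)
    _ = Fintype.card (xp_Idx k G V) * ((G + 1) ^ 2 * Om) := by
        rw [sum_const, card_univ, smul_eq_mul]
    _ ≤ ((G + 1) * (2 * k) ^ (G + 1) * n) * ((G + 1) ^ 2 * Om) :=
        Nat.mul_le_mul_right _ (xp_card_Idx_le k G hk)
    _ = n * ((G + 1) ^ 3 * (2 * k) ^ (G + 1) * Om) := by ring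
    _ ≤ (2 * (n - (G + 1))) * ((G + 1) ^ 3 * (2 * k) ^ (G + 1) * Om) :=
        Nat.mul_le_mul_right _ (by omega)
    _ = (n - (G + 1)) * (2 * (G + 1) ^ 3 * (2 * k) ^ (G + 1) * Om) := by ring

/-- a system which expands and has few short closed walks -/
theorem xp_exists_good (G : ℕ) (hn : 2 * (G + 1) ≤ Fintype.card V) (hn5 : 5 ≤ Fintype.card V) :
    ∃ π : Fin 64 → Perm V, π ∉ xp_badSmall 64 V ∧ π ∉ xp_badLarge 64 V ∧
      (xp_S π G).card ≤ 8 * (G + 1) ^ 3 * 128 ^ (G + 1) := by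
  classical
  set Om := Fintype.card (Fin 64 → Perm V) with hOm
  set M0 := 2 * (G + 1) ^ 3 * 128 ^ (G + 1) with hM0
  have hM0pos : 0 < M0 := by positivity
  have hOmpos : 0 < Om := Fintype.card_pos
  have h1 : 8 * (xp_badSmall 64 V).card ≤ Om :=
    xp_card_badSmall_le (V := V) 54 (by norm_num) (by omega)
  have h2 : 8 * (xp_badLarge 64 V).card ≤ Om := xp_card_badLarge_le le_rfl hn5
  have h3 : ∑ π : Fin 64 → Perm V, (xp_S π G).card ≤ M0 * Om :=
    xp_sum_card_S_le (k := 64) G (by norm_num) hn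
  set C := univ.filter (fun π : Fin 64 → Perm V => 4 * M0 < (xp_S π G).card) with hC
  have h4 : 4 * C.card ≤ Om := by
    apply Nat.le_of_mul_le_mul_left _ hM0pos
    calc M0 * (4 * C.card) = ∑ _π ∈ C, 4 * M0 := by rw [sum_const, smul_eq_mul]; ring
      _ ≤ ∑ π ∈ C, (xp_S π G).card := by
          apply sum_le_sum
          intro π hπ
          exact (mem_filter.1 hπ).2.le
      _ ≤ ∑ π : Fin 64 → Perm V, (xp_S π G).card :=
          sum_le_sum_of_subset (subset_univ _)
      _ ≤ M0 * Om := h3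
  have h5 : (xp_badSmall 64 V ∪ xp_badLarge 64 V ∪ C).card < Om := by
    have a1 := card_union_le (xp_badSmall 64 V ∪ xp_badLarge 64 V) C
    have a2 := card_union_le (xp_badSmall 64 V) (xp_badLarge 64 V)
    omega
  obtain ⟨π, hπ⟩ : ∃ π, π ∉ xp_badSmall 64 V ∪ xp_badLarge 64 V ∪ C := by
    by_contra hcon
    push Not at hcon
    have : (xp_badSmall 64 V ∪ xp_badLarge 64 V ∪ C) = univ := eq_univ_iff_forall.2 hcon
    rw [this, card_univ] at h5
    exact lt_irrefl _ h5
  simp only [mem_union, not_or] at hπ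
  refine ⟨π, hπ.1.1, hπ.1.2, ?_⟩
  have := hπ.2
  simp only [hC, mem_filter, mem_univ, true_and, not_lt] at this
  calc (xp_S π G).card ≤ 4 * M0 := this
    _ = 8 * (G + 1) ^ 3 * 128 ^ (G + 1) := by rw [hM0]; ring

/-- abstract existence theorem -/
theorem xp_exists_of_large (G : ℕ)
    (hn1 : 2 * ((4 + 8 * (G + 1) ^ 3 * 128 ^ (G + 1)) * (128 ^ (G + 1) * (G + 2)) +
      2 * (8 * (G + 1) ^ 3 * 128 ^ (G + 1))) < Fintype.card V)
    (hn2 : 256 * (8 * (G + 1) ^ 3 * 128 ^ (G + 1)) ≤ Fintype.card V) :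
    ∃ π : Fin 64 → Perm V, xp_S π G = ∅ ∧
      ∀ W : Finset V, 2 * W.card ≤ Fintype.card V → W.card ≤ 8 * xp_out π W := by
  set M := 8 * (G + 1) ^ 3 * 128 ^ (G + 1) with hM
  have hMge : 8 * (G + 1) ≤ M := by
    have h1 : 1 ≤ 128 ^ (G + 1) := Nat.one_le_pow _ _ (by norm_num)
    have h2 : G + 1 ≤ (G + 1) ^ 3 := by
      calc G + 1 = (G + 1) ^ 1 := (pow_one _).symm
        _ ≤ (G + 1) ^ 3 := Nat.pow_le_pow_right (by omega) (by norm_num)
    calc 8 * (G + 1) ≤ 8 * (G + 1) ^ 3 * 1 := by omega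
      _ ≤ M := Nat.mul_le_mul_left _ h1
  obtain ⟨π, hs, hl, hc⟩ := xp_exists_good (V := V) G (by omega) (by omega)
  obtain ⟨π', Fr', h1, -, h3, h4⟩ := xp_process (k := 64) (V := V) G M (by simpa using hn1) M π ∅
    hc le_rfl (by simp)
  refine ⟨π', h1, ?_⟩
  intro W hW
  have hout := h4 W
  have hN := xp_card_N_sdiff_le π W
  simp only [sdiff_empty, card_empty, Nat.zero_add] at hout h3
  rcases Nat.eq_zero_or_pos W.card with h0 | hpos
  · omega
  by_cases hsm : 16 * W.card ≤ Fintype.card V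
  · have : ¬ (xp_N π W \ W).card < 3 * W.card := by
      intro h
      apply hs
      simp only [xp_badSmall, mem_filter, mem_univ, true_and]
      exact ⟨W, hpos, hsm, h⟩
    have h5 : (W ∩ Fr').card ≤ W.card := card_le_card inter_subset_left
    omega
  · have : ¬ 4 * (xp_N π W \ W).card < W.card := by
      intro h
      apply hl
      simp only [xp_badLarge, mem_filter, mem_univ, true_and]
      exact ⟨W, by omega, hW, h⟩
    have h5 : (W ∩ Fr').card ≤ Fr'.card := card_le_card inter_subset_right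
    omega

theorem xp_arith (G : ℕ) :
    2 * ((4 + 8 * (G + 1) ^ 3 * 128 ^ (G + 1)) * (128 ^ (G + 1) * (G + 2)) +
      2 * (8 * (G + 1) ^ 3 * 128 ^ (G + 1))) < 128 ^ (4 * G + 5) ∧
    256 * (8 * (G + 1) ^ 3 * 128 ^ (G + 1)) ≤ 128 ^ (4 * G + 5) := by
  set b := 128 ^ (G + 1) with hb
  have hn : 128 ^ (4 * G + 5) = 128 * b ^ 4 := by
    rw [hb, ← pow_mul, ← pow_succ']; ring_nf
  have h2 : G + 1 < 2 ^ (G + 1) := Nat.lt_two_pow_self
  have hc : (G + 1) ^ 3 ≤ b := by
    calc (G + 1) ^ 3 ≤ (2 ^ (G + 1)) ^ 3 := Nat.pow_le_pow_left h2.le 3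
      _ = 8 ^ (G + 1) := by rw [← pow_mul, mul_comm, pow_mul]; norm_num
      _ ≤ b := Nat.pow_le_pow_left (by norm_num) _
  have hg : G + 2 ≤ b := by
    calc G + 2 ≤ 2 ^ (G + 1) := h2
      _ ≤ b := Nat.pow_le_pow_left (by norm_num) _
  have hb1 : 128 ≤ b := by
    calc 128 = 128 ^ 1 := by norm_num
      _ ≤ b := Nat.pow_le_pow_right (by norm_num) (by omega)
  rw [hn]
  generalize (G + 1) ^ 3 = c at hc
  generalize G + 2 = e at hg
  have hM : 8 * c * b ≤ 8 * b * b := by
    apply Nat.mul_le_mul_right; omega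
  constructor
  · have t1 : (4 + 8 * c * b) * (b * e) ≤ (4 + 8 * b * b) * (b * b) :=
      Nat.mul_le_mul (by omega) (Nat.mul_le_mul_left _ hg)
    have t2 : 4 ≤ b * b := by nlinarith
    have t3 : (4 + 8 * b * b) * (b * b) ≤ 9 * b ^ 4 := by nlinarith
    have t4 : 8 * b * b ≤ b ^ 4 := by nlinarith [Nat.mul_le_mul hb1 hb1, Nat.zero_le (b * b)]
    have t5 : 0 < b ^ 4 := by positivity
    omega
  · have t4 : 8 * b * b ≤ b ^ 4 / 1 := by
      simp only [Nat.div_one]
      nlinarith [Nat.mul_le_mul hb1 hb1, Nat.zero_le (b * b)]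
    have t6 : 256 * (8 * b * b) ≤ 128 * b ^ 4 := by
      have : 16 * (b * b) ≤ (b * b) * (b * b) := by
        have : 16 ≤ b * b := by nlinarith
        nlinarith [Nat.zero_le (b * b)]
      nlinarith
    omega

/-- **Existence of regular expanders of logarithmic girth** (permutation form). -/
theorem xp_exists (G : ℕ) :
    ∃ π : Fin 64 → Perm (Fin (128 ^ (4 * G + 5))),
      (∀ (W : ℕ → Letter 64) (l : ℕ) (z : Fin (128 ^ (4 * G + 5))), 1 ≤ l → l ≤ G + 1 →
        xp_Red W l → xp_traj π W z l ≠ z) ∧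
      ∀ W : Finset (Fin (128 ^ (4 * G + 5))), 2 * W.card ≤ 128 ^ (4 * G + 5) →
        W.card ≤ 8 * xp_out π W := by
  obtain ⟨h1, h2⟩ := xp_arith G
  obtain ⟨π, hS, hexp⟩ := xp_exists_of_large (V := Fin (128 ^ (4 * G + 5))) G
    (by simpa using h1) (by simpa using h2)
  refine ⟨π, ?_, by simpa using hexp⟩
  intro W l z hl hlG hred hcl
  obtain ⟨q, hq, -⟩ := xp_exists_mem_S π G W z hl hlG hred hcl
  rw [hS] at hq
  simp at hq

end Claimed.Agent.R300.Xp
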