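import Claimed.Agent.R300.XpBasic

/-!
# E3: switching away a short cycle

`π i` is replaced by `π i * swap u x`.  If `x` and `y = π i x` are far from `u`, `v = π i u` and lie
on no short reduced closed walk, then no short cyclically reduced closed walk of the new system
uses one of the two new slots.
-/

namespace Claimed.Agent.R300.Xp

open Equiv Finset

set_option linter.unusedSectionVars false

variable {k : ℕ} {V : Type*} [DecidableEq V]

/-- the switched system -/
def xp_sw (π : Fin k → Perm V) (i : Fin k) (u x : V) : Fin k → Perm V :=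
  Function.update π i (π i * swap u x)

/-- the step with letter `a` at the point `p` uses a switched slot -/
def xp_NS (π : Fin k → Perm V) (i : Fin k) (u x : V) (a : Letter k) (p : V) : Prop :=
  (a = (i, true) ∧ (p = u ∨ p = x)) ∨ (a = (i, false) ∧ (p = π i u ∨ p = π i x))

theorem xp_sw_true_u (π : Fin k → Perm V) (i : Fin k) (u x : V) :
    xp_act (xp_sw π i u x) (i, true) u = π i x := by
  simp [xp_sw]

theorem xp_sw_true_x (π : Fin k → Perm V) (i : Fin k) (u x : V) :
    xp_act (xp_sw π i u x) (i, true) x = π i u := by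
  simp [xp_sw]

theorem xp_sw_false_y (π : Fin k → Perm V) (i : Fin k) (u x : V) :
    xp_act (xp_sw π i u x) (i, false) (π i x) = u := by
  simp [xp_sw]

theorem xp_sw_false_v (π : Fin k → Perm V) (i : Fin k) (u x : V) :
    xp_act (xp_sw π i u x) (i, false) (π i u) = x := by
  simp [xp_sw]

theorem xp_sw_of_not_NS (π : Fin k → Perm V) (i : Fin k) (u x : V) (a : Letter k) (p : V)
    (h : ¬ xp_NS π i u x a p) : xp_act (xp_sw π i u x) a p = xp_act π a p := by
  obtain ⟨j, b⟩ := a
  by_cases hj : j = i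
  · subst hj
    cases b
    · have h1 : p ≠ π j u ∧ p ≠ π j x := by
        constructor
        · intro e; exact h (Or.inr ⟨rfl, Or.inl e⟩)
        · intro e; exact h (Or.inr ⟨rfl, Or.inr e⟩)
      simp only [xp_act_false, xp_sw, Function.update_self, mul_inv_rev, swap_inv, Perm.mul_apply]
      apply swap_apply_of_ne_of_ne
      · intro e; apply h1.1; rw [← e]; simp
      · intro e; apply h1.2; rw [← e]; simp
    · have h1 : p ≠ u ∧ p ≠ x := by
        constructor
        · intro e; exact h (Or.inl ⟨rfl, Or.inl e⟩)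
        · intro e; exact h (Or.inl ⟨rfl, Or.inr e⟩)
      simp only [xp_act_true, xp_sw, Function.update_self, Perm.mul_apply]
      rw [swap_apply_of_ne_of_ne h1.1 h1.2]
  · simp [xp_act, xp_sw, Function.update_of_ne hj]

/-- hypotheses on the switching data, `g` = maximal length of a short walk -/
structure xp_SwHyp (π : Fin k → Perm V) (i : Fin k) (u x : V) (g : ℕ) : Prop where
  far_ux : ∀ W j, j ≤ g → xp_traj π W u j ≠ x
  far_uy : ∀ W j, j ≤ g → xp_traj π W u j ≠ π i x
  far_vx : ∀ W j, j ≤ g → xp_traj π W (π i u) j ≠ x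
  far_vy : ∀ W j, j ≤ g → xp_traj π W (π i u) j ≠ π i x
  far_xu : ∀ W j, j ≤ g → xp_traj π W x j ≠ u
  far_xv : ∀ W j, j ≤ g → xp_traj π W x j ≠ π i u
  far_yu : ∀ W j, j ≤ g → xp_traj π W (π i x) j ≠ u
  far_yv : ∀ W j, j ≤ g → xp_traj π W (π i x) j ≠ π i u
  nocyc_x : ∀ W l, 1 ≤ l → l ≤ g → xp_Red W l → xp_traj π W x l ≠ x
  nocyc_y : ∀ W l, 1 ≤ l → l ≤ g → xp_Red W l → xp_traj π W (π i x) l ≠ π i x

section main

variable (π : Fin k → Perm V) (i : Fin k) (u x : V) (W : ℕ → Letter k) (z : V)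

/-- a stretch without switched slots is also a walk of the old system -/
theorem xp_segment {a b : ℕ}
    (h : ∀ c, a ≤ c → c < b → ¬ xp_NS π i u x (W c) (xp_traj (xp_sw π i u x) W z c))
    {m : ℕ} (hm : a + m ≤ b) :
    xp_traj π (fun j => W (a + j)) (xp_traj (xp_sw π i u x) W z a) m =
      xp_traj (xp_sw π i u x) W z (a + m) := by
  rw [xp_traj_add]
  apply xp_traj_eq_of_agree
  intro j hj
  rw [← xp_traj_add]
  exact (xp_sw_of_not_NS π i u x _ _ (h (a + j) (by omega) (by omega))).symm

theorem xp_next {l : ℕ} (hl : 1 ≤ l) (hW : ∀ j, W (j + l) = W j)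
    (hz : xp_traj (xp_sw π i u x) W z l = z) {j : ℕ}
    (hj : xp_NS π i u x (W j) (xp_traj (xp_sw π i u x) W z j)) :
    ∃ b, j + 1 ≤ b ∧ b ≤ j + l ∧ xp_NS π i u x (W b) (xp_traj (xp_sw π i u x) W z b) ∧
      ∀ c, j + 1 ≤ c → c < b → ¬ xp_NS π i u x (W c) (xp_traj (xp_sw π i u x) W z c) := by
  classical
  have hex : ∃ b, j + 1 ≤ b ∧ xp_NS π i u x (W b) (xp_traj (xp_sw π i u x) W z b) := by
    refine ⟨j + l, by omega, ?_⟩
    rw [hW, xp_traj_periodic _ W z hW hz]
    exact hj
  refine ⟨Nat.find hex, (Nat.find_spec hex).1, ?_, (Nat.find_spec hex).2, ?_⟩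
  · apply Nat.find_min'
    refine ⟨by omega, ?_⟩
    rw [hW, xp_traj_periodic _ W z hW hz]
    exact hj
  · intro c hc1 hc2 hc3
    exact Nat.find_min hex hc2 ⟨hc1, hc3⟩

/-- **Main switching lemma**: a short cyclically reduced closed walk of the new system uses no
switched slot. -/
theorem xp_no_NS {g l : ℕ} (H : xp_SwHyp π i u x g) (hl : 1 ≤ l) (hlg : l ≤ g)
    (hW : ∀ j, W (j + l) = W j) (hred : xp_CycRed W)
    (hz : xp_traj (xp_sw π i u x) W z l = z) (j : ℕ) :
    ¬ xp_NS π i u x (W j) (xp_traj (xp_sw π i u x) W z j) := by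
  intro hj
  set T := xp_traj (xp_sw π i u x) W z with hT
  -- Step B: a switched step arriving on the far side is impossible
  have stepB : ∀ j1, (W j1 = (i, true) ∧ T (j1 + 1) = π i x) ∨
      (W j1 = (i, false) ∧ T (j1 + 1) = x) → xp_NS π i u x (W j1) (T j1) → False := by
    intro j1 hcase hNS
    obtain ⟨b, hb1, hb2, hbNS, hbmin⟩ := xp_next π i u x W z hl hW hz hNS
    obtain ⟨m, rfl⟩ : ∃ m, b = j1 + 1 + m := ⟨b - (j1 + 1), by omega⟩
    have hseg := xp_segment π i u x W z hbmin (m := m) le_rfl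
    rw [← hT] at hseg
    have hredS : ∀ l', xp_Red (fun j => W (j1 + 1 + j)) l' := fun l' => (hred.shift (j1 + 1)).red l'
    rcases hbNS with ⟨hWb, hTb | hTb⟩ | ⟨hWb, hTb | hTb⟩
    · -- arrives at u
      rw [← hT] at hTb
      rw [hTb] at hseg
      rcases hcase with ⟨_, hp⟩ | ⟨_, hp⟩
      · rw [hp] at hseg; exact H.far_yu _ m (by omega) hseg
      · rw [hp] at hseg; exact H.far_xu _ m (by omega) hseg
    · -- arrives at x, next letter (i,true)
      rw [← hT] at hTb
      rcases hcase with ⟨hW1, hp⟩ | ⟨hW1, hp⟩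
      · -- from y to x, then the old slot x -> y
        have : xp_traj π (fun j => W (j1 + 1 + j)) (π i x) (m + 1) = π i x := by
          rw [hp] at hseg
          rw [xp_traj_succ, hseg, hTb, hWb]; rfl
        exact H.nocyc_y _ (m + 1) (by omega) (by omega) (hredS _) this
      · rw [hTb, hp] at hseg
        rcases Nat.eq_zero_or_pos m with rfl | hm
        · apply hred j1
          rw [show j1 + 1 = j1 + 1 + 0 from rfl, hWb, hW1]; rfl
        · exact H.nocyc_x _ m hm (by omega) (hredS _) hseg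
    · -- arrives at v
      rw [← hT] at hTb
      rw [hTb] at hseg
      rcases hcase with ⟨_, hp⟩ | ⟨_, hp⟩
      · rw [hp] at hseg; exact H.far_yv _ m (by omega) hseg
      · rw [hp] at hseg; exact H.far_xv _ m (by omega) hseg
    · -- arrives at y, next letter (i,false)
      rw [← hT] at hTb
      rcases hcase with ⟨hW1, hp⟩ | ⟨hW1, hp⟩
      · rw [hTb, hp] at hseg
        rcases Nat.eq_zero_or_pos m with rfl | hm
        · apply hred j1
          rw [show j1 + 1 = j1 + 1 + 0 from rfl, hWb, hW1]; rfl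
        · exact H.nocyc_y _ m hm (by omega) (hredS _) hseg
      · have : xp_traj π (fun j => W (j1 + 1 + j)) x (m + 1) = x := by
          rw [hp] at hseg
          rw [xp_traj_succ, hseg, hTb, hWb]; simp
        exact H.nocyc_x _ (m + 1) (by omega) (by omega) (hredS _) this
  -- Step A
  have stepA : ∀ j0, (T (j0 + 1) = u ∨ T (j0 + 1) = π i u) → xp_NS π i u x (W j0) (T j0) →
      False := by
    intro j0 hcase hNS
    obtain ⟨b, hb1, hb2, hbNS, hbmin⟩ := xp_next π i u x W z hl hW hz hNS
    obtain ⟨m, rfl⟩ : ∃ m, b = j0 + 1 + m := ⟨b - (j0 + 1), by omega⟩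
    have hseg := xp_segment π i u x W z hbmin (m := m) le_rfl
    rw [← hT] at hseg
    have hbNS' := hbNS
    rcases hbNS with ⟨hWb, hTb | hTb⟩ | ⟨hWb, hTb | hTb⟩
    · apply stepB (j0 + 1 + m) _ hbNS'
      left
      refine ⟨hWb, ?_⟩
      rw [hT, xp_traj_succ, hTb, hWb, xp_sw_true_u]
    · rw [← hT] at hTb
      rw [hTb] at hseg
      rcases hcase with hp | hp
      · rw [hp] at hseg; exact H.far_ux _ m (by omega) hseg
      · rw [hp] at hseg; exact H.far_vx _ m (by omega) hseg
    · apply stepB (j0 + 1 + m) _ hbNS'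
      right
      refine ⟨hWb, ?_⟩
      rw [hT, xp_traj_succ, hTb, hWb, xp_sw_false_v]
    · rw [← hT] at hTb
      rw [hTb] at hseg
      rcases hcase with hp | hp
      · rw [hp] at hseg; exact H.far_uy _ m (by omega) hseg
      · rw [hp] at hseg; exact H.far_vy _ m (by omega) hseg
  have hj' := hj
  rcases hj with ⟨hWj, hTj | hTj⟩ | ⟨hWj, hTj | hTj⟩
  · apply stepB j _ hj'
    left
    refine ⟨hWj, ?_⟩
    rw [hT, xp_traj_succ, ← hT, hTj, hWj, xp_sw_true_u]
  · apply stepA j _ hj'
    right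
    rw [hT, xp_traj_succ, ← hT, hTj, hWj, xp_sw_true_x]
  · apply stepB j _ hj'
    right
    refine ⟨hWj, ?_⟩
    rw [hT, xp_traj_succ, ← hT, hTj, hWj, xp_sw_false_v]
  · apply stepA j _ hj'
    left
    rw [hT, xp_traj_succ, ← hT, hTj, hWj, xp_sw_false_y]

/-- consequently it is a closed walk of the old system -/
theorem xp_closed_old {g l : ℕ} (H : xp_SwHyp π i u x g) (hl : 1 ≤ l) (hlg : l ≤ g)
    (hW : ∀ j, W (j + l) = W j) (hred : xp_CycRed W)
    (hz : xp_traj (xp_sw π i u x) W z l = z) : xp_traj π W z l = z := by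
  have h := xp_segment π i u x W z (a := 0) (b := l)
    (fun c _ _ => xp_no_NS π i u x W z H hl hlg hW hred hz c) (m := l) (by omega)
  simp only [Nat.zero_add, xp_traj_zero] at h
  rw [h, hz]

end main

end Claimed.Agent.R300.Xp
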